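import Vale.Agent.Lib.P154.PChain.BH.R3_0

set_option linter.all false

namespace Vale.Agent.Lib.P154.PChain.BH.S4

open Vale.Agent.Lib.P154.Chain

noncomputable def pc0 : PT := (PT.nd (nat_lit 5122962) (PT.nd (nat_lit 4842006) (PT.nd (nat_lit 4701528) (PT.nd (nat_lit 4654572) (PT.nd (nat_lit 4560972) (PT.nd (nat_lit 4560894) PT.nil (PT.lf (nat_lit 76) (nat_lit 6) (nat_lit 1) (nat_lit 3) (nat_lit 176) (nat_lit 97) (nat_lit 177))) (PT.nd (nat_lit 46800) (PT.lf (nat_lit 76) (nat_lit 6) (nat_lit 1) (nat_lit 1) (nat_lit 177) (nat_lit 97) (nat_lit 176)) (PT.lf (nat_lit 152) (nat_lit 3) (nat_lit 2) (nat_lit 1) (nat_lit 176) (nat_lit 98) (nat_lit 176)))) (PT.nd (nat_lit 46800) (PT.nd (nat_lit 78) (PT.lf (nat_lit 228) (nat_lit 6) (nat_lit 3) (nat_lit 3) (nat_lit 175) (nat_lit 99) (nat_lit 176)) (PT.lf (nat_lit 228) (nat_lit 6) (nat_lit 3) (nat_lit 1) (nat_lit 176) (nat_lit 99) (nat_lit 175))) (PT.nd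 (nat_lit 78) (PT.lf (nat_lit 304) (nat_lit 6) (nat_lit 4) (nat_lit 3) (nat_lit 174) (nat_lit 100) (nat_lit 176)) (PT.lf (nat_lit 380) (nat_lit 3) (nat_lit 5) (nat_lit 1) (nat_lit 175) (nat_lit 100) (nat_lit 175))))) (PT.nd (nat_lit 93522) (PT.nd (nat_lit 46722) (PT.lf (nat_lit 304) (nat_lit 6) (nat_lit 4) (nat_lit 1) (nat_lit 176) (nat_lit 100) (nat_lit 174)) (PT.nd (nat_lit 78) (PT.lf (nat_lit 456) (nat_lit 6) (nat_lit 6) (nat_lit 3) (nat_lit 174) (nat_lit 101) (nat_lit 175)) (PT.lf (nat_lit 456) (nat_lit 6) (nat_lit 6) (nat_lit 1) (nat_lit 175) (nat_lit 101) (nat_lit 174)))) (PT.nd (nat_lit 156) (PT.nd (nat_lit 78) (PT.lf (nat_lit 532) (nat_lit 6) (nat_lit 7) (nat_lit 3) (nat_lit 173) (nat_lit 102) (nat_lit 175)) (PT.lf (nat_lit 608) (nat_lit 3) (nat_lit 8) (nat_lit 1) (nat_lit 174) (nat_lit 102) (nat_lit 174))) (PT.nd (nat_lit 46722) (PT.lf (nat_lit 532) (nat_lit 6) (nat_lit 7) (nat_lit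 1) (nat_lit 175) (nat_lit 102) (nat_lit 173)) (PT.lf (nat_lit 684) (nat_lit 6) (nat_lit 9) (nat_lit 3) (nat_lit 173) (nat_lit 103) (nat_lit 174)))))) (PT.nd (nat_lit 140478) (PT.nd (nat_lit 46878) (PT.nd (nat_lit 46722) (PT.lf (nat_lit 684) (nat_lit 6) (nat_lit 9) (nat_lit 1) (nat_lit 174) (nat_lit 103) (nat_lit 173)) (PT.nd (nat_lit 78) (PT.lf (nat_lit 760) (nat_lit 6) (nat_lit 10) (nat_lit 3) (nat_lit 172) (nat_lit 104) (nat_lit 174)) (PT.lf (nat_lit 836) (nat_lit 3) (nat_lit 11) (nat_lit 1) (nat_lit 173) (nat_lit 104) (nat_lit 173)))) (PT.nd (nat_lit 46800) (PT.nd (nat_lit 46722) (PT.lf (nat_lit 760) (nat_lit 6) (nat_lit 10) (nat_lit 1) (nat_lit 174) (nat_lit 104) (nat_lit 172)) (PT.lf (nat_lit 912) (nat_lit 6) (nat_lit 12) (nat_lit 3) (nat_lit 172) (nat_lit 105) (nat_lit 173))) (PT.nd (nat_lit 46722) (PT.lf (nat_lit 912) (nat_lit 6) (nat_lit 12) (nat_lit 1) (nat_lit 173) (nat_lit 105)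 (nat_lit 172)) (PT.lf (nat_lit 988) (nat_lit 6) (nat_lit 13) (nat_lit 3) (nat_lit 171) (nat_lit 106) (nat_lit 173))))) (PT.nd (nat_lit 46878) (PT.nd (nat_lit 78) (PT.lf (nat_lit 1064) (nat_lit 3) (nat_lit 14) (nat_lit 1) (nat_lit 172) (nat_lit 106) (nat_lit 172)) (PT.nd (nat_lit 46722) (PT.lf (nat_lit 988) (nat_lit 6) (nat_lit 13) (nat_lit 1) (nat_lit 173) (nat_lit 106) (nat_lit 171)) (PT.lf (nat_lit 1140) (nat_lit 6) (nat_lit 15) (nat_lit 3) (nat_lit 171) (nat_lit 107) (nat_lit 172)))) (PT.nd (nat_lit 46800) (PT.nd (nat_lit 46722) (PT.lf (nat_lit 1140) (nat_lit 6) (nat_lit 15) (nat_lit 1) (nat_lit 172) (nat_lit 107) (nat_lit 171)) (PT.lf (nat_lit 1216) (nat_lit 6) (nat_lit 16) (nat_lit 3) (nat_lit 170) (nat_lit 108) (nat_lit 172))) (PT.nd (nat_lit 78) (PT.lf (nat_lit 1292) (nat_lit 3) (nat_lit 17) (nat_lit 1) (nat_lit 171) (nat_lit 108) (nat_lit 171)) (PT.lf (nat_lit 1216) (nat_lit 6)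 (nat_lit 16) (nat_lit 1) (nat_lit 172) (nat_lit 108) (nat_lit 170))))))) (PT.nd (nat_lit 234312) (PT.nd (nat_lit 140478) (PT.nd (nat_lit 46878) (PT.nd (nat_lit 78) (PT.lf (nat_lit 1368) (nat_lit 6) (nat_lit 18) (nat_lit 3) (nat_lit 170) (nat_lit 109) (nat_lit 171)) (PT.nd (nat_lit 46722) (PT.lf (nat_lit 1368) (nat_lit 6) (nat_lit 18) (nat_lit 1) (nat_lit 171) (nat_lit 109) (nat_lit 170)) (PT.lf (nat_lit 1444) (nat_lit 6) (nat_lit 19) (nat_lit 3) (nat_lit 169) (nat_lit 110) (nat_lit 171)))) (PT.nd (nat_lit 46800) (PT.nd (nat_lit 78) (PT.lf (nat_lit 1520) (nat_lit 3) (nat_lit 20) (nat_lit 1) (nat_lit 170) (nat_lit 110) (nat_lit 170)) (PT.lf (nat_lit 1444) (nat_lit 6) (nat_lit 19) (nat_lit 1) (nat_lit 171) (nat_lit 110) (nat_lit 169))) (PT.nd (nat_lit 78) (PT.lf (nat_lit 1596) (nat_lit 6) (nat_lit 21) (nat_lit 3) (nat_lit 169) (nat_lit 111) (nat_lit 170)) (PT.lf (nat_lit 1596) (nat_lit 6)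 (nat_lit 21) (nat_lit 1) (nat_lit 170) (nat_lit 111) (nat_lit 169))))) (PT.nd (nat_lit 46878) (PT.nd (nat_lit 78) (PT.lf (nat_lit 1672) (nat_lit 6) (nat_lit 22) (nat_lit 3) (nat_lit 168) (nat_lit 112) (nat_lit 170)) (PT.nd (nat_lit 78) (PT.lf (nat_lit 1748) (nat_lit 3) (nat_lit 23) (nat_lit 1) (nat_lit 169) (nat_lit 112) (nat_lit 169)) (PT.lf (nat_lit 1672) (nat_lit 6) (nat_lit 22) (nat_lit 1) (nat_lit 170) (nat_lit 112) (nat_lit 168)))) (PT.nd (nat_lit 46800) (PT.nd (nat_lit 78) (PT.lf (nat_lit 1824) (nat_lit 6) (nat_lit 24) (nat_lit 3) (nat_lit 168) (nat_lit 113) (nat_lit 169)) (PT.lf (nat_lit 1824) (nat_lit 6) (nat_lit 24) (nat_lit 1) (nat_lit 169) (nat_lit 113) (nat_lit 168))) (PT.nd (nat_lit 78) (PT.lf (nat_lit 1900) (nat_lit 6) (nat_lit 25) (nat_lit 3) (nat_lit 167) (nat_lit 114) (nat_lit 169)) (PT.lf (nat_lit 1976) (nat_lit 3) (nat_lit 26) (nat_lit 1) (nat_lit 168) (nat_lit 114)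 (nat_lit 168)))))) (PT.nd (nat_lit 93678) (PT.nd (nat_lit 46800) (PT.nd (nat_lit 46644) (PT.lf (nat_lit 1900) (nat_lit 6) (nat_lit 25) (nat_lit 1) (nat_lit 169) (nat_lit 114) (nat_lit 167)) (PT.nd (nat_lit 78) (PT.lf (nat_lit 2052) (nat_lit 6) (nat_lit 27) (nat_lit 3) (nat_lit 166) (nat_lit 115) (nat_lit 169)) (PT.lf (nat_lit 2128) (nat_lit 6) (nat_lit 28) (nat_lit 3) (nat_lit 167) (nat_lit 115) (nat_lit 168)))) (PT.nd (nat_lit 46722) (PT.nd (nat_lit 78) (PT.lf (nat_lit 2128) (nat_lit 6) (nat_lit 28) (nat_lit 1) (nat_lit 168) (nat_lit 115) (nat_lit 167)) (PT.lf (nat_lit 2052) (nat_lit 6) (nat_lit 27) (nat_lit 1) (nat_lit 169) (nat_lit 115) (nat_lit 166))) (PT.nd (nat_lit 78) (PT.lf (nat_lit 2204) (nat_lit 6) (nat_lit 29) (nat_lit 3) (nat_lit 166) (nat_lit 116) (nat_lit 168)) (PT.lf (nat_lit 2280) (nat_lit 3) (nat_lit 30) (nat_lit 1) (nat_lit 167) (nat_lit 116) (nat_lit 167))))) (PT.nd (nat_lit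 46800) (PT.nd (nat_lit 46644) (PT.lf (nat_lit 2204) (nat_lit 6) (nat_lit 29) (nat_lit 1) (nat_lit 168) (nat_lit 116) (nat_lit 166)) (PT.nd (nat_lit 78) (PT.lf (nat_lit 2356) (nat_lit 6) (nat_lit 31) (nat_lit 3) (nat_lit 165) (nat_lit 117) (nat_lit 168)) (PT.lf (nat_lit 2432) (nat_lit 6) (nat_lit 32) (nat_lit 3) (nat_lit 166) (nat_lit 117) (nat_lit 167)))) (PT.nd (nat_lit 46722) (PT.nd (nat_lit 78) (PT.lf (nat_lit 2432) (nat_lit 6) (nat_lit 32) (nat_lit 1) (nat_lit 167) (nat_lit 117) (nat_lit 166)) (PT.lf (nat_lit 2356) (nat_lit 6) (nat_lit 31) (nat_lit 1) (nat_lit 168) (nat_lit 117) (nat_lit 165))) (PT.nd (nat_lit 78) (PT.lf (nat_lit 2508) (nat_lit 6) (nat_lit 33) (nat_lit 3) (nat_lit 165) (nat_lit 118) (nat_lit 167)) (PT.lf (nat_lit 2584) (nat_lit 3) (nat_lit 34) (nat_lit 1) (nat_lit 166) (nat_lit 118) (nat_lit 166))))))))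
noncomputable def pc1 : PT := (PT.nd (nat_lit 327834) (PT.nd (nat_lit 187278) (PT.nd (nat_lit 93678) (PT.nd (nat_lit 46800) (PT.nd (nat_lit 46644) (PT.lf (nat_lit 2508) (nat_lit 6) (nat_lit 33) (nat_lit 1) (nat_lit 167) (nat_lit 118) (nat_lit 165)) (PT.nd (nat_lit 78) (PT.lf (nat_lit 2660) (nat_lit 6) (nat_lit 35) (nat_lit 3) (nat_lit 164) (nat_lit 119) (nat_lit 167)) (PT.lf (nat_lit 2736) (nat_lit 6) (nat_lit 36) (nat_lit 3) (nat_lit 165) (nat_lit 119) (nat_lit 166)))) (PT.nd (nat_lit 46722) (PT.nd (nat_lit 78) (PT.lf (nat_lit 2736) (nat_lit 6) (nat_lit 36) (nat_lit 1) (nat_lit 166) (nat_lit 119) (nat_lit 165)) (PT.lf (nat_lit 2660) (nat_lit 6) (nat_lit 35) (nat_lit 1) (nat_lit 167) (nat_lit 119) (nat_lit 164))) (PT.nd (nat_lit 78) (PT.lf (nat_lit 2812) (nat_lit 6) (nat_lit 37) (nat_lit 3) (nat_lit 164) (nat_lit 120) (nat_lit 166)) (PT.lf (nat_lit 2888) (nat_lit 3) (nat_lit 38) (nat_lit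 1) (nat_lit 165) (nat_lit 120) (nat_lit 165))))) (PT.nd (nat_lit 46800) (PT.nd (nat_lit 46644) (PT.lf (nat_lit 2812) (nat_lit 6) (nat_lit 37) (nat_lit 1) (nat_lit 166) (nat_lit 120) (nat_lit 164)) (PT.nd (nat_lit 78) (PT.lf (nat_lit 2964) (nat_lit 6) (nat_lit 39) (nat_lit 3) (nat_lit 163) (nat_lit 121) (nat_lit 166)) (PT.lf (nat_lit 3040) (nat_lit 6) (nat_lit 40) (nat_lit 3) (nat_lit 164) (nat_lit 121) (nat_lit 165)))) (PT.nd (nat_lit 46644) (PT.nd (nat_lit 78) (PT.lf (nat_lit 3040) (nat_lit 6) (nat_lit 40) (nat_lit 1) (nat_lit 165) (nat_lit 121) (nat_lit 164)) (PT.lf (nat_lit 2964) (nat_lit 6) (nat_lit 39) (nat_lit 1) (nat_lit 166) (nat_lit 121) (nat_lit 163))) (PT.nd (nat_lit 78) (PT.lf (nat_lit 3116) (nat_lit 6) (nat_lit 41) (nat_lit 3) (nat_lit 162) (nat_lit 122) (nat_lit 166)) (PT.lf (nat_lit 3192) (nat_lit 6) (nat_lit 42) (nat_lit 3) (nat_lit 163) (nat_lit 122) (nat_lit 165))))))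 (PT.nd (nat_lit 93522) (PT.nd (nat_lit 46722) (PT.nd (nat_lit 78) (PT.lf (nat_lit 3268) (nat_lit 3) (nat_lit 43) (nat_lit 1) (nat_lit 164) (nat_lit 122) (nat_lit 164)) (PT.nd (nat_lit 78) (PT.lf (nat_lit 3192) (nat_lit 6) (nat_lit 42) (nat_lit 1) (nat_lit 165) (nat_lit 122) (nat_lit 163)) (PT.lf (nat_lit 3116) (nat_lit 6) (nat_lit 41) (nat_lit 1) (nat_lit 166) (nat_lit 122) (nat_lit 162)))) (PT.nd (nat_lit 156) (PT.nd (nat_lit 78) (PT.lf (nat_lit 3344) (nat_lit 6) (nat_lit 44) (nat_lit 3) (nat_lit 162) (nat_lit 123) (nat_lit 165)) (PT.lf (nat_lit 3420) (nat_lit 6) (nat_lit 45) (nat_lit 3) (nat_lit 163) (nat_lit 123) (nat_lit 164))) (PT.nd (nat_lit 78) (PT.lf (nat_lit 3420) (nat_lit 6) (nat_lit 45) (nat_lit 1) (nat_lit 164) (nat_lit 123) (nat_lit 163)) (PT.lf (nat_lit 3344) (nat_lit 6) (nat_lit 44) (nat_lit 1) (nat_lit 165) (nat_lit 123) (nat_lit 162))))) (PT.nd (nat_lit 234) (PT.nd (nat_lit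 78) (PT.lf (nat_lit 3496) (nat_lit 6) (nat_lit 46) (nat_lit 3) (nat_lit 161) (nat_lit 124) (nat_lit 165)) (PT.nd (nat_lit 78) (PT.lf (nat_lit 3572) (nat_lit 6) (nat_lit 47) (nat_lit 3) (nat_lit 162) (nat_lit 124) (nat_lit 164)) (PT.lf (nat_lit 3648) (nat_lit 3) (nat_lit 48) (nat_lit 1) (nat_lit 163) (nat_lit 124) (nat_lit 163)))) (PT.nd (nat_lit 46644) (PT.nd (nat_lit 78) (PT.lf (nat_lit 3572) (nat_lit 6) (nat_lit 47) (nat_lit 1) (nat_lit 164) (nat_lit 124) (nat_lit 162)) (PT.lf (nat_lit 3496) (nat_lit 6) (nat_lit 46) (nat_lit 1) (nat_lit 165) (nat_lit 124) (nat_lit 161))) (PT.nd (nat_lit 78) (PT.lf (nat_lit 3724) (nat_lit 6) (nat_lit 49) (nat_lit 3) (nat_lit 161) (nat_lit 125) (nat_lit 164)) (PT.lf (nat_lit 3800) (nat_lit 6) (nat_lit 50) (nat_lit 3) (nat_lit 162) (nat_lit 125) (nat_lit 163))))))) (PT.nd (nat_lit 140400) (PT.nd (nat_lit 93444) (PT.nd (nat_lit 46722) (PT.nd (nat_lit 78)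 (PT.lf (nat_lit 3800) (nat_lit 6) (nat_lit 50) (nat_lit 1) (nat_lit 163) (nat_lit 125) (nat_lit 162)) (PT.nd (nat_lit 46566) (PT.lf (nat_lit 3724) (nat_lit 6) (nat_lit 49) (nat_lit 1) (nat_lit 164) (nat_lit 125) (nat_lit 161)) (PT.lf (nat_lit 3876) (nat_lit 6) (nat_lit 51) (nat_lit 3) (nat_lit 160) (nat_lit 126) (nat_lit 164)))) (PT.nd (nat_lit 156) (PT.nd (nat_lit 78) (PT.lf (nat_lit 3952) (nat_lit 6) (nat_lit 52) (nat_lit 3) (nat_lit 161) (nat_lit 126) (nat_lit 163)) (PT.lf (nat_lit 4028) (nat_lit 3) (nat_lit 53) (nat_lit 1) (nat_lit 162) (nat_lit 126) (nat_lit 162))) (PT.nd (nat_lit 78) (PT.lf (nat_lit 3952) (nat_lit 6) (nat_lit 52) (nat_lit 1) (nat_lit 163) (nat_lit 126) (nat_lit 161)) (PT.lf (nat_lit 3876) (nat_lit 6) (nat_lit 51) (nat_lit 1) (nat_lit 164) (nat_lit 126) (nat_lit 160))))) (PT.nd (nat_lit 234) (PT.nd (nat_lit 78) (PT.lf (nat_lit 4104) (nat_lit 6) (nat_lit 54) (nat_lit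 3) (nat_lit 159) (nat_lit 127) (nat_lit 164)) (PT.nd (nat_lit 78) (PT.lf (nat_lit 4180) (nat_lit 6) (nat_lit 55) (nat_lit 3) (nat_lit 160) (nat_lit 127) (nat_lit 163)) (PT.lf (nat_lit 4256) (nat_lit 6) (nat_lit 56) (nat_lit 3) (nat_lit 161) (nat_lit 127) (nat_lit 162)))) (PT.nd (nat_lit 156) (PT.nd (nat_lit 78) (PT.lf (nat_lit 4256) (nat_lit 6) (nat_lit 56) (nat_lit 1) (nat_lit 162) (nat_lit 127) (nat_lit 161)) (PT.lf (nat_lit 4180) (nat_lit 6) (nat_lit 55) (nat_lit 1) (nat_lit 163) (nat_lit 127) (nat_lit 160))) (PT.nd (nat_lit 46488) (PT.lf (nat_lit 4104) (nat_lit 6) (nat_lit 54) (nat_lit 1) (nat_lit 164) (nat_lit 127) (nat_lit 159)) (PT.lf (nat_lit 4332) (nat_lit 6) (nat_lit 57) (nat_lit 3) (nat_lit 159) (nat_lit 128) (nat_lit 163)))))) (PT.nd (nat_lit 46956) (PT.nd (nat_lit 234) (PT.nd (nat_lit 78) (PT.lf (nat_lit 4408) (nat_lit 6) (nat_lit 58) (nat_lit 3) (nat_lit 160) (nat_lit 128)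 (nat_lit 162)) (PT.nd (nat_lit 78) (PT.lf (nat_lit 4484) (nat_lit 3) (nat_lit 59) (nat_lit 1) (nat_lit 161) (nat_lit 128) (nat_lit 161)) (PT.lf (nat_lit 4408) (nat_lit 6) (nat_lit 58) (nat_lit 1) (nat_lit 162) (nat_lit 128) (nat_lit 160)))) (PT.nd (nat_lit 46566) (PT.nd (nat_lit 46488) (PT.lf (nat_lit 4332) (nat_lit 6) (nat_lit 57) (nat_lit 1) (nat_lit 163) (nat_lit 128) (nat_lit 159)) (PT.lf (nat_lit 4560) (nat_lit 6) (nat_lit 60) (nat_lit 3) (nat_lit 158) (nat_lit 129) (nat_lit 163))) (PT.nd (nat_lit 78) (PT.lf (nat_lit 4636) (nat_lit 6) (nat_lit 61) (nat_lit 3) (nat_lit 159) (nat_lit 129) (nat_lit 162)) (PT.lf (nat_lit 4712) (nat_lit 6) (nat_lit 62) (nat_lit 3) (nat_lit 160) (nat_lit 129) (nat_lit 161))))) (PT.nd (nat_lit 46566) (PT.nd (nat_lit 78) (PT.lf (nat_lit 4712) (nat_lit 6) (nat_lit 62) (nat_lit 1) (nat_lit 161) (nat_lit 129) (nat_lit 160)) (PT.nd (nat_lit 78) (PT.lf (nat_lit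 4636) (nat_lit 6) (nat_lit 61) (nat_lit 1) (nat_lit 162) (nat_lit 129) (nat_lit 159)) (PT.lf (nat_lit 4560) (nat_lit 6) (nat_lit 60) (nat_lit 1) (nat_lit 163) (nat_lit 129) (nat_lit 158)))) (PT.nd (nat_lit 156) (PT.nd (nat_lit 78) (PT.lf (nat_lit 4788) (nat_lit 6) (nat_lit 63) (nat_lit 3) (nat_lit 157) (nat_lit 130) (nat_lit 163)) (PT.lf (nat_lit 4864) (nat_lit 6) (nat_lit 64) (nat_lit 3) (nat_lit 158) (nat_lit 130) (nat_lit 162))) (PT.nd (nat_lit 78) (PT.lf (nat_lit 4940) (nat_lit 6) (nat_lit 65) (nat_lit 3) (nat_lit 159) (nat_lit 130) (nat_lit 161)) (PT.lf (nat_lit 5016) (nat_lit 3) (nat_lit 66) (nat_lit 1) (nat_lit 160) (nat_lit 130) (nat_lit 160))))))))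
noncomputable def pc2 : PT := (PT.nd (nat_lit 187356) (PT.nd (nat_lit 93756) (PT.nd (nat_lit 46878) (PT.nd (nat_lit 46566) (PT.nd (nat_lit 78) (PT.lf (nat_lit 4940) (nat_lit 6) (nat_lit 65) (nat_lit 1) (nat_lit 161) (nat_lit 130) (nat_lit 159)) (PT.nd (nat_lit 78) (PT.lf (nat_lit 4864) (nat_lit 6) (nat_lit 64) (nat_lit 1) (nat_lit 162) (nat_lit 130) (nat_lit 158)) (PT.lf (nat_lit 4788) (nat_lit 6) (nat_lit 63) (nat_lit 1) (nat_lit 163) (nat_lit 130) (nat_lit 157)))) (PT.nd (nat_lit 156) (PT.nd (nat_lit 78) (PT.lf (nat_lit 5092) (nat_lit 6) (nat_lit 67) (nat_lit 3) (nat_lit 157) (nat_lit 131) (nat_lit 162)) (PT.lf (nat_lit 5168) (nat_lit 6) (nat_lit 68) (nat_lit 3) (nat_lit 158) (nat_lit 131) (nat_lit 161))) (PT.nd (nat_lit 78) (PT.lf (nat_lit 5244) (nat_lit 6) (nat_lit 69) (nat_lit 3) (nat_lit 159) (nat_lit 131) (nat_lit 160)) (PT.lf (nat_lit 5244) (nat_lit 6) (nat_lit 69) (nat_lit 1) (nat_lit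 160) (nat_lit 131) (nat_lit 159))))) (PT.nd (nat_lit 46566) (PT.nd (nat_lit 78) (PT.lf (nat_lit 5168) (nat_lit 6) (nat_lit 68) (nat_lit 1) (nat_lit 161) (nat_lit 131) (nat_lit 158)) (PT.nd (nat_lit 46410) (PT.lf (nat_lit 5092) (nat_lit 6) (nat_lit 67) (nat_lit 1) (nat_lit 162) (nat_lit 131) (nat_lit 157)) (PT.lf (nat_lit 5320) (nat_lit 6) (nat_lit 70) (nat_lit 3) (nat_lit 156) (nat_lit 132) (nat_lit 162)))) (PT.nd (nat_lit 156) (PT.nd (nat_lit 78) (PT.lf (nat_lit 5396) (nat_lit 6) (nat_lit 71) (nat_lit 3) (nat_lit 157) (nat_lit 132) (nat_lit 161)) (PT.lf (nat_lit 5472) (nat_lit 6) (nat_lit 72) (nat_lit 3) (nat_lit 158) (nat_lit 132) (nat_lit 160))) (PT.nd (nat_lit 78) (PT.lf (nat_lit 5548) (nat_lit 3) (nat_lit 73) (nat_lit 1) (nat_lit 159) (nat_lit 132) (nat_lit 159)) (PT.lf (nat_lit 5472) (nat_lit 6) (nat_lit 72) (nat_lit 1) (nat_lit 160) (nat_lit 132) (nat_lit 158)))))) (PT.nd (nat_lit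 46800) (PT.nd (nat_lit 46488) (PT.nd (nat_lit 78) (PT.lf (nat_lit 5396) (nat_lit 6) (nat_lit 71) (nat_lit 1) (nat_lit 161) (nat_lit 132) (nat_lit 157)) (PT.nd (nat_lit 46332) (PT.lf (nat_lit 5320) (nat_lit 6) (nat_lit 70) (nat_lit 1) (nat_lit 162) (nat_lit 132) (nat_lit 156)) (PT.lf (nat_lit 5624) (nat_lit 6) (nat_lit 74) (nat_lit 3) (nat_lit 155) (nat_lit 133) (nat_lit 162)))) (PT.nd (nat_lit 156) (PT.nd (nat_lit 78) (PT.lf (nat_lit 5700) (nat_lit 6) (nat_lit 75) (nat_lit 3) (nat_lit 156) (nat_lit 133) (nat_lit 161)) (PT.lf (nat_lit 5776) (nat_lit 6) (nat_lit 76) (nat_lit 3) (nat_lit 157) (nat_lit 133) (nat_lit 160))) (PT.nd (nat_lit 78) (PT.lf (nat_lit 5852) (nat_lit 6) (nat_lit 77) (nat_lit 3) (nat_lit 158) (nat_lit 133) (nat_lit 159)) (PT.lf (nat_lit 5852) (nat_lit 6) (nat_lit 77) (nat_lit 1) (nat_lit 159) (nat_lit 133) (nat_lit 158))))) (PT.nd (nat_lit 46488) (PT.nd (nat_lit 78) (PT.lf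 (nat_lit 5776) (nat_lit 6) (nat_lit 76) (nat_lit 1) (nat_lit 160) (nat_lit 133) (nat_lit 157)) (PT.nd (nat_lit 78) (PT.lf (nat_lit 5700) (nat_lit 6) (nat_lit 75) (nat_lit 1) (nat_lit 161) (nat_lit 133) (nat_lit 156)) (PT.lf (nat_lit 5624) (nat_lit 6) (nat_lit 74) (nat_lit 1) (nat_lit 162) (nat_lit 133) (nat_lit 155)))) (PT.nd (nat_lit 156) (PT.nd (nat_lit 78) (PT.lf (nat_lit 5928) (nat_lit 6) (nat_lit 78) (nat_lit 3) (nat_lit 155) (nat_lit 134) (nat_lit 161)) (PT.lf (nat_lit 6004) (nat_lit 6) (nat_lit 79) (nat_lit 3) (nat_lit 156) (nat_lit 134) (nat_lit 160))) (PT.nd (nat_lit 78) (PT.lf (nat_lit 6080) (nat_lit 6) (nat_lit 80) (nat_lit 3) (nat_lit 157) (nat_lit 134) (nat_lit 159)) (PT.lf (nat_lit 6156) (nat_lit 3) (nat_lit 81) (nat_lit 1) (nat_lit 158) (nat_lit 134) (nat_lit 158))))))) (PT.nd (nat_lit 93522) (PT.nd (nat_lit 46800) (PT.nd (nat_lit 46488) (PT.nd (nat_lit 78) (PT.lf (nat_lit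 6080) (nat_lit 6) (nat_lit 80) (nat_lit 1) (nat_lit 159) (nat_lit 134) (nat_lit 157)) (PT.nd (nat_lit 78) (PT.lf (nat_lit 6004) (nat_lit 6) (nat_lit 79) (nat_lit 1) (nat_lit 160) (nat_lit 134) (nat_lit 156)) (PT.lf (nat_lit 5928) (nat_lit 6) (nat_lit 78) (nat_lit 1) (nat_lit 161) (nat_lit 134) (nat_lit 155)))) (PT.nd (nat_lit 156) (PT.nd (nat_lit 78) (PT.lf (nat_lit 6232) (nat_lit 6) (nat_lit 82) (nat_lit 3) (nat_lit 154) (nat_lit 135) (nat_lit 161)) (PT.lf (nat_lit 6308) (nat_lit 6) (nat_lit 83) (nat_lit 3) (nat_lit 155) (nat_lit 135) (nat_lit 160))) (PT.nd (nat_lit 78) (PT.lf (nat_lit 6384) (nat_lit 6) (nat_lit 84) (nat_lit 3) (nat_lit 156) (nat_lit 135) (nat_lit 159)) (PT.lf (nat_lit 6460) (nat_lit 6) (nat_lit 85) (nat_lit 3) (nat_lit 157) (nat_lit 135) (nat_lit 158))))) (PT.nd (nat_lit 234) (PT.nd (nat_lit 78) (PT.lf (nat_lit 6460) (nat_lit 6) (nat_lit 85) (nat_lit 1) (nat_lit 158)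 (nat_lit 135) (nat_lit 157)) (PT.nd (nat_lit 78) (PT.lf (nat_lit 6384) (nat_lit 6) (nat_lit 84) (nat_lit 1) (nat_lit 159) (nat_lit 135) (nat_lit 156)) (PT.lf (nat_lit 6308) (nat_lit 6) (nat_lit 83) (nat_lit 1) (nat_lit 160) (nat_lit 135) (nat_lit 155)))) (PT.nd (nat_lit 46332) (PT.nd (nat_lit 46254) (PT.lf (nat_lit 6232) (nat_lit 6) (nat_lit 82) (nat_lit 1) (nat_lit 161) (nat_lit 135) (nat_lit 154)) (PT.lf (nat_lit 6536) (nat_lit 6) (nat_lit 86) (nat_lit 3) (nat_lit 153) (nat_lit 136) (nat_lit 161))) (PT.nd (nat_lit 78) (PT.lf (nat_lit 6612) (nat_lit 6) (nat_lit 87) (nat_lit 3) (nat_lit 154) (nat_lit 136) (nat_lit 160)) (PT.lf (nat_lit 6688) (nat_lit 6) (nat_lit 88) (nat_lit 3) (nat_lit 155) (nat_lit 136) (nat_lit 159)))))) (PT.nd (nat_lit 46644) (PT.nd (nat_lit 234) (PT.nd (nat_lit 78) (PT.lf (nat_lit 6764) (nat_lit 6) (nat_lit 89) (nat_lit 3) (nat_lit 156) (nat_lit 136) (nat_lit 158))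 (PT.nd (nat_lit 78) (PT.lf (nat_lit 6840) (nat_lit 3) (nat_lit 90) (nat_lit 1) (nat_lit 157) (nat_lit 136) (nat_lit 157)) (PT.lf (nat_lit 6764) (nat_lit 6) (nat_lit 89) (nat_lit 1) (nat_lit 158) (nat_lit 136) (nat_lit 156)))) (PT.nd (nat_lit 156) (PT.nd (nat_lit 78) (PT.lf (nat_lit 6688) (nat_lit 6) (nat_lit 88) (nat_lit 1) (nat_lit 159) (nat_lit 136) (nat_lit 155)) (PT.lf (nat_lit 6612) (nat_lit 6) (nat_lit 87) (nat_lit 1) (nat_lit 160) (nat_lit 136) (nat_lit 154))) (PT.nd (nat_lit 46176) (PT.lf (nat_lit 6536) (nat_lit 6) (nat_lit 86) (nat_lit 1) (nat_lit 161) (nat_lit 136) (nat_lit 153)) (PT.lf (nat_lit 6916) (nat_lit 6) (nat_lit 91) (nat_lit 3) (nat_lit 152) (nat_lit 137) (nat_lit 161))))) (PT.nd (nat_lit 234) (PT.nd (nat_lit 78) (PT.lf (nat_lit 6992) (nat_lit 6) (nat_lit 92) (nat_lit 3) (nat_lit 153) (nat_lit 137) (nat_lit 160)) (PT.nd (nat_lit 78) (PT.lf (nat_lit 7068) (nat_lit 6)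 (nat_lit 93) (nat_lit 3) (nat_lit 154) (nat_lit 137) (nat_lit 159)) (PT.lf (nat_lit 7144) (nat_lit 6) (nat_lit 94) (nat_lit 3) (nat_lit 155) (nat_lit 137) (nat_lit 158)))) (PT.nd (nat_lit 156) (PT.nd (nat_lit 78) (PT.lf (nat_lit 7220) (nat_lit 6) (nat_lit 95) (nat_lit 3) (nat_lit 156) (nat_lit 137) (nat_lit 157)) (PT.lf (nat_lit 7220) (nat_lit 6) (nat_lit 95) (nat_lit 1) (nat_lit 157) (nat_lit 137) (nat_lit 156))) (PT.nd (nat_lit 78) (PT.lf (nat_lit 7144) (nat_lit 6) (nat_lit 94) (nat_lit 1) (nat_lit 158) (nat_lit 137) (nat_lit 155)) (PT.lf (nat_lit 7068) (nat_lit 6) (nat_lit 93) (nat_lit 1) (nat_lit 159) (nat_lit 137) (nat_lit 154))))))))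
noncomputable def pc3 : PT := (PT.nd (nat_lit 140400) (PT.nd (nat_lit 93288) (PT.nd (nat_lit 46644) (PT.nd (nat_lit 46332) (PT.nd (nat_lit 78) (PT.lf (nat_lit 6992) (nat_lit 6) (nat_lit 92) (nat_lit 1) (nat_lit 160) (nat_lit 137) (nat_lit 153)) (PT.nd (nat_lit 46176) (PT.lf (nat_lit 6916) (nat_lit 6) (nat_lit 91) (nat_lit 1) (nat_lit 161) (nat_lit 137) (nat_lit 152)) (PT.lf (nat_lit 7296) (nat_lit 6) (nat_lit 96) (nat_lit 3) (nat_lit 152) (nat_lit 138) (nat_lit 160)))) (PT.nd (nat_lit 156) (PT.nd (nat_lit 78) (PT.lf (nat_lit 7372) (nat_lit 6) (nat_lit 97) (nat_lit 3) (nat_lit 153) (nat_lit 138) (nat_lit 159)) (PT.lf (nat_lit 7448) (nat_lit 6) (nat_lit 98) (nat_lit 3) (nat_lit 154) (nat_lit 138) (nat_lit 158))) (PT.nd (nat_lit 78) (PT.lf (nat_lit 7524) (nat_lit 6) (nat_lit 99) (nat_lit 3) (nat_lit 155) (nat_lit 138) (nat_lit 157)) (PT.lf (nat_lit 7600) (nat_lit 3) (nat_lit 100) (nat_lit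 1) (nat_lit 156) (nat_lit 138) (nat_lit 156))))) (PT.nd (nat_lit 234) (PT.nd (nat_lit 78) (PT.lf (nat_lit 7524) (nat_lit 6) (nat_lit 99) (nat_lit 1) (nat_lit 157) (nat_lit 138) (nat_lit 155)) (PT.nd (nat_lit 78) (PT.lf (nat_lit 7448) (nat_lit 6) (nat_lit 98) (nat_lit 1) (nat_lit 158) (nat_lit 138) (nat_lit 154)) (PT.lf (nat_lit 7372) (nat_lit 6) (nat_lit 97) (nat_lit 1) (nat_lit 159) (nat_lit 138) (nat_lit 153)))) (PT.nd (nat_lit 46254) (PT.nd (nat_lit 46176) (PT.lf (nat_lit 7296) (nat_lit 6) (nat_lit 96) (nat_lit 1) (nat_lit 160) (nat_lit 138) (nat_lit 152)) (PT.lf (nat_lit 7676) (nat_lit 6) (nat_lit 101) (nat_lit 3) (nat_lit 151) (nat_lit 139) (nat_lit 160))) (PT.nd (nat_lit 78) (PT.lf (nat_lit 7752) (nat_lit 6) (nat_lit 102) (nat_lit 3) (nat_lit 152) (nat_lit 139) (nat_lit 159)) (PT.lf (nat_lit 7828) (nat_lit 6) (nat_lit 103) (nat_lit 3) (nat_lit 153) (nat_lit 139) (nat_lit 158))))))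 (PT.nd (nat_lit 46566) (PT.nd (nat_lit 234) (PT.nd (nat_lit 78) (PT.lf (nat_lit 7904) (nat_lit 6) (nat_lit 104) (nat_lit 3) (nat_lit 154) (nat_lit 139) (nat_lit 157)) (PT.nd (nat_lit 78) (PT.lf (nat_lit 7980) (nat_lit 6) (nat_lit 105) (nat_lit 3) (nat_lit 155) (nat_lit 139) (nat_lit 156)) (PT.lf (nat_lit 7980) (nat_lit 6) (nat_lit 105) (nat_lit 1) (nat_lit 156) (nat_lit 139) (nat_lit 155)))) (PT.nd (nat_lit 156) (PT.nd (nat_lit 78) (PT.lf (nat_lit 7904) (nat_lit 6) (nat_lit 104) (nat_lit 1) (nat_lit 157) (nat_lit 139) (nat_lit 154)) (PT.lf (nat_lit 7828) (nat_lit 6) (nat_lit 103) (nat_lit 1) (nat_lit 158) (nat_lit 139) (nat_lit 153))) (PT.nd (nat_lit 78) (PT.lf (nat_lit 7752) (nat_lit 6) (nat_lit 102) (nat_lit 1) (nat_lit 159) (nat_lit 139) (nat_lit 152)) (PT.lf (nat_lit 7676) (nat_lit 6) (nat_lit 101) (nat_lit 1) (nat_lit 160) (nat_lit 139) (nat_lit 151))))) (PT.nd (nat_lit 234) (PT.nd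 (nat_lit 78) (PT.lf (nat_lit 8436) (nat_lit 6) (nat_lit 111) (nat_lit 3) (nat_lit 150) (nat_lit 140) (nat_lit 160)) (PT.nd (nat_lit 78) (PT.lf (nat_lit 8512) (nat_lit 6) (nat_lit 112) (nat_lit 3) (nat_lit 151) (nat_lit 140) (nat_lit 159)) (PT.lf (nat_lit 8588) (nat_lit 6) (nat_lit 113) (nat_lit 3) (nat_lit 152) (nat_lit 140) (nat_lit 158)))) (PT.nd (nat_lit 156) (PT.nd (nat_lit 78) (PT.lf (nat_lit 8664) (nat_lit 6) (nat_lit 114) (nat_lit 3) (nat_lit 153) (nat_lit 140) (nat_lit 157)) (PT.lf (nat_lit 8740) (nat_lit 6) (nat_lit 115) (nat_lit 3) (nat_lit 154) (nat_lit 140) (nat_lit 156))) (PT.nd (nat_lit 78) (PT.lf (nat_lit 8816) (nat_lit 3) (nat_lit 116) (nat_lit 1) (nat_lit 155) (nat_lit 140) (nat_lit 155)) (PT.lf (nat_lit 8740) (nat_lit 6) (nat_lit 115) (nat_lit 1) (nat_lit 156) (nat_lit 140) (nat_lit 154))))))) (PT.nd (nat_lit 47034) (PT.nd (nat_lit 46488) (PT.nd (nat_lit 234) (PT.nd (nat_lit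 78) (PT.lf (nat_lit 8664) (nat_lit 6) (nat_lit 114) (nat_lit 1) (nat_lit 157) (nat_lit 140) (nat_lit 153)) (PT.nd (nat_lit 78) (PT.lf (nat_lit 8588) (nat_lit 6) (nat_lit 113) (nat_lit 1) (nat_lit 158) (nat_lit 140) (nat_lit 152)) (PT.lf (nat_lit 8512) (nat_lit 6) (nat_lit 112) (nat_lit 1) (nat_lit 159) (nat_lit 140) (nat_lit 151)))) (PT.nd (nat_lit 46098) (PT.nd (nat_lit 46020) (PT.lf (nat_lit 8436) (nat_lit 6) (nat_lit 111) (nat_lit 1) (nat_lit 160) (nat_lit 140) (nat_lit 150)) (PT.lf (nat_lit 8360) (nat_lit 6) (nat_lit 110) (nat_lit 3) (nat_lit 149) (nat_lit 141) (nat_lit 160))) (PT.nd (nat_lit 78) (PT.lf (nat_lit 9196) (nat_lit 6) (nat_lit 121) (nat_lit 3) (nat_lit 150) (nat_lit 141) (nat_lit 159)) (PT.lf (nat_lit 9272) (nat_lit 6) (nat_lit 122) (nat_lit 3) (nat_lit 151) (nat_lit 141) (nat_lit 158))))) (PT.nd (nat_lit 234) (PT.nd (nat_lit 78) (PT.lf (nat_lit 9348) (nat_lit 6) (nat_lit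 123) (nat_lit 3) (nat_lit 152) (nat_lit 141) (nat_lit 157)) (PT.nd (nat_lit 78) (PT.lf (nat_lit 9424) (nat_lit 6) (nat_lit 124) (nat_lit 3) (nat_lit 153) (nat_lit 141) (nat_lit 156)) (PT.lf (nat_lit 9500) (nat_lit 6) (nat_lit 125) (nat_lit 3) (nat_lit 154) (nat_lit 141) (nat_lit 155)))) (PT.nd (nat_lit 156) (PT.nd (nat_lit 78) (PT.lf (nat_lit 9500) (nat_lit 6) (nat_lit 125) (nat_lit 1) (nat_lit 155) (nat_lit 141) (nat_lit 154)) (PT.lf (nat_lit 9424) (nat_lit 6) (nat_lit 124) (nat_lit 1) (nat_lit 156) (nat_lit 141) (nat_lit 153))) (PT.nd (nat_lit 78) (PT.lf (nat_lit 9348) (nat_lit 6) (nat_lit 123) (nat_lit 1) (nat_lit 157) (nat_lit 141) (nat_lit 152)) (PT.lf (nat_lit 9272) (nat_lit 6) (nat_lit 122) (nat_lit 1) (nat_lit 158) (nat_lit 141) (nat_lit 151)))))) (PT.nd (nat_lit 46410) (PT.nd (nat_lit 46098) (PT.nd (nat_lit 78) (PT.lf (nat_lit 9196) (nat_lit 6) (nat_lit 121) (nat_lit 1) (nat_lit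 159) (nat_lit 141) (nat_lit 150)) (PT.nd (nat_lit 45942) (PT.lf (nat_lit 8360) (nat_lit 6) (nat_lit 110) (nat_lit 1) (nat_lit 160) (nat_lit 141) (nat_lit 149)) (PT.lf (nat_lit 8284) (nat_lit 6) (nat_lit 109) (nat_lit 3) (nat_lit 148) (nat_lit 142) (nat_lit 160)))) (PT.nd (nat_lit 156) (PT.nd (nat_lit 78) (PT.lf (nat_lit 9120) (nat_lit 6) (nat_lit 120) (nat_lit 3) (nat_lit 149) (nat_lit 142) (nat_lit 159)) (PT.lf (nat_lit 9880) (nat_lit 6) (nat_lit 130) (nat_lit 3) (nat_lit 150) (nat_lit 142) (nat_lit 158))) (PT.nd (nat_lit 78) (PT.lf (nat_lit 9956) (nat_lit 6) (nat_lit 131) (nat_lit 3) (nat_lit 151) (nat_lit 142) (nat_lit 157)) (PT.lf (nat_lit 10032) (nat_lit 6) (nat_lit 132) (nat_lit 3) (nat_lit 152) (nat_lit 142) (nat_lit 156))))) (PT.nd (nat_lit 234) (PT.nd (nat_lit 78) (PT.lf (nat_lit 10108) (nat_lit 6) (nat_lit 133) (nat_lit 3) (nat_lit 153) (nat_lit 142) (nat_lit 155)) (PT.nd (nat_lit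 78) (PT.lf (nat_lit 10184) (nat_lit 3) (nat_lit 134) (nat_lit 1) (nat_lit 154) (nat_lit 142) (nat_lit 154)) (PT.lf (nat_lit 10108) (nat_lit 6) (nat_lit 133) (nat_lit 1) (nat_lit 155) (nat_lit 142) (nat_lit 153)))) (PT.nd (nat_lit 156) (PT.nd (nat_lit 78) (PT.lf (nat_lit 10032) (nat_lit 6) (nat_lit 132) (nat_lit 1) (nat_lit 156) (nat_lit 142) (nat_lit 152)) (PT.lf (nat_lit 9956) (nat_lit 6) (nat_lit 131) (nat_lit 1) (nat_lit 157) (nat_lit 142) (nat_lit 151))) (PT.nd (nat_lit 78) (PT.lf (nat_lit 9880) (nat_lit 6) (nat_lit 130) (nat_lit 1) (nat_lit 158) (nat_lit 142) (nat_lit 150)) (PT.lf (nat_lit 9120) (nat_lit 6) (nat_lit 120) (nat_lit 1) (nat_lit 159) (nat_lit 142) (nat_lit 149))))))))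
noncomputable def pc4 : PT := (PT.nd (nat_lit 93678) (PT.nd (nat_lit 46878) (PT.nd (nat_lit 46332) (PT.nd (nat_lit 46020) (PT.nd (nat_lit 45864) (PT.lf (nat_lit 8284) (nat_lit 6) (nat_lit 109) (nat_lit 1) (nat_lit 160) (nat_lit 142) (nat_lit 148)) (PT.nd (nat_lit 78) (PT.lf (nat_lit 8208) (nat_lit 6) (nat_lit 108) (nat_lit 3) (nat_lit 147) (nat_lit 143) (nat_lit 160)) (PT.lf (nat_lit 9044) (nat_lit 6) (nat_lit 119) (nat_lit 3) (nat_lit 148) (nat_lit 143) (nat_lit 159)))) (PT.nd (nat_lit 156) (PT.nd (nat_lit 78) (PT.lf (nat_lit 9804) (nat_lit 6) (nat_lit 129) (nat_lit 3) (nat_lit 149) (nat_lit 143) (nat_lit 158)) (PT.lf (nat_lit 10488) (nat_lit 6) (nat_lit 138) (nat_lit 3) (nat_lit 150) (nat_lit 143) (nat_lit 157))) (PT.nd (nat_lit 78) (PT.lf (nat_lit 10564) (nat_lit 6) (nat_lit 139) (nat_lit 3) (nat_lit 151) (nat_lit 143) (nat_lit 156)) (PT.lf (nat_lit 10640) (nat_lit 6) (nat_lit 140) (nat_lit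 3) (nat_lit 152) (nat_lit 143) (nat_lit 155))))) (PT.nd (nat_lit 234) (PT.nd (nat_lit 78) (PT.lf (nat_lit 10716) (nat_lit 6) (nat_lit 141) (nat_lit 3) (nat_lit 153) (nat_lit 143) (nat_lit 154)) (PT.nd (nat_lit 78) (PT.lf (nat_lit 10716) (nat_lit 6) (nat_lit 141) (nat_lit 1) (nat_lit 154) (nat_lit 143) (nat_lit 153)) (PT.lf (nat_lit 10640) (nat_lit 6) (nat_lit 140) (nat_lit 1) (nat_lit 155) (nat_lit 143) (nat_lit 152)))) (PT.nd (nat_lit 156) (PT.nd (nat_lit 78) (PT.lf (nat_lit 10564) (nat_lit 6) (nat_lit 139) (nat_lit 1) (nat_lit 156) (nat_lit 143) (nat_lit 151)) (PT.lf (nat_lit 10488) (nat_lit 6) (nat_lit 138) (nat_lit 1) (nat_lit 157) (nat_lit 143) (nat_lit 150))) (PT.nd (nat_lit 78) (PT.lf (nat_lit 9804) (nat_lit 6) (nat_lit 129) (nat_lit 1) (nat_lit 158) (nat_lit 143) (nat_lit 149)) (PT.lf (nat_lit 9044) (nat_lit 6) (nat_lit 119) (nat_lit 1) (nat_lit 159) (nat_lit 143) (nat_lit 148))))))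 (PT.nd (nat_lit 46254) (PT.nd (nat_lit 45942) (PT.nd (nat_lit 45786) (PT.lf (nat_lit 8208) (nat_lit 6) (nat_lit 108) (nat_lit 1) (nat_lit 160) (nat_lit 143) (nat_lit 147)) (PT.nd (nat_lit 78) (PT.lf (nat_lit 8132) (nat_lit 6) (nat_lit 107) (nat_lit 3) (nat_lit 146) (nat_lit 144) (nat_lit 160)) (PT.lf (nat_lit 8968) (nat_lit 6) (nat_lit 118) (nat_lit 3) (nat_lit 147) (nat_lit 144) (nat_lit 159)))) (PT.nd (nat_lit 156) (PT.nd (nat_lit 78) (PT.lf (nat_lit 9728) (nat_lit 6) (nat_lit 128) (nat_lit 3) (nat_lit 148) (nat_lit 144) (nat_lit 158)) (PT.lf (nat_lit 10412) (nat_lit 6) (nat_lit 137) (nat_lit 3) (nat_lit 149) (nat_lit 144) (nat_lit 157))) (PT.nd (nat_lit 78) (PT.lf (nat_lit 11020) (nat_lit 6) (nat_lit 145) (nat_lit 3) (nat_lit 150) (nat_lit 144) (nat_lit 156)) (PT.lf (nat_lit 11096) (nat_lit 6) (nat_lit 146) (nat_lit 3) (nat_lit 151) (nat_lit 144) (nat_lit 155))))) (PT.nd (nat_lit 234)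 (PT.nd (nat_lit 78) (PT.lf (nat_lit 11172) (nat_lit 6) (nat_lit 147) (nat_lit 3) (nat_lit 152) (nat_lit 144) (nat_lit 154)) (PT.nd (nat_lit 78) (PT.lf (nat_lit 11248) (nat_lit 3) (nat_lit 148) (nat_lit 1) (nat_lit 153) (nat_lit 144) (nat_lit 153)) (PT.lf (nat_lit 11172) (nat_lit 6) (nat_lit 147) (nat_lit 1) (nat_lit 154) (nat_lit 144) (nat_lit 152)))) (PT.nd (nat_lit 156) (PT.nd (nat_lit 78) (PT.lf (nat_lit 11096) (nat_lit 6) (nat_lit 146) (nat_lit 1) (nat_lit 155) (nat_lit 144) (nat_lit 151)) (PT.lf (nat_lit 11020) (nat_lit 6) (nat_lit 145) (nat_lit 1) (nat_lit 156) (nat_lit 144) (nat_lit 150))) (PT.nd (nat_lit 78) (PT.lf (nat_lit 10412) (nat_lit 6) (nat_lit 137) (nat_lit 1) (nat_lit 157) (nat_lit 144) (nat_lit 149)) (PT.lf (nat_lit 9728) (nat_lit 6) (nat_lit 128) (nat_lit 1) (nat_lit 158) (nat_lit 144) (nat_lit 148))))))) (PT.nd (nat_lit 46722) (PT.nd (nat_lit 46176) (PT.nd (nat_lit 45864)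 (PT.nd (nat_lit 78) (PT.lf (nat_lit 8968) (nat_lit 6) (nat_lit 118) (nat_lit 1) (nat_lit 159) (nat_lit 144) (nat_lit 147)) (PT.nd (nat_lit 45708) (PT.lf (nat_lit 8132) (nat_lit 6) (nat_lit 107) (nat_lit 1) (nat_lit 160) (nat_lit 144) (nat_lit 146)) (PT.lf (nat_lit 8056) (nat_lit 3) (nat_lit 106) (nat_lit 3) (nat_lit 145) (nat_lit 145) (nat_lit 160)))) (PT.nd (nat_lit 156) (PT.nd (nat_lit 78) (PT.lf (nat_lit 8892) (nat_lit 6) (nat_lit 117) (nat_lit 3) (nat_lit 146) (nat_lit 145) (nat_lit 159)) (PT.lf (nat_lit 9652) (nat_lit 6) (nat_lit 127) (nat_lit 3) (nat_lit 147) (nat_lit 145) (nat_lit 158))) (PT.nd (nat_lit 78) (PT.lf (nat_lit 10336) (nat_lit 6) (nat_lit 136) (nat_lit 3) (nat_lit 148) (nat_lit 145) (nat_lit 157)) (PT.lf (nat_lit 10944) (nat_lit 6) (nat_lit 144) (nat_lit 3) (nat_lit 149) (nat_lit 145) (nat_lit 156))))) (PT.nd (nat_lit 234) (PT.nd (nat_lit 78) (PT.lf (nat_lit 11476) (nat_lit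 6) (nat_lit 151) (nat_lit 3) (nat_lit 150) (nat_lit 145) (nat_lit 155)) (PT.nd (nat_lit 78) (PT.lf (nat_lit 11552) (nat_lit 6) (nat_lit 152) (nat_lit 3) (nat_lit 151) (nat_lit 145) (nat_lit 154)) (PT.lf (nat_lit 11628) (nat_lit 6) (nat_lit 153) (nat_lit 3) (nat_lit 152) (nat_lit 145) (nat_lit 153)))) (PT.nd (nat_lit 156) (PT.nd (nat_lit 78) (PT.lf (nat_lit 11628) (nat_lit 6) (nat_lit 153) (nat_lit 1) (nat_lit 153) (nat_lit 145) (nat_lit 152)) (PT.lf (nat_lit 11552) (nat_lit 6) (nat_lit 152) (nat_lit 1) (nat_lit 154) (nat_lit 145) (nat_lit 151))) (PT.nd (nat_lit 78) (PT.lf (nat_lit 11476) (nat_lit 6) (nat_lit 151) (nat_lit 1) (nat_lit 155) (nat_lit 145) (nat_lit 150)) (PT.lf (nat_lit 10944) (nat_lit 6) (nat_lit 144) (nat_lit 1) (nat_lit 156) (nat_lit 145) (nat_lit 149)))))) (PT.nd (nat_lit 46098) (PT.nd (nat_lit 234) (PT.nd (nat_lit 78) (PT.lf (nat_lit 10336) (nat_lit 6) (nat_lit 136) (nat_lit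 1) (nat_lit 157) (nat_lit 145) (nat_lit 148)) (PT.nd (nat_lit 78) (PT.lf (nat_lit 9652) (nat_lit 6) (nat_lit 127) (nat_lit 1) (nat_lit 158) (nat_lit 145) (nat_lit 147)) (PT.lf (nat_lit 8892) (nat_lit 6) (nat_lit 117) (nat_lit 1) (nat_lit 159) (nat_lit 145) (nat_lit 146)))) (PT.nd (nat_lit 45708) (PT.nd (nat_lit 45630) (PT.lf (nat_lit 8056) (nat_lit 3) (nat_lit 106) (nat_lit 0) (nat_lit 160) (nat_lit 145) (nat_lit 145)) (PT.lf (nat_lit 8132) (nat_lit 6) (nat_lit 107) (nat_lit 5) (nat_lit 144) (nat_lit 146) (nat_lit 160))) (PT.nd (nat_lit 78) (PT.lf (nat_lit 8892) (nat_lit 6) (nat_lit 117) (nat_lit 5) (nat_lit 145) (nat_lit 146) (nat_lit 159)) (PT.lf (nat_lit 9576) (nat_lit 3) (nat_lit 126) (nat_lit 3) (nat_lit 146) (nat_lit 146) (nat_lit 158))))) (PT.nd (nat_lit 234) (PT.nd (nat_lit 78) (PT.lf (nat_lit 10260) (nat_lit 6) (nat_lit 135) (nat_lit 3) (nat_lit 147) (nat_lit 146) (nat_lit 157))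 (PT.nd (nat_lit 78) (PT.lf (nat_lit 10868) (nat_lit 6) (nat_lit 143) (nat_lit 3) (nat_lit 148) (nat_lit 146) (nat_lit 156)) (PT.lf (nat_lit 11400) (nat_lit 6) (nat_lit 150) (nat_lit 3) (nat_lit 149) (nat_lit 146) (nat_lit 155)))) (PT.nd (nat_lit 156) (PT.nd (nat_lit 78) (PT.lf (nat_lit 11856) (nat_lit 6) (nat_lit 156) (nat_lit 3) (nat_lit 150) (nat_lit 146) (nat_lit 154)) (PT.lf (nat_lit 11932) (nat_lit 6) (nat_lit 157) (nat_lit 3) (nat_lit 151) (nat_lit 146) (nat_lit 153))) (PT.nd (nat_lit 78) (PT.lf (nat_lit 12008) (nat_lit 3) (nat_lit 158) (nat_lit 1) (nat_lit 152) (nat_lit 146) (nat_lit 152)) (PT.lf (nat_lit 11932) (nat_lit 6) (nat_lit 157) (nat_lit 1) (nat_lit 153) (nat_lit 146) (nat_lit 151))))))))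
noncomputable def pc5 : PT := (PT.nd (nat_lit 93054) (PT.nd (nat_lit 46566) (PT.nd (nat_lit 46020) (PT.nd (nat_lit 234) (PT.nd (nat_lit 78) (PT.lf (nat_lit 11856) (nat_lit 6) (nat_lit 156) (nat_lit 1) (nat_lit 154) (nat_lit 146) (nat_lit 150)) (PT.nd (nat_lit 78) (PT.lf (nat_lit 11400) (nat_lit 6) (nat_lit 150) (nat_lit 1) (nat_lit 155) (nat_lit 146) (nat_lit 149)) (PT.lf (nat_lit 10868) (nat_lit 6) (nat_lit 143) (nat_lit 1) (nat_lit 156) (nat_lit 146) (nat_lit 148)))) (PT.nd (nat_lit 156) (PT.nd (nat_lit 78) (PT.lf (nat_lit 10260) (nat_lit 6) (nat_lit 135) (nat_lit 1) (nat_lit 157) (nat_lit 146) (nat_lit 147)) (PT.lf (nat_lit 9576) (nat_lit 3) (nat_lit 126) (nat_lit 0) (nat_lit 158) (nat_lit 146) (nat_lit 146))) (PT.nd (nat_lit 78) (PT.lf (nat_lit 8892) (nat_lit 6) (nat_lit 117) (nat_lit 0) (nat_lit 159) (nat_lit 146) (nat_lit 145)) (PT.lf (nat_lit 8132) (nat_lit 6) (nat_lit 107) (nat_lit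 0) (nat_lit 160) (nat_lit 146) (nat_lit 144))))) (PT.nd (nat_lit 234) (PT.nd (nat_lit 78) (PT.lf (nat_lit 8208) (nat_lit 6) (nat_lit 108) (nat_lit 5) (nat_lit 143) (nat_lit 147) (nat_lit 160)) (PT.nd (nat_lit 78) (PT.lf (nat_lit 8968) (nat_lit 6) (nat_lit 118) (nat_lit 5) (nat_lit 144) (nat_lit 147) (nat_lit 159)) (PT.lf (nat_lit 9652) (nat_lit 6) (nat_lit 127) (nat_lit 5) (nat_lit 145) (nat_lit 147) (nat_lit 158)))) (PT.nd (nat_lit 156) (PT.nd (nat_lit 78) (PT.lf (nat_lit 10260) (nat_lit 6) (nat_lit 135) (nat_lit 5) (nat_lit 146) (nat_lit 147) (nat_lit 157)) (PT.lf (nat_lit 10792) (nat_lit 3) (nat_lit 142) (nat_lit 3) (nat_lit 147) (nat_lit 147) (nat_lit 156))) (PT.nd (nat_lit 78) (PT.lf (nat_lit 11324) (nat_lit 6) (nat_lit 149) (nat_lit 3) (nat_lit 148) (nat_lit 147) (nat_lit 155)) (PT.lf (nat_lit 11780) (nat_lit 6) (nat_lit 155) (nat_lit 3) (nat_lit 149) (nat_lit 147) (nat_lit 154))))))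 (PT.nd (nat_lit 546) (PT.nd (nat_lit 234) (PT.nd (nat_lit 78) (PT.lf (nat_lit 12160) (nat_lit 6) (nat_lit 160) (nat_lit 3) (nat_lit 150) (nat_lit 147) (nat_lit 153)) (PT.nd (nat_lit 78) (PT.lf (nat_lit 12236) (nat_lit 6) (nat_lit 161) (nat_lit 3) (nat_lit 151) (nat_lit 147) (nat_lit 152)) (PT.lf (nat_lit 12236) (nat_lit 6) (nat_lit 161) (nat_lit 1) (nat_lit 152) (nat_lit 147) (nat_lit 151)))) (PT.nd (nat_lit 156) (PT.nd (nat_lit 78) (PT.lf (nat_lit 12160) (nat_lit 6) (nat_lit 160) (nat_lit 1) (nat_lit 153) (nat_lit 147) (nat_lit 150)) (PT.lf (nat_lit 11780) (nat_lit 6) (nat_lit 155) (nat_lit 1) (nat_lit 154) (nat_lit 147) (nat_lit 149))) (PT.nd (nat_lit 78) (PT.lf (nat_lit 11324) (nat_lit 6) (nat_lit 149) (nat_lit 1) (nat_lit 155) (nat_lit 147) (nat_lit 148)) (PT.lf (nat_lit 10792) (nat_lit 3) (nat_lit 142) (nat_lit 0) (nat_lit 156) (nat_lit 147) (nat_lit 147))))) (PT.nd (nat_lit 234) (PT.nd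 (nat_lit 78) (PT.lf (nat_lit 10260) (nat_lit 6) (nat_lit 135) (nat_lit 0) (nat_lit 157) (nat_lit 147) (nat_lit 146)) (PT.nd (nat_lit 78) (PT.lf (nat_lit 9652) (nat_lit 6) (nat_lit 127) (nat_lit 0) (nat_lit 158) (nat_lit 147) (nat_lit 145)) (PT.lf (nat_lit 8968) (nat_lit 6) (nat_lit 118) (nat_lit 0) (nat_lit 159) (nat_lit 147) (nat_lit 144)))) (PT.nd (nat_lit 45552) (PT.nd (nat_lit 45474) (PT.lf (nat_lit 8208) (nat_lit 6) (nat_lit 108) (nat_lit 0) (nat_lit 160) (nat_lit 147) (nat_lit 143)) (PT.lf (nat_lit 8284) (nat_lit 6) (nat_lit 109) (nat_lit 5) (nat_lit 142) (nat_lit 148) (nat_lit 160))) (PT.nd (nat_lit 78) (PT.lf (nat_lit 9044) (nat_lit 6) (nat_lit 119) (nat_lit 5) (nat_lit 143) (nat_lit 148) (nat_lit 159)) (PT.lf (nat_lit 9728) (nat_lit 6) (nat_lit 128) (nat_lit 5) (nat_lit 144) (nat_lit 148) (nat_lit 158))))))) (PT.nd (nat_lit 1092) (PT.nd (nat_lit 546) (PT.nd (nat_lit 234) (PT.nd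 (nat_lit 78) (PT.lf (nat_lit 10336) (nat_lit 6) (nat_lit 136) (nat_lit 5) (nat_lit 145) (nat_lit 148) (nat_lit 157)) (PT.nd (nat_lit 78) (PT.lf (nat_lit 10868) (nat_lit 6) (nat_lit 143) (nat_lit 5) (nat_lit 146) (nat_lit 148) (nat_lit 156)) (PT.lf (nat_lit 11324) (nat_lit 6) (nat_lit 149) (nat_lit 5) (nat_lit 147) (nat_lit 148) (nat_lit 155)))) (PT.nd (nat_lit 156) (PT.nd (nat_lit 78) (PT.lf (nat_lit 11704) (nat_lit 3) (nat_lit 154) (nat_lit 3) (nat_lit 148) (nat_lit 148) (nat_lit 154)) (PT.lf (nat_lit 12084) (nat_lit 6) (nat_lit 159) (nat_lit 3) (nat_lit 149) (nat_lit 148) (nat_lit 153))) (PT.nd (nat_lit 78) (PT.lf (nat_lit 12388) (nat_lit 6) (nat_lit 163) (nat_lit 3) (nat_lit 150) (nat_lit 148) (nat_lit 152)) (PT.lf (nat_lit 12464) (nat_lit 3) (nat_lit 164) (nat_lit 1) (nat_lit 151) (nat_lit 148) (nat_lit 151))))) (PT.nd (nat_lit 234) (PT.nd (nat_lit 78) (PT.lf (nat_lit 12388) (nat_lit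 6) (nat_lit 163) (nat_lit 1) (nat_lit 152) (nat_lit 148) (nat_lit 150)) (PT.nd (nat_lit 78) (PT.lf (nat_lit 12084) (nat_lit 6) (nat_lit 159) (nat_lit 1) (nat_lit 153) (nat_lit 148) (nat_lit 149)) (PT.lf (nat_lit 11704) (nat_lit 3) (nat_lit 154) (nat_lit 0) (nat_lit 154) (nat_lit 148) (nat_lit 148)))) (PT.nd (nat_lit 156) (PT.nd (nat_lit 78) (PT.lf (nat_lit 11324) (nat_lit 6) (nat_lit 149) (nat_lit 0) (nat_lit 155) (nat_lit 148) (nat_lit 147)) (PT.lf (nat_lit 10868) (nat_lit 6) (nat_lit 143) (nat_lit 0) (nat_lit 156) (nat_lit 148) (nat_lit 146))) (PT.nd (nat_lit 78) (PT.lf (nat_lit 10336) (nat_lit 6) (nat_lit 136) (nat_lit 0) (nat_lit 157) (nat_lit 148) (nat_lit 145)) (PT.lf (nat_lit 9728) (nat_lit 6) (nat_lit 128) (nat_lit 0) (nat_lit 158) (nat_lit 148) (nat_lit 144)))))) (PT.nd (nat_lit 45864) (PT.nd (nat_lit 45552) (PT.nd (nat_lit 78) (PT.lf (nat_lit 9044) (nat_lit 6) (nat_lit 119) (nat_lit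 0) (nat_lit 159) (nat_lit 148) (nat_lit 143)) (PT.nd (nat_lit 45396) (PT.lf (nat_lit 8284) (nat_lit 6) (nat_lit 109) (nat_lit 0) (nat_lit 160) (nat_lit 148) (nat_lit 142)) (PT.lf (nat_lit 8360) (nat_lit 6) (nat_lit 110) (nat_lit 5) (nat_lit 141) (nat_lit 149) (nat_lit 160)))) (PT.nd (nat_lit 156) (PT.nd (nat_lit 78) (PT.lf (nat_lit 9120) (nat_lit 6) (nat_lit 120) (nat_lit 5) (nat_lit 142) (nat_lit 149) (nat_lit 159)) (PT.lf (nat_lit 9804) (nat_lit 6) (nat_lit 129) (nat_lit 5) (nat_lit 143) (nat_lit 149) (nat_lit 158))) (PT.nd (nat_lit 78) (PT.lf (nat_lit 10412) (nat_lit 6) (nat_lit 137) (nat_lit 5) (nat_lit 144) (nat_lit 149) (nat_lit 157)) (PT.lf (nat_lit 10944) (nat_lit 6) (nat_lit 144) (nat_lit 5) (nat_lit 145) (nat_lit 149) (nat_lit 156))))) (PT.nd (nat_lit 234) (PT.nd (nat_lit 78) (PT.lf (nat_lit 11400) (nat_lit 6) (nat_lit 150) (nat_lit 5) (nat_lit 146) (nat_lit 149) (nat_lit 155))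 (PT.nd (nat_lit 78) (PT.lf (nat_lit 11780) (nat_lit 6) (nat_lit 155) (nat_lit 5) (nat_lit 147) (nat_lit 149) (nat_lit 154)) (PT.lf (nat_lit 12084) (nat_lit 6) (nat_lit 159) (nat_lit 5) (nat_lit 148) (nat_lit 149) (nat_lit 153)))) (PT.nd (nat_lit 156) (PT.nd (nat_lit 78) (PT.lf (nat_lit 12312) (nat_lit 3) (nat_lit 162) (nat_lit 3) (nat_lit 149) (nat_lit 149) (nat_lit 152)) (PT.lf (nat_lit 12540) (nat_lit 6) (nat_lit 165) (nat_lit 3) (nat_lit 150) (nat_lit 149) (nat_lit 151))) (PT.nd (nat_lit 78) (PT.lf (nat_lit 12540) (nat_lit 6) (nat_lit 165) (nat_lit 1) (nat_lit 151) (nat_lit 149) (nat_lit 150)) (PT.lf (nat_lit 12312) (nat_lit 3) (nat_lit 162) (nat_lit 0) (nat_lit 152) (nat_lit 149) (nat_lit 149))))))))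
noncomputable def pc6 : PT := (PT.nd (nat_lit 47424) (PT.nd (nat_lit 46332) (PT.nd (nat_lit 546) (PT.nd (nat_lit 234) (PT.nd (nat_lit 78) (PT.lf (nat_lit 12084) (nat_lit 6) (nat_lit 159) (nat_lit 0) (nat_lit 153) (nat_lit 149) (nat_lit 148)) (PT.nd (nat_lit 78) (PT.lf (nat_lit 11780) (nat_lit 6) (nat_lit 155) (nat_lit 0) (nat_lit 154) (nat_lit 149) (nat_lit 147)) (PT.lf (nat_lit 11400) (nat_lit 6) (nat_lit 150) (nat_lit 0) (nat_lit 155) (nat_lit 149) (nat_lit 146)))) (PT.nd (nat_lit 156) (PT.nd (nat_lit 78) (PT.lf (nat_lit 10944) (nat_lit 6) (nat_lit 144) (nat_lit 0) (nat_lit 156) (nat_lit 149) (nat_lit 145)) (PT.lf (nat_lit 10412) (nat_lit 6) (nat_lit 137) (nat_lit 0) (nat_lit 157) (nat_lit 149) (nat_lit 144))) (PT.nd (nat_lit 78) (PT.lf (nat_lit 9804) (nat_lit 6) (nat_lit 129) (nat_lit 0) (nat_lit 158) (nat_lit 149) (nat_lit 143)) (PT.lf (nat_lit 9120) (nat_lit 6) (nat_lit 120) (nat_lit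 0) (nat_lit 159) (nat_lit 149) (nat_lit 142))))) (PT.nd (nat_lit 45474) (PT.nd (nat_lit 45318) (PT.lf (nat_lit 8360) (nat_lit 6) (nat_lit 110) (nat_lit 0) (nat_lit 160) (nat_lit 149) (nat_lit 141)) (PT.nd (nat_lit 78) (PT.lf (nat_lit 8436) (nat_lit 6) (nat_lit 111) (nat_lit 5) (nat_lit 140) (nat_lit 150) (nat_lit 160)) (PT.lf (nat_lit 9196) (nat_lit 6) (nat_lit 121) (nat_lit 5) (nat_lit 141) (nat_lit 150) (nat_lit 159)))) (PT.nd (nat_lit 156) (PT.nd (nat_lit 78) (PT.lf (nat_lit 9880) (nat_lit 6) (nat_lit 130) (nat_lit 5) (nat_lit 142) (nat_lit 150) (nat_lit 158)) (PT.lf (nat_lit 10488) (nat_lit 6) (nat_lit 138) (nat_lit 5) (nat_lit 143) (nat_lit 150) (nat_lit 157))) (PT.nd (nat_lit 78) (PT.lf (nat_lit 11020) (nat_lit 6) (nat_lit 145) (nat_lit 5) (nat_lit 144) (nat_lit 150) (nat_lit 156)) (PT.lf (nat_lit 11476) (nat_lit 6) (nat_lit 151) (nat_lit 5) (nat_lit 145) (nat_lit 150) (nat_lit 155))))))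 (PT.nd (nat_lit 546) (PT.nd (nat_lit 234) (PT.nd (nat_lit 78) (PT.lf (nat_lit 11856) (nat_lit 6) (nat_lit 156) (nat_lit 5) (nat_lit 146) (nat_lit 150) (nat_lit 154)) (PT.nd (nat_lit 78) (PT.lf (nat_lit 12160) (nat_lit 6) (nat_lit 160) (nat_lit 5) (nat_lit 147) (nat_lit 150) (nat_lit 153)) (PT.lf (nat_lit 12388) (nat_lit 6) (nat_lit 163) (nat_lit 5) (nat_lit 148) (nat_lit 150) (nat_lit 152)))) (PT.nd (nat_lit 156) (PT.nd (nat_lit 78) (PT.lf (nat_lit 12540) (nat_lit 6) (nat_lit 165) (nat_lit 5) (nat_lit 149) (nat_lit 150) (nat_lit 151)) (PT.lf (nat_lit 12616) (nat_lit 1) (nat_lit 166) (nat_lit 0) (nat_lit 150) (nat_lit 150) (nat_lit 150))) (PT.nd (nat_lit 78) (PT.lf (nat_lit 12540) (nat_lit 6) (nat_lit 165) (nat_lit 0) (nat_lit 151) (nat_lit 150) (nat_lit 149)) (PT.lf (nat_lit 12388) (nat_lit 6) (nat_lit 163) (nat_lit 0) (nat_lit 152) (nat_lit 150) (nat_lit 148))))) (PT.nd (nat_lit 234) (PT.nd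 (nat_lit 78) (PT.lf (nat_lit 12160) (nat_lit 6) (nat_lit 160) (nat_lit 0) (nat_lit 153) (nat_lit 150) (nat_lit 147)) (PT.nd (nat_lit 78) (PT.lf (nat_lit 11856) (nat_lit 6) (nat_lit 156) (nat_lit 0) (nat_lit 154) (nat_lit 150) (nat_lit 146)) (PT.lf (nat_lit 11476) (nat_lit 6) (nat_lit 151) (nat_lit 0) (nat_lit 155) (nat_lit 150) (nat_lit 145)))) (PT.nd (nat_lit 156) (PT.nd (nat_lit 78) (PT.lf (nat_lit 11020) (nat_lit 6) (nat_lit 145) (nat_lit 0) (nat_lit 156) (nat_lit 150) (nat_lit 144)) (PT.lf (nat_lit 10488) (nat_lit 6) (nat_lit 138) (nat_lit 0) (nat_lit 157) (nat_lit 150) (nat_lit 143))) (PT.nd (nat_lit 78) (PT.lf (nat_lit 9880) (nat_lit 6) (nat_lit 130) (nat_lit 0) (nat_lit 158) (nat_lit 150) (nat_lit 142)) (PT.lf (nat_lit 9196) (nat_lit 6) (nat_lit 121) (nat_lit 0) (nat_lit 159) (nat_lit 150) (nat_lit 141))))))) (PT.nd (nat_lit 46254) (PT.nd (nat_lit 45708) (PT.nd (nat_lit 45396) (PT.nd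 (nat_lit 45240) (PT.lf (nat_lit 8436) (nat_lit 6) (nat_lit 111) (nat_lit 0) (nat_lit 160) (nat_lit 150) (nat_lit 140)) (PT.nd (nat_lit 78) (PT.lf (nat_lit 7676) (nat_lit 6) (nat_lit 101) (nat_lit 5) (nat_lit 139) (nat_lit 151) (nat_lit 160)) (PT.lf (nat_lit 8512) (nat_lit 6) (nat_lit 112) (nat_lit 5) (nat_lit 140) (nat_lit 151) (nat_lit 159)))) (PT.nd (nat_lit 156) (PT.nd (nat_lit 78) (PT.lf (nat_lit 9272) (nat_lit 6) (nat_lit 122) (nat_lit 5) (nat_lit 141) (nat_lit 151) (nat_lit 158)) (PT.lf (nat_lit 9956) (nat_lit 6) (nat_lit 131) (nat_lit 5) (nat_lit 142) (nat_lit 151) (nat_lit 157))) (PT.nd (nat_lit 78) (PT.lf (nat_lit 10564) (nat_lit 6) (nat_lit 139) (nat_lit 5) (nat_lit 143) (nat_lit 151) (nat_lit 156)) (PT.lf (nat_lit 11096) (nat_lit 6) (nat_lit 146) (nat_lit 5) (nat_lit 144) (nat_lit 151) (nat_lit 155))))) (PT.nd (nat_lit 234) (PT.nd (nat_lit 78) (PT.lf (nat_lit 11552) (nat_lit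 6) (nat_lit 152) (nat_lit 5) (nat_lit 145) (nat_lit 151) (nat_lit 154)) (PT.nd (nat_lit 78) (PT.lf (nat_lit 11932) (nat_lit 6) (nat_lit 157) (nat_lit 5) (nat_lit 146) (nat_lit 151) (nat_lit 153)) (PT.lf (nat_lit 12236) (nat_lit 6) (nat_lit 161) (nat_lit 5) (nat_lit 147) (nat_lit 151) (nat_lit 152)))) (PT.nd (nat_lit 156) (PT.nd (nat_lit 78) (PT.lf (nat_lit 12464) (nat_lit 3) (nat_lit 164) (nat_lit 4) (nat_lit 148) (nat_lit 151) (nat_lit 151)) (PT.lf (nat_lit 12540) (nat_lit 6) (nat_lit 165) (nat_lit 4) (nat_lit 149) (nat_lit 151) (nat_lit 150))) (PT.nd (nat_lit 78) (PT.lf (nat_lit 12540) (nat_lit 6) (nat_lit 165) (nat_lit 2) (nat_lit 150) (nat_lit 151) (nat_lit 149)) (PT.lf (nat_lit 12464) (nat_lit 3) (nat_lit 164) (nat_lit 0) (nat_lit 151) (nat_lit 151) (nat_lit 148)))))) (PT.nd (nat_lit 546) (PT.nd (nat_lit 234) (PT.nd (nat_lit 78) (PT.lf (nat_lit 12236) (nat_lit 6) (nat_lit 161) (nat_lit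 0) (nat_lit 152) (nat_lit 151) (nat_lit 147)) (PT.nd (nat_lit 78) (PT.lf (nat_lit 11932) (nat_lit 6) (nat_lit 157) (nat_lit 0) (nat_lit 153) (nat_lit 151) (nat_lit 146)) (PT.lf (nat_lit 11552) (nat_lit 6) (nat_lit 152) (nat_lit 0) (nat_lit 154) (nat_lit 151) (nat_lit 145)))) (PT.nd (nat_lit 156) (PT.nd (nat_lit 78) (PT.lf (nat_lit 11096) (nat_lit 6) (nat_lit 146) (nat_lit 0) (nat_lit 155) (nat_lit 151) (nat_lit 144)) (PT.lf (nat_lit 10564) (nat_lit 6) (nat_lit 139) (nat_lit 0) (nat_lit 156) (nat_lit 151) (nat_lit 143))) (PT.nd (nat_lit 78) (PT.lf (nat_lit 9956) (nat_lit 6) (nat_lit 131) (nat_lit 0) (nat_lit 157) (nat_lit 151) (nat_lit 142)) (PT.lf (nat_lit 9272) (nat_lit 6) (nat_lit 122) (nat_lit 0) (nat_lit 158) (nat_lit 151) (nat_lit 141))))) (PT.nd (nat_lit 45240) (PT.nd (nat_lit 78) (PT.lf (nat_lit 8512) (nat_lit 6) (nat_lit 112) (nat_lit 0) (nat_lit 159) (nat_lit 151) (nat_lit 140))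 (PT.nd (nat_lit 45084) (PT.lf (nat_lit 7676) (nat_lit 6) (nat_lit 101) (nat_lit 0) (nat_lit 160) (nat_lit 151) (nat_lit 139)) (PT.lf (nat_lit 6916) (nat_lit 6) (nat_lit 91) (nat_lit 5) (nat_lit 137) (nat_lit 152) (nat_lit 161)))) (PT.nd (nat_lit 156) (PT.nd (nat_lit 78) (PT.lf (nat_lit 7296) (nat_lit 6) (nat_lit 96) (nat_lit 5) (nat_lit 138) (nat_lit 152) (nat_lit 160)) (PT.lf (nat_lit 7752) (nat_lit 6) (nat_lit 102) (nat_lit 5) (nat_lit 139) (nat_lit 152) (nat_lit 159))) (PT.nd (nat_lit 78) (PT.lf (nat_lit 8588) (nat_lit 6) (nat_lit 113) (nat_lit 5) (nat_lit 140) (nat_lit 152) (nat_lit 158)) (PT.lf (nat_lit 9348) (nat_lit 6) (nat_lit 123) (nat_lit 5) (nat_lit 141) (nat_lit 152) (nat_lit 157))))))))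
noncomputable def pc7 : PT := (PT.nd (nat_lit 47034) (PT.nd (nat_lit 1092) (PT.nd (nat_lit 546) (PT.nd (nat_lit 234) (PT.nd (nat_lit 78) (PT.lf (nat_lit 10032) (nat_lit 6) (nat_lit 132) (nat_lit 5) (nat_lit 142) (nat_lit 152) (nat_lit 156)) (PT.nd (nat_lit 78) (PT.lf (nat_lit 10640) (nat_lit 6) (nat_lit 140) (nat_lit 5) (nat_lit 143) (nat_lit 152) (nat_lit 155)) (PT.lf (nat_lit 11172) (nat_lit 6) (nat_lit 147) (nat_lit 5) (nat_lit 144) (nat_lit 152) (nat_lit 154)))) (PT.nd (nat_lit 156) (PT.nd (nat_lit 78) (PT.lf (nat_lit 11628) (nat_lit 6) (nat_lit 153) (nat_lit 5) (nat_lit 145) (nat_lit 152) (nat_lit 153)) (PT.lf (nat_lit 12008) (nat_lit 3) (nat_lit 158) (nat_lit 4) (nat_lit 146) (nat_lit 152) (nat_lit 152))) (PT.nd (nat_lit 78) (PT.lf (nat_lit 12236) (nat_lit 6) (nat_lit 161) (nat_lit 4) (nat_lit 147) (nat_lit 152) (nat_lit 151)) (PT.lf (nat_lit 12388) (nat_lit 6) (nat_lit 163) (nat_lit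 4) (nat_lit 148) (nat_lit 152) (nat_lit 150))))) (PT.nd (nat_lit 234) (PT.nd (nat_lit 78) (PT.lf (nat_lit 12312) (nat_lit 3) (nat_lit 162) (nat_lit 2) (nat_lit 149) (nat_lit 152) (nat_lit 149)) (PT.nd (nat_lit 78) (PT.lf (nat_lit 12388) (nat_lit 6) (nat_lit 163) (nat_lit 2) (nat_lit 150) (nat_lit 152) (nat_lit 148)) (PT.lf (nat_lit 12236) (nat_lit 6) (nat_lit 161) (nat_lit 2) (nat_lit 151) (nat_lit 152) (nat_lit 147)))) (PT.nd (nat_lit 156) (PT.nd (nat_lit 78) (PT.lf (nat_lit 12008) (nat_lit 3) (nat_lit 158) (nat_lit 0) (nat_lit 152) (nat_lit 152) (nat_lit 146)) (PT.lf (nat_lit 11628) (nat_lit 6) (nat_lit 153) (nat_lit 0) (nat_lit 153) (nat_lit 152) (nat_lit 145))) (PT.nd (nat_lit 78) (PT.lf (nat_lit 11172) (nat_lit 6) (nat_lit 147) (nat_lit 0) (nat_lit 154) (nat_lit 152) (nat_lit 144)) (PT.lf (nat_lit 10640) (nat_lit 6) (nat_lit 140) (nat_lit 0) (nat_lit 155) (nat_lit 152) (nat_lit 143))))))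 (PT.nd (nat_lit 45396) (PT.nd (nat_lit 234) (PT.nd (nat_lit 78) (PT.lf (nat_lit 10032) (nat_lit 6) (nat_lit 132) (nat_lit 0) (nat_lit 156) (nat_lit 152) (nat_lit 142)) (PT.nd (nat_lit 78) (PT.lf (nat_lit 9348) (nat_lit 6) (nat_lit 123) (nat_lit 0) (nat_lit 157) (nat_lit 152) (nat_lit 141)) (PT.lf (nat_lit 8588) (nat_lit 6) (nat_lit 113) (nat_lit 0) (nat_lit 158) (nat_lit 152) (nat_lit 140)))) (PT.nd (nat_lit 156) (PT.nd (nat_lit 78) (PT.lf (nat_lit 7752) (nat_lit 6) (nat_lit 102) (nat_lit 0) (nat_lit 159) (nat_lit 152) (nat_lit 139)) (PT.lf (nat_lit 7296) (nat_lit 6) (nat_lit 96) (nat_lit 0) (nat_lit 160) (nat_lit 152) (nat_lit 138))) (PT.nd (nat_lit 44928) (PT.lf (nat_lit 6916) (nat_lit 6) (nat_lit 91) (nat_lit 0) (nat_lit 161) (nat_lit 152) (nat_lit 137)) (PT.lf (nat_lit 6536) (nat_lit 6) (nat_lit 86) (nat_lit 5) (nat_lit 136) (nat_lit 153) (nat_lit 161))))) (PT.nd (nat_lit 234) (PT.nd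 (nat_lit 78) (PT.lf (nat_lit 6992) (nat_lit 6) (nat_lit 92) (nat_lit 5) (nat_lit 137) (nat_lit 153) (nat_lit 160)) (PT.nd (nat_lit 78) (PT.lf (nat_lit 7372) (nat_lit 6) (nat_lit 97) (nat_lit 5) (nat_lit 138) (nat_lit 153) (nat_lit 159)) (PT.lf (nat_lit 7828) (nat_lit 6) (nat_lit 103) (nat_lit 5) (nat_lit 139) (nat_lit 153) (nat_lit 158)))) (PT.nd (nat_lit 156) (PT.nd (nat_lit 78) (PT.lf (nat_lit 8664) (nat_lit 6) (nat_lit 114) (nat_lit 5) (nat_lit 140) (nat_lit 153) (nat_lit 157)) (PT.lf (nat_lit 9424) (nat_lit 6) (nat_lit 124) (nat_lit 5) (nat_lit 141) (nat_lit 153) (nat_lit 156))) (PT.nd (nat_lit 78) (PT.lf (nat_lit 10108) (nat_lit 6) (nat_lit 133) (nat_lit 5) (nat_lit 142) (nat_lit 153) (nat_lit 155)) (PT.lf (nat_lit 10716) (nat_lit 6) (nat_lit 141) (nat_lit 5) (nat_lit 143) (nat_lit 153) (nat_lit 154))))))) (PT.nd (nat_lit 1092) (PT.nd (nat_lit 546) (PT.nd (nat_lit 234) (PT.nd (nat_lit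 78) (PT.lf (nat_lit 11248) (nat_lit 3) (nat_lit 148) (nat_lit 4) (nat_lit 144) (nat_lit 153) (nat_lit 153)) (PT.nd (nat_lit 78) (PT.lf (nat_lit 11628) (nat_lit 6) (nat_lit 153) (nat_lit 4) (nat_lit 145) (nat_lit 153) (nat_lit 152)) (PT.lf (nat_lit 11932) (nat_lit 6) (nat_lit 157) (nat_lit 4) (nat_lit 146) (nat_lit 153) (nat_lit 151)))) (PT.nd (nat_lit 156) (PT.nd (nat_lit 78) (PT.lf (nat_lit 12160) (nat_lit 6) (nat_lit 160) (nat_lit 4) (nat_lit 147) (nat_lit 153) (nat_lit 150)) (PT.lf (nat_lit 12084) (nat_lit 6) (nat_lit 159) (nat_lit 4) (nat_lit 148) (nat_lit 153) (nat_lit 149))) (PT.nd (nat_lit 78) (PT.lf (nat_lit 12084) (nat_lit 6) (nat_lit 159) (nat_lit 2) (nat_lit 149) (nat_lit 153) (nat_lit 148)) (PT.lf (nat_lit 12160) (nat_lit 6) (nat_lit 160) (nat_lit 2) (nat_lit 150) (nat_lit 153) (nat_lit 147))))) (PT.nd (nat_lit 234) (PT.nd (nat_lit 78) (PT.lf (nat_lit 11932) (nat_lit 6) (nat_lit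 157) (nat_lit 2) (nat_lit 151) (nat_lit 153) (nat_lit 146)) (PT.nd (nat_lit 78) (PT.lf (nat_lit 11628) (nat_lit 6) (nat_lit 153) (nat_lit 2) (nat_lit 152) (nat_lit 153) (nat_lit 145)) (PT.lf (nat_lit 11248) (nat_lit 3) (nat_lit 148) (nat_lit 0) (nat_lit 153) (nat_lit 153) (nat_lit 144)))) (PT.nd (nat_lit 156) (PT.nd (nat_lit 78) (PT.lf (nat_lit 10716) (nat_lit 6) (nat_lit 141) (nat_lit 0) (nat_lit 154) (nat_lit 153) (nat_lit 143)) (PT.lf (nat_lit 10108) (nat_lit 6) (nat_lit 133) (nat_lit 0) (nat_lit 155) (nat_lit 153) (nat_lit 142))) (PT.nd (nat_lit 78) (PT.lf (nat_lit 9424) (nat_lit 6) (nat_lit 124) (nat_lit 0) (nat_lit 156) (nat_lit 153) (nat_lit 141)) (PT.lf (nat_lit 8664) (nat_lit 6) (nat_lit 114) (nat_lit 0) (nat_lit 157) (nat_lit 153) (nat_lit 140)))))) (PT.nd (nat_lit 45318) (PT.nd (nat_lit 234) (PT.nd (nat_lit 78) (PT.lf (nat_lit 7828) (nat_lit 6) (nat_lit 103) (nat_lit 0) (nat_lit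 158) (nat_lit 153) (nat_lit 139)) (PT.nd (nat_lit 78) (PT.lf (nat_lit 7372) (nat_lit 6) (nat_lit 97) (nat_lit 0) (nat_lit 159) (nat_lit 153) (nat_lit 138)) (PT.lf (nat_lit 6992) (nat_lit 6) (nat_lit 92) (nat_lit 0) (nat_lit 160) (nat_lit 153) (nat_lit 137)))) (PT.nd (nat_lit 44928) (PT.nd (nat_lit 44850) (PT.lf (nat_lit 6536) (nat_lit 6) (nat_lit 86) (nat_lit 0) (nat_lit 161) (nat_lit 153) (nat_lit 136)) (PT.lf (nat_lit 6232) (nat_lit 6) (nat_lit 82) (nat_lit 5) (nat_lit 135) (nat_lit 154) (nat_lit 161))) (PT.nd (nat_lit 78) (PT.lf (nat_lit 6612) (nat_lit 6) (nat_lit 87) (nat_lit 5) (nat_lit 136) (nat_lit 154) (nat_lit 160)) (PT.lf (nat_lit 7068) (nat_lit 6) (nat_lit 93) (nat_lit 5) (nat_lit 137) (nat_lit 154) (nat_lit 159))))) (PT.nd (nat_lit 312) (PT.nd (nat_lit 156) (PT.nd (nat_lit 78) (PT.lf (nat_lit 7448) (nat_lit 6) (nat_lit 98) (nat_lit 5) (nat_lit 138) (nat_lit 154) (nat_lit 158))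 (PT.lf (nat_lit 7904) (nat_lit 6) (nat_lit 104) (nat_lit 5) (nat_lit 139) (nat_lit 154) (nat_lit 157))) (PT.nd (nat_lit 78) (PT.lf (nat_lit 8740) (nat_lit 6) (nat_lit 115) (nat_lit 5) (nat_lit 140) (nat_lit 154) (nat_lit 156)) (PT.lf (nat_lit 9500) (nat_lit 6) (nat_lit 125) (nat_lit 5) (nat_lit 141) (nat_lit 154) (nat_lit 155)))) (PT.nd (nat_lit 156) (PT.nd (nat_lit 78) (PT.lf (nat_lit 10184) (nat_lit 3) (nat_lit 134) (nat_lit 4) (nat_lit 142) (nat_lit 154) (nat_lit 154)) (PT.lf (nat_lit 10716) (nat_lit 6) (nat_lit 141) (nat_lit 4) (nat_lit 143) (nat_lit 154) (nat_lit 153))) (PT.nd (nat_lit 78) (PT.lf (nat_lit 11172) (nat_lit 6) (nat_lit 147) (nat_lit 4) (nat_lit 144) (nat_lit 154) (nat_lit 152)) (PT.lf (nat_lit 11552) (nat_lit 6) (nat_lit 152) (nat_lit 4) (nat_lit 145) (nat_lit 154) (nat_lit 151))))))))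
noncomputable def pc8 : PT := (PT.nd (nat_lit 46800) (PT.nd (nat_lit 1092) (PT.nd (nat_lit 546) (PT.nd (nat_lit 234) (PT.nd (nat_lit 78) (PT.lf (nat_lit 11856) (nat_lit 6) (nat_lit 156) (nat_lit 4) (nat_lit 146) (nat_lit 154) (nat_lit 150)) (PT.nd (nat_lit 78) (PT.lf (nat_lit 11780) (nat_lit 6) (nat_lit 155) (nat_lit 4) (nat_lit 147) (nat_lit 154) (nat_lit 149)) (PT.lf (nat_lit 11704) (nat_lit 3) (nat_lit 154) (nat_lit 2) (nat_lit 148) (nat_lit 154) (nat_lit 148)))) (PT.nd (nat_lit 156) (PT.nd (nat_lit 78) (PT.lf (nat_lit 11780) (nat_lit 6) (nat_lit 155) (nat_lit 2) (nat_lit 149) (nat_lit 154) (nat_lit 147)) (PT.lf (nat_lit 11856) (nat_lit 6) (nat_lit 156) (nat_lit 2) (nat_lit 150) (nat_lit 154) (nat_lit 146))) (PT.nd (nat_lit 78) (PT.lf (nat_lit 11552) (nat_lit 6) (nat_lit 152) (nat_lit 2) (nat_lit 151) (nat_lit 154) (nat_lit 145)) (PT.lf (nat_lit 11172) (nat_lit 6) (nat_lit 147) (nat_lit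 2) (nat_lit 152) (nat_lit 154) (nat_lit 144))))) (PT.nd (nat_lit 234) (PT.nd (nat_lit 78) (PT.lf (nat_lit 10716) (nat_lit 6) (nat_lit 141) (nat_lit 2) (nat_lit 153) (nat_lit 154) (nat_lit 143)) (PT.nd (nat_lit 78) (PT.lf (nat_lit 10184) (nat_lit 3) (nat_lit 134) (nat_lit 0) (nat_lit 154) (nat_lit 154) (nat_lit 142)) (PT.lf (nat_lit 9500) (nat_lit 6) (nat_lit 125) (nat_lit 0) (nat_lit 155) (nat_lit 154) (nat_lit 141)))) (PT.nd (nat_lit 156) (PT.nd (nat_lit 78) (PT.lf (nat_lit 8740) (nat_lit 6) (nat_lit 115) (nat_lit 0) (nat_lit 156) (nat_lit 154) (nat_lit 140)) (PT.lf (nat_lit 7904) (nat_lit 6) (nat_lit 104) (nat_lit 0) (nat_lit 157) (nat_lit 154) (nat_lit 139))) (PT.nd (nat_lit 78) (PT.lf (nat_lit 7448) (nat_lit 6) (nat_lit 98) (nat_lit 0) (nat_lit 158) (nat_lit 154) (nat_lit 138)) (PT.lf (nat_lit 7068) (nat_lit 6) (nat_lit 93) (nat_lit 0) (nat_lit 159) (nat_lit 154) (nat_lit 137))))))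 (PT.nd (nat_lit 45162) (PT.nd (nat_lit 44850) (PT.nd (nat_lit 78) (PT.lf (nat_lit 6612) (nat_lit 6) (nat_lit 87) (nat_lit 0) (nat_lit 160) (nat_lit 154) (nat_lit 136)) (PT.nd (nat_lit 44694) (PT.lf (nat_lit 6232) (nat_lit 6) (nat_lit 82) (nat_lit 0) (nat_lit 161) (nat_lit 154) (nat_lit 135)) (PT.lf (nat_lit 5624) (nat_lit 6) (nat_lit 74) (nat_lit 5) (nat_lit 133) (nat_lit 155) (nat_lit 162)))) (PT.nd (nat_lit 156) (PT.nd (nat_lit 78) (PT.lf (nat_lit 5928) (nat_lit 6) (nat_lit 78) (nat_lit 5) (nat_lit 134) (nat_lit 155) (nat_lit 161)) (PT.lf (nat_lit 6308) (nat_lit 6) (nat_lit 83) (nat_lit 5) (nat_lit 135) (nat_lit 155) (nat_lit 160))) (PT.nd (nat_lit 78) (PT.lf (nat_lit 6688) (nat_lit 6) (nat_lit 88) (nat_lit 5) (nat_lit 136) (nat_lit 155) (nat_lit 159)) (PT.lf (nat_lit 7144) (nat_lit 6) (nat_lit 94) (nat_lit 5) (nat_lit 137) (nat_lit 155) (nat_lit 158))))) (PT.nd (nat_lit 234) (PT.nd (nat_lit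 78) (PT.lf (nat_lit 7524) (nat_lit 6) (nat_lit 99) (nat_lit 5) (nat_lit 138) (nat_lit 155) (nat_lit 157)) (PT.nd (nat_lit 78) (PT.lf (nat_lit 7980) (nat_lit 6) (nat_lit 105) (nat_lit 5) (nat_lit 139) (nat_lit 155) (nat_lit 156)) (PT.lf (nat_lit 8816) (nat_lit 3) (nat_lit 116) (nat_lit 4) (nat_lit 140) (nat_lit 155) (nat_lit 155)))) (PT.nd (nat_lit 156) (PT.nd (nat_lit 78) (PT.lf (nat_lit 9500) (nat_lit 6) (nat_lit 125) (nat_lit 4) (nat_lit 141) (nat_lit 155) (nat_lit 154)) (PT.lf (nat_lit 10108) (nat_lit 6) (nat_lit 133) (nat_lit 4) (nat_lit 142) (nat_lit 155) (nat_lit 153))) (PT.nd (nat_lit 78) (PT.lf (nat_lit 10640) (nat_lit 6) (nat_lit 140) (nat_lit 4) (nat_lit 143) (nat_lit 155) (nat_lit 152)) (PT.lf (nat_lit 11096) (nat_lit 6) (nat_lit 146) (nat_lit 4) (nat_lit 144) (nat_lit 155) (nat_lit 151))))))) (PT.nd (nat_lit 1092) (PT.nd (nat_lit 546) (PT.nd (nat_lit 234) (PT.nd (nat_lit 78)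 (PT.lf (nat_lit 11476) (nat_lit 6) (nat_lit 151) (nat_lit 4) (nat_lit 145) (nat_lit 155) (nat_lit 150)) (PT.nd (nat_lit 78) (PT.lf (nat_lit 11400) (nat_lit 6) (nat_lit 150) (nat_lit 4) (nat_lit 146) (nat_lit 155) (nat_lit 149)) (PT.lf (nat_lit 11324) (nat_lit 6) (nat_lit 149) (nat_lit 4) (nat_lit 147) (nat_lit 155) (nat_lit 148)))) (PT.nd (nat_lit 156) (PT.nd (nat_lit 78) (PT.lf (nat_lit 11324) (nat_lit 6) (nat_lit 149) (nat_lit 2) (nat_lit 148) (nat_lit 155) (nat_lit 147)) (PT.lf (nat_lit 11400) (nat_lit 6) (nat_lit 150) (nat_lit 2) (nat_lit 149) (nat_lit 155) (nat_lit 146))) (PT.nd (nat_lit 78) (PT.lf (nat_lit 11476) (nat_lit 6) (nat_lit 151) (nat_lit 2) (nat_lit 150) (nat_lit 155) (nat_lit 145)) (PT.lf (nat_lit 11096) (nat_lit 6) (nat_lit 146) (nat_lit 2) (nat_lit 151) (nat_lit 155) (nat_lit 144))))) (PT.nd (nat_lit 234) (PT.nd (nat_lit 78) (PT.lf (nat_lit 10640) (nat_lit 6) (nat_lit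 140) (nat_lit 2) (nat_lit 152) (nat_lit 155) (nat_lit 143)) (PT.nd (nat_lit 78) (PT.lf (nat_lit 10108) (nat_lit 6) (nat_lit 133) (nat_lit 2) (nat_lit 153) (nat_lit 155) (nat_lit 142)) (PT.lf (nat_lit 9500) (nat_lit 6) (nat_lit 125) (nat_lit 2) (nat_lit 154) (nat_lit 155) (nat_lit 141)))) (PT.nd (nat_lit 156) (PT.nd (nat_lit 78) (PT.lf (nat_lit 8816) (nat_lit 3) (nat_lit 116) (nat_lit 0) (nat_lit 155) (nat_lit 155) (nat_lit 140)) (PT.lf (nat_lit 7980) (nat_lit 6) (nat_lit 105) (nat_lit 0) (nat_lit 156) (nat_lit 155) (nat_lit 139))) (PT.nd (nat_lit 78) (PT.lf (nat_lit 7524) (nat_lit 6) (nat_lit 99) (nat_lit 0) (nat_lit 157) (nat_lit 155) (nat_lit 138)) (PT.lf (nat_lit 7144) (nat_lit 6) (nat_lit 94) (nat_lit 0) (nat_lit 158) (nat_lit 155) (nat_lit 137)))))) (PT.nd (nat_lit 45006) (PT.nd (nat_lit 234) (PT.nd (nat_lit 78) (PT.lf (nat_lit 6688) (nat_lit 6) (nat_lit 88) (nat_lit 0) (nat_lit 159)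 (nat_lit 155) (nat_lit 136)) (PT.nd (nat_lit 78) (PT.lf (nat_lit 6308) (nat_lit 6) (nat_lit 83) (nat_lit 0) (nat_lit 160) (nat_lit 155) (nat_lit 135)) (PT.lf (nat_lit 5928) (nat_lit 6) (nat_lit 78) (nat_lit 0) (nat_lit 161) (nat_lit 155) (nat_lit 134)))) (PT.nd (nat_lit 44616) (PT.nd (nat_lit 44538) (PT.lf (nat_lit 5624) (nat_lit 6) (nat_lit 74) (nat_lit 0) (nat_lit 162) (nat_lit 155) (nat_lit 133)) (PT.lf (nat_lit 5320) (nat_lit 6) (nat_lit 70) (nat_lit 5) (nat_lit 132) (nat_lit 156) (nat_lit 162))) (PT.nd (nat_lit 78) (PT.lf (nat_lit 5700) (nat_lit 6) (nat_lit 75) (nat_lit 5) (nat_lit 133) (nat_lit 156) (nat_lit 161)) (PT.lf (nat_lit 6004) (nat_lit 6) (nat_lit 79) (nat_lit 5) (nat_lit 134) (nat_lit 156) (nat_lit 160))))) (PT.nd (nat_lit 234) (PT.nd (nat_lit 78) (PT.lf (nat_lit 6384) (nat_lit 6) (nat_lit 84) (nat_lit 5) (nat_lit 135) (nat_lit 156) (nat_lit 159)) (PT.nd (nat_lit 78) (PT.lf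 (nat_lit 6764) (nat_lit 6) (nat_lit 89) (nat_lit 5) (nat_lit 136) (nat_lit 156) (nat_lit 158)) (PT.lf (nat_lit 7220) (nat_lit 6) (nat_lit 95) (nat_lit 5) (nat_lit 137) (nat_lit 156) (nat_lit 157)))) (PT.nd (nat_lit 156) (PT.nd (nat_lit 78) (PT.lf (nat_lit 7600) (nat_lit 3) (nat_lit 100) (nat_lit 4) (nat_lit 138) (nat_lit 156) (nat_lit 156)) (PT.lf (nat_lit 7980) (nat_lit 6) (nat_lit 105) (nat_lit 4) (nat_lit 139) (nat_lit 156) (nat_lit 155))) (PT.nd (nat_lit 78) (PT.lf (nat_lit 8740) (nat_lit 6) (nat_lit 115) (nat_lit 4) (nat_lit 140) (nat_lit 156) (nat_lit 154)) (PT.lf (nat_lit 9424) (nat_lit 6) (nat_lit 124) (nat_lit 4) (nat_lit 141) (nat_lit 156) (nat_lit 153))))))))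
noncomputable def pc9 : PT := (PT.nd (nat_lit 46488) (PT.nd (nat_lit 1092) (PT.nd (nat_lit 546) (PT.nd (nat_lit 234) (PT.nd (nat_lit 78) (PT.lf (nat_lit 10032) (nat_lit 6) (nat_lit 132) (nat_lit 4) (nat_lit 142) (nat_lit 156) (nat_lit 152)) (PT.nd (nat_lit 78) (PT.lf (nat_lit 10564) (nat_lit 6) (nat_lit 139) (nat_lit 4) (nat_lit 143) (nat_lit 156) (nat_lit 151)) (PT.lf (nat_lit 11020) (nat_lit 6) (nat_lit 145) (nat_lit 4) (nat_lit 144) (nat_lit 156) (nat_lit 150)))) (PT.nd (nat_lit 156) (PT.nd (nat_lit 78) (PT.lf (nat_lit 10944) (nat_lit 6) (nat_lit 144) (nat_lit 4) (nat_lit 145) (nat_lit 156) (nat_lit 149)) (PT.lf (nat_lit 10868) (nat_lit 6) (nat_lit 143) (nat_lit 4) (nat_lit 146) (nat_lit 156) (nat_lit 148))) (PT.nd (nat_lit 78) (PT.lf (nat_lit 10792) (nat_lit 3) (nat_lit 142) (nat_lit 2) (nat_lit 147) (nat_lit 156) (nat_lit 147)) (PT.lf (nat_lit 10868) (nat_lit 6) (nat_lit 143) (nat_lit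 2) (nat_lit 148) (nat_lit 156) (nat_lit 146))))) (PT.nd (nat_lit 234) (PT.nd (nat_lit 78) (PT.lf (nat_lit 10944) (nat_lit 6) (nat_lit 144) (nat_lit 2) (nat_lit 149) (nat_lit 156) (nat_lit 145)) (PT.nd (nat_lit 78) (PT.lf (nat_lit 11020) (nat_lit 6) (nat_lit 145) (nat_lit 2) (nat_lit 150) (nat_lit 156) (nat_lit 144)) (PT.lf (nat_lit 10564) (nat_lit 6) (nat_lit 139) (nat_lit 2) (nat_lit 151) (nat_lit 156) (nat_lit 143)))) (PT.nd (nat_lit 156) (PT.nd (nat_lit 78) (PT.lf (nat_lit 10032) (nat_lit 6) (nat_lit 132) (nat_lit 2) (nat_lit 152) (nat_lit 156) (nat_lit 142)) (PT.lf (nat_lit 9424) (nat_lit 6) (nat_lit 124) (nat_lit 2) (nat_lit 153) (nat_lit 156) (nat_lit 141))) (PT.nd (nat_lit 78) (PT.lf (nat_lit 8740) (nat_lit 6) (nat_lit 115) (nat_lit 2) (nat_lit 154) (nat_lit 156) (nat_lit 140)) (PT.lf (nat_lit 7980) (nat_lit 6) (nat_lit 105) (nat_lit 2) (nat_lit 155) (nat_lit 156) (nat_lit 139))))))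 (PT.nd (nat_lit 44850) (PT.nd (nat_lit 234) (PT.nd (nat_lit 78) (PT.lf (nat_lit 7600) (nat_lit 3) (nat_lit 100) (nat_lit 0) (nat_lit 156) (nat_lit 156) (nat_lit 138)) (PT.nd (nat_lit 78) (PT.lf (nat_lit 7220) (nat_lit 6) (nat_lit 95) (nat_lit 0) (nat_lit 157) (nat_lit 156) (nat_lit 137)) (PT.lf (nat_lit 6764) (nat_lit 6) (nat_lit 89) (nat_lit 0) (nat_lit 158) (nat_lit 156) (nat_lit 136)))) (PT.nd (nat_lit 156) (PT.nd (nat_lit 78) (PT.lf (nat_lit 6384) (nat_lit 6) (nat_lit 84) (nat_lit 0) (nat_lit 159) (nat_lit 156) (nat_lit 135)) (PT.lf (nat_lit 6004) (nat_lit 6) (nat_lit 79) (nat_lit 0) (nat_lit 160) (nat_lit 156) (nat_lit 134))) (PT.nd (nat_lit 78) (PT.lf (nat_lit 5700) (nat_lit 6) (nat_lit 75) (nat_lit 0) (nat_lit 161) (nat_lit 156) (nat_lit 133)) (PT.lf (nat_lit 5320) (nat_lit 6) (nat_lit 70) (nat_lit 0) (nat_lit 162) (nat_lit 156) (nat_lit 132))))) (PT.nd (nat_lit 234) (PT.nd (nat_lit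 78) (PT.lf (nat_lit 4788) (nat_lit 6) (nat_lit 63) (nat_lit 5) (nat_lit 130) (nat_lit 157) (nat_lit 163)) (PT.nd (nat_lit 78) (PT.lf (nat_lit 5092) (nat_lit 6) (nat_lit 67) (nat_lit 5) (nat_lit 131) (nat_lit 157) (nat_lit 162)) (PT.lf (nat_lit 5396) (nat_lit 6) (nat_lit 71) (nat_lit 5) (nat_lit 132) (nat_lit 157) (nat_lit 161)))) (PT.nd (nat_lit 156) (PT.nd (nat_lit 78) (PT.lf (nat_lit 5776) (nat_lit 6) (nat_lit 76) (nat_lit 5) (nat_lit 133) (nat_lit 157) (nat_lit 160)) (PT.lf (nat_lit 6080) (nat_lit 6) (nat_lit 80) (nat_lit 5) (nat_lit 134) (nat_lit 157) (nat_lit 159))) (PT.nd (nat_lit 78) (PT.lf (nat_lit 6460) (nat_lit 6) (nat_lit 85) (nat_lit 5) (nat_lit 135) (nat_lit 157) (nat_lit 158)) (PT.lf (nat_lit 6840) (nat_lit 3) (nat_lit 90) (nat_lit 4) (nat_lit 136) (nat_lit 157) (nat_lit 157))))))) (PT.nd (nat_lit 1092) (PT.nd (nat_lit 546) (PT.nd (nat_lit 234) (PT.nd (nat_lit 78) (PT.lf (nat_lit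 7220) (nat_lit 6) (nat_lit 95) (nat_lit 4) (nat_lit 137) (nat_lit 157) (nat_lit 156)) (PT.nd (nat_lit 78) (PT.lf (nat_lit 7524) (nat_lit 6) (nat_lit 99) (nat_lit 4) (nat_lit 138) (nat_lit 157) (nat_lit 155)) (PT.lf (nat_lit 7904) (nat_lit 6) (nat_lit 104) (nat_lit 4) (nat_lit 139) (nat_lit 157) (nat_lit 154)))) (PT.nd (nat_lit 156) (PT.nd (nat_lit 78) (PT.lf (nat_lit 8664) (nat_lit 6) (nat_lit 114) (nat_lit 4) (nat_lit 140) (nat_lit 157) (nat_lit 153)) (PT.lf (nat_lit 9348) (nat_lit 6) (nat_lit 123) (nat_lit 4) (nat_lit 141) (nat_lit 157) (nat_lit 152))) (PT.nd (nat_lit 78) (PT.lf (nat_lit 9956) (nat_lit 6) (nat_lit 131) (nat_lit 4) (nat_lit 142) (nat_lit 157) (nat_lit 151)) (PT.lf (nat_lit 10488) (nat_lit 6) (nat_lit 138) (nat_lit 4) (nat_lit 143) (nat_lit 157) (nat_lit 150))))) (PT.nd (nat_lit 234) (PT.nd (nat_lit 78) (PT.lf (nat_lit 10412) (nat_lit 6) (nat_lit 137) (nat_lit 4) (nat_lit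 144) (nat_lit 157) (nat_lit 149)) (PT.nd (nat_lit 78) (PT.lf (nat_lit 10336) (nat_lit 6) (nat_lit 136) (nat_lit 4) (nat_lit 145) (nat_lit 157) (nat_lit 148)) (PT.lf (nat_lit 10260) (nat_lit 6) (nat_lit 135) (nat_lit 4) (nat_lit 146) (nat_lit 157) (nat_lit 147)))) (PT.nd (nat_lit 156) (PT.nd (nat_lit 78) (PT.lf (nat_lit 10260) (nat_lit 6) (nat_lit 135) (nat_lit 2) (nat_lit 147) (nat_lit 157) (nat_lit 146)) (PT.lf (nat_lit 10336) (nat_lit 6) (nat_lit 136) (nat_lit 2) (nat_lit 148) (nat_lit 157) (nat_lit 145))) (PT.nd (nat_lit 78) (PT.lf (nat_lit 10412) (nat_lit 6) (nat_lit 137) (nat_lit 2) (nat_lit 149) (nat_lit 157) (nat_lit 144)) (PT.lf (nat_lit 10488) (nat_lit 6) (nat_lit 138) (nat_lit 2) (nat_lit 150) (nat_lit 157) (nat_lit 143)))))) (PT.nd (nat_lit 546) (PT.nd (nat_lit 234) (PT.nd (nat_lit 78) (PT.lf (nat_lit 9956) (nat_lit 6) (nat_lit 131) (nat_lit 2) (nat_lit 151) (nat_lit 157) (nat_lit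 142)) (PT.nd (nat_lit 78) (PT.lf (nat_lit 9348) (nat_lit 6) (nat_lit 123) (nat_lit 2) (nat_lit 152) (nat_lit 157) (nat_lit 141)) (PT.lf (nat_lit 8664) (nat_lit 6) (nat_lit 114) (nat_lit 2) (nat_lit 153) (nat_lit 157) (nat_lit 140)))) (PT.nd (nat_lit 156) (PT.nd (nat_lit 78) (PT.lf (nat_lit 7904) (nat_lit 6) (nat_lit 104) (nat_lit 2) (nat_lit 154) (nat_lit 157) (nat_lit 139)) (PT.lf (nat_lit 7524) (nat_lit 6) (nat_lit 99) (nat_lit 2) (nat_lit 155) (nat_lit 157) (nat_lit 138))) (PT.nd (nat_lit 78) (PT.lf (nat_lit 7220) (nat_lit 6) (nat_lit 95) (nat_lit 2) (nat_lit 156) (nat_lit 157) (nat_lit 137)) (PT.lf (nat_lit 6840) (nat_lit 3) (nat_lit 90) (nat_lit 0) (nat_lit 157) (nat_lit 157) (nat_lit 136))))) (PT.nd (nat_lit 234) (PT.nd (nat_lit 78) (PT.lf (nat_lit 6460) (nat_lit 6) (nat_lit 85) (nat_lit 0) (nat_lit 158) (nat_lit 157) (nat_lit 135)) (PT.nd (nat_lit 78) (PT.lf (nat_lit 6080) (nat_lit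 6) (nat_lit 80) (nat_lit 0) (nat_lit 159) (nat_lit 157) (nat_lit 134)) (PT.lf (nat_lit 5776) (nat_lit 6) (nat_lit 76) (nat_lit 0) (nat_lit 160) (nat_lit 157) (nat_lit 133)))) (PT.nd (nat_lit 156) (PT.nd (nat_lit 78) (PT.lf (nat_lit 5396) (nat_lit 6) (nat_lit 71) (nat_lit 0) (nat_lit 161) (nat_lit 157) (nat_lit 132)) (PT.lf (nat_lit 5092) (nat_lit 6) (nat_lit 67) (nat_lit 0) (nat_lit 162) (nat_lit 157) (nat_lit 131))) (PT.nd (nat_lit 44226) (PT.lf (nat_lit 4788) (nat_lit 6) (nat_lit 63) (nat_lit 0) (nat_lit 163) (nat_lit 157) (nat_lit 130)) (PT.lf (nat_lit 4560) (nat_lit 6) (nat_lit 60) (nat_lit 5) (nat_lit 129) (nat_lit 158) (nat_lit 163))))))))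
noncomputable def pc10 : PT := (PT.nd (nat_lit 2184) (PT.nd (nat_lit 1092) (PT.nd (nat_lit 546) (PT.nd (nat_lit 234) (PT.nd (nat_lit 78) (PT.lf (nat_lit 4864) (nat_lit 6) (nat_lit 64) (nat_lit 5) (nat_lit 130) (nat_lit 158) (nat_lit 162)) (PT.nd (nat_lit 78) (PT.lf (nat_lit 5168) (nat_lit 6) (nat_lit 68) (nat_lit 5) (nat_lit 131) (nat_lit 158) (nat_lit 161)) (PT.lf (nat_lit 5472) (nat_lit 6) (nat_lit 72) (nat_lit 5) (nat_lit 132) (nat_lit 158) (nat_lit 160)))) (PT.nd (nat_lit 156) (PT.nd (nat_lit 78) (PT.lf (nat_lit 5852) (nat_lit 6) (nat_lit 77) (nat_lit 5) (nat_lit 133) (nat_lit 158) (nat_lit 159)) (PT.lf (nat_lit 6156) (nat_lit 3) (nat_lit 81) (nat_lit 4) (nat_lit 134) (nat_lit 158) (nat_lit 158))) (PT.nd (nat_lit 78) (PT.lf (nat_lit 6460) (nat_lit 6) (nat_lit 85) (nat_lit 4) (nat_lit 135) (nat_lit 158) (nat_lit 157)) (PT.lf (nat_lit 6764) (nat_lit 6) (nat_lit 89) (nat_lit 4) (nat_lit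 136) (nat_lit 158) (nat_lit 156))))) (PT.nd (nat_lit 234) (PT.nd (nat_lit 78) (PT.lf (nat_lit 7144) (nat_lit 6) (nat_lit 94) (nat_lit 4) (nat_lit 137) (nat_lit 158) (nat_lit 155)) (PT.nd (nat_lit 78) (PT.lf (nat_lit 7448) (nat_lit 6) (nat_lit 98) (nat_lit 4) (nat_lit 138) (nat_lit 158) (nat_lit 154)) (PT.lf (nat_lit 7828) (nat_lit 6) (nat_lit 103) (nat_lit 4) (nat_lit 139) (nat_lit 158) (nat_lit 153)))) (PT.nd (nat_lit 156) (PT.nd (nat_lit 78) (PT.lf (nat_lit 8588) (nat_lit 6) (nat_lit 113) (nat_lit 4) (nat_lit 140) (nat_lit 158) (nat_lit 152)) (PT.lf (nat_lit 9272) (nat_lit 6) (nat_lit 122) (nat_lit 4) (nat_lit 141) (nat_lit 158) (nat_lit 151))) (PT.nd (nat_lit 78) (PT.lf (nat_lit 9880) (nat_lit 6) (nat_lit 130) (nat_lit 4) (nat_lit 142) (nat_lit 158) (nat_lit 150)) (PT.lf (nat_lit 9804) (nat_lit 6) (nat_lit 129) (nat_lit 4) (nat_lit 143) (nat_lit 158) (nat_lit 149)))))) (PT.nd (nat_lit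 546) (PT.nd (nat_lit 234) (PT.nd (nat_lit 78) (PT.lf (nat_lit 9728) (nat_lit 6) (nat_lit 128) (nat_lit 4) (nat_lit 144) (nat_lit 158) (nat_lit 148)) (PT.nd (nat_lit 78) (PT.lf (nat_lit 9652) (nat_lit 6) (nat_lit 127) (nat_lit 4) (nat_lit 145) (nat_lit 158) (nat_lit 147)) (PT.lf (nat_lit 9576) (nat_lit 3) (nat_lit 126) (nat_lit 2) (nat_lit 146) (nat_lit 158) (nat_lit 146)))) (PT.nd (nat_lit 156) (PT.nd (nat_lit 78) (PT.lf (nat_lit 9652) (nat_lit 6) (nat_lit 127) (nat_lit 2) (nat_lit 147) (nat_lit 158) (nat_lit 145)) (PT.lf (nat_lit 9728) (nat_lit 6) (nat_lit 128) (nat_lit 2) (nat_lit 148) (nat_lit 158) (nat_lit 144))) (PT.nd (nat_lit 78) (PT.lf (nat_lit 9804) (nat_lit 6) (nat_lit 129) (nat_lit 2) (nat_lit 149) (nat_lit 158) (nat_lit 143)) (PT.lf (nat_lit 9880) (nat_lit 6) (nat_lit 130) (nat_lit 2) (nat_lit 150) (nat_lit 158) (nat_lit 142))))) (PT.nd (nat_lit 234) (PT.nd (nat_lit 78) (PT.lf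 (nat_lit 9272) (nat_lit 6) (nat_lit 122) (nat_lit 2) (nat_lit 151) (nat_lit 158) (nat_lit 141)) (PT.nd (nat_lit 78) (PT.lf (nat_lit 8588) (nat_lit 6) (nat_lit 113) (nat_lit 2) (nat_lit 152) (nat_lit 158) (nat_lit 140)) (PT.lf (nat_lit 7828) (nat_lit 6) (nat_lit 103) (nat_lit 2) (nat_lit 153) (nat_lit 158) (nat_lit 139)))) (PT.nd (nat_lit 156) (PT.nd (nat_lit 78) (PT.lf (nat_lit 7448) (nat_lit 6) (nat_lit 98) (nat_lit 2) (nat_lit 154) (nat_lit 158) (nat_lit 138)) (PT.lf (nat_lit 7144) (nat_lit 6) (nat_lit 94) (nat_lit 2) (nat_lit 155) (nat_lit 158) (nat_lit 137))) (PT.nd (nat_lit 78) (PT.lf (nat_lit 6764) (nat_lit 6) (nat_lit 89) (nat_lit 2) (nat_lit 156) (nat_lit 158) (nat_lit 136)) (PT.lf (nat_lit 6460) (nat_lit 6) (nat_lit 85) (nat_lit 2) (nat_lit 157) (nat_lit 158) (nat_lit 135))))))) (PT.nd (nat_lit 45084) (PT.nd (nat_lit 44538) (PT.nd (nat_lit 234) (PT.nd (nat_lit 78) (PT.lf (nat_lit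 6156) (nat_lit 3) (nat_lit 81) (nat_lit 0) (nat_lit 158) (nat_lit 158) (nat_lit 134)) (PT.nd (nat_lit 78) (PT.lf (nat_lit 5852) (nat_lit 6) (nat_lit 77) (nat_lit 0) (nat_lit 159) (nat_lit 158) (nat_lit 133)) (PT.lf (nat_lit 5472) (nat_lit 6) (nat_lit 72) (nat_lit 0) (nat_lit 160) (nat_lit 158) (nat_lit 132)))) (PT.nd (nat_lit 156) (PT.nd (nat_lit 78) (PT.lf (nat_lit 5168) (nat_lit 6) (nat_lit 68) (nat_lit 0) (nat_lit 161) (nat_lit 158) (nat_lit 131)) (PT.lf (nat_lit 4864) (nat_lit 6) (nat_lit 64) (nat_lit 0) (nat_lit 162) (nat_lit 158) (nat_lit 130))) (PT.nd (nat_lit 44070) (PT.lf (nat_lit 4560) (nat_lit 6) (nat_lit 60) (nat_lit 0) (nat_lit 163) (nat_lit 158) (nat_lit 129)) (PT.lf (nat_lit 4104) (nat_lit 6) (nat_lit 54) (nat_lit 5) (nat_lit 127) (nat_lit 159) (nat_lit 164))))) (PT.nd (nat_lit 234) (PT.nd (nat_lit 78) (PT.lf (nat_lit 4332) (nat_lit 6) (nat_lit 57) (nat_lit 5) (nat_lit 128)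 (nat_lit 159) (nat_lit 163)) (PT.nd (nat_lit 78) (PT.lf (nat_lit 4636) (nat_lit 6) (nat_lit 61) (nat_lit 5) (nat_lit 129) (nat_lit 159) (nat_lit 162)) (PT.lf (nat_lit 4940) (nat_lit 6) (nat_lit 65) (nat_lit 5) (nat_lit 130) (nat_lit 159) (nat_lit 161)))) (PT.nd (nat_lit 156) (PT.nd (nat_lit 78) (PT.lf (nat_lit 5244) (nat_lit 6) (nat_lit 69) (nat_lit 5) (nat_lit 131) (nat_lit 159) (nat_lit 160)) (PT.lf (nat_lit 5548) (nat_lit 3) (nat_lit 73) (nat_lit 4) (nat_lit 132) (nat_lit 159) (nat_lit 159))) (PT.nd (nat_lit 78) (PT.lf (nat_lit 5852) (nat_lit 6) (nat_lit 77) (nat_lit 4) (nat_lit 133) (nat_lit 159) (nat_lit 158)) (PT.lf (nat_lit 6080) (nat_lit 6) (nat_lit 80) (nat_lit 4) (nat_lit 134) (nat_lit 159) (nat_lit 157)))))) (PT.nd (nat_lit 546) (PT.nd (nat_lit 234) (PT.nd (nat_lit 78) (PT.lf (nat_lit 6384) (nat_lit 6) (nat_lit 84) (nat_lit 4) (nat_lit 135) (nat_lit 159) (nat_lit 156)) (PT.nd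 (nat_lit 78) (PT.lf (nat_lit 6688) (nat_lit 6) (nat_lit 88) (nat_lit 4) (nat_lit 136) (nat_lit 159) (nat_lit 155)) (PT.lf (nat_lit 7068) (nat_lit 6) (nat_lit 93) (nat_lit 4) (nat_lit 137) (nat_lit 159) (nat_lit 154)))) (PT.nd (nat_lit 156) (PT.nd (nat_lit 78) (PT.lf (nat_lit 7372) (nat_lit 6) (nat_lit 97) (nat_lit 4) (nat_lit 138) (nat_lit 159) (nat_lit 153)) (PT.lf (nat_lit 7752) (nat_lit 6) (nat_lit 102) (nat_lit 4) (nat_lit 139) (nat_lit 159) (nat_lit 152))) (PT.nd (nat_lit 78) (PT.lf (nat_lit 8512) (nat_lit 6) (nat_lit 112) (nat_lit 4) (nat_lit 140) (nat_lit 159) (nat_lit 151)) (PT.lf (nat_lit 9196) (nat_lit 6) (nat_lit 121) (nat_lit 4) (nat_lit 141) (nat_lit 159) (nat_lit 150))))) (PT.nd (nat_lit 234) (PT.nd (nat_lit 78) (PT.lf (nat_lit 9120) (nat_lit 6) (nat_lit 120) (nat_lit 4) (nat_lit 142) (nat_lit 159) (nat_lit 149)) (PT.nd (nat_lit 78) (PT.lf (nat_lit 9044) (nat_lit 6) (nat_lit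 119) (nat_lit 4) (nat_lit 143) (nat_lit 159) (nat_lit 148)) (PT.lf (nat_lit 8968) (nat_lit 6) (nat_lit 118) (nat_lit 4) (nat_lit 144) (nat_lit 159) (nat_lit 147)))) (PT.nd (nat_lit 156) (PT.nd (nat_lit 78) (PT.lf (nat_lit 8892) (nat_lit 6) (nat_lit 117) (nat_lit 4) (nat_lit 145) (nat_lit 159) (nat_lit 146)) (PT.lf (nat_lit 8892) (nat_lit 6) (nat_lit 117) (nat_lit 2) (nat_lit 146) (nat_lit 159) (nat_lit 145))) (PT.nd (nat_lit 78) (PT.lf (nat_lit 8968) (nat_lit 6) (nat_lit 118) (nat_lit 2) (nat_lit 147) (nat_lit 159) (nat_lit 144)) (PT.lf (nat_lit 9044) (nat_lit 6) (nat_lit 119) (nat_lit 2) (nat_lit 148) (nat_lit 159) (nat_lit 143))))))))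
noncomputable def pc11 : PT := (PT.nd (nat_lit 46020) (PT.nd (nat_lit 1092) (PT.nd (nat_lit 546) (PT.nd (nat_lit 234) (PT.nd (nat_lit 78) (PT.lf (nat_lit 9120) (nat_lit 6) (nat_lit 120) (nat_lit 2) (nat_lit 149) (nat_lit 159) (nat_lit 142)) (PT.nd (nat_lit 78) (PT.lf (nat_lit 9196) (nat_lit 6) (nat_lit 121) (nat_lit 2) (nat_lit 150) (nat_lit 159) (nat_lit 141)) (PT.lf (nat_lit 8512) (nat_lit 6) (nat_lit 112) (nat_lit 2) (nat_lit 151) (nat_lit 159) (nat_lit 140)))) (PT.nd (nat_lit 156) (PT.nd (nat_lit 78) (PT.lf (nat_lit 7752) (nat_lit 6) (nat_lit 102) (nat_lit 2) (nat_lit 152) (nat_lit 159) (nat_lit 139)) (PT.lf (nat_lit 7372) (nat_lit 6) (nat_lit 97) (nat_lit 2) (nat_lit 153) (nat_lit 159) (nat_lit 138))) (PT.nd (nat_lit 78) (PT.lf (nat_lit 7068) (nat_lit 6) (nat_lit 93) (nat_lit 2) (nat_lit 154) (nat_lit 159) (nat_lit 137)) (PT.lf (nat_lit 6688) (nat_lit 6) (nat_lit 88) (nat_lit 2) (nat_lit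 155) (nat_lit 159) (nat_lit 136))))) (PT.nd (nat_lit 234) (PT.nd (nat_lit 78) (PT.lf (nat_lit 6384) (nat_lit 6) (nat_lit 84) (nat_lit 2) (nat_lit 156) (nat_lit 159) (nat_lit 135)) (PT.nd (nat_lit 78) (PT.lf (nat_lit 6080) (nat_lit 6) (nat_lit 80) (nat_lit 2) (nat_lit 157) (nat_lit 159) (nat_lit 134)) (PT.lf (nat_lit 5852) (nat_lit 6) (nat_lit 77) (nat_lit 2) (nat_lit 158) (nat_lit 159) (nat_lit 133)))) (PT.nd (nat_lit 156) (PT.nd (nat_lit 78) (PT.lf (nat_lit 5548) (nat_lit 3) (nat_lit 73) (nat_lit 0) (nat_lit 159) (nat_lit 159) (nat_lit 132)) (PT.lf (nat_lit 5244) (nat_lit 6) (nat_lit 69) (nat_lit 0) (nat_lit 160) (nat_lit 159) (nat_lit 131))) (PT.nd (nat_lit 78) (PT.lf (nat_lit 4940) (nat_lit 6) (nat_lit 65) (nat_lit 0) (nat_lit 161) (nat_lit 159) (nat_lit 130)) (PT.lf (nat_lit 4636) (nat_lit 6) (nat_lit 61) (nat_lit 0) (nat_lit 162) (nat_lit 159) (nat_lit 129)))))) (PT.nd (nat_lit 44382)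 (PT.nd (nat_lit 44070) (PT.nd (nat_lit 78) (PT.lf (nat_lit 4332) (nat_lit 6) (nat_lit 57) (nat_lit 0) (nat_lit 163) (nat_lit 159) (nat_lit 128)) (PT.nd (nat_lit 43914) (PT.lf (nat_lit 4104) (nat_lit 6) (nat_lit 54) (nat_lit 0) (nat_lit 164) (nat_lit 159) (nat_lit 127)) (PT.lf (nat_lit 3876) (nat_lit 6) (nat_lit 51) (nat_lit 5) (nat_lit 126) (nat_lit 160) (nat_lit 164)))) (PT.nd (nat_lit 156) (PT.nd (nat_lit 78) (PT.lf (nat_lit 4180) (nat_lit 6) (nat_lit 55) (nat_lit 5) (nat_lit 127) (nat_lit 160) (nat_lit 163)) (PT.lf (nat_lit 4408) (nat_lit 6) (nat_lit 58) (nat_lit 5) (nat_lit 128) (nat_lit 160) (nat_lit 162))) (PT.nd (nat_lit 78) (PT.lf (nat_lit 4712) (nat_lit 6) (nat_lit 62) (nat_lit 5) (nat_lit 129) (nat_lit 160) (nat_lit 161)) (PT.lf (nat_lit 5016) (nat_lit 3) (nat_lit 66) (nat_lit 4) (nat_lit 130) (nat_lit 160) (nat_lit 160))))) (PT.nd (nat_lit 234) (PT.nd (nat_lit 78) (PT.lf (nat_lit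 5244) (nat_lit 6) (nat_lit 69) (nat_lit 4) (nat_lit 131) (nat_lit 160) (nat_lit 159)) (PT.nd (nat_lit 78) (PT.lf (nat_lit 5472) (nat_lit 6) (nat_lit 72) (nat_lit 4) (nat_lit 132) (nat_lit 160) (nat_lit 158)) (PT.lf (nat_lit 5776) (nat_lit 6) (nat_lit 76) (nat_lit 4) (nat_lit 133) (nat_lit 160) (nat_lit 157)))) (PT.nd (nat_lit 156) (PT.nd (nat_lit 78) (PT.lf (nat_lit 6004) (nat_lit 6) (nat_lit 79) (nat_lit 4) (nat_lit 134) (nat_lit 160) (nat_lit 156)) (PT.lf (nat_lit 6308) (nat_lit 6) (nat_lit 83) (nat_lit 4) (nat_lit 135) (nat_lit 160) (nat_lit 155))) (PT.nd (nat_lit 78) (PT.lf (nat_lit 6612) (nat_lit 6) (nat_lit 87) (nat_lit 4) (nat_lit 136) (nat_lit 160) (nat_lit 154)) (PT.lf (nat_lit 6992) (nat_lit 6) (nat_lit 92) (nat_lit 4) (nat_lit 137) (nat_lit 160) (nat_lit 153))))))) (PT.nd (nat_lit 1092) (PT.nd (nat_lit 546) (PT.nd (nat_lit 234) (PT.nd (nat_lit 78) (PT.lf (nat_lit 7296) (nat_lit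 6) (nat_lit 96) (nat_lit 4) (nat_lit 138) (nat_lit 160) (nat_lit 152)) (PT.nd (nat_lit 78) (PT.lf (nat_lit 7676) (nat_lit 6) (nat_lit 101) (nat_lit 4) (nat_lit 139) (nat_lit 160) (nat_lit 151)) (PT.lf (nat_lit 8436) (nat_lit 6) (nat_lit 111) (nat_lit 4) (nat_lit 140) (nat_lit 160) (nat_lit 150)))) (PT.nd (nat_lit 156) (PT.nd (nat_lit 78) (PT.lf (nat_lit 8360) (nat_lit 6) (nat_lit 110) (nat_lit 4) (nat_lit 141) (nat_lit 160) (nat_lit 149)) (PT.lf (nat_lit 8284) (nat_lit 6) (nat_lit 109) (nat_lit 4) (nat_lit 142) (nat_lit 160) (nat_lit 148))) (PT.nd (nat_lit 78) (PT.lf (nat_lit 8208) (nat_lit 6) (nat_lit 108) (nat_lit 4) (nat_lit 143) (nat_lit 160) (nat_lit 147)) (PT.lf (nat_lit 8132) (nat_lit 6) (nat_lit 107) (nat_lit 4) (nat_lit 144) (nat_lit 160) (nat_lit 146))))) (PT.nd (nat_lit 234) (PT.nd (nat_lit 78) (PT.lf (nat_lit 8056) (nat_lit 3) (nat_lit 106) (nat_lit 2) (nat_lit 145) (nat_lit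 160) (nat_lit 145)) (PT.nd (nat_lit 78) (PT.lf (nat_lit 8132) (nat_lit 6) (nat_lit 107) (nat_lit 2) (nat_lit 146) (nat_lit 160) (nat_lit 144)) (PT.lf (nat_lit 8208) (nat_lit 6) (nat_lit 108) (nat_lit 2) (nat_lit 147) (nat_lit 160) (nat_lit 143)))) (PT.nd (nat_lit 156) (PT.nd (nat_lit 78) (PT.lf (nat_lit 8284) (nat_lit 6) (nat_lit 109) (nat_lit 2) (nat_lit 148) (nat_lit 160) (nat_lit 142)) (PT.lf (nat_lit 8360) (nat_lit 6) (nat_lit 110) (nat_lit 2) (nat_lit 149) (nat_lit 160) (nat_lit 141))) (PT.nd (nat_lit 78) (PT.lf (nat_lit 8436) (nat_lit 6) (nat_lit 111) (nat_lit 2) (nat_lit 150) (nat_lit 160) (nat_lit 140)) (PT.lf (nat_lit 7676) (nat_lit 6) (nat_lit 101) (nat_lit 2) (nat_lit 151) (nat_lit 160) (nat_lit 139)))))) (PT.nd (nat_lit 546) (PT.nd (nat_lit 234) (PT.nd (nat_lit 78) (PT.lf (nat_lit 7296) (nat_lit 6) (nat_lit 96) (nat_lit 2) (nat_lit 152) (nat_lit 160) (nat_lit 138)) (PT.nd (nat_lit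 78) (PT.lf (nat_lit 6992) (nat_lit 6) (nat_lit 92) (nat_lit 2) (nat_lit 153) (nat_lit 160) (nat_lit 137)) (PT.lf (nat_lit 6612) (nat_lit 6) (nat_lit 87) (nat_lit 2) (nat_lit 154) (nat_lit 160) (nat_lit 136)))) (PT.nd (nat_lit 156) (PT.nd (nat_lit 78) (PT.lf (nat_lit 6308) (nat_lit 6) (nat_lit 83) (nat_lit 2) (nat_lit 155) (nat_lit 160) (nat_lit 135)) (PT.lf (nat_lit 6004) (nat_lit 6) (nat_lit 79) (nat_lit 2) (nat_lit 156) (nat_lit 160) (nat_lit 134))) (PT.nd (nat_lit 78) (PT.lf (nat_lit 5776) (nat_lit 6) (nat_lit 76) (nat_lit 2) (nat_lit 157) (nat_lit 160) (nat_lit 133)) (PT.lf (nat_lit 5472) (nat_lit 6) (nat_lit 72) (nat_lit 2) (nat_lit 158) (nat_lit 160) (nat_lit 132))))) (PT.nd (nat_lit 234) (PT.nd (nat_lit 78) (PT.lf (nat_lit 5244) (nat_lit 6) (nat_lit 69) (nat_lit 2) (nat_lit 159) (nat_lit 160) (nat_lit 131)) (PT.nd (nat_lit 78) (PT.lf (nat_lit 5016) (nat_lit 3) (nat_lit 66) (nat_lit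 0) (nat_lit 160) (nat_lit 160) (nat_lit 130)) (PT.lf (nat_lit 4712) (nat_lit 6) (nat_lit 62) (nat_lit 0) (nat_lit 161) (nat_lit 160) (nat_lit 129)))) (PT.nd (nat_lit 156) (PT.nd (nat_lit 78) (PT.lf (nat_lit 4408) (nat_lit 6) (nat_lit 58) (nat_lit 0) (nat_lit 162) (nat_lit 160) (nat_lit 128)) (PT.lf (nat_lit 4180) (nat_lit 6) (nat_lit 55) (nat_lit 0) (nat_lit 163) (nat_lit 160) (nat_lit 127))) (PT.nd (nat_lit 43758) (PT.lf (nat_lit 3876) (nat_lit 6) (nat_lit 51) (nat_lit 0) (nat_lit 164) (nat_lit 160) (nat_lit 126)) (PT.lf (nat_lit 3496) (nat_lit 6) (nat_lit 46) (nat_lit 5) (nat_lit 124) (nat_lit 161) (nat_lit 165))))))))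
noncomputable def pc12 : PT := (PT.nd (nat_lit 46722) (PT.nd (nat_lit 2184) (PT.nd (nat_lit 546) (PT.nd (nat_lit 234) (PT.nd (nat_lit 78) (PT.lf (nat_lit 3724) (nat_lit 6) (nat_lit 49) (nat_lit 5) (nat_lit 125) (nat_lit 161) (nat_lit 164)) (PT.nd (nat_lit 78) (PT.lf (nat_lit 3952) (nat_lit 6) (nat_lit 52) (nat_lit 5) (nat_lit 126) (nat_lit 161) (nat_lit 163)) (PT.lf (nat_lit 4256) (nat_lit 6) (nat_lit 56) (nat_lit 5) (nat_lit 127) (nat_lit 161) (nat_lit 162)))) (PT.nd (nat_lit 156) (PT.nd (nat_lit 78) (PT.lf (nat_lit 4484) (nat_lit 3) (nat_lit 59) (nat_lit 4) (nat_lit 128) (nat_lit 161) (nat_lit 161)) (PT.lf (nat_lit 4712) (nat_lit 6) (nat_lit 62) (nat_lit 4) (nat_lit 129) (nat_lit 161) (nat_lit 160))) (PT.nd (nat_lit 78) (PT.lf (nat_lit 4940) (nat_lit 6) (nat_lit 65) (nat_lit 4) (nat_lit 130) (nat_lit 161) (nat_lit 159)) (PT.lf (nat_lit 5168) (nat_lit 6) (nat_lit 68) (nat_lit 4) (nat_lit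 131) (nat_lit 161) (nat_lit 158))))) (PT.nd (nat_lit 234) (PT.nd (nat_lit 78) (PT.lf (nat_lit 5396) (nat_lit 6) (nat_lit 71) (nat_lit 4) (nat_lit 132) (nat_lit 161) (nat_lit 157)) (PT.nd (nat_lit 78) (PT.lf (nat_lit 5700) (nat_lit 6) (nat_lit 75) (nat_lit 4) (nat_lit 133) (nat_lit 161) (nat_lit 156)) (PT.lf (nat_lit 5928) (nat_lit 6) (nat_lit 78) (nat_lit 4) (nat_lit 134) (nat_lit 161) (nat_lit 155)))) (PT.nd (nat_lit 156) (PT.nd (nat_lit 78) (PT.lf (nat_lit 6232) (nat_lit 6) (nat_lit 82) (nat_lit 4) (nat_lit 135) (nat_lit 161) (nat_lit 154)) (PT.lf (nat_lit 6536) (nat_lit 6) (nat_lit 86) (nat_lit 4) (nat_lit 136) (nat_lit 161) (nat_lit 153))) (PT.nd (nat_lit 1170) (PT.lf (nat_lit 6916) (nat_lit 6) (nat_lit 91) (nat_lit 4) (nat_lit 137) (nat_lit 161) (nat_lit 152)) (PT.lf (nat_lit 6916) (nat_lit 6) (nat_lit 91) (nat_lit 2) (nat_lit 152) (nat_lit 161) (nat_lit 137)))))) (PT.nd (nat_lit 546)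 (PT.nd (nat_lit 234) (PT.nd (nat_lit 78) (PT.lf (nat_lit 6536) (nat_lit 6) (nat_lit 86) (nat_lit 2) (nat_lit 153) (nat_lit 161) (nat_lit 136)) (PT.nd (nat_lit 78) (PT.lf (nat_lit 6232) (nat_lit 6) (nat_lit 82) (nat_lit 2) (nat_lit 154) (nat_lit 161) (nat_lit 135)) (PT.lf (nat_lit 5928) (nat_lit 6) (nat_lit 78) (nat_lit 2) (nat_lit 155) (nat_lit 161) (nat_lit 134)))) (PT.nd (nat_lit 156) (PT.nd (nat_lit 78) (PT.lf (nat_lit 5700) (nat_lit 6) (nat_lit 75) (nat_lit 2) (nat_lit 156) (nat_lit 161) (nat_lit 133)) (PT.lf (nat_lit 5396) (nat_lit 6) (nat_lit 71) (nat_lit 2) (nat_lit 157) (nat_lit 161) (nat_lit 132))) (PT.nd (nat_lit 78) (PT.lf (nat_lit 5168) (nat_lit 6) (nat_lit 68) (nat_lit 2) (nat_lit 158) (nat_lit 161) (nat_lit 131)) (PT.lf (nat_lit 4940) (nat_lit 6) (nat_lit 65) (nat_lit 2) (nat_lit 159) (nat_lit 161) (nat_lit 130))))) (PT.nd (nat_lit 234) (PT.nd (nat_lit 78) (PT.lf (nat_lit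 4712) (nat_lit 6) (nat_lit 62) (nat_lit 2) (nat_lit 160) (nat_lit 161) (nat_lit 129)) (PT.nd (nat_lit 78) (PT.lf (nat_lit 4484) (nat_lit 3) (nat_lit 59) (nat_lit 0) (nat_lit 161) (nat_lit 161) (nat_lit 128)) (PT.lf (nat_lit 4256) (nat_lit 6) (nat_lit 56) (nat_lit 0) (nat_lit 162) (nat_lit 161) (nat_lit 127)))) (PT.nd (nat_lit 156) (PT.nd (nat_lit 78) (PT.lf (nat_lit 3952) (nat_lit 6) (nat_lit 52) (nat_lit 0) (nat_lit 163) (nat_lit 161) (nat_lit 126)) (PT.lf (nat_lit 3724) (nat_lit 6) (nat_lit 49) (nat_lit 0) (nat_lit 164) (nat_lit 161) (nat_lit 125))) (PT.nd (nat_lit 43524) (PT.lf (nat_lit 3496) (nat_lit 6) (nat_lit 46) (nat_lit 0) (nat_lit 165) (nat_lit 161) (nat_lit 124)) (PT.lf (nat_lit 3116) (nat_lit 6) (nat_lit 41) (nat_lit 5) (nat_lit 122) (nat_lit 162) (nat_lit 166))))))) (PT.nd (nat_lit 2730) (PT.nd (nat_lit 546) (PT.nd (nat_lit 234) (PT.nd (nat_lit 78) (PT.lf (nat_lit 3344) (nat_lit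 6) (nat_lit 44) (nat_lit 5) (nat_lit 123) (nat_lit 162) (nat_lit 165)) (PT.nd (nat_lit 78) (PT.lf (nat_lit 3572) (nat_lit 6) (nat_lit 47) (nat_lit 5) (nat_lit 124) (nat_lit 162) (nat_lit 164)) (PT.lf (nat_lit 3800) (nat_lit 6) (nat_lit 50) (nat_lit 5) (nat_lit 125) (nat_lit 162) (nat_lit 163)))) (PT.nd (nat_lit 156) (PT.nd (nat_lit 78) (PT.lf (nat_lit 4028) (nat_lit 3) (nat_lit 53) (nat_lit 4) (nat_lit 126) (nat_lit 162) (nat_lit 162)) (PT.lf (nat_lit 4256) (nat_lit 6) (nat_lit 56) (nat_lit 4) (nat_lit 127) (nat_lit 162) (nat_lit 161))) (PT.nd (nat_lit 78) (PT.lf (nat_lit 4408) (nat_lit 6) (nat_lit 58) (nat_lit 4) (nat_lit 128) (nat_lit 162) (nat_lit 160)) (PT.lf (nat_lit 4636) (nat_lit 6) (nat_lit 61) (nat_lit 4) (nat_lit 129) (nat_lit 162) (nat_lit 159))))) (PT.nd (nat_lit 234) (PT.nd (nat_lit 78) (PT.lf (nat_lit 4864) (nat_lit 6) (nat_lit 64) (nat_lit 4) (nat_lit 130) (nat_lit 162) (nat_lit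 158)) (PT.nd (nat_lit 78) (PT.lf (nat_lit 5092) (nat_lit 6) (nat_lit 67) (nat_lit 4) (nat_lit 131) (nat_lit 162) (nat_lit 157)) (PT.lf (nat_lit 5320) (nat_lit 6) (nat_lit 70) (nat_lit 4) (nat_lit 132) (nat_lit 162) (nat_lit 156)))) (PT.nd (nat_lit 1794) (PT.nd (nat_lit 1716) (PT.lf (nat_lit 5624) (nat_lit 6) (nat_lit 74) (nat_lit 4) (nat_lit 133) (nat_lit 162) (nat_lit 155)) (PT.lf (nat_lit 5624) (nat_lit 6) (nat_lit 74) (nat_lit 2) (nat_lit 155) (nat_lit 162) (nat_lit 133))) (PT.nd (nat_lit 78) (PT.lf (nat_lit 5320) (nat_lit 6) (nat_lit 70) (nat_lit 2) (nat_lit 156) (nat_lit 162) (nat_lit 132)) (PT.lf (nat_lit 5092) (nat_lit 6) (nat_lit 67) (nat_lit 2) (nat_lit 157) (nat_lit 162) (nat_lit 131)))))) (PT.nd (nat_lit 546) (PT.nd (nat_lit 234) (PT.nd (nat_lit 78) (PT.lf (nat_lit 4864) (nat_lit 6) (nat_lit 64) (nat_lit 2) (nat_lit 158) (nat_lit 162) (nat_lit 130)) (PT.nd (nat_lit 78) (PT.lf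 (nat_lit 4636) (nat_lit 6) (nat_lit 61) (nat_lit 2) (nat_lit 159) (nat_lit 162) (nat_lit 129)) (PT.lf (nat_lit 4408) (nat_lit 6) (nat_lit 58) (nat_lit 2) (nat_lit 160) (nat_lit 162) (nat_lit 128)))) (PT.nd (nat_lit 156) (PT.nd (nat_lit 78) (PT.lf (nat_lit 4256) (nat_lit 6) (nat_lit 56) (nat_lit 2) (nat_lit 161) (nat_lit 162) (nat_lit 127)) (PT.lf (nat_lit 4028) (nat_lit 3) (nat_lit 53) (nat_lit 0) (nat_lit 162) (nat_lit 162) (nat_lit 126))) (PT.nd (nat_lit 78) (PT.lf (nat_lit 3800) (nat_lit 6) (nat_lit 50) (nat_lit 0) (nat_lit 163) (nat_lit 162) (nat_lit 125)) (PT.lf (nat_lit 3572) (nat_lit 6) (nat_lit 47) (nat_lit 0) (nat_lit 164) (nat_lit 162) (nat_lit 124))))) (PT.nd (nat_lit 43524) (PT.nd (nat_lit 78) (PT.lf (nat_lit 3344) (nat_lit 6) (nat_lit 44) (nat_lit 0) (nat_lit 165) (nat_lit 162) (nat_lit 123)) (PT.nd (nat_lit 43368) (PT.lf (nat_lit 3116) (nat_lit 6) (nat_lit 41) (nat_lit 0)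 (nat_lit 166) (nat_lit 162) (nat_lit 122)) (PT.lf (nat_lit 2964) (nat_lit 6) (nat_lit 39) (nat_lit 5) (nat_lit 121) (nat_lit 163) (nat_lit 166)))) (PT.nd (nat_lit 156) (PT.nd (nat_lit 78) (PT.lf (nat_lit 3192) (nat_lit 6) (nat_lit 42) (nat_lit 5) (nat_lit 122) (nat_lit 163) (nat_lit 165)) (PT.lf (nat_lit 3420) (nat_lit 6) (nat_lit 45) (nat_lit 5) (nat_lit 123) (nat_lit 163) (nat_lit 164))) (PT.nd (nat_lit 78) (PT.lf (nat_lit 3648) (nat_lit 3) (nat_lit 48) (nat_lit 4) (nat_lit 124) (nat_lit 163) (nat_lit 163)) (PT.lf (nat_lit 3800) (nat_lit 6) (nat_lit 50) (nat_lit 4) (nat_lit 125) (nat_lit 163) (nat_lit 162))))))))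
noncomputable def pc13 : PT := (PT.nd (nat_lit 49764) (PT.nd (nat_lit 3120) (PT.nd (nat_lit 2574) (PT.nd (nat_lit 234) (PT.nd (nat_lit 78) (PT.lf (nat_lit 3952) (nat_lit 6) (nat_lit 52) (nat_lit 4) (nat_lit 126) (nat_lit 163) (nat_lit 161)) (PT.nd (nat_lit 78) (PT.lf (nat_lit 4180) (nat_lit 6) (nat_lit 55) (nat_lit 4) (nat_lit 127) (nat_lit 163) (nat_lit 160)) (PT.lf (nat_lit 4332) (nat_lit 6) (nat_lit 57) (nat_lit 4) (nat_lit 128) (nat_lit 163) (nat_lit 159)))) (PT.nd (nat_lit 2184) (PT.nd (nat_lit 78) (PT.lf (nat_lit 4560) (nat_lit 6) (nat_lit 60) (nat_lit 4) (nat_lit 129) (nat_lit 163) (nat_lit 158)) (PT.lf (nat_lit 4788) (nat_lit 6) (nat_lit 63) (nat_lit 4) (nat_lit 130) (nat_lit 163) (nat_lit 157))) (PT.nd (nat_lit 78) (PT.lf (nat_lit 4788) (nat_lit 6) (nat_lit 63) (nat_lit 2) (nat_lit 157) (nat_lit 163) (nat_lit 130)) (PT.lf (nat_lit 4560) (nat_lit 6) (nat_lit 60) (nat_lit 2) (nat_lit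 158) (nat_lit 163) (nat_lit 129))))) (PT.nd (nat_lit 234) (PT.nd (nat_lit 78) (PT.lf (nat_lit 4332) (nat_lit 6) (nat_lit 57) (nat_lit 2) (nat_lit 159) (nat_lit 163) (nat_lit 128)) (PT.nd (nat_lit 78) (PT.lf (nat_lit 4180) (nat_lit 6) (nat_lit 55) (nat_lit 2) (nat_lit 160) (nat_lit 163) (nat_lit 127)) (PT.lf (nat_lit 3952) (nat_lit 6) (nat_lit 52) (nat_lit 2) (nat_lit 161) (nat_lit 163) (nat_lit 126)))) (PT.nd (nat_lit 156) (PT.nd (nat_lit 78) (PT.lf (nat_lit 3800) (nat_lit 6) (nat_lit 50) (nat_lit 2) (nat_lit 162) (nat_lit 163) (nat_lit 125)) (PT.lf (nat_lit 3648) (nat_lit 3) (nat_lit 48) (nat_lit 0) (nat_lit 163) (nat_lit 163) (nat_lit 124))) (PT.nd (nat_lit 78) (PT.lf (nat_lit 3420) (nat_lit 6) (nat_lit 45) (nat_lit 0) (nat_lit 164) (nat_lit 163) (nat_lit 123)) (PT.lf (nat_lit 3192) (nat_lit 6) (nat_lit 42) (nat_lit 0) (nat_lit 165) (nat_lit 163) (nat_lit 122)))))) (PT.nd (nat_lit 43680)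 (PT.nd (nat_lit 43368) (PT.nd (nat_lit 43212) (PT.lf (nat_lit 2964) (nat_lit 6) (nat_lit 39) (nat_lit 0) (nat_lit 166) (nat_lit 163) (nat_lit 121)) (PT.nd (nat_lit 78) (PT.lf (nat_lit 2660) (nat_lit 6) (nat_lit 35) (nat_lit 5) (nat_lit 119) (nat_lit 164) (nat_lit 167)) (PT.lf (nat_lit 2812) (nat_lit 6) (nat_lit 37) (nat_lit 5) (nat_lit 120) (nat_lit 164) (nat_lit 166)))) (PT.nd (nat_lit 156) (PT.nd (nat_lit 78) (PT.lf (nat_lit 3040) (nat_lit 6) (nat_lit 40) (nat_lit 5) (nat_lit 121) (nat_lit 164) (nat_lit 165)) (PT.lf (nat_lit 3268) (nat_lit 3) (nat_lit 43) (nat_lit 4) (nat_lit 122) (nat_lit 164) (nat_lit 164))) (PT.nd (nat_lit 78) (PT.lf (nat_lit 3420) (nat_lit 6) (nat_lit 45) (nat_lit 4) (nat_lit 123) (nat_lit 164) (nat_lit 163)) (PT.lf (nat_lit 3572) (nat_lit 6) (nat_lit 47) (nat_lit 4) (nat_lit 124) (nat_lit 164) (nat_lit 162))))) (PT.nd (nat_lit 2652) (PT.nd (nat_lit 78) (PT.lf (nat_lit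 3724) (nat_lit 6) (nat_lit 49) (nat_lit 4) (nat_lit 125) (nat_lit 164) (nat_lit 161)) (PT.nd (nat_lit 78) (PT.lf (nat_lit 3876) (nat_lit 6) (nat_lit 51) (nat_lit 4) (nat_lit 126) (nat_lit 164) (nat_lit 160)) (PT.lf (nat_lit 4104) (nat_lit 6) (nat_lit 54) (nat_lit 4) (nat_lit 127) (nat_lit 164) (nat_lit 159)))) (PT.nd (nat_lit 156) (PT.nd (nat_lit 78) (PT.lf (nat_lit 4104) (nat_lit 6) (nat_lit 54) (nat_lit 2) (nat_lit 159) (nat_lit 164) (nat_lit 127)) (PT.lf (nat_lit 3876) (nat_lit 6) (nat_lit 51) (nat_lit 2) (nat_lit 160) (nat_lit 164) (nat_lit 126))) (PT.nd (nat_lit 78) (PT.lf (nat_lit 3724) (nat_lit 6) (nat_lit 49) (nat_lit 2) (nat_lit 161) (nat_lit 164) (nat_lit 125)) (PT.lf (nat_lit 3572) (nat_lit 6) (nat_lit 47) (nat_lit 2) (nat_lit 162) (nat_lit 164) (nat_lit 124))))))) (PT.nd (nat_lit 46800) (PT.nd (nat_lit 43446) (PT.nd (nat_lit 234) (PT.nd (nat_lit 78) (PT.lf (nat_lit 3420) (nat_lit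 6) (nat_lit 45) (nat_lit 2) (nat_lit 163) (nat_lit 164) (nat_lit 123)) (PT.nd (nat_lit 78) (PT.lf (nat_lit 3268) (nat_lit 3) (nat_lit 43) (nat_lit 0) (nat_lit 164) (nat_lit 164) (nat_lit 122)) (PT.lf (nat_lit 3040) (nat_lit 6) (nat_lit 40) (nat_lit 0) (nat_lit 165) (nat_lit 164) (nat_lit 121)))) (PT.nd (nat_lit 43056) (PT.nd (nat_lit 78) (PT.lf (nat_lit 2812) (nat_lit 6) (nat_lit 37) (nat_lit 0) (nat_lit 166) (nat_lit 164) (nat_lit 120)) (PT.lf (nat_lit 2660) (nat_lit 6) (nat_lit 35) (nat_lit 0) (nat_lit 167) (nat_lit 164) (nat_lit 119))) (PT.nd (nat_lit 78) (PT.lf (nat_lit 2356) (nat_lit 6) (nat_lit 31) (nat_lit 5) (nat_lit 117) (nat_lit 165) (nat_lit 168)) (PT.lf (nat_lit 2508) (nat_lit 6) (nat_lit 33) (nat_lit 5) (nat_lit 118) (nat_lit 165) (nat_lit 167))))) (PT.nd (nat_lit 234) (PT.nd (nat_lit 78) (PT.lf (nat_lit 2736) (nat_lit 6) (nat_lit 36) (nat_lit 5) (nat_lit 119) (nat_lit 165)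 (nat_lit 166)) (PT.nd (nat_lit 78) (PT.lf (nat_lit 2888) (nat_lit 3) (nat_lit 38) (nat_lit 4) (nat_lit 120) (nat_lit 165) (nat_lit 165)) (PT.lf (nat_lit 3040) (nat_lit 6) (nat_lit 40) (nat_lit 4) (nat_lit 121) (nat_lit 165) (nat_lit 164)))) (PT.nd (nat_lit 156) (PT.nd (nat_lit 78) (PT.lf (nat_lit 3192) (nat_lit 6) (nat_lit 42) (nat_lit 4) (nat_lit 122) (nat_lit 165) (nat_lit 163)) (PT.lf (nat_lit 3344) (nat_lit 6) (nat_lit 44) (nat_lit 4) (nat_lit 123) (nat_lit 165) (nat_lit 162))) (PT.nd (nat_lit 2886) (PT.lf (nat_lit 3496) (nat_lit 6) (nat_lit 46) (nat_lit 4) (nat_lit 124) (nat_lit 165) (nat_lit 161)) (PT.lf (nat_lit 3496) (nat_lit 6) (nat_lit 46) (nat_lit 2) (nat_lit 161) (nat_lit 165) (nat_lit 124)))))) (PT.nd (nat_lit 43212) (PT.nd (nat_lit 234) (PT.nd (nat_lit 78) (PT.lf (nat_lit 3344) (nat_lit 6) (nat_lit 44) (nat_lit 2) (nat_lit 162) (nat_lit 165) (nat_lit 123)) (PT.nd (nat_lit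 78) (PT.lf (nat_lit 3192) (nat_lit 6) (nat_lit 42) (nat_lit 2) (nat_lit 163) (nat_lit 165) (nat_lit 122)) (PT.lf (nat_lit 3040) (nat_lit 6) (nat_lit 40) (nat_lit 2) (nat_lit 164) (nat_lit 165) (nat_lit 121)))) (PT.nd (nat_lit 156) (PT.nd (nat_lit 78) (PT.lf (nat_lit 2888) (nat_lit 3) (nat_lit 38) (nat_lit 0) (nat_lit 165) (nat_lit 165) (nat_lit 120)) (PT.lf (nat_lit 2736) (nat_lit 6) (nat_lit 36) (nat_lit 0) (nat_lit 166) (nat_lit 165) (nat_lit 119))) (PT.nd (nat_lit 78) (PT.lf (nat_lit 2508) (nat_lit 6) (nat_lit 33) (nat_lit 0) (nat_lit 167) (nat_lit 165) (nat_lit 118)) (PT.lf (nat_lit 2356) (nat_lit 6) (nat_lit 31) (nat_lit 0) (nat_lit 168) (nat_lit 165) (nat_lit 117))))) (PT.nd (nat_lit 234) (PT.nd (nat_lit 78) (PT.lf (nat_lit 2052) (nat_lit 6) (nat_lit 27) (nat_lit 5) (nat_lit 115) (nat_lit 166) (nat_lit 169)) (PT.nd (nat_lit 78) (PT.lf (nat_lit 2204) (nat_lit 6) (nat_lit 29) (nat_lit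 5) (nat_lit 116) (nat_lit 166) (nat_lit 168)) (PT.lf (nat_lit 2432) (nat_lit 6) (nat_lit 32) (nat_lit 5) (nat_lit 117) (nat_lit 166) (nat_lit 167)))) (PT.nd (nat_lit 156) (PT.nd (nat_lit 78) (PT.lf (nat_lit 2584) (nat_lit 3) (nat_lit 34) (nat_lit 4) (nat_lit 118) (nat_lit 166) (nat_lit 166)) (PT.lf (nat_lit 2736) (nat_lit 6) (nat_lit 36) (nat_lit 4) (nat_lit 119) (nat_lit 166) (nat_lit 165))) (PT.nd (nat_lit 78) (PT.lf (nat_lit 2812) (nat_lit 6) (nat_lit 37) (nat_lit 4) (nat_lit 120) (nat_lit 166) (nat_lit 164)) (PT.lf (nat_lit 2964) (nat_lit 6) (nat_lit 39) (nat_lit 4) (nat_lit 121) (nat_lit 166) (nat_lit 163))))))))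
noncomputable def pc14 : PT := (PT.nd (nat_lit 97188) (PT.nd (nat_lit 46644) (PT.nd (nat_lit 3588) (PT.nd (nat_lit 3276) (PT.nd (nat_lit 3120) (PT.lf (nat_lit 3116) (nat_lit 6) (nat_lit 41) (nat_lit 4) (nat_lit 122) (nat_lit 166) (nat_lit 162)) (PT.nd (nat_lit 78) (PT.lf (nat_lit 3116) (nat_lit 6) (nat_lit 41) (nat_lit 2) (nat_lit 162) (nat_lit 166) (nat_lit 122)) (PT.lf (nat_lit 2964) (nat_lit 6) (nat_lit 39) (nat_lit 2) (nat_lit 163) (nat_lit 166) (nat_lit 121)))) (PT.nd (nat_lit 156) (PT.nd (nat_lit 78) (PT.lf (nat_lit 2812) (nat_lit 6) (nat_lit 37) (nat_lit 2) (nat_lit 164) (nat_lit 166) (nat_lit 120)) (PT.lf (nat_lit 2736) (nat_lit 6) (nat_lit 36) (nat_lit 2) (nat_lit 165) (nat_lit 166) (nat_lit 119))) (PT.nd (nat_lit 78) (PT.lf (nat_lit 2584) (nat_lit 3) (nat_lit 34) (nat_lit 0) (nat_lit 166) (nat_lit 166) (nat_lit 118)) (PT.lf (nat_lit 2432) (nat_lit 6) (nat_lit 32) (nat_lit 0) (nat_lit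 167) (nat_lit 166) (nat_lit 117))))) (PT.nd (nat_lit 42744) (PT.nd (nat_lit 78) (PT.lf (nat_lit 2204) (nat_lit 6) (nat_lit 29) (nat_lit 0) (nat_lit 168) (nat_lit 166) (nat_lit 116)) (PT.nd (nat_lit 42588) (PT.lf (nat_lit 2052) (nat_lit 6) (nat_lit 27) (nat_lit 0) (nat_lit 169) (nat_lit 166) (nat_lit 115)) (PT.lf (nat_lit 1900) (nat_lit 6) (nat_lit 25) (nat_lit 5) (nat_lit 114) (nat_lit 167) (nat_lit 169)))) (PT.nd (nat_lit 156) (PT.nd (nat_lit 78) (PT.lf (nat_lit 2128) (nat_lit 6) (nat_lit 28) (nat_lit 5) (nat_lit 115) (nat_lit 167) (nat_lit 168)) (PT.lf (nat_lit 2280) (nat_lit 3) (nat_lit 30) (nat_lit 4) (nat_lit 116) (nat_lit 167) (nat_lit 167))) (PT.nd (nat_lit 78) (PT.lf (nat_lit 2432) (nat_lit 6) (nat_lit 32) (nat_lit 4) (nat_lit 117) (nat_lit 167) (nat_lit 166)) (PT.lf (nat_lit 2508) (nat_lit 6) (nat_lit 33) (nat_lit 4) (nat_lit 118) (nat_lit 167) (nat_lit 165)))))) (PT.nd (nat_lit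 46332) (PT.nd (nat_lit 3666) (PT.nd (nat_lit 3510) (PT.lf (nat_lit 2660) (nat_lit 6) (nat_lit 35) (nat_lit 4) (nat_lit 119) (nat_lit 167) (nat_lit 164)) (PT.nd (nat_lit 78) (PT.lf (nat_lit 2660) (nat_lit 6) (nat_lit 35) (nat_lit 2) (nat_lit 164) (nat_lit 167) (nat_lit 119)) (PT.lf (nat_lit 2508) (nat_lit 6) (nat_lit 33) (nat_lit 2) (nat_lit 165) (nat_lit 167) (nat_lit 118)))) (PT.nd (nat_lit 156) (PT.nd (nat_lit 78) (PT.lf (nat_lit 2432) (nat_lit 6) (nat_lit 32) (nat_lit 2) (nat_lit 166) (nat_lit 167) (nat_lit 117)) (PT.lf (nat_lit 2280) (nat_lit 3) (nat_lit 30) (nat_lit 0) (nat_lit 167) (nat_lit 167) (nat_lit 116))) (PT.nd (nat_lit 78) (PT.lf (nat_lit 2128) (nat_lit 6) (nat_lit 28) (nat_lit 0) (nat_lit 168) (nat_lit 167) (nat_lit 115)) (PT.lf (nat_lit 1900) (nat_lit 6) (nat_lit 25) (nat_lit 0) (nat_lit 169) (nat_lit 167) (nat_lit 114))))) (PT.nd (nat_lit 234) (PT.nd (nat_lit 78) (PT.lf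 (nat_lit 1672) (nat_lit 6) (nat_lit 22) (nat_lit 5) (nat_lit 112) (nat_lit 168) (nat_lit 170)) (PT.nd (nat_lit 78) (PT.lf (nat_lit 1824) (nat_lit 6) (nat_lit 24) (nat_lit 5) (nat_lit 113) (nat_lit 168) (nat_lit 169)) (PT.lf (nat_lit 1976) (nat_lit 3) (nat_lit 26) (nat_lit 4) (nat_lit 114) (nat_lit 168) (nat_lit 168)))) (PT.nd (nat_lit 156) (PT.nd (nat_lit 78) (PT.lf (nat_lit 2128) (nat_lit 6) (nat_lit 28) (nat_lit 4) (nat_lit 115) (nat_lit 168) (nat_lit 167)) (PT.lf (nat_lit 2204) (nat_lit 6) (nat_lit 29) (nat_lit 4) (nat_lit 116) (nat_lit 168) (nat_lit 166))) (PT.nd (nat_lit 3744) (PT.lf (nat_lit 2356) (nat_lit 6) (nat_lit 31) (nat_lit 4) (nat_lit 117) (nat_lit 168) (nat_lit 165)) (PT.lf (nat_lit 2356) (nat_lit 6) (nat_lit 31) (nat_lit 2) (nat_lit 165) (nat_lit 168) (nat_lit 117))))))) (PT.nd (nat_lit 47112) (PT.nd (nat_lit 42666) (PT.nd (nat_lit 234) (PT.nd (nat_lit 78) (PT.lf (nat_lit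 2204) (nat_lit 6) (nat_lit 29) (nat_lit 2) (nat_lit 166) (nat_lit 168) (nat_lit 116)) (PT.nd (nat_lit 78) (PT.lf (nat_lit 2128) (nat_lit 6) (nat_lit 28) (nat_lit 2) (nat_lit 167) (nat_lit 168) (nat_lit 115)) (PT.lf (nat_lit 1976) (nat_lit 3) (nat_lit 26) (nat_lit 0) (nat_lit 168) (nat_lit 168) (nat_lit 114)))) (PT.nd (nat_lit 42276) (PT.nd (nat_lit 78) (PT.lf (nat_lit 1824) (nat_lit 6) (nat_lit 24) (nat_lit 0) (nat_lit 169) (nat_lit 168) (nat_lit 113)) (PT.lf (nat_lit 1672) (nat_lit 6) (nat_lit 22) (nat_lit 0) (nat_lit 170) (nat_lit 168) (nat_lit 112))) (PT.nd (nat_lit 78) (PT.lf (nat_lit 1444) (nat_lit 6) (nat_lit 19) (nat_lit 5) (nat_lit 110) (nat_lit 169) (nat_lit 171)) (PT.lf (nat_lit 1596) (nat_lit 6) (nat_lit 21) (nat_lit 5) (nat_lit 111) (nat_lit 169) (nat_lit 170))))) (PT.nd (nat_lit 234) (PT.nd (nat_lit 78) (PT.lf (nat_lit 1748) (nat_lit 3) (nat_lit 23) (nat_lit 4) (nat_lit 112)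 (nat_lit 169) (nat_lit 169)) (PT.nd (nat_lit 78) (PT.lf (nat_lit 1824) (nat_lit 6) (nat_lit 24) (nat_lit 4) (nat_lit 113) (nat_lit 169) (nat_lit 168)) (PT.lf (nat_lit 1900) (nat_lit 6) (nat_lit 25) (nat_lit 4) (nat_lit 114) (nat_lit 169) (nat_lit 167)))) (PT.nd (nat_lit 4056) (PT.nd (nat_lit 3978) (PT.lf (nat_lit 2052) (nat_lit 6) (nat_lit 27) (nat_lit 4) (nat_lit 115) (nat_lit 169) (nat_lit 166)) (PT.lf (nat_lit 2052) (nat_lit 6) (nat_lit 27) (nat_lit 2) (nat_lit 166) (nat_lit 169) (nat_lit 115))) (PT.nd (nat_lit 78) (PT.lf (nat_lit 1900) (nat_lit 6) (nat_lit 25) (nat_lit 2) (nat_lit 167) (nat_lit 169) (nat_lit 114)) (PT.lf (nat_lit 1824) (nat_lit 6) (nat_lit 24) (nat_lit 2) (nat_lit 168) (nat_lit 169) (nat_lit 113)))))) (PT.nd (nat_lit 42432) (PT.nd (nat_lit 42120) (PT.nd (nat_lit 78) (PT.lf (nat_lit 1748) (nat_lit 3) (nat_lit 23) (nat_lit 0) (nat_lit 169) (nat_lit 169) (nat_lit 112))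 (PT.nd (nat_lit 78) (PT.lf (nat_lit 1596) (nat_lit 6) (nat_lit 21) (nat_lit 0) (nat_lit 170) (nat_lit 169) (nat_lit 111)) (PT.lf (nat_lit 1444) (nat_lit 6) (nat_lit 19) (nat_lit 0) (nat_lit 171) (nat_lit 169) (nat_lit 110)))) (PT.nd (nat_lit 156) (PT.nd (nat_lit 78) (PT.lf (nat_lit 1216) (nat_lit 6) (nat_lit 16) (nat_lit 5) (nat_lit 108) (nat_lit 170) (nat_lit 172)) (PT.lf (nat_lit 1368) (nat_lit 6) (nat_lit 18) (nat_lit 5) (nat_lit 109) (nat_lit 170) (nat_lit 171))) (PT.nd (nat_lit 78) (PT.lf (nat_lit 1520) (nat_lit 3) (nat_lit 20) (nat_lit 4) (nat_lit 110) (nat_lit 170) (nat_lit 170)) (PT.lf (nat_lit 1596) (nat_lit 6) (nat_lit 21) (nat_lit 4) (nat_lit 111) (nat_lit 170) (nat_lit 169))))) (PT.nd (nat_lit 4524) (PT.nd (nat_lit 4368) (PT.lf (nat_lit 1672) (nat_lit 6) (nat_lit 22) (nat_lit 4) (nat_lit 112) (nat_lit 170) (nat_lit 168)) (PT.nd (nat_lit 78) (PT.lf (nat_lit 1672) (nat_lit 6)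 (nat_lit 22) (nat_lit 2) (nat_lit 168) (nat_lit 170) (nat_lit 112)) (PT.lf (nat_lit 1596) (nat_lit 6) (nat_lit 21) (nat_lit 2) (nat_lit 169) (nat_lit 170) (nat_lit 111)))) (PT.nd (nat_lit 156) (PT.nd (nat_lit 78) (PT.lf (nat_lit 1520) (nat_lit 3) (nat_lit 20) (nat_lit 0) (nat_lit 170) (nat_lit 170) (nat_lit 110)) (PT.lf (nat_lit 1368) (nat_lit 6) (nat_lit 18) (nat_lit 0) (nat_lit 171) (nat_lit 170) (nat_lit 109))) (PT.nd (nat_lit 41730) (PT.lf (nat_lit 1216) (nat_lit 6) (nat_lit 16) (nat_lit 0) (nat_lit 172) (nat_lit 170) (nat_lit 108)) (PT.lf (nat_lit 988) (nat_lit 6) (nat_lit 13) (nat_lit 5) (nat_lit 106) (nat_lit 171) (nat_lit 173))))))))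
noncomputable def pc15 : PT := (PT.nd (nat_lit 99060) (PT.nd (nat_lit 51792) (PT.nd (nat_lit 5070) (PT.nd (nat_lit 234) (PT.nd (nat_lit 78) (PT.lf (nat_lit 1140) (nat_lit 6) (nat_lit 15) (nat_lit 5) (nat_lit 107) (nat_lit 171) (nat_lit 172)) (PT.nd (nat_lit 78) (PT.lf (nat_lit 1292) (nat_lit 3) (nat_lit 17) (nat_lit 4) (nat_lit 108) (nat_lit 171) (nat_lit 171)) (PT.lf (nat_lit 1368) (nat_lit 6) (nat_lit 18) (nat_lit 4) (nat_lit 109) (nat_lit 171) (nat_lit 170)))) (PT.nd (nat_lit 4680) (PT.nd (nat_lit 4602) (PT.lf (nat_lit 1444) (nat_lit 6) (nat_lit 19) (nat_lit 4) (nat_lit 110) (nat_lit 171) (nat_lit 169)) (PT.lf (nat_lit 1444) (nat_lit 6) (nat_lit 19) (nat_lit 2) (nat_lit 169) (nat_lit 171) (nat_lit 110))) (PT.nd (nat_lit 78) (PT.lf (nat_lit 1368) (nat_lit 6) (nat_lit 18) (nat_lit 2) (nat_lit 170) (nat_lit 171) (nat_lit 109)) (PT.lf (nat_lit 1292) (nat_lit 3) (nat_lit 17) (nat_lit 0) (nat_lit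 171) (nat_lit 171) (nat_lit 108))))) (PT.nd (nat_lit 41652) (PT.nd (nat_lit 78) (PT.lf (nat_lit 1140) (nat_lit 6) (nat_lit 15) (nat_lit 0) (nat_lit 172) (nat_lit 171) (nat_lit 107)) (PT.nd (nat_lit 41496) (PT.lf (nat_lit 988) (nat_lit 6) (nat_lit 13) (nat_lit 0) (nat_lit 173) (nat_lit 171) (nat_lit 106)) (PT.lf (nat_lit 760) (nat_lit 6) (nat_lit 10) (nat_lit 5) (nat_lit 104) (nat_lit 172) (nat_lit 174)))) (PT.nd (nat_lit 156) (PT.nd (nat_lit 78) (PT.lf (nat_lit 912) (nat_lit 6) (nat_lit 12) (nat_lit 5) (nat_lit 105) (nat_lit 172) (nat_lit 173)) (PT.lf (nat_lit 1064) (nat_lit 3) (nat_lit 14) (nat_lit 4) (nat_lit 106) (nat_lit 172) (nat_lit 172))) (PT.nd (nat_lit 78) (PT.lf (nat_lit 1140) (nat_lit 6) (nat_lit 15) (nat_lit 4) (nat_lit 107) (nat_lit 172) (nat_lit 171)) (PT.lf (nat_lit 1216) (nat_lit 6) (nat_lit 16) (nat_lit 4) (nat_lit 108) (nat_lit 172) (nat_lit 170)))))) (PT.nd (nat_lit 41730)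 (PT.nd (nat_lit 234) (PT.nd (nat_lit 78) (PT.lf (nat_lit 1216) (nat_lit 6) (nat_lit 16) (nat_lit 2) (nat_lit 170) (nat_lit 172) (nat_lit 108)) (PT.nd (nat_lit 78) (PT.lf (nat_lit 1140) (nat_lit 6) (nat_lit 15) (nat_lit 2) (nat_lit 171) (nat_lit 172) (nat_lit 107)) (PT.lf (nat_lit 1064) (nat_lit 3) (nat_lit 14) (nat_lit 0) (nat_lit 172) (nat_lit 172) (nat_lit 106)))) (PT.nd (nat_lit 41340) (PT.nd (nat_lit 78) (PT.lf (nat_lit 912) (nat_lit 6) (nat_lit 12) (nat_lit 0) (nat_lit 173) (nat_lit 172) (nat_lit 105)) (PT.lf (nat_lit 760) (nat_lit 6) (nat_lit 10) (nat_lit 0) (nat_lit 174) (nat_lit 172) (nat_lit 104))) (PT.nd (nat_lit 78) (PT.lf (nat_lit 532) (nat_lit 6) (nat_lit 7) (nat_lit 5) (nat_lit 102) (nat_lit 173) (nat_lit 175)) (PT.lf (nat_lit 684) (nat_lit 6) (nat_lit 9) (nat_lit 5) (nat_lit 103) (nat_lit 173) (nat_lit 174))))) (PT.nd (nat_lit 5226) (PT.nd (nat_lit 78) (PT.lf (nat_lit 836)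 (nat_lit 3) (nat_lit 11) (nat_lit 4) (nat_lit 104) (nat_lit 173) (nat_lit 173)) (PT.nd (nat_lit 78) (PT.lf (nat_lit 912) (nat_lit 6) (nat_lit 12) (nat_lit 4) (nat_lit 105) (nat_lit 173) (nat_lit 172)) (PT.lf (nat_lit 988) (nat_lit 6) (nat_lit 13) (nat_lit 4) (nat_lit 106) (nat_lit 173) (nat_lit 171)))) (PT.nd (nat_lit 156) (PT.nd (nat_lit 78) (PT.lf (nat_lit 988) (nat_lit 6) (nat_lit 13) (nat_lit 2) (nat_lit 171) (nat_lit 173) (nat_lit 106)) (PT.lf (nat_lit 912) (nat_lit 6) (nat_lit 12) (nat_lit 2) (nat_lit 172) (nat_lit 173) (nat_lit 105))) (PT.nd (nat_lit 78) (PT.lf (nat_lit 836) (nat_lit 3) (nat_lit 11) (nat_lit 0) (nat_lit 173) (nat_lit 173) (nat_lit 104)) (PT.lf (nat_lit 684) (nat_lit 6) (nat_lit 9) (nat_lit 0) (nat_lit 174) (nat_lit 173) (nat_lit 103))))))) (PT.nd (nat_lit 88062) (PT.nd (nat_lit 46722) (PT.nd (nat_lit 41184) (PT.nd (nat_lit 41028) (PT.lf (nat_lit 532) (nat_lit 6)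 (nat_lit 7) (nat_lit 0) (nat_lit 175) (nat_lit 173) (nat_lit 102)) (PT.nd (nat_lit 78) (PT.lf (nat_lit 304) (nat_lit 6) (nat_lit 4) (nat_lit 5) (nat_lit 100) (nat_lit 174) (nat_lit 176)) (PT.lf (nat_lit 456) (nat_lit 6) (nat_lit 6) (nat_lit 5) (nat_lit 101) (nat_lit 174) (nat_lit 175)))) (PT.nd (nat_lit 156) (PT.nd (nat_lit 78) (PT.lf (nat_lit 608) (nat_lit 3) (nat_lit 8) (nat_lit 4) (nat_lit 102) (nat_lit 174) (nat_lit 174)) (PT.lf (nat_lit 684) (nat_lit 6) (nat_lit 9) (nat_lit 4) (nat_lit 103) (nat_lit 174) (nat_lit 173))) (PT.nd (nat_lit 5304) (PT.lf (nat_lit 760) (nat_lit 6) (nat_lit 10) (nat_lit 4) (nat_lit 104) (nat_lit 174) (nat_lit 172)) (PT.lf (nat_lit 760) (nat_lit 6) (nat_lit 10) (nat_lit 2) (nat_lit 172) (nat_lit 174) (nat_lit 104))))) (PT.nd (nat_lit 234) (PT.nd (nat_lit 78) (PT.lf (nat_lit 684) (nat_lit 6) (nat_lit 9) (nat_lit 2) (nat_lit 173) (nat_lit 174) (nat_lit 103))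 (PT.nd (nat_lit 78) (PT.lf (nat_lit 608) (nat_lit 3) (nat_lit 8) (nat_lit 0) (nat_lit 174) (nat_lit 174) (nat_lit 102)) (PT.lf (nat_lit 456) (nat_lit 6) (nat_lit 6) (nat_lit 0) (nat_lit 175) (nat_lit 174) (nat_lit 101)))) (PT.nd (nat_lit 40950) (PT.nd (nat_lit 40872) (PT.lf (nat_lit 304) (nat_lit 6) (nat_lit 4) (nat_lit 0) (nat_lit 176) (nat_lit 174) (nat_lit 100)) (PT.lf (nat_lit 228) (nat_lit 6) (nat_lit 3) (nat_lit 5) (nat_lit 99) (nat_lit 175) (nat_lit 176))) (PT.nd (nat_lit 78) (PT.lf (nat_lit 380) (nat_lit 3) (nat_lit 5) (nat_lit 4) (nat_lit 100) (nat_lit 175) (nat_lit 175)) (PT.lf (nat_lit 456) (nat_lit 6) (nat_lit 6) (nat_lit 4) (nat_lit 101) (nat_lit 175) (nat_lit 174)))))) (PT.nd (nat_lit 46644) (PT.nd (nat_lit 5694) (PT.nd (nat_lit 5538) (PT.lf (nat_lit 532) (nat_lit 6) (nat_lit 7) (nat_lit 4) (nat_lit 102) (nat_lit 175) (nat_lit 173)) (PT.nd (nat_lit 78) (PT.lf (nat_lit 532)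 (nat_lit 6) (nat_lit 7) (nat_lit 2) (nat_lit 173) (nat_lit 175) (nat_lit 102)) (PT.lf (nat_lit 456) (nat_lit 6) (nat_lit 6) (nat_lit 2) (nat_lit 174) (nat_lit 175) (nat_lit 101)))) (PT.nd (nat_lit 40794) (PT.nd (nat_lit 78) (PT.lf (nat_lit 380) (nat_lit 3) (nat_lit 5) (nat_lit 0) (nat_lit 175) (nat_lit 175) (nat_lit 100)) (PT.lf (nat_lit 228) (nat_lit 6) (nat_lit 3) (nat_lit 0) (nat_lit 176) (nat_lit 175) (nat_lit 99))) (PT.nd (nat_lit 78) (PT.lf (nat_lit 76) (nat_lit 6) (nat_lit 1) (nat_lit 5) (nat_lit 97) (nat_lit 176) (nat_lit 177)) (PT.lf (nat_lit 152) (nat_lit 3) (nat_lit 2) (nat_lit 4) (nat_lit 98) (nat_lit 176) (nat_lit 176))))) (PT.nd (nat_lit 6006) (PT.nd (nat_lit 5850) (PT.nd (nat_lit 78) (PT.lf (nat_lit 228) (nat_lit 6) (nat_lit 3) (nat_lit 4) (nat_lit 99) (nat_lit 176) (nat_lit 175)) (PT.lf (nat_lit 304) (nat_lit 6) (nat_lit 4) (nat_lit 4) (nat_lit 100) (nat_lit 176) (nat_lit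 174))) (PT.nd (nat_lit 78) (PT.lf (nat_lit 304) (nat_lit 6) (nat_lit 4) (nat_lit 2) (nat_lit 174) (nat_lit 176) (nat_lit 100)) (PT.lf (nat_lit 228) (nat_lit 6) (nat_lit 3) (nat_lit 2) (nat_lit 175) (nat_lit 176) (nat_lit 99)))) (PT.nd (nat_lit 40716) (PT.nd (nat_lit 78) (PT.lf (nat_lit 152) (nat_lit 3) (nat_lit 2) (nat_lit 0) (nat_lit 176) (nat_lit 176) (nat_lit 98)) (PT.lf (nat_lit 76) (nat_lit 6) (nat_lit 1) (nat_lit 0) (nat_lit 177) (nat_lit 176) (nat_lit 97))) (PT.nd (nat_lit 6162) (PT.lf (nat_lit 76) (nat_lit 6) (nat_lit 1) (nat_lit 4) (nat_lit 97) (nat_lit 177) (nat_lit 176)) (PT.lf (nat_lit 76) (nat_lit 6) (nat_lit 1) (nat_lit 2) (nat_lit 176) (nat_lit 177) (nat_lit 97))))))))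
noncomputable def xc0 : XT := (XT.nd (nat_lit 187512) (nat_lit 0) (nat_lit 0) (XT.nd (nat_lit 140400) (nat_lit 0) (nat_lit 0) (XT.nd (nat_lit 93600) (nat_lit 0) (nat_lit 0) (XT.nd (nat_lit 46878) (nat_lit 0) (nat_lit 0) (XT.nd (nat_lit 46722) (nat_lit 0) (nat_lit 0) (XT.lf (nat_lit 0) (nat_lit 440887137703) (nat_lit 76) (nat_lit 8384221077) (nat_lit 76) (nat_lit 8384221077) (nat_lit 2) (nat_lit 4) (nat_lit 3) (nat_lit 5) (nat_lit 3) (nat_lit 4) (nat_lit 442) (nat_lit 229) (nat_lit 229)) (XT.nd (nat_lit 78) (nat_lit 0) (nat_lit 0) (XT.lf (nat_lit 0) (nat_lit 397542877450) (nat_lit 76) (nat_lit 8811878425) (nat_lit 76) (nat_lit 8811878425) (nat_lit 2) (nat_lit 4) (nat_lit 3) (nat_lit 5) (nat_lit 3) (nat_lit 4) (nat_lit 440) (nat_lit 230) (nat_lit 230)) (XT.lf (nat_lit 0) (nat_lit 837392923685) (nat_lit 76) (nat_lit 17210629566) (nat_lit 76) (nat_lit 17181837363) (nat_lit 2) (nat_lit 4) (nat_lit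 3) (nat_lit 5) (nat_lit 3) (nat_lit 4) (nat_lit 441) (nat_lit 230) (nat_lit 229)))) (XT.nd (nat_lit 46566) (nat_lit 0) (nat_lit 0) (XT.lf (nat_lit 0) (nat_lit 881735060645) (nat_lit 76) (nat_lit 16816651920) (nat_lit 76) (nat_lit 16760438572) (nat_lit 2) (nat_lit 4) (nat_lit 3) (nat_lit 5) (nat_lit 3) (nat_lit 4) (nat_lit 442) (nat_lit 230) (nat_lit 228)) (XT.nd (nat_lit 78) (nat_lit 0) (nat_lit 0) (XT.lf (nat_lit 0) (nat_lit 358110618023) (nat_lit 76) (nat_lit 9260133384) (nat_lit 76) (nat_lit 9260133384) (nat_lit 2) (nat_lit 4) (nat_lit 3) (nat_lit 5) (nat_lit 3) (nat_lit 4) (nat_lit 438) (nat_lit 231) (nat_lit 231)) (XT.lf (nat_lit 0) (nat_lit 754712822939) (nat_lit 76) (nat_lit 18087249223) (nat_lit 76) (nat_lit 18057017410) (nat_lit 2) (nat_lit 4) (nat_lit 3) (nat_lit 5) (nat_lit 3) (nat_lit 4) (nat_lit 439) (nat_lit 231) (nat_lit 230))))) (XT.nd (nat_lit 46566) (nat_lit 0) (nat_lit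 0) (XT.nd (nat_lit 78) (nat_lit 0) (nat_lit 0) (XT.lf (nat_lit 0) (nat_lit 795044579400) (nat_lit 76) (nat_lit 17674377103) (nat_lit 76) (nat_lit 17615353088) (nat_lit 2) (nat_lit 4) (nat_lit 3) (nat_lit 5) (nat_lit 3) (nat_lit 4) (nat_lit 440) (nat_lit 231) (nat_lit 229)) (XT.nd (nat_lit 78) (nat_lit 0) (nat_lit 0) (XT.lf (nat_lit 0) (nat_lit 837312533422) (nat_lit 76) (nat_lit 17280667381) (nat_lit 76) (nat_lit 17194222221) (nat_lit 2) (nat_lit 4) (nat_lit 3) (nat_lit 5) (nat_lit 3) (nat_lit 4) (nat_lit 441) (nat_lit 231) (nat_lit 228)) (XT.lf (nat_lit 0) (nat_lit 881617322989) (nat_lit 76) (nat_lit 16905182652) (nat_lit 76) (nat_lit 16792622115) (nat_lit 2) (nat_lit 4) (nat_lit 3) (nat_lit 5) (nat_lit 3) (nat_lit 4) (nat_lit 442) (nat_lit 231) (nat_lit 227)))) (XT.nd (nat_lit 78) (nat_lit 0) (nat_lit 0) (XT.lf (nat_lit 0) (nat_lit 322220771781) (nat_lit 76) (nat_lit 9730088840) (nat_lit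 76) (nat_lit 9730088840) (nat_lit 2) (nat_lit 4) (nat_lit 3) (nat_lit 5) (nat_lit 3) (nat_lit 4) (nat_lit 436) (nat_lit 232) (nat_lit 232)) (XT.nd (nat_lit 78) (nat_lit 0) (nat_lit 0) (XT.lf (nat_lit 0) (nat_lit 679478172085) (nat_lit 76) (nat_lit 19006204136) (nat_lit 76) (nat_lit 18974460733) (nat_lit 2) (nat_lit 4) (nat_lit 3) (nat_lit 5) (nat_lit 3) (nat_lit 4) (nat_lit 437) (nat_lit 232) (nat_lit 231)) (XT.lf (nat_lit 0) (nat_lit 716178001770) (nat_lit 76) (nat_lit 18573418034) (nat_lit 76) (nat_lit 18511442818) (nat_lit 2) (nat_lit 4) (nat_lit 3) (nat_lit 5) (nat_lit 3) (nat_lit 4) (nat_lit 438) (nat_lit 232) (nat_lit 230)))))) (XT.nd (nat_lit 46644) (nat_lit 0) (nat_lit 0) (XT.nd (nat_lit 234) (nat_lit 0) (nat_lit 0) (XT.nd (nat_lit 78) (nat_lit 0) (nat_lit 0) (XT.lf (nat_lit 0) (nat_lit 754628413162) (nat_lit 76) (nat_lit 18160788929) (nat_lit 76) (nat_lit 18070021511) (nat_lit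 2) (nat_lit 4) (nat_lit 3) (nat_lit 5) (nat_lit 3) (nat_lit 4) (nat_lit 439) (nat_lit 232) (nat_lit 229)) (XT.nd (nat_lit 78) (nat_lit 0) (nat_lit 0) (XT.lf (nat_lit 0) (nat_lit 794920954861) (nat_lit 76) (nat_lit 17767334372) (nat_lit 76) (nat_lit 17649145809) (nat_lit 2) (nat_lit 4) (nat_lit 3) (nat_lit 5) (nat_lit 3) (nat_lit 4) (nat_lit 440) (nat_lit 232) (nat_lit 228)) (XT.lf (nat_lit 0) (nat_lit 837151561490) (nat_lit 76) (nat_lit 17392117567) (nat_lit 76) (nat_lit 17247813627) (nat_lit 2) (nat_lit 4) (nat_lit 3) (nat_lit 5) (nat_lit 3) (nat_lit 4) (nat_lit 441) (nat_lit 232) (nat_lit 227)))) (XT.nd (nat_lit 46254) (nat_lit 0) (nat_lit 0) (XT.lf (nat_lit 0) (nat_lit 881420782112) (nat_lit 76) (nat_lit 17034245139) (nat_lit 76) (nat_lit 16865069412) (nat_lit 2) (nat_lit 4) (nat_lit 3) (nat_lit 5) (nat_lit 3) (nat_lit 4) (nat_lit 442) (nat_lit 232) (nat_lit 226)) (XT.nd (nat_lit 78)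 (nat_lit 0) (nat_lit 0) (XT.lf (nat_lit 0) (nat_lit 289537817496) (nat_lit 76) (nat_lit 10222896036) (nat_lit 76) (nat_lit 10222896036) (nat_lit 2) (nat_lit 4) (nat_lit 3) (nat_lit 5) (nat_lit 3) (nat_lit 4) (nat_lit 434) (nat_lit 233) (nat_lit 233)) (XT.lf (nat_lit 0) (nat_lit 610984695656) (nat_lit 76) (nat_lit 19969750128) (nat_lit 76) (nat_lit 19936419554) (nat_lit 2) (nat_lit 4) (nat_lit 3) (nat_lit 5) (nat_lit 3) (nat_lit 4) (nat_lit 435) (nat_lit 233) (nat_lit 232))))) (XT.nd (nat_lit 234) (nat_lit 0) (nat_lit 0) (XT.nd (nat_lit 78) (nat_lit 0) (nat_lit 0) (XT.lf (nat_lit 0) (nat_lit 644396147573) (nat_lit 76) (nat_lit 19515986509) (nat_lit 76) (nat_lit 19450912533) (nat_lit 2) (nat_lit 4) (nat_lit 3) (nat_lit 5) (nat_lit 3) (nat_lit 4) (nat_lit 436) (nat_lit 233) (nat_lit 231)) (XT.nd (nat_lit 78) (nat_lit 0) (nat_lit 0) (XT.lf (nat_lit 0) (nat_lit 679389541820) (nat_lit 76) (nat_lit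 19083420828) (nat_lit 76) (nat_lit 18988115039) (nat_lit 2) (nat_lit 4) (nat_lit 3) (nat_lit 5) (nat_lit 3) (nat_lit 4) (nat_lit 437) (nat_lit 233) (nat_lit 230)) (XT.lf (nat_lit 0) (nat_lit 716048196004) (nat_lit 76) (nat_lit 18671023166) (nat_lit 76) (nat_lit 18546925174) (nat_lit 2) (nat_lit 4) (nat_lit 3) (nat_lit 5) (nat_lit 3) (nat_lit 4) (nat_lit 438) (nat_lit 233) (nat_lit 229)))) (XT.nd (nat_lit 78) (nat_lit 0) (nat_lit 0) (XT.lf (nat_lit 0) (nat_lit 754459392634) (nat_lit 76) (nat_lit 18277811624) (nat_lit 76) (nat_lit 18126292487) (nat_lit 2) (nat_lit 4) (nat_lit 3) (nat_lit 5) (nat_lit 3) (nat_lit 4) (nat_lit 439) (nat_lit 233) (nat_lit 228)) (XT.nd (nat_lit 78) (nat_lit 0) (nat_lit 0) (XT.lf (nat_lit 0) (nat_lit 794714586940) (nat_lit 76) (nat_lit 17902849984) (nat_lit 76) (nat_lit 17725215470) (nat_lit 2) (nat_lit 4) (nat_lit 3) (nat_lit 5) (nat_lit 3) (nat_lit 4) (nat_lit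 440) (nat_lit 233) (nat_lit 227)) (XT.lf (nat_lit 0) (nat_lit 836909624623) (nat_lit 76) (nat_lit 17545245479) (nat_lit 76) (nat_lit 17342739179) (nat_lit 2) (nat_lit 4) (nat_lit 3) (nat_lit 5) (nat_lit 3) (nat_lit 4) (nat_lit 441) (nat_lit 233) (nat_lit 226))))))) (XT.nd (nat_lit 92820) (nat_lit 0) (nat_lit 0) (XT.nd (nat_lit 46488) (nat_lit 0) (nat_lit 0) (XT.nd (nat_lit 46254) (nat_lit 0) (nat_lit 0) (XT.nd (nat_lit 46098) (nat_lit 0) (nat_lit 0) (XT.lf (nat_lit 0) (nat_lit 881144970059) (nat_lit 76) (nat_lit 17204146672) (nat_lit 76) (nat_lit 16977952955) (nat_lit 2) (nat_lit 4) (nat_lit 3) (nat_lit 5) (nat_lit 3) (nat_lit 4) (nat_lit 442) (nat_lit 233) (nat_lit 225)) (XT.nd (nat_lit 78) (nat_lit 0) (nat_lit 0) (XT.lf (nat_lit 0) (nat_lit 259757118463) (nat_lit 76) (nat_lit 10739757622) (nat_lit 76) (nat_lit 10739757622) (nat_lit 2) (nat_lit 4) (nat_lit 3) (nat_lit 5) (nat_lit 3) (nat_lit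 4) (nat_lit 432) (nat_lit 234) (nat_lit 234)) (XT.lf (nat_lit 0) (nat_lit 548592991632) (nat_lit 76) (nat_lit 20980242881) (nat_lit 76) (nat_lit 20945245779) (nat_lit 2) (nat_lit 4) (nat_lit 3) (nat_lit 5) (nat_lit 3) (nat_lit 4) (nat_lit 433) (nat_lit 234) (nat_lit 233)))) (XT.nd (nat_lit 78) (nat_lit 0) (nat_lit 0) (XT.lf (nat_lit 0) (nat_lit 579027969204) (nat_lit 76) (nat_lit 20504391344) (nat_lit 76) (nat_lit 20436063668) (nat_lit 2) (nat_lit 4) (nat_lit 3) (nat_lit 5) (nat_lit 3) (nat_lit 4) (nat_lit 434) (nat_lit 234) (nat_lit 232)) (XT.nd (nat_lit 78) (nat_lit 0) (nat_lit 0) (XT.lf (nat_lit 0) (nat_lit 610891633877) (nat_lit 76) (nat_lit 20050827654) (nat_lit 76) (nat_lit 19950756575) (nat_lit 2) (nat_lit 4) (nat_lit 3) (nat_lit 5) (nat_lit 3) (nat_lit 4) (nat_lit 435) (nat_lit 234) (nat_lit 231)) (XT.lf (nat_lit 0) (nat_lit 644259851519) (nat_lit 76) (nat_lit 19618471898) (nat_lit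 76) (nat_lit 19488169007) (nat_lit 2) (nat_lit 4) (nat_lit 3) (nat_lit 5) (nat_lit 3) (nat_lit 4) (nat_lit 436) (nat_lit 234) (nat_lit 230))))) (XT.nd (nat_lit 234) (nat_lit 0) (nat_lit 0) (XT.nd (nat_lit 78) (nat_lit 0) (nat_lit 0) (XT.lf (nat_lit 0) (nat_lit 679212070266) (nat_lit 76) (nat_lit 19206294658) (nat_lit 76) (nat_lit 19047199564) (nat_lit 2) (nat_lit 4) (nat_lit 3) (nat_lit 5) (nat_lit 3) (nat_lit 4) (nat_lit 437) (nat_lit 234) (nat_lit 229)) (XT.nd (nat_lit 78) (nat_lit 0) (nat_lit 0) (XT.lf (nat_lit 0) (nat_lit 715831509687) (nat_lit 76) (nat_lit 18813314558) (nat_lit 76) (nat_lit 18626798319) (nat_lit 2) (nat_lit 4) (nat_lit 3) (nat_lit 5) (nat_lit 3) (nat_lit 4) (nat_lit 438) (nat_lit 234) (nat_lit 228)) (XT.lf (nat_lit 0) (nat_lit 754205358924) (nat_lit 76) (nat_lit 18438595932) (nat_lit 76) (nat_lit 18225964317) (nat_lit 2) (nat_lit 4) (nat_lit 3) (nat_lit 5) (nat_lit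 3) (nat_lit 4) (nat_lit 439) (nat_lit 234) (nat_lit 227)))) (XT.nd (nat_lit 78) (nat_lit 0) (nat_lit 0) (XT.lf (nat_lit 0) (nat_lit 794424984285) (nat_lit 76) (nat_lit 18081246594) (nat_lit 76) (nat_lit 17843743191) (nat_lit 2) (nat_lit 4) (nat_lit 3) (nat_lit 5) (nat_lit 3) (nat_lit 4) (nat_lit 440) (nat_lit 234) (nat_lit 226)) (XT.nd (nat_lit 78) (nat_lit 0) (nat_lit 0) (XT.lf (nat_lit 0) (nat_lit 836586146781) (nat_lit 76) (nat_lit 17740415710) (nat_lit 76) (nat_lit 17479224891) (nat_lit 2) (nat_lit 4) (nat_lit 3) (nat_lit 5) (nat_lit 3) (nat_lit 4) (nat_lit 441) (nat_lit 234) (nat_lit 225)) (XT.lf (nat_lit 0) (nat_lit 880789230135) (nat_lit 76) (nat_lit 17415291779) (nat_lit 76) (nat_lit 17131541516) (nat_lit 2) (nat_lit 4) (nat_lit 3) (nat_lit 5) (nat_lit 3) (nat_lit 4) (nat_lit 442) (nat_lit 234) (nat_lit 224)))))) (XT.nd (nat_lit 468) (nat_lit 0) (nat_lit 0) (XT.nd (nat_lit 234)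 (nat_lit 0) (nat_lit 0) (XT.nd (nat_lit 78) (nat_lit 0) (nat_lit 0) (XT.lf (nat_lit 0) (nat_lit 232602035695) (nat_lit 76) (nat_lit 11281930795) (nat_lit 76) (nat_lit 11281930795) (nat_lit 2) (nat_lit 4) (nat_lit 3) (nat_lit 5) (nat_lit 3) (nat_lit 4) (nat_lit 430) (nat_lit 235) (nat_lit 235)) (XT.nd (nat_lit 78) (nat_lit 0) (nat_lit 0) (XT.lf (nat_lit 0) (nat_lit 491722469960) (nat_lit 76) (nat_lit 22040144138) (nat_lit 76) (nat_lit 22003397181) (nat_lit 2) (nat_lit 4) (nat_lit 3) (nat_lit 5) (nat_lit 3) (nat_lit 4) (nat_lit 431) (nat_lit 235) (nat_lit 234)) (XT.lf (nat_lit 0) (nat_lit 519464187849) (nat_lit 76) (nat_lit 21541044480) (nat_lit 76) (nat_lit 21469300420) (nat_lit 2) (nat_lit 4) (nat_lit 3) (nat_lit 5) (nat_lit 3) (nat_lit 4) (nat_lit 432) (nat_lit 235) (nat_lit 233)))) (XT.nd (nat_lit 78) (nat_lit 0) (nat_lit 0) (XT.lf (nat_lit 0) (nat_lit 548495276765) (nat_lit 76) (nat_lit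 21065374284) (nat_lit 76) (nat_lit 20960299651) (nat_lit 2) (nat_lit 4) (nat_lit 3) (nat_lit 5) (nat_lit 3) (nat_lit 4) (nat_lit 433) (nat_lit 235) (nat_lit 232)) (XT.nd (nat_lit 78) (nat_lit 0) (nat_lit 0) (XT.lf (nat_lit 0) (nat_lit 578884858348) (nat_lit 76) (nat_lit 20612001002) (nat_lit 76) (nat_lit 20475182966) (nat_lit 2) (nat_lit 4) (nat_lit 3) (nat_lit 5) (nat_lit 3) (nat_lit 4) (nat_lit 434) (nat_lit 235) (nat_lit 231)) (XT.lf (nat_lit 0) (nat_lit 610705288745) (nat_lit 76) (nat_lit 20179845175) (nat_lit 76) (nat_lit 20012795327) (nat_lit 2) (nat_lit 4) (nat_lit 3) (nat_lit 5) (nat_lit 3) (nat_lit 4) (nat_lit 435) (nat_lit 235) (nat_lit 230))))) (XT.nd (nat_lit 234) (nat_lit 0) (nat_lit 0) (XT.nd (nat_lit 78) (nat_lit 0) (nat_lit 0) (XT.lf (nat_lit 0) (nat_lit 644032330886) (nat_lit 76) (nat_lit 19767877860) (nat_lit 76) (nat_lit 19572035809) (nat_lit 2) (nat_lit 4) (nat_lit 3)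 (nat_lit 5) (nat_lit 3) (nat_lit 4) (nat_lit 436) (nat_lit 235) (nat_lit 229)) (XT.nd (nat_lit 78) (nat_lit 0) (nat_lit 0) (XT.lf (nat_lit 0) (nat_lit 678945334870) (nat_lit 76) (nat_lit 19375118182) (nat_lit 76) (nat_lit 19151854985) (nat_lit 2) (nat_lit 4) (nat_lit 3) (nat_lit 5) (nat_lit 3) (nat_lit 4) (nat_lit 437) (nat_lit 235) (nat_lit 228)) (XT.lf (nat_lit 0) (nat_lit 715527426899) (nat_lit 76) (nat_lit 19000630998) (nat_lit 76) (nat_lit 18751252426) (nat_lit 2) (nat_lit 4) (nat_lit 3) (nat_lit 5) (nat_lit 3) (nat_lit 4) (nat_lit 438) (nat_lit 235) (nat_lit 227)))) (XT.nd (nat_lit 156) (nat_lit 0) (nat_lit 0) (XT.nd (nat_lit 78) (nat_lit 0) (nat_lit 0) (XT.lf (nat_lit 0) (nat_lit 753865707190) (nat_lit 76) (nat_lit 18643524674) (nat_lit 76) (nat_lit 18369274315) (nat_lit 2) (nat_lit 4) (nat_lit 3) (nat_lit 5) (nat_lit 3) (nat_lit 4) (nat_lit 439) (nat_lit 235) (nat_lit 226)) (XT.lf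 (nat_lit 0) (nat_lit 794051457365) (nat_lit 76) (nat_lit 18302948956) (nat_lit 76) (nat_lit 18005011180) (nat_lit 2) (nat_lit 4) (nat_lit 3) (nat_lit 5) (nat_lit 3) (nat_lit 4) (nat_lit 440) (nat_lit 235) (nat_lit 225))) (XT.nd (nat_lit 78) (nat_lit 0) (nat_lit 0) (XT.lf (nat_lit 0) (nat_lit 836180357779) (nat_lit 76) (nat_lit 17978092949) (nat_lit 76) (nat_lit 17657595729) (nat_lit 2) (nat_lit 4) (nat_lit 3) (nat_lit 5) (nat_lit 3) (nat_lit 4) (nat_lit 441) (nat_lit 235) (nat_lit 224)) (XT.lf (nat_lit 0) (nat_lit 880352715340) (nat_lit 76) (nat_lit 17668183187) (nat_lit 76) (nat_lit 17326200782) (nat_lit 2) (nat_lit 4) (nat_lit 3) (nat_lit 5) (nat_lit 3) (nat_lit 4) (nat_lit 442) (nat_lit 235) (nat_lit 223))))))))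
noncomputable def xc1 : XT := (XT.nd (nat_lit 47502) (nat_lit 0) (nat_lit 0) (XT.nd (nat_lit 936) (nat_lit 0) (nat_lit 0) (XT.nd (nat_lit 468) (nat_lit 0) (nat_lit 0) (XT.nd (nat_lit 234) (nat_lit 0) (nat_lit 0) (XT.nd (nat_lit 78) (nat_lit 0) (nat_lit 0) (XT.lf (nat_lit 0) (nat_lit 207821308734) (nat_lit 76) (nat_lit 11850730548) (nat_lit 76) (nat_lit 11850730548) (nat_lit 2) (nat_lit 4) (nat_lit 3) (nat_lit 5) (nat_lit 3) (nat_lit 4) (nat_lit 428) (nat_lit 236) (nat_lit 236)) (XT.nd (nat_lit 78) (nat_lit 0) (nat_lit 0) (XT.lf (nat_lit 0) (nat_lit 439845853093) (nat_lit 76) (nat_lit 23152028091) (nat_lit 76) (nat_lit 23113443786) (nat_lit 2) (nat_lit 4) (nat_lit 3) (nat_lit 5) (nat_lit 3) (nat_lit 4) (nat_lit 429) (nat_lit 236) (nat_lit 235)) (XT.lf (nat_lit 0) (nat_lit 465151519857) (nat_lit 76) (nat_lit 22628467287) (nat_lit 76) (nat_lit 22553136025) (nat_lit 2) (nat_lit 4) (nat_lit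 3) (nat_lit 5) (nat_lit 3) (nat_lit 4) (nat_lit 430) (nat_lit 236) (nat_lit 234)))) (XT.nd (nat_lit 78) (nat_lit 0) (nat_lit 0) (XT.lf (nat_lit 0) (nat_lit 491619869350) (nat_lit 76) (nat_lit 22129532111) (nat_lit 76) (nat_lit 22019203746) (nat_lit 2) (nat_lit 4) (nat_lit 3) (nat_lit 5) (nat_lit 3) (nat_lit 4) (nat_lit 431) (nat_lit 236) (nat_lit 233)) (XT.nd (nat_lit 78) (nat_lit 0) (nat_lit 0) (XT.lf (nat_lit 0) (nat_lit 519313921449) (nat_lit 76) (nat_lit 21654034621) (nat_lit 76) (nat_lit 21510375683) (nat_lit 2) (nat_lit 4) (nat_lit 3) (nat_lit 5) (nat_lit 3) (nat_lit 4) (nat_lit 432) (nat_lit 236) (nat_lit 232)) (XT.lf (nat_lit 0) (nat_lit 548299614376) (nat_lit 76) (nat_lit 21200842681) (nat_lit 76) (nat_lit 21025440340) (nat_lit 2) (nat_lit 4) (nat_lit 3) (nat_lit 5) (nat_lit 3) (nat_lit 4) (nat_lit 433) (nat_lit 236) (nat_lit 231))))) (XT.nd (nat_lit 234) (nat_lit 0) (nat_lit 0)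 (XT.nd (nat_lit 78) (nat_lit 0) (nat_lit 0) (XT.lf (nat_lit 0) (nat_lit 578645961683) (nat_lit 76) (nat_lit 20768877262) (nat_lit 76) (nat_lit 20563243108) (nat_lit 2) (nat_lit 4) (nat_lit 3) (nat_lit 5) (nat_lit 3) (nat_lit 4) (nat_lit 434) (nat_lit 236) (nat_lit 230)) (XT.nd (nat_lit 78) (nat_lit 0) (nat_lit 0) (XT.lf (nat_lit 0) (nat_lit 610425216580) (nat_lit 76) (nat_lit 20357109875) (nat_lit 76) (nat_lit 20122683519) (nat_lit 2) (nat_lit 4) (nat_lit 3) (nat_lit 5) (nat_lit 3) (nat_lit 4) (nat_lit 435) (nat_lit 236) (nat_lit 229)) (XT.lf (nat_lit 0) (nat_lit 643713043958) (nat_lit 76) (nat_lit 19964560122) (nat_lit 76) (nat_lit 19702712621) (nat_lit 2) (nat_lit 4) (nat_lit 3) (nat_lit 5) (nat_lit 3) (nat_lit 4) (nat_lit 436) (nat_lit 236) (nat_lit 228)))) (XT.nd (nat_lit 78) (nat_lit 0) (nat_lit 0) (XT.lf (nat_lit 0) (nat_lit 678588700550) (nat_lit 76) (nat_lit 19590293361) (nat_lit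 76) (nat_lit 19302330483) (nat_lit 2) (nat_lit 4) (nat_lit 3) (nat_lit 5) (nat_lit 3) (nat_lit 4) (nat_lit 437) (nat_lit 236) (nat_lit 227)) (XT.nd (nat_lit 78) (nat_lit 0) (nat_lit 0) (XT.lf (nat_lit 0) (nat_lit 715135223633) (nat_lit 76) (nat_lit 19233418479) (nat_lit 76) (nat_lit 18920583814) (nat_lit 2) (nat_lit 4) (nat_lit 3) (nat_lit 5) (nat_lit 3) (nat_lit 4) (nat_lit 438) (nat_lit 236) (nat_lit 226)) (XT.lf (nat_lit 0) (nat_lit 753439628738) (nat_lit 76) (nat_lit 18893085776) (nat_lit 76) (nat_lit 18556563695) (nat_lit 2) (nat_lit 4) (nat_lit 3) (nat_lit 5) (nat_lit 3) (nat_lit 4) (nat_lit 439) (nat_lit 236) (nat_lit 225)))))) (XT.nd (nat_lit 46020) (nat_lit 0) (nat_lit 0) (XT.nd (nat_lit 45786) (nat_lit 0) (nat_lit 0) (XT.nd (nat_lit 78) (nat_lit 0) (nat_lit 0) (XT.lf (nat_lit 0) (nat_lit 793593116830) (nat_lit 76) (nat_lit 18568484934) (nat_lit 76) (nat_lit 18209403409) (nat_lit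 2) (nat_lit 4) (nat_lit 3) (nat_lit 5) (nat_lit 3) (nat_lit 4) (nat_lit 440) (nat_lit 236) (nat_lit 224)) (XT.nd (nat_lit 78) (nat_lit 0) (nat_lit 0) (XT.lf (nat_lit 0) (nat_lit 835691291452) (nat_lit 76) (nat_lit 18258843095) (nat_lit 76) (nat_lit 17878276385) (nat_lit 2) (nat_lit 4) (nat_lit 3) (nat_lit 5) (nat_lit 3) (nat_lit 4) (nat_lit 441) (nat_lit 236) (nat_lit 223)) (XT.lf (nat_lit 0) (nat_lit 879834386353) (nat_lit 76) (nat_lit 17963423017) (nat_lit 76) (nat_lit 17562394226) (nat_lit 2) (nat_lit 4) (nat_lit 3) (nat_lit 5) (nat_lit 3) (nat_lit 4) (nat_lit 442) (nat_lit 236) (nat_lit 222)))) (XT.nd (nat_lit 78) (nat_lit 0) (nat_lit 0) (XT.lf (nat_lit 0) (nat_lit 185186679163) (nat_lit 76) (nat_lit 12447533028) (nat_lit 76) (nat_lit 12447533028) (nat_lit 2) (nat_lit 4) (nat_lit 3) (nat_lit 5) (nat_lit 3) (nat_lit 4) (nat_lit 426) (nat_lit 237) (nat_lit 237)) (XT.nd (nat_lit 78) (nat_lit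 0) (nat_lit 0) (XT.lf (nat_lit 0) (nat_lit 392484186232) (nat_lit 76) (nat_lit 24318587996) (nat_lit 76) (nat_lit 24278074475) (nat_lit 2) (nat_lit 4) (nat_lit 3) (nat_lit 5) (nat_lit 3) (nat_lit 4) (nat_lit 427) (nat_lit 237) (nat_lit 236)) (XT.lf (nat_lit 0) (nat_lit 415587438359) (nat_lit 76) (nat_lit 23769297077) (nat_lit 76) (nat_lit 23690199251) (nat_lit 2) (nat_lit 4) (nat_lit 3) (nat_lit 5) (nat_lit 3) (nat_lit 4) (nat_lit 428) (nat_lit 237) (nat_lit 235))))) (XT.nd (nat_lit 234) (nat_lit 0) (nat_lit 0) (XT.nd (nat_lit 78) (nat_lit 0) (nat_lit 0) (XT.lf (nat_lit 0) (nat_lit 439738122452) (nat_lit 76) (nat_lit 23245885463) (nat_lit 76) (nat_lit 23130040680) (nat_lit 2) (nat_lit 4) (nat_lit 3) (nat_lit 5) (nat_lit 3) (nat_lit 4) (nat_lit 429) (nat_lit 237) (nat_lit 234)) (XT.nd (nat_lit 78) (nat_lit 0) (nat_lit 0) (XT.lf (nat_lit 0) (nat_lit 464993740138) (nat_lit 76) (nat_lit 22747106935)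 (nat_lit 76) (nat_lit 22596265051) (nat_lit 2) (nat_lit 4) (nat_lit 3) (nat_lit 5) (nat_lit 3) (nat_lit 4) (nat_lit 430) (nat_lit 237) (nat_lit 233)) (XT.lf (nat_lit 0) (nat_lit 491414423841) (nat_lit 76) (nat_lit 22271773928) (nat_lit 76) (nat_lit 22087601470) (nat_lit 2) (nat_lit 4) (nat_lit 3) (nat_lit 5) (nat_lit 3) (nat_lit 4) (nat_lit 431) (nat_lit 237) (nat_lit 232)))) (XT.nd (nat_lit 156) (nat_lit 0) (nat_lit 0) (XT.nd (nat_lit 78) (nat_lit 0) (nat_lit 0) (XT.lf (nat_lit 0) (nat_lit 519063079951) (nat_lit 76) (nat_lit 21818754693) (nat_lit 76) (nat_lit 21602838832) (nat_lit 2) (nat_lit 4) (nat_lit 3) (nat_lit 5) (nat_lit 3) (nat_lit 4) (nat_lit 432) (nat_lit 237) (nat_lit 231)) (XT.lf (nat_lit 0) (nat_lit 548005538602) (nat_lit 76) (nat_lit 21386970616) (nat_lit 76) (nat_lit 21140822942) (nat_lit 2) (nat_lit 4) (nat_lit 3) (nat_lit 5) (nat_lit 3) (nat_lit 4) (nat_lit 433) (nat_lit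 237) (nat_lit 230))) (XT.nd (nat_lit 78) (nat_lit 0) (nat_lit 0) (XT.lf (nat_lit 0) (nat_lit 578310710409) (nat_lit 76) (nat_lit 20975393638) (nat_lit 76) (nat_lit 20700453761) (nat_lit 2) (nat_lit 4) (nat_lit 3) (nat_lit 5) (nat_lit 3) (nat_lit 4) (nat_lit 434) (nat_lit 237) (nat_lit 229)) (XT.lf (nat_lit 0) (nat_lit 610050750543) (nat_lit 76) (nat_lit 20583043813) (nat_lit 76) (nat_lit 20280682792) (nat_lit 2) (nat_lit 4) (nat_lit 3) (nat_lit 5) (nat_lit 3) (nat_lit 4) (nat_lit 435) (nat_lit 237) (nat_lit 228))))))) (XT.nd (nat_lit 46332) (nat_lit 0) (nat_lit 0) (XT.nd (nat_lit 468) (nat_lit 0) (nat_lit 0) (XT.nd (nat_lit 234) (nat_lit 0) (nat_lit 0) (XT.nd (nat_lit 78) (nat_lit 0) (nat_lit 0) (XT.lf (nat_lit 0) (nat_lit 643301230528) (nat_lit 76) (nat_lit 20208986977) (nat_lit 76) (nat_lit 19880510579) (nat_lit 2) (nat_lit 4) (nat_lit 3) (nat_lit 5) (nat_lit 3) (nat_lit 4) (nat_lit 436)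 (nat_lit 237) (nat_lit 227)) (XT.nd (nat_lit 78) (nat_lit 0) (nat_lit 0) (XT.lf (nat_lit 0) (nat_lit 678141318175) (nat_lit 76) (nat_lit 19852332517) (nat_lit 76) (nat_lit 19498984332) (nat_lit 2) (nat_lit 4) (nat_lit 3) (nat_lit 5) (nat_lit 3) (nat_lit 4) (nat_lit 437) (nat_lit 237) (nat_lit 226)) (XT.lf (nat_lit 0) (nat_lit 714653966071) (nat_lit 76) (nat_lit 19512231256) (nat_lit 76) (nat_lit 19135195655) (nat_lit 2) (nat_lit 4) (nat_lit 3) (nat_lit 5) (nat_lit 3) (nat_lit 4) (nat_lit 438) (nat_lit 237) (nat_lit 225)))) (XT.nd (nat_lit 78) (nat_lit 0) (nat_lit 0) (XT.lf (nat_lit 0) (nat_lit 752926109094) (nat_lit 76) (nat_lit 19187873429) (nat_lit 76) (nat_lit 18788278384) (nat_lit 2) (nat_lit 4) (nat_lit 3) (nat_lit 5) (nat_lit 3) (nat_lit 4) (nat_lit 439) (nat_lit 237) (nat_lit 224)) (XT.nd (nat_lit 78) (nat_lit 0) (nat_lit 0) (XT.lf (nat_lit 0) (nat_lit 793048871394) (nat_lit 76)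 (nat_lit 18878486756) (nat_lit 76) (nat_lit 18457406526) (nat_lit 2) (nat_lit 4) (nat_lit 3) (nat_lit 5) (nat_lit 3) (nat_lit 4) (nat_lit 440) (nat_lit 237) (nat_lit 223)) (XT.lf (nat_lit 0) (nat_lit 835117783356) (nat_lit 76) (nat_lit 18583334601) (nat_lit 76) (nat_lit 18141792290) (nat_lit 2) (nat_lit 4) (nat_lit 3) (nat_lit 5) (nat_lit 3) (nat_lit 4) (nat_lit 441) (nat_lit 237) (nat_lit 222))))) (XT.nd (nat_lit 45630) (nat_lit 0) (nat_lit 0) (XT.nd (nat_lit 45474) (nat_lit 0) (nat_lit 0) (XT.lf (nat_lit 0) (nat_lit 879233009058) (nat_lit 76) (nat_lit 18301714222) (nat_lit 76) (nat_lit 17840684215) (nat_lit 2) (nat_lit 4) (nat_lit 3) (nat_lit 5) (nat_lit 3) (nat_lit 4) (nat_lit 442) (nat_lit 237) (nat_lit 221)) (XT.nd (nat_lit 78) (nat_lit 0) (nat_lit 0) (XT.lf (nat_lit 0) (nat_lit 164490734203) (nat_lit 76) (nat_lit 13073779024) (nat_lit 76) (nat_lit 13073779024) (nat_lit 2) (nat_lit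 4) (nat_lit 3) (nat_lit 5) (nat_lit 3) (nat_lit 4) (nat_lit 424) (nat_lit 238) (nat_lit 238)) (XT.lf (nat_lit 0) (nat_lit 349202309815) (nat_lit 76) (nat_lit 25542643019) (nat_lit 76) (nat_lit 25500103823) (nat_lit 2) (nat_lit 4) (nat_lit 3) (nat_lit 5) (nat_lit 3) (nat_lit 4) (nat_lit 425) (nat_lit 238) (nat_lit 237)))) (XT.nd (nat_lit 78) (nat_lit 0) (nat_lit 0) (XT.lf (nat_lit 0) (nat_lit 370315420263) (nat_lit 76) (nat_lit 24966293835) (nat_lit 76) (nat_lit 24883241119) (nat_lit 2) (nat_lit 4) (nat_lit 3) (nat_lit 5) (nat_lit 3) (nat_lit 4) (nat_lit 426) (nat_lit 238) (nat_lit 236)) (XT.nd (nat_lit 78) (nat_lit 0) (nat_lit 0) (XT.lf (nat_lit 0) (nat_lit 392371069059) (nat_lit 76) (nat_lit 24417138236) (nat_lit 76) (nat_lit 24295501214) (nat_lit 2) (nat_lit 4) (nat_lit 3) (nat_lit 5) (nat_lit 3) (nat_lit 4) (nat_lit 427) (nat_lit 238) (nat_lit 235)) (XT.lf (nat_lit 0) (nat_lit 415421769654)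 (nat_lit 76) (nat_lit 23893868707) (nat_lit 76) (nat_lit 23735484728) (nat_lit 2) (nat_lit 4) (nat_lit 3) (nat_lit 5) (nat_lit 3) (nat_lit 4) (nat_lit 428) (nat_lit 238) (nat_lit 234)))))) (XT.nd (nat_lit 468) (nat_lit 0) (nat_lit 0) (XT.nd (nat_lit 234) (nat_lit 0) (nat_lit 0) (XT.nd (nat_lit 78) (nat_lit 0) (nat_lit 0) (XT.lf (nat_lit 0) (nat_lit 439522404668) (nat_lit 76) (nat_lit 23395239370) (nat_lit 76) (nat_lit 23201858289) (nat_lit 2) (nat_lit 4) (nat_lit 3) (nat_lit 5) (nat_lit 3) (nat_lit 4) (nat_lit 429) (nat_lit 238) (nat_lit 233)) (XT.nd (nat_lit 78) (nat_lit 0) (nat_lit 0) (XT.lf (nat_lit 0) (nat_lit 464730356565) (nat_lit 76) (nat_lit 22920063012) (nat_lit 76) (nat_lit 22693351357) (nat_lit 2) (nat_lit 4) (nat_lit 3) (nat_lit 5) (nat_lit 3) (nat_lit 4) (nat_lit 430) (nat_lit 238) (nat_lit 232)) (XT.lf (nat_lit 0) (nat_lit 491105644279) (nat_lit 76) (nat_lit 22467208259) (nat_lit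 76) (nat_lit 22208753202) (nat_lit 2) (nat_lit 4) (nat_lit 3) (nat_lit 5) (nat_lit 3) (nat_lit 4) (nat_lit 431) (nat_lit 238) (nat_lit 231)))) (XT.nd (nat_lit 78) (nat_lit 0) (nat_lit 0) (XT.lf (nat_lit 0) (nat_lit 518711066114) (nat_lit 76) (nat_lit 22035596888) (nat_lit 76) (nat_lit 21746910018) (nat_lit 2) (nat_lit 4) (nat_lit 3) (nat_lit 5) (nat_lit 3) (nat_lit 4) (nat_lit 432) (nat_lit 238) (nat_lit 230)) (XT.nd (nat_lit 78) (nat_lit 0) (nat_lit 0) (XT.lf (nat_lit 0) (nat_lit 547612349263) (nat_lit 76) (nat_lit 21624201251) (nat_lit 76) (nat_lit 21306722178) (nat_lit 2) (nat_lit 4) (nat_lit 3) (nat_lit 5) (nat_lit 3) (nat_lit 4) (nat_lit 433) (nat_lit 238) (nat_lit 229)) (XT.lf (nat_lit 0) (nat_lit 577878306308) (nat_lit 76) (nat_lit 21232041835) (nat_lit 76) (nat_lit 20887141617) (nat_lit 2) (nat_lit 4) (nat_lit 3) (nat_lit 5) (nat_lit 3) (nat_lit 4) (nat_lit 434) (nat_lit 238) (nat_lit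 228))))) (XT.nd (nat_lit 234) (nat_lit 0) (nat_lit 0) (XT.nd (nat_lit 78) (nat_lit 0) (nat_lit 0) (XT.lf (nat_lit 0) (nat_lit 609580999049) (nat_lit 76) (nat_lit 20858184927) (nat_lit 76) (nat_lit 20487169333) (nat_lit 2) (nat_lit 4) (nat_lit 3) (nat_lit 5) (nat_lit 3) (nat_lit 4) (nat_lit 435) (nat_lit 238) (nat_lit 227)) (XT.nd (nat_lit 78) (nat_lit 0) (nat_lit 0) (XT.lf (nat_lit 0) (nat_lit 642795910089) (nat_lit 76) (nat_lit 20501740393) (nat_lit 76) (nat_lit 20105853011) (nat_lit 2) (nat_lit 4) (nat_lit 3) (nat_lit 5) (nat_lit 3) (nat_lit 4) (nat_lit 436) (nat_lit 238) (nat_lit 226)) (XT.lf (nat_lit 0) (nat_lit 677602122549) (nat_lit 76) (nat_lit 20161859553) (nat_lit 76) (nat_lit 19742284755) (nat_lit 2) (nat_lit 4) (nat_lit 3) (nat_lit 5) (nat_lit 3) (nat_lit 4) (nat_lit 437) (nat_lit 238) (nat_lit 225)))) (XT.nd (nat_lit 156) (nat_lit 0) (nat_lit 0) (XT.nd (nat_lit 78) (nat_lit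 0) (nat_lit 0) (XT.lf (nat_lit 0) (nat_lit 714082508363) (nat_lit 76) (nat_lit 19837733169) (nat_lit 76) (nat_lit 19395598927) (nat_lit 2) (nat_lit 4) (nat_lit 3) (nat_lit 5) (nat_lit 3) (nat_lit 4) (nat_lit 438) (nat_lit 238) (nat_lit 224)) (XT.lf (nat_lit 0) (nat_lit 752323925594) (nat_lit 76) (nat_lit 19528589510) (nat_lit 76) (nat_lit 19064970084) (nat_lit 2) (nat_lit 4) (nat_lit 3) (nat_lit 5) (nat_lit 3) (nat_lit 4) (nat_lit 439) (nat_lit 238) (nat_lit 223))) (XT.nd (nat_lit 78) (nat_lit 0) (nat_lit 0) (XT.lf (nat_lit 0) (nat_lit 792417425234) (nat_lit 76) (nat_lit 19233692521) (nat_lit 76) (nat_lit 18749611014) (nat_lit 2) (nat_lit 4) (nat_lit 3) (nat_lit 5) (nat_lit 3) (nat_lit 4) (nat_lit 440) (nat_lit 238) (nat_lit 222)) (XT.lf (nat_lit 0) (nat_lit 834458467997) (nat_lit 76) (nat_lit 18952340065) (nat_lit 76) (nat_lit 18448770862) (nat_lit 2) (nat_lit 4) (nat_lit 3) (nat_lit 5)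 (nat_lit 3) (nat_lit 4) (nat_lit 441) (nat_lit 238) (nat_lit 221))))))))
noncomputable def xc2 : XT := (XT.nd (nat_lit 92196) (nat_lit 0) (nat_lit 0) (XT.nd (nat_lit 46176) (nat_lit 0) (nat_lit 0) (XT.nd (nat_lit 45708) (nat_lit 0) (nat_lit 0) (XT.nd (nat_lit 45474) (nat_lit 0) (nat_lit 0) (XT.nd (nat_lit 45318) (nat_lit 0) (nat_lit 0) (XT.lf (nat_lit 0) (nat_lit 878547151603) (nat_lit 76) (nat_lit 18683862257) (nat_lit 76) (nat_lit 18161733343) (nat_lit 2) (nat_lit 4) (nat_lit 3) (nat_lit 5) (nat_lit 3) (nat_lit 4) (nat_lit 442) (nat_lit 238) (nat_lit 220)) (XT.nd (nat_lit 78) (nat_lit 0) (nat_lit 0) (XT.lf (nat_lit 0) (nat_lit 145544949899) (nat_lit 76) (nat_lit 13730977584) (nat_lit 76) (nat_lit 13730977584) (nat_lit 2) (nat_lit 4) (nat_lit 3) (nat_lit 5) (nat_lit 3) (nat_lit 4) (nat_lit 422) (nat_lit 239) (nat_lit 239)) (XT.lf (nat_lit 0) (nat_lit 309604751176) (nat_lit 76) (nat_lit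 26827145350) (nat_lit 76) (nat_lit 26782479194) (nat_lit 2) (nat_lit 4) (nat_lit 3) (nat_lit 5) (nat_lit 3) (nat_lit 4) (nat_lit 423) (nat_lit 239) (nat_lit 238)))) (XT.nd (nat_lit 78) (nat_lit 0) (nat_lit 0) (XT.lf (nat_lit 0) (nat_lit 328920633439) (nat_lit 76) (nat_lit 26222347216) (nat_lit 76) (nat_lit 26135141864) (nat_lit 2) (nat_lit 4) (nat_lit 3) (nat_lit 5) (nat_lit 3) (nat_lit 4) (nat_lit 424) (nat_lit 239) (nat_lit 237)) (XT.nd (nat_lit 78) (nat_lit 0) (nat_lit 0) (XT.lf (nat_lit 0) (nat_lit 349083536784) (nat_lit 76) (nat_lit 25646120771) (nat_lit 76) (nat_lit 25518401898) (nat_lit 2) (nat_lit 4) (nat_lit 3) (nat_lit 5) (nat_lit 3) (nat_lit 4) (nat_lit 425) (nat_lit 239) (nat_lit 236)) (XT.lf (nat_lit 0) (nat_lit 370141468122) (nat_lit 76) (nat_lit 25097094047) (nat_lit 76) (nat_lit 24930790870) (nat_lit 2) (nat_lit 4) (nat_lit 3) (nat_lit 5) (nat_lit 3) (nat_lit 4) (nat_lit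 426) (nat_lit 239) (nat_lit 235))))) (XT.nd (nat_lit 234) (nat_lit 0) (nat_lit 0) (XT.nd (nat_lit 78) (nat_lit 0) (nat_lit 0) (XT.lf (nat_lit 0) (nat_lit 392144565386) (nat_lit 76) (nat_lit 24573959839) (nat_lit 76) (nat_lit 24370909704) (nat_lit 2) (nat_lit 4) (nat_lit 3) (nat_lit 5) (nat_lit 3) (nat_lit 4) (nat_lit 427) (nat_lit 239) (nat_lit 234)) (XT.nd (nat_lit 78) (nat_lit 0) (nat_lit 0) (XT.lf (nat_lit 0) (nat_lit 415145216902) (nat_lit 76) (nat_lit 24075472587) (nat_lit 76) (nat_lit 23837425350) (nat_lit 2) (nat_lit 4) (nat_lit 3) (nat_lit 5) (nat_lit 3) (nat_lit 4) (nat_lit 428) (nat_lit 239) (nat_lit 233)) (XT.lf (nat_lit 0) (nat_lit 439198186127) (nat_lit 76) (nat_lit 23600445419) (nat_lit 76) (nat_lit 23329067608) (nat_lit 2) (nat_lit 4) (nat_lit 3) (nat_lit 5) (nat_lit 3) (nat_lit 4) (nat_lit 429) (nat_lit 239) (nat_lit 232)))) (XT.nd (nat_lit 78) (nat_lit 0) (nat_lit 0) (XT.lf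 (nat_lit 0) (nat_lit 464360742035) (nat_lit 76) (nat_lit 23147747316) (nat_lit 76) (nat_lit 22844626102) (nat_lit 2) (nat_lit 4) (nat_lit 3) (nat_lit 5) (nat_lit 3) (nat_lit 4) (nat_lit 430) (nat_lit 239) (nat_lit 231)) (XT.nd (nat_lit 78) (nat_lit 0) (nat_lit 0) (XT.lf (nat_lit 0) (nat_lit 490692795474) (nat_lit 76) (nat_lit 22716300426) (nat_lit 76) (nat_lit 22382947400) (nat_lit 2) (nat_lit 4) (nat_lit 3) (nat_lit 5) (nat_lit 3) (nat_lit 4) (nat_lit 431) (nat_lit 239) (nat_lit 230)) (XT.lf (nat_lit 0) (nat_lit 518257041807) (nat_lit 76) (nat_lit 22305077495) (nat_lit 76) (nat_lit 21942932266) (nat_lit 2) (nat_lit 4) (nat_lit 3) (nat_lit 5) (nat_lit 3) (nat_lit 4) (nat_lit 432) (nat_lit 239) (nat_lit 229)))))) (XT.nd (nat_lit 468) (nat_lit 0) (nat_lit 0) (XT.nd (nat_lit 234) (nat_lit 0) (nat_lit 0) (XT.nd (nat_lit 78) (nat_lit 0) (nat_lit 0) (XT.lf (nat_lit 0) (nat_lit 547119110195) (nat_lit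 76) (nat_lit 21913099421) (nat_lit 76) (nat_lit 21523533047) (nat_lit 2) (nat_lit 4) (nat_lit 3) (nat_lit 5) (nat_lit 3) (nat_lit 4) (nat_lit 433) (nat_lit 239) (nat_lit 228)) (XT.nd (nat_lit 78) (nat_lit 0) (nat_lit 0) (XT.lf (nat_lit 0) (nat_lit 577347719846) (nat_lit 76) (nat_lit 21539432921) (nat_lit 76) (nat_lit 21123751171) (nat_lit 2) (nat_lit 4) (nat_lit 3) (nat_lit 5) (nat_lit 3) (nat_lit 4) (nat_lit 434) (nat_lit 239) (nat_lit 227)) (XT.lf (nat_lit 0) (nat_lit 609014843642) (nat_lit 76) (nat_lit 21183188315) (nat_lit 76) (nat_lit 20742634778) (nat_lit 2) (nat_lit 4) (nat_lit 3) (nat_lit 5) (nat_lit 3) (nat_lit 4) (nat_lit 435) (nat_lit 239) (nat_lit 226)))) (XT.nd (nat_lit 78) (nat_lit 0) (nat_lit 0) (XT.lf (nat_lit 0) (nat_lit 642195879496) (nat_lit 76) (nat_lit 20843517401) (nat_lit 76) (nat_lit 20379276447) (nat_lit 2) (nat_lit 4) (nat_lit 3) (nat_lit 5) (nat_lit 3) (nat_lit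 4) (nat_lit 436) (nat_lit 239) (nat_lit 225)) (XT.nd (nat_lit 78) (nat_lit 0) (nat_lit 0) (XT.lf (nat_lit 0) (nat_lit 676969829873) (nat_lit 76) (nat_lit 20519611438) (nat_lit 76) (nat_lit 20032811040) (nat_lit 2) (nat_lit 4) (nat_lit 3) (nat_lit 5) (nat_lit 3) (nat_lit 4) (nat_lit 437) (nat_lit 239) (nat_lit 224)) (XT.lf (nat_lit 0) (nat_lit 713419489895) (nat_lit 76) (nat_lit 20210699222) (nat_lit 76) (nat_lit 19702413639) (nat_lit 2) (nat_lit 4) (nat_lit 3) (nat_lit 5) (nat_lit 3) (nat_lit 4) (nat_lit 438) (nat_lit 239) (nat_lit 223))))) (XT.nd (nat_lit 234) (nat_lit 0) (nat_lit 0) (XT.nd (nat_lit 78) (nat_lit 0) (nat_lit 0) (XT.lf (nat_lit 0) (nat_lit 751631644466) (nat_lit 76) (nat_lit 19916045247) (nat_lit 76) (nat_lit 19387297584) (nat_lit 2) (nat_lit 4) (nat_lit 3) (nat_lit 5) (nat_lit 3) (nat_lit 4) (nat_lit 439) (nat_lit 239) (nat_lit 222)) (XT.nd (nat_lit 78) (nat_lit 0) (nat_lit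 0) (XT.lf (nat_lit 0) (nat_lit 791697274907) (nat_lit 76) (nat_lit 19634947957) (nat_lit 76) (nat_lit 19086712598) (nat_lit 2) (nat_lit 4) (nat_lit 3) (nat_lit 5) (nat_lit 3) (nat_lit 4) (nat_lit 440) (nat_lit 239) (nat_lit 221)) (XT.lf (nat_lit 0) (nat_lit 833711775575) (nat_lit 76) (nat_lit 19366738072) (nat_lit 76) (nat_lit 18799943002) (nat_lit 2) (nat_lit 4) (nat_lit 3) (nat_lit 5) (nat_lit 3) (nat_lit 4) (nat_lit 441) (nat_lit 239) (nat_lit 220)))) (XT.nd (nat_lit 45162) (nat_lit 0) (nat_lit 0) (XT.lf (nat_lit 0) (nat_lit 877775180996) (nat_lit 76) (nat_lit 19110776997) (nat_lit 76) (nat_lit 18526306013) (nat_lit 2) (nat_lit 4) (nat_lit 3) (nat_lit 5) (nat_lit 3) (nat_lit 4) (nat_lit 442) (nat_lit 239) (nat_lit 219)) (XT.nd (nat_lit 78) (nat_lit 0) (nat_lit 0) (XT.lf (nat_lit 0) (nat_lit 128177915295) (nat_lit 76) (nat_lit 14420709783) (nat_lit 76) (nat_lit 14420709783) (nat_lit 2)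 (nat_lit 4) (nat_lit 3) (nat_lit 5) (nat_lit 3) (nat_lit 4) (nat_lit 420) (nat_lit 240) (nat_lit 240)) (XT.lf (nat_lit 0) (nat_lit 273331996327) (nat_lit 76) (nat_lit 28175187588) (nat_lit 76) (nat_lit 28128288125) (nat_lit 2) (nat_lit 4) (nat_lit 3) (nat_lit 5) (nat_lit 3) (nat_lit 4) (nat_lit 421) (nat_lit 240) (nat_lit 239))))))) (XT.nd (nat_lit 936) (nat_lit 0) (nat_lit 0) (XT.nd (nat_lit 468) (nat_lit 0) (nat_lit 0) (XT.nd (nat_lit 234) (nat_lit 0) (nat_lit 0) (XT.nd (nat_lit 78) (nat_lit 0) (nat_lit 0) (XT.lf (nat_lit 0) (nat_lit 291026023083) (nat_lit 76) (nat_lit 27540483796) (nat_lit 76) (nat_lit 27448918176) (nat_lit 2) (nat_lit 4) (nat_lit 3) (nat_lit 5) (nat_lit 3) (nat_lit 4) (nat_lit 422) (nat_lit 240) (nat_lit 238)) (XT.nd (nat_lit 78) (nat_lit 0) (nat_lit 0) (XT.lf (nat_lit 0) (nat_lit 309480039493) (nat_lit 76) (nat_lit 26935796990) (nat_lit 76) (nat_lit 26801692173) (nat_lit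 2) (nat_lit 4) (nat_lit 3) (nat_lit 5) (nat_lit 3) (nat_lit 4) (nat_lit 423) (nat_lit 240) (nat_lit 237)) (XT.lf (nat_lit 0) (nat_lit 328737983692) (nat_lit 76) (nat_lit 26359687439) (nat_lit 76) (nat_lit 26185069102) (nat_lit 2) (nat_lit 4) (nat_lit 3) (nat_lit 5) (nat_lit 3) (nat_lit 4) (nat_lit 424) (nat_lit 240) (nat_lit 236)))) (XT.nd (nat_lit 78) (nat_lit 0) (nat_lit 0) (XT.lf (nat_lit 0) (nat_lit 348845707927) (nat_lit 76) (nat_lit 25810783454) (nat_lit 76) (nat_lit 25597580813) (nat_lit 2) (nat_lit 4) (nat_lit 3) (nat_lit 5) (nat_lit 3) (nat_lit 4) (nat_lit 425) (nat_lit 240) (nat_lit 235)) (XT.nd (nat_lit 78) (nat_lit 0) (nat_lit 0) (XT.lf (nat_lit 0) (nat_lit 369851087733) (nat_lit 76) (nat_lit 25287778121) (nat_lit 76) (nat_lit 25037828523) (nat_lit 2) (nat_lit 4) (nat_lit 3) (nat_lit 5) (nat_lit 3) (nat_lit 4) (nat_lit 426) (nat_lit 240) (nat_lit 234)) (XT.lf (nat_lit 0) (nat_lit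 391804135918) (nat_lit 76) (nat_lit 24789426190) (nat_lit 76) (nat_lit 24504479489) (nat_lit 2) (nat_lit 4) (nat_lit 3) (nat_lit 5) (nat_lit 3) (nat_lit 4) (nat_lit 427) (nat_lit 240) (nat_lit 233))))) (XT.nd (nat_lit 234) (nat_lit 0) (nat_lit 0) (XT.nd (nat_lit 78) (nat_lit 0) (nat_lit 0) (XT.lf (nat_lit 0) (nat_lit 414757121646) (nat_lit 76) (nat_lit 24314541107) (nat_lit 76) (nat_lit 23996263832) (nat_lit 2) (nat_lit 4) (nat_lit 3) (nat_lit 5) (nat_lit 3) (nat_lit 4) (nat_lit 428) (nat_lit 240) (nat_lit 232)) (XT.nd (nat_lit 78) (nat_lit 0) (nat_lit 0) (XT.lf (nat_lit 0) (nat_lit 438764694882) (nat_lit 76) (nat_lit 23861992194) (nat_lit 76) (nat_lit 23511971516) (nat_lit 2) (nat_lit 4) (nat_lit 3) (nat_lit 5) (nat_lit 3) (nat_lit 4) (nat_lit 429) (nat_lit 240) (nat_lit 231)) (XT.lf (nat_lit 0) (nat_lit 463884016514) (nat_lit 76) (nat_lit 23430701954) (nat_lit 76) (nat_lit 23050449463)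 (nat_lit 2) (nat_lit 4) (nat_lit 3) (nat_lit 5) (nat_lit 3) (nat_lit 4) (nat_lit 430) (nat_lit 240) (nat_lit 230)))) (XT.nd (nat_lit 78) (nat_lit 0) (nat_lit 0) (XT.lf (nat_lit 0) (nat_lit 490174894452) (nat_lit 76) (nat_lit 23019643504) (nat_lit 76) (nat_lit 22610598812) (nat_lit 2) (nat_lit 4) (nat_lit 3) (nat_lit 5) (nat_lit 3) (nat_lit 4) (nat_lit 431) (nat_lit 240) (nat_lit 229)) (XT.nd (nat_lit 78) (nat_lit 0) (nat_lit 0) (XT.lf (nat_lit 0) (nat_lit 517699926023) (nat_lit 76) (nat_lit 22627838136) (nat_lit 76) (nat_lit 22191372298) (nat_lit 2) (nat_lit 4) (nat_lit 3) (nat_lit 5) (nat_lit 3) (nat_lit 4) (nat_lit 432) (nat_lit 240) (nat_lit 228)) (XT.lf (nat_lit 0) (nat_lit 546524647018) (nat_lit 76) (nat_lit 22254352978) (nat_lit 76) (nat_lit 21791771764) (nat_lit 2) (nat_lit 4) (nat_lit 3) (nat_lit 5) (nat_lit 3) (nat_lit 4) (nat_lit 433) (nat_lit 240) (nat_lit 227)))))) (XT.nd (nat_lit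 468) (nat_lit 0) (nat_lit 0) (XT.nd (nat_lit 234) (nat_lit 0) (nat_lit 0) (XT.nd (nat_lit 78) (nat_lit 0) (nat_lit 0) (XT.lf (nat_lit 0) (nat_lit 576717687724) (nat_lit 76) (nat_lit 21898298780) (nat_lit 76) (nat_lit 21410845779) (nat_lit 2) (nat_lit 4) (nat_lit 3) (nat_lit 5) (nat_lit 3) (nat_lit 4) (nat_lit 434) (nat_lit 240) (nat_lit 226)) (XT.nd (nat_lit 78) (nat_lit 0) (nat_lit 0) (XT.lf (nat_lit 0) (nat_lit 608350936333) (nat_lit 76) (nat_lit 21558827795) (nat_lit 76) (nat_lit 21047687377) (nat_lit 2) (nat_lit 4) (nat_lit 3) (nat_lit 5) (nat_lit 3) (nat_lit 4) (nat_lit 435) (nat_lit 240) (nat_lit 225)) (XT.lf (nat_lit 0) (nat_lit 641499710104) (nat_lit 76) (nat_lit 21235131757) (nat_lit 76) (nat_lit 20701431895) (nat_lit 2) (nat_lit 4) (nat_lit 3) (nat_lit 5) (nat_lit 3) (nat_lit 4) (nat_lit 436) (nat_lit 240) (nat_lit 224)))) (XT.nd (nat_lit 78) (nat_lit 0) (nat_lit 0) (XT.lf (nat_lit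 0) (nat_lit 676242934690) (nat_lit 76) (nat_lit 20926439962) (nat_lit 76) (nat_lit 20371254916) (nat_lit 2) (nat_lit 4) (nat_lit 3) (nat_lit 5) (nat_lit 3) (nat_lit 4) (nat_lit 437) (nat_lit 240) (nat_lit 223)) (XT.nd (nat_lit 78) (nat_lit 0) (nat_lit 0) (XT.lf (nat_lit 0) (nat_lit 712663332052) (nat_lit 76) (nat_lit 20632017430) (nat_lit 76) (nat_lit 20056370303) (nat_lit 2) (nat_lit 4) (nat_lit 3) (nat_lit 5) (nat_lit 3) (nat_lit 4) (nat_lit 438) (nat_lit 240) (nat_lit 222)) (XT.lf (nat_lit 0) (nat_lit 750847617423) (nat_lit 76) (nat_lit 20351163155) (nat_lit 76) (nat_lit 19756028332) (nat_lit 2) (nat_lit 4) (nat_lit 3) (nat_lit 5) (nat_lit 3) (nat_lit 4) (nat_lit 439) (nat_lit 240) (nat_lit 221))))) (XT.nd (nat_lit 45162) (nat_lit 0) (nat_lit 0) (XT.nd (nat_lit 78) (nat_lit 0) (nat_lit 0) (XT.lf (nat_lit 0) (nat_lit 790886705769) (nat_lit 76) (nat_lit 20083208435) (nat_lit 76) (nat_lit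 19469513902) (nat_lit 2) (nat_lit 4) (nat_lit 3) (nat_lit 5) (nat_lit 3) (nat_lit 4) (nat_lit 440) (nat_lit 240) (nat_lit 220)) (XT.nd (nat_lit 78) (nat_lit 0) (nat_lit 0) (XT.lf (nat_lit 0) (nat_lit 832875928252) (nat_lit 76) (nat_lit 19827515284) (nat_lit 76) (nat_lit 19196144836) (nat_lit 2) (nat_lit 4) (nat_lit 3) (nat_lit 5) (nat_lit 3) (nat_lit 4) (nat_lit 441) (nat_lit 240) (nat_lit 219)) (XT.lf (nat_lit 0) (nat_lit 876915259210) (nat_lit 76) (nat_lit 19583474908) (nat_lit 76) (nat_lit 18935270255) (nat_lit 2) (nat_lit 4) (nat_lit 3) (nat_lit 5) (nat_lit 3) (nat_lit 4) (nat_lit 442) (nat_lit 240) (nat_lit 218)))) (XT.nd (nat_lit 156) (nat_lit 0) (nat_lit 0) (XT.nd (nat_lit 78) (nat_lit 0) (nat_lit 0) (XT.lf (nat_lit 0) (nat_lit 112233720721) (nat_lit 76) (nat_lit 15144632637) (nat_lit 76) (nat_lit 15144632637) (nat_lit 2) (nat_lit 4) (nat_lit 3) (nat_lit 5) (nat_lit 3) (nat_lit 4)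 (nat_lit 418) (nat_lit 241) (nat_lit 241)) (XT.lf (nat_lit 0) (nat_lit 240057106431) (nat_lit 76) (nat_lit 29590010433) (nat_lit 76) (nat_lit 29540765996) (nat_lit 2) (nat_lit 4) (nat_lit 3) (nat_lit 5) (nat_lit 3) (nat_lit 4) (nat_lit 419) (nat_lit 241) (nat_lit 240))) (XT.nd (nat_lit 78) (nat_lit 0) (nat_lit 0) (XT.lf (nat_lit 0) (nat_lit 256288760039) (nat_lit 76) (nat_lit 28923874625) (nat_lit 76) (nat_lit 28827730724) (nat_lit 2) (nat_lit 4) (nat_lit 3) (nat_lit 5) (nat_lit 3) (nat_lit 4) (nat_lit 420) (nat_lit 241) (nat_lit 239)) (XT.lf (nat_lit 0) (nat_lit 273201049060) (nat_lit 76) (nat_lit 28289271810) (nat_lit 76) (nat_lit 28148461753) (nat_lit 2) (nat_lit 4) (nat_lit 3) (nat_lit 5) (nat_lit 3) (nat_lit 4) (nat_lit 421) (nat_lit 241) (nat_lit 238))))))))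
noncomputable def xc3 : XT := (XT.nd (nat_lit 46722) (nat_lit 0) (nat_lit 0) (XT.nd (nat_lit 936) (nat_lit 0) (nat_lit 0) (XT.nd (nat_lit 468) (nat_lit 0) (nat_lit 0) (XT.nd (nat_lit 234) (nat_lit 0) (nat_lit 0) (XT.nd (nat_lit 78) (nat_lit 0) (nat_lit 0) (XT.lf (nat_lit 0) (nat_lit 290834240848) (nat_lit 76) (nat_lit 27684691030) (nat_lit 76) (nat_lit 27501341777) (nat_lit 2) (nat_lit 4) (nat_lit 3) (nat_lit 5) (nat_lit 3) (nat_lit 4) (nat_lit 422) (nat_lit 241) (nat_lit 237)) (XT.nd (nat_lit 78) (nat_lit 0) (nat_lit 0) (XT.lf (nat_lit 0) (nat_lit 309230319193) (nat_lit 76) (nat_lit 27108692807) (nat_lit 76) (nat_lit 26884830033) (nat_lit 2) (nat_lit 4) (nat_lit 3) (nat_lit 5) (nat_lit 3) (nat_lit 4) (nat_lit 423) (nat_lit 241) (nat_lit 236)) (XT.lf (nat_lit 0) (nat_lit 328433084283) (nat_lit 76) (nat_lit 26559905717) (nat_lit 76) (nat_lit 26297458638) (nat_lit 2) (nat_lit 4) (nat_lit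 3) (nat_lit 5) (nat_lit 3) (nat_lit 4) (nat_lit 424) (nat_lit 241) (nat_lit 235)))) (XT.nd (nat_lit 78) (nat_lit 0) (nat_lit 0) (XT.lf (nat_lit 0) (nat_lit 348488256986) (nat_lit 76) (nat_lit 26037023123) (nat_lit 76) (nat_lit 25737829087) (nat_lit 2) (nat_lit 4) (nat_lit 3) (nat_lit 5) (nat_lit 3) (nat_lit 4) (nat_lit 425) (nat_lit 241) (nat_lit 234)) (XT.nd (nat_lit 78) (nat_lit 0) (nat_lit 0) (XT.lf (nat_lit 0) (nat_lit 369443587714) (nat_lit 76) (nat_lit 25538800067) (nat_lit 76) (nat_lit 25204608929) (nat_lit 2) (nat_lit 4) (nat_lit 3) (nat_lit 5) (nat_lit 3) (nat_lit 4) (nat_lit 426) (nat_lit 241) (nat_lit 233)) (XT.lf (nat_lit 0) (nat_lit 391348970110) (nat_lit 76) (nat_lit 25064050303) (nat_lit 76) (nat_lit 24696528592) (nat_lit 2) (nat_lit 4) (nat_lit 3) (nat_lit 5) (nat_lit 3) (nat_lit 4) (nat_lit 427) (nat_lit 241) (nat_lit 232))))) (XT.nd (nat_lit 234) (nat_lit 0) (nat_lit 0)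 (XT.nd (nat_lit 78) (nat_lit 0) (nat_lit 0) (XT.lf (nat_lit 0) (nat_lit 414256559849) (nat_lit 76) (nat_lit 24611643476) (nat_lit 76) (nat_lit 24212378361) (nat_lit 2) (nat_lit 4) (nat_lit 3) (nat_lit 5) (nat_lit 3) (nat_lit 4) (nat_lit 428) (nat_lit 241) (nat_lit 231)) (XT.nd (nat_lit 78) (nat_lit 0) (nat_lit 0) (XT.lf (nat_lit 0) (nat_lit 438220898809) (nat_lit 76) (nat_lit 24180502426) (nat_lit 76) (nat_lit 23751005499) (nat_lit 2) (nat_lit 4) (nat_lit 3) (nat_lit 5) (nat_lit 3) (nat_lit 4) (nat_lit 429) (nat_lit 241) (nat_lit 230)) (XT.lf (nat_lit 0) (nat_lit 463299044940) (nat_lit 76) (nat_lit 23769600626) (nat_lit 76) (nat_lit 23311311496) (nat_lit 2) (nat_lit 4) (nat_lit 3) (nat_lit 5) (nat_lit 3) (nat_lit 4) (nat_lit 430) (nat_lit 241) (nat_lit 229)))) (XT.nd (nat_lit 78) (nat_lit 0) (nat_lit 0) (XT.lf (nat_lit 0) (nat_lit 489550708115) (nat_lit 76) (nat_lit 23377959740) (nat_lit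 76) (nat_lit 22892249464) (nat_lit 2) (nat_lit 4) (nat_lit 3) (nat_lit 5) (nat_lit 3) (nat_lit 4) (nat_lit 431) (nat_lit 241) (nat_lit 228)) (XT.nd (nat_lit 78) (nat_lit 0) (nat_lit 0) (XT.lf (nat_lit 0) (nat_lit 517038392294) (nat_lit 76) (nat_lit 23004647288) (nat_lit 76) (nat_lit 22492821636) (nat_lit 2) (nat_lit 4) (nat_lit 3) (nat_lit 5) (nat_lit 3) (nat_lit 4) (nat_lit 432) (nat_lit 241) (nat_lit 227)) (XT.lf (nat_lit 0) (nat_lit 545827544343) (nat_lit 76) (nat_lit 22648774431) (nat_lit 76) (nat_lit 22112076993) (nat_lit 2) (nat_lit 4) (nat_lit 3) (nat_lit 5) (nat_lit 3) (nat_lit 4) (nat_lit 433) (nat_lit 241) (nat_lit 226)))))) (XT.nd (nat_lit 468) (nat_lit 0) (nat_lit 0) (XT.nd (nat_lit 234) (nat_lit 0) (nat_lit 0) (XT.nd (nat_lit 78) (nat_lit 0) (nat_lit 0) (XT.lf (nat_lit 0) (nat_lit 575986709863) (nat_lit 76) (nat_lit 22309493854) (nat_lit 76) (nat_lit 21749108999) (nat_lit 2)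 (nat_lit 4) (nat_lit 3) (nat_lit 5) (nat_lit 3) (nat_lit 4) (nat_lit 434) (nat_lit 241) (nat_lit 225)) (XT.nd (nat_lit 78) (nat_lit 0) (nat_lit 0) (XT.lf (nat_lit 0) (nat_lit 607587696390) (nat_lit 76) (nat_lit 21985997745) (nat_lit 76) (nat_lit 21403053446) (nat_lit 2) (nat_lit 4) (nat_lit 3) (nat_lit 5) (nat_lit 3) (nat_lit 4) (nat_lit 435) (nat_lit 241) (nat_lit 224)) (XT.lf (nat_lit 0) (nat_lit 640705744369) (nat_lit 76) (nat_lit 21677515876) (nat_lit 76) (nat_lit 21073086392) (nat_lit 2) (nat_lit 4) (nat_lit 3) (nat_lit 5) (nat_lit 3) (nat_lit 4) (nat_lit 436) (nat_lit 241) (nat_lit 223)))) (XT.nd (nat_lit 78) (nat_lit 0) (nat_lit 0) (XT.lf (nat_lit 0) (nat_lit 675419706294) (nat_lit 76) (nat_lit 21383313765) (nat_lit 76) (nat_lit 20758422201) (nat_lit 2) (nat_lit 4) (nat_lit 3) (nat_lit 5) (nat_lit 3) (nat_lit 4) (nat_lit 437) (nat_lit 241) (nat_lit 222)) (XT.nd (nat_lit 78) (nat_lit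 0) (nat_lit 0) (XT.lf (nat_lit 0) (nat_lit 711812234457) (nat_lit 76) (nat_lit 21102690932) (nat_lit 76) (nat_lit 20458311672) (nat_lit 2) (nat_lit 4) (nat_lit 3) (nat_lit 5) (nat_lit 3) (nat_lit 4) (nat_lit 438) (nat_lit 241) (nat_lit 221)) (XT.lf (nat_lit 0) (nat_lit 749969977734) (nat_lit 76) (nat_lit 20834979227) (nat_lit 76) (nat_lit 20172040256) (nat_lit 2) (nat_lit 4) (nat_lit 3) (nat_lit 5) (nat_lit 3) (nat_lit 4) (nat_lit 439) (nat_lit 241) (nat_lit 220))))) (XT.nd (nat_lit 45006) (nat_lit 0) (nat_lit 0) (XT.nd (nat_lit 78) (nat_lit 0) (nat_lit 0) (XT.lf (nat_lit 0) (nat_lit 789983787894) (nat_lit 76) (nat_lit 20579541242) (nat_lit 76) (nat_lit 19898926356) (nat_lit 2) (nat_lit 4) (nat_lit 3) (nat_lit 5) (nat_lit 3) (nat_lit 4) (nat_lit 440) (nat_lit 241) (nat_lit 219)) (XT.nd (nat_lit 78) (nat_lit 0) (nat_lit 0) (XT.lf (nat_lit 0) (nat_lit 831948935914) (nat_lit 76) (nat_lit 20335768789)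 (nat_lit 76) (nat_lit 19638319699) (nat_lit 2) (nat_lit 4) (nat_lit 3) (nat_lit 5) (nat_lit 3) (nat_lit 4) (nat_lit 441) (nat_lit 241) (nat_lit 218)) (XT.lf (nat_lit 0) (nat_lit 875965338813) (nat_lit 76) (nat_lit 20103081460) (nat_lit 76) (nat_lit 19389599794) (nat_lit 2) (nat_lit 4) (nat_lit 3) (nat_lit 5) (nat_lit 3) (nat_lit 4) (nat_lit 442) (nat_lit 241) (nat_lit 217)))) (XT.nd (nat_lit 156) (nat_lit 0) (nat_lit 0) (XT.nd (nat_lit 78) (nat_lit 0) (nat_lit 0) (XT.lf (nat_lit 0) (nat_lit 97570494884) (nat_lit 76) (nat_lit 15904483193) (nat_lit 76) (nat_lit 15904483193) (nat_lit 2) (nat_lit 4) (nat_lit 3) (nat_lit 5) (nat_lit 3) (nat_lit 4) (nat_lit 416) (nat_lit 242) (nat_lit 242)) (XT.lf (nat_lit 0) (nat_lit 209482646821) (nat_lit 76) (nat_lit 31075010697) (nat_lit 76) (nat_lit 31023304038) (nat_lit 2) (nat_lit 4) (nat_lit 3) (nat_lit 5) (nat_lit 3) (nat_lit 4) (nat_lit 417) (nat_lit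 242) (nat_lit 241))) (XT.nd (nat_lit 78) (nat_lit 0) (nat_lit 0) (XT.lf (nat_lit 0) (nat_lit 224397017362) (nat_lit 76) (nat_lit 30375843085) (nat_lit 76) (nat_lit 30274891989) (nat_lit 2) (nat_lit 4) (nat_lit 3) (nat_lit 5) (nat_lit 3) (nat_lit 4) (nat_lit 418) (nat_lit 242) (nat_lit 240)) (XT.lf (nat_lit 0) (nat_lit 239919611800) (nat_lit 76) (nat_lit 29709798866) (nat_lit 76) (nat_lit 29561948306) (nat_lit 2) (nat_lit 4) (nat_lit 3) (nat_lit 5) (nat_lit 3) (nat_lit 4) (nat_lit 419) (nat_lit 242) (nat_lit 239))))))) (XT.nd (nat_lit 936) (nat_lit 0) (nat_lit 0) (XT.nd (nat_lit 468) (nat_lit 0) (nat_lit 0) (XT.nd (nat_lit 234) (nat_lit 0) (nat_lit 0) (XT.nd (nat_lit 78) (nat_lit 0) (nat_lit 0) (XT.lf (nat_lit 0) (nat_lit 256087388692) (nat_lit 76) (nat_lit 29075292220) (nat_lit 76) (nat_lit 28882775504) (nat_lit 2) (nat_lit 4) (nat_lit 3) (nat_lit 5) (nat_lit 3) (nat_lit 4) (nat_lit 420)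 (nat_lit 242) (nat_lit 238)) (XT.nd (nat_lit 78) (nat_lit 0) (nat_lit 0) (XT.lf (nat_lit 0) (nat_lit 272938842745) (nat_lit 76) (nat_lit 28470812418) (nat_lit 76) (nat_lit 28235756506) (nat_lit 2) (nat_lit 4) (nat_lit 3) (nat_lit 5) (nat_lit 3) (nat_lit 4) (nat_lit 421) (nat_lit 242) (nat_lit 237)) (XT.lf (nat_lit 0) (nat_lit 290514096469) (nat_lit 76) (nat_lit 27894920222) (nat_lit 76) (nat_lit 27619350789) (nat_lit 2) (nat_lit 4) (nat_lit 3) (nat_lit 5) (nat_lit 3) (nat_lit 4) (nat_lit 422) (nat_lit 242) (nat_lit 236)))) (XT.nd (nat_lit 78) (nat_lit 0) (nat_lit 0) (XT.lf (nat_lit 0) (nat_lit 308854995706) (nat_lit 76) (nat_lit 27346244459) (nat_lit 76) (nat_lit 27032090721) (nat_lit 2) (nat_lit 4) (nat_lit 3) (nat_lit 5) (nat_lit 3) (nat_lit 4) (nat_lit 423) (nat_lit 242) (nat_lit 235)) (XT.nd (nat_lit 78) (nat_lit 0) (nat_lit 0) (XT.lf (nat_lit 0) (nat_lit 328005209263) (nat_lit 76)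 (nat_lit 26823478759) (nat_lit 76) (nat_lit 26472578064) (nat_lit 2) (nat_lit 4) (nat_lit 3) (nat_lit 5) (nat_lit 3) (nat_lit 4) (nat_lit 424) (nat_lit 242) (nat_lit 234)) (XT.lf (nat_lit 0) (nat_lit 348010332888) (nat_lit 76) (nat_lit 26325378442) (nat_lit 76) (nat_lit 25939480645) (nat_lit 2) (nat_lit 4) (nat_lit 3) (nat_lit 5) (nat_lit 3) (nat_lit 4) (nat_lit 425) (nat_lit 242) (nat_lit 233))))) (XT.nd (nat_lit 234) (nat_lit 0) (nat_lit 0) (XT.nd (nat_lit 78) (nat_lit 0) (nat_lit 0) (XT.lf (nat_lit 0) (nat_lit 368917997826) (nat_lit 76) (nat_lit 25850757555) (nat_lit 76) (nat_lit 25431529184) (nat_lit 2) (nat_lit 4) (nat_lit 3) (nat_lit 5) (nat_lit 3) (nat_lit 4) (nat_lit 426) (nat_lit 242) (nat_lit 232)) (XT.nd (nat_lit 78) (nat_lit 0) (nat_lit 0) (XT.lf (nat_lit 0) (nat_lit 390777984234) (nat_lit 76) (nat_lit 25398486047) (nat_lit 76) (nat_lit 24947514274) (nat_lit 2) (nat_lit 4) (nat_lit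 3) (nat_lit 5) (nat_lit 3) (nat_lit 4) (nat_lit 427) (nat_lit 242) (nat_lit 231)) (XT.lf (nat_lit 0) (nat_lit 413642339696) (nat_lit 76) (nat_lit 24967487083) (nat_lit 76) (nat_lit 24486283496) (nat_lit 2) (nat_lit 4) (nat_lit 3) (nat_lit 5) (nat_lit 3) (nat_lit 4) (nat_lit 428) (nat_lit 242) (nat_lit 230)))) (XT.nd (nat_lit 78) (nat_lit 0) (nat_lit 0) (XT.lf (nat_lit 0) (nat_lit 437565503156) (nat_lit 76) (nat_lit 24556734473) (nat_lit 76) (nat_lit 24046738684) (nat_lit 2) (nat_lit 4) (nat_lit 3) (nat_lit 5) (nat_lit 3) (nat_lit 4) (nat_lit 429) (nat_lit 242) (nat_lit 229)) (XT.nd (nat_lit 78) (nat_lit 0) (nat_lit 0) (XT.lf (nat_lit 0) (nat_lit 462604434525) (nat_lit 76) (nat_lit 24165250236) (nat_lit 76) (nat_lit 23627833301) (nat_lit 2) (nat_lit 4) (nat_lit 3) (nat_lit 5) (nat_lit 3) (nat_lit 4) (nat_lit 430) (nat_lit 242) (nat_lit 228)) (XT.lf (nat_lit 0) (nat_lit 488818750307) (nat_lit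 76) (nat_lit 23792102266) (nat_lit 76) (nat_lit 23228569955) (nat_lit 2) (nat_lit 4) (nat_lit 3) (nat_lit 5) (nat_lit 3) (nat_lit 4) (nat_lit 431) (nat_lit 242) (nat_lit 227)))))) (XT.nd (nat_lit 468) (nat_lit 0) (nat_lit 0) (XT.nd (nat_lit 234) (nat_lit 0) (nat_lit 0) (XT.nd (nat_lit 78) (nat_lit 0) (nat_lit 0) (XT.lf (nat_lit 0) (nat_lit 516270865540) (nat_lit 76) (nat_lit 23436402115) (nat_lit 76) (nat_lit 22847998018) (nat_lit 2) (nat_lit 4) (nat_lit 3) (nat_lit 5) (nat_lit 3) (nat_lit 4) (nat_lit 432) (nat_lit 242) (nat_lit 226)) (XT.nd (nat_lit 78) (nat_lit 0) (nat_lit 0) (XT.lf (nat_lit 0) (nat_lit 545026142403) (nat_lit 76) (nat_lit 23097302879) (nat_lit 76) (nat_lit 22485211365) (nat_lit 2) (nat_lit 4) (nat_lit 3) (nat_lit 5) (nat_lit 3) (nat_lit 4) (nat_lit 433) (nat_lit 242) (nat_lit 225)) (XT.lf (nat_lit 0) (nat_lit 575153045840) (nat_lit 76) (nat_lit 22773997179) (nat_lit 76)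 (nat_lit 22139346221) (nat_lit 2) (nat_lit 4) (nat_lit 3) (nat_lit 5) (nat_lit 3) (nat_lit 4) (nat_lit 434) (nat_lit 242) (nat_lit 224)))) (XT.nd (nat_lit 78) (nat_lit 0) (nat_lit 0) (XT.lf (nat_lit 0) (nat_lit 606723306575) (nat_lit 76) (nat_lit 22465715238) (nat_lit 76) (nat_lit 21809579095) (nat_lit 2) (nat_lit 4) (nat_lit 3) (nat_lit 5) (nat_lit 3) (nat_lit 4) (nat_lit 435) (nat_lit 242) (nat_lit 223)) (XT.nd (nat_lit 78) (nat_lit 0) (nat_lit 0) (XT.lf (nat_lit 0) (nat_lit 639812091894) (nat_lit 76) (nat_lit 22171723053) (nat_lit 76) (nat_lit 21495124829) (nat_lit 2) (nat_lit 4) (nat_lit 3) (nat_lit 5) (nat_lit 3) (nat_lit 4) (nat_lit 436) (nat_lit 242) (nat_lit 222)) (XT.lf (nat_lit 0) (nat_lit 674498184620) (nat_lit 76) (nat_lit 21891320641) (nat_lit 76) (nat_lit 21195234722) (nat_lit 2) (nat_lit 4) (nat_lit 3) (nat_lit 5) (nat_lit 3) (nat_lit 4) (nat_lit 437) (nat_lit 242) (nat_lit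 221))))) (XT.nd (nat_lit 234) (nat_lit 0) (nat_lit 0) (XT.nd (nat_lit 78) (nat_lit 0) (nat_lit 0) (XT.lf (nat_lit 0) (nat_lit 710864170688) (nat_lit 76) (nat_lit 21623840379) (nat_lit 76) (nat_lit 20909194749) (nat_lit 2) (nat_lit 4) (nat_lit 3) (nat_lit 5) (nat_lit 3) (nat_lit 4) (nat_lit 438) (nat_lit 242) (nat_lit 220)) (XT.nd (nat_lit 78) (nat_lit 0) (nat_lit 0) (XT.lf (nat_lit 0) (nat_lit 748996635779) (nat_lit 76) (nat_lit 21368645408) (nat_lit 76) (nat_lit 20636323863) (nat_lit 2) (nat_lit 4) (nat_lit 3) (nat_lit 5) (nat_lit 3) (nat_lit 4) (nat_lit 439) (nat_lit 242) (nat_lit 219)) (XT.lf (nat_lit 0) (nat_lit 788986371477) (nat_lit 76) (nat_lit 21125128121) (nat_lit 76) (nat_lit 20375972372) (nat_lit 2) (nat_lit 4) (nat_lit 3) (nat_lit 5) (nat_lit 3) (nat_lit 4) (nat_lit 440) (nat_lit 242) (nat_lit 218)))) (XT.nd (nat_lit 44772) (nat_lit 0) (nat_lit 0) (XT.nd (nat_lit 78) (nat_lit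 0) (nat_lit 0) (XT.lf (nat_lit 0) (nat_lit 830928591438) (nat_lit 76) (nat_lit 20892708715) (nat_lit 76) (nat_lit 20127520391) (nat_lit 2) (nat_lit 4) (nat_lit 3) (nat_lit 5) (nat_lit 3) (nat_lit 4) (nat_lit 441) (nat_lit 242) (nat_lit 217)) (XT.lf (nat_lit 0) (nat_lit 874923158090) (nat_lit 76) (nat_lit 20670833812) (nat_lit 76) (nat_lit 19890376367) (nat_lit 2) (nat_lit 4) (nat_lit 3) (nat_lit 5) (nat_lit 3) (nat_lit 4) (nat_lit 442) (nat_lit 242) (nat_lit 216))) (XT.nd (nat_lit 78) (nat_lit 0) (nat_lit 0) (XT.lf (nat_lit 0) (nat_lit 84059076887) (nat_lit 76) (nat_lit 16702082795) (nat_lit 76) (nat_lit 16702082795) (nat_lit 2) (nat_lit 4) (nat_lit 3) (nat_lit 5) (nat_lit 3) (nat_lit 4) (nat_lit 414) (nat_lit 243) (nat_lit 243)) (XT.lf (nat_lit 0) (nat_lit 181337899405) (nat_lit 76) (nat_lit 32633749660) (nat_lit 76) (nat_lit 32579457668) (nat_lit 2) (nat_lit 4) (nat_lit 3) (nat_lit 5)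 (nat_lit 3) (nat_lit 4) (nat_lit 415) (nat_lit 243) (nat_lit 242))))))))
noncomputable def xc4 : XT := (XT.nd (nat_lit 1872) (nat_lit 0) (nat_lit 0) (XT.nd (nat_lit 936) (nat_lit 0) (nat_lit 0) (XT.nd (nat_lit 468) (nat_lit 0) (nat_lit 0) (XT.nd (nat_lit 234) (nat_lit 0) (nat_lit 0) (XT.nd (nat_lit 78) (nat_lit 0) (nat_lit 0) (XT.lf (nat_lit 0) (nat_lit 195067044486) (nat_lit 76) (nat_lit 31899873089) (nat_lit 76) (nat_lit 31793874438) (nat_lit 2) (nat_lit 4) (nat_lit 3) (nat_lit 5) (nat_lit 3) (nat_lit 4) (nat_lit 416) (nat_lit 243) (nat_lit 241)) (XT.nd (nat_lit 78) (nat_lit 0) (nat_lit 0) (XT.lf (nat_lit 0) (nat_lit 209338277458) (nat_lit 76) (nat_lit 31200788551) (nat_lit 76) (nat_lit 31045545463) (nat_lit 2) (nat_lit 4) (nat_lit 3) (nat_lit 5) (nat_lit 3) (nat_lit 4) (nat_lit 417) (nat_lit 243) (nat_lit 240)) (XT.lf (nat_lit 0) (nat_lit 224185577448) (nat_lit 76) (nat_lit 30534831560)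 (nat_lit 76) (nat_lit 30332689008) (nat_lit 2) (nat_lit 4) (nat_lit 3) (nat_lit 5) (nat_lit 3) (nat_lit 4) (nat_lit 418) (nat_lit 243) (nat_lit 239)))) (XT.nd (nat_lit 78) (nat_lit 0) (nat_lit 0) (XT.lf (nat_lit 0) (nat_lit 239644295170) (nat_lit 76) (nat_lit 29900416505) (nat_lit 76) (nat_lit 29653607796) (nat_lit 2) (nat_lit 4) (nat_lit 3) (nat_lit 5) (nat_lit 3) (nat_lit 4) (nat_lit 419) (nat_lit 243) (nat_lit 238)) (XT.nd (nat_lit 78) (nat_lit 0) (nat_lit 0) (XT.lf (nat_lit 0) (nat_lit 255751237094) (nat_lit 76) (nat_lit 29296032872) (nat_lit 76) (nat_lit 29006684967) (nat_lit 2) (nat_lit 4) (nat_lit 3) (nat_lit 5) (nat_lit 3) (nat_lit 4) (nat_lit 420) (nat_lit 243) (nat_lit 237)) (XT.lf (nat_lit 0) (nat_lit 272544753083) (nat_lit 76) (nat_lit 28720241653) (nat_lit 76) (nat_lit 28390380228) (nat_lit 2) (nat_lit 4) (nat_lit 3) (nat_lit 5) (nat_lit 3) (nat_lit 4) (nat_lit 421) (nat_lit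 243) (nat_lit 236))))) (XT.nd (nat_lit 234) (nat_lit 0) (nat_lit 0) (XT.nd (nat_lit 78) (nat_lit 0) (nat_lit 0) (XT.lf (nat_lit 0) (nat_lit 290064827698) (nat_lit 76) (nat_lit 28171671916) (nat_lit 76) (nat_lit 27803226187) (nat_lit 2) (nat_lit 4) (nat_lit 3) (nat_lit 5) (nat_lit 3) (nat_lit 4) (nat_lit 422) (nat_lit 243) (nat_lit 235)) (XT.nd (nat_lit 78) (nat_lit 0) (nat_lit 0) (XT.lf (nat_lit 0) (nat_lit 308353175402) (nat_lit 76) (nat_lit 27649017545) (nat_lit 76) (nat_lit 27243824858) (nat_lit 2) (nat_lit 4) (nat_lit 3) (nat_lit 5) (nat_lit 3) (nat_lit 4) (nat_lit 423) (nat_lit 243) (nat_lit 234)) (XT.lf (nat_lit 0) (nat_lit 327453339881) (nat_lit 76) (nat_lit 27151034122) (nat_lit 76) (nat_lit 26710844333) (nat_lit 2) (nat_lit 4) (nat_lit 3) (nat_lit 5) (nat_lit 3) (nat_lit 4) (nat_lit 424) (nat_lit 243) (nat_lit 233)))) (XT.nd (nat_lit 78) (nat_lit 0) (nat_lit 0) (XT.lf (nat_lit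 0) (nat_lit 347410797717) (nat_lit 76) (nat_lit 26676535973) (nat_lit 76) (nat_lit 26203015611) (nat_lit 2) (nat_lit 4) (nat_lit 3) (nat_lit 5) (nat_lit 3) (nat_lit 4) (nat_lit 425) (nat_lit 243) (nat_lit 232)) (XT.nd (nat_lit 78) (nat_lit 0) (nat_lit 0) (XT.lf (nat_lit 0) (nat_lit 368273066666) (nat_lit 76) (nat_lit 26224393342) (nat_lit 76) (nat_lit 25719129576) (nat_lit 2) (nat_lit 4) (nat_lit 3) (nat_lit 5) (nat_lit 3) (nat_lit 4) (nat_lit 426) (nat_lit 243) (nat_lit 231)) (XT.lf (nat_lit 0) (nat_lit 390089818798) (nat_lit 76) (nat_lit 25793529697) (nat_lit 76) (nat_lit 25258034118) (nat_lit 2) (nat_lit 4) (nat_lit 3) (nat_lit 5) (nat_lit 3) (nat_lit 4) (nat_lit 427) (nat_lit 243) (nat_lit 230)))))) (XT.nd (nat_lit 468) (nat_lit 0) (nat_lit 0) (XT.nd (nat_lit 234) (nat_lit 0) (nat_lit 0) (XT.nd (nat_lit 78) (nat_lit 0) (nat_lit 0) (XT.lf (nat_lit 0) (nat_lit 412912998760) (nat_lit 76)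 (nat_lit 25382919172) (nat_lit 76) (nat_lit 24818631392) (nat_lit 2) (nat_lit 4) (nat_lit 3) (nat_lit 5) (nat_lit 3) (nat_lit 4) (nat_lit 428) (nat_lit 243) (nat_lit 229)) (XT.nd (nat_lit 78) (nat_lit 0) (nat_lit 0) (XT.lf (nat_lit 0) (nat_lit 436796947457) (nat_lit 76) (nat_lit 24991584125) (nat_lit 76) (nat_lit 24399875199) (nat_lit 2) (nat_lit 4) (nat_lit 3) (nat_lit 5) (nat_lit 3) (nat_lit 4) (nat_lit 429) (nat_lit 243) (nat_lit 228)) (XT.lf (nat_lit 0) (nat_lit 461798531433) (nat_lit 76) (nat_lit 24618592804) (nat_lit 76) (nat_lit 24000768502) (nat_lit 2) (nat_lit 4) (nat_lit 3) (nat_lit 5) (nat_lit 3) (nat_lit 4) (nat_lit 430) (nat_lit 243) (nat_lit 227)))) (XT.nd (nat_lit 78) (nat_lit 0) (nat_lit 0) (XT.lf (nat_lit 0) (nat_lit 487977278270) (nat_lit 76) (nat_lit 24263057136) (nat_lit 76) (nat_lit 23620361046) (nat_lit 2) (nat_lit 4) (nat_lit 3) (nat_lit 5) (nat_lit 3) (nat_lit 4)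 (nat_lit 431) (nat_lit 243) (nat_lit 226)) (XT.nd (nat_lit 78) (nat_lit 0) (nat_lit 0) (XT.lf (nat_lit 0) (nat_lit 515395518316) (nat_lit 76) (nat_lit 23924130606) (nat_lit 76) (nat_lit 23257747100) (nat_lit 2) (nat_lit 4) (nat_lit 3) (nat_lit 5) (nat_lit 3) (nat_lit 4) (nat_lit 432) (nat_lit 243) (nat_lit 225)) (XT.lf (nat_lit 0) (nat_lit 544118533097) (nat_lit 76) (nat_lit 23601006247) (nat_lit 76) (nat_lit 22912063297) (nat_lit 2) (nat_lit 4) (nat_lit 3) (nat_lit 5) (nat_lit 3) (nat_lit 4) (nat_lit 433) (nat_lit 243) (nat_lit 224))))) (XT.nd (nat_lit 234) (nat_lit 0) (nat_lit 0) (XT.nd (nat_lit 78) (nat_lit 0) (nat_lit 0) (XT.lf (nat_lit 0) (nat_lit 574214710742) (nat_lit 76) (nat_lit 23292914714) (nat_lit 76) (nat_lit 22582486580) (nat_lit 2) (nat_lit 4) (nat_lit 3) (nat_lit 5) (nat_lit 3) (nat_lit 4) (nat_lit 434) (nat_lit 243) (nat_lit 223)) (XT.nd (nat_lit 78) (nat_lit 0) (nat_lit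 0) (XT.lf (nat_lit 0) (nat_lit 605755708817) (nat_lit 76) (nat_lit 22999122458) (nat_lit 76) (nat_lit 22268232243) (nat_lit 2) (nat_lit 4) (nat_lit 3) (nat_lit 5) (nat_lit 3) (nat_lit 4) (nat_lit 435) (nat_lit 243) (nat_lit 222)) (XT.lf (nat_lit 0) (nat_lit 638816624937) (nat_lit 76) (nat_lit 22718929972) (nat_lit 76) (nat_lit 21968552060) (nat_lit 2) (nat_lit 4) (nat_lit 3) (nat_lit 5) (nat_lit 3) (nat_lit 4) (nat_lit 436) (nat_lit 243) (nat_lit 221)))) (XT.nd (nat_lit 78) (nat_lit 0) (nat_lit 0) (XT.lf (nat_lit 0) (nat_lit 673476175568) (nat_lit 76) (nat_lit 22451670131) (nat_lit 76) (nat_lit 21682732509) (nat_lit 2) (nat_lit 4) (nat_lit 3) (nat_lit 5) (nat_lit 3) (nat_lit 4) (nat_lit 437) (nat_lit 243) (nat_lit 220)) (XT.nd (nat_lit 78) (nat_lit 0) (nat_lit 0) (XT.lf (nat_lit 0) (nat_lit 709816883451) (nat_lit 76) (nat_lit 22196706602) (nat_lit 76) (nat_lit 21410093066) (nat_lit 2) (nat_lit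 4) (nat_lit 3) (nat_lit 5) (nat_lit 3) (nat_lit 4) (nat_lit 438) (nat_lit 243) (nat_lit 219)) (XT.lf (nat_lit 0) (nat_lit 747925274079) (nat_lit 76) (nat_lit 21953432330) (nat_lit 76) (nat_lit 21149984589) (nat_lit 2) (nat_lit 4) (nat_lit 3) (nat_lit 5) (nat_lit 3) (nat_lit 4) (nat_lit 439) (nat_lit 243) (nat_lit 218))))))) (XT.nd (nat_lit 45396) (nat_lit 0) (nat_lit 0) (XT.nd (nat_lit 44928) (nat_lit 0) (nat_lit 0) (XT.nd (nat_lit 44694) (nat_lit 0) (nat_lit 0) (XT.nd (nat_lit 78) (nat_lit 0) (nat_lit 0) (XT.lf (nat_lit 0) (nat_lit 787892081717) (nat_lit 76) (nat_lit 21721268090) (nat_lit 76) (nat_lit 20901787773) (nat_lit 2) (nat_lit 4) (nat_lit 3) (nat_lit 5) (nat_lit 3) (nat_lit 4) (nat_lit 440) (nat_lit 243) (nat_lit 217)) (XT.nd (nat_lit 78) (nat_lit 0) (nat_lit 0) (XT.lf (nat_lit 0) (nat_lit 829812465431) (nat_lit 76) (nat_lit 21499661110) (nat_lit 76) (nat_lit 20664911673) (nat_lit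 2) (nat_lit 4) (nat_lit 3) (nat_lit 5) (nat_lit 3) (nat_lit 4) (nat_lit 441) (nat_lit 243) (nat_lit 216)) (XT.lf (nat_lit 0) (nat_lit 873786235657) (nat_lit 76) (nat_lit 21288083754) (nat_lit 76) (nat_lit 20438792299) (nat_lit 2) (nat_lit 4) (nat_lit 3) (nat_lit 5) (nat_lit 3) (nat_lit 4) (nat_lit 442) (nat_lit 243) (nat_lit 215)))) (XT.nd (nat_lit 78) (nat_lit 0) (nat_lit 0) (XT.lf (nat_lit 0) (nat_lit 71581810558) (nat_lit 76) (nat_lit 17539341530) (nat_lit 76) (nat_lit 17539341530) (nat_lit 2) (nat_lit 4) (nat_lit 3) (nat_lit 5) (nat_lit 3) (nat_lit 4) (nat_lit 412) (nat_lit 244) (nat_lit 244)) (XT.nd (nat_lit 78) (nat_lit 0) (nat_lit 0) (XT.lf (nat_lit 0) (nat_lit 155376332011) (nat_lit 76) (nat_lit 34269961794) (nat_lit 76) (nat_lit 34212955203) (nat_lit 2) (nat_lit 4) (nat_lit 3) (nat_lit 5) (nat_lit 3) (nat_lit 4) (nat_lit 413) (nat_lit 244) (nat_lit 243)) (XT.lf (nat_lit 0) (nat_lit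 168040511227) (nat_lit 76) (nat_lit 33499617627) (nat_lit 76) (nat_lit 33388319043) (nat_lit 2) (nat_lit 4) (nat_lit 3) (nat_lit 5) (nat_lit 3) (nat_lit 4) (nat_lit 414) (nat_lit 244) (nat_lit 242))))) (XT.nd (nat_lit 234) (nat_lit 0) (nat_lit 0) (XT.nd (nat_lit 78) (nat_lit 0) (nat_lit 0) (XT.lf (nat_lit 0) (nat_lit 181186311574) (nat_lit 76) (nat_lit 32765816407) (nat_lit 76) (nat_lit 32602811164) (nat_lit 2) (nat_lit 4) (nat_lit 3) (nat_lit 5) (nat_lit 3) (nat_lit 4) (nat_lit 415) (nat_lit 244) (nat_lit 241)) (XT.nd (nat_lit 78) (nat_lit 0) (nat_lit 0) (XT.lf (nat_lit 0) (nat_lit 194845032576) (nat_lit 76) (nat_lit 32066810988) (nat_lit 76) (nat_lit 31854561308) (nat_lit 2) (nat_lit 4) (nat_lit 3) (nat_lit 5) (nat_lit 3) (nat_lit 4) (nat_lit 416) (nat_lit 244) (nat_lit 240)) (XT.lf (nat_lit 0) (nat_lit 209049194996) (nat_lit 76) (nat_lit 31400937072) (nat_lit 76) (nat_lit 31141787928)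 (nat_lit 2) (nat_lit 4) (nat_lit 3) (nat_lit 5) (nat_lit 3) (nat_lit 4) (nat_lit 417) (nat_lit 244) (nat_lit 239)))) (XT.nd (nat_lit 78) (nat_lit 0) (nat_lit 0) (XT.lf (nat_lit 0) (nat_lit 223832618270) (nat_lit 76) (nat_lit 30766609244) (nat_lit 76) (nat_lit 30462793944) (nat_lit 2) (nat_lit 4) (nat_lit 3) (nat_lit 5) (nat_lit 3) (nat_lit 4) (nat_lit 418) (nat_lit 244) (nat_lit 238)) (XT.nd (nat_lit 78) (nat_lit 0) (nat_lit 0) (XT.lf (nat_lit 0) (nat_lit 239230501025) (nat_lit 76) (nat_lit 30162317201) (nat_lit 76) (nat_lit 29815962705) (nat_lit 2) (nat_lit 4) (nat_lit 3) (nat_lit 5) (nat_lit 3) (nat_lit 4) (nat_lit 419) (nat_lit 244) (nat_lit 237)) (XT.lf (nat_lit 0) (nat_lit 255279504885) (nat_lit 76) (nat_lit 29586622151) (nat_lit 76) (nat_lit 29199754135) (nat_lit 2) (nat_lit 4) (nat_lit 3) (nat_lit 5) (nat_lit 3) (nat_lit 4) (nat_lit 420) (nat_lit 244) (nat_lit 236)))))) (XT.nd (nat_lit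 468) (nat_lit 0) (nat_lit 0) (XT.nd (nat_lit 234) (nat_lit 0) (nat_lit 0) (XT.nd (nat_lit 78) (nat_lit 0) (nat_lit 0) (XT.lf (nat_lit 0) (nat_lit 272017841764) (nat_lit 76) (nat_lit 29038153392) (nat_lit 76) (nat_lit 28612701071) (nat_lit 2) (nat_lit 4) (nat_lit 3) (nat_lit 5) (nat_lit 3) (nat_lit 4) (nat_lit 421) (nat_lit 244) (nat_lit 235)) (XT.nd (nat_lit 78) (nat_lit 0) (nat_lit 0) (XT.lf (nat_lit 0) (nat_lit 289485364847) (nat_lit 76) (nat_lit 28515605047) (nat_lit 76) (nat_lit 28053405769) (nat_lit 2) (nat_lit 4) (nat_lit 3) (nat_lit 5) (nat_lit 3) (nat_lit 4) (nat_lit 422) (nat_lit 244) (nat_lit 234)) (XT.lf (nat_lit 0) (nat_lit 307723663473) (nat_lit 76) (nat_lit 28017732952) (nat_lit 76) (nat_lit 27520536571) (nat_lit 2) (nat_lit 4) (nat_lit 3) (nat_lit 5) (nat_lit 3) (nat_lit 4) (nat_lit 423) (nat_lit 244) (nat_lit 233)))) (XT.nd (nat_lit 78) (nat_lit 0) (nat_lit 0) (XT.lf (nat_lit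 0) (nat_lit 326776162163) (nat_lit 76) (nat_lit 27543351698) (nat_lit 76) (nat_lit 27012824744) (nat_lit 2) (nat_lit 4) (nat_lit 3) (nat_lit 5) (nat_lit 3) (nat_lit 4) (nat_lit 424) (nat_lit 244) (nat_lit 232)) (XT.nd (nat_lit 78) (nat_lit 0) (nat_lit 0) (XT.lf (nat_lit 0) (nat_lit 346688224010) (nat_lit 76) (nat_lit 27091331805) (nat_lit 76) (nat_lit 26529061448) (nat_lit 2) (nat_lit 4) (nat_lit 3) (nat_lit 5) (nat_lit 3) (nat_lit 4) (nat_lit 425) (nat_lit 244) (nat_lit 231)) (XT.lf (nat_lit 0) (nat_lit 367507258683) (nat_lit 76) (nat_lit 26660597036) (nat_lit 76) (nat_lit 26068094866) (nat_lit 2) (nat_lit 4) (nat_lit 3) (nat_lit 5) (nat_lit 3) (nat_lit 4) (nat_lit 426) (nat_lit 244) (nat_lit 230))))) (XT.nd (nat_lit 234) (nat_lit 0) (nat_lit 0) (XT.nd (nat_lit 78) (nat_lit 0) (nat_lit 0) (XT.lf (nat_lit 0) (nat_lit 389282835314) (nat_lit 76) (nat_lit 26250121831) (nat_lit 76) (nat_lit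 25628827459) (nat_lit 2) (nat_lit 4) (nat_lit 3) (nat_lit 5) (nat_lit 3) (nat_lit 4) (nat_lit 427) (nat_lit 244) (nat_lit 229)) (XT.nd (nat_lit 78) (nat_lit 0) (nat_lit 0) (XT.lf (nat_lit 0) (nat_lit 412066800514) (nat_lit 76) (nat_lit 25858928870) (nat_lit 76) (nat_lit 25210213352) (nat_lit 2) (nat_lit 4) (nat_lit 3) (nat_lit 5) (nat_lit 3) (nat_lit 4) (nat_lit 428) (nat_lit 244) (nat_lit 228)) (XT.lf (nat_lit 0) (nat_lit 435913401818) (nat_lit 76) (nat_lit 25486086739) (nat_lit 76) (nat_lit 24811255845) (nat_lit 2) (nat_lit 4) (nat_lit 3) (nat_lit 5) (nat_lit 3) (nat_lit 4) (nat_lit 429) (nat_lit 244) (nat_lit 227)))) (XT.nd (nat_lit 156) (nat_lit 0) (nat_lit 0) (XT.nd (nat_lit 78) (nat_lit 0) (nat_lit 0) (XT.lf (nat_lit 0) (nat_lit 460879416848) (nat_lit 76) (nat_lit 25130707720) (nat_lit 76) (nat_lit 24431005039) (nat_lit 2) (nat_lit 4) (nat_lit 3) (nat_lit 5) (nat_lit 3) (nat_lit 4)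 (nat_lit 430) (nat_lit 244) (nat_lit 226)) (XT.lf (nat_lit 0) (nat_lit 487024288499) (nat_lit 76) (nat_lit 24791945672) (nat_lit 76) (nat_lit 24068555575) (nat_lit 2) (nat_lit 4) (nat_lit 3) (nat_lit 5) (nat_lit 3) (nat_lit 4) (nat_lit 431) (nat_lit 244) (nat_lit 225))) (XT.nd (nat_lit 78) (nat_lit 0) (nat_lit 0) (XT.lf (nat_lit 0) (nat_lit 514410266463) (nat_lit 76) (nat_lit 24468994019) (nat_lit 76) (nat_lit 23723044477) (nat_lit 2) (nat_lit 4) (nat_lit 3) (nat_lit 5) (nat_lit 3) (nat_lit 4) (nat_lit 432) (nat_lit 244) (nat_lit 224)) (XT.lf (nat_lit 0) (nat_lit 543102555451) (nat_lit 76) (nat_lit 24161083828) (nat_lit 76) (nat_lit 23393649102) (nat_lit 2) (nat_lit 4) (nat_lit 3) (nat_lit 5) (nat_lit 3) (nat_lit 4) (nat_lit 433) (nat_lit 244) (nat_lit 223))))))))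
noncomputable def xc5 : XT := (XT.nd (nat_lit 46254) (nat_lit 0) (nat_lit 0) (XT.nd (nat_lit 45240) (nat_lit 0) (nat_lit 0) (XT.nd (nat_lit 468) (nat_lit 0) (nat_lit 0) (XT.nd (nat_lit 234) (nat_lit 0) (nat_lit 0) (XT.nd (nat_lit 78) (nat_lit 0) (nat_lit 0) (XT.lf (nat_lit 0) (nat_lit 573169470437) (nat_lit 76) (nat_lit 23867481979) (nat_lit 76) (nat_lit 23079585173) (nat_lit 2) (nat_lit 4) (nat_lit 3) (nat_lit 5) (nat_lit 3) (nat_lit 4) (nat_lit 434) (nat_lit 244) (nat_lit 222)) (XT.nd (nat_lit 78) (nat_lit 0) (nat_lit 0) (XT.lf (nat_lit 0) (nat_lit 604682599312) (nat_lit 76) (nat_lit 23587489422) (nat_lit 76) (nat_lit 22780104919) (nat_lit 2) (nat_lit 4) (nat_lit 3) (nat_lit 5) (nat_lit 3) (nat_lit 4) (nat_lit 435) (nat_lit 244) (nat_lit 221)) (XT.lf (nat_lit 0) (nat_lit 637716973337) (nat_lit 76) (nat_lit 23320439506) (nat_lit 76) (nat_lit 22494495293) (nat_lit 2) (nat_lit 4) (nat_lit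 3) (nat_lit 5) (nat_lit 3) (nat_lit 4) (nat_lit 436) (nat_lit 244) (nat_lit 220)))) (XT.nd (nat_lit 78) (nat_lit 0) (nat_lit 0) (XT.lf (nat_lit 0) (nat_lit 672351245783) (nat_lit 76) (nat_lit 23065696399) (nat_lit 76) (nat_lit 22222076271) (nat_lit 2) (nat_lit 4) (nat_lit 3) (nat_lit 5) (nat_lit 3) (nat_lit 4) (nat_lit 437) (nat_lit 244) (nat_lit 219)) (XT.nd (nat_lit 78) (nat_lit 0) (nat_lit 0) (XT.lf (nat_lit 0) (nat_lit 708667879203) (nat_lit 76) (nat_lit 22822653570) (nat_lit 76) (nat_lit 21962199237) (nat_lit 2) (nat_lit 4) (nat_lit 3) (nat_lit 5) (nat_lit 3) (nat_lit 4) (nat_lit 438) (nat_lit 244) (nat_lit 218)) (XT.lf (nat_lit 0) (nat_lit 746753341772) (nat_lit 76) (nat_lit 22590732344) (nat_lit 76) (nat_lit 21714245436) (nat_lit 2) (nat_lit 4) (nat_lit 3) (nat_lit 5) (nat_lit 3) (nat_lit 4) (nat_lit 439) (nat_lit 244) (nat_lit 217))))) (XT.nd (nat_lit 44538) (nat_lit 0) (nat_lit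 0) (XT.nd (nat_lit 78) (nat_lit 0) (nat_lit 0) (XT.lf (nat_lit 0) (nat_lit 786698313163) (nat_lit 76) (nat_lit 22369380529) (nat_lit 76) (nat_lit 21477624501) (nat_lit 2) (nat_lit 4) (nat_lit 3) (nat_lit 5) (nat_lit 3) (nat_lit 4) (nat_lit 440) (nat_lit 244) (nat_lit 216)) (XT.nd (nat_lit 78) (nat_lit 0) (nat_lit 0) (XT.lf (nat_lit 0) (nat_lit 828597900451) (nat_lit 76) (nat_lit 22158071097) (nat_lit 76) (nat_lit 21251773050) (nat_lit 2) (nat_lit 4) (nat_lit 3) (nat_lit 5) (nat_lit 3) (nat_lit 4) (nat_lit 441) (nat_lit 244) (nat_lit 215)) (XT.lf (nat_lit 0) (nat_lit 872551864557) (nat_lit 76) (nat_lit 21956300930) (nat_lit 76) (nat_lit 21036153341) (nat_lit 2) (nat_lit 4) (nat_lit 3) (nat_lit 5) (nat_lit 3) (nat_lit 4) (nat_lit 442) (nat_lit 244) (nat_lit 214)))) (XT.nd (nat_lit 78) (nat_lit 0) (nat_lit 0) (XT.lf (nat_lit 0) (nat_lit 60031449681) (nat_lit 76) (nat_lit 18418262889) (nat_lit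 76) (nat_lit 18418262889) (nat_lit 2) (nat_lit 4) (nat_lit 3) (nat_lit 5) (nat_lit 3) (nat_lit 4) (nat_lit 410) (nat_lit 245) (nat_lit 245)) (XT.nd (nat_lit 78) (nat_lit 0) (nat_lit 0) (XT.lf (nat_lit 0) (nat_lit 131373300661) (nat_lit 76) (nat_lit 35987563876) (nat_lit 76) (nat_lit 35927706955) (nat_lit 2) (nat_lit 4) (nat_lit 3) (nat_lit 5) (nat_lit 3) (nat_lit 4) (nat_lit 411) (nat_lit 245) (nat_lit 244)) (XT.lf (nat_lit 0) (nat_lit 143082096441) (nat_lit 76) (nat_lit 35178907700) (nat_lit 76) (nat_lit 35062044187) (nat_lit 2) (nat_lit 4) (nat_lit 3) (nat_lit 5) (nat_lit 3) (nat_lit 4) (nat_lit 412) (nat_lit 245) (nat_lit 243)))))) (XT.nd (nat_lit 468) (nat_lit 0) (nat_lit 0) (XT.nd (nat_lit 234) (nat_lit 0) (nat_lit 0) (XT.nd (nat_lit 78) (nat_lit 0) (nat_lit 0) (XT.lf (nat_lit 0) (nat_lit 155217164788) (nat_lit 76) (nat_lit 34408631878) (nat_lit 76) (nat_lit 34237476374) (nat_lit 2)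 (nat_lit 4) (nat_lit 3) (nat_lit 5) (nat_lit 3) (nat_lit 4) (nat_lit 413) (nat_lit 245) (nat_lit 242)) (XT.nd (nat_lit 78) (nat_lit 0) (nat_lit 0) (XT.lf (nat_lit 0) (nat_lit 167807398722) (nat_lit 76) (nat_lit 33674902421) (nat_lit 76) (nat_lit 33452040258) (nat_lit 2) (nat_lit 4) (nat_lit 3) (nat_lit 5) (nat_lit 3) (nat_lit 4) (nat_lit 414) (nat_lit 245) (nat_lit 241)) (XT.lf (nat_lit 0) (nat_lit 180882774989) (nat_lit 76) (nat_lit 32975972353) (nat_lit 76) (nat_lit 32703865753) (nat_lit 2) (nat_lit 4) (nat_lit 3) (nat_lit 5) (nat_lit 3) (nat_lit 4) (nat_lit 415) (nat_lit 245) (nat_lit 240)))) (XT.nd (nat_lit 78) (nat_lit 0) (nat_lit 0) (XT.lf (nat_lit 0) (nat_lit 194474425439) (nat_lit 76) (nat_lit 32310177556) (nat_lit 76) (nat_lit 31991171491) (nat_lit 2) (nat_lit 4) (nat_lit 3) (nat_lit 5) (nat_lit 3) (nat_lit 4) (nat_lit 416) (nat_lit 245) (nat_lit 239)) (XT.nd (nat_lit 78) (nat_lit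 0) (nat_lit 0) (XT.lf (nat_lit 0) (nat_lit 208614711144) (nat_lit 76) (nat_lit 31675932803) (nat_lit 76) (nat_lit 31312260582) (nat_lit 2) (nat_lit 4) (nat_lit 3) (nat_lit 5) (nat_lit 3) (nat_lit 4) (nat_lit 417) (nat_lit 245) (nat_lit 238)) (XT.lf (nat_lit 0) (nat_lit 223337299450) (nat_lit 76) (nat_lit 31071727988) (nat_lit 76) (nat_lit 30665516571) (nat_lit 2) (nat_lit 4) (nat_lit 3) (nat_lit 5) (nat_lit 3) (nat_lit 4) (nat_lit 418) (nat_lit 245) (nat_lit 237))))) (XT.nd (nat_lit 234) (nat_lit 0) (nat_lit 0) (XT.nd (nat_lit 78) (nat_lit 0) (nat_lit 0) (XT.lf (nat_lit 0) (nat_lit 238677244140) (nat_lit 76) (nat_lit 30496124528) (nat_lit 76) (nat_lit 30049399590) (nat_lit 2) (nat_lit 4) (nat_lit 3) (nat_lit 5) (nat_lit 3) (nat_lit 4) (nat_lit 419) (nat_lit 245) (nat_lit 236)) (XT.nd (nat_lit 78) (nat_lit 0) (nat_lit 0) (XT.lf (nat_lit 0) (nat_lit 254671068891) (nat_lit 76) (nat_lit 29947751938)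 (nat_lit 76) (nat_lit 29462442696) (nat_lit 2) (nat_lit 4) (nat_lit 3) (nat_lit 5) (nat_lit 3) (nat_lit 4) (nat_lit 420) (nat_lit 245) (nat_lit 235)) (XT.lf (nat_lit 0) (nat_lit 271356854239) (nat_lit 76) (nat_lit 29425304570) (nat_lit 76) (nat_lit 28903248371) (nat_lit 2) (nat_lit 4) (nat_lit 3) (nat_lit 5) (nat_lit 3) (nat_lit 4) (nat_lit 421) (nat_lit 245) (nat_lit 234)))) (XT.nd (nat_lit 156) (nat_lit 0) (nat_lit 0) (XT.nd (nat_lit 78) (nat_lit 0) (nat_lit 0) (XT.lf (nat_lit 0) (nat_lit 288774328243) (nat_lit 76) (nat_lit 28927538502) (nat_lit 76) (nat_lit 28370485200) (nat_lit 2) (nat_lit 4) (nat_lit 3) (nat_lit 5) (nat_lit 3) (nat_lit 4) (nat_lit 422) (nat_lit 245) (nat_lit 233)) (XT.lf (nat_lit 0) (nat_lit 306964961080) (nat_lit 76) (nat_lit 28453268575) (nat_lit 76) (nat_lit 27862884700) (nat_lit 2) (nat_lit 4) (nat_lit 3) (nat_lit 5) (nat_lit 3) (nat_lit 4) (nat_lit 423) (nat_lit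 245) (nat_lit 232))) (XT.nd (nat_lit 78) (nat_lit 0) (nat_lit 0) (XT.lf (nat_lit 0) (nat_lit 325972063781) (nat_lit 76) (nat_lit 28001365577) (nat_lit 76) (nat_lit 27379238298) (nat_lit 2) (nat_lit 4) (nat_lit 3) (nat_lit 5) (nat_lit 3) (nat_lit 4) (nat_lit 424) (nat_lit 245) (nat_lit 231)) (XT.lf (nat_lit 0) (nat_lit 345840891352) (nat_lit 76) (nat_lit 27570753547) (nat_lit 76) (nat_lit 26918394456) (nat_lit 2) (nat_lit 4) (nat_lit 3) (nat_lit 5) (nat_lit 3) (nat_lit 4) (nat_lit 425) (nat_lit 245) (nat_lit 230))))))) (XT.nd (nat_lit 936) (nat_lit 0) (nat_lit 0) (XT.nd (nat_lit 468) (nat_lit 0) (nat_lit 0) (XT.nd (nat_lit 234) (nat_lit 0) (nat_lit 0) (XT.nd (nat_lit 78) (nat_lit 0) (nat_lit 0) (XT.lf (nat_lit 0) (nat_lit 366618750525) (nat_lit 76) (nat_lit 27160407218) (nat_lit 76) (nat_lit 26479255925) (nat_lit 2) (nat_lit 4) (nat_lit 3) (nat_lit 5) (nat_lit 3) (nat_lit 4) (nat_lit 426)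 (nat_lit 245) (nat_lit 229)) (XT.nd (nat_lit 78) (nat_lit 0) (nat_lit 0) (XT.lf (nat_lit 0) (nat_lit 388355112393) (nat_lit 76) (nat_lit 26769349576) (nat_lit 76) (nat_lit 26060777137) (nat_lit 2) (nat_lit 4) (nat_lit 3) (nat_lit 5) (nat_lit 3) (nat_lit 4) (nat_lit 427) (nat_lit 245) (nat_lit 228)) (XT.lf (nat_lit 0) (nat_lit 411101730200) (nat_lit 76) (nat_lit 26396649531) (nat_lit 76) (nat_lit 25661961716) (nat_lit 2) (nat_lit 4) (nat_lit 3) (nat_lit 5) (nat_lit 3) (nat_lit 4) (nat_lit 428) (nat_lit 245) (nat_lit 227)))) (XT.nd (nat_lit 78) (nat_lit 0) (nat_lit 0) (XT.lf (nat_lit 0) (nat_lit 434912762558) (nat_lit 76) (nat_lit 26041419702) (nat_lit 76) (nat_lit 25281860100) (nat_lit 2) (nat_lit 4) (nat_lit 3) (nat_lit 5) (nat_lit 3) (nat_lit 4) (nat_lit 429) (nat_lit 245) (nat_lit 226)) (XT.nd (nat_lit 78) (nat_lit 0) (nat_lit 0) (XT.lf (nat_lit 0) (nat_lit 459844902403) (nat_lit 76)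 (nat_lit 25702814303) (nat_lit 76) (nat_lit 24919567285) (nat_lit 2) (nat_lit 4) (nat_lit 3) (nat_lit 5) (nat_lit 3) (nat_lit 4) (nat_lit 430) (nat_lit 245) (nat_lit 225)) (XT.lf (nat_lit 0) (nat_lit 485957511971) (nat_lit 76) (nat_lit 25380027132) (nat_lit 76) (nat_lit 24574220669) (nat_lit 2) (nat_lit 4) (nat_lit 3) (nat_lit 5) (nat_lit 3) (nat_lit 4) (nat_lit 431) (nat_lit 245) (nat_lit 224))))) (XT.nd (nat_lit 234) (nat_lit 0) (nat_lit 0) (XT.nd (nat_lit 78) (nat_lit 0) (nat_lit 0) (XT.lf (nat_lit 0) (nat_lit 513312764143) (nat_lit 76) (nat_lit 25072289647) (nat_lit 76) (nat_lit 24244998000) (nat_lit 2) (nat_lit 4) (nat_lit 3) (nat_lit 5) (nat_lit 3) (nat_lit 4) (nat_lit 432) (nat_lit 245) (nat_lit 223)) (XT.nd (nat_lit 78) (nat_lit 0) (nat_lit 0) (XT.lf (nat_lit 0) (nat_lit 541975790471) (nat_lit 76) (nat_lit 24778869140) (nat_lit 76) (nat_lit 23931115412) (nat_lit 2) (nat_lit 4) (nat_lit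 3) (nat_lit 5) (nat_lit 3) (nat_lit 4) (nat_lit 433) (nat_lit 245) (nat_lit 222)) (XT.lf (nat_lit 0) (nat_lit 572014836257) (nat_lit 76) (nat_lit 24499066991) (nat_lit 76) (nat_lit 23631825567) (nat_lit 2) (nat_lit 4) (nat_lit 3) (nat_lit 5) (nat_lit 3) (nat_lit 4) (nat_lit 434) (nat_lit 245) (nat_lit 221)))) (XT.nd (nat_lit 78) (nat_lit 0) (nat_lit 0) (XT.lf (nat_lit 0) (nat_lit 603501423038) (nat_lit 76) (nat_lit 24232217004) (nat_lit 76) (nat_lit 23346415869) (nat_lit 2) (nat_lit 4) (nat_lit 3) (nat_lit 5) (nat_lit 3) (nat_lit 4) (nat_lit 435) (nat_lit 245) (nat_lit 220)) (XT.nd (nat_lit 78) (nat_lit 0) (nat_lit 0) (XT.lf (nat_lit 0) (nat_lit 636510518877) (nat_lit 76) (nat_lit 23977683822) (nat_lit 76) (nat_lit 23074206773) (nat_lit 2) (nat_lit 4) (nat_lit 3) (nat_lit 5) (nat_lit 3) (nat_lit 4) (nat_lit 436) (nat_lit 245) (nat_lit 219)) (XT.lf (nat_lit 0) (nat_lit 671120716861) (nat_lit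 76) (nat_lit 23734861414) (nat_lit 76) (nat_lit 22814550160) (nat_lit 2) (nat_lit 4) (nat_lit 3) (nat_lit 5) (nat_lit 3) (nat_lit 4) (nat_lit 437) (nat_lit 245) (nat_lit 218)))))) (XT.nd (nat_lit 44616) (nat_lit 0) (nat_lit 0) (XT.nd (nat_lit 234) (nat_lit 0) (nat_lit 0) (XT.nd (nat_lit 78) (nat_lit 0) (nat_lit 0) (XT.lf (nat_lit 0) (nat_lit 707414422221) (nat_lit 76) (nat_lit 23503171631) (nat_lit 76) (nat_lit 22566827802) (nat_lit 2) (nat_lit 4) (nat_lit 3) (nat_lit 5) (nat_lit 3) (nat_lit 4) (nat_lit 438) (nat_lit 245) (nat_lit 217)) (XT.nd (nat_lit 78) (nat_lit 0) (nat_lit 0) (XT.lf (nat_lit 0) (nat_lit 745478048543) (nat_lit 76) (nat_lit 23282062831) (nat_lit 76) (nat_lit 22330449882) (nat_lit 2) (nat_lit 4) (nat_lit 3) (nat_lit 5) (nat_lit 3) (nat_lit 4) (nat_lit 439) (nat_lit 245) (nat_lit 216)) (XT.lf (nat_lit 0) (nat_lit 785402223509) (nat_lit 76) (nat_lit 23071008564) (nat_lit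 76) (nat_lit 22104853596) (nat_lit 2) (nat_lit 4) (nat_lit 3) (nat_lit 5) (nat_lit 3) (nat_lit 4) (nat_lit 440) (nat_lit 245) (nat_lit 215)))) (XT.nd (nat_lit 78) (nat_lit 0) (nat_lit 0) (XT.lf (nat_lit 0) (nat_lit 827282004676) (nat_lit 76) (nat_lit 22869506320) (nat_lit 76) (nat_lit 21889501811) (nat_lit 2) (nat_lit 4) (nat_lit 3) (nat_lit 5) (nat_lit 3) (nat_lit 4) (nat_lit 441) (nat_lit 245) (nat_lit 214)) (XT.nd (nat_lit 44226) (nat_lit 0) (nat_lit 0) (XT.lf (nat_lit 0) (nat_lit 871217105812) (nat_lit 76) (nat_lit 22677076332) (nat_lit 76) (nat_lit 21683881783) (nat_lit 2) (nat_lit 4) (nat_lit 3) (nat_lit 5) (nat_lit 3) (nat_lit 4) (nat_lit 442) (nat_lit 245) (nat_lit 213)) (XT.lf (nat_lit 0) (nat_lit 49310163748) (nat_lit 76) (nat_lit 19340948625) (nat_lit 76) (nat_lit 19340948625) (nat_lit 2) (nat_lit 4) (nat_lit 3) (nat_lit 5) (nat_lit 3) (nat_lit 4) (nat_lit 408) (nat_lit 246)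 (nat_lit 246))))) (XT.nd (nat_lit 234) (nat_lit 0) (nat_lit 0) (XT.nd (nat_lit 78) (nat_lit 0) (nat_lit 0) (XT.lf (nat_lit 0) (nat_lit 109123963019) (nat_lit 76) (nat_lit 37790664512) (nat_lit 76) (nat_lit 37727814744) (nat_lit 2) (nat_lit 4) (nat_lit 3) (nat_lit 5) (nat_lit 3) (nat_lit 4) (nat_lit 409) (nat_lit 246) (nat_lit 245)) (XT.nd (nat_lit 78) (nat_lit 0) (nat_lit 0) (XT.lf (nat_lit 0) (nat_lit 119977298454) (nat_lit 76) (nat_lit 36941761649) (nat_lit 76) (nat_lit 36819054961) (nat_lit 2) (nat_lit 4) (nat_lit 3) (nat_lit 5) (nat_lit 3) (nat_lit 4) (nat_lit 410) (nat_lit 246) (nat_lit 244)) (XT.lf (nat_lit 0) (nat_lit 131206175078) (nat_lit 76) (nat_lit 36133167464) (nat_lit 76) (nat_lit 35953454185) (nat_lit 2) (nat_lit 4) (nat_lit 3) (nat_lit 5) (nat_lit 3) (nat_lit 4) (nat_lit 411) (nat_lit 246) (nat_lit 243)))) (XT.nd (nat_lit 156) (nat_lit 0) (nat_lit 0) (XT.nd (nat_lit 78)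 (nat_lit 0) (nat_lit 0) (XT.lf (nat_lit 0) (nat_lit 142837328311) (nat_lit 76) (nat_lit 35362956734) (nat_lit 76) (nat_lit 35128951462) (nat_lit 2) (nat_lit 4) (nat_lit 3) (nat_lit 5) (nat_lit 3) (nat_lit 4) (nat_lit 412) (nat_lit 246) (nat_lit 242)) (XT.lf (nat_lit 0) (nat_lit 154898451374) (nat_lit 76) (nat_lit 34629295622) (nat_lit 76) (nat_lit 34343583692) (nat_lit 2) (nat_lit 4) (nat_lit 3) (nat_lit 5) (nat_lit 3) (nat_lit 4) (nat_lit 413) (nat_lit 246) (nat_lit 241))) (XT.nd (nat_lit 78) (nat_lit 0) (nat_lit 0) (XT.lf (nat_lit 0) (nat_lit 167418261228) (nat_lit 76) (nat_lit 33930437317) (nat_lit 76) (nat_lit 33595480950) (nat_lit 2) (nat_lit 4) (nat_lit 3) (nat_lit 5) (nat_lit 3) (nat_lit 4) (nat_lit 414) (nat_lit 246) (nat_lit 240)) (XT.lf (nat_lit 0) (nat_lit 180426566944) (nat_lit 76) (nat_lit 33264717871) (nat_lit 76) (nat_lit 32882862039) (nat_lit 2) (nat_lit 4) (nat_lit 3) (nat_lit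 5) (nat_lit 3) (nat_lit 4) (nat_lit 415) (nat_lit 246) (nat_lit 239))))))))
noncomputable def xc6 : XT := (XT.nd (nat_lit 1872) (nat_lit 0) (nat_lit 0) (XT.nd (nat_lit 936) (nat_lit 0) (nat_lit 0) (XT.nd (nat_lit 468) (nat_lit 0) (nat_lit 0) (XT.nd (nat_lit 234) (nat_lit 0) (nat_lit 0) (XT.nd (nat_lit 78) (nat_lit 0) (nat_lit 0) (XT.lf (nat_lit 0) (nat_lit 193954340678) (nat_lit 76) (nat_lit 32630552236) (nat_lit 76) (nat_lit 32204030248) (nat_lit 2) (nat_lit 4) (nat_lit 3) (nat_lit 5) (nat_lit 3) (nat_lit 4) (nat_lit 416) (nat_lit 246) (nat_lit 238)) (XT.nd (nat_lit 78) (nat_lit 0) (nat_lit 0) (XT.lf (nat_lit 0) (nat_lit 208033791415) (nat_lit 76) (nat_lit 32026430496) (nat_lit 76) (nat_lit 31557369312) (nat_lit 2) (nat_lit 4) (nat_lit 3) (nat_lit 5) (nat_lit 3) (nat_lit 4) (nat_lit 417) (nat_lit 246) (nat_lit 237)) (XT.lf (nat_lit 0) (nat_lit 222698441657) (nat_lit 76) (nat_lit 31450914264)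 (nat_lit 76) (nat_lit 30941339560) (nat_lit 2) (nat_lit 4) (nat_lit 3) (nat_lit 5) (nat_lit 3) (nat_lit 4) (nat_lit 418) (nat_lit 246) (nat_lit 236)))) (XT.nd (nat_lit 78) (nat_lit 0) (nat_lit 0) (XT.lf (nat_lit 0) (nat_lit 237983207238) (nat_lit 76) (nat_lit 30902633264) (nat_lit 76) (nat_lit 30354474255) (nat_lit 2) (nat_lit 4) (nat_lit 3) (nat_lit 5) (nat_lit 3) (nat_lit 4) (nat_lit 419) (nat_lit 246) (nat_lit 235)) (XT.nd (nat_lit 78) (nat_lit 0) (nat_lit 0) (XT.lf (nat_lit 0) (nat_lit 253924480457) (nat_lit 76) (nat_lit 30380282066) (nat_lit 76) (nat_lit 29795376099) (nat_lit 2) (nat_lit 4) (nat_lit 3) (nat_lit 5) (nat_lit 3) (nat_lit 4) (nat_lit 420) (nat_lit 246) (nat_lit 234)) (XT.lf (nat_lit 0) (nat_lit 270560216726) (nat_lit 76) (nat_lit 29882616975) (nat_lit 76) (nat_lit 29262713906) (nat_lit 2) (nat_lit 4) (nat_lit 3) (nat_lit 5) (nat_lit 3) (nat_lit 4) (nat_lit 421) (nat_lit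 246) (nat_lit 233))))) (XT.nd (nat_lit 234) (nat_lit 0) (nat_lit 0) (XT.nd (nat_lit 78) (nat_lit 0) (nat_lit 0) (XT.lf (nat_lit 0) (nat_lit 287930024942) (nat_lit 76) (nat_lit 29408453075) (nat_lit 76) (nat_lit 28755219433) (nat_lit 2) (nat_lit 4) (nat_lit 3) (nat_lit 5) (nat_lit 3) (nat_lit 4) (nat_lit 422) (nat_lit 246) (nat_lit 232)) (XT.nd (nat_lit 78) (nat_lit 0) (nat_lit 0) (XT.lf (nat_lit 0) (nat_lit 306075261790) (nat_lit 76) (nat_lit 28956661404) (nat_lit 76) (nat_lit 28271684359) (nat_lit 2) (nat_lit 4) (nat_lit 3) (nat_lit 5) (nat_lit 3) (nat_lit 4) (nat_lit 423) (nat_lit 246) (nat_lit 231)) (XT.lf (nat_lit 0) (nat_lit 325039130215) (nat_lit 76) (nat_lit 28526166268) (nat_lit 76) (nat_lit 27810957410) (nat_lit 2) (nat_lit 4) (nat_lit 3) (nat_lit 5) (nat_lit 3) (nat_lit 4) (nat_lit 424) (nat_lit 246) (nat_lit 230)))) (XT.nd (nat_lit 78) (nat_lit 0) (nat_lit 0) (XT.lf (nat_lit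 0) (nat_lit 344866782285) (nat_lit 76) (nat_lit 28115942678) (nat_lit 76) (nat_lit 27371941618) (nat_lit 2) (nat_lit 4) (nat_lit 3) (nat_lit 5) (nat_lit 3) (nat_lit 4) (nat_lit 425) (nat_lit 246) (nat_lit 229)) (XT.nd (nat_lit 78) (nat_lit 0) (nat_lit 0) (XT.lf (nat_lit 0) (nat_lit 365605426695) (nat_lit 76) (nat_lit 27725013912) (nat_lit 76) (nat_lit 26953591706) (nat_lit 2) (nat_lit 4) (nat_lit 3) (nat_lit 5) (nat_lit 3) (nat_lit 4) (nat_lit 426) (nat_lit 246) (nat_lit 228)) (XT.lf (nat_lit 0) (nat_lit 387304441171) (nat_lit 76) (nat_lit 27352449187) (nat_lit 76) (nat_lit 26554911605) (nat_lit 2) (nat_lit 4) (nat_lit 3) (nat_lit 5) (nat_lit 3) (nat_lit 4) (nat_lit 427) (nat_lit 246) (nat_lit 227)))))) (XT.nd (nat_lit 468) (nat_lit 0) (nat_lit 0) (XT.nd (nat_lit 234) (nat_lit 0) (nat_lit 0) (XT.nd (nat_lit 78) (nat_lit 0) (nat_lit 0) (XT.lf (nat_lit 0) (nat_lit 410015490032) (nat_lit 76)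 (nat_lit 26997361443) (nat_lit 76) (nat_lit 26174952074) (nat_lit 2) (nat_lit 4) (nat_lit 3) (nat_lit 5) (nat_lit 3) (nat_lit 4) (nat_lit 428) (nat_lit 246) (nat_lit 226)) (XT.nd (nat_lit 78) (nat_lit 0) (nat_lit 0) (XT.lf (nat_lit 0) (nat_lit 433792647204) (nat_lit 76) (nat_lit 26658905235) (nat_lit 76) (nat_lit 25812808449) (nat_lit 2) (nat_lit 4) (nat_lit 3) (nat_lit 5) (nat_lit 3) (nat_lit 4) (nat_lit 429) (nat_lit 246) (nat_lit 225)) (XT.lf (nat_lit 0) (nat_lit 458692524966) (nat_lit 76) (nat_lit 26336274713) (nat_lit 76) (nat_lit 25467618483) (nat_lit 2) (nat_lit 4) (nat_lit 3) (nat_lit 5) (nat_lit 3) (nat_lit 4) (nat_lit 430) (nat_lit 246) (nat_lit 224)))) (XT.nd (nat_lit 78) (nat_lit 0) (nat_lit 0) (XT.lf (nat_lit 0) (nat_lit 484774408742) (nat_lit 76) (nat_lit 26028701710) (nat_lit 76) (nat_lit 25138560295) (nat_lit 2) (nat_lit 4) (nat_lit 3) (nat_lit 5) (nat_lit 3) (nat_lit 4)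 (nat_lit 431) (nat_lit 246) (nat_lit 223)) (XT.nd (nat_lit 78) (nat_lit 0) (nat_lit 0) (XT.lf (nat_lit 0) (nat_lit 512100398254) (nat_lit 76) (nat_lit 25735453909) (nat_lit 76) (nat_lit 24824850414) (nat_lit 2) (nat_lit 4) (nat_lit 3) (nat_lit 5) (nat_lit 3) (nat_lit 4) (nat_lit 432) (nat_lit 246) (nat_lit 222)) (XT.lf (nat_lit 0) (nat_lit 540735555383) (nat_lit 76) (nat_lit 25455833101) (nat_lit 76) (nat_lit 24525741910) (nat_lit 2) (nat_lit 4) (nat_lit 3) (nat_lit 5) (nat_lit 3) (nat_lit 4) (nat_lit 433) (nat_lit 246) (nat_lit 221))))) (XT.nd (nat_lit 234) (nat_lit 0) (nat_lit 0) (XT.nd (nat_lit 78) (nat_lit 0) (nat_lit 0) (XT.lf (nat_lit 0) (nat_lit 570748059074) (nat_lit 76) (nat_lit 25189173522) (nat_lit 76) (nat_lit 24240522621) (nat_lit 2) (nat_lit 4) (nat_lit 3) (nat_lit 5) (nat_lit 3) (nat_lit 4) (nat_lit 434) (nat_lit 246) (nat_lit 220)) (XT.nd (nat_lit 78) (nat_lit 0) (nat_lit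 0) (XT.lf (nat_lit 0) (nat_lit 602209367669) (nat_lit 76) (nat_lit 24934840269) (nat_lit 76) (nat_lit 23968513453) (nat_lit 2) (nat_lit 4) (nat_lit 3) (nat_lit 5) (nat_lit 3) (nat_lit 4) (nat_lit 435) (nat_lit 246) (nat_lit 219)) (XT.lf (nat_lit 0) (nat_lit 635194389046) (nat_lit 76) (nat_lit 24692227786) (nat_lit 76) (nat_lit 23709066766) (nat_lit 2) (nat_lit 4) (nat_lit 3) (nat_lit 5) (nat_lit 3) (nat_lit 4) (nat_lit 436) (nat_lit 246) (nat_lit 218)))) (XT.nd (nat_lit 78) (nat_lit 0) (nat_lit 0) (XT.lf (nat_lit 0) (nat_lit 669781658970) (nat_lit 76) (nat_lit 24460758425) (nat_lit 76) (nat_lit 23461564828) (nat_lit 2) (nat_lit 4) (nat_lit 3) (nat_lit 5) (nat_lit 3) (nat_lit 4) (nat_lit 437) (nat_lit 246) (nat_lit 217)) (XT.nd (nat_lit 78) (nat_lit 0) (nat_lit 0) (XT.lf (nat_lit 0) (nat_lit 706053528084) (nat_lit 76) (nat_lit 24239881067) (nat_lit 76) (nat_lit 23225418351) (nat_lit 2) (nat_lit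 4) (nat_lit 3) (nat_lit 5) (nat_lit 3) (nat_lit 4) (nat_lit 438) (nat_lit 246) (nat_lit 216)) (XT.lf (nat_lit 0) (nat_lit 744096357980) (nat_lit 76) (nat_lit 24029069815) (nat_lit 76) (nat_lit 23000065080) (nat_lit 2) (nat_lit 4) (nat_lit 3) (nat_lit 5) (nat_lit 3) (nat_lit 4) (nat_lit 439) (nat_lit 246) (nat_lit 215))))))) (XT.nd (nat_lit 44928) (nat_lit 0) (nat_lit 0) (XT.nd (nat_lit 44460) (nat_lit 0) (nat_lit 0) (XT.nd (nat_lit 44226) (nat_lit 0) (nat_lit 0) (XT.nd (nat_lit 78) (nat_lit 0) (nat_lit 0) (XT.lf (nat_lit 0) (nat_lit 784000726825) (nat_lit 76) (nat_lit 23827822737) (nat_lit 76) (nat_lit 22784968460) (nat_lit 2) (nat_lit 4) (nat_lit 3) (nat_lit 5) (nat_lit 3) (nat_lit 4) (nat_lit 440) (nat_lit 246) (nat_lit 214)) (XT.nd (nat_lit 78) (nat_lit 0) (nat_lit 0) (XT.lf (nat_lit 0) (nat_lit 825861645022) (nat_lit 76) (nat_lit 23635660672) (nat_lit 76) (nat_lit 22579616356) (nat_lit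 2) (nat_lit 4) (nat_lit 3) (nat_lit 5) (nat_lit 3) (nat_lit 4) (nat_lit 441) (nat_lit 246) (nat_lit 213)) (XT.lf (nat_lit 0) (nat_lit 869778781423) (nat_lit 76) (nat_lit 23452126094) (nat_lit 76) (nat_lit 22383519835) (nat_lit 2) (nat_lit 4) (nat_lit 3) (nat_lit 5) (nat_lit 3) (nat_lit 4) (nat_lit 442) (nat_lit 246) (nat_lit 212)))) (XT.nd (nat_lit 78) (nat_lit 0) (nat_lit 0) (XT.lf (nat_lit 0) (nat_lit 39328634823) (nat_lit 76) (nat_lit 20309603848) (nat_lit 76) (nat_lit 20309603848) (nat_lit 2) (nat_lit 4) (nat_lit 3) (nat_lit 5) (nat_lit 3) (nat_lit 4) (nat_lit 406) (nat_lit 247) (nat_lit 247)) (XT.nd (nat_lit 78) (nat_lit 0) (nat_lit 0) (XT.lf (nat_lit 0) (nat_lit 88441383233) (nat_lit 76) (nat_lit 39683574102) (nat_lit 76) (nat_lit 39617581846) (nat_lit 2) (nat_lit 4) (nat_lit 3) (nat_lit 5) (nat_lit 3) (nat_lit 4) (nat_lit 407) (nat_lit 247) (nat_lit 246)) (XT.lf (nat_lit 0) (nat_lit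 98530446543) (nat_lit 76) (nat_lit 38792394914) (nat_lit 76) (nat_lit 38663552891) (nat_lit 2) (nat_lit 4) (nat_lit 3) (nat_lit 5) (nat_lit 3) (nat_lit 4) (nat_lit 408) (nat_lit 247) (nat_lit 245))))) (XT.nd (nat_lit 234) (nat_lit 0) (nat_lit 0) (XT.nd (nat_lit 78) (nat_lit 0) (nat_lit 0) (XT.lf (nat_lit 0) (nat_lit 108948481157) (nat_lit 76) (nat_lit 37943548279) (nat_lit 76) (nat_lit 37754849336) (nat_lit 2) (nat_lit 4) (nat_lit 3) (nat_lit 5) (nat_lit 3) (nat_lit 4) (nat_lit 409) (nat_lit 247) (nat_lit 244)) (XT.nd (nat_lit 78) (nat_lit 0) (nat_lit 0) (XT.lf (nat_lit 0) (nat_lit 119720291917) (nat_lit 76) (nat_lit 37135013135) (nat_lit 76) (nat_lit 36889307599) (nat_lit 2) (nat_lit 4) (nat_lit 3) (nat_lit 5) (nat_lit 3) (nat_lit 4) (nat_lit 410) (nat_lit 247) (nat_lit 243)) (XT.lf (nat_lit 0) (nat_lit 130871525993) (nat_lit 76) (nat_lit 36364864396) (nat_lit 76) (nat_lit 36064866868)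 (nat_lit 2) (nat_lit 4) (nat_lit 3) (nat_lit 5) (nat_lit 3) (nat_lit 4) (nat_lit 411) (nat_lit 247) (nat_lit 242)))) (XT.nd (nat_lit 78) (nat_lit 0) (nat_lit 0) (XT.lf (nat_lit 0) (nat_lit 142428733943) (nat_lit 76) (nat_lit 35631268375) (nat_lit 76) (nat_lit 35279564189) (nat_lit 2) (nat_lit 4) (nat_lit 3) (nat_lit 5) (nat_lit 3) (nat_lit 4) (nat_lit 412) (nat_lit 247) (nat_lit 241)) (XT.nd (nat_lit 78) (nat_lit 0) (nat_lit 0) (XT.lf (nat_lit 0) (nat_lit 154419432927) (nat_lit 76) (nat_lit 34932478416) (nat_lit 76) (nat_lit 34531529792) (nat_lit 2) (nat_lit 4) (nat_lit 3) (nat_lit 5) (nat_lit 3) (nat_lit 4) (nat_lit 413) (nat_lit 247) (nat_lit 240)) (XT.lf (nat_lit 0) (nat_lit 166872172229) (nat_lit 76) (nat_lit 34266830732) (nat_lit 76) (nat_lit 33818982645) (nat_lit 2) (nat_lit 4) (nat_lit 3) (nat_lit 5) (nat_lit 3) (nat_lit 4) (nat_lit 414) (nat_lit 247) (nat_lit 239)))))) (XT.nd (nat_lit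 468) (nat_lit 0) (nat_lit 0) (XT.nd (nat_lit 234) (nat_lit 0) (nat_lit 0) (XT.nd (nat_lit 78) (nat_lit 0) (nat_lit 0) (XT.lf (nat_lit 0) (nat_lit 179816601229) (nat_lit 76) (nat_lit 33632740449) (nat_lit 76) (nat_lit 33140226205) (nat_lit 2) (nat_lit 4) (nat_lit 3) (nat_lit 5) (nat_lit 3) (nat_lit 4) (nat_lit 415) (nat_lit 247) (nat_lit 238)) (XT.nd (nat_lit 78) (nat_lit 0) (nat_lit 0) (XT.lf (nat_lit 0) (nat_lit 193283539995) (nat_lit 76) (nat_lit 33028697827) (nat_lit 76) (nat_lit 32493644387) (nat_lit 2) (nat_lit 4) (nat_lit 3) (nat_lit 5) (nat_lit 3) (nat_lit 4) (nat_lit 416) (nat_lit 247) (nat_lit 237)) (XT.lf (nat_lit 0) (nat_lit 207305052668) (nat_lit 76) (nat_lit 32453264669) (nat_lit 76) (nat_lit 31877697709) (nat_lit 2) (nat_lit 4) (nat_lit 3) (nat_lit 5) (nat_lit 3) (nat_lit 4) (nat_lit 417) (nat_lit 247) (nat_lit 236)))) (XT.nd (nat_lit 78) (nat_lit 0) (nat_lit 0) (XT.lf (nat_lit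 0) (nat_lit 221914523802) (nat_lit 76) (nat_lit 31905070898) (nat_lit 76) (nat_lit 31290919633) (nat_lit 2) (nat_lit 4) (nat_lit 3) (nat_lit 5) (nat_lit 3) (nat_lit 4) (nat_lit 418) (nat_lit 247) (nat_lit 235)) (XT.nd (nat_lit 78) (nat_lit 0) (nat_lit 0) (XT.lf (nat_lit 0) (nat_lit 237146737850) (nat_lit 76) (nat_lit 31382811289) (nat_lit 76) (nat_lit 30731913067) (nat_lit 2) (nat_lit 4) (nat_lit 3) (nat_lit 5) (nat_lit 3) (nat_lit 4) (nat_lit 419) (nat_lit 247) (nat_lit 234)) (XT.lf (nat_lit 0) (nat_lit 253037961991) (nat_lit 76) (nat_lit 30885242367) (nat_lit 76) (nat_lit 30199347043) (nat_lit 2) (nat_lit 4) (nat_lit 3) (nat_lit 5) (nat_lit 3) (nat_lit 4) (nat_lit 420) (nat_lit 247) (nat_lit 233))))) (XT.nd (nat_lit 234) (nat_lit 0) (nat_lit 0) (XT.nd (nat_lit 78) (nat_lit 0) (nat_lit 0) (XT.lf (nat_lit 0) (nat_lit 269626032471) (nat_lit 76) (nat_lit 30411179445) (nat_lit 76) (nat_lit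 29691953547) (nat_lit 2) (nat_lit 4) (nat_lit 3) (nat_lit 5) (nat_lit 3) (nat_lit 4) (nat_lit 421) (nat_lit 247) (nat_lit 232)) (XT.nd (nat_lit 78) (nat_lit 0) (nat_lit 0) (XT.lf (nat_lit 0) (nat_lit 286950444697) (nat_lit 76) (nat_lit 29959493801) (nat_lit 76) (nat_lit 29208524500) (nat_lit 2) (nat_lit 4) (nat_lit 3) (nat_lit 5) (nat_lit 3) (nat_lit 4) (nat_lit 422) (nat_lit 247) (nat_lit 231)) (XT.lf (nat_lit 0) (nat_lit 305052447269) (nat_lit 76) (nat_lit 29529109992) (nat_lit 76) (nat_lit 28747908879) (nat_lit 2) (nat_lit 4) (nat_lit 3) (nat_lit 5) (nat_lit 3) (nat_lit 4) (nat_lit 423) (nat_lit 247) (nat_lit 230)))) (XT.nd (nat_lit 156) (nat_lit 0) (nat_lit 0) (XT.nd (nat_lit 78) (nat_lit 0) (nat_lit 0) (XT.lf (nat_lit 0) (nat_lit 323975140194) (nat_lit 76) (nat_lit 29119003297) (nat_lit 76) (nat_lit 28309009981) (nat_lit 2) (nat_lit 4) (nat_lit 3) (nat_lit 5) (nat_lit 3) (nat_lit 4)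 (nat_lit 424) (nat_lit 247) (nat_lit 229)) (XT.lf (nat_lit 0) (nat_lit 343763577501) (nat_lit 76) (nat_lit 28728197270) (nat_lit 76) (nat_lit 27890782808) (nat_lit 2) (nat_lit 4) (nat_lit 3) (nat_lit 5) (nat_lit 3) (nat_lit 4) (nat_lit 425) (nat_lit 247) (nat_lit 228))) (XT.nd (nat_lit 78) (nat_lit 0) (nat_lit 0) (XT.lf (nat_lit 0) (nat_lit 364464874519) (nat_lit 76) (nat_lit 28355761420) (nat_lit 76) (nat_lit 27492231583) (nat_lit 2) (nat_lit 4) (nat_lit 3) (nat_lit 5) (nat_lit 3) (nat_lit 4) (nat_lit 426) (nat_lit 247) (nat_lit 227)) (XT.lf (nat_lit 0) (nat_lit 386128320049) (nat_lit 76) (nat_lit 28000808996) (nat_lit 76) (nat_lit 27112407372) (nat_lit 2) (nat_lit 4) (nat_lit 3) (nat_lit 5) (nat_lit 3) (nat_lit 4) (nat_lit 427) (nat_lit 247) (nat_lit 226))))))))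
noncomputable def xc7 : XT := (XT.nd (nat_lit 45786) (nat_lit 0) (nat_lit 0) (XT.nd (nat_lit 936) (nat_lit 0) (nat_lit 0) (XT.nd (nat_lit 468) (nat_lit 0) (nat_lit 0) (XT.nd (nat_lit 234) (nat_lit 0) (nat_lit 0) (XT.nd (nat_lit 78) (nat_lit 0) (nat_lit 0) (XT.lf (nat_lit 0) (nat_lit 408805493723) (nat_lit 76) (nat_lit 27662494873) (nat_lit 76) (nat_lit 26750405832) (nat_lit 2) (nat_lit 4) (nat_lit 3) (nat_lit 5) (nat_lit 3) (nat_lit 4) (nat_lit 428) (nat_lit 247) (nat_lit 225)) (XT.nd (nat_lit 78) (nat_lit 0) (nat_lit 0) (XT.lf (nat_lit 0) (nat_lit 432550388813) (nat_lit 76) (nat_lit 27340013541) (nat_lit 76) (nat_lit 26405365056) (nat_lit 2) (nat_lit 4) (nat_lit 3) (nat_lit 5) (nat_lit 3) (nat_lit 4) (nat_lit 429) (nat_lit 247) (nat_lit 224)) (XT.lf (nat_lit 0) (nat_lit 457419540783) (nat_lit 76) (nat_lit 27032597188) (nat_lit 76) (nat_lit 26076463518) (nat_lit 2) (nat_lit 4) (nat_lit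 3) (nat_lit 5) (nat_lit 3) (nat_lit 4) (nat_lit 430) (nat_lit 247) (nat_lit 223)))) (XT.nd (nat_lit 78) (nat_lit 0) (nat_lit 0) (XT.lf (nat_lit 0) (nat_lit 483472161899) (nat_lit 76) (nat_lit 26739513869) (nat_lit 76) (nat_lit 25762918118) (nat_lit 2) (nat_lit 4) (nat_lit 3) (nat_lit 5) (nat_lit 3) (nat_lit 4) (nat_lit 431) (nat_lit 247) (nat_lit 222)) (XT.nd (nat_lit 78) (nat_lit 0) (nat_lit 0) (XT.lf (nat_lit 0) (nat_lit 510770282212) (nat_lit 76) (nat_lit 26460065767) (nat_lit 76) (nat_lit 25463982320) (nat_lit 2) (nat_lit 4) (nat_lit 3) (nat_lit 5) (nat_lit 3) (nat_lit 4) (nat_lit 432) (nat_lit 247) (nat_lit 221)) (XT.lf (nat_lit 0) (nat_lit 539378897246) (nat_lit 76) (nat_lit 26193587530) (nat_lit 76) (nat_lit 25178944373) (nat_lit 2) (nat_lit 4) (nat_lit 3) (nat_lit 5) (nat_lit 3) (nat_lit 4) (nat_lit 433) (nat_lit 247) (nat_lit 220))))) (XT.nd (nat_lit 234) (nat_lit 0) (nat_lit 0)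 (XT.nd (nat_lit 78) (nat_lit 0) (nat_lit 0) (XT.lf (nat_lit 0) (nat_lit 569366122752) (nat_lit 76) (nat_lit 25939444685) (nat_lit 76) (nat_lit 24907125613) (nat_lit 2) (nat_lit 4) (nat_lit 3) (nat_lit 5) (nat_lit 3) (nat_lit 4) (nat_lit 434) (nat_lit 247) (nat_lit 219)) (XT.nd (nat_lit 78) (nat_lit 0) (nat_lit 0) (XT.lf (nat_lit 0) (nat_lit 600803356885) (nat_lit 76) (nat_lit 25697032131) (nat_lit 76) (nat_lit 24647878855) (nat_lit 2) (nat_lit 4) (nat_lit 3) (nat_lit 5) (nat_lit 3) (nat_lit 4) (nat_lit 435) (nat_lit 247) (nat_lit 218)) (XT.lf (nat_lit 0) (nat_lit 633765450202) (nat_lit 76) (nat_lit 25465772695) (nat_lit 76) (nat_lit 24400586843) (nat_lit 2) (nat_lit 4) (nat_lit 3) (nat_lit 5) (nat_lit 3) (nat_lit 4) (nat_lit 436) (nat_lit 247) (nat_lit 217)))) (XT.nd (nat_lit 78) (nat_lit 0) (nat_lit 0) (XT.lf (nat_lit 0) (nat_lit 668330883879) (nat_lit 76) (nat_lit 25245115758) (nat_lit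 76) (nat_lit 24164660787) (nat_lit 2) (nat_lit 4) (nat_lit 3) (nat_lit 5) (nat_lit 3) (nat_lit 4) (nat_lit 437) (nat_lit 247) (nat_lit 216)) (XT.nd (nat_lit 78) (nat_lit 0) (nat_lit 0) (XT.lf (nat_lit 0) (nat_lit 704581956566) (nat_lit 76) (nat_lit 25034535949) (nat_lit 76) (nat_lit 23939538958) (nat_lit 2) (nat_lit 4) (nat_lit 3) (nat_lit 5) (nat_lit 3) (nat_lit 4) (nat_lit 438) (nat_lit 247) (nat_lit 215)) (XT.lf (nat_lit 0) (nat_lit 742604980343) (nat_lit 76) (nat_lit 24833531885) (nat_lit 76) (nat_lit 23724685353) (nat_lit 2) (nat_lit 4) (nat_lit 3) (nat_lit 5) (nat_lit 3) (nat_lit 4) (nat_lit 439) (nat_lit 247) (nat_lit 214)))))) (XT.nd (nat_lit 44304) (nat_lit 0) (nat_lit 0) (XT.nd (nat_lit 44070) (nat_lit 0) (nat_lit 0) (XT.nd (nat_lit 78) (nat_lit 0) (nat_lit 0) (XT.lf (nat_lit 0) (nat_lit 782490486217) (nat_lit 76) (nat_lit 24641624986) (nat_lit 76) (nat_lit 23519588414) (nat_lit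 2) (nat_lit 4) (nat_lit 3) (nat_lit 5) (nat_lit 3) (nat_lit 4) (nat_lit 440) (nat_lit 247) (nat_lit 213)) (XT.nd (nat_lit 78) (nat_lit 0) (nat_lit 0) (XT.lf (nat_lit 0) (nat_lit 824333439679) (nat_lit 76) (nat_lit 24458358331) (nat_lit 76) (nat_lit 23323759817) (nat_lit 2) (nat_lit 4) (nat_lit 3) (nat_lit 5) (nat_lit 3) (nat_lit 4) (nat_lit 441) (nat_lit 247) (nat_lit 212)) (XT.lf (nat_lit 0) (nat_lit 868233466809) (nat_lit 76) (nat_lit 24283295570) (nat_lit 76) (nat_lit 23136733301) (nat_lit 2) (nat_lit 4) (nat_lit 3) (nat_lit 5) (nat_lit 3) (nat_lit 4) (nat_lit 442) (nat_lit 247) (nat_lit 211)))) (XT.nd (nat_lit 78) (nat_lit 0) (nat_lit 0) (XT.lf (nat_lit 0) (nat_lit 30005236983) (nat_lit 76) (nat_lit 21326542356) (nat_lit 76) (nat_lit 21326542356) (nat_lit 2) (nat_lit 4) (nat_lit 3) (nat_lit 5) (nat_lit 3) (nat_lit 4) (nat_lit 404) (nat_lit 248) (nat_lit 248)) (XT.nd (nat_lit 78) (nat_lit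 0) (nat_lit 0) (XT.lf (nat_lit 0) (nat_lit 69154810275) (nat_lit 76) (nat_lit 41670815269) (nat_lit 76) (nat_lit 41601523400) (nat_lit 2) (nat_lit 4) (nat_lit 3) (nat_lit 5) (nat_lit 3) (nat_lit 4) (nat_lit 405) (nat_lit 248) (nat_lit 247)) (XT.lf (nat_lit 0) (nat_lit 78562894645) (nat_lit 76) (nat_lit 40735230245) (nat_lit 76) (nat_lit 40599946121) (nat_lit 2) (nat_lit 4) (nat_lit 3) (nat_lit 5) (nat_lit 3) (nat_lit 4) (nat_lit 406) (nat_lit 248) (nat_lit 246))))) (XT.nd (nat_lit 234) (nat_lit 0) (nat_lit 0) (XT.nd (nat_lit 78) (nat_lit 0) (nat_lit 0) (XT.lf (nat_lit 0) (nat_lit 88257127277) (nat_lit 76) (nat_lit 39844102058) (nat_lit 76) (nat_lit 39645968167) (nat_lit 2) (nat_lit 4) (nat_lit 3) (nat_lit 5) (nat_lit 3) (nat_lit 4) (nat_lit 407) (nat_lit 248) (nat_lit 245)) (XT.nd (nat_lit 78) (nat_lit 0) (nat_lit 0) (XT.lf (nat_lit 0) (nat_lit 98260589679) (nat_lit 76) (nat_lit 38995308974)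 (nat_lit 76) (nat_lit 38737318162) (nat_lit 2) (nat_lit 4) (nat_lit 3) (nat_lit 5) (nat_lit 3) (nat_lit 4) (nat_lit 408) (nat_lit 248) (nat_lit 244)) (XT.lf (nat_lit 0) (nat_lit 108597099617) (nat_lit 76) (nat_lit 38186830057) (nat_lit 76) (nat_lit 37871832653) (nat_lit 2) (nat_lit 4) (nat_lit 3) (nat_lit 5) (nat_lit 3) (nat_lit 4) (nat_lit 409) (nat_lit 248) (nat_lit 243)))) (XT.nd (nat_lit 156) (nat_lit 0) (nat_lit 0) (XT.nd (nat_lit 78) (nat_lit 0) (nat_lit 0) (XT.lf (nat_lit 0) (nat_lit 119291267831) (nat_lit 76) (nat_lit 37416740358) (nat_lit 76) (nat_lit 37047450962) (nat_lit 2) (nat_lit 4) (nat_lit 3) (nat_lit 5) (nat_lit 3) (nat_lit 4) (nat_lit 410) (nat_lit 248) (nat_lit 242)) (XT.lf (nat_lit 0) (nat_lit 130368556624) (nat_lit 76) (nat_lit 36683206329) (nat_lit 76) (nat_lit 36262210274) (nat_lit 2) (nat_lit 4) (nat_lit 3) (nat_lit 5) (nat_lit 3) (nat_lit 4) (nat_lit 411) (nat_lit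 248) (nat_lit 241))) (XT.nd (nat_lit 78) (nat_lit 0) (nat_lit 0) (XT.lf (nat_lit 0) (nat_lit 141855340494) (nat_lit 76) (nat_lit 35984481460) (nat_lit 76) (nat_lit 35514240969) (nat_lit 2) (nat_lit 4) (nat_lit 3) (nat_lit 5) (nat_lit 3) (nat_lit 4) (nat_lit 412) (nat_lit 248) (nat_lit 240)) (XT.lf (nat_lit 0) (nat_lit 153778968926) (nat_lit 76) (nat_lit 35318902122) (nat_lit 76) (nat_lit 34801762167) (nat_lit 2) (nat_lit 4) (nat_lit 3) (nat_lit 5) (nat_lit 3) (nat_lit 4) (nat_lit 413) (nat_lit 248) (nat_lit 239))))))) (XT.nd (nat_lit 936) (nat_lit 0) (nat_lit 0) (XT.nd (nat_lit 468) (nat_lit 0) (nat_lit 0) (XT.nd (nat_lit 234) (nat_lit 0) (nat_lit 0) (XT.nd (nat_lit 78) (nat_lit 0) (nat_lit 0) (XT.lf (nat_lit 0) (nat_lit 166167831513) (nat_lit 76) (nat_lit 34684883602) (nat_lit 76) (nat_lit 34123077490) (nat_lit 2) (nat_lit 4) (nat_lit 3) (nat_lit 5) (nat_lit 3) (nat_lit 4) (nat_lit 414)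 (nat_lit 248) (nat_lit 238)) (XT.nd (nat_lit 78) (nat_lit 0) (nat_lit 0) (XT.lf (nat_lit 0) (nat_lit 179051425545) (nat_lit 76) (nat_lit 34080916331) (nat_lit 76) (nat_lit 33476571023) (nat_lit 2) (nat_lit 4) (nat_lit 3) (nat_lit 5) (nat_lit 3) (nat_lit 4) (nat_lit 415) (nat_lit 248) (nat_lit 237)) (XT.lf (nat_lit 0) (nat_lit 192460426247) (nat_lit 76) (nat_lit 33505562292) (nat_lit 76) (nat_lit 32860703464) (nat_lit 2) (nat_lit 4) (nat_lit 3) (nat_lit 5) (nat_lit 3) (nat_lit 4) (nat_lit 416) (nat_lit 248) (nat_lit 236)))) (XT.nd (nat_lit 78) (nat_lit 0) (nat_lit 0) (XT.lf (nat_lit 0) (nat_lit 206426759811) (nat_lit 76) (nat_lit 32957451595) (nat_lit 76) (nat_lit 32274008462) (nat_lit 2) (nat_lit 4) (nat_lit 3) (nat_lit 5) (nat_lit 3) (nat_lit 4) (nat_lit 417) (nat_lit 248) (nat_lit 235)) (XT.nd (nat_lit 78) (nat_lit 0) (nat_lit 0) (XT.lf (nat_lit 0) (nat_lit 220983679412) (nat_lit 76)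 (nat_lit 32435279215) (nat_lit 76) (nat_lit 31715089124) (nat_lit 2) (nat_lit 4) (nat_lit 3) (nat_lit 5) (nat_lit 3) (nat_lit 4) (nat_lit 418) (nat_lit 248) (nat_lit 234)) (XT.lf (nat_lit 0) (nat_lit 236165844382) (nat_lit 76) (nat_lit 31937801883) (nat_lit 76) (nat_lit 31182614690) (nat_lit 2) (nat_lit 4) (nat_lit 3) (nat_lit 5) (nat_lit 3) (nat_lit 4) (nat_lit 419) (nat_lit 248) (nat_lit 233))))) (XT.nd (nat_lit 234) (nat_lit 0) (nat_lit 0) (XT.nd (nat_lit 78) (nat_lit 0) (nat_lit 0) (XT.lf (nat_lit 0) (nat_lit 252009402734) (nat_lit 76) (nat_lit 31463835129) (nat_lit 76) (nat_lit 30675317363) (nat_lit 2) (nat_lit 4) (nat_lit 3) (nat_lit 5) (nat_lit 3) (nat_lit 4) (nat_lit 420) (nat_lit 248) (nat_lit 232)) (XT.nd (nat_lit 78) (nat_lit 0) (nat_lit 0) (XT.lf (nat_lit 0) (nat_lit 268552077225) (nat_lit 76) (nat_lit 31012250463) (nat_lit 76) (nat_lit 30191989293) (nat_lit 2) (nat_lit 4) (nat_lit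 3) (nat_lit 5) (nat_lit 3) (nat_lit 4) (nat_lit 421) (nat_lit 248) (nat_lit 231)) (XT.lf (nat_lit 0) (nat_lit 285833255175) (nat_lit 76) (nat_lit 30581972681) (nat_lit 76) (nat_lit 29731479699) (nat_lit 2) (nat_lit 4) (nat_lit 3) (nat_lit 5) (nat_lit 3) (nat_lit 4) (nat_lit 422) (nat_lit 248) (nat_lit 230)))) (XT.nd (nat_lit 78) (nat_lit 0) (nat_lit 0) (XT.lf (nat_lit 0) (nat_lit 303894082246) (nat_lit 76) (nat_lit 30171977313) (nat_lit 76) (nat_lit 29292692129) (nat_lit 2) (nat_lit 4) (nat_lit 3) (nat_lit 5) (nat_lit 3) (nat_lit 4) (nat_lit 423) (nat_lit 248) (nat_lit 229)) (XT.nd (nat_lit 78) (nat_lit 0) (nat_lit 0) (XT.lf (nat_lit 0) (nat_lit 322777560408) (nat_lit 76) (nat_lit 29781288180) (nat_lit 76) (nat_lit 28874581851) (nat_lit 2) (nat_lit 4) (nat_lit 3) (nat_lit 5) (nat_lit 3) (nat_lit 4) (nat_lit 424) (nat_lit 248) (nat_lit 228)) (XT.lf (nat_lit 0) (nat_lit 342528650323) (nat_lit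 76) (nat_lit 29408975070) (nat_lit 76) (nat_lit 28476153364) (nat_lit 2) (nat_lit 4) (nat_lit 3) (nat_lit 5) (nat_lit 3) (nat_lit 4) (nat_lit 425) (nat_lit 248) (nat_lit 227)))))) (XT.nd (nat_lit 468) (nat_lit 0) (nat_lit 0) (XT.nd (nat_lit 234) (nat_lit 0) (nat_lit 0) (XT.nd (nat_lit 78) (nat_lit 0) (nat_lit 0) (XT.lf (nat_lit 0) (nat_lit 363194378395) (nat_lit 76) (nat_lit 29054151522) (nat_lit 76) (nat_lit 28096458029) (nat_lit 2) (nat_lit 4) (nat_lit 3) (nat_lit 5) (nat_lit 3) (nat_lit 4) (nat_lit 426) (nat_lit 248) (nat_lit 226)) (XT.nd (nat_lit 78) (nat_lit 0) (nat_lit 0) (XT.lf (nat_lit 0) (nat_lit 384823948739) (nat_lit 76) (nat_lit 28715972719) (nat_lit 76) (nat_lit 27734591809) (nat_lit 2) (nat_lit 4) (nat_lit 3) (nat_lit 5) (nat_lit 3) (nat_lit 4) (nat_lit 427) (nat_lit 248) (nat_lit 225)) (XT.lf (nat_lit 0) (nat_lit 407468860331) (nat_lit 76) (nat_lit 28393633472) (nat_lit 76)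 (nat_lit 27389693119) (nat_lit 2) (nat_lit 4) (nat_lit 3) (nat_lit 5) (nat_lit 3) (nat_lit 4) (nat_lit 428) (nat_lit 248) (nat_lit 224)))) (XT.nd (nat_lit 78) (nat_lit 0) (nat_lit 0) (XT.lf (nat_lit 0) (nat_lit 431183029629) (nat_lit 76) (nat_lit 28086366308) (nat_lit 76) (nat_lit 27060940770) (nat_lit 2) (nat_lit 4) (nat_lit 3) (nat_lit 5) (nat_lit 3) (nat_lit 4) (nat_lit 429) (nat_lit 248) (nat_lit 223)) (XT.nd (nat_lit 78) (nat_lit 0) (nat_lit 0) (XT.lf (nat_lit 0) (nat_lit 456022918939) (nat_lit 76) (nat_lit 27793439639) (nat_lit 76) (nat_lit 26747552020) (nat_lit 2) (nat_lit 4) (nat_lit 3) (nat_lit 5) (nat_lit 3) (nat_lit 4) (nat_lit 430) (nat_lit 248) (nat_lit 222)) (XT.lf (nat_lit 0) (nat_lit 482047670856) (nat_lit 76) (nat_lit 27514156019) (nat_lit 76) (nat_lit 26448780704) (nat_lit 2) (nat_lit 4) (nat_lit 3) (nat_lit 5) (nat_lit 3) (nat_lit 4) (nat_lit 431) (nat_lit 248) (nat_lit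 221))))) (XT.nd (nat_lit 234) (nat_lit 0) (nat_lit 0) (XT.nd (nat_lit 78) (nat_lit 0) (nat_lit 0) (XT.lf (nat_lit 0) (nat_lit 509319249074) (nat_lit 76) (nat_lit 27247850488) (nat_lit 76) (nat_lit 26163915462) (nat_lit 2) (nat_lit 4) (nat_lit 3) (nat_lit 5) (nat_lit 3) (nat_lit 4) (nat_lit 432) (nat_lit 248) (nat_lit 220)) (XT.nd (nat_lit 78) (nat_lit 0) (nat_lit 0) (XT.lf (nat_lit 0) (nat_lit 537902585922) (nat_lit 76) (nat_lit 26993888984) (nat_lit 76) (nat_lit 25892278044) (nat_lit 2) (nat_lit 4) (nat_lit 3) (nat_lit 5) (nat_lit 3) (nat_lit 4) (nat_lit 433) (nat_lit 248) (nat_lit 219)) (XT.lf (nat_lit 0) (nat_lit 567865736965) (nat_lit 76) (nat_lit 26751666838) (nat_lit 76) (nat_lit 25633221694) (nat_lit 2) (nat_lit 4) (nat_lit 3) (nat_lit 5) (nat_lit 3) (nat_lit 4) (nat_lit 434) (nat_lit 248) (nat_lit 218)))) (XT.nd (nat_lit 156) (nat_lit 0) (nat_lit 0) (XT.nd (nat_lit 78) (nat_lit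 0) (nat_lit 0) (XT.lf (nat_lit 0) (nat_lit 599280043038) (nat_lit 76) (nat_lit 26520607331) (nat_lit 76) (nat_lit 25386129611) (nat_lit 2) (nat_lit 4) (nat_lit 3) (nat_lit 5) (nat_lit 3) (nat_lit 4) (nat_lit 435) (nat_lit 248) (nat_lit 217)) (XT.lf (nat_lit 0) (nat_lit 632220300109) (nat_lit 76) (nat_lit 26300160320) (nat_lit 76) (nat_lit 25150413480) (nat_lit 2) (nat_lit 4) (nat_lit 3) (nat_lit 5) (nat_lit 3) (nat_lit 4) (nat_lit 436) (nat_lit 248) (nat_lit 216))) (XT.nd (nat_lit 78) (nat_lit 0) (nat_lit 0) (XT.lf (nat_lit 0) (nat_lit 666764937360) (nat_lit 76) (nat_lit 26089800932) (nat_lit 76) (nat_lit 24925512073) (nat_lit 2) (nat_lit 4) (nat_lit 3) (nat_lit 5) (nat_lit 3) (nat_lit 4) (nat_lit 437) (nat_lit 248) (nat_lit 215)) (XT.lf (nat_lit 0) (nat_lit 702996203928) (nat_lit 76) (nat_lit 25889028311) (nat_lit 76) (nat_lit 24710889910) (nat_lit 2) (nat_lit 4) (nat_lit 3) (nat_lit 5)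 (nat_lit 3) (nat_lit 4) (nat_lit 438) (nat_lit 248) (nat_lit 214))))))))
noncomputable def xc8 : XT := (XT.nd (nat_lit 45552) (nat_lit 0) (nat_lit 0) (XT.nd (nat_lit 44616) (nat_lit 0) (nat_lit 0) (XT.nd (nat_lit 44148) (nat_lit 0) (nat_lit 0) (XT.nd (nat_lit 234) (nat_lit 0) (nat_lit 0) (XT.nd (nat_lit 78) (nat_lit 0) (nat_lit 0) (XT.lf (nat_lit 0) (nat_lit 741000364733) (nat_lit 76) (nat_lit 25697364426) (nat_lit 76) (nat_lit 24506035986) (nat_lit 2) (nat_lit 4) (nat_lit 3) (nat_lit 5) (nat_lit 3) (nat_lit 4) (nat_lit 439) (nat_lit 248) (nat_lit 213)) (XT.nd (nat_lit 78) (nat_lit 0) (nat_lit 0) (XT.lf (nat_lit 0) (nat_lit 780867905872) (nat_lit 76) (nat_lit 25514352937) (nat_lit 76) (nat_lit 24310462554) (nat_lit 2) (nat_lit 4) (nat_lit 3) (nat_lit 5) (nat_lit 3) (nat_lit 4) (nat_lit 440) (nat_lit 248) (nat_lit 212)) (XT.lf (nat_lit 0) (nat_lit 822693750063) (nat_lit 76) (nat_lit 25339558100)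 (nat_lit 76) (nat_lit 24123703962) (nat_lit 2) (nat_lit 4) (nat_lit 3) (nat_lit 5) (nat_lit 3) (nat_lit 4) (nat_lit 441) (nat_lit 248) (nat_lit 211)))) (XT.nd (nat_lit 43758) (nat_lit 0) (nat_lit 0) (XT.lf (nat_lit 0) (nat_lit 866577482649) (nat_lit 76) (nat_lit 25172563737) (nat_lit 76) (nat_lit 23945315547) (nat_lit 2) (nat_lit 4) (nat_lit 3) (nat_lit 5) (nat_lit 3) (nat_lit 4) (nat_lit 442) (nat_lit 248) (nat_lit 210)) (XT.nd (nat_lit 78) (nat_lit 0) (nat_lit 0) (XT.lf (nat_lit 0) (nat_lit 21265290596) (nat_lit 76) (nat_lit 22394192209) (nat_lit 76) (nat_lit 22394192209) (nat_lit 2) (nat_lit 4) (nat_lit 3) (nat_lit 5) (nat_lit 3) (nat_lit 4) (nat_lit 402) (nat_lit 249) (nat_lit 249)) (XT.lf (nat_lit 0) (nat_lit 51108113492) (nat_lit 76) (nat_lit 43757133776) (nat_lit 76) (nat_lit 43684377314) (nat_lit 2) (nat_lit 4) (nat_lit 3) (nat_lit 5) (nat_lit 3) (nat_lit 4) (nat_lit 403) (nat_lit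 249) (nat_lit 248))))) (XT.nd (nat_lit 234) (nat_lit 0) (nat_lit 0) (XT.nd (nat_lit 78) (nat_lit 0) (nat_lit 0) (XT.lf (nat_lit 0) (nat_lit 59911380216) (nat_lit 76) (nat_lit 42774908388) (nat_lit 76) (nat_lit 42632860058) (nat_lit 2) (nat_lit 4) (nat_lit 3) (nat_lit 5) (nat_lit 3) (nat_lit 4) (nat_lit 404) (nat_lit 249) (nat_lit 247)) (XT.nd (nat_lit 78) (nat_lit 0) (nat_lit 0) (XT.lf (nat_lit 0) (nat_lit 68961341522) (nat_lit 76) (nat_lit 41839369623) (nat_lit 76) (nat_lit 41631329037) (nat_lit 2) (nat_lit 4) (nat_lit 3) (nat_lit 5) (nat_lit 3) (nat_lit 4) (nat_lit 405) (nat_lit 249) (nat_lit 246)) (XT.lf (nat_lit 0) (nat_lit 78279544937) (nat_lit 76) (nat_lit 40948290008) (nat_lit 76) (nat_lit 40677399655) (nat_lit 2) (nat_lit 4) (nat_lit 3) (nat_lit 5) (nat_lit 3) (nat_lit 4) (nat_lit 406) (nat_lit 249) (nat_lit 245)))) (XT.nd (nat_lit 78) (nat_lit 0) (nat_lit 0) (XT.lf (nat_lit 0)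 (nat_lit 87888176661) (nat_lit 76) (nat_lit 40099547924) (nat_lit 76) (nat_lit 39768800651) (nat_lit 2) (nat_lit 4) (nat_lit 3) (nat_lit 5) (nat_lit 3) (nat_lit 4) (nat_lit 407) (nat_lit 249) (nat_lit 244)) (XT.nd (nat_lit 78) (nat_lit 0) (nat_lit 0) (XT.lf (nat_lit 0) (nat_lit 97810114388) (nat_lit 76) (nat_lit 39291122558) (nat_lit 76) (nat_lit 38903368693) (nat_lit 2) (nat_lit 4) (nat_lit 3) (nat_lit 5) (nat_lit 3) (nat_lit 4) (nat_lit 408) (nat_lit 249) (nat_lit 243)) (XT.lf (nat_lit 0) (nat_lit 108068981779) (nat_lit 76) (nat_lit 38521089087) (nat_lit 76) (nat_lit 38079043230) (nat_lit 2) (nat_lit 4) (nat_lit 3) (nat_lit 5) (nat_lit 3) (nat_lit 4) (nat_lit 409) (nat_lit 249) (nat_lit 242)))))) (XT.nd (nat_lit 468) (nat_lit 0) (nat_lit 0) (XT.nd (nat_lit 234) (nat_lit 0) (nat_lit 0) (XT.nd (nat_lit 78) (nat_lit 0) (nat_lit 0) (XT.lf (nat_lit 0) (nat_lit 118689204709) (nat_lit 76) (nat_lit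 37787614097) (nat_lit 76) (nat_lit 37293861581) (nat_lit 2) (nat_lit 4) (nat_lit 3) (nat_lit 5) (nat_lit 3) (nat_lit 4) (nat_lit 410) (nat_lit 249) (nat_lit 241)) (XT.nd (nat_lit 78) (nat_lit 0) (nat_lit 0) (XT.lf (nat_lit 0) (nat_lit 129696069423) (nat_lit 76) (nat_lit 37088951221) (nat_lit 76) (nat_lit 36545954267) (nat_lit 2) (nat_lit 4) (nat_lit 3) (nat_lit 5) (nat_lit 3) (nat_lit 4) (nat_lit 411) (nat_lit 249) (nat_lit 240)) (XT.lf (nat_lit 0) (nat_lit 141115782741) (nat_lit 76) (nat_lit 36423436974) (nat_lit 76) (nat_lit 35833540556) (nat_lit 2) (nat_lit 4) (nat_lit 3) (nat_lit 5) (nat_lit 3) (nat_lit 4) (nat_lit 412) (nat_lit 249) (nat_lit 239)))) (XT.nd (nat_lit 78) (nat_lit 0) (nat_lit 0) (XT.lf (nat_lit 0) (nat_lit 152975534458) (nat_lit 76) (nat_lit 35789486799) (nat_lit 76) (nat_lit 35154924225) (nat_lit 2) (nat_lit 4) (nat_lit 3) (nat_lit 5) (nat_lit 3) (nat_lit 4) (nat_lit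 413) (nat_lit 249) (nat_lit 238)) (XT.nd (nat_lit 78) (nat_lit 0) (nat_lit 0) (XT.lf (nat_lit 0) (nat_lit 165303562076) (nat_lit 76) (nat_lit 35185591291) (nat_lit 76) (nat_lit 34508489521) (nat_lit 2) (nat_lit 4) (nat_lit 3) (nat_lit 5) (nat_lit 3) (nat_lit 4) (nat_lit 414) (nat_lit 249) (nat_lit 237)) (XT.lf (nat_lit 0) (nat_lit 178129218044) (nat_lit 76) (nat_lit 34610312603) (nat_lit 76) (nat_lit 33892697313) (nat_lit 2) (nat_lit 4) (nat_lit 3) (nat_lit 5) (nat_lit 3) (nat_lit 4) (nat_lit 415) (nat_lit 249) (nat_lit 236))))) (XT.nd (nat_lit 234) (nat_lit 0) (nat_lit 0) (XT.nd (nat_lit 78) (nat_lit 0) (nat_lit 0) (XT.lf (nat_lit 0) (nat_lit 191483039638) (nat_lit 76) (nat_lit 34062281025) (nat_lit 76) (nat_lit 33306081430) (nat_lit 2) (nat_lit 4) (nat_lit 3) (nat_lit 5) (nat_lit 3) (nat_lit 4) (nat_lit 416) (nat_lit 249) (nat_lit 235)) (XT.nd (nat_lit 78) (nat_lit 0) (nat_lit 0) (XT.lf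 (nat_lit 0) (nat_lit 205396821669) (nat_lit 76) (nat_lit 33540191719) (nat_lit 76) (nat_lit 32747245166) (nat_lit 2) (nat_lit 4) (nat_lit 3) (nat_lit 5) (nat_lit 3) (nat_lit 4) (nat_lit 417) (nat_lit 249) (nat_lit 234)) (XT.lf (nat_lit 0) (nat_lit 219903692192) (nat_lit 76) (nat_lit 33042801615) (nat_lit 76) (nat_lit 32214857961) (nat_lit 2) (nat_lit 4) (nat_lit 3) (nat_lit 5) (nat_lit 3) (nat_lit 4) (nat_lit 418) (nat_lit 249) (nat_lit 233)))) (XT.nd (nat_lit 78) (nat_lit 0) (nat_lit 0) (XT.lf (nat_lit 0) (nat_lit 235038191373) (nat_lit 76) (nat_lit 32568926451) (nat_lit 76) (nat_lit 31707652224) (nat_lit 2) (nat_lit 4) (nat_lit 3) (nat_lit 5) (nat_lit 3) (nat_lit 4) (nat_lit 419) (nat_lit 249) (nat_lit 232)) (XT.nd (nat_lit 78) (nat_lit 0) (nat_lit 0) (XT.lf (nat_lit 0) (nat_lit 250836353736) (nat_lit 76) (nat_lit 32117437954) (nat_lit 76) (nat_lit 31224420323) (nat_lit 2) (nat_lit 4)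 (nat_lit 3) (nat_lit 5) (nat_lit 3) (nat_lit 4) (nat_lit 420) (nat_lit 249) (nat_lit 231)) (XT.lf (nat_lit 0) (nat_lit 267335793951) (nat_lit 76) (nat_lit 31687261150) (nat_lit 76) (nat_lit 30764011706) (nat_lit 2) (nat_lit 4) (nat_lit 3) (nat_lit 5) (nat_lit 3) (nat_lit 4) (nat_lit 421) (nat_lit 249) (nat_lit 230))))))) (XT.nd (nat_lit 936) (nat_lit 0) (nat_lit 0) (XT.nd (nat_lit 468) (nat_lit 0) (nat_lit 0) (XT.nd (nat_lit 234) (nat_lit 0) (nat_lit 0) (XT.nd (nat_lit 78) (nat_lit 0) (nat_lit 0) (XT.lf (nat_lit 0) (nat_lit 284575796400) (nat_lit 76) (nat_lit 31277371809) (nat_lit 76) (nat_lit 30325330163) (nat_lit 2) (nat_lit 4) (nat_lit 3) (nat_lit 5) (nat_lit 3) (nat_lit 4) (nat_lit 422) (nat_lit 249) (nat_lit 229)) (XT.nd (nat_lit 78) (nat_lit 0) (nat_lit 0) (XT.lf (nat_lit 0) (nat_lit 302597408709) (nat_lit 76) (nat_lit 30886794004) (nat_lit 76) (nat_lit 29907331212) (nat_lit 2) (nat_lit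 4) (nat_lit 3) (nat_lit 5) (nat_lit 3) (nat_lit 4) (nat_lit 423) (nat_lit 249) (nat_lit 228)) (XT.lf (nat_lit 0) (nat_lit 321443539478) (nat_lit 76) (nat_lit 30514597787) (nat_lit 76) (nat_lit 29509019619) (nat_lit 2) (nat_lit 4) (nat_lit 3) (nat_lit 5) (nat_lit 3) (nat_lit 4) (nat_lit 424) (nat_lit 249) (nat_lit 227)))) (XT.nd (nat_lit 78) (nat_lit 0) (nat_lit 0) (XT.lf (nat_lit 0) (nat_lit 341159060448) (nat_lit 76) (nat_lit 30159896978) (nat_lit 76) (nat_lit 29129447023) (nat_lit 2) (nat_lit 4) (nat_lit 3) (nat_lit 5) (nat_lit 3) (nat_lit 4) (nat_lit 425) (nat_lit 249) (nat_lit 226)) (XT.nd (nat_lit 78) (nat_lit 0) (nat_lit 0) (XT.lf (nat_lit 0) (nat_lit 361790913333) (nat_lit 76) (nat_lit 29821847051) (nat_lit 76) (nat_lit 28767709679) (nat_lit 2) (nat_lit 4) (nat_lit 3) (nat_lit 5) (nat_lit 3) (nat_lit 4) (nat_lit 426) (nat_lit 249) (nat_lit 225)) (XT.lf (nat_lit 0) (nat_lit 383388221595)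 (nat_lit 76) (nat_lit 29499643124) (nat_lit 76) (nat_lit 28422946309) (nat_lit 2) (nat_lit 4) (nat_lit 3) (nat_lit 5) (nat_lit 3) (nat_lit 4) (nat_lit 427) (nat_lit 249) (nat_lit 224))))) (XT.nd (nat_lit 234) (nat_lit 0) (nat_lit 0) (XT.nd (nat_lit 78) (nat_lit 0) (nat_lit 0) (XT.lf (nat_lit 0) (nat_lit 406002407395) (nat_lit 76) (nat_lit 29192518046) (nat_lit 76) (nat_lit 28094336046) (nat_lit 2) (nat_lit 4) (nat_lit 3) (nat_lit 5) (nat_lit 3) (nat_lit 4) (nat_lit 428) (nat_lit 249) (nat_lit 223)) (XT.nd (nat_lit 78) (nat_lit 0) (nat_lit 0) (XT.lf (nat_lit 0) (nat_lit 429687314033) (nat_lit 76) (nat_lit 28899740566) (nat_lit 76) (nat_lit 27781096485) (nat_lit 2) (nat_lit 4) (nat_lit 3) (nat_lit 5) (nat_lit 3) (nat_lit 4) (nat_lit 429) (nat_lit 249) (nat_lit 222)) (XT.lf (nat_lit 0) (nat_lit 454499334143) (nat_lit 76) (nat_lit 28620613596) (nat_lit 76) (nat_lit 27482481819) (nat_lit 2)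 (nat_lit 4) (nat_lit 3) (nat_lit 5) (nat_lit 3) (nat_lit 4) (nat_lit 430) (nat_lit 249) (nat_lit 221)))) (XT.nd (nat_lit 78) (nat_lit 0) (nat_lit 0) (XT.lf (nat_lit 0) (nat_lit 480497543965) (nat_lit 76) (nat_lit 28354472546) (nat_lit 76) (nat_lit 27197781059) (nat_lit 2) (nat_lit 4) (nat_lit 3) (nat_lit 5) (nat_lit 3) (nat_lit 4) (nat_lit 431) (nat_lit 249) (nat_lit 220)) (XT.nd (nat_lit 78) (nat_lit 0) (nat_lit 0) (XT.lf (nat_lit 0) (nat_lit 507743843998) (nat_lit 76) (nat_lit 28100683749) (nat_lit 76) (nat_lit 26926316347) (nat_lit 2) (nat_lit 4) (nat_lit 3) (nat_lit 5) (nat_lit 3) (nat_lit 4) (nat_lit 432) (nat_lit 249) (nat_lit 219)) (XT.lf (nat_lit 0) (nat_lit 536303106384) (nat_lit 76) (nat_lit 27858642944) (nat_lit 76) (nat_lit 26667441338) (nat_lit 2) (nat_lit 4) (nat_lit 3) (nat_lit 5) (nat_lit 3) (nat_lit 4) (nat_lit 433) (nat_lit 249) (nat_lit 218)))))) (XT.nd (nat_lit 468)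 (nat_lit 0) (nat_lit 0) (XT.nd (nat_lit 234) (nat_lit 0) (nat_lit 0) (XT.nd (nat_lit 78) (nat_lit 0) (nat_lit 0) (XT.lf (nat_lit 0) (nat_lit 566243329367) (nat_lit 76) (nat_lit 27627773845) (nat_lit 76) (nat_lit 26420539663) (nat_lit 2) (nat_lit 4) (nat_lit 3) (nat_lit 5) (nat_lit 3) (nat_lit 4) (nat_lit 434) (nat_lit 249) (nat_lit 217)) (XT.nd (nat_lit 78) (nat_lit 0) (nat_lit 0) (XT.lf (nat_lit 0) (nat_lit 597635799194) (nat_lit 76) (nat_lit 27407526763) (nat_lit 76) (nat_lit 26185023461) (nat_lit 2) (nat_lit 4) (nat_lit 3) (nat_lit 5) (nat_lit 3) (nat_lit 4) (nat_lit 435) (nat_lit 249) (nat_lit 216)) (XT.lf (nat_lit 0) (nat_lit 630555259838) (nat_lit 76) (nat_lit 27197377300) (nat_lit 76) (nat_lit 25960331980) (nat_lit 2) (nat_lit 4) (nat_lit 3) (nat_lit 5) (nat_lit 3) (nat_lit 4) (nat_lit 436) (nat_lit 249) (nat_lit 215)))) (XT.nd (nat_lit 78) (nat_lit 0) (nat_lit 0) (XT.lf (nat_lit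 0) (nat_lit 665080090969) (nat_lit 76) (nat_lit 26996825100) (nat_lit 76) (nat_lit 25745930238) (nat_lit 2) (nat_lit 4) (nat_lit 3) (nat_lit 5) (nat_lit 3) (nat_lit 4) (nat_lit 437) (nat_lit 249) (nat_lit 214)) (XT.nd (nat_lit 78) (nat_lit 0) (nat_lit 0) (XT.lf (nat_lit 0) (nat_lit 701292494566) (nat_lit 76) (nat_lit 26805392659) (nat_lit 76) (nat_lit 25541307757) (nat_lit 2) (nat_lit 4) (nat_lit 3) (nat_lit 5) (nat_lit 3) (nat_lit 4) (nat_lit 438) (nat_lit 249) (nat_lit 213)) (XT.lf (nat_lit 0) (nat_lit 739278690636) (nat_lit 76) (nat_lit 26622624184) (nat_lit 76) (nat_lit 25345977339) (nat_lit 2) (nat_lit 4) (nat_lit 3) (nat_lit 5) (nat_lit 3) (nat_lit 4) (nat_lit 439) (nat_lit 249) (nat_lit 212))))) (XT.nd (nat_lit 43758) (nat_lit 0) (nat_lit 0) (XT.nd (nat_lit 78) (nat_lit 0) (nat_lit 0) (XT.lf (nat_lit 0) (nat_lit 779129122505) (nat_lit 76) (nat_lit 26448084512) (nat_lit 76) (nat_lit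 25159473913) (nat_lit 2) (nat_lit 4) (nat_lit 3) (nat_lit 5) (nat_lit 3) (nat_lit 4) (nat_lit 440) (nat_lit 249) (nat_lit 211)) (XT.nd (nat_lit 78) (nat_lit 0) (nat_lit 0) (XT.lf (nat_lit 0) (nat_lit 820938672152) (nat_lit 76) (nat_lit 26281358073) (nat_lit 76) (nat_lit 24981353422) (nat_lit 2) (nat_lit 4) (nat_lit 3) (nat_lit 5) (nat_lit 3) (nat_lit 4) (nat_lit 441) (nat_lit 249) (nat_lit 210)) (XT.lf (nat_lit 0) (nat_lit 864806886125) (nat_lit 76) (nat_lit 26122047900) (nat_lit 76) (nat_lit 24811191770) (nat_lit 2) (nat_lit 4) (nat_lit 3) (nat_lit 5) (nat_lit 3) (nat_lit 4) (nat_lit 442) (nat_lit 249) (nat_lit 209)))) (XT.nd (nat_lit 156) (nat_lit 0) (nat_lit 0) (XT.nd (nat_lit 78) (nat_lit 0) (nat_lit 0) (XT.lf (nat_lit 0) (nat_lit 13040384390) (nat_lit 76) (nat_lit 23515101579) (nat_lit 76) (nat_lit 23515101579) (nat_lit 2) (nat_lit 4) (nat_lit 3) (nat_lit 5) (nat_lit 3) (nat_lit 4)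 (nat_lit 400) (nat_lit 250) (nat_lit 250)) (XT.lf (nat_lit 0) (nat_lit 34158360621) (nat_lit 76) (nat_lit 45947509960) (nat_lit 76) (nat_lit 45871115675) (nat_lit 2) (nat_lit 4) (nat_lit 3) (nat_lit 5) (nat_lit 3) (nat_lit 4) (nat_lit 401) (nat_lit 250) (nat_lit 249))) (XT.nd (nat_lit 78) (nat_lit 0) (nat_lit 0) (XT.lf (nat_lit 0) (nat_lit 42426532753) (nat_lit 76) (nat_lit 44916299277) (nat_lit 76) (nat_lit 44767148530) (nat_lit 2) (nat_lit 4) (nat_lit 3) (nat_lit 5) (nat_lit 3) (nat_lit 4) (nat_lit 402) (nat_lit 250) (nat_lit 248)) (XT.lf (nat_lit 0) (nat_lit 50904971301) (nat_lit 76) (nat_lit 43934115847) (nat_lit 76) (nat_lit 43715673233) (nat_lit 2) (nat_lit 4) (nat_lit 3) (nat_lit 5) (nat_lit 3) (nat_lit 4) (nat_lit 403) (nat_lit 250) (nat_lit 247))))))))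
noncomputable def xc9 : XT := (XT.nd (nat_lit 1950) (nat_lit 0) (nat_lit 0) (XT.nd (nat_lit 936) (nat_lit 0) (nat_lit 0) (XT.nd (nat_lit 468) (nat_lit 0) (nat_lit 0) (XT.nd (nat_lit 234) (nat_lit 0) (nat_lit 0) (XT.nd (nat_lit 78) (nat_lit 0) (nat_lit 0) (XT.lf (nat_lit 0) (nat_lit 59613863023) (nat_lit 76) (nat_lit 42998621139) (nat_lit 76) (nat_lit 42714186268) (nat_lit 2) (nat_lit 4) (nat_lit 3) (nat_lit 5) (nat_lit 3) (nat_lit 4) (nat_lit 404) (nat_lit 250) (nat_lit 246)) (XT.nd (nat_lit 78) (nat_lit 0) (nat_lit 0) (XT.lf (nat_lit 0) (nat_lit 68573943375) (nat_lit 76) (nat_lit 42107587783) (nat_lit 76) (nat_lit 41760303145) (nat_lit 2) (nat_lit 4) (nat_lit 3) (nat_lit 5) (nat_lit 3) (nat_lit 4) (nat_lit 405) (nat_lit 250) (nat_lit 245)) (XT.lf (nat_lit 0) (nat_lit 77806545882) (nat_lit 76) (nat_lit 41258894271) (nat_lit 76) (nat_lit 40851752713) (nat_lit 2) (nat_lit 4) (nat_lit 3) (nat_lit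 5) (nat_lit 3) (nat_lit 4) (nat_lit 406) (nat_lit 250) (nat_lit 244)))) (XT.nd (nat_lit 78) (nat_lit 0) (nat_lit 0) (XT.lf (nat_lit 0) (nat_lit 87333652931) (nat_lit 76) (nat_lit 40450519906) (nat_lit 76) (nat_lit 39986371755) (nat_lit 2) (nat_lit 4) (nat_lit 3) (nat_lit 5) (nat_lit 3) (nat_lit 4) (nat_lit 407) (nat_lit 250) (nat_lit 243)) (XT.nd (nat_lit 78) (nat_lit 0) (nat_lit 0) (XT.lf (nat_lit 0) (nat_lit 97177948111) (nat_lit 76) (nat_lit 39680539985) (nat_lit 76) (nat_lit 39162099843) (nat_lit 2) (nat_lit 4) (nat_lit 3) (nat_lit 5) (nat_lit 3) (nat_lit 4) (nat_lit 408) (nat_lit 250) (nat_lit 242)) (XT.lf (nat_lit 0) (nat_lit 107362870218) (nat_lit 76) (nat_lit 38947121223) (nat_lit 76) (nat_lit 38376974422) (nat_lit 2) (nat_lit 4) (nat_lit 3) (nat_lit 5) (nat_lit 3) (nat_lit 4) (nat_lit 409) (nat_lit 250) (nat_lit 241))))) (XT.nd (nat_lit 234) (nat_lit 0) (nat_lit 0) (XT.nd (nat_lit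 78) (nat_lit 0) (nat_lit 0) (XT.lf (nat_lit 0) (nat_lit 117912669069) (nat_lit 76) (nat_lit 38248517386) (nat_lit 76) (nat_lit 37629126148) (nat_lit 2) (nat_lit 4) (nat_lit 3) (nat_lit 5) (nat_lit 3) (nat_lit 4) (nat_lit 410) (nat_lit 250) (nat_lit 240)) (XT.nd (nat_lit 78) (nat_lit 0) (nat_lit 0) (XT.lf (nat_lit 0) (nat_lit 128852463231) (nat_lit 76) (nat_lit 37583065131) (nat_lit 76) (nat_lit 36916774429) (nat_lit 2) (nat_lit 4) (nat_lit 3) (nat_lit 5) (nat_lit 3) (nat_lit 4) (nat_lit 411) (nat_lit 250) (nat_lit 239)) (XT.lf (nat_lit 0) (nat_lit 140208299833) (nat_lit 76) (nat_lit 36949180047) (nat_lit 76) (nat_lit 36238223189) (nat_lit 2) (nat_lit 4) (nat_lit 3) (nat_lit 5) (nat_lit 3) (nat_lit 4) (nat_lit 412) (nat_lit 250) (nat_lit 238)))) (XT.nd (nat_lit 78) (nat_lit 0) (nat_lit 0) (XT.lf (nat_lit 0) (nat_lit 152007216582) (nat_lit 76) (nat_lit 36345352885) (nat_lit 76) (nat_lit 35591856830)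 (nat_lit 2) (nat_lit 4) (nat_lit 3) (nat_lit 5) (nat_lit 3) (nat_lit 4) (nat_lit 413) (nat_lit 250) (nat_lit 237)) (XT.nd (nat_lit 78) (nat_lit 0) (nat_lit 0) (XT.lf (nat_lit 0) (nat_lit 164277306137) (nat_lit 76) (nat_lit 35770145960) (nat_lit 76) (nat_lit 34976136385) (nat_lit 2) (nat_lit 4) (nat_lit 3) (nat_lit 5) (nat_lit 3) (nat_lit 4) (nat_lit 414) (nat_lit 250) (nat_lit 236)) (XT.lf (nat_lit 0) (nat_lit 177047782996) (nat_lit 76) (nat_lit 35222189733) (nat_lit 76) (nat_lit 34389595853) (nat_lit 2) (nat_lit 4) (nat_lit 3) (nat_lit 5) (nat_lit 3) (nat_lit 4) (nat_lit 415) (nat_lit 250) (nat_lit 235)))))) (XT.nd (nat_lit 468) (nat_lit 0) (nat_lit 0) (XT.nd (nat_lit 234) (nat_lit 0) (nat_lit 0) (XT.nd (nat_lit 78) (nat_lit 0) (nat_lit 0) (XT.lf (nat_lit 0) (nat_lit 190349053057) (nat_lit 76) (nat_lit 34700179545) (nat_lit 76) (nat_lit 33830838708) (nat_lit 2) (nat_lit 4) (nat_lit 3)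 (nat_lit 5) (nat_lit 3) (nat_lit 4) (nat_lit 416) (nat_lit 250) (nat_lit 234)) (XT.nd (nat_lit 78) (nat_lit 0) (nat_lit 0) (XT.lf (nat_lit 0) (nat_lit 204212786010) (nat_lit 76) (nat_lit 34202872516) (nat_lit 76) (nat_lit 33298534577) (nat_lit 2) (nat_lit 4) (nat_lit 3) (nat_lit 5) (nat_lit 3) (nat_lit 4) (nat_lit 417) (nat_lit 250) (nat_lit 233)) (XT.lf (nat_lit 0) (nat_lit 218671990744) (nat_lit 76) (nat_lit 33729084581) (nat_lit 76) (nat_lit 32791416068) (nat_lit 2) (nat_lit 4) (nat_lit 3) (nat_lit 5) (nat_lit 3) (nat_lit 4) (nat_lit 418) (nat_lit 250) (nat_lit 232)))) (XT.nd (nat_lit 78) (nat_lit 0) (nat_lit 0) (XT.lf (nat_lit 0) (nat_lit 233761093936) (nat_lit 76) (nat_lit 33277687673) (nat_lit 76) (nat_lit 32308275757) (nat_lit 2) (nat_lit 4) (nat_lit 3) (nat_lit 5) (nat_lit 3) (nat_lit 4) (nat_lit 419) (nat_lit 250) (nat_lit 231)) (XT.nd (nat_lit 78) (nat_lit 0) (nat_lit 0) (XT.lf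 (nat_lit 0) (nat_lit 249516022022) (nat_lit 76) (nat_lit 32847607038) (nat_lit 76) (nat_lit 31847963309) (nat_lit 2) (nat_lit 4) (nat_lit 3) (nat_lit 5) (nat_lit 3) (nat_lit 4) (nat_lit 420) (nat_lit 250) (nat_lit 230)) (XT.lf (nat_lit 0) (nat_lit 265974286737) (nat_lit 76) (nat_lit 32437818674) (nat_lit 76) (nat_lit 31409382743) (nat_lit 2) (nat_lit 4) (nat_lit 3) (nat_lit 5) (nat_lit 3) (nat_lit 4) (nat_lit 421) (nat_lit 250) (nat_lit 229))))) (XT.nd (nat_lit 234) (nat_lit 0) (nat_lit 0) (XT.nd (nat_lit 78) (nat_lit 0) (nat_lit 0) (XT.lf (nat_lit 0) (nat_lit 283175074424) (nat_lit 76) (nat_lit 32047346896) (nat_lit 76) (nat_lit 30991489820) (nat_lit 2) (nat_lit 4) (nat_lit 3) (nat_lit 5) (nat_lit 3) (nat_lit 4) (nat_lit 422) (nat_lit 250) (nat_lit 228)) (XT.nd (nat_lit 78) (nat_lit 0) (nat_lit 0) (XT.lf (nat_lit 0) (nat_lit 301159339340) (nat_lit 76) (nat_lit 31675262007) (nat_lit 76)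 (nat_lit 30593289555) (nat_lit 2) (nat_lit 4) (nat_lit 3) (nat_lit 5) (nat_lit 3) (nat_lit 4) (nat_lit 423) (nat_lit 250) (nat_lit 227)) (XT.lf (nat_lit 0) (nat_lit 319969901164) (nat_lit 76) (nat_lit 31320678092) (nat_lit 76) (nat_lit 30213833853) (nat_lit 2) (nat_lit 4) (nat_lit 3) (nat_lit 5) (nat_lit 3) (nat_lit 4) (nat_lit 424) (nat_lit 250) (nat_lit 226)))) (XT.nd (nat_lit 156) (nat_lit 0) (nat_lit 0) (XT.nd (nat_lit 78) (nat_lit 0) (nat_lit 0) (XT.lf (nat_lit 0) (nat_lit 339651546946) (nat_lit 76) (nat_lit 30982750904) (nat_lit 76) (nat_lit 29852219248) (nat_lit 2) (nat_lit 4) (nat_lit 3) (nat_lit 5) (nat_lit 3) (nat_lit 4) (nat_lit 425) (nat_lit 250) (nat_lit 225)) (XT.lf (nat_lit 0) (nat_lit 360251137750) (nat_lit 76) (nat_lit 30660675853) (nat_lit 76) (nat_lit 29507584753) (nat_lit 2) (nat_lit 4) (nat_lit 3) (nat_lit 5) (nat_lit 3) (nat_lit 4) (nat_lit 426) (nat_lit 250) (nat_lit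 224))) (XT.nd (nat_lit 78) (nat_lit 0) (nat_lit 0) (XT.lf (nat_lit 0) (nat_lit 381817720219) (nat_lit 76) (nat_lit 30353686094) (nat_lit 76) (nat_lit 29179109810) (nat_lit 2) (nat_lit 4) (nat_lit 3) (nat_lit 5) (nat_lit 3) (nat_lit 4) (nat_lit 427) (nat_lit 250) (nat_lit 223)) (XT.lf (nat_lit 0) (nat_lit 404402643360) (nat_lit 76) (nat_lit 30061050700) (nat_lit 76) (nat_lit 28866012335) (nat_lit 2) (nat_lit 4) (nat_lit 3) (nat_lit 5) (nat_lit 3) (nat_lit 4) (nat_lit 428) (nat_lit 250) (nat_lit 222))))))) (XT.nd (nat_lit 936) (nat_lit 0) (nat_lit 0) (XT.nd (nat_lit 468) (nat_lit 0) (nat_lit 0) (XT.nd (nat_lit 234) (nat_lit 0) (nat_lit 0) (XT.nd (nat_lit 78) (nat_lit 0) (nat_lit 0) (XT.lf (nat_lit 0) (nat_lit 428059680798) (nat_lit 76) (nat_lit 29782072920) (nat_lit 76) (nat_lit 28567546858) (nat_lit 2) (nat_lit 4) (nat_lit 3) (nat_lit 5) (nat_lit 3) (nat_lit 4) (nat_lit 429) (nat_lit 250)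 (nat_lit 221)) (XT.nd (nat_lit 78) (nat_lit 0) (nat_lit 0) (XT.lf (nat_lit 0) (nat_lit 452845158814) (nat_lit 76) (nat_lit 29516088520) (nat_lit 76) (nat_lit 28283002748) (nat_lit 2) (nat_lit 4) (nat_lit 3) (nat_lit 5) (nat_lit 3) (nat_lit 4) (nat_lit 430) (nat_lit 250) (nat_lit 220)) (XT.lf (nat_lit 0) (nat_lit 478818090450) (nat_lit 76) (nat_lit 29262464204) (nat_lit 76) (nat_lit 28011702518) (nat_lit 2) (nat_lit 4) (nat_lit 3) (nat_lit 5) (nat_lit 3) (nat_lit 4) (nat_lit 431) (nat_lit 250) (nat_lit 219)))) (XT.nd (nat_lit 78) (nat_lit 0) (nat_lit 0) (XT.lf (nat_lit 0) (nat_lit 506040316020) (nat_lit 76) (nat_lit 29020596106) (nat_lit 76) (nat_lit 27753000215) (nat_lit 2) (nat_lit 4) (nat_lit 3) (nat_lit 5) (nat_lit 3) (nat_lit 4) (nat_lit 432) (nat_lit 250) (nat_lit 218)) (XT.nd (nat_lit 78) (nat_lit 0) (nat_lit 0) (XT.lf (nat_lit 0) (nat_lit 534576650347) (nat_lit 76) (nat_lit 28789908348)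 (nat_lit 76) (nat_lit 27506279881) (nat_lit 2) (nat_lit 4) (nat_lit 3) (nat_lit 5) (nat_lit 3) (nat_lit 4) (nat_lit 433) (nat_lit 250) (nat_lit 217)) (XT.lf (nat_lit 0) (nat_lit 564495037083) (nat_lit 76) (nat_lit 28569851674) (nat_lit 76) (nat_lit 27270954088) (nat_lit 2) (nat_lit 4) (nat_lit 3) (nat_lit 5) (nat_lit 3) (nat_lit 4) (nat_lit 434) (nat_lit 250) (nat_lit 216))))) (XT.nd (nat_lit 234) (nat_lit 0) (nat_lit 0) (XT.nd (nat_lit 78) (nat_lit 0) (nat_lit 0) (XT.lf (nat_lit 0) (nat_lit 595866710483) (nat_lit 76) (nat_lit 28359902140) (nat_lit 76) (nat_lit 27046462535) (nat_lit 2) (nat_lit 4) (nat_lit 3) (nat_lit 5) (nat_lit 3) (nat_lit 4) (nat_lit 435) (nat_lit 250) (nat_lit 215)) (XT.nd (nat_lit 78) (nat_lit 0) (nat_lit 0) (XT.lf (nat_lit 0) (nat_lit 628766365008) (nat_lit 76) (nat_lit 28159559866) (nat_lit 76) (nat_lit 26832270719) (nat_lit 2) (nat_lit 4) (nat_lit 3) (nat_lit 5)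 (nat_lit 3) (nat_lit 4) (nat_lit 436) (nat_lit 250) (nat_lit 214)) (XT.lf (nat_lit 0) (nat_lit 663272333168) (nat_lit 76) (nat_lit 27968347845) (nat_lit 76) (nat_lit 26627868659) (nat_lit 2) (nat_lit 4) (nat_lit 3) (nat_lit 5) (nat_lit 3) (nat_lit 4) (nat_lit 437) (nat_lit 250) (nat_lit 213)))) (XT.nd (nat_lit 78) (nat_lit 0) (nat_lit 0) (XT.lf (nat_lit 0) (nat_lit 699466772030) (nat_lit 76) (nat_lit 27785810813) (nat_lit 76) (nat_lit 26432769684) (nat_lit 2) (nat_lit 4) (nat_lit 3) (nat_lit 5) (nat_lit 3) (nat_lit 4) (nat_lit 438) (nat_lit 250) (nat_lit 212)) (XT.nd (nat_lit 78) (nat_lit 0) (nat_lit 0) (XT.lf (nat_lit 0) (nat_lit 737435858830) (nat_lit 76) (nat_lit 27611514156) (nat_lit 76) (nat_lit 26246509272) (nat_lit 2) (nat_lit 4) (nat_lit 3) (nat_lit 5) (nat_lit 3) (nat_lit 4) (nat_lit 439) (nat_lit 250) (nat_lit 211)) (XT.lf (nat_lit 0) (nat_lit 777269996154) (nat_lit 76) (nat_lit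 27445042883) (nat_lit 76) (nat_lit 26068643946) (nat_lit 2) (nat_lit 4) (nat_lit 3) (nat_lit 5) (nat_lit 3) (nat_lit 4) (nat_lit 440) (nat_lit 250) (nat_lit 210)))))) (XT.nd (nat_lit 43836) (nat_lit 0) (nat_lit 0) (XT.nd (nat_lit 43602) (nat_lit 0) (nat_lit 0) (XT.nd (nat_lit 78) (nat_lit 0) (nat_lit 0) (XT.lf (nat_lit 0) (nat_lit 819064027189) (nat_lit 76) (nat_lit 27286000633) (nat_lit 76) (nat_lit 25898750218) (nat_lit 2) (nat_lit 4) (nat_lit 3) (nat_lit 5) (nat_lit 3) (nat_lit 4) (nat_lit 441) (nat_lit 250) (nat_lit 209)) (XT.nd (nat_lit 43446) (nat_lit 0) (nat_lit 0) (XT.lf (nat_lit 0) (nat_lit 862917461530) (nat_lit 76) (nat_lit 27134008734) (nat_lit 76) (nat_lit 25736423578) (nat_lit 2) (nat_lit 4) (nat_lit 3) (nat_lit 5) (nat_lit 3) (nat_lit 4) (nat_lit 442) (nat_lit 250) (nat_lit 208)) (XT.lf (nat_lit 0) (nat_lit 5267758951) (nat_lit 76) (nat_lit 24691944875) (nat_lit 76) (nat_lit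 24691944875) (nat_lit 2) (nat_lit 4) (nat_lit 3) (nat_lit 5) (nat_lit 3) (nat_lit 4) (nat_lit 398) (nat_lit 251) (nat_lit 251)))) (XT.nd (nat_lit 78) (nat_lit 0) (nat_lit 0) (XT.lf (nat_lit 0) (nat_lit 18174524869) (nat_lit 76) (nat_lit 48247170714) (nat_lit 76) (nat_lit 48166956715) (nat_lit 2) (nat_lit 4) (nat_lit 3) (nat_lit 5) (nat_lit 3) (nat_lit 4) (nat_lit 399) (nat_lit 251) (nat_lit 250)) (XT.nd (nat_lit 78) (nat_lit 0) (nat_lit 0) (XT.lf (nat_lit 0) (nat_lit 25971517919) (nat_lit 76) (nat_lit 47164513760) (nat_lit 76) (nat_lit 47007905476) (nat_lit 2) (nat_lit 4) (nat_lit 3) (nat_lit 5) (nat_lit 3) (nat_lit 4) (nat_lit 400) (nat_lit 251) (nat_lit 249)) (XT.lf (nat_lit 0) (nat_lit 33945061320) (nat_lit 76) (nat_lit 46133341135) (nat_lit 76) (nat_lit 45903976389) (nat_lit 2) (nat_lit 4) (nat_lit 3) (nat_lit 5) (nat_lit 3) (nat_lit 4) (nat_lit 401) (nat_lit 251) (nat_lit 248)))))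 (XT.nd (nat_lit 234) (nat_lit 0) (nat_lit 0) (XT.nd (nat_lit 78) (nat_lit 0) (nat_lit 0) (XT.lf (nat_lit 0) (nat_lit 42114139701) (nat_lit 76) (nat_lit 45151197666) (nat_lit 76) (nat_lit 44852541052) (nat_lit 2) (nat_lit 4) (nat_lit 3) (nat_lit 5) (nat_lit 3) (nat_lit 4) (nat_lit 402) (nat_lit 251) (nat_lit 247)) (XT.nd (nat_lit 78) (nat_lit 0) (nat_lit 0) (XT.lf (nat_lit 0) (nat_lit 50498203247) (nat_lit 76) (nat_lit 44215744915) (nat_lit 76) (nat_lit 43851096046) (nat_lit 2) (nat_lit 4) (nat_lit 3) (nat_lit 5) (nat_lit 3) (nat_lit 4) (nat_lit 403) (nat_lit 251) (nat_lit 246)) (XT.lf (nat_lit 0) (nat_lit 59117214015) (nat_lit 76) (nat_lit 43324755615) (nat_lit 76) (nat_lit 42897256979) (nat_lit 2) (nat_lit 4) (nat_lit 3) (nat_lit 5) (nat_lit 3) (nat_lit 4) (nat_lit 404) (nat_lit 251) (nat_lit 245)))) (XT.nd (nat_lit 156) (nat_lit 0) (nat_lit 0) (XT.nd (nat_lit 78) (nat_lit 0) (nat_lit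 0) (XT.lf (nat_lit 0) (nat_lit 67991693458) (nat_lit 76) (nat_lit 42476108363) (nat_lit 76) (nat_lit 41988752805) (nat_lit 2) (nat_lit 4) (nat_lit 3) (nat_lit 5) (nat_lit 3) (nat_lit 4) (nat_lit 405) (nat_lit 251) (nat_lit 244)) (XT.lf (nat_lit 0) (nat_lit 77142771291) (nat_lit 76) (nat_lit 41667782569) (nat_lit 76) (nat_lit 41123420420) (nat_lit 2) (nat_lit 4) (nat_lit 3) (nat_lit 5) (nat_lit 3) (nat_lit 4) (nat_lit 406) (nat_lit 251) (nat_lit 243))) (XT.nd (nat_lit 78) (nat_lit 0) (nat_lit 0) (XT.lf (nat_lit 0) (nat_lit 86592235792) (nat_lit 76) (nat_lit 40897853649) (nat_lit 76) (nat_lit 40299199508) (nat_lit 2) (nat_lit 4) (nat_lit 3) (nat_lit 5) (nat_lit 3) (nat_lit 4) (nat_lit 407) (nat_lit 251) (nat_lit 242)) (XT.lf (nat_lit 0) (nat_lit 96362585689) (nat_lit 76) (nat_lit 40164488438) (nat_lit 76) (nat_lit 39514127638) (nat_lit 2) (nat_lit 4) (nat_lit 3) (nat_lit 5) (nat_lit 3) (nat_lit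 4) (nat_lit 408) (nat_lit 251) (nat_lit 241))))))))
noncomputable def xc10 : XT := (XT.nd (nat_lit 1872) (nat_lit 0) (nat_lit 0) (XT.nd (nat_lit 936) (nat_lit 0) (nat_lit 0) (XT.nd (nat_lit 468) (nat_lit 0) (nat_lit 0) (XT.nd (nat_lit 234) (nat_lit 0) (nat_lit 0) (XT.nd (nat_lit 78) (nat_lit 0) (nat_lit 0) (XT.lf (nat_lit 0) (nat_lit 106477083717) (nat_lit 76) (nat_lit 39465940829) (nat_lit 76) (nat_lit 38766335592) (nat_lit 2) (nat_lit 4) (nat_lit 3) (nat_lit 5) (nat_lit 3) (nat_lit 4) (nat_lit 409) (nat_lit 251) (nat_lit 240)) (XT.nd (nat_lit 78) (nat_lit 0) (nat_lit 0) (XT.lf (nat_lit 0) (nat_lit 116959812016) (nat_lit 76) (nat_lit 38800547613) (nat_lit 76) (nat_lit 38054042912) (nat_lit 2) (nat_lit 4) (nat_lit 3) (nat_lit 5) (nat_lit 3) (nat_lit 4) (nat_lit 410) (nat_lit 251) (nat_lit 239)) (XT.lf (nat_lit 0) (nat_lit 127835729462) (nat_lit 76) (nat_lit 38166724521) (nat_lit 76) (nat_lit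 37375553664) (nat_lit 2) (nat_lit 4) (nat_lit 3) (nat_lit 5) (nat_lit 3) (nat_lit 4) (nat_lit 411) (nat_lit 251) (nat_lit 238)))) (XT.nd (nat_lit 78) (nat_lit 0) (nat_lit 0) (XT.lf (nat_lit 0) (nat_lit 139130731096) (nat_lit 76) (nat_lit 37562962450) (nat_lit 76) (nat_lit 36729252396) (nat_lit 2) (nat_lit 4) (nat_lit 3) (nat_lit 5) (nat_lit 3) (nat_lit 4) (nat_lit 412) (nat_lit 251) (nat_lit 237)) (XT.nd (nat_lit 78) (nat_lit 0) (nat_lit 0) (XT.lf (nat_lit 0) (nat_lit 150871709781) (nat_lit 76) (nat_lit 36987823871) (nat_lit 76) (nat_lit 36113600297) (nat_lit 2) (nat_lit 4) (nat_lit 3) (nat_lit 5) (nat_lit 3) (nat_lit 4) (nat_lit 413) (nat_lit 251) (nat_lit 236)) (XT.lf (nat_lit 0) (nat_lit 163086620227) (nat_lit 76) (nat_lit 36439939406) (nat_lit 76) (nat_lit 35527131527) (nat_lit 2) (nat_lit 4) (nat_lit 3) (nat_lit 5) (nat_lit 3) (nat_lit 4) (nat_lit 414) (nat_lit 251) (nat_lit 235)))))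 (XT.nd (nat_lit 234) (nat_lit 0) (nat_lit 0) (XT.nd (nat_lit 78) (nat_lit 0) (nat_lit 0) (XT.lf (nat_lit 0) (nat_lit 175804545554) (nat_lit 76) (nat_lit 35918004570) (nat_lit 76) (nat_lit 34968449734) (nat_lit 2) (nat_lit 4) (nat_lit 3) (nat_lit 5) (nat_lit 3) (nat_lit 4) (nat_lit 415) (nat_lit 251) (nat_lit 234)) (XT.nd (nat_lit 78) (nat_lit 0) (nat_lit 0) (XT.lf (nat_lit 0) (nat_lit 189055766536) (nat_lit 76) (nat_lit 35420776659) (nat_lit 76) (nat_lit 34436224721) (nat_lit 2) (nat_lit 4) (nat_lit 3) (nat_lit 5) (nat_lit 3) (nat_lit 4) (nat_lit 416) (nat_lit 251) (nat_lit 233)) (XT.lf (nat_lit 0) (nat_lit 202871833701) (nat_lit 76) (nat_lit 34947071798) (nat_lit 76) (nat_lit 33929189287) (nat_lit 2) (nat_lit 4) (nat_lit 3) (nat_lit 5) (nat_lit 3) (nat_lit 4) (nat_lit 417) (nat_lit 251) (nat_lit 232)))) (XT.nd (nat_lit 78) (nat_lit 0) (nat_lit 0) (XT.lf (nat_lit 0) (nat_lit 217285642445)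 (nat_lit 76) (nat_lit 34495762119) (nat_lit 76) (nat_lit 33446136204) (nat_lit 2) (nat_lit 4) (nat_lit 3) (nat_lit 5) (nat_lit 3) (nat_lit 4) (nat_lit 418) (nat_lit 251) (nat_lit 231)) (XT.nd (nat_lit 78) (nat_lit 0) (nat_lit 0) (XT.lf (nat_lit 0) (nat_lit 232331511361) (nat_lit 76) (nat_lit 34065773074) (nat_lit 76) (nat_lit 32985915346) (nat_lit 2) (nat_lit 4) (nat_lit 3) (nat_lit 5) (nat_lit 3) (nat_lit 4) (nat_lit 419) (nat_lit 251) (nat_lit 230)) (XT.lf (nat_lit 0) (nat_lit 248045263947) (nat_lit 76) (nat_lit 33656080879) (nat_lit 76) (nat_lit 32547430949) (nat_lit 2) (nat_lit 4) (nat_lit 3) (nat_lit 5) (nat_lit 3) (nat_lit 4) (nat_lit 420) (nat_lit 251) (nat_lit 229)))))) (XT.nd (nat_lit 468) (nat_lit 0) (nat_lit 0) (XT.nd (nat_lit 234) (nat_lit 0) (nat_lit 0) (XT.nd (nat_lit 78) (nat_lit 0) (nat_lit 0) (XT.lf (nat_lit 0) (nat_lit 264464313899) (nat_lit 76) (nat_lit 33265710078) (nat_lit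 76) (nat_lit 32129639003) (nat_lit 2) (nat_lit 4) (nat_lit 3) (nat_lit 5) (nat_lit 3) (nat_lit 4) (nat_lit 421) (nat_lit 251) (nat_lit 228)) (XT.nd (nat_lit 78) (nat_lit 0) (nat_lit 0) (XT.lf (nat_lit 0) (nat_lit 281627754193) (nat_lit 76) (nat_lit 32893731216) (nat_lit 76) (nat_lit 31731544764) (nat_lit 2) (nat_lit 4) (nat_lit 3) (nat_lit 5) (nat_lit 3) (nat_lit 4) (nat_lit 422) (nat_lit 251) (nat_lit 227)) (XT.lf (nat_lit 0) (nat_lit 299576450164) (nat_lit 76) (nat_lit 32539258629) (nat_lit 76) (nat_lit 31352200390) (nat_lit 2) (nat_lit 4) (nat_lit 3) (nat_lit 5) (nat_lit 3) (nat_lit 4) (nat_lit 423) (nat_lit 251) (nat_lit 226)))) (XT.nd (nat_lit 78) (nat_lit 0) (nat_lit 0) (XT.lf (nat_lit 0) (nat_lit 318353136801) (nat_lit 76) (nat_lit 32201448335) (nat_lit 76) (nat_lit 30990702680) (nat_lit 2) (nat_lit 4) (nat_lit 3) (nat_lit 5) (nat_lit 3) (nat_lit 4) (nat_lit 424) (nat_lit 251) (nat_lit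 225)) (XT.nd (nat_lit 78) (nat_lit 0) (nat_lit 0) (XT.lf (nat_lit 0) (nat_lit 338002520502) (nat_lit 76) (nat_lit 31879496023) (nat_lit 76) (nat_lit 30646190924) (nat_lit 2) (nat_lit 4) (nat_lit 3) (nat_lit 5) (nat_lit 3) (nat_lit 4) (nat_lit 425) (nat_lit 251) (nat_lit 224)) (XT.lf (nat_lit 0) (nat_lit 358571385513) (nat_lit 76) (nat_lit 31572635140) (nat_lit 76) (nat_lit 30317844856) (nat_lit 2) (nat_lit 4) (nat_lit 3) (nat_lit 5) (nat_lit 3) (nat_lit 4) (nat_lit 426) (nat_lit 251) (nat_lit 223))))) (XT.nd (nat_lit 234) (nat_lit 0) (nat_lit 0) (XT.nd (nat_lit 78) (nat_lit 0) (nat_lit 0) (XT.lf (nat_lit 0) (nat_lit 380108705322) (nat_lit 76) (nat_lit 31280135066) (nat_lit 76) (nat_lit 30004882701) (nat_lit 2) (nat_lit 4) (nat_lit 3) (nat_lit 5) (nat_lit 3) (nat_lit 4) (nat_lit 427) (nat_lit 251) (nat_lit 222)) (XT.nd (nat_lit 78) (nat_lit 0) (nat_lit 0) (XT.lf (nat_lit 0) (nat_lit 402665759263)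 (nat_lit 76) (nat_lit 31001299371) (nat_lit 76) (nat_lit 29706559310) (nat_lit 2) (nat_lit 4) (nat_lit 3) (nat_lit 5) (nat_lit 3) (nat_lit 4) (nat_lit 428) (nat_lit 251) (nat_lit 221)) (XT.lf (nat_lit 0) (nat_lit 426296254607) (nat_lit 76) (nat_lit 30735464161) (nat_lit 76) (nat_lit 29422164390) (nat_lit 2) (nat_lit 4) (nat_lit 3) (nat_lit 5) (nat_lit 3) (nat_lit 4) (nat_lit 429) (nat_lit 251) (nat_lit 220)))) (XT.nd (nat_lit 78) (nat_lit 0) (nat_lit 0) (XT.lf (nat_lit 0) (nat_lit 451056454437) (nat_lit 76) (nat_lit 30481996495) (nat_lit 76) (nat_lit 29151020809) (nat_lit 2) (nat_lit 4) (nat_lit 3) (nat_lit 5) (nat_lit 3) (nat_lit 4) (nat_lit 430) (nat_lit 251) (nat_lit 219)) (XT.nd (nat_lit 78) (nat_lit 0) (nat_lit 0) (XT.lf (nat_lit 0) (nat_lit 477005311611) (nat_lit 76) (nat_lit 30240292878) (nat_lit 76) (nat_lit 28892482988) (nat_lit 2) (nat_lit 4) (nat_lit 3) (nat_lit 5) (nat_lit 3)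 (nat_lit 4) (nat_lit 431) (nat_lit 251) (nat_lit 218)) (XT.lf (nat_lit 0) (nat_lit 504204609121) (nat_lit 76) (nat_lit 30009777826) (nat_lit 76) (nat_lit 28645935361) (nat_lit 2) (nat_lit 4) (nat_lit 3) (nat_lit 5) (nat_lit 3) (nat_lit 4) (nat_lit 432) (nat_lit 251) (nat_lit 217))))))) (XT.nd (nat_lit 44148) (nat_lit 0) (nat_lit 0) (XT.nd (nat_lit 468) (nat_lit 0) (nat_lit 0) (XT.nd (nat_lit 234) (nat_lit 0) (nat_lit 0) (XT.nd (nat_lit 78) (nat_lit 0) (nat_lit 0) (XT.lf (nat_lit 0) (nat_lit 532719107201) (nat_lit 76) (nat_lit 29789902494) (nat_lit 76) (nat_lit 28410790908) (nat_lit 2) (nat_lit 4) (nat_lit 3) (nat_lit 5) (nat_lit 3) (nat_lit 4) (nat_lit 433) (nat_lit 251) (nat_lit 216)) (XT.nd (nat_lit 78) (nat_lit 0) (nat_lit 0) (XT.lf (nat_lit 0) (nat_lit 562616697512) (nat_lit 76) (nat_lit 29580143368) (nat_lit 76) (nat_lit 28186489764) (nat_lit 2) (nat_lit 4) (nat_lit 3) (nat_lit 5)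 (nat_lit 3) (nat_lit 4) (nat_lit 434) (nat_lit 251) (nat_lit 215)) (XT.lf (nat_lit 0) (nat_lit 593968564792) (nat_lit 76) (nat_lit 29380001022) (nat_lit 76) (nat_lit 27972497876) (nat_lit 2) (nat_lit 4) (nat_lit 3) (nat_lit 5) (nat_lit 3) (nat_lit 4) (nat_lit 435) (nat_lit 251) (nat_lit 214)))) (XT.nd (nat_lit 78) (nat_lit 0) (nat_lit 0) (XT.lf (nat_lit 0) (nat_lit 626849356346) (nat_lit 76) (nat_lit 29188998927) (nat_lit 76) (nat_lit 27768305742) (nat_lit 2) (nat_lit 4) (nat_lit 3) (nat_lit 5) (nat_lit 3) (nat_lit 4) (nat_lit 436) (nat_lit 251) (nat_lit 213)) (XT.nd (nat_lit 78) (nat_lit 0) (nat_lit 0) (XT.lf (nat_lit 0) (nat_lit 661337359771) (nat_lit 76) (nat_lit 29006682316) (nat_lit 76) (nat_lit 27573427188) (nat_lit 2) (nat_lit 4) (nat_lit 3) (nat_lit 5) (nat_lit 3) (nat_lit 4) (nat_lit 437) (nat_lit 251) (nat_lit 212)) (XT.lf (nat_lit 0) (nat_lit 697514689362) (nat_lit 76) (nat_lit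 28832617102) (nat_lit 76) (nat_lit 27387398219) (nat_lit 2) (nat_lit 4) (nat_lit 3) (nat_lit 5) (nat_lit 3) (nat_lit 4) (nat_lit 438) (nat_lit 251) (nat_lit 211))))) (XT.nd (nat_lit 234) (nat_lit 0) (nat_lit 0) (XT.nd (nat_lit 78) (nat_lit 0) (nat_lit 0) (XT.lf (nat_lit 0) (nat_lit 735467481618) (nat_lit 76) (nat_lit 28666388843) (nat_lit 76) (nat_lit 27209775908) (nat_lit 2) (nat_lit 4) (nat_lit 3) (nat_lit 5) (nat_lit 3) (nat_lit 4) (nat_lit 439) (nat_lit 251) (nat_lit 210)) (XT.nd (nat_lit 78) (nat_lit 0) (nat_lit 0) (XT.lf (nat_lit 0) (nat_lit 775286100330) (nat_lit 76) (nat_lit 28507601759) (nat_lit 76) (nat_lit 27040137345) (nat_lit 2) (nat_lit 4) (nat_lit 3) (nat_lit 5) (nat_lit 3) (nat_lit 4) (nat_lit 440) (nat_lit 251) (nat_lit 209)) (XT.lf (nat_lit 0) (nat_lit 817065351732) (nat_lit 76) (nat_lit 28355877784) (nat_lit 76) (nat_lit 26878078629) (nat_lit 2) (nat_lit 4) (nat_lit 3)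 (nat_lit 5) (nat_lit 3) (nat_lit 4) (nat_lit 441) (nat_lit 251) (nat_lit 208)))) (XT.nd (nat_lit 43290) (nat_lit 0) (nat_lit 0) (XT.lf (nat_lit 0) (nat_lit 860904710234) (nat_lit 76) (nat_lit 28210855671) (nat_lit 76) (nat_lit 26723213905) (nat_lit 2) (nat_lit 4) (nat_lit 3) (nat_lit 5) (nat_lit 3) (nat_lit 4) (nat_lit 442) (nat_lit 251) (nat_lit 207)) (XT.nd (nat_lit 78) (nat_lit 76) (nat_lit 0) (XT.lf (nat_lit 0) (nat_lit 23850221993) (nat_lit 152) (nat_lit 2042712840) (nat_lit 0) (nat_lit 23850221993) (nat_lit 3) (nat_lit 5) (nat_lit 5) (nat_lit 4) (nat_lit 3) (nat_lit 4) (nat_lit 396) (nat_lit 252) (nat_lit 252)) (XT.lf (nat_lit 0) (nat_lit 3036308906) (nat_lit 76) (nat_lit 50661602044) (nat_lit 76) (nat_lit 50577377345) (nat_lit 2) (nat_lit 4) (nat_lit 3) (nat_lit 5) (nat_lit 3) (nat_lit 4) (nat_lit 397) (nat_lit 252) (nat_lit 251)))))) (XT.nd (nat_lit 468) (nat_lit 0) (nat_lit 0)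 (XT.nd (nat_lit 234) (nat_lit 0) (nat_lit 0) (XT.nd (nat_lit 78) (nat_lit 0) (nat_lit 0) (XT.lf (nat_lit 0) (nat_lit 10420804498) (nat_lit 76) (nat_lit 49524915883) (nat_lit 76) (nat_lit 49360477185) (nat_lit 2) (nat_lit 4) (nat_lit 3) (nat_lit 5) (nat_lit 3) (nat_lit 4) (nat_lit 398) (nat_lit 252) (nat_lit 250)) (XT.nd (nat_lit 78) (nat_lit 0) (nat_lit 0) (XT.lf (nat_lit 0) (nat_lit 17950560603) (nat_lit 76) (nat_lit 48442293448) (nat_lit 76) (nat_lit 48201460465) (nat_lit 2) (nat_lit 4) (nat_lit 3) (nat_lit 5) (nat_lit 3) (nat_lit 4) (nat_lit 399) (nat_lit 252) (nat_lit 249)) (XT.lf (nat_lit 0) (nat_lit 25643505214) (nat_lit 76) (nat_lit 47411157068) (nat_lit 76) (nat_lit 47097567624) (nat_lit 2) (nat_lit 4) (nat_lit 3) (nat_lit 5) (nat_lit 3) (nat_lit 4) (nat_lit 400) (nat_lit 252) (nat_lit 248)))) (XT.nd (nat_lit 78) (nat_lit 0) (nat_lit 0) (XT.lf (nat_lit 0) (nat_lit 33517954863) (nat_lit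 76) (nat_lit 46429051656) (nat_lit 76) (nat_lit 46046170343) (nat_lit 2) (nat_lit 4) (nat_lit 3) (nat_lit 5) (nat_lit 3) (nat_lit 4) (nat_lit 401) (nat_lit 252) (nat_lit 247)) (XT.nd (nat_lit 78) (nat_lit 0) (nat_lit 0) (XT.lf (nat_lit 0) (nat_lit 41592658242) (nat_lit 76) (nat_lit 45493638866) (nat_lit 76) (nat_lit 45044765298) (nat_lit 2) (nat_lit 4) (nat_lit 3) (nat_lit 5) (nat_lit 3) (nat_lit 4) (nat_lit 402) (nat_lit 252) (nat_lit 246)) (XT.lf (nat_lit 0) (nat_lit 49886840834) (nat_lit 76) (nat_lit 44602691525) (nat_lit 76) (nat_lit 44090968189) (nat_lit 2) (nat_lit 4) (nat_lit 3) (nat_lit 5) (nat_lit 3) (nat_lit 4) (nat_lit 403) (nat_lit 252) (nat_lit 245))))) (XT.nd (nat_lit 234) (nat_lit 0) (nat_lit 0) (XT.nd (nat_lit 78) (nat_lit 0) (nat_lit 0) (XT.lf (nat_lit 0) (nat_lit 58420250694) (nat_lit 76) (nat_lit 43754088328) (nat_lit 76) (nat_lit 43182508072) (nat_lit 2) (nat_lit 4)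 (nat_lit 3) (nat_lit 5) (nat_lit 3) (nat_lit 4) (nat_lit 404) (nat_lit 252) (nat_lit 244)) (XT.nd (nat_lit 78) (nat_lit 0) (nat_lit 0) (XT.lf (nat_lit 0) (nat_lit 67213205462) (nat_lit 76) (nat_lit 42945808794) (nat_lit 76) (nat_lit 42317221945) (nat_lit 2) (nat_lit 4) (nat_lit 3) (nat_lit 5) (nat_lit 3) (nat_lit 4) (nat_lit 405) (nat_lit 252) (nat_lit 243)) (XT.lf (nat_lit 0) (nat_lit 76286640747) (nat_lit 76) (nat_lit 42175928445) (nat_lit 76) (nat_lit 41493049605) (nat_lit 2) (nat_lit 4) (nat_lit 3) (nat_lit 5) (nat_lit 3) (nat_lit 4) (nat_lit 406) (nat_lit 252) (nat_lit 242)))) (XT.nd (nat_lit 156) (nat_lit 0) (nat_lit 0) (XT.nd (nat_lit 78) (nat_lit 0) (nat_lit 0) (XT.lf (nat_lit 0) (nat_lit 85662159966) (nat_lit 76) (nat_lit 41442614235) (nat_lit 76) (nat_lit 40708028736) (nat_lit 2) (nat_lit 4) (nat_lit 3) (nat_lit 5) (nat_lit 3) (nat_lit 4) (nat_lit 407) (nat_lit 252) (nat_lit 241))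 (XT.lf (nat_lit 0) (nat_lit 95362085783) (nat_lit 76) (nat_lit 40744120177) (nat_lit 76) (nat_lit 39960290240) (nat_lit 2) (nat_lit 4) (nat_lit 3) (nat_lit 5) (nat_lit 3) (nat_lit 4) (nat_lit 408) (nat_lit 252) (nat_lit 240))) (XT.nd (nat_lit 78) (nat_lit 0) (nat_lit 0) (XT.lf (nat_lit 0) (nat_lit 105409513259) (nat_lit 76) (nat_lit 40078783189) (nat_lit 76) (nat_lit 39248053789) (nat_lit 2) (nat_lit 4) (nat_lit 3) (nat_lit 5) (nat_lit 3) (nat_lit 4) (nat_lit 409) (nat_lit 252) (nat_lit 239)) (XT.lf (nat_lit 0) (nat_lit 115828364842) (nat_lit 76) (nat_lit 39445019136) (nat_lit 76) (nat_lit 38569623580) (nat_lit 2) (nat_lit 4) (nat_lit 3) (nat_lit 5) (nat_lit 3) (nat_lit 4) (nat_lit 410) (nat_lit 252) (nat_lit 238))))))))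
noncomputable def xc11 : XT := (XT.nd (nat_lit 1950) (nat_lit 0) (nat_lit 0) (XT.nd (nat_lit 936) (nat_lit 0) (nat_lit 0) (XT.nd (nat_lit 468) (nat_lit 0) (nat_lit 0) (XT.nd (nat_lit 234) (nat_lit 0) (nat_lit 0) (XT.nd (nat_lit 78) (nat_lit 0) (nat_lit 0) (XT.lf (nat_lit 0) (nat_lit 126643447321) (nat_lit 76) (nat_lit 38841319056) (nat_lit 76) (nat_lit 37923384304) (nat_lit 2) (nat_lit 4) (nat_lit 3) (nat_lit 5) (nat_lit 3) (nat_lit 4) (nat_lit 411) (nat_lit 252) (nat_lit 237)) (XT.nd (nat_lit 78) (nat_lit 0) (nat_lit 0) (XT.lf (nat_lit 0) (nat_lit 137880510891) (nat_lit 76) (nat_lit 38266245568) (nat_lit 76) (nat_lit 37307797295) (nat_lit 2) (nat_lit 4) (nat_lit 3) (nat_lit 5) (nat_lit 3) (nat_lit 4) (nat_lit 412) (nat_lit 252) (nat_lit 236)) (XT.lf (nat_lit 0) (nat_lit 149566310467) (nat_lit 76) (nat_lit 37718429449) (nat_lit 76) (nat_lit 36721396872) (nat_lit 2) (nat_lit 4) (nat_lit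 3) (nat_lit 5) (nat_lit 3) (nat_lit 4) (nat_lit 413) (nat_lit 252) (nat_lit 235)))) (XT.nd (nat_lit 78) (nat_lit 0) (nat_lit 0) (XT.lf (nat_lit 0) (nat_lit 161728669380) (nat_lit 76) (nat_lit 37196566376) (nat_lit 76) (nat_lit 36162786841) (nat_lit 2) (nat_lit 4) (nat_lit 3) (nat_lit 5) (nat_lit 3) (nat_lit 4) (nat_lit 414) (nat_lit 252) (nat_lit 234)) (XT.nd (nat_lit 78) (nat_lit 0) (nat_lit 0) (XT.lf (nat_lit 0) (nat_lit 174396545629) (nat_lit 76) (nat_lit 36699413816) (nat_lit 76) (nat_lit 35630637179) (nat_lit 2) (nat_lit 4) (nat_lit 3) (nat_lit 5) (nat_lit 3) (nat_lit 4) (nat_lit 415) (nat_lit 252) (nat_lit 233)) (XT.lf (nat_lit 0) (nat_lit 187600100822) (nat_lit 76) (nat_lit 36225788074) (nat_lit 76) (nat_lit 35123680864) (nat_lit 2) (nat_lit 4) (nat_lit 3) (nat_lit 5) (nat_lit 3) (nat_lit 4) (nat_lit 416) (nat_lit 252) (nat_lit 232))))) (XT.nd (nat_lit 234) (nat_lit 0) (nat_lit 0)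 (XT.nd (nat_lit 78) (nat_lit 0) (nat_lit 0) (XT.lf (nat_lit 0) (nat_lit 201370771997) (nat_lit 76) (nat_lit 35774561469) (nat_lit 76) (nat_lit 34640710855) (nat_lit 2) (nat_lit 4) (nat_lit 3) (nat_lit 5) (nat_lit 3) (nat_lit 4) (nat_lit 417) (nat_lit 252) (nat_lit 231)) (XT.nd (nat_lit 78) (nat_lit 0) (nat_lit 0) (XT.lf (nat_lit 0) (nat_lit 215741346466) (nat_lit 76) (nat_lit 35344659652) (nat_lit 76) (nat_lit 34180577226) (nat_lit 2) (nat_lit 4) (nat_lit 3) (nat_lit 5) (nat_lit 3) (nat_lit 4) (nat_lit 418) (nat_lit 252) (nat_lit 230)) (XT.lf (nat_lit 0) (nat_lit 230746039882) (nat_lit 76) (nat_lit 34935059048) (nat_lit 76) (nat_lit 33742184419) (nat_lit 2) (nat_lit 4) (nat_lit 3) (nat_lit 5) (nat_lit 3) (nat_lit 4) (nat_lit 419) (nat_lit 252) (nat_lit 229)))) (XT.nd (nat_lit 78) (nat_lit 0) (nat_lit 0) (XT.lf (nat_lit 0) (nat_lit 246420577705) (nat_lit 76) (nat_lit 34544784416) (nat_lit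 76) (nat_lit 33324488641) (nat_lit 2) (nat_lit 4) (nat_lit 3) (nat_lit 5) (nat_lit 3) (nat_lit 4) (nat_lit 420) (nat_lit 252) (nat_lit 228)) (XT.nd (nat_lit 78) (nat_lit 0) (nat_lit 0) (XT.lf (nat_lit 0) (nat_lit 262802280264) (nat_lit 76) (nat_lit 34172906531) (nat_lit 76) (nat_lit 32926495381) (nat_lit 2) (nat_lit 4) (nat_lit 3) (nat_lit 5) (nat_lit 3) (nat_lit 4) (nat_lit 421) (nat_lit 252) (nat_lit 227)) (XT.lf (nat_lit 0) (nat_lit 279930151613) (nat_lit 76) (nat_lit 33818539971) (nat_lit 76) (nat_lit 32547257033) (nat_lit 2) (nat_lit 4) (nat_lit 3) (nat_lit 5) (nat_lit 3) (nat_lit 4) (nat_lit 422) (nat_lit 252) (nat_lit 226)))))) (XT.nd (nat_lit 468) (nat_lit 0) (nat_lit 0) (XT.nd (nat_lit 234) (nat_lit 0) (nat_lit 0) (XT.nd (nat_lit 78) (nat_lit 0) (nat_lit 0) (XT.lf (nat_lit 0) (nat_lit 297844972397) (nat_lit 76) (nat_lit 33480841004) (nat_lit 76) (nat_lit 32185870650) (nat_lit 2)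 (nat_lit 4) (nat_lit 3) (nat_lit 5) (nat_lit 3) (nat_lit 4) (nat_lit 423) (nat_lit 252) (nat_lit 225)) (XT.nd (nat_lit 78) (nat_lit 0) (nat_lit 0) (XT.lf (nat_lit 0) (nat_lit 316589396952) (nat_lit 76) (nat_lit 33159005586) (nat_lit 76) (nat_lit 31841475788) (nat_lit 2) (nat_lit 4) (nat_lit 3) (nat_lit 5) (nat_lit 3) (nat_lit 4) (nat_lit 424) (nat_lit 252) (nat_lit 224)) (XT.lf (nat_lit 0) (nat_lit 336208054860) (nat_lit 76) (nat_lit 32852267443) (nat_lit 76) (nat_lit 31513252460) (nat_lit 2) (nat_lit 4) (nat_lit 3) (nat_lit 5) (nat_lit 3) (nat_lit 4) (nat_lit 425) (nat_lit 252) (nat_lit 223)))) (XT.nd (nat_lit 78) (nat_lit 0) (nat_lit 0) (XT.lf (nat_lit 0) (nat_lit 356747657212) (nat_lit 76) (nat_lit 32559896244) (nat_lit 76) (nat_lit 31200419181) (nat_lit 2) (nat_lit 4) (nat_lit 3) (nat_lit 5) (nat_lit 3) (nat_lit 4) (nat_lit 426) (nat_lit 252) (nat_lit 222)) (XT.nd (nat_lit 78) (nat_lit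 0) (nat_lit 0) (XT.lf (nat_lit 0) (nat_lit 378257107822) (nat_lit 76) (nat_lit 32281195869) (nat_lit 76) (nat_lit 30902231109) (nat_lit 2) (nat_lit 4) (nat_lit 3) (nat_lit 5) (nat_lit 3) (nat_lit 4) (nat_lit 427) (nat_lit 252) (nat_lit 221)) (XT.lf (nat_lit 0) (nat_lit 400787619668) (nat_lit 76) (nat_lit 32015502745) (nat_lit 76) (nat_lit 30617978275) (nat_lit 2) (nat_lit 4) (nat_lit 3) (nat_lit 5) (nat_lit 3) (nat_lit 4) (nat_lit 428) (nat_lit 252) (nat_lit 220))))) (XT.nd (nat_lit 234) (nat_lit 0) (nat_lit 0) (XT.nd (nat_lit 78) (nat_lit 0) (nat_lit 0) (XT.lf (nat_lit 0) (nat_lit 424392836826) (nat_lit 76) (nat_lit 31762184268) (nat_lit 76) (nat_lit 30346983884) (nat_lit 2) (nat_lit 4) (nat_lit 3) (nat_lit 5) (nat_lit 3) (nat_lit 4) (nat_lit 429) (nat_lit 252) (nat_lit 219)) (XT.nd (nat_lit 78) (nat_lit 0) (nat_lit 0) (XT.lf (nat_lit 0) (nat_lit 449128962194) (nat_lit 76) (nat_lit 31520637301)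 (nat_lit 76) (nat_lit 30088602712) (nat_lit 2) (nat_lit 4) (nat_lit 3) (nat_lit 5) (nat_lit 3) (nat_lit 4) (nat_lit 430) (nat_lit 252) (nat_lit 218)) (XT.lf (nat_lit 0) (nat_lit 475054891308) (nat_lit 76) (nat_lit 31290286731) (nat_lit 76) (nat_lit 29842219567) (nat_lit 2) (nat_lit 4) (nat_lit 3) (nat_lit 5) (nat_lit 3) (nat_lit 4) (nat_lit 431) (nat_lit 252) (nat_lit 217)))) (XT.nd (nat_lit 156) (nat_lit 0) (nat_lit 0) (XT.nd (nat_lit 78) (nat_lit 0) (nat_lit 0) (XT.lf (nat_lit 0) (nat_lit 502232352571) (nat_lit 76) (nat_lit 31070584105) (nat_lit 76) (nat_lit 29607247820) (nat_lit 2) (nat_lit 4) (nat_lit 3) (nat_lit 5) (nat_lit 3) (nat_lit 4) (nat_lit 432) (nat_lit 252) (nat_lit 216)) (XT.lf (nat_lit 0) (nat_lit 530726054225) (nat_lit 76) (nat_lit 30861006320) (nat_lit 76) (nat_lit 29383128017) (nat_lit 2) (nat_lit 4) (nat_lit 3) (nat_lit 5) (nat_lit 3) (nat_lit 4) (nat_lit 433) (nat_lit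 252) (nat_lit 215))) (XT.nd (nat_lit 78) (nat_lit 0) (nat_lit 0) (XT.lf (nat_lit 0) (nat_lit 560603838416) (nat_lit 76) (nat_lit 30661054383) (nat_lit 76) (nat_lit 29169326538) (nat_lit 2) (nat_lit 4) (nat_lit 3) (nat_lit 5) (nat_lit 3) (nat_lit 4) (nat_lit 434) (nat_lit 252) (nat_lit 214)) (XT.lf (nat_lit 0) (nat_lit 591936842725) (nat_lit 76) (nat_lit 30470252217) (nat_lit 76) (nat_lit 28965334332) (nat_lit 2) (nat_lit 4) (nat_lit 3) (nat_lit 5) (nat_lit 3) (nat_lit 4) (nat_lit 435) (nat_lit 252) (nat_lit 213))))))) (XT.nd (nat_lit 43992) (nat_lit 0) (nat_lit 0) (XT.nd (nat_lit 468) (nat_lit 0) (nat_lit 0) (XT.nd (nat_lit 234) (nat_lit 0) (nat_lit 0) (XT.nd (nat_lit 78) (nat_lit 0) (nat_lit 0) (XT.lf (nat_lit 0) (nat_lit 624799669544) (nat_lit 76) (nat_lit 30288145531) (nat_lit 76) (nat_lit 28770665704) (nat_lit 2) (nat_lit 4) (nat_lit 3) (nat_lit 5) (nat_lit 3) (nat_lit 4) (nat_lit 436)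 (nat_lit 252) (nat_lit 212)) (XT.nd (nat_lit 78) (nat_lit 0) (nat_lit 0) (XT.lf (nat_lit 0) (nat_lit 659270563698) (nat_lit 76) (nat_lit 30114300738) (nat_lit 76) (nat_lit 28584857156) (nat_lit 2) (nat_lit 4) (nat_lit 3) (nat_lit 5) (nat_lit 3) (nat_lit 4) (nat_lit 437) (nat_lit 252) (nat_lit 211)) (XT.lf (nat_lit 0) (nat_lit 695431598746) (nat_lit 76) (nat_lit 29948303922) (nat_lit 76) (nat_lit 28407466287) (nat_lit 2) (nat_lit 4) (nat_lit 3) (nat_lit 5) (nat_lit 3) (nat_lit 4) (nat_lit 438) (nat_lit 252) (nat_lit 210)))) (XT.nd (nat_lit 78) (nat_lit 0) (nat_lit 0) (XT.lf (nat_lit 0) (nat_lit 733368872388) (nat_lit 76) (nat_lit 29789759852) (nat_lit 76) (nat_lit 28238070739) (nat_lit 2) (nat_lit 4) (nat_lit 3) (nat_lit 5) (nat_lit 3) (nat_lit 4) (nat_lit 439) (nat_lit 252) (nat_lit 209)) (XT.nd (nat_lit 78) (nat_lit 0) (nat_lit 0) (XT.lf (nat_lit 0) (nat_lit 773172711469) (nat_lit 76)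 (nat_lit 29638291043) (nat_lit 76) (nat_lit 28076267189) (nat_lit 2) (nat_lit 4) (nat_lit 3) (nat_lit 5) (nat_lit 3) (nat_lit 4) (nat_lit 440) (nat_lit 252) (nat_lit 208)) (XT.lf (nat_lit 0) (nat_lit 814937887032) (nat_lit 76) (nat_lit 29493536853) (nat_lit 76) (nat_lit 27921670389) (nat_lit 2) (nat_lit 4) (nat_lit 3) (nat_lit 5) (nat_lit 3) (nat_lit 4) (nat_lit 441) (nat_lit 252) (nat_lit 207))))) (XT.nd (nat_lit 43290) (nat_lit 0) (nat_lit 0) (XT.nd (nat_lit 43134) (nat_lit 0) (nat_lit 76) (XT.lf (nat_lit 0) (nat_lit 858763839972) (nat_lit 76) (nat_lit 29355152632) (nat_lit 76) (nat_lit 27773912252) (nat_lit 2) (nat_lit 4) (nat_lit 3) (nat_lit 5) (nat_lit 3) (nat_lit 4) (nat_lit 442) (nat_lit 252) (nat_lit 206)) (XT.nd (nat_lit 78) (nat_lit 0) (nat_lit 0) (XT.lf (nat_lit 0) (nat_lit 18220864322) (nat_lit 152) (nat_lit 8853989975) (nat_lit 0) (nat_lit 18220864322) (nat_lit 3) (nat_lit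 5) (nat_lit 5) (nat_lit 4) (nat_lit 3) (nat_lit 4) (nat_lit 394) (nat_lit 253) (nat_lit 253)) (XT.lf (nat_lit 0) (nat_lit 42007106523) (nat_lit 152) (nat_lit 11003112672) (nat_lit 0) (nat_lit 41918670589) (nat_lit 3) (nat_lit 5) (nat_lit 5) (nat_lit 4) (nat_lit 3) (nat_lit 4) (nat_lit 395) (nat_lit 253) (nat_lit 252)))) (XT.nd (nat_lit 78) (nat_lit 76) (nat_lit 0) (XT.lf (nat_lit 0) (nat_lit 47729952899) (nat_lit 152) (nat_lit 4202019632) (nat_lit 0) (nat_lit 47557292266) (nat_lit 3) (nat_lit 5) (nat_lit 5) (nat_lit 4) (nat_lit 3) (nat_lit 4) (nat_lit 396) (nat_lit 253) (nat_lit 251)) (XT.nd (nat_lit 78) (nat_lit 0) (nat_lit 0) (XT.lf (nat_lit 0) (nat_lit 2801146427) (nat_lit 76) (nat_lit 50866480915) (nat_lit 76) (nat_lit 50613606283) (nat_lit 2) (nat_lit 4) (nat_lit 3) (nat_lit 5) (nat_lit 3) (nat_lit 4) (nat_lit 397) (nat_lit 253) (nat_lit 250)) (XT.lf (nat_lit 0) (nat_lit 10076391157)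 (nat_lit 76) (nat_lit 49783891356) (nat_lit 76) (nat_lit 49454622439) (nat_lit 2) (nat_lit 4) (nat_lit 3) (nat_lit 5) (nat_lit 3) (nat_lit 4) (nat_lit 398) (nat_lit 253) (nat_lit 249)))))) (XT.nd (nat_lit 468) (nat_lit 0) (nat_lit 0) (XT.nd (nat_lit 234) (nat_lit 0) (nat_lit 0) (XT.nd (nat_lit 78) (nat_lit 0) (nat_lit 0) (XT.lf (nat_lit 0) (nat_lit 17502098824) (nat_lit 76) (nat_lit 48752789495) (nat_lit 76) (nat_lit 48350764117) (nat_lit 2) (nat_lit 4) (nat_lit 3) (nat_lit 5) (nat_lit 3) (nat_lit 4) (nat_lit 399) (nat_lit 253) (nat_lit 248)) (XT.nd (nat_lit 78) (nat_lit 0) (nat_lit 0) (XT.lf (nat_lit 0) (nat_lit 25095949682) (nat_lit 76) (nat_lit 47770720329) (nat_lit 76) (nat_lit 47299403082) (nat_lit 2) (nat_lit 4) (nat_lit 3) (nat_lit 5) (nat_lit 3) (nat_lit 4) (nat_lit 400) (nat_lit 253) (nat_lit 247)) (XT.lf (nat_lit 0) (nat_lit 32876024330) (nat_lit 76) (nat_lit 46835345596) (nat_lit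 76) (nat_lit 46298036094) (nat_lit 2) (nat_lit 4) (nat_lit 3) (nat_lit 5) (nat_lit 3) (nat_lit 4) (nat_lit 401) (nat_lit 253) (nat_lit 246)))) (XT.nd (nat_lit 78) (nat_lit 0) (nat_lit 0) (XT.lf (nat_lit 0) (nat_lit 40860846755) (nat_lit 76) (nat_lit 45944438215) (nat_lit 76) (nat_lit 45344278945) (nat_lit 2) (nat_lit 4) (nat_lit 3) (nat_lit 5) (nat_lit 3) (nat_lit 4) (nat_lit 402) (nat_lit 253) (nat_lit 245)) (XT.nd (nat_lit 78) (nat_lit 0) (nat_lit 0) (XT.lf (nat_lit 0) (nat_lit 49069428439) (nat_lit 76) (nat_lit 45095876977) (nat_lit 76) (nat_lit 44435860786) (nat_lit 2) (nat_lit 4) (nat_lit 3) (nat_lit 5) (nat_lit 3) (nat_lit 4) (nat_lit 403) (nat_lit 253) (nat_lit 244)) (XT.lf (nat_lit 0) (nat_lit 57521313623) (nat_lit 76) (nat_lit 44287641498) (nat_lit 76) (nat_lit 43570618716) (nat_lit 2) (nat_lit 4) (nat_lit 3) (nat_lit 5) (nat_lit 3) (nat_lit 4) (nat_lit 404) (nat_lit 253) (nat_lit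 243))))) (XT.nd (nat_lit 234) (nat_lit 0) (nat_lit 0) (XT.nd (nat_lit 78) (nat_lit 0) (nat_lit 0) (XT.lf (nat_lit 0) (nat_lit 66236625844) (nat_lit 76) (nat_lit 43517807409) (nat_lit 76) (nat_lit 42746492635) (nat_lit 2) (nat_lit 4) (nat_lit 3) (nat_lit 5) (nat_lit 3) (nat_lit 4) (nat_lit 405) (nat_lit 253) (nat_lit 242)) (XT.nd (nat_lit 78) (nat_lit 0) (nat_lit 0) (XT.lf (nat_lit 0) (nat_lit 75236115846) (nat_lit 76) (nat_lit 42784541771) (nat_lit 76) (nat_lit 41961520338) (nat_lit 2) (nat_lit 4) (nat_lit 3) (nat_lit 5) (nat_lit 3) (nat_lit 4) (nat_lit 406) (nat_lit 253) (nat_lit 241)) (XT.lf (nat_lit 0) (nat_lit 84541210985) (nat_lit 76) (nat_lit 42086098713) (nat_lit 76) (nat_lit 41213832843) (nat_lit 2) (nat_lit 4) (nat_lit 3) (nat_lit 5) (nat_lit 3) (nat_lit 4) (nat_lit 407) (nat_lit 253) (nat_lit 240)))) (XT.nd (nat_lit 156) (nat_lit 0) (nat_lit 0) (XT.nd (nat_lit 78) (nat_lit 0)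 (nat_lit 0) (XT.lf (nat_lit 0) (nat_lit 94174066250) (nat_lit 76) (nat_lit 41420815276) (nat_lit 76) (nat_lit 40501649941) (nat_lit 2) (nat_lit 4) (nat_lit 3) (nat_lit 5) (nat_lit 3) (nat_lit 4) (nat_lit 408) (nat_lit 253) (nat_lit 239)) (XT.lf (nat_lit 0) (nat_lit 104157617011) (nat_lit 76) (nat_lit 40787107451) (nat_lit 76) (nat_lit 39823275961) (nat_lit 2) (nat_lit 4) (nat_lit 3) (nat_lit 5) (nat_lit 3) (nat_lit 4) (nat_lit 409) (nat_lit 253) (nat_lit 238))) (XT.nd (nat_lit 78) (nat_lit 0) (nat_lit 0) (XT.lf (nat_lit 0) (nat_lit 114515633626) (nat_lit 76) (nat_lit 40183466411) (nat_lit 76) (nat_lit 39177095724) (nat_lit 2) (nat_lit 4) (nat_lit 3) (nat_lit 5) (nat_lit 3) (nat_lit 4) (nat_lit 410) (nat_lit 253) (nat_lit 237)) (XT.lf (nat_lit 0) (nat_lit 125272778041) (nat_lit 76) (nat_lit 39608454914) (nat_lit 76) (nat_lit 38561570707) (nat_lit 2) (nat_lit 4) (nat_lit 3) (nat_lit 5) (nat_lit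 3) (nat_lit 4) (nat_lit 411) (nat_lit 253) (nat_lit 236))))))))
noncomputable def xc12 : XT := (XT.nd (nat_lit 1872) (nat_lit 0) (nat_lit 0) (XT.nd (nat_lit 936) (nat_lit 0) (nat_lit 0) (XT.nd (nat_lit 468) (nat_lit 0) (nat_lit 0) (XT.nd (nat_lit 234) (nat_lit 0) (nat_lit 0) (XT.nd (nat_lit 78) (nat_lit 0) (nat_lit 0) (XT.lf (nat_lit 0) (nat_lit 136454662502) (nat_lit 76) (nat_lit 39060703886) (nat_lit 76) (nat_lit 37975235375) (nat_lit 2) (nat_lit 4) (nat_lit 3) (nat_lit 5) (nat_lit 3) (nat_lit 4) (nat_lit 412) (nat_lit 253) (nat_lit 235)) (XT.nd (nat_lit 78) (nat_lit 0) (nat_lit 0) (XT.lf (nat_lit 0) (nat_lit 148087910546) (nat_lit 76) (nat_lit 38538909158) (nat_lit 76) (nat_lit 37416693689) (nat_lit 2) (nat_lit 4) (nat_lit 3) (nat_lit 5) (nat_lit 3) (nat_lit 4) (nat_lit 413) (nat_lit 253) (nat_lit 234)) (XT.lf (nat_lit 0) (nat_lit 160200220381) (nat_lit 76) (nat_lit 38041828362) (nat_lit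 76) (nat_lit 36884615791) (nat_lit 2) (nat_lit 4) (nat_lit 3) (nat_lit 5) (nat_lit 3) (nat_lit 4) (nat_lit 414) (nat_lit 253) (nat_lit 233)))) (XT.nd (nat_lit 78) (nat_lit 0) (nat_lit 0) (XT.lf (nat_lit 0) (nat_lit 172820430840) (nat_lit 76) (nat_lit 37568277971) (nat_lit 76) (nat_lit 36377734826) (nat_lit 2) (nat_lit 4) (nat_lit 3) (nat_lit 5) (nat_lit 3) (nat_lit 4) (nat_lit 415) (nat_lit 253) (nat_lit 232)) (XT.nd (nat_lit 78) (nat_lit 0) (nat_lit 0) (XT.lf (nat_lit 0) (nat_lit 185978590044) (nat_lit 76) (nat_lit 37117130484) (nat_lit 76) (nat_lit 35894843936) (nat_lit 2) (nat_lit 4) (nat_lit 3) (nat_lit 5) (nat_lit 3) (nat_lit 4) (nat_lit 416) (nat_lit 253) (nat_lit 231)) (XT.lf (nat_lit 0) (nat_lit 199706026944) (nat_lit 76) (nat_lit 36687311742) (nat_lit 76) (nat_lit 35434793381) (nat_lit 2) (nat_lit 4) (nat_lit 3) (nat_lit 5) (nat_lit 3) (nat_lit 4) (nat_lit 417) (nat_lit 253) (nat_lit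 230))))) (XT.nd (nat_lit 234) (nat_lit 0) (nat_lit 0) (XT.nd (nat_lit 78) (nat_lit 0) (nat_lit 0) (XT.lf (nat_lit 0) (nat_lit 214035425912) (nat_lit 76) (nat_lit 36277798365) (nat_lit 76) (nat_lit 34996487802) (nat_lit 2) (nat_lit 4) (nat_lit 3) (nat_lit 5) (nat_lit 3) (nat_lit 4) (nat_lit 418) (nat_lit 253) (nat_lit 229)) (XT.nd (nat_lit 78) (nat_lit 0) (nat_lit 0) (XT.lf (nat_lit 0) (nat_lit 229000904565) (nat_lit 76) (nat_lit 35887615323) (nat_lit 76) (nat_lit 34578883615) (nat_lit 2) (nat_lit 4) (nat_lit 3) (nat_lit 5) (nat_lit 3) (nat_lit 4) (nat_lit 419) (nat_lit 253) (nat_lit 228)) (XT.lf (nat_lit 0) (nat_lit 244638094995) (nat_lit 76) (nat_lit 35515833608) (nat_lit 76) (nat_lit 34180986523) (nat_lit 2) (nat_lit 4) (nat_lit 3) (nat_lit 5) (nat_lit 3) (nat_lit 4) (nat_lit 420) (nat_lit 253) (nat_lit 227)))) (XT.nd (nat_lit 78) (nat_lit 0) (nat_lit 0) (XT.lf (nat_lit 0) (nat_lit 260984228609)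 (nat_lit 76) (nat_lit 35161568025) (nat_lit 76) (nat_lit 33801849153) (nat_lit 2) (nat_lit 4) (nat_lit 3) (nat_lit 5) (nat_lit 3) (nat_lit 4) (nat_lit 421) (nat_lit 253) (nat_lit 226)) (XT.nd (nat_lit 78) (nat_lit 0) (nat_lit 0) (XT.lf (nat_lit 0) (nat_lit 278078224771) (nat_lit 76) (nat_lit 34823975085) (nat_lit 76) (nat_lit 33440568797) (nat_lit 2) (nat_lit 4) (nat_lit 3) (nat_lit 5) (nat_lit 3) (nat_lit 4) (nat_lit 422) (nat_lit 253) (nat_lit 225)) (XT.lf (nat_lit 0) (nat_lit 295960783474) (nat_lit 76) (nat_lit 34502250995) (nat_lit 76) (nat_lit 33096285263) (nat_lit 2) (nat_lit 4) (nat_lit 3) (nat_lit 5) (nat_lit 3) (nat_lit 4) (nat_lit 423) (nat_lit 253) (nat_lit 224)))))) (XT.nd (nat_lit 468) (nat_lit 0) (nat_lit 0) (XT.nd (nat_lit 234) (nat_lit 0) (nat_lit 0) (XT.nd (nat_lit 78) (nat_lit 0) (nat_lit 0) (XT.lf (nat_lit 0) (nat_lit 314674482236) (nat_lit 76) (nat_lit 34195629746) (nat_lit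 76) (nat_lit 32768178829) (nat_lit 2) (nat_lit 4) (nat_lit 3) (nat_lit 5) (nat_lit 3) (nat_lit 4) (nat_lit 424) (nat_lit 253) (nat_lit 223)) (XT.nd (nat_lit 78) (nat_lit 0) (nat_lit 0) (XT.lf (nat_lit 0) (nat_lit 334263877485) (nat_lit 76) (nat_lit 33903381286) (nat_lit 76) (nat_lit 32455468289) (nat_lit 2) (nat_lit 4) (nat_lit 3) (nat_lit 5) (nat_lit 3) (nat_lit 4) (nat_lit 425) (nat_lit 253) (nat_lit 222)) (XT.lf (nat_lit 0) (nat_lit 354775610637) (nat_lit 76) (nat_lit 33624809787) (nat_lit 76) (nat_lit 32157409093) (nat_lit 2) (nat_lit 4) (nat_lit 3) (nat_lit 5) (nat_lit 3) (nat_lit 4) (nat_lit 426) (nat_lit 253) (nat_lit 221)))) (XT.nd (nat_lit 78) (nat_lit 0) (nat_lit 0) (XT.lf (nat_lit 0) (nat_lit 376258519152) (nat_lit 76) (nat_lit 33359251982) (nat_lit 76) (nat_lit 31873291578) (nat_lit 2) (nat_lit 4) (nat_lit 3) (nat_lit 5) (nat_lit 3) (nat_lit 4) (nat_lit 427) (nat_lit 253) (nat_lit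 220)) (XT.nd (nat_lit 78) (nat_lit 0) (nat_lit 0) (XT.lf (nat_lit 0) (nat_lit 398763752812) (nat_lit 76) (nat_lit 33106075591) (nat_lit 76) (nat_lit 31602439273) (nat_lit 2) (nat_lit 4) (nat_lit 3) (nat_lit 5) (nat_lit 3) (nat_lit 4) (nat_lit 428) (nat_lit 253) (nat_lit 219)) (XT.lf (nat_lit 0) (nat_lit 422344895508) (nat_lit 76) (nat_lit 32864677814) (nat_lit 76) (nat_lit 31344207291) (nat_lit 2) (nat_lit 4) (nat_lit 3) (nat_lit 5) (nat_lit 3) (nat_lit 4) (nat_lit 429) (nat_lit 253) (nat_lit 218))))) (XT.nd (nat_lit 234) (nat_lit 0) (nat_lit 0) (XT.nd (nat_lit 78) (nat_lit 0) (nat_lit 0) (XT.lf (nat_lit 0) (nat_lit 447058092816) (nat_lit 76) (nat_lit 32634483894) (nat_lit 76) (nat_lit 31097980795) (nat_lit 2) (nat_lit 4) (nat_lit 3) (nat_lit 5) (nat_lit 3) (nat_lit 4) (nat_lit 430) (nat_lit 253) (nat_lit 217)) (XT.nd (nat_lit 78) (nat_lit 0) (nat_lit 0) (XT.lf (nat_lit 0) (nat_lit 472962185683)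 (nat_lit 76) (nat_lit 32414945749) (nat_lit 76) (nat_lit 30863173531) (nat_lit 2) (nat_lit 4) (nat_lit 3) (nat_lit 5) (nat_lit 3) (nat_lit 4) (nat_lit 431) (nat_lit 253) (nat_lit 216)) (XT.lf (nat_lit 0) (nat_lit 500118850521) (nat_lit 76) (nat_lit 32205540670) (nat_lit 76) (nat_lit 30639226433) (nat_lit 2) (nat_lit 4) (nat_lit 3) (nat_lit 5) (nat_lit 3) (nat_lit 4) (nat_lit 432) (nat_lit 253) (nat_lit 215)))) (XT.nd (nat_lit 78) (nat_lit 0) (nat_lit 0) (XT.lf (nat_lit 0) (nat_lit 528592746055) (nat_lit 76) (nat_lit 32005770074) (nat_lit 76) (nat_lit 30425606295) (nat_lit 2) (nat_lit 4) (nat_lit 3) (nat_lit 5) (nat_lit 3) (nat_lit 4) (nat_lit 433) (nat_lit 253) (nat_lit 214)) (XT.nd (nat_lit 78) (nat_lit 0) (nat_lit 0) (XT.lf (nat_lit 0) (nat_lit 558451667274) (nat_lit 76) (nat_lit 31815158317) (nat_lit 76) (nat_lit 30221804498) (nat_lit 2) (nat_lit 4) (nat_lit 3) (nat_lit 5) (nat_lit 3)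 (nat_lit 4) (nat_lit 434) (nat_lit 253) (nat_lit 213)) (XT.lf (nat_lit 0) (nat_lit 589766706849) (nat_lit 76) (nat_lit 31633251559) (nat_lit 76) (nat_lit 30027335798) (nat_lit 2) (nat_lit 4) (nat_lit 3) (nat_lit 5) (nat_lit 3) (nat_lit 4) (nat_lit 435) (nat_lit 253) (nat_lit 212))))))) (XT.nd (nat_lit 43836) (nat_lit 0) (nat_lit 0) (XT.nd (nat_lit 468) (nat_lit 0) (nat_lit 0) (XT.nd (nat_lit 234) (nat_lit 0) (nat_lit 0) (XT.nd (nat_lit 78) (nat_lit 0) (nat_lit 0) (XT.lf (nat_lit 0) (nat_lit 622612424397) (nat_lit 76) (nat_lit 31459616692) (nat_lit 76) (nat_lit 29841737176) (nat_lit 2) (nat_lit 4) (nat_lit 3) (nat_lit 5) (nat_lit 3) (nat_lit 4) (nat_lit 436) (nat_lit 253) (nat_lit 211)) (XT.nd (nat_lit 78) (nat_lit 0) (nat_lit 0) (XT.lf (nat_lit 0) (nat_lit 657067024008) (nat_lit 76) (nat_lit 31293840297) (nat_lit 76) (nat_lit 29664566729) (nat_lit 2) (nat_lit 4) (nat_lit 3) (nat_lit 5)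 (nat_lit 3) (nat_lit 4) (nat_lit 437) (nat_lit 253) (nat_lit 210)) (XT.lf (nat_lit 0) (nat_lit 693212540442) (nat_lit 76) (nat_lit 31135527670) (nat_lit 76) (nat_lit 29495402623) (nat_lit 2) (nat_lit 4) (nat_lit 3) (nat_lit 5) (nat_lit 3) (nat_lit 4) (nat_lit 438) (nat_lit 253) (nat_lit 209)))) (XT.nd (nat_lit 78) (nat_lit 0) (nat_lit 0) (XT.lf (nat_lit 0) (nat_lit 731135034453) (nat_lit 76) (nat_lit 30984301875) (nat_lit 76) (nat_lit 29333842087) (nat_lit 2) (nat_lit 4) (nat_lit 3) (nat_lit 5) (nat_lit 3) (nat_lit 4) (nat_lit 439) (nat_lit 253) (nat_lit 208)) (XT.nd (nat_lit 78) (nat_lit 0) (nat_lit 0) (XT.lf (nat_lit 0) (nat_lit 770924797694) (nat_lit 76) (nat_lit 30839802851) (nat_lit 76) (nat_lit 29179500453) (nat_lit 2) (nat_lit 4) (nat_lit 3) (nat_lit 5) (nat_lit 3) (nat_lit 4) (nat_lit 440) (nat_lit 253) (nat_lit 207)) (XT.lf (nat_lit 0) (nat_lit 812676567695) (nat_lit 76) (nat_lit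 30701686554) (nat_lit 76) (nat_lit 29032010240) (nat_lit 2) (nat_lit 4) (nat_lit 3) (nat_lit 5) (nat_lit 3) (nat_lit 4) (nat_lit 441) (nat_lit 253) (nat_lit 206))))) (XT.nd (nat_lit 43134) (nat_lit 0) (nat_lit 76) (XT.nd (nat_lit 42978) (nat_lit 0) (nat_lit 76) (XT.lf (nat_lit 0) (nat_lit 856489753434) (nat_lit 76) (nat_lit 30569624133) (nat_lit 76) (nat_lit 28891020282) (nat_lit 2) (nat_lit 4) (nat_lit 3) (nat_lit 5) (nat_lit 3) (nat_lit 4) (nat_lit 442) (nat_lit 253) (nat_lit 205)) (XT.nd (nat_lit 78) (nat_lit 0) (nat_lit 0) (XT.lf (nat_lit 0) (nat_lit 12944271464) (nat_lit 152) (nat_lit 15382078583) (nat_lit 0) (nat_lit 12944271464) (nat_lit 3) (nat_lit 5) (nat_lit 5) (nat_lit 4) (nat_lit 3) (nat_lit 4) (nat_lit 392) (nat_lit 254) (nat_lit 254)) (XT.lf (nat_lit 0) (nat_lit 31113426094) (nat_lit 152) (nat_lit 24332585435) (nat_lit 0) (nat_lit 31020568364) (nat_lit 3) (nat_lit 5) (nat_lit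 5) (nat_lit 4) (nat_lit 3) (nat_lit 4) (nat_lit 393) (nat_lit 254) (nat_lit 253)))) (XT.nd (nat_lit 78) (nat_lit 0) (nat_lit 0) (XT.lf (nat_lit 0) (nat_lit 36472713001) (nat_lit 152) (nat_lit 17830403600) (nat_lit 0) (nat_lit 36291419337) (nat_lit 3) (nat_lit 5) (nat_lit 5) (nat_lit 4) (nat_lit 3) (nat_lit 4) (nat_lit 394) (nat_lit 254) (nat_lit 252)) (XT.nd (nat_lit 78) (nat_lit 0) (nat_lit 0) (XT.lf (nat_lit 0) (nat_lit 41979163857) (nat_lit 152) (nat_lit 11242130274) (nat_lit 0) (nat_lit 41713645493) (nat_lit 3) (nat_lit 5) (nat_lit 5) (nat_lit 4) (nat_lit 3) (nat_lit 4) (nat_lit 395) (nat_lit 254) (nat_lit 251)) (XT.lf (nat_lit 0) (nat_lit 47645889259) (nat_lit 152) (nat_lit 4552079093) (nat_lit 0) (nat_lit 47300156896) (nat_lit 3) (nat_lit 5) (nat_lit 5) (nat_lit 4) (nat_lit 3) (nat_lit 4) (nat_lit 396) (nat_lit 254) (nat_lit 250)))))) (XT.nd (nat_lit 468) (nat_lit 0) (nat_lit 0) (XT.nd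 (nat_lit 234) (nat_lit 0) (nat_lit 0) (XT.nd (nat_lit 78) (nat_lit 0) (nat_lit 0) (XT.lf (nat_lit 0) (nat_lit 2330261558) (nat_lit 76) (nat_lit 51192501765) (nat_lit 76) (nat_lit 50770375118) (nat_lit 2) (nat_lit 4) (nat_lit 3) (nat_lit 5) (nat_lit 3) (nat_lit 4) (nat_lit 397) (nat_lit 254) (nat_lit 249)) (XT.nd (nat_lit 78) (nat_lit 0) (nat_lit 0) (XT.lf (nat_lit 0) (nat_lit 9501457849) (nat_lit 76) (nat_lit 50161432780) (nat_lit 76) (nat_lit 49666549671) (nat_lit 2) (nat_lit 4) (nat_lit 3) (nat_lit 5) (nat_lit 3) (nat_lit 4) (nat_lit 398) (nat_lit 254) (nat_lit 248)) (XT.lf (nat_lit 0) (nat_lit 16828071764) (nat_lit 76) (nat_lit 49179398132) (nat_lit 76) (nat_lit 48615223155) (nat_lit 2) (nat_lit 4) (nat_lit 3) (nat_lit 5) (nat_lit 3) (nat_lit 4) (nat_lit 399) (nat_lit 254) (nat_lit 247)))) (XT.nd (nat_lit 78) (nat_lit 0) (nat_lit 0) (XT.lf (nat_lit 0) (nat_lit 24327547621) (nat_lit 76)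 (nat_lit 48244059645) (nat_lit 76) (nat_lit 47613892412) (nat_lit 2) (nat_lit 4) (nat_lit 3) (nat_lit 5) (nat_lit 3) (nat_lit 4) (nat_lit 400) (nat_lit 254) (nat_lit 246)) (XT.nd (nat_lit 78) (nat_lit 0) (nat_lit 0) (XT.lf (nat_lit 0) (nat_lit 32017741315) (nat_lit 76) (nat_lit 47353190321) (nat_lit 76) (nat_lit 46660173321) (nat_lit 2) (nat_lit 4) (nat_lit 3) (nat_lit 5) (nat_lit 3) (nat_lit 4) (nat_lit 401) (nat_lit 254) (nat_lit 245)) (XT.lf (nat_lit 0) (nat_lit 39916962831) (nat_lit 76) (nat_lit 46504669043) (nat_lit 76) (nat_lit 45751795122) (nat_lit 2) (nat_lit 4) (nat_lit 3) (nat_lit 5) (nat_lit 3) (nat_lit 4) (nat_lit 402) (nat_lit 254) (nat_lit 244))))) (XT.nd (nat_lit 234) (nat_lit 0) (nat_lit 0) (XT.nd (nat_lit 78) (nat_lit 0) (nat_lit 0) (XT.lf (nat_lit 0) (nat_lit 48044019840) (nat_lit 76) (nat_lit 45696475523) (nat_lit 76) (nat_lit 44886595010) (nat_lit 2) (nat_lit 4) (nat_lit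 3) (nat_lit 5) (nat_lit 3) (nat_lit 4) (nat_lit 403) (nat_lit 254) (nat_lit 243)) (XT.nd (nat_lit 78) (nat_lit 0) (nat_lit 0) (XT.lf (nat_lit 0) (nat_lit 56418262477) (nat_lit 76) (nat_lit 44926685490) (nat_lit 76) (nat_lit 44062512985) (nat_lit 2) (nat_lit 4) (nat_lit 3) (nat_lit 5) (nat_lit 3) (nat_lit 4) (nat_lit 404) (nat_lit 254) (nat_lit 242)) (XT.lf (nat_lit 0) (nat_lit 65059629415) (nat_lit 76) (nat_lit 44193466110) (nat_lit 76) (nat_lit 43277586947) (nat_lit 2) (nat_lit 4) (nat_lit 3) (nat_lit 5) (nat_lit 3) (nat_lit 4) (nat_lit 405) (nat_lit 254) (nat_lit 241)))) (XT.nd (nat_lit 156) (nat_lit 0) (nat_lit 0) (XT.nd (nat_lit 78) (nat_lit 0) (nat_lit 0) (XT.lf (nat_lit 0) (nat_lit 73988695337) (nat_lit 76) (nat_lit 43495071625) (nat_lit 76) (nat_lit 42529948024) (nat_lit 2) (nat_lit 4) (nat_lit 3) (nat_lit 5) (nat_lit 3) (nat_lit 4) (nat_lit 406) (nat_lit 254) (nat_lit 240)) (XT.lf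 (nat_lit 0) (nat_lit 83226719925) (nat_lit 76) (nat_lit 42829839188) (nat_lit 76) (nat_lit 41817816123) (nat_lit 2) (nat_lit 4) (nat_lit 3) (nat_lit 5) (nat_lit 3) (nat_lit 4) (nat_lit 407) (nat_lit 254) (nat_lit 239))) (XT.nd (nat_lit 78) (nat_lit 0) (nat_lit 0) (XT.lf (nat_lit 0) (nat_lit 92795698474) (nat_lit 76) (nat_lit 42196184914) (nat_lit 76) (nat_lit 41139495693) (nat_lit 2) (nat_lit 4) (nat_lit 3) (nat_lit 5) (nat_lit 3) (nat_lit 4) (nat_lit 408) (nat_lit 254) (nat_lit 238)) (XT.lf (nat_lit 0) (nat_lit 102718414267) (nat_lit 76) (nat_lit 41592600102) (nat_lit 76) (nat_lit 40493371684) (nat_lit 2) (nat_lit 4) (nat_lit 3) (nat_lit 5) (nat_lit 3) (nat_lit 4) (nat_lit 409) (nat_lit 254) (nat_lit 237))))))))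
noncomputable def xc13 : XT := (XT.nd (nat_lit 1950) (nat_lit 0) (nat_lit 0) (XT.nd (nat_lit 936) (nat_lit 0) (nat_lit 0) (XT.nd (nat_lit 468) (nat_lit 0) (nat_lit 0) (XT.nd (nat_lit 234) (nat_lit 0) (nat_lit 0) (XT.nd (nat_lit 78) (nat_lit 0) (nat_lit 0) (XT.lf (nat_lit 0) (nat_lit 113018492818) (nat_lit 76) (nat_lit 41017647645) (nat_lit 76) (nat_lit 39877905707) (nat_lit 2) (nat_lit 4) (nat_lit 3) (nat_lit 5) (nat_lit 3) (nat_lit 4) (nat_lit 410) (nat_lit 254) (nat_lit 236)) (XT.nd (nat_lit 78) (nat_lit 0) (nat_lit 0) (XT.lf (nat_lit 0) (nat_lit 123720458123) (nat_lit 76) (nat_lit 40469958608) (nat_lit 76) (nat_lit 39291632366) (nat_lit 2) (nat_lit 4) (nat_lit 3) (nat_lit 5) (nat_lit 3) (nat_lit 4) (nat_lit 411) (nat_lit 254) (nat_lit 235)) (XT.lf (nat_lit 0) (nat_lit 134849791053) (nat_lit 76) (nat_lit 39948228972) (nat_lit 76) (nat_lit 38733155772) (nat_lit 2) (nat_lit 4) (nat_lit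 3) (nat_lit 5) (nat_lit 3) (nat_lit 4) (nat_lit 412) (nat_lit 254) (nat_lit 234)))) (XT.nd (nat_lit 78) (nat_lit 0) (nat_lit 0) (XT.lf (nat_lit 0) (nat_lit 146432990018) (nat_lit 76) (nat_lit 39451216520) (nat_lit 76) (nat_lit 38201146219) (nat_lit 2) (nat_lit 4) (nat_lit 3) (nat_lit 5) (nat_lit 3) (nat_lit 4) (nat_lit 413) (nat_lit 254) (nat_lit 233)) (XT.nd (nat_lit 78) (nat_lit 0) (nat_lit 0) (XT.lf (nat_lit 0) (nat_lit 158497634064) (nat_lit 76) (nat_lit 38977737892) (nat_lit 76) (nat_lit 37694337017) (nat_lit 2) (nat_lit 4) (nat_lit 3) (nat_lit 5) (nat_lit 3) (nat_lit 4) (nat_lit 414) (nat_lit 254) (nat_lit 232)) (XT.lf (nat_lit 0) (nat_lit 171072448534) (nat_lit 76) (nat_lit 38526665757) (nat_lit 76) (nat_lit 37211521479) (nat_lit 2) (nat_lit 4) (nat_lit 3) (nat_lit 5) (nat_lit 3) (nat_lit 4) (nat_lit 415) (nat_lit 254) (nat_lit 231))))) (XT.nd (nat_lit 234) (nat_lit 0) (nat_lit 0)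 (XT.nd (nat_lit 78) (nat_lit 0) (nat_lit 0) (XT.lf (nat_lit 0) (nat_lit 184187373463) (nat_lit 76) (nat_lit 38096926133) (nat_lit 76) (nat_lit 36751550042) (nat_lit 2) (nat_lit 4) (nat_lit 3) (nat_lit 5) (nat_lit 3) (nat_lit 4) (nat_lit 416) (nat_lit 254) (nat_lit 230)) (XT.nd (nat_lit 78) (nat_lit 0) (nat_lit 0) (XT.lf (nat_lit 0) (nat_lit 197873634861) (nat_lit 76) (nat_lit 37687495831) (nat_lit 76) (nat_lit 36313327538) (nat_lit 2) (nat_lit 4) (nat_lit 3) (nat_lit 5) (nat_lit 3) (nat_lit 4) (nat_lit 417) (nat_lit 254) (nat_lit 229)) (XT.lf (nat_lit 0) (nat_lit 212163819067) (nat_lit 76) (nat_lit 37297400017) (nat_lit 76) (nat_lit 35895810578) (nat_lit 2) (nat_lit 4) (nat_lit 3) (nat_lit 5) (nat_lit 3) (nat_lit 4) (nat_lit 418) (nat_lit 254) (nat_lit 228)))) (XT.nd (nat_lit 78) (nat_lit 0) (nat_lit 0) (XT.lf (nat_lit 0) (nat_lit 227091950327) (nat_lit 76) (nat_lit 36925709892) (nat_lit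 76) (nat_lit 35498005076) (nat_lit 2) (nat_lit 4) (nat_lit 3) (nat_lit 5) (nat_lit 3) (nat_lit 4) (nat_lit 419) (nat_lit 254) (nat_lit 227)) (XT.nd (nat_lit 78) (nat_lit 0) (nat_lit 0) (XT.lf (nat_lit 0) (nat_lit 242693571812) (nat_lit 76) (nat_lit 36571540478) (nat_lit 76) (nat_lit 35118963876) (nat_lit 2) (nat_lit 4) (nat_lit 3) (nat_lit 5) (nat_lit 3) (nat_lit 4) (nat_lit 420) (nat_lit 254) (nat_lit 226)) (XT.lf (nat_lit 0) (nat_lit 259005830239) (nat_lit 76) (nat_lit 36234048515) (nat_lit 76) (nat_lit 34757784497) (nat_lit 2) (nat_lit 4) (nat_lit 3) (nat_lit 5) (nat_lit 3) (nat_lit 4) (nat_lit 421) (nat_lit 254) (nat_lit 225)))))) (XT.nd (nat_lit 468) (nat_lit 0) (nat_lit 0) (XT.nd (nat_lit 234) (nat_lit 0) (nat_lit 0) (XT.nd (nat_lit 78) (nat_lit 0) (nat_lit 0) (XT.lf (nat_lit 0) (nat_lit 276067564320) (nat_lit 76) (nat_lit 35912430452) (nat_lit 76) (nat_lit 34413606990) (nat_lit 2)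 (nat_lit 4) (nat_lit 3) (nat_lit 5) (nat_lit 3) (nat_lit 4) (nat_lit 422) (nat_lit 254) (nat_lit 224)) (XT.nd (nat_lit 78) (nat_lit 0) (nat_lit 0) (XT.lf (nat_lit 0) (nat_lit 293919397229) (nat_lit 76) (nat_lit 35605920530) (nat_lit 76) (nat_lit 34085611883) (nat_lit 2) (nat_lit 4) (nat_lit 3) (nat_lit 5) (nat_lit 3) (nat_lit 4) (nat_lit 423) (nat_lit 254) (nat_lit 223)) (XT.lf (nat_lit 0) (nat_lit 312603833332) (nat_lit 76) (nat_lit 35313788965) (nat_lit 76) (nat_lit 33773018237) (nat_lit 2) (nat_lit 4) (nat_lit 3) (nat_lit 5) (nat_lit 3) (nat_lit 4) (nat_lit 424) (nat_lit 254) (nat_lit 222)))) (XT.nd (nat_lit 78) (nat_lit 0) (nat_lit 0) (XT.lf (nat_lit 0) (nat_lit 332165359381) (nat_lit 76) (nat_lit 35035340205) (nat_lit 76) (nat_lit 33475081781) (nat_lit 2) (nat_lit 4) (nat_lit 3) (nat_lit 5) (nat_lit 3) (nat_lit 4) (nat_lit 425) (nat_lit 254) (nat_lit 221)) (XT.nd (nat_lit 78) (nat_lit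 0) (nat_lit 0) (XT.lf (nat_lit 0) (nat_lit 352650550438) (nat_lit 76) (nat_lit 34769911276) (nat_lit 76) (nat_lit 33191093141) (nat_lit 2) (nat_lit 4) (nat_lit 3) (nat_lit 5) (nat_lit 3) (nat_lit 4) (nat_lit 426) (nat_lit 254) (nat_lit 220)) (XT.lf (nat_lit 0) (nat_lit 374108180768) (nat_lit 76) (nat_lit 34516870205) (nat_lit 76) (nat_lit 32920376156) (nat_lit 2) (nat_lit 4) (nat_lit 3) (nat_lit 5) (nat_lit 3) (nat_lit 4) (nat_lit 427) (nat_lit 254) (nat_lit 219))))) (XT.nd (nat_lit 234) (nat_lit 0) (nat_lit 0) (XT.nd (nat_lit 78) (nat_lit 0) (nat_lit 0) (XT.lf (nat_lit 0) (nat_lit 396589339966) (nat_lit 76) (nat_lit 34275614513) (nat_lit 76) (nat_lit 32662286260) (nat_lit 2) (nat_lit 4) (nat_lit 3) (nat_lit 5) (nat_lit 3) (nat_lit 4) (nat_lit 428) (nat_lit 254) (nat_lit 218)) (XT.nd (nat_lit 78) (nat_lit 0) (nat_lit 0) (XT.lf (nat_lit 0) (nat_lit 420147554602) (nat_lit 76) (nat_lit 34045569783)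 (nat_lit 76) (nat_lit 32416208953) (nat_lit 2) (nat_lit 4) (nat_lit 3) (nat_lit 5) (nat_lit 3) (nat_lit 4) (nat_lit 429) (nat_lit 254) (nat_lit 217)) (XT.lf (nat_lit 0) (nat_lit 444838915663) (nat_lit 76) (nat_lit 33826188288) (nat_lit 76) (nat_lit 32181558338) (nat_lit 2) (nat_lit 4) (nat_lit 3) (nat_lit 5) (nat_lit 3) (nat_lit 4) (nat_lit 430) (nat_lit 254) (nat_lit 216)))) (XT.nd (nat_lit 156) (nat_lit 0) (nat_lit 0) (XT.nd (nat_lit 78) (nat_lit 0) (nat_lit 0) (XT.lf (nat_lit 0) (nat_lit 470722212105) (nat_lit 76) (nat_lit 33616947691) (nat_lit 76) (nat_lit 31957775723) (nat_lit 2) (nat_lit 4) (nat_lit 3) (nat_lit 5) (nat_lit 3) (nat_lit 4) (nat_lit 431) (nat_lit 254) (nat_lit 215)) (XT.lf (nat_lit 0) (nat_lit 497859070822) (nat_lit 76) (nat_lit 33417349801) (nat_lit 76) (nat_lit 31744328291) (nat_lit 2) (nat_lit 4) (nat_lit 3) (nat_lit 5) (nat_lit 3) (nat_lit 4) (nat_lit 432) (nat_lit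 254) (nat_lit 214))) (XT.nd (nat_lit 78) (nat_lit 0) (nat_lit 0) (XT.lf (nat_lit 0) (nat_lit 526314103385) (nat_lit 76) (nat_lit 33226919384) (nat_lit 76) (nat_lit 31540707835) (nat_lit 2) (nat_lit 4) (nat_lit 3) (nat_lit 5) (nat_lit 3) (nat_lit 4) (nat_lit 433) (nat_lit 254) (nat_lit 213)) (XT.lf (nat_lit 0) (nat_lit 556155059870) (nat_lit 76) (nat_lit 33045203036) (nat_lit 76) (nat_lit 31346429544) (nat_lit 2) (nat_lit 4) (nat_lit 3) (nat_lit 5) (nat_lit 3) (nat_lit 4) (nat_lit 434) (nat_lit 254) (nat_lit 212))))))) (XT.nd (nat_lit 43680) (nat_lit 0) (nat_lit 0) (XT.nd (nat_lit 468) (nat_lit 0) (nat_lit 0) (XT.nd (nat_lit 234) (nat_lit 0) (nat_lit 0) (XT.nd (nat_lit 78) (nat_lit 0) (nat_lit 0) (XT.lf (nat_lit 0) (nat_lit 587452990174) (nat_lit 76) (nat_lit 32871768097) (nat_lit 76) (nat_lit 31161030850) (nat_lit 2) (nat_lit 4) (nat_lit 3) (nat_lit 5) (nat_lit 3) (nat_lit 4) (nat_lit 435)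 (nat_lit 254) (nat_lit 211)) (XT.nd (nat_lit 78) (nat_lit 0) (nat_lit 0) (XT.lf (nat_lit 0) (nat_lit 620282413178) (nat_lit 76) (nat_lit 32706201627) (nat_lit 76) (nat_lit 30984070328) (nat_lit 2) (nat_lit 4) (nat_lit 3) (nat_lit 5) (nat_lit 3) (nat_lit 4) (nat_lit 436) (nat_lit 254) (nat_lit 210)) (XT.lf (nat_lit 0) (nat_lit 654721494175) (nat_lit 76) (nat_lit 32548109421) (nat_lit 76) (nat_lit 30815126644) (nat_lit 2) (nat_lit 4) (nat_lit 3) (nat_lit 5) (nat_lit 3) (nat_lit 4) (nat_lit 437) (nat_lit 254) (nat_lit 209)))) (XT.nd (nat_lit 78) (nat_lit 0) (nat_lit 0) (XT.lf (nat_lit 0) (nat_lit 690852230978) (nat_lit 76) (nat_lit 32397115069) (nat_lit 76) (nat_lit 30653797551) (nat_lit 2) (nat_lit 4) (nat_lit 3) (nat_lit 5) (nat_lit 3) (nat_lit 4) (nat_lit 438) (nat_lit 254) (nat_lit 208)) (XT.nd (nat_lit 78) (nat_lit 0) (nat_lit 0) (XT.lf (nat_lit 0) (nat_lit 728760649150) (nat_lit 76)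 (nat_lit 32252859060) (nat_lit 76) (nat_lit 30499698931) (nat_lit 2) (nat_lit 4) (nat_lit 3) (nat_lit 5) (nat_lit 3) (nat_lit 4) (nat_lit 439) (nat_lit 254) (nat_lit 207)) (XT.lf (nat_lit 0) (nat_lit 768537006829) (nat_lit 76) (nat_lit 32114997928) (nat_lit 76) (nat_lit 30352463884) (nat_lit 2) (nat_lit 4) (nat_lit 3) (nat_lit 5) (nat_lit 3) (nat_lit 4) (nat_lit 440) (nat_lit 254) (nat_lit 206))))) (XT.nd (nat_lit 42978) (nat_lit 0) (nat_lit 76) (XT.nd (nat_lit 78) (nat_lit 0) (nat_lit 0) (XT.lf (nat_lit 0) (nat_lit 810276009629) (nat_lit 76) (nat_lit 31983203431) (nat_lit 76) (nat_lit 30211741849) (nat_lit 2) (nat_lit 4) (nat_lit 3) (nat_lit 5) (nat_lit 3) (nat_lit 4) (nat_lit 441) (nat_lit 254) (nat_lit 205)) (XT.nd (nat_lit 42822) (nat_lit 0) (nat_lit 76) (XT.lf (nat_lit 0) (nat_lit 854077036128) (nat_lit 76) (nat_lit 31857161774) (nat_lit 76) (nat_lit 30077197774) (nat_lit 2) (nat_lit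 4) (nat_lit 3) (nat_lit 5) (nat_lit 3) (nat_lit 4) (nat_lit 442) (nat_lit 254) (nat_lit 204)) (XT.lf (nat_lit 0) (nat_lit 7979116717) (nat_lit 152) (nat_lit 21670809822) (nat_lit 0) (nat_lit 7979116717) (nat_lit 3) (nat_lit 5) (nat_lit 5) (nat_lit 4) (nat_lit 3) (nat_lit 4) (nat_lit 390) (nat_lit 255) (nat_lit 255)))) (XT.nd (nat_lit 78) (nat_lit 0) (nat_lit 0) (XT.lf (nat_lit 0) (nat_lit 20883123925) (nat_lit 152) (nat_lit 37140432057) (nat_lit 0) (nat_lit 20785623308) (nat_lit 3) (nat_lit 5) (nat_lit 5) (nat_lit 4) (nat_lit 3) (nat_lit 4) (nat_lit 391) (nat_lit 255) (nat_lit 254)) (XT.nd (nat_lit 78) (nat_lit 0) (nat_lit 0) (XT.lf (nat_lit 0) (nat_lit 25921076504) (nat_lit 152) (nat_lit 30892701998) (nat_lit 0) (nat_lit 25730718156) (nat_lit 3) (nat_lit 5) (nat_lit 5) (nat_lit 4) (nat_lit 3) (nat_lit 4) (nat_lit 392) (nat_lit 255) (nat_lit 253)) (XT.lf (nat_lit 0) (nat_lit 31084086295)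 (nat_lit 152) (nat_lit 24583553917) (nat_lit 0) (nat_lit 30805292013) (nat_lit 3) (nat_lit 5) (nat_lit 5) (nat_lit 4) (nat_lit 3) (nat_lit 4) (nat_lit 393) (nat_lit 255) (nat_lit 252)))))) (XT.nd (nat_lit 468) (nat_lit 0) (nat_lit 0) (XT.nd (nat_lit 234) (nat_lit 76) (nat_lit 0) (XT.nd (nat_lit 78) (nat_lit 0) (nat_lit 0) (XT.lf (nat_lit 0) (nat_lit 36384446179) (nat_lit 152) (nat_lit 18197966033) (nat_lit 0) (nat_lit 36021427199) (nat_lit 3) (nat_lit 5) (nat_lit 5) (nat_lit 4) (nat_lit 3) (nat_lit 4) (nat_lit 394) (nat_lit 255) (nat_lit 251)) (XT.nd (nat_lit 78) (nat_lit 0) (nat_lit 0) (XT.lf (nat_lit 0) (nat_lit 41834776061) (nat_lit 152) (nat_lit 11720734567) (nat_lit 0) (nat_lit 41391543081) (nat_lit 3) (nat_lit 5) (nat_lit 5) (nat_lit 4) (nat_lit 3) (nat_lit 4) (nat_lit 395) (nat_lit 255) (nat_lit 250)) (XT.lf (nat_lit 0) (nat_lit 47448052916) (nat_lit 152) (nat_lit 5136437537) (nat_lit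 0) (nat_lit 46928425652) (nat_lit 3) (nat_lit 5) (nat_lit 5) (nat_lit 4) (nat_lit 3) (nat_lit 4) (nat_lit 396) (nat_lit 255) (nat_lit 249)))) (XT.nd (nat_lit 78) (nat_lit 0) (nat_lit 0) (XT.lf (nat_lit 0) (nat_lit 1622533145) (nat_lit 76) (nat_lit 51640440834) (nat_lit 76) (nat_lit 51048057107) (nat_lit 2) (nat_lit 4) (nat_lit 3) (nat_lit 5) (nat_lit 3) (nat_lit 4) (nat_lit 397) (nat_lit 255) (nat_lit 248)) (XT.nd (nat_lit 78) (nat_lit 0) (nat_lit 0) (XT.lf (nat_lit 0) (nat_lit 8694635685) (nat_lit 76) (nat_lit 50658439061) (nat_lit 76) (nat_lit 49996763467) (nat_lit 2) (nat_lit 4) (nat_lit 3) (nat_lit 5) (nat_lit 3) (nat_lit 4) (nat_lit 398) (nat_lit 255) (nat_lit 247)) (XT.lf (nat_lit 0) (nat_lit 15926874598) (nat_lit 76) (nat_lit 49723135093) (nat_lit 76) (nat_lit 48995467243) (nat_lit 2) (nat_lit 4) (nat_lit 3) (nat_lit 5) (nat_lit 3) (nat_lit 4) (nat_lit 399) (nat_lit 255) (nat_lit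 246))))) (XT.nd (nat_lit 234) (nat_lit 0) (nat_lit 0) (XT.nd (nat_lit 78) (nat_lit 0) (nat_lit 0) (XT.lf (nat_lit 0) (nat_lit 23336469501) (nat_lit 76) (nat_lit 48832302014) (nat_lit 76) (nat_lit 48041784397) (nat_lit 2) (nat_lit 4) (nat_lit 3) (nat_lit 5) (nat_lit 3) (nat_lit 4) (nat_lit 400) (nat_lit 255) (nat_lit 245)) (XT.nd (nat_lit 78) (nat_lit 0) (nat_lit 0) (XT.lf (nat_lit 0) (nat_lit 30941062286) (nat_lit 76) (nat_lit 47983818794) (nat_lit 76) (nat_lit 47133444256) (nat_lit 2) (nat_lit 4) (nat_lit 3) (nat_lit 5) (nat_lit 3) (nat_lit 4) (nat_lit 401) (nat_lit 255) (nat_lit 244)) (XT.lf (nat_lit 0) (nat_lit 38758759128) (nat_lit 76) (nat_lit 47175665234) (nat_lit 76) (nat_lit 46268284104) (nat_lit 2) (nat_lit 4) (nat_lit 3) (nat_lit 5) (nat_lit 3) (nat_lit 4) (nat_lit 402) (nat_lit 255) (nat_lit 243)))) (XT.nd (nat_lit 156) (nat_lit 0) (nat_lit 0) (XT.nd (nat_lit 78) (nat_lit 0)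 (nat_lit 0) (XT.lf (nat_lit 0) (nat_lit 46808173589) (nat_lit 76) (nat_lit 46405917159) (nat_lit 76) (nat_lit 45444244038) (nat_lit 2) (nat_lit 4) (nat_lit 3) (nat_lit 5) (nat_lit 3) (nat_lit 4) (nat_lit 403) (nat_lit 255) (nat_lit 242)) (XT.lf (nat_lit 0) (nat_lit 55108470943) (nat_lit 76) (nat_lit 45672741836) (nat_lit 76) (nat_lit 44659362055) (nat_lit 2) (nat_lit 4) (nat_lit 3) (nat_lit 5) (nat_lit 3) (nat_lit 4) (nat_lit 404) (nat_lit 255) (nat_lit 241))) (XT.nd (nat_lit 78) (nat_lit 0) (nat_lit 0) (XT.lf (nat_lit 0) (nat_lit 63679413801) (nat_lit 76) (nat_lit 44974393609) (nat_lit 76) (nat_lit 43911769391) (nat_lit 2) (nat_lit 4) (nat_lit 3) (nat_lit 5) (nat_lit 3) (nat_lit 4) (nat_lit 405) (nat_lit 255) (nat_lit 240)) (XT.lf (nat_lit 0) (nat_lit 72541409172) (nat_lit 76) (nat_lit 44309209745) (nat_lit 76) (nat_lit 43199686063) (nat_lit 2) (nat_lit 4) (nat_lit 3) (nat_lit 5) (nat_lit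 3) (nat_lit 4) (nat_lit 406) (nat_lit 255) (nat_lit 239))))))))
noncomputable def xc14 : XT := (XT.nd (nat_lit 1872) (nat_lit 0) (nat_lit 0) (XT.nd (nat_lit 936) (nat_lit 0) (nat_lit 0) (XT.nd (nat_lit 468) (nat_lit 0) (nat_lit 0) (XT.nd (nat_lit 234) (nat_lit 0) (nat_lit 0) (XT.nd (nat_lit 78) (nat_lit 0) (nat_lit 0) (XT.lf (nat_lit 0) (nat_lit 81715557044) (nat_lit 76) (nat_lit 43675606471) (nat_lit 76) (nat_lit 42521416633) (nat_lit 2) (nat_lit 4) (nat_lit 3) (nat_lit 5) (nat_lit 3) (nat_lit 4) (nat_lit 407) (nat_lit 255) (nat_lit 238)) (XT.nd (nat_lit 78) (nat_lit 0) (nat_lit 0) (XT.lf (nat_lit 0) (nat_lit 91223700625) (nat_lit 76) (nat_lit 43072075210) (nat_lit 76) (nat_lit 41875346175) (nat_lit 2) (nat_lit 4) (nat_lit 3) (nat_lit 5) (nat_lit 3) (nat_lit 4) (nat_lit 408) (nat_lit 255) (nat_lit 237)) (XT.lf (nat_lit 0) (nat_lit 101088478354) (nat_lit 76) (nat_lit 42497178981) (nat_lit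 76) (nat_lit 41259936426) (nat_lit 2) (nat_lit 4) (nat_lit 3) (nat_lit 5) (nat_lit 3) (nat_lit 4) (nat_lit 409) (nat_lit 255) (nat_lit 236)))) (XT.nd (nat_lit 78) (nat_lit 0) (nat_lit 0) (XT.lf (nat_lit 0) (nat_lit 111333377796) (nat_lit 76) (nat_lit 41949548984) (nat_lit 76) (nat_lit 40673722124) (nat_lit 2) (nat_lit 4) (nat_lit 3) (nat_lit 5) (nat_lit 3) (nat_lit 4) (nat_lit 410) (nat_lit 255) (nat_lit 235)) (XT.nd (nat_lit 78) (nat_lit 0) (nat_lit 0) (XT.lf (nat_lit 0) (nat_lit 121982791569) (nat_lit 76) (nat_lit 41427881339) (nat_lit 76) (nat_lit 40115307522) (nat_lit 2) (nat_lit 4) (nat_lit 3) (nat_lit 5) (nat_lit 3) (nat_lit 4) (nat_lit 411) (nat_lit 255) (nat_lit 234)) (XT.lf (nat_lit 0) (nat_lit 133062075420) (nat_lit 76) (nat_lit 40930933979) (nat_lit 76) (nat_lit 39583363060) (nat_lit 2) (nat_lit 4) (nat_lit 3) (nat_lit 5) (nat_lit 3) (nat_lit 4) (nat_lit 412) (nat_lit 255) (nat_lit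 233))))) (XT.nd (nat_lit 234) (nat_lit 0) (nat_lit 0) (XT.nd (nat_lit 78) (nat_lit 0) (nat_lit 0) (XT.lf (nat_lit 0) (nat_lit 144597608596) (nat_lit 76) (nat_lit 40457523696) (nat_lit 76) (nat_lit 39076622204) (nat_lit 2) (nat_lit 4) (nat_lit 3) (nat_lit 5) (nat_lit 3) (nat_lit 4) (nat_lit 413) (nat_lit 255) (nat_lit 232)) (XT.nd (nat_lit 78) (nat_lit 0) (nat_lit 0) (XT.lf (nat_lit 0) (nat_lit 156616856653) (nat_lit 76) (nat_lit 40006523324) (nat_lit 76) (nat_lit 38593878428) (nat_lit 2) (nat_lit 4) (nat_lit 3) (nat_lit 5) (nat_lit 3) (nat_lit 4) (nat_lit 414) (nat_lit 255) (nat_lit 231)) (XT.lf (nat_lit 0) (nat_lit 169148436847) (nat_lit 76) (nat_lit 39576859051) (nat_lit 76) (nat_lit 38133982343) (nat_lit 2) (nat_lit 4) (nat_lit 3) (nat_lit 5) (nat_lit 3) (nat_lit 4) (nat_lit 415) (nat_lit 255) (nat_lit 230)))) (XT.nd (nat_lit 78) (nat_lit 0) (nat_lit 0) (XT.lf (nat_lit 0) (nat_lit 182222186275)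 (nat_lit 76) (nat_lit 39167507868) (nat_lit 76) (nat_lit 37695838957) (nat_lit 2) (nat_lit 4) (nat_lit 3) (nat_lit 5) (nat_lit 3) (nat_lit 4) (nat_lit 416) (nat_lit 255) (nat_lit 229)) (XT.nd (nat_lit 78) (nat_lit 0) (nat_lit 0) (XT.lf (nat_lit 0) (nat_lit 195869232911) (nat_lit 76) (nat_lit 38777495128) (nat_lit 76) (nat_lit 37278405072) (nat_lit 2) (nat_lit 4) (nat_lit 3) (nat_lit 5) (nat_lit 3) (nat_lit 4) (nat_lit 417) (nat_lit 255) (nat_lit 228)) (XT.lf (nat_lit 0) (nat_lit 210122069724) (nat_lit 76) (nat_lit 38405892231) (nat_lit 76) (nat_lit 36880686798) (nat_lit 2) (nat_lit 4) (nat_lit 3) (nat_lit 5) (nat_lit 3) (nat_lit 4) (nat_lit 418) (nat_lit 255) (nat_lit 227)))))) (XT.nd (nat_lit 468) (nat_lit 0) (nat_lit 0) (XT.nd (nat_lit 234) (nat_lit 0) (nat_lit 0) (XT.nd (nat_lit 78) (nat_lit 0) (nat_lit 0) (XT.lf (nat_lit 0) (nat_lit 225014632039) (nat_lit 76) (nat_lit 38051814407) (nat_lit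 76) (nat_lit 36501737187) (nat_lit 2) (nat_lit 4) (nat_lit 3) (nat_lit 5) (nat_lit 3) (nat_lit 4) (nat_lit 419) (nat_lit 255) (nat_lit 226)) (XT.nd (nat_lit 78) (nat_lit 0) (nat_lit 0) (XT.lf (nat_lit 0) (nat_lit 240582378337) (nat_lit 76) (nat_lit 37714418613) (nat_lit 76) (nat_lit 36140653978) (nat_lit 2) (nat_lit 4) (nat_lit 3) (nat_lit 5) (nat_lit 3) (nat_lit 4) (nat_lit 420) (nat_lit 255) (nat_lit 225)) (XT.lf (nat_lit 0) (nat_lit 256862374683) (nat_lit 76) (nat_lit 37392901528) (nat_lit 76) (nat_lit 35796577448) (nat_lit 2) (nat_lit 4) (nat_lit 3) (nat_lit 5) (nat_lit 3) (nat_lit 4) (nat_lit 421) (nat_lit 255) (nat_lit 224)))) (XT.nd (nat_lit 78) (nat_lit 0) (nat_lit 0) (XT.lf (nat_lit 0) (nat_lit 273893382970) (nat_lit 76) (nat_lit 37086497633) (nat_lit 76) (nat_lit 35468688368) (nat_lit 2) (nat_lit 4) (nat_lit 3) (nat_lit 5) (nat_lit 3) (nat_lit 4) (nat_lit 422) (nat_lit 255) (nat_lit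 223)) (XT.nd (nat_lit 78) (nat_lit 0) (nat_lit 0) (XT.lf (nat_lit 0) (nat_lit 291715953220) (nat_lit 76) (nat_lit 36794477395) (nat_lit 76) (nat_lit 35156206050) (nat_lit 2) (nat_lit 4) (nat_lit 3) (nat_lit 5) (nat_lit 3) (nat_lit 4) (nat_lit 423) (nat_lit 255) (nat_lit 222)) (XT.lf (nat_lit 0) (nat_lit 310372520124) (nat_lit 76) (nat_lit 36516145529) (nat_lit 76) (nat_lit 34858386488) (nat_lit 2) (nat_lit 4) (nat_lit 3) (nat_lit 5) (nat_lit 3) (nat_lit 4) (nat_lit 424) (nat_lit 255) (nat_lit 221))))) (XT.nd (nat_lit 234) (nat_lit 0) (nat_lit 0) (XT.nd (nat_lit 78) (nat_lit 0) (nat_lit 0) (XT.lf (nat_lit 0) (nat_lit 329907504078) (nat_lit 76) (nat_lit 36250839339) (nat_lit 76) (nat_lit 34574520587) (nat_lit 2) (nat_lit 4) (nat_lit 3) (nat_lit 5) (nat_lit 3) (nat_lit 4) (nat_lit 425) (nat_lit 255) (nat_lit 220)) (XT.nd (nat_lit 78) (nat_lit 0) (nat_lit 0) (XT.lf (nat_lit 0) (nat_lit 350367416950)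 (nat_lit 76) (nat_lit 35997927144) (nat_lit 76) (nat_lit 34303932477) (nat_lit 2) (nat_lit 4) (nat_lit 3) (nat_lit 5) (nat_lit 3) (nat_lit 4) (nat_lit 426) (nat_lit 255) (nat_lit 219)) (XT.lf (nat_lit 0) (nat_lit 371800972817) (nat_lit 76) (nat_lit 35756806772) (nat_lit 76) (nat_lit 34045977901) (nat_lit 2) (nat_lit 4) (nat_lit 3) (nat_lit 5) (nat_lit 3) (nat_lit 4) (nat_lit 427) (nat_lit 255) (nat_lit 218)))) (XT.nd (nat_lit 78) (nat_lit 0) (nat_lit 0) (XT.lf (nat_lit 0) (nat_lit 394259203955) (nat_lit 76) (nat_lit 35526904127) (nat_lit 76) (nat_lit 33800042680) (nat_lit 2) (nat_lit 4) (nat_lit 3) (nat_lit 5) (nat_lit 3) (nat_lit 4) (nat_lit 428) (nat_lit 255) (nat_lit 217)) (XT.nd (nat_lit 78) (nat_lit 0) (nat_lit 0) (XT.lf (nat_lit 0) (nat_lit 417795582344) (nat_lit 76) (nat_lit 35307671822) (nat_lit 76) (nat_lit 33565541255) (nat_lit 2) (nat_lit 4) (nat_lit 3) (nat_lit 5) (nat_lit 3)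 (nat_lit 4) (nat_lit 429) (nat_lit 255) (nat_lit 216)) (XT.lf (nat_lit 0) (nat_lit 442466146980) (nat_lit 76) (nat_lit 35098587874) (nat_lit 76) (nat_lit 33341915289) (nat_lit 2) (nat_lit 4) (nat_lit 3) (nat_lit 5) (nat_lit 3) (nat_lit 4) (nat_lit 430) (nat_lit 255) (nat_lit 215))))))) (XT.nd (nat_lit 43524) (nat_lit 0) (nat_lit 0) (XT.nd (nat_lit 468) (nat_lit 0) (nat_lit 0) (XT.nd (nat_lit 234) (nat_lit 0) (nat_lit 0) (XT.nd (nat_lit 78) (nat_lit 0) (nat_lit 0) (XT.lf (nat_lit 0) (nat_lit 468329637301) (nat_lit 76) (nat_lit 34899154466) (nat_lit 76) (nat_lit 33128632340) (nat_lit 2) (nat_lit 4) (nat_lit 3) (nat_lit 5) (nat_lit 3) (nat_lit 4) (nat_lit 431) (nat_lit 255) (nat_lit 214)) (XT.nd (nat_lit 78) (nat_lit 0) (nat_lit 0) (XT.lf (nat_lit 0) (nat_lit 495447633048) (nat_lit 76) (nat_lit 34708896756) (nat_lit 76) (nat_lit 32925184589) (nat_lit 2) (nat_lit 4) (nat_lit 3) (nat_lit 5)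 (nat_lit 3) (nat_lit 4) (nat_lit 432) (nat_lit 255) (nat_lit 213)) (XT.lf (nat_lit 0) (nat_lit 523884700876) (nat_lit 76) (nat_lit 34527361748) (nat_lit 76) (nat_lit 32731087639) (nat_lit 2) (nat_lit 4) (nat_lit 3) (nat_lit 5) (nat_lit 3) (nat_lit 4) (nat_lit 433) (nat_lit 255) (nat_lit 212)))) (XT.nd (nat_lit 78) (nat_lit 0) (nat_lit 0) (XT.lf (nat_lit 0) (nat_lit 553708548090) (nat_lit 76) (nat_lit 34354117218) (nat_lit 76) (nat_lit 32545879354) (nat_lit 2) (nat_lit 4) (nat_lit 3) (nat_lit 5) (nat_lit 3) (nat_lit 4) (nat_lit 434) (nat_lit 255) (nat_lit 211)) (XT.nd (nat_lit 78) (nat_lit 0) (nat_lit 0) (XT.lf (nat_lit 0) (nat_lit 584990183850) (nat_lit 76) (nat_lit 34188750677) (nat_lit 76) (nat_lit 32369118761) (nat_lit 2) (nat_lit 4) (nat_lit 3) (nat_lit 5) (nat_lit 3) (nat_lit 4) (nat_lit 435) (nat_lit 255) (nat_lit 210)) (XT.lf (nat_lit 0) (nat_lit 617804088241) (nat_lit 76) (nat_lit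 34030868396) (nat_lit 76) (nat_lit 32200385002) (nat_lit 2) (nat_lit 4) (nat_lit 3) (nat_lit 5) (nat_lit 3) (nat_lit 4) (nat_lit 436) (nat_lit 255) (nat_lit 209))))) (XT.nd (nat_lit 234) (nat_lit 0) (nat_lit 0) (XT.nd (nat_lit 78) (nat_lit 0) (nat_lit 0) (XT.lf (nat_lit 0) (nat_lit 652228389607) (nat_lit 76) (nat_lit 33880094466) (nat_lit 76) (nat_lit 32039276330) (nat_lit 2) (nat_lit 4) (nat_lit 3) (nat_lit 5) (nat_lit 3) (nat_lit 4) (nat_lit 437) (nat_lit 255) (nat_lit 208)) (XT.nd (nat_lit 78) (nat_lit 0) (nat_lit 0) (XT.lf (nat_lit 0) (nat_lit 688345050570) (nat_lit 76) (nat_lit 33736069899) (nat_lit 76) (nat_lit 31885409153) (nat_lit 2) (nat_lit 4) (nat_lit 3) (nat_lit 5) (nat_lit 3) (nat_lit 4) (nat_lit 438) (nat_lit 255) (nat_lit 207)) (XT.lf (nat_lit 0) (nat_lit 726240063180) (nat_lit 76) (nat_lit 33598451781) (nat_lit 76) (nat_lit 31738417120) (nat_lit 2) (nat_lit 4) (nat_lit 3)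 (nat_lit 5) (nat_lit 3) (nat_lit 4) (nat_lit 439) (nat_lit 255) (nat_lit 206)))) (XT.nd (nat_lit 78) (nat_lit 0) (nat_lit 0) (XT.lf (nat_lit 0) (nat_lit 766003653657) (nat_lit 76) (nat_lit 33466912450) (nat_lit 76) (nat_lit 31597950251) (nat_lit 2) (nat_lit 4) (nat_lit 3) (nat_lit 5) (nat_lit 3) (nat_lit 4) (nat_lit 440) (nat_lit 255) (nat_lit 205)) (XT.nd (nat_lit 78) (nat_lit 0) (nat_lit 0) (XT.lf (nat_lit 0) (nat_lit 807730497218) (nat_lit 76) (nat_lit 33341138716) (nat_lit 76) (nat_lit 31463674100) (nat_lit 2) (nat_lit 4) (nat_lit 3) (nat_lit 5) (nat_lit 3) (nat_lit 4) (nat_lit 441) (nat_lit 255) (nat_lit 204)) (XT.lf (nat_lit 0) (nat_lit 851519943489) (nat_lit 76) (nat_lit 33220831119) (nat_lit 76) (nat_lit 31335268962) (nat_lit 2) (nat_lit 4) (nat_lit 3) (nat_lit 5) (nat_lit 3) (nat_lit 4) (nat_lit 442) (nat_lit 255) (nat_lit 203)))))) (XT.nd (nat_lit 468) (nat_lit 76) (nat_lit 0)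 (XT.nd (nat_lit 234) (nat_lit 0) (nat_lit 0) (XT.nd (nat_lit 78) (nat_lit 0) (nat_lit 0) (XT.lf (nat_lit 0) (nat_lit 3287489042) (nat_lit 152) (nat_lit 27760814993) (nat_lit 0) (nat_lit 3287489042) (nat_lit 3) (nat_lit 5) (nat_lit 5) (nat_lit 4) (nat_lit 3) (nat_lit 4) (nat_lit 388) (nat_lit 256) (nat_lit 256)) (XT.nd (nat_lit 78) (nat_lit 0) (nat_lit 0) (XT.lf (nat_lit 0) (nat_lit 11237054749) (nat_lit 152) (nat_lit 49511029489) (nat_lit 0) (nat_lit 11134679101) (nat_lit 3) (nat_lit 5) (nat_lit 5) (nat_lit 4) (nat_lit 3) (nat_lit 4) (nat_lit 389) (nat_lit 256) (nat_lit 255)) (XT.lf (nat_lit 0) (nat_lit 15992393687) (nat_lit 152) (nat_lit 43476591717) (nat_lit 0) (nat_lit 15792517422) (nat_lit 3) (nat_lit 5) (nat_lit 5) (nat_lit 4) (nat_lit 3) (nat_lit 4) (nat_lit 390) (nat_lit 256) (nat_lit 254)))) (XT.nd (nat_lit 78) (nat_lit 0) (nat_lit 0) (XT.lf (nat_lit 0) (nat_lit 20852317136) (nat_lit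 152) (nat_lit 37403948963) (nat_lit 0) (nat_lit 20559583140) (nat_lit 3) (nat_lit 5) (nat_lit 5) (nat_lit 4) (nat_lit 3) (nat_lit 4) (nat_lit 391) (nat_lit 256) (nat_lit 253)) (XT.nd (nat_lit 78) (nat_lit 0) (nat_lit 0) (XT.lf (nat_lit 0) (nat_lit 25828396341) (nat_lit 152) (nat_lit 31278642553) (nat_lit 0) (nat_lit 25447226411) (nat_lit 3) (nat_lit 5) (nat_lit 5) (nat_lit 4) (nat_lit 3) (nat_lit 4) (nat_lit 392) (nat_lit 256) (nat_lit 252)) (XT.lf (nat_lit 0) (nat_lit 30932479109) (nat_lit 152) (nat_lit 25086088424) (nat_lit 0) (nat_lit 30467084481) (nat_lit 3) (nat_lit 5) (nat_lit 5) (nat_lit 4) (nat_lit 3) (nat_lit 4) (nat_lit 393) (nat_lit 256) (nat_lit 251))))) (XT.nd (nat_lit 234) (nat_lit 76) (nat_lit 0) (XT.nd (nat_lit 78) (nat_lit 0) (nat_lit 0) (XT.lf (nat_lit 0) (nat_lit 36176718020) (nat_lit 152) (nat_lit 18811542400) (nat_lit 0) (nat_lit 35631109392) (nat_lit 3) (nat_lit 5)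 (nat_lit 5) (nat_lit 4) (nat_lit 3) (nat_lit 4) (nat_lit 394) (nat_lit 256) (nat_lit 250)) (XT.nd (nat_lit 78) (nat_lit 0) (nat_lit 0) (XT.lf (nat_lit 0) (nat_lit 41573599355) (nat_lit 152) (nat_lit 12440065085) (nat_lit 0) (nat_lit 40951596442) (nat_lit 3) (nat_lit 5) (nat_lit 5) (nat_lit 4) (nat_lit 3) (nat_lit 4) (nat_lit 395) (nat_lit 256) (nat_lit 249)) (XT.lf (nat_lit 0) (nat_lit 47135972832) (nat_lit 152) (nat_lit 5956486295) (nat_lit 0) (nat_lit 46441213458) (nat_lit 3) (nat_lit 5) (nat_lit 5) (nat_lit 4) (nat_lit 3) (nat_lit 4) (nat_lit 396) (nat_lit 256) (nat_lit 248)))) (XT.nd (nat_lit 156) (nat_lit 0) (nat_lit 0) (XT.nd (nat_lit 78) (nat_lit 0) (nat_lit 0) (XT.lf (nat_lit 0) (nat_lit 676276121) (nat_lit 76) (nat_lit 52211364643) (nat_lit 76) (nat_lit 51447313400) (nat_lit 2) (nat_lit 4) (nat_lit 3) (nat_lit 5) (nat_lit 3) (nat_lit 4) (nat_lit 397) (nat_lit 256) (nat_lit 247))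 (XT.lf (nat_lit 0) (nat_lit 7654003659) (nat_lit 76) (nat_lit 51276093550) (nat_lit 76) (nat_lit 50446050052) (nat_lit 2) (nat_lit 4) (nat_lit 3) (nat_lit 5) (nat_lit 3) (nat_lit 4) (nat_lit 398) (nat_lit 256) (nat_lit 246))) (XT.nd (nat_lit 78) (nat_lit 0) (nat_lit 0) (XT.lf (nat_lit 0) (nat_lit 14796361618) (nat_lit 76) (nat_lit 50385294990) (nat_lit 76) (nat_lit 49492401725) (nat_lit 2) (nat_lit 4) (nat_lit 3) (nat_lit 5) (nat_lit 3) (nat_lit 4) (nat_lit 399) (nat_lit 256) (nat_lit 245)) (XT.lf (nat_lit 0) (nat_lit 22120355612) (nat_lit 76) (nat_lit 49536848015) (nat_lit 76) (nat_lit 48584097829) (nat_lit 2) (nat_lit 4) (nat_lit 3) (nat_lit 5) (nat_lit 3) (nat_lit 4) (nat_lit 400) (nat_lit 256) (nat_lit 244))))))))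
noncomputable def xc15 : XT := (XT.nd (nat_lit 1950) (nat_lit 0) (nat_lit 0) (XT.nd (nat_lit 936) (nat_lit 0) (nat_lit 0) (XT.nd (nat_lit 468) (nat_lit 0) (nat_lit 0) (XT.nd (nat_lit 234) (nat_lit 0) (nat_lit 0) (XT.nd (nat_lit 78) (nat_lit 0) (nat_lit 0) (XT.lf (nat_lit 0) (nat_lit 29643423723) (nat_lit 76) (nat_lit 48728732513) (nat_lit 76) (nat_lit 47718975735) (nat_lit 2) (nat_lit 4) (nat_lit 3) (nat_lit 5) (nat_lit 3) (nat_lit 4) (nat_lit 401) (nat_lit 256) (nat_lit 243)) (XT.nd (nat_lit 78) (nat_lit 0) (nat_lit 0) (XT.lf (nat_lit 0) (nat_lit 37383478017) (nat_lit 76) (nat_lit 47959024398) (nat_lit 76) (nat_lit 46894975628) (nat_lit 2) (nat_lit 4) (nat_lit 3) (nat_lit 5) (nat_lit 3) (nat_lit 4) (nat_lit 402) (nat_lit 256) (nat_lit 242)) (XT.lf (nat_lit 0) (nat_lit 45358947195) (nat_lit 76) (nat_lit 47225891033) (nat_lit 76) (nat_lit 46110135604) (nat_lit 2) (nat_lit 4) (nat_lit 3)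 (nat_lit 5) (nat_lit 3) (nat_lit 4) (nat_lit 403) (nat_lit 256) (nat_lit 241)))) (XT.nd (nat_lit 78) (nat_lit 0) (nat_lit 0) (XT.lf (nat_lit 0) (nat_lit 53588820469) (nat_lit 76) (nat_lit 46527586862) (nat_lit 76) (nat_lit 45362586996) (nat_lit 2) (nat_lit 4) (nat_lit 3) (nat_lit 5) (nat_lit 3) (nat_lit 4) (nat_lit 404) (nat_lit 256) (nat_lit 240)) (XT.nd (nat_lit 78) (nat_lit 0) (nat_lit 0) (XT.lf (nat_lit 0) (nat_lit 62092692776) (nat_lit 76) (nat_lit 45862449257) (nat_lit 76) (nat_lit 44650549927) (nat_lit 2) (nat_lit 4) (nat_lit 3) (nat_lit 5) (nat_lit 3) (nat_lit 4) (nat_lit 405) (nat_lit 256) (nat_lit 239)) (XT.lf (nat_lit 0) (nat_lit 70890811431) (nat_lit 76) (nat_lit 45228894555) (nat_lit 76) (nat_lit 43972329069) (nat_lit 2) (nat_lit 4) (nat_lit 3) (nat_lit 5) (nat_lit 3) (nat_lit 4) (nat_lit 406) (nat_lit 256) (nat_lit 238))))) (XT.nd (nat_lit 234) (nat_lit 0) (nat_lit 0) (XT.nd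 (nat_lit 78) (nat_lit 0) (nat_lit 0) (XT.lf (nat_lit 0) (nat_lit 80004124335) (nat_lit 76) (nat_lit 44625414294) (nat_lit 76) (nat_lit 43326309612) (nat_lit 2) (nat_lit 4) (nat_lit 3) (nat_lit 5) (nat_lit 3) (nat_lit 4) (nat_lit 407) (nat_lit 256) (nat_lit 237)) (XT.nd (nat_lit 78) (nat_lit 0) (nat_lit 0) (XT.lf (nat_lit 0) (nat_lit 89454329852) (nat_lit 76) (nat_lit 44050571616) (nat_lit 76) (nat_lit 42710953413) (nat_lit 2) (nat_lit 4) (nat_lit 3) (nat_lit 5) (nat_lit 3) (nat_lit 4) (nat_lit 408) (nat_lit 256) (nat_lit 236)) (XT.lf (nat_lit 0) (nat_lit 99263928472) (nat_lit 76) (nat_lit 43502997847) (nat_lit 76) (nat_lit 42124795340) (nat_lit 2) (nat_lit 4) (nat_lit 3) (nat_lit 5) (nat_lit 3) (nat_lit 4) (nat_lit 409) (nat_lit 256) (nat_lit 235)))) (XT.nd (nat_lit 78) (nat_lit 0) (nat_lit 0) (XT.lf (nat_lit 0) (nat_lit 109456276382) (nat_lit 76) (nat_lit 42981389241) (nat_lit 76) (nat_lit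 41566439777) (nat_lit 2) (nat_lit 4) (nat_lit 3) (nat_lit 5) (nat_lit 3) (nat_lit 4) (nat_lit 410) (nat_lit 256) (nat_lit 234)) (XT.nd (nat_lit 78) (nat_lit 0) (nat_lit 0) (XT.lf (nat_lit 0) (nat_lit 120055641076) (nat_lit 76) (nat_lit 42484503873) (nat_lit 76) (nat_lit 41034557306) (nat_lit 2) (nat_lit 4) (nat_lit 3) (nat_lit 5) (nat_lit 3) (nat_lit 4) (nat_lit 411) (nat_lit 256) (nat_lit 233)) (XT.lf (nat_lit 0) (nat_lit 131087259138) (nat_lit 76) (nat_lit 42011158682) (nat_lit 76) (nat_lit 40527881541) (nat_lit 2) (nat_lit 4) (nat_lit 3) (nat_lit 5) (nat_lit 3) (nat_lit 4) (nat_lit 412) (nat_lit 256) (nat_lit 232)))))) (XT.nd (nat_lit 468) (nat_lit 0) (nat_lit 0) (XT.nd (nat_lit 234) (nat_lit 0) (nat_lit 0) (XT.nd (nat_lit 78) (nat_lit 0) (nat_lit 0) (XT.lf (nat_lit 0) (nat_lit 142577396325) (nat_lit 76) (nat_lit 41560226655) (nat_lit 76) (nat_lit 40045206111) (nat_lit 2) (nat_lit 4)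 (nat_lit 3) (nat_lit 5) (nat_lit 3) (nat_lit 4) (nat_lit 413) (nat_lit 256) (nat_lit 231)) (XT.nd (nat_lit 78) (nat_lit 0) (nat_lit 0) (XT.lf (nat_lit 0) (nat_lit 154553410106) (nat_lit 76) (nat_lit 41130634145) (nat_lit 76) (nat_lit 39585381789) (nat_lit 2) (nat_lit 4) (nat_lit 3) (nat_lit 5) (nat_lit 3) (nat_lit 4) (nat_lit 414) (nat_lit 256) (nat_lit 230)) (XT.lf (nat_lit 0) (nat_lit 167043814800) (nat_lit 76) (nat_lit 40721358313) (nat_lit 76) (nat_lit 39147313754) (nat_lit 2) (nat_lit 4) (nat_lit 3) (nat_lit 5) (nat_lit 3) (nat_lit 4) (nat_lit 415) (nat_lit 256) (nat_lit 229)))) (XT.nd (nat_lit 78) (nat_lit 0) (nat_lit 0) (XT.lf (nat_lit 0) (nat_lit 180078349465) (nat_lit 76) (nat_lit 40331424692) (nat_lit 76) (nat_lit 38729958988) (nat_lit 2) (nat_lit 4) (nat_lit 3) (nat_lit 5) (nat_lit 3) (nat_lit 4) (nat_lit 416) (nat_lit 256) (nat_lit 228)) (XT.nd (nat_lit 78) (nat_lit 0) (nat_lit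 0) (XT.lf (nat_lit 0) (nat_lit 193688048709) (nat_lit 76) (nat_lit 39959904869) (nat_lit 76) (nat_lit 38332323789) (nat_lit 2) (nat_lit 4) (nat_lit 3) (nat_lit 5) (nat_lit 3) (nat_lit 4) (nat_lit 417) (nat_lit 256) (nat_lit 227)) (XT.lf (nat_lit 0) (nat_lit 207905316576) (nat_lit 76) (nat_lit 39605914273) (nat_lit 76) (nat_lit 37953461406) (nat_lit 2) (nat_lit 4) (nat_lit 3) (nat_lit 5) (nat_lit 3) (nat_lit 4) (nat_lit 418) (nat_lit 256) (nat_lit 226))))) (XT.nd (nat_lit 234) (nat_lit 0) (nat_lit 0) (XT.nd (nat_lit 78) (nat_lit 0) (nat_lit 0) (XT.lf (nat_lit 0) (nat_lit 222764003704) (nat_lit 76) (nat_lit 39268610070) (nat_lit 76) (nat_lit 37592469786) (nat_lit 2) (nat_lit 4) (nat_lit 3) (nat_lit 5) (nat_lit 3) (nat_lit 4) (nat_lit 419) (nat_lit 256) (nat_lit 225)) (XT.nd (nat_lit 78) (nat_lit 0) (nat_lit 0) (XT.lf (nat_lit 0) (nat_lit 238299487921) (nat_lit 76) (nat_lit 38947189153) (nat_lit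 76) (nat_lit 37248489425) (nat_lit 2) (nat_lit 4) (nat_lit 3) (nat_lit 5) (nat_lit 3) (nat_lit 4) (nat_lit 420) (nat_lit 256) (nat_lit 224)) (XT.lf (nat_lit 0) (nat_lit 254548758473) (nat_lit 76) (nat_lit 38640886235) (nat_lit 76) (nat_lit 36920701323) (nat_lit 2) (nat_lit 4) (nat_lit 3) (nat_lit 5) (nat_lit 3) (nat_lit 4) (nat_lit 421) (nat_lit 256) (nat_lit 223)))) (XT.nd (nat_lit 156) (nat_lit 0) (nat_lit 0) (XT.nd (nat_lit 78) (nat_lit 0) (nat_lit 0) (XT.lf (nat_lit 0) (nat_lit 271550504102) (nat_lit 76) (nat_lit 38348972024) (nat_lit 76) (nat_lit 36608325031) (nat_lit 2) (nat_lit 4) (nat_lit 3) (nat_lit 5) (nat_lit 3) (nat_lit 4) (nat_lit 422) (nat_lit 256) (nat_lit 222)) (XT.lf (nat_lit 0) (nat_lit 289345205152) (nat_lit 76) (nat_lit 38070751486) (nat_lit 76) (nat_lit 36310616797) (nat_lit 2) (nat_lit 4) (nat_lit 3) (nat_lit 5) (nat_lit 3) (nat_lit 4) (nat_lit 423) (nat_lit 256) (nat_lit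 221))) (XT.nd (nat_lit 78) (nat_lit 0) (nat_lit 0) (XT.lf (nat_lit 0) (nat_lit 307975229961) (nat_lit 76) (nat_lit 37805562190) (nat_lit 76) (nat_lit 36026867791) (nat_lit 2) (nat_lit 4) (nat_lit 3) (nat_lit 5) (nat_lit 3) (nat_lit 4) (nat_lit 424) (nat_lit 256) (nat_lit 220)) (XT.lf (nat_lit 0) (nat_lit 327484935729) (nat_lit 76) (nat_lit 37552772734) (nat_lit 76) (nat_lit 35756402420) (nat_lit 2) (nat_lit 4) (nat_lit 3) (nat_lit 5) (nat_lit 3) (nat_lit 4) (nat_lit 425) (nat_lit 256) (nat_lit 219))))))) (XT.nd (nat_lit 936) (nat_lit 0) (nat_lit 0) (XT.nd (nat_lit 468) (nat_lit 0) (nat_lit 0) (XT.nd (nat_lit 234) (nat_lit 0) (nat_lit 0) (XT.nd (nat_lit 78) (nat_lit 0) (nat_lit 0) (XT.lf (nat_lit 0) (nat_lit 347920774139) (nat_lit 76) (nat_lit 37311781238) (nat_lit 76) (nat_lit 35498576719) (nat_lit 2) (nat_lit 4) (nat_lit 3) (nat_lit 5) (nat_lit 3) (nat_lit 4) (nat_lit 426) (nat_lit 256)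 (nat_lit 218)) (XT.nd (nat_lit 78) (nat_lit 0) (nat_lit 0) (XT.lf (nat_lit 0) (nat_lit 369331401946) (nat_lit 76) (nat_lit 37082013913) (nat_lit 76) (nat_lit 35252776818) (nat_lit 2) (nat_lit 4) (nat_lit 3) (nat_lit 5) (nat_lit 3) (nat_lit 4) (nat_lit 427) (nat_lit 256) (nat_lit 217)) (XT.lf (nat_lit 0) (nat_lit 391767796838) (nat_lit 76) (nat_lit 36862923693) (nat_lit 76) (nat_lit 35018417479) (nat_lit 2) (nat_lit 4) (nat_lit 3) (nat_lit 5) (nat_lit 3) (nat_lit 4) (nat_lit 428) (nat_lit 256) (nat_lit 216)))) (XT.nd (nat_lit 78) (nat_lit 0) (nat_lit 0) (XT.lf (nat_lit 0) (nat_lit 415283378801) (nat_lit 76) (nat_lit 36653988936) (nat_lit 76) (nat_lit 34794940703) (nat_lit 2) (nat_lit 4) (nat_lit 3) (nat_lit 5) (nat_lit 3) (nat_lit 4) (nat_lit 429) (nat_lit 256) (nat_lit 215)) (XT.nd (nat_lit 78) (nat_lit 0) (nat_lit 0) (XT.lf (nat_lit 0) (nat_lit 439934137316) (nat_lit 76) (nat_lit 36454712177)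 (nat_lit 76) (nat_lit 34581814402) (nat_lit 2) (nat_lit 4) (nat_lit 3) (nat_lit 5) (nat_lit 3) (nat_lit 4) (nat_lit 430) (nat_lit 256) (nat_lit 214)) (XT.lf (nat_lit 0) (nat_lit 465778764667) (nat_lit 76) (nat_lit 36264618949) (nat_lit 76) (nat_lit 34378531134) (nat_lit 2) (nat_lit 4) (nat_lit 3) (nat_lit 5) (nat_lit 3) (nat_lit 4) (nat_lit 431) (nat_lit 256) (nat_lit 213))))) (XT.nd (nat_lit 234) (nat_lit 0) (nat_lit 0) (XT.nd (nat_lit 78) (nat_lit 0) (nat_lit 0) (XT.lf (nat_lit 0) (nat_lit 492878795679) (nat_lit 76) (nat_lit 36083256647) (nat_lit 76) (nat_lit 34184606890) (nat_lit 2) (nat_lit 4) (nat_lit 3) (nat_lit 5) (nat_lit 3) (nat_lit 4) (nat_lit 432) (nat_lit 256) (nat_lit 212)) (XT.nd (nat_lit 78) (nat_lit 0) (nat_lit 0) (XT.lf (nat_lit 0) (nat_lit 521298754236) (nat_lit 76) (nat_lit 35910193458) (nat_lit 76) (nat_lit 33999579946) (nat_lit 2) (nat_lit 4) (nat_lit 3) (nat_lit 5)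 (nat_lit 3) (nat_lit 4) (nat_lit 433) (nat_lit 256) (nat_lit 211)) (XT.lf (nat_lit 0) (nat_lit 551106306906) (nat_lit 76) (nat_lit 35745017325) (nat_lit 76) (nat_lit 33823009761) (nat_lit 2) (nat_lit 4) (nat_lit 3) (nat_lit 5) (nat_lit 3) (nat_lit 4) (nat_lit 434) (nat_lit 256) (nat_lit 210)))) (XT.nd (nat_lit 78) (nat_lit 0) (nat_lit 0) (XT.lf (nat_lit 0) (nat_lit 582372424053) (nat_lit 76) (nat_lit 35587334974) (nat_lit 76) (nat_lit 33654475931) (nat_lit 2) (nat_lit 4) (nat_lit 3) (nat_lit 5) (nat_lit 3) (nat_lit 4) (nat_lit 435) (nat_lit 256) (nat_lit 209)) (XT.nd (nat_lit 78) (nat_lit 0) (nat_lit 0) (XT.lf (nat_lit 0) (nat_lit 615171548812) (nat_lit 76) (nat_lit 35436770968) (nat_lit 76) (nat_lit 33493577184) (nat_lit 2) (nat_lit 4) (nat_lit 3) (nat_lit 5) (nat_lit 3) (nat_lit 4) (nat_lit 436) (nat_lit 256) (nat_lit 208)) (XT.lf (nat_lit 0) (nat_lit 649581774339) (nat_lit 76) (nat_lit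 35292966823) (nat_lit 76) (nat_lit 33339930429) (nat_lit 2) (nat_lit 4) (nat_lit 3) (nat_lit 5) (nat_lit 3) (nat_lit 4) (nat_lit 437) (nat_lit 256) (nat_lit 207)))))) (XT.nd (nat_lit 42900) (nat_lit 0) (nat_lit 76) (XT.nd (nat_lit 234) (nat_lit 0) (nat_lit 0) (XT.nd (nat_lit 78) (nat_lit 0) (nat_lit 0) (XT.lf (nat_lit 0) (nat_lit 685685029740) (nat_lit 76) (nat_lit 35155580148) (nat_lit 76) (nat_lit 33193169839) (nat_lit 2) (nat_lit 4) (nat_lit 3) (nat_lit 5) (nat_lit 3) (nat_lit 4) (nat_lit 438) (nat_lit 256) (nat_lit 206)) (XT.nd (nat_lit 78) (nat_lit 0) (nat_lit 0) (XT.lf (nat_lit 0) (nat_lit 723567275149) (nat_lit 76) (nat_lit 35024283831) (nat_lit 76) (nat_lit 33052945984) (nat_lit 2) (nat_lit 4) (nat_lit 3) (nat_lit 5) (nat_lit 3) (nat_lit 4) (nat_lit 439) (nat_lit 256) (nat_lit 205)) (XT.lf (nat_lit 0) (nat_lit 763318706387) (nat_lit 76) (nat_lit 34898765263) (nat_lit 76) (nat_lit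 32918924998) (nat_lit 2) (nat_lit 4) (nat_lit 3) (nat_lit 5) (nat_lit 3) (nat_lit 4) (nat_lit 440) (nat_lit 256) (nat_lit 204)))) (XT.nd (nat_lit 78) (nat_lit 0) (nat_lit 0) (XT.lf (nat_lit 0) (nat_lit 805033969719) (nat_lit 76) (nat_lit 34778725589) (nat_lit 76) (nat_lit 32790787784) (nat_lit 2) (nat_lit 4) (nat_lit 3) (nat_lit 5) (nat_lit 3) (nat_lit 4) (nat_lit 441) (nat_lit 256) (nat_lit 203)) (XT.nd (nat_lit 42510) (nat_lit 0) (nat_lit 228) (XT.lf (nat_lit 0) (nat_lit 848812387202) (nat_lit 76) (nat_lit 34663879001) (nat_lit 76) (nat_lit 32668229254) (nat_lit 2) (nat_lit 4) (nat_lit 3) (nat_lit 5) (nat_lit 3) (nat_lit 4) (nat_lit 442) (nat_lit 256) (nat_lit 202)) (XT.lf (nat_lit 0) (nat_lit 29062008575) (nat_lit 76) (nat_lit 1146648299) (nat_lit 76) (nat_lit 1146648299) (nat_lit 5) (nat_lit 4) (nat_lit 6) (nat_lit 5) (nat_lit 6) (nat_lit 4) (nat_lit 386) (nat_lit 257) (nat_lit 257)))))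 (XT.nd (nat_lit 234) (nat_lit 0) (nat_lit 0) (XT.nd (nat_lit 78) (nat_lit 0) (nat_lit 0) (XT.lf (nat_lit 0) (nat_lit 2102557941) (nat_lit 152) (nat_lit 61522704163) (nat_lit 0) (nat_lit 1995063511) (nat_lit 3) (nat_lit 5) (nat_lit 5) (nat_lit 4) (nat_lit 3) (nat_lit 4) (nat_lit 387) (nat_lit 257) (nat_lit 256)) (XT.nd (nat_lit 78) (nat_lit 0) (nat_lit 0) (XT.lf (nat_lit 0) (nat_lit 6610846350) (nat_lit 152) (nat_lit 55663350663) (nat_lit 0) (nat_lit 6400976272) (nat_lit 3) (nat_lit 5) (nat_lit 5) (nat_lit 4) (nat_lit 3) (nat_lit 4) (nat_lit 388) (nat_lit 257) (nat_lit 255)) (XT.lf (nat_lit 0) (nat_lit 11204707620) (nat_lit 152) (nat_lit 49787722240) (nat_lit 0) (nat_lit 10897336924) (nat_lit 3) (nat_lit 5) (nat_lit 5) (nat_lit 4) (nat_lit 3) (nat_lit 4) (nat_lit 389) (nat_lit 257) (nat_lit 254)))) (XT.nd (nat_lit 156) (nat_lit 0) (nat_lit 0) (XT.nd (nat_lit 78) (nat_lit 0) (nat_lit 0) (XT.lf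 (nat_lit 0) (nat_lit 15895079516) (nat_lit 152) (nat_lit 43881829300) (nat_lit 0) (nat_lit 15494851090) (nat_lit 3) (nat_lit 5) (nat_lit 5) (nat_lit 4) (nat_lit 3) (nat_lit 4) (nat_lit 390) (nat_lit 257) (nat_lit 253)) (XT.lf (nat_lit 0) (nat_lit 20693129591) (nat_lit 152) (nat_lit 37931610196) (nat_lit 0) (nat_lit 20204465231) (nat_lit 3) (nat_lit 5) (nat_lit 5) (nat_lit 4) (nat_lit 3) (nat_lit 4) (nat_lit 391) (nat_lit 257) (nat_lit 252))) (XT.nd (nat_lit 78) (nat_lit 0) (nat_lit 0) (XT.lf (nat_lit 0) (nat_lit 25610281773) (nat_lit 152) (nat_lit 31922897738) (nat_lit 0) (nat_lit 25037392714) (nat_lit 3) (nat_lit 5) (nat_lit 5) (nat_lit 4) (nat_lit 3) (nat_lit 4) (nat_lit 392) (nat_lit 257) (nat_lit 251)) (XT.lf (nat_lit 0) (nat_lit 30658243568) (nat_lit 152) (nat_lit 25841385468) (nat_lit 0) (nat_lit 30005140510) (nat_lit 3) (nat_lit 5) (nat_lit 5) (nat_lit 4) (nat_lit 3) (nat_lit 4)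 (nat_lit 393) (nat_lit 257) (nat_lit 250))))))))
noncomputable def xc16 : XT := (XT.nd (nat_lit 1872) (nat_lit 0) (nat_lit 0) (XT.nd (nat_lit 936) (nat_lit 0) (nat_lit 0) (XT.nd (nat_lit 468) (nat_lit 0) (nat_lit 0) (XT.nd (nat_lit 234) (nat_lit 76) (nat_lit 0) (XT.nd (nat_lit 78) (nat_lit 0) (nat_lit 0) (XT.lf (nat_lit 0) (nat_lit 35849033931) (nat_lit 152) (nat_lit 19672593595) (nat_lit 0) (nat_lit 35119536588) (nat_lit 3) (nat_lit 5) (nat_lit 5) (nat_lit 4) (nat_lit 3) (nat_lit 4) (nat_lit 394) (nat_lit 257) (nat_lit 249)) (XT.nd (nat_lit 78) (nat_lit 0) (nat_lit 0) (XT.lf (nat_lit 0) (nat_lit 41195011889) (nat_lit 152) (nat_lit 13401834519) (nat_lit 0) (nat_lit 40392758084) (nat_lit 3) (nat_lit 5) (nat_lit 5) (nat_lit 4) (nat_lit 3) (nat_lit 4) (nat_lit 395) (nat_lit 257) (nat_lit 248)) (XT.lf (nat_lit 0) (nat_lit 46708905959) (nat_lit 152) (nat_lit 7014177862) (nat_lit 0) (nat_lit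 45837360286) (nat_lit 3) (nat_lit 5) (nat_lit 5) (nat_lit 4) (nat_lit 3) (nat_lit 4) (nat_lit 396) (nat_lit 257) (nat_lit 247)))) (XT.nd (nat_lit 78) (nat_lit 76) (nat_lit 0) (XT.lf (nat_lit 0) (nat_lit 52403844461) (nat_lit 152) (nat_lit 494414917) (nat_lit 0) (nat_lit 51466306532) (nat_lit 3) (nat_lit 5) (nat_lit 5) (nat_lit 4) (nat_lit 3) (nat_lit 4) (nat_lit 397) (nat_lit 257) (nat_lit 246)) (XT.nd (nat_lit 78) (nat_lit 0) (nat_lit 0) (XT.lf (nat_lit 0) (nat_lit 6377084075) (nat_lit 76) (nat_lit 52015866850) (nat_lit 76) (nat_lit 51015479155) (nat_lit 2) (nat_lit 4) (nat_lit 3) (nat_lit 5) (nat_lit 3) (nat_lit 4) (nat_lit 398) (nat_lit 257) (nat_lit 245)) (XT.lf (nat_lit 0) (nat_lit 13433841126) (nat_lit 76) (nat_lit 51167454395) (nat_lit 76) (nat_lit 50107209778) (nat_lit 2) (nat_lit 4) (nat_lit 3) (nat_lit 5) (nat_lit 3) (nat_lit 4) (nat_lit 399) (nat_lit 257) (nat_lit 244))))) (XT.nd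 (nat_lit 234) (nat_lit 0) (nat_lit 0) (XT.nd (nat_lit 78) (nat_lit 0) (nat_lit 0) (XT.lf (nat_lit 0) (nat_lit 20676310445) (nat_lit 76) (nat_lit 50359375137) (nat_lit 76) (nat_lit 49242123929) (nat_lit 2) (nat_lit 4) (nat_lit 3) (nat_lit 5) (nat_lit 3) (nat_lit 4) (nat_lit 400) (nat_lit 257) (nat_lit 243)) (XT.nd (nat_lit 78) (nat_lit 0) (nat_lit 0) (XT.lf (nat_lit 0) (nat_lit 28121736009) (nat_lit 76) (nat_lit 49589705080) (nat_lit 76) (nat_lit 48418161880) (nat_lit 2) (nat_lit 4) (nat_lit 3) (nat_lit 5) (nat_lit 3) (nat_lit 4) (nat_lit 401) (nat_lit 257) (nat_lit 242)) (XT.lf (nat_lit 0) (nat_lit 35787845019) (nat_lit 76) (nat_lit 48856611675) (nat_lit 76) (nat_lit 47633361816) (nat_lit 2) (nat_lit 4) (nat_lit 3) (nat_lit 5) (nat_lit 3) (nat_lit 4) (nat_lit 402) (nat_lit 257) (nat_lit 241)))) (XT.nd (nat_lit 78) (nat_lit 0) (nat_lit 0) (XT.lf (nat_lit 0) (nat_lit 43692890118) (nat_lit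 76) (nat_lit 48158349463) (nat_lit 76) (nat_lit 46885855167) (nat_lit 2) (nat_lit 4) (nat_lit 3) (nat_lit 5) (nat_lit 3) (nat_lit 4) (nat_lit 403) (nat_lit 257) (nat_lit 240)) (XT.nd (nat_lit 78) (nat_lit 0) (nat_lit 0) (XT.lf (nat_lit 0) (nat_lit 51855692841) (nat_lit 76) (nat_lit 47493255914) (nat_lit 76) (nat_lit 46173862153) (nat_lit 2) (nat_lit 4) (nat_lit 3) (nat_lit 5) (nat_lit 3) (nat_lit 4) (nat_lit 404) (nat_lit 257) (nat_lit 239)) (XT.lf (nat_lit 0) (nat_lit 60295688432) (nat_lit 76) (nat_lit 46859747471) (nat_lit 76) (nat_lit 45495687554) (nat_lit 2) (nat_lit 4) (nat_lit 3) (nat_lit 5) (nat_lit 3) (nat_lit 4) (nat_lit 405) (nat_lit 257) (nat_lit 238)))))) (XT.nd (nat_lit 468) (nat_lit 0) (nat_lit 0) (XT.nd (nat_lit 234) (nat_lit 0) (nat_lit 0) (XT.nd (nat_lit 78) (nat_lit 0) (nat_lit 0) (XT.lf (nat_lit 0) (nat_lit 69032972119) (nat_lit 76) (nat_lit 46256315782) (nat_lit 76)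 (nat_lit 44849716669) (nat_lit 2) (nat_lit 4) (nat_lit 3) (nat_lit 5) (nat_lit 3) (nat_lit 4) (nat_lit 406) (nat_lit 257) (nat_lit 237)) (XT.nd (nat_lit 78) (nat_lit 0) (nat_lit 0) (XT.lf (nat_lit 0) (nat_lit 78088346959) (nat_lit 76) (nat_lit 45681524104) (nat_lit 76) (nat_lit 44234411471) (nat_lit 2) (nat_lit 4) (nat_lit 3) (nat_lit 5) (nat_lit 3) (nat_lit 4) (nat_lit 407) (nat_lit 257) (nat_lit 236)) (XT.lf (nat_lit 0) (nat_lit 87483373367) (nat_lit 76) (nat_lit 45134003886) (nat_lit 76) (nat_lit 43648306948) (nat_lit 2) (nat_lit 4) (nat_lit 3) (nat_lit 5) (nat_lit 3) (nat_lit 4) (nat_lit 408) (nat_lit 257) (nat_lit 235)))) (XT.nd (nat_lit 78) (nat_lit 0) (nat_lit 0) (XT.lf (nat_lit 0) (nat_lit 97240420455) (nat_lit 76) (nat_lit 44612451508) (nat_lit 76) (nat_lit 43090007613) (nat_lit 2) (nat_lit 4) (nat_lit 3) (nat_lit 5) (nat_lit 3) (nat_lit 4) (nat_lit 409) (nat_lit 257) (nat_lit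 234)) (XT.nd (nat_lit 78) (nat_lit 0) (nat_lit 0) (XT.lf (nat_lit 0) (nat_lit 107382719286) (nat_lit 76) (nat_lit 44115625179) (nat_lit 76) (nat_lit 42558184182) (nat_lit 2) (nat_lit 4) (nat_lit 3) (nat_lit 5) (nat_lit 3) (nat_lit 4) (nat_lit 410) (nat_lit 257) (nat_lit 233)) (XT.lf (nat_lit 0) (nat_lit 117934418192) (nat_lit 76) (nat_lit 43642341980) (nat_lit 76) (nat_lit 42051570409) (nat_lit 2) (nat_lit 4) (nat_lit 3) (nat_lit 5) (nat_lit 3) (nat_lit 4) (nat_lit 411) (nat_lit 257) (nat_lit 232))))) (XT.nd (nat_lit 234) (nat_lit 0) (nat_lit 0) (XT.nd (nat_lit 78) (nat_lit 0) (nat_lit 0) (XT.lf (nat_lit 0) (nat_lit 128920640264) (nat_lit 76) (nat_lit 43191475044) (nat_lit 76) (nat_lit 41568960070) (nat_lit 2) (nat_lit 4) (nat_lit 3) (nat_lit 5) (nat_lit 3) (nat_lit 4) (nat_lit 412) (nat_lit 257) (nat_lit 231)) (XT.nd (nat_lit 78) (nat_lit 0) (nat_lit 0) (XT.lf (nat_lit 0) (nat_lit 140367543176)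 (nat_lit 76) (nat_lit 42761950880) (nat_lit 76) (nat_lit 41109204093) (nat_lit 2) (nat_lit 4) (nat_lit 3) (nat_lit 5) (nat_lit 3) (nat_lit 4) (nat_lit 413) (nat_lit 257) (nat_lit 230)) (XT.lf (nat_lit 0) (nat_lit 152302381456) (nat_lit 76) (nat_lit 42352746810) (nat_lit 76) (nat_lit 40671207821) (nat_lit 2) (nat_lit 4) (nat_lit 3) (nat_lit 5) (nat_lit 3) (nat_lit 4) (nat_lit 414) (nat_lit 257) (nat_lit 229)))) (XT.nd (nat_lit 78) (nat_lit 0) (nat_lit 0) (XT.lf (nat_lit 0) (nat_lit 164753571387) (nat_lit 76) (nat_lit 41962888540) (nat_lit 76) (nat_lit 40253928406) (nat_lit 2) (nat_lit 4) (nat_lit 3) (nat_lit 5) (nat_lit 3) (nat_lit 4) (nat_lit 415) (nat_lit 257) (nat_lit 228)) (XT.nd (nat_lit 78) (nat_lit 0) (nat_lit 0) (XT.lf (nat_lit 0) (nat_lit 177750758660) (nat_lit 76) (nat_lit 41591447836) (nat_lit 76) (nat_lit 39856372325) (nat_lit 2) (nat_lit 4) (nat_lit 3) (nat_lit 5) (nat_lit 3)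 (nat_lit 4) (nat_lit 416) (nat_lit 257) (nat_lit 227)) (XT.lf (nat_lit 0) (nat_lit 191324888958) (nat_lit 76) (nat_lit 41237540315) (nat_lit 76) (nat_lit 39477593017) (nat_lit 2) (nat_lit 4) (nat_lit 3) (nat_lit 5) (nat_lit 3) (nat_lit 4) (nat_lit 417) (nat_lit 257) (nat_lit 226))))))) (XT.nd (nat_lit 936) (nat_lit 0) (nat_lit 0) (XT.nd (nat_lit 468) (nat_lit 0) (nat_lit 0) (XT.nd (nat_lit 234) (nat_lit 0) (nat_lit 0) (XT.nd (nat_lit 78) (nat_lit 0) (nat_lit 0) (XT.lf (nat_lit 0) (nat_lit 205508281638) (nat_lit 76) (nat_lit 40900323340) (nat_lit 76) (nat_lit 39116688625) (nat_lit 2) (nat_lit 4) (nat_lit 3) (nat_lit 5) (nat_lit 3) (nat_lit 4) (nat_lit 418) (nat_lit 257) (nat_lit 225)) (XT.nd (nat_lit 78) (nat_lit 0) (nat_lit 0) (XT.lf (nat_lit 0) (nat_lit 220334706685) (nat_lit 76) (nat_lit 40578994013) (nat_lit 76) (nat_lit 38772799854) (nat_lit 2) (nat_lit 4) (nat_lit 3) (nat_lit 5) (nat_lit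 3) (nat_lit 4) (nat_lit 419) (nat_lit 257) (nat_lit 224)) (XT.lf (nat_lit 0) (nat_lit 235839465109) (nat_lit 76) (nat_lit 40272787264) (nat_lit 76) (nat_lit 38445107921) (nat_lit 2) (nat_lit 4) (nat_lit 3) (nat_lit 5) (nat_lit 3) (nat_lit 4) (nat_lit 420) (nat_lit 257) (nat_lit 223)))) (XT.nd (nat_lit 78) (nat_lit 0) (nat_lit 0) (XT.lf (nat_lit 0) (nat_lit 252059473002) (nat_lit 76) (nat_lit 39980974031) (nat_lit 76) (nat_lit 38132832607) (nat_lit 2) (nat_lit 4) (nat_lit 3) (nat_lit 5) (nat_lit 3) (nat_lit 4) (nat_lit 421) (nat_lit 257) (nat_lit 222)) (XT.nd (nat_lit 78) (nat_lit 0) (nat_lit 0) (XT.lf (nat_lit 0) (nat_lit 269033349430) (nat_lit 76) (nat_lit 39702859519) (nat_lit 76) (nat_lit 37835230399) (nat_lit 2) (nat_lit 4) (nat_lit 3) (nat_lit 5) (nat_lit 3) (nat_lit 4) (nat_lit 422) (nat_lit 257) (nat_lit 221)) (XT.lf (nat_lit 0) (nat_lit 286801508386) (nat_lit 76) (nat_lit 39437781551)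 (nat_lit 76) (nat_lit 37551592721) (nat_lit 2) (nat_lit 4) (nat_lit 3) (nat_lit 5) (nat_lit 3) (nat_lit 4) (nat_lit 423) (nat_lit 257) (nat_lit 220))))) (XT.nd (nat_lit 234) (nat_lit 0) (nat_lit 0) (XT.nd (nat_lit 78) (nat_lit 0) (nat_lit 0) (XT.lf (nat_lit 0) (nat_lit 305406255009) (nat_lit 76) (nat_lit 39185108989) (nat_lit 76) (nat_lit 37281244244) (nat_lit 2) (nat_lit 4) (nat_lit 3) (nat_lit 5) (nat_lit 3) (nat_lit 4) (nat_lit 424) (nat_lit 257) (nat_lit 219)) (XT.nd (nat_lit 78) (nat_lit 0) (nat_lit 0) (XT.lf (nat_lit 0) (nat_lit 324891886315) (nat_lit 76) (nat_lit 38944240232) (nat_lit 76) (nat_lit 37023541283) (nat_lit 2) (nat_lit 4) (nat_lit 3) (nat_lit 5) (nat_lit 3) (nat_lit 4) (nat_lit 425) (nat_lit 257) (nat_lit 218)) (XT.lf (nat_lit 0) (nat_lit 345304796665) (nat_lit 76) (nat_lit 38714601783) (nat_lit 76) (nat_lit 36777870258) (nat_lit 2) (nat_lit 4) (nat_lit 3) (nat_lit 5)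 (nat_lit 3) (nat_lit 4) (nat_lit 426) (nat_lit 257) (nat_lit 217)))) (XT.nd (nat_lit 78) (nat_lit 0) (nat_lit 0) (XT.lf (nat_lit 0) (nat_lit 366693588225) (nat_lit 76) (nat_lit 38495646883) (nat_lit 76) (nat_lit 36543646238) (nat_lit 2) (nat_lit 4) (nat_lit 3) (nat_lit 5) (nat_lit 3) (nat_lit 4) (nat_lit 427) (nat_lit 257) (nat_lit 216)) (XT.nd (nat_lit 78) (nat_lit 0) (nat_lit 0) (XT.lf (nat_lit 0) (nat_lit 389109186691) (nat_lit 76) (nat_lit 38286854211) (nat_lit 76) (nat_lit 36320311548) (nat_lit 2) (nat_lit 4) (nat_lit 3) (nat_lit 5) (nat_lit 3) (nat_lit 4) (nat_lit 428) (nat_lit 257) (nat_lit 215)) (XT.lf (nat_lit 0) (nat_lit 412604962534) (nat_lit 76) (nat_lit 38087726642) (nat_lit 76) (nat_lit 36107334437) (nat_lit 2) (nat_lit 4) (nat_lit 3) (nat_lit 5) (nat_lit 3) (nat_lit 4) (nat_lit 429) (nat_lit 257) (nat_lit 214)))))) (XT.nd (nat_lit 468) (nat_lit 0) (nat_lit 0) (XT.nd (nat_lit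 234) (nat_lit 0) (nat_lit 0) (XT.nd (nat_lit 78) (nat_lit 0) (nat_lit 0) (XT.lf (nat_lit 0) (nat_lit 437236858079) (nat_lit 76) (nat_lit 37897790063) (nat_lit 76) (nat_lit 35904207818) (nat_lit 2) (nat_lit 4) (nat_lit 3) (nat_lit 5) (nat_lit 3) (nat_lit 4) (nat_lit 430) (nat_lit 257) (nat_lit 213)) (XT.nd (nat_lit 78) (nat_lit 0) (nat_lit 0) (XT.lf (nat_lit 0) (nat_lit 463063520695) (nat_lit 76) (nat_lit 37716592243) (nat_lit 76) (nat_lit 35710448056) (nat_lit 2) (nat_lit 4) (nat_lit 3) (nat_lit 5) (nat_lit 3) (nat_lit 4) (nat_lit 431) (nat_lit 257) (nat_lit 212)) (XT.lf (nat_lit 0) (nat_lit 490146442436) (nat_lit 76) (nat_lit 37543701760) (nat_lit 76) (nat_lit 35525593818) (nat_lit 2) (nat_lit 4) (nat_lit 3) (nat_lit 5) (nat_lit 3) (nat_lit 4) (nat_lit 432) (nat_lit 257) (nat_lit 211)))) (XT.nd (nat_lit 78) (nat_lit 0) (nat_lit 0) (XT.lf (nat_lit 0) (nat_lit 518550106449) (nat_lit 76)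 (nat_lit 37378706969) (nat_lit 76) (nat_lit 35349204975) (nat_lit 2) (nat_lit 4) (nat_lit 3) (nat_lit 5) (nat_lit 3) (nat_lit 4) (nat_lit 433) (nat_lit 257) (nat_lit 210)) (XT.nd (nat_lit 78) (nat_lit 0) (nat_lit 0) (XT.lf (nat_lit 0) (nat_lit 548342140506) (nat_lit 76) (nat_lit 37221215026) (nat_lit 76) (nat_lit 35180861553) (nat_lit 2) (nat_lit 4) (nat_lit 3) (nat_lit 5) (nat_lit 3) (nat_lit 4) (nat_lit 434) (nat_lit 257) (nat_lit 209)) (XT.lf (nat_lit 0) (nat_lit 579593478021) (nat_lit 76) (nat_lit 37070850949) (nat_lit 76) (nat_lit 35020162735) (nat_lit 2) (nat_lit 4) (nat_lit 3) (nat_lit 5) (nat_lit 3) (nat_lit 4) (nat_lit 435) (nat_lit 257) (nat_lit 208))))) (XT.nd (nat_lit 234) (nat_lit 0) (nat_lit 0) (XT.nd (nat_lit 78) (nat_lit 0) (nat_lit 0) (XT.lf (nat_lit 0) (nat_lit 612378526941) (nat_lit 76) (nat_lit 36927256729) (nat_lit 76) (nat_lit 34866725904) (nat_lit 2) (nat_lit 4) (nat_lit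 3) (nat_lit 5) (nat_lit 3) (nat_lit 4) (nat_lit 436) (nat_lit 257) (nat_lit 207)) (XT.nd (nat_lit 78) (nat_lit 0) (nat_lit 0) (XT.lf (nat_lit 0) (nat_lit 646775346906) (nat_lit 76) (nat_lit 36790090475) (nat_lit 76) (nat_lit 34720185736) (nat_lit 2) (nat_lit 4) (nat_lit 3) (nat_lit 5) (nat_lit 3) (nat_lit 4) (nat_lit 437) (nat_lit 257) (nat_lit 206)) (XT.lf (nat_lit 0) (nat_lit 682865835106) (nat_lit 76) (nat_lit 36659025601) (nat_lit 76) (nat_lit 34580193323) (nat_lit 2) (nat_lit 4) (nat_lit 3) (nat_lit 5) (nat_lit 3) (nat_lit 4) (nat_lit 438) (nat_lit 257) (nat_lit 205)))) (XT.nd (nat_lit 156) (nat_lit 0) (nat_lit 0) (XT.nd (nat_lit 78) (nat_lit 0) (nat_lit 0) (XT.lf (nat_lit 0) (nat_lit 720735921275) (nat_lit 76) (nat_lit 36533750048) (nat_lit 76) (nat_lit 34446415353) (nat_lit 2) (nat_lit 4) (nat_lit 3) (nat_lit 5) (nat_lit 3) (nat_lit 4) (nat_lit 439) (nat_lit 257) (nat_lit 204)) (XT.lf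 (nat_lit 0) (nat_lit 760475772285) (nat_lit 76) (nat_lit 36413965539) (nat_lit 76) (nat_lit 34318533304) (nat_lit 2) (nat_lit 4) (nat_lit 3) (nat_lit 5) (nat_lit 3) (nat_lit 4) (nat_lit 440) (nat_lit 257) (nat_lit 203))) (XT.nd (nat_lit 78) (nat_lit 0) (nat_lit 0) (XT.lf (nat_lit 0) (nat_lit 802180006829) (nat_lit 76) (nat_lit 36299386875) (nat_lit 76) (nat_lit 34196242697) (nat_lit 2) (nat_lit 4) (nat_lit 3) (nat_lit 5) (nat_lit 3) (nat_lit 4) (nat_lit 441) (nat_lit 257) (nat_lit 202)) (XT.lf (nat_lit 0) (nat_lit 845947920703) (nat_lit 76) (nat_lit 36189741249) (nat_lit 76) (nat_lit 34079252363) (nat_lit 2) (nat_lit 4) (nat_lit 3) (nat_lit 5) (nat_lit 3) (nat_lit 4) (nat_lit 442) (nat_lit 257) (nat_lit 201))))))))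
noncomputable def xc17 : XT := (XT.nd (nat_lit 1950) (nat_lit 0) (nat_lit 0) (XT.nd (nat_lit 936) (nat_lit 76) (nat_lit 0) (XT.nd (nat_lit 468) (nat_lit 0) (nat_lit 0) (XT.nd (nat_lit 234) (nat_lit 152) (nat_lit 0) (XT.nd (nat_lit 78) (nat_lit 0) (nat_lit 0) (XT.lf (nat_lit 0) (nat_lit 18003707070) (nat_lit 76) (nat_lit 5324467404) (nat_lit 76) (nat_lit 5324467404) (nat_lit 5) (nat_lit 4) (nat_lit 6) (nat_lit 5) (nat_lit 6) (nat_lit 4) (nat_lit 384) (nat_lit 258) (nat_lit 258)) (XT.nd (nat_lit 78) (nat_lit 0) (nat_lit 0) (XT.lf (nat_lit 0) (nat_lit 46867279453) (nat_lit 76) (nat_lit 6595724692) (nat_lit 76) (nat_lit 6477212083) (nat_lit 5) (nat_lit 4) (nat_lit 6) (nat_lit 5) (nat_lit 6) (nat_lit 4) (nat_lit 385) (nat_lit 258) (nat_lit 257)) (XT.lf (nat_lit 0) (nat_lit 57984854407) (nat_lit 76) (nat_lit 2480337912) (nat_lit 76) (nat_lit 2248956150) (nat_lit 5) (nat_lit 4) (nat_lit 6) (nat_lit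 5) (nat_lit 6) (nat_lit 4) (nat_lit 386) (nat_lit 258) (nat_lit 256)))) (XT.nd (nat_lit 78) (nat_lit 0) (nat_lit 0) (XT.lf (nat_lit 0) (nat_lit 2068593456) (nat_lit 152) (nat_lit 61813231552) (nat_lit 0) (nat_lit 1745854226) (nat_lit 3) (nat_lit 5) (nat_lit 5) (nat_lit 4) (nat_lit 3) (nat_lit 4) (nat_lit 387) (nat_lit 258) (nat_lit 255)) (XT.nd (nat_lit 78) (nat_lit 0) (nat_lit 0) (XT.lf (nat_lit 0) (nat_lit 6508666470) (nat_lit 152) (nat_lit 56088850126) (nat_lit 0) (nat_lit 6088426623) (nat_lit 3) (nat_lit 5) (nat_lit 5) (nat_lit 4) (nat_lit 3) (nat_lit 4) (nat_lit 388) (nat_lit 258) (nat_lit 254)) (XT.lf (nat_lit 0) (nat_lit 11037560698) (nat_lit 152) (nat_lit 50341766534) (nat_lit 0) (nat_lit 10524463120) (nat_lit 3) (nat_lit 5) (nat_lit 5) (nat_lit 4) (nat_lit 3) (nat_lit 4) (nat_lit 389) (nat_lit 258) (nat_lit 253))))) (XT.nd (nat_lit 234) (nat_lit 0) (nat_lit 0) (XT.nd (nat_lit 78)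 (nat_lit 0) (nat_lit 0) (XT.lf (nat_lit 0) (nat_lit 15666059220) (nat_lit 152) (nat_lit 44558297244) (nat_lit 0) (nat_lit 15064525708) (nat_lit 3) (nat_lit 5) (nat_lit 5) (nat_lit 4) (nat_lit 3) (nat_lit 4) (nat_lit 390) (nat_lit 258) (nat_lit 252)) (XT.nd (nat_lit 78) (nat_lit 0) (nat_lit 0) (XT.lf (nat_lit 0) (nat_lit 20405182273) (nat_lit 152) (nat_lit 38724672092) (nat_lit 0) (nat_lit 19719424061) (nat_lit 3) (nat_lit 5) (nat_lit 5) (nat_lit 4) (nat_lit 3) (nat_lit 4) (nat_lit 391) (nat_lit 258) (nat_lit 251)) (XT.lf (nat_lit 0) (nat_lit 25266213481) (nat_lit 152) (nat_lit 32827001493) (nat_lit 0) (nat_lit 24500241270) (nat_lit 3) (nat_lit 5) (nat_lit 5) (nat_lit 4) (nat_lit 3) (nat_lit 4) (nat_lit 392) (nat_lit 258) (nat_lit 250)))) (XT.nd (nat_lit 78) (nat_lit 0) (nat_lit 0) (XT.lf (nat_lit 0) (nat_lit 30260726729) (nat_lit 152) (nat_lit 26851243374) (nat_lit 0) (nat_lit 29418360234)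 (nat_lit 3) (nat_lit 5) (nat_lit 5) (nat_lit 4) (nat_lit 3) (nat_lit 4) (nat_lit 393) (nat_lit 258) (nat_lit 249)) (XT.nd (nat_lit 78) (nat_lit 0) (nat_lit 0) (XT.lf (nat_lit 0) (nat_lit 35400613714) (nat_lit 152) (nat_lit 20783169741) (nat_lit 0) (nat_lit 34485490758) (nat_lit 3) (nat_lit 5) (nat_lit 5) (nat_lit 4) (nat_lit 3) (nat_lit 4) (nat_lit 394) (nat_lit 258) (nat_lit 248)) (XT.lf (nat_lit 0) (nat_lit 40698112264) (nat_lit 152) (nat_lit 14608332798) (nat_lit 0) (nat_lit 39713697439) (nat_lit 3) (nat_lit 5) (nat_lit 5) (nat_lit 4) (nat_lit 3) (nat_lit 4) (nat_lit 395) (nat_lit 258) (nat_lit 247)))))) (XT.nd (nat_lit 468) (nat_lit 0) (nat_lit 0) (XT.nd (nat_lit 234) (nat_lit 0) (nat_lit 0) (XT.nd (nat_lit 78) (nat_lit 76) (nat_lit 0) (XT.lf (nat_lit 0) (nat_lit 46165835470) (nat_lit 152) (nat_lit 8312030553) (nat_lit 0) (nat_lit 45115428390) (nat_lit 3) (nat_lit 5) (nat_lit 5) (nat_lit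 4) (nat_lit 3) (nat_lit 4) (nat_lit 396) (nat_lit 258) (nat_lit 246)) (XT.nd (nat_lit 78) (nat_lit 76) (nat_lit 0) (XT.lf (nat_lit 0) (nat_lit 51816801721) (nat_lit 152) (nat_lit 1879271811) (nat_lit 0) (nat_lit 50703544873) (nat_lit 3) (nat_lit 5) (nat_lit 5) (nat_lit 4) (nat_lit 3) (nat_lit 4) (nat_lit 397) (nat_lit 258) (nat_lit 245)) (XT.lf (nat_lit 0) (nat_lit 4860836651) (nat_lit 76) (nat_lit 52879520329) (nat_lit 76) (nat_lit 51706406560) (nat_lit 2) (nat_lit 4) (nat_lit 3) (nat_lit 5) (nat_lit 3) (nat_lit 4) (nat_lit 398) (nat_lit 258) (nat_lit 244)))) (XT.nd (nat_lit 78) (nat_lit 0) (nat_lit 0) (XT.lf (nat_lit 0) (nat_lit 11836069026) (nat_lit 76) (nat_lit 52071475590) (nat_lit 76) (nat_lit 50841355230) (nat_lit 2) (nat_lit 4) (nat_lit 3) (nat_lit 5) (nat_lit 3) (nat_lit 4) (nat_lit 399) (nat_lit 258) (nat_lit 243)) (XT.nd (nat_lit 78) (nat_lit 0) (nat_lit 0) (XT.lf (nat_lit 0)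 (nat_lit 19000895798) (nat_lit 76) (nat_lit 51301841778) (nat_lit 76) (nat_lit 50017429426) (nat_lit 2) (nat_lit 4) (nat_lit 3) (nat_lit 5) (nat_lit 3) (nat_lit 4) (nat_lit 400) (nat_lit 258) (nat_lit 242)) (XT.lf (nat_lit 0) (nat_lit 26372376078) (nat_lit 76) (nat_lit 50568786431) (nat_lit 76) (nat_lit 49232667420) (nat_lit 2) (nat_lit 4) (nat_lit 3) (nat_lit 5) (nat_lit 3) (nat_lit 4) (nat_lit 401) (nat_lit 258) (nat_lit 241))))) (XT.nd (nat_lit 234) (nat_lit 0) (nat_lit 0) (XT.nd (nat_lit 78) (nat_lit 0) (nat_lit 0) (XT.lf (nat_lit 0) (nat_lit 33968061010) (nat_lit 76) (nat_lit 49870564179) (nat_lit 76) (nat_lit 48485200731) (nat_lit 2) (nat_lit 4) (nat_lit 3) (nat_lit 5) (nat_lit 3) (nat_lit 4) (nat_lit 402) (nat_lit 258) (nat_lit 240)) (XT.nd (nat_lit 78) (nat_lit 0) (nat_lit 0) (XT.lf (nat_lit 0) (nat_lit 41806035557) (nat_lit 76) (nat_lit 49205512588) (nat_lit 76) (nat_lit 47773249676)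 (nat_lit 2) (nat_lit 4) (nat_lit 3) (nat_lit 5) (nat_lit 3) (nat_lit 4) (nat_lit 403) (nat_lit 258) (nat_lit 239)) (XT.lf (nat_lit 0) (nat_lit 49904961563) (nat_lit 76) (nat_lit 48572048202) (nat_lit 76) (nat_lit 47095119133) (nat_lit 2) (nat_lit 4) (nat_lit 3) (nat_lit 5) (nat_lit 3) (nat_lit 4) (nat_lit 404) (nat_lit 258) (nat_lit 238)))) (XT.nd (nat_lit 156) (nat_lit 0) (nat_lit 0) (XT.nd (nat_lit 78) (nat_lit 0) (nat_lit 0) (XT.lf (nat_lit 0) (nat_lit 58284122187) (nat_lit 76) (nat_lit 47968662771) (nat_lit 76) (nat_lit 46449194507) (nat_lit 2) (nat_lit 4) (nat_lit 3) (nat_lit 5) (nat_lit 3) (nat_lit 4) (nat_lit 405) (nat_lit 258) (nat_lit 237)) (XT.lf (nat_lit 0) (nat_lit 66963467810) (nat_lit 76) (nat_lit 47393919666) (nat_lit 76) (nat_lit 45833937881) (nat_lit 2) (nat_lit 4) (nat_lit 3) (nat_lit 5) (nat_lit 3) (nat_lit 4) (nat_lit 406) (nat_lit 258) (nat_lit 236))) (XT.nd (nat_lit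 78) (nat_lit 0) (nat_lit 0) (XT.lf (nat_lit 0) (nat_lit 75963663541) (nat_lit 76) (nat_lit 46846450448) (nat_lit 76) (nat_lit 45247884358) (nat_lit 2) (nat_lit 4) (nat_lit 3) (nat_lit 5) (nat_lit 3) (nat_lit 4) (nat_lit 407) (nat_lit 258) (nat_lit 235)) (XT.lf (nat_lit 0) (nat_lit 85306138417) (nat_lit 76) (nat_lit 46324951621) (nat_lit 76) (nat_lit 44689638574) (nat_lit 2) (nat_lit 4) (nat_lit 3) (nat_lit 5) (nat_lit 3) (nat_lit 4) (nat_lit 408) (nat_lit 258) (nat_lit 234))))))) (XT.nd (nat_lit 936) (nat_lit 0) (nat_lit 0) (XT.nd (nat_lit 468) (nat_lit 0) (nat_lit 0) (XT.nd (nat_lit 234) (nat_lit 0) (nat_lit 0) (XT.nd (nat_lit 78) (nat_lit 0) (nat_lit 0) (XT.lf (nat_lit 0) (nat_lit 95013136426) (nat_lit 76) (nat_lit 45828181520) (nat_lit 76) (nat_lit 44157871371) (nat_lit 2) (nat_lit 4) (nat_lit 3) (nat_lit 5) (nat_lit 3) (nat_lit 4) (nat_lit 409) (nat_lit 258) (nat_lit 233)) (XT.nd (nat_lit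 78) (nat_lit 0) (nat_lit 0) (XT.lf (nat_lit 0) (nat_lit 105107769468) (nat_lit 76) (nat_lit 45354957360) (nat_lit 76) (nat_lit 43651316637) (nat_lit 2) (nat_lit 4) (nat_lit 3) (nat_lit 5) (nat_lit 3) (nat_lit 4) (nat_lit 410) (nat_lit 258) (nat_lit 232)) (XT.lf (nat_lit 0) (nat_lit 115614072385) (nat_lit 76) (nat_lit 44904152416) (nat_lit 76) (nat_lit 43168768290) (nat_lit 2) (nat_lit 4) (nat_lit 3) (nat_lit 5) (nat_lit 3) (nat_lit 4) (nat_lit 411) (nat_lit 258) (nat_lit 231)))) (XT.nd (nat_lit 78) (nat_lit 0) (nat_lit 0) (XT.lf (nat_lit 0) (nat_lit 126557060182) (nat_lit 76) (nat_lit 44474693342) (nat_lit 76) (nat_lit 42709077404) (nat_lit 2) (nat_lit 4) (nat_lit 3) (nat_lit 5) (nat_lit 3) (nat_lit 4) (nat_lit 412) (nat_lit 258) (nat_lit 230)) (XT.nd (nat_lit 78) (nat_lit 0) (nat_lit 0) (XT.lf (nat_lit 0) (nat_lit 137962787592) (nat_lit 76) (nat_lit 44065557619) (nat_lit 76) (nat_lit 42271149478)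 (nat_lit 2) (nat_lit 4) (nat_lit 3) (nat_lit 5) (nat_lit 3) (nat_lit 4) (nat_lit 413) (nat_lit 258) (nat_lit 229)) (XT.lf (nat_lit 0) (nat_lit 149858411110) (nat_lit 76) (nat_lit 43675771112) (nat_lit 76) (nat_lit 41853941826) (nat_lit 2) (nat_lit 4) (nat_lit 3) (nat_lit 5) (nat_lit 3) (nat_lit 4) (nat_lit 414) (nat_lit 258) (nat_lit 228))))) (XT.nd (nat_lit 234) (nat_lit 0) (nat_lit 0) (XT.nd (nat_lit 78) (nat_lit 0) (nat_lit 0) (XT.lf (nat_lit 0) (nat_lit 162272253649) (nat_lit 76) (nat_lit 43304405759) (nat_lit 76) (nat_lit 41456461096) (nat_lit 2) (nat_lit 4) (nat_lit 3) (nat_lit 5) (nat_lit 3) (nat_lit 4) (nat_lit 415) (nat_lit 258) (nat_lit 227)) (XT.nd (nat_lit 78) (nat_lit 0) (nat_lit 0) (XT.lf (nat_lit 0) (nat_lit 175233871975) (nat_lit 76) (nat_lit 42950577356) (nat_lit 76) (nat_lit 41077760906) (nat_lit 2) (nat_lit 4) (nat_lit 3) (nat_lit 5) (nat_lit 3) (nat_lit 4) (nat_lit 416)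 (nat_lit 258) (nat_lit 226)) (XT.lf (nat_lit 0) (nat_lit 188774127087) (nat_lit 76) (nat_lit 42613443455) (nat_lit 76) (nat_lit 40716939589) (nat_lit 2) (nat_lit 4) (nat_lit 3) (nat_lit 5) (nat_lit 3) (nat_lit 4) (nat_lit 417) (nat_lit 258) (nat_lit 225)))) (XT.nd (nat_lit 78) (nat_lit 0) (nat_lit 0) (XT.lf (nat_lit 0) (nat_lit 202925257686) (nat_lit 76) (nat_lit 42292201357) (nat_lit 76) (nat_lit 40373138046) (nat_lit 2) (nat_lit 4) (nat_lit 3) (nat_lit 5) (nat_lit 3) (nat_lit 4) (nat_lit 418) (nat_lit 258) (nat_lit 224)) (XT.nd (nat_lit 78) (nat_lit 0) (nat_lit 0) (XT.lf (nat_lit 0) (nat_lit 217720956939) (nat_lit 76) (nat_lit 41986086198) (nat_lit 76) (nat_lit 40045537703) (nat_lit 2) (nat_lit 4) (nat_lit 3) (nat_lit 5) (nat_lit 3) (nat_lit 4) (nat_lit 419) (nat_lit 258) (nat_lit 223)) (XT.lf (nat_lit 0) (nat_lit 233196452704) (nat_lit 76) (nat_lit 41694369134) (nat_lit 76) (nat_lit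 39733358558) (nat_lit 2) (nat_lit 4) (nat_lit 3) (nat_lit 5) (nat_lit 3) (nat_lit 4) (nat_lit 420) (nat_lit 258) (nat_lit 222)))))) (XT.nd (nat_lit 468) (nat_lit 0) (nat_lit 0) (XT.nd (nat_lit 234) (nat_lit 0) (nat_lit 0) (XT.nd (nat_lit 78) (nat_lit 0) (nat_lit 0) (XT.lf (nat_lit 0) (nat_lit 249388591397) (nat_lit 76) (nat_lit 41416355599) (nat_lit 76) (nat_lit 39435857328) (nat_lit 2) (nat_lit 4) (nat_lit 3) (nat_lit 5) (nat_lit 3) (nat_lit 4) (nat_lit 421) (nat_lit 258) (nat_lit 221)) (XT.nd (nat_lit 78) (nat_lit 0) (nat_lit 0) (XT.lf (nat_lit 0) (nat_lit 266335925731) (nat_lit 76) (nat_lit 41151383658) (nat_lit 76) (nat_lit 39152325676) (nat_lit 2) (nat_lit 4) (nat_lit 3) (nat_lit 5) (nat_lit 3) (nat_lit 4) (nat_lit 422) (nat_lit 258) (nat_lit 220)) (XT.lf (nat_lit 0) (nat_lit 284078806501) (nat_lit 76) (nat_lit 40898822424) (nat_lit 76) (nat_lit 38882088527) (nat_lit 2) (nat_lit 4)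 (nat_lit 3) (nat_lit 5) (nat_lit 3) (nat_lit 4) (nat_lit 423) (nat_lit 258) (nat_lit 219)))) (XT.nd (nat_lit 78) (nat_lit 0) (nat_lit 0) (XT.lf (nat_lit 0) (nat_lit 302659478662) (nat_lit 76) (nat_lit 40658070561) (nat_lit 76) (nat_lit 38624502460) (nat_lit 2) (nat_lit 4) (nat_lit 3) (nat_lit 5) (nat_lit 3) (nat_lit 4) (nat_lit 424) (nat_lit 258) (nat_lit 218)) (XT.nd (nat_lit 78) (nat_lit 0) (nat_lit 0) (XT.lf (nat_lit 0) (nat_lit 322122181909) (nat_lit 76) (nat_lit 40428554851) (nat_lit 76) (nat_lit 38378954174) (nat_lit 2) (nat_lit 4) (nat_lit 3) (nat_lit 5) (nat_lit 3) (nat_lit 4) (nat_lit 425) (nat_lit 258) (nat_lit 217)) (XT.lf (nat_lit 0) (nat_lit 342513256011) (nat_lit 76) (nat_lit 40209728826) (nat_lit 76) (nat_lit 38144859030) (nat_lit 2) (nat_lit 4) (nat_lit 3) (nat_lit 5) (nat_lit 3) (nat_lit 4) (nat_lit 426) (nat_lit 258) (nat_lit 216))))) (XT.nd (nat_lit 234) (nat_lit 0) (nat_lit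 0) (XT.nd (nat_lit 78) (nat_lit 0) (nat_lit 0) (XT.lf (nat_lit 0) (nat_lit 363881251146) (nat_lit 76) (nat_lit 40001071474) (nat_lit 76) (nat_lit 37921659659) (nat_lit 2) (nat_lit 4) (nat_lit 3) (nat_lit 5) (nat_lit 3) (nat_lit 4) (nat_lit 427) (nat_lit 258) (nat_lit 215)) (XT.nd (nat_lit 78) (nat_lit 0) (nat_lit 0) (XT.lf (nat_lit 0) (nat_lit 386277043492) (nat_lit 76) (nat_lit 39802085991) (nat_lit 76) (nat_lit 37708824634) (nat_lit 2) (nat_lit 4) (nat_lit 3) (nat_lit 5) (nat_lit 3) (nat_lit 4) (nat_lit 428) (nat_lit 258) (nat_lit 214)) (XT.lf (nat_lit 0) (nat_lit 409753956364) (nat_lit 76) (nat_lit 39612298602) (nat_lit 76) (nat_lit 37505847205) (nat_lit 2) (nat_lit 4) (nat_lit 3) (nat_lit 5) (nat_lit 3) (nat_lit 4) (nat_lit 429) (nat_lit 258) (nat_lit 213)))) (XT.nd (nat_lit 156) (nat_lit 0) (nat_lit 0) (XT.nd (nat_lit 78) (nat_lit 0) (nat_lit 0) (XT.lf (nat_lit 0) (nat_lit 434367887174)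 (nat_lit 76) (nat_lit 39431257432) (nat_lit 76) (nat_lit 37312244092) (nat_lit 2) (nat_lit 4) (nat_lit 3) (nat_lit 5) (nat_lit 3) (nat_lit 4) (nat_lit 430) (nat_lit 258) (nat_lit 212)) (XT.lf (nat_lit 0) (nat_lit 460177440518) (nat_lit 76) (nat_lit 39258531430) (nat_lit 76) (nat_lit 37127554336) (nat_lit 2) (nat_lit 4) (nat_lit 3) (nat_lit 5) (nat_lit 3) (nat_lit 4) (nat_lit 431) (nat_lit 258) (nat_lit 211))) (XT.nd (nat_lit 78) (nat_lit 0) (nat_lit 0) (XT.lf (nat_lit 0) (nat_lit 487244067716) (nat_lit 76) (nat_lit 39093709345) (nat_lit 76) (nat_lit 36951338199) (nat_lit 2) (nat_lit 4) (nat_lit 3) (nat_lit 5) (nat_lit 3) (nat_lit 4) (nat_lit 432) (nat_lit 258) (nat_lit 210)) (XT.lf (nat_lit 0) (nat_lit 515632213116) (nat_lit 76) (nat_lit 38936398743) (nat_lit 76) (nat_lit 36783176118) (nat_lit 2) (nat_lit 4) (nat_lit 3) (nat_lit 5) (nat_lit 3) (nat_lit 4) (nat_lit 433) (nat_lit 258) (nat_lit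 209))))))))
noncomputable def xc18 : XT := (XT.nd (nat_lit 43992) (nat_lit 0) (nat_lit 0) (XT.nd (nat_lit 43056) (nat_lit 0) (nat_lit 76) (XT.nd (nat_lit 468) (nat_lit 0) (nat_lit 0) (XT.nd (nat_lit 234) (nat_lit 0) (nat_lit 0) (XT.nd (nat_lit 78) (nat_lit 0) (nat_lit 0) (XT.lf (nat_lit 0) (nat_lit 545409467541) (nat_lit 76) (nat_lit 38786225075) (nat_lit 76) (nat_lit 36622667709) (nat_lit 2) (nat_lit 4) (nat_lit 3) (nat_lit 5) (nat_lit 3) (nat_lit 4) (nat_lit 434) (nat_lit 258) (nat_lit 208)) (XT.nd (nat_lit 78) (nat_lit 0) (nat_lit 0) (XT.lf (nat_lit 0) (nat_lit 576646729217) (nat_lit 76) (nat_lit 38642830784) (nat_lit 76) (nat_lit 36469430807) (nat_lit 2) (nat_lit 4) (nat_lit 3) (nat_lit 5) (nat_lit 3) (nat_lit 4) (nat_lit 435) (nat_lit 258) (nat_lit 207)) (XT.lf (nat_lit 0) (nat_lit 609418372575) (nat_lit 76) (nat_lit 38505874455) (nat_lit 76) (nat_lit 36323100563) (nat_lit 2) (nat_lit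 4) (nat_lit 3) (nat_lit 5) (nat_lit 3) (nat_lit 4) (nat_lit 436) (nat_lit 258) (nat_lit 206)))) (XT.nd (nat_lit 78) (nat_lit 0) (nat_lit 0) (XT.lf (nat_lit 0) (nat_lit 643802425339) (nat_lit 76) (nat_lit 38375030003) (nat_lit 76) (nat_lit 36183328573) (nat_lit 2) (nat_lit 4) (nat_lit 3) (nat_lit 5) (nat_lit 3) (nat_lit 4) (nat_lit 437) (nat_lit 258) (nat_lit 205)) (XT.nd (nat_lit 78) (nat_lit 0) (nat_lit 0) (XT.lf (nat_lit 0) (nat_lit 679880754299) (nat_lit 76) (nat_lit 38249985892) (nat_lit 76) (nat_lit 36049782045) (nat_lit 2) (nat_lit 4) (nat_lit 3) (nat_lit 5) (nat_lit 3) (nat_lit 4) (nat_lit 438) (nat_lit 258) (nat_lit 204)) (XT.lf (nat_lit 0) (nat_lit 717739260240) (nat_lit 76) (nat_lit 38130444398) (nat_lit 76) (nat_lit 35922143011) (nat_lit 2) (nat_lit 4) (nat_lit 3) (nat_lit 5) (nat_lit 3) (nat_lit 4) (nat_lit 439) (nat_lit 258) (nat_lit 203))))) (XT.nd (nat_lit 42354) (nat_lit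 0) (nat_lit 228) (XT.nd (nat_lit 78) (nat_lit 0) (nat_lit 0) (XT.lf (nat_lit 0) (nat_lit 757468082462) (nat_lit 76) (nat_lit 38016120899) (nat_lit 76) (nat_lit 35800107569) (nat_lit 2) (nat_lit 4) (nat_lit 3) (nat_lit 5) (nat_lit 3) (nat_lit 4) (nat_lit 440) (nat_lit 258) (nat_lit 202)) (XT.nd (nat_lit 78) (nat_lit 0) (nat_lit 0) (XT.lf (nat_lit 0) (nat_lit 799161813398) (nat_lit 76) (nat_lit 37906743196) (nat_lit 76) (nat_lit 35683385159) (nat_lit 2) (nat_lit 4) (nat_lit 3) (nat_lit 5) (nat_lit 3) (nat_lit 4) (nat_lit 441) (nat_lit 258) (nat_lit 201)) (XT.lf (nat_lit 0) (nat_lit 842919723835) (nat_lit 76) (nat_lit 37802050867) (nat_lit 76) (nat_lit 35571697869) (nat_lit 2) (nat_lit 4) (nat_lit 3) (nat_lit 5) (nat_lit 3) (nat_lit 4) (nat_lit 442) (nat_lit 258) (nat_lit 200)))) (XT.nd (nat_lit 78) (nat_lit 0) (nat_lit 0) (XT.lf (nat_lit 0) (nat_lit 7555682052) (nat_lit 76) (nat_lit 9328093668)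 (nat_lit 76) (nat_lit 9328093668) (nat_lit 5) (nat_lit 4) (nat_lit 6) (nat_lit 5) (nat_lit 6) (nat_lit 4) (nat_lit 382) (nat_lit 259) (nat_lit 259)) (XT.nd (nat_lit 78) (nat_lit 0) (nat_lit 0) (XT.lf (nat_lit 0) (nat_lit 25379401646) (nat_lit 76) (nat_lit 14774057004) (nat_lit 76) (nat_lit 14649618764) (nat_lit 5) (nat_lit 4) (nat_lit 6) (nat_lit 5) (nat_lit 6) (nat_lit 4) (nat_lit 383) (nat_lit 259) (nat_lit 258)) (XT.lf (nat_lit 0) (nat_lit 35861293259) (nat_lit 76) (nat_lit 10845328188) (nat_lit 76) (nat_lit 10602377339) (nat_lit 5) (nat_lit 4) (nat_lit 6) (nat_lit 5) (nat_lit 6) (nat_lit 4) (nat_lit 384) (nat_lit 259) (nat_lit 257)))))) (XT.nd (nat_lit 468) (nat_lit 0) (nat_lit 0) (XT.nd (nat_lit 234) (nat_lit 0) (nat_lit 0) (XT.nd (nat_lit 78) (nat_lit 152) (nat_lit 0) (XT.lf (nat_lit 0) (nat_lit 46581995829) (nat_lit 76) (nat_lit 6860646775) (nat_lit 76) (nat_lit 6504826773) (nat_lit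 5) (nat_lit 4) (nat_lit 6) (nat_lit 5) (nat_lit 6) (nat_lit 4) (nat_lit 385) (nat_lit 259) (nat_lit 256)) (XT.nd (nat_lit 78) (nat_lit 152) (nat_lit 0) (XT.lf (nat_lit 0) (nat_lit 57567034837) (nat_lit 76) (nat_lit 2810525427) (nat_lit 76) (nat_lit 2347210995) (nat_lit 5) (nat_lit 4) (nat_lit 6) (nat_lit 5) (nat_lit 6) (nat_lit 4) (nat_lit 386) (nat_lit 259) (nat_lit 255)) (XT.lf (nat_lit 0) (nat_lit 1893089188) (nat_lit 152) (nat_lit 62394978061) (nat_lit 0) (nat_lit 1354336731) (nat_lit 3) (nat_lit 5) (nat_lit 5) (nat_lit 4) (nat_lit 3) (nat_lit 4) (nat_lit 387) (nat_lit 259) (nat_lit 254)))) (XT.nd (nat_lit 78) (nat_lit 0) (nat_lit 0) (XT.lf (nat_lit 0) (nat_lit 6268195160) (nat_lit 152) (nat_lit 56799141467) (nat_lit 0) (nat_lit 5636584972) (nat_lit 3) (nat_lit 5) (nat_lit 5) (nat_lit 4) (nat_lit 3) (nat_lit 4) (nat_lit 388) (nat_lit 259) (nat_lit 253)) (XT.nd (nat_lit 78) (nat_lit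 0) (nat_lit 0) (XT.lf (nat_lit 0) (nat_lit 10735216013) (nat_lit 152) (nat_lit 51174481525) (nat_lit 0) (nat_lit 10015169892) (nat_lit 3) (nat_lit 5) (nat_lit 5) (nat_lit 4) (nat_lit 3) (nat_lit 4) (nat_lit 389) (nat_lit 259) (nat_lit 252)) (XT.lf (nat_lit 0) (nat_lit 15304787513) (nat_lit 152) (nat_lit 45507606187) (nat_lit 0) (nat_lit 14500516692) (nat_lit 3) (nat_lit 5) (nat_lit 5) (nat_lit 4) (nat_lit 3) (nat_lit 4) (nat_lit 390) (nat_lit 259) (nat_lit 251))))) (XT.nd (nat_lit 234) (nat_lit 0) (nat_lit 0) (XT.nd (nat_lit 78) (nat_lit 0) (nat_lit 0) (XT.lf (nat_lit 0) (nat_lit 19987789591) (nat_lit 152) (nat_lit 39785022894) (nat_lit 0) (nat_lit 19103304772) (nat_lit 3) (nat_lit 5) (nat_lit 5) (nat_lit 4) (nat_lit 3) (nat_lit 4) (nat_lit 391) (nat_lit 259) (nat_lit 250)) (XT.nd (nat_lit 78) (nat_lit 0) (nat_lit 0) (XT.lf (nat_lit 0) (nat_lit 24795372253) (nat_lit 152) (nat_lit 33993106446)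 (nat_lit 0) (nat_lit 23834493148) (nat_lit 3) (nat_lit 5) (nat_lit 5) (nat_lit 4) (nat_lit 3) (nat_lit 4) (nat_lit 392) (nat_lit 259) (nat_lit 249)) (XT.lf (nat_lit 0) (nat_lit 29738982123) (nat_lit 152) (nat_lit 28118066567) (nat_lit 0) (nat_lit 28705346557) (nat_lit 3) (nat_lit 5) (nat_lit 5) (nat_lit 4) (nat_lit 3) (nat_lit 4) (nat_lit 393) (nat_lit 259) (nat_lit 248)))) (XT.nd (nat_lit 78) (nat_lit 0) (nat_lit 0) (XT.lf (nat_lit 0) (nat_lit 34830389701) (nat_lit 152) (nat_lit 22145915067) (nat_lit 0) (nat_lit 33727462267) (nat_lit 3) (nat_lit 5) (nat_lit 5) (nat_lit 4) (nat_lit 3) (nat_lit 4) (nat_lit 394) (nat_lit 259) (nat_lit 247)) (XT.nd (nat_lit 78) (nat_lit 0) (nat_lit 0) (XT.lf (nat_lit 0) (nat_lit 40081717387) (nat_lit 152) (nat_lit 16062432536) (nat_lit 0) (nat_lit 38912797697) (nat_lit 3) (nat_lit 5) (nat_lit 5) (nat_lit 4) (nat_lit 3) (nat_lit 4) (nat_lit 395) (nat_lit 259)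 (nat_lit 246)) (XT.lf (nat_lit 0) (nat_lit 45505468341) (nat_lit 152) (nat_lit 9853134493) (nat_lit 0) (nat_lit 44273698884) (nat_lit 3) (nat_lit 5) (nat_lit 5) (nat_lit 4) (nat_lit 3) (nat_lit 4) (nat_lit 396) (nat_lit 259) (nat_lit 245))))))) (XT.nd (nat_lit 936) (nat_lit 0) (nat_lit 0) (XT.nd (nat_lit 468) (nat_lit 0) (nat_lit 0) (XT.nd (nat_lit 234) (nat_lit 0) (nat_lit 0) (XT.nd (nat_lit 78) (nat_lit 76) (nat_lit 0) (XT.lf (nat_lit 0) (nat_lit 51114556257) (nat_lit 152) (nat_lit 3503236896) (nat_lit 0) (nat_lit 49822929879) (nat_lit 3) (nat_lit 5) (nat_lit 5) (nat_lit 4) (nat_lit 3) (nat_lit 4) (nat_lit 397) (nat_lit 259) (nat_lit 244)) (XT.nd (nat_lit 78) (nat_lit 0) (nat_lit 0) (XT.lf (nat_lit 0) (nat_lit 3101651271) (nat_lit 76) (nat_lit 53869110302) (nat_lit 76) (nat_lit 52520477332) (nat_lit 2) (nat_lit 4) (nat_lit 3) (nat_lit 5) (nat_lit 3) (nat_lit 4) (nat_lit 398) (nat_lit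 259) (nat_lit 243)) (XT.lf (nat_lit 0) (nat_lit 9999241099) (nat_lit 76) (nat_lit 53099511009) (nat_lit 76) (nat_lit 51696586047) (nat_lit 2) (nat_lit 4) (nat_lit 3) (nat_lit 5) (nat_lit 3) (nat_lit 4) (nat_lit 399) (nat_lit 259) (nat_lit 242)))) (XT.nd (nat_lit 78) (nat_lit 0) (nat_lit 0) (XT.lf (nat_lit 0) (nat_lit 17090122588) (nat_lit 76) (nat_lit 52366491907) (nat_lit 76) (nat_lit 50911860286) (nat_lit 2) (nat_lit 4) (nat_lit 3) (nat_lit 5) (nat_lit 3) (nat_lit 4) (nat_lit 400) (nat_lit 259) (nat_lit 241)) (XT.nd (nat_lit 78) (nat_lit 0) (nat_lit 0) (XT.lf (nat_lit 0) (nat_lit 24391178789) (nat_lit 76) (nat_lit 51668307712) (nat_lit 76) (nat_lit 50164431655) (nat_lit 2) (nat_lit 4) (nat_lit 3) (nat_lit 5) (nat_lit 3) (nat_lit 4) (nat_lit 401) (nat_lit 259) (nat_lit 240)) (XT.lf (nat_lit 0) (nat_lit 31919793169) (nat_lit 76) (nat_lit 51003296082) (nat_lit 76) (nat_lit 49452520560) (nat_lit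 2) (nat_lit 4) (nat_lit 3) (nat_lit 5) (nat_lit 3) (nat_lit 4) (nat_lit 402) (nat_lit 259) (nat_lit 239))))) (XT.nd (nat_lit 234) (nat_lit 0) (nat_lit 0) (XT.nd (nat_lit 78) (nat_lit 0) (nat_lit 0) (XT.lf (nat_lit 0) (nat_lit 39693891000) (nat_lit 76) (nat_lit 50369873653) (nat_lit 76) (nat_lit 48774431975) (nat_lit 2) (nat_lit 4) (nat_lit 3) (nat_lit 5) (nat_lit 3) (nat_lit 4) (nat_lit 403) (nat_lit 259) (nat_lit 238)) (XT.nd (nat_lit 78) (nat_lit 0) (nat_lit 0) (XT.lf (nat_lit 0) (nat_lit 47731982039) (nat_lit 76) (nat_lit 49766532280) (nat_lit 76) (nat_lit 48128551405) (nat_lit 2) (nat_lit 4) (nat_lit 3) (nat_lit 5) (nat_lit 3) (nat_lit 4) (nat_lit 404) (nat_lit 259) (nat_lit 237)) (XT.lf (nat_lit 0) (nat_lit 56053204598) (nat_lit 76) (nat_lit 49191835433) (nat_lit 76) (nat_lit 47513341038) (nat_lit 2) (nat_lit 4) (nat_lit 3) (nat_lit 5) (nat_lit 3) (nat_lit 4) (nat_lit 405) (nat_lit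 259) (nat_lit 236)))) (XT.nd (nat_lit 78) (nat_lit 0) (nat_lit 0) (XT.lf (nat_lit 0) (nat_lit 64677371112) (nat_lit 76) (nat_lit 48644414787) (nat_lit 76) (nat_lit 46927336088) (nat_lit 2) (nat_lit 4) (nat_lit 3) (nat_lit 5) (nat_lit 3) (nat_lit 4) (nat_lit 406) (nat_lit 259) (nat_lit 235)) (XT.nd (nat_lit 78) (nat_lit 0) (nat_lit 0) (XT.lf (nat_lit 0) (nat_lit 73625015310) (nat_lit 76) (nat_lit 48122966961) (nat_lit 76) (nat_lit 46369141304) (nat_lit 2) (nat_lit 4) (nat_lit 3) (nat_lit 5) (nat_lit 3) (nat_lit 4) (nat_lit 407) (nat_lit 259) (nat_lit 234)) (XT.lf (nat_lit 0) (nat_lit 82917441108) (nat_lit 76) (nat_lit 47626250411) (nat_lit 76) (nat_lit 45837427652) (nat_lit 2) (nat_lit 4) (nat_lit 3) (nat_lit 5) (nat_lit 3) (nat_lit 4) (nat_lit 408) (nat_lit 259) (nat_lit 233)))))) (XT.nd (nat_lit 468) (nat_lit 0) (nat_lit 0) (XT.nd (nat_lit 234) (nat_lit 0) (nat_lit 0) (XT.nd (nat_lit 78)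 (nat_lit 0) (nat_lit 0) (XT.lf (nat_lit 0) (nat_lit 92576773328) (nat_lit 76) (nat_lit 47153082478) (nat_lit 76) (nat_lit 45330929146) (nat_lit 2) (nat_lit 4) (nat_lit 3) (nat_lit 5) (nat_lit 3) (nat_lit 4) (nat_lit 409) (nat_lit 259) (nat_lit 232)) (XT.nd (nat_lit 78) (nat_lit 0) (nat_lit 0) (XT.lf (nat_lit 0) (nat_lit 102626010382) (nat_lit 76) (nat_lit 46702336573) (nat_lit 76) (nat_lit 44848439838) (nat_lit 2) (nat_lit 4) (nat_lit 3) (nat_lit 5) (nat_lit 3) (nat_lit 4) (nat_lit 410) (nat_lit 259) (nat_lit 231)) (XT.lf (nat_lit 0) (nat_lit 113089079022) (nat_lit 76) (nat_lit 46272939492) (nat_lit 76) (nat_lit 44388810944) (nat_lit 2) (nat_lit 4) (nat_lit 3) (nat_lit 5) (nat_lit 3) (nat_lit 4) (nat_lit 411) (nat_lit 259) (nat_lit 230)))) (XT.nd (nat_lit 78) (nat_lit 0) (nat_lit 0) (XT.lf (nat_lit 0) (nat_lit 123990891318) (nat_lit 76) (nat_lit 45863868859) (nat_lit 76) (nat_lit 43950948108)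 (nat_lit 2) (nat_lit 4) (nat_lit 3) (nat_lit 5) (nat_lit 3) (nat_lit 4) (nat_lit 412) (nat_lit 259) (nat_lit 229)) (XT.nd (nat_lit 78) (nat_lit 0) (nat_lit 0) (XT.lf (nat_lit 0) (nat_lit 135357403966) (nat_lit 76) (nat_lit 45474150698) (nat_lit 76) (nat_lit 43533808802) (nat_lit 2) (nat_lit 4) (nat_lit 3) (nat_lit 5) (nat_lit 3) (nat_lit 4) (nat_lit 413) (nat_lit 259) (nat_lit 228)) (XT.lf (nat_lit 0) (nat_lit 147215680092) (nat_lit 76) (nat_lit 45102857108) (nat_lit 76) (nat_lit 43136399835) (nat_lit 2) (nat_lit 4) (nat_lit 3) (nat_lit 5) (nat_lit 3) (nat_lit 4) (nat_lit 414) (nat_lit 259) (nat_lit 227))))) (XT.nd (nat_lit 234) (nat_lit 0) (nat_lit 0) (XT.nd (nat_lit 78) (nat_lit 0) (nat_lit 0) (XT.lf (nat_lit 0) (nat_lit 159593953684) (nat_lit 76) (nat_lit 44749104056) (nat_lit 76) (nat_lit 42757774997) (nat_lit 2) (nat_lit 4) (nat_lit 3) (nat_lit 5) (nat_lit 3) (nat_lit 4) (nat_lit 415)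 (nat_lit 259) (nat_lit 226)) (XT.nd (nat_lit 78) (nat_lit 0) (nat_lit 0) (XT.lf (nat_lit 0) (nat_lit 172521696825) (nat_lit 76) (nat_lit 44412049274) (nat_lit 76) (nat_lit 42397032798) (nat_lit 2) (nat_lit 4) (nat_lit 3) (nat_lit 5) (nat_lit 3) (nat_lit 4) (nat_lit 416) (nat_lit 259) (nat_lit 225)) (XT.lf (nat_lit 0) (nat_lit 186029689854) (nat_lit 76) (nat_lit 44090890250) (nat_lit 76) (nat_lit 42053314330) (nat_lit 2) (nat_lit 4) (nat_lit 3) (nat_lit 5) (nat_lit 3) (nat_lit 4) (nat_lit 417) (nat_lit 259) (nat_lit 224)))) (XT.nd (nat_lit 156) (nat_lit 0) (nat_lit 0) (XT.nd (nat_lit 78) (nat_lit 0) (nat_lit 0) (XT.lf (nat_lit 0) (nat_lit 200150094660) (nat_lit 76) (nat_lit 43784862319) (nat_lit 76) (nat_lit 41725801215) (nat_lit 2) (nat_lit 4) (nat_lit 3) (nat_lit 5) (nat_lit 3) (nat_lit 4) (nat_lit 418) (nat_lit 259) (nat_lit 223)) (XT.lf (nat_lit 0) (nat_lit 214916531255) (nat_lit 76)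 (nat_lit 43493236845) (nat_lit 76) (nat_lit 41413713659) (nat_lit 2) (nat_lit 4) (nat_lit 3) (nat_lit 5) (nat_lit 3) (nat_lit 4) (nat_lit 419) (nat_lit 259) (nat_lit 222))) (XT.nd (nat_lit 78) (nat_lit 0) (nat_lit 0) (XT.lf (nat_lit 0) (nat_lit 230364157820) (nat_lit 76) (nat_lit 43215319480) (nat_lit 76) (nat_lit 41116308598) (nat_lit 2) (nat_lit 4) (nat_lit 3) (nat_lit 5) (nat_lit 3) (nat_lit 4) (nat_lit 420) (nat_lit 259) (nat_lit 221)) (XT.lf (nat_lit 0) (nat_lit 246529754418) (nat_lit 76) (nat_lit 42950448516) (nat_lit 76) (nat_lit 40832877924) (nat_lit 2) (nat_lit 4) (nat_lit 3) (nat_lit 5) (nat_lit 3) (nat_lit 4) (nat_lit 421) (nat_lit 259) (nat_lit 220))))))))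
noncomputable def xc19 : XT := (XT.nd (nat_lit 43914) (nat_lit 0) (nat_lit 0) (XT.nd (nat_lit 936) (nat_lit 0) (nat_lit 0) (XT.nd (nat_lit 468) (nat_lit 0) (nat_lit 0) (XT.nd (nat_lit 234) (nat_lit 0) (nat_lit 0) (XT.nd (nat_lit 78) (nat_lit 0) (nat_lit 0) (XT.lf (nat_lit 0) (nat_lit 263451810567) (nat_lit 76) (nat_lit 42697993308) (nat_lit 76) (nat_lit 40562746802) (nat_lit 2) (nat_lit 4) (nat_lit 3) (nat_lit 5) (nat_lit 3) (nat_lit 4) (nat_lit 422) (nat_lit 259) (nat_lit 219)) (XT.nd (nat_lit 78) (nat_lit 0) (nat_lit 0) (XT.lf (nat_lit 0) (nat_lit 281170616874) (nat_lit 76) (nat_lit 42457352773) (nat_lit 76) (nat_lit 40305272062) (nat_lit 2) (nat_lit 4) (nat_lit 3) (nat_lit 5) (nat_lit 3) (nat_lit 4) (nat_lit 423) (nat_lit 259) (nat_lit 218)) (XT.lf (nat_lit 0) (nat_lit 299728360975) (nat_lit 76) (nat_lit 42227953957) (nat_lit 76) (nat_lit 40059840670) (nat_lit 2) (nat_lit 4) (nat_lit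 3) (nat_lit 5) (nat_lit 3) (nat_lit 4) (nat_lit 424) (nat_lit 259) (nat_lit 217)))) (XT.nd (nat_lit 78) (nat_lit 0) (nat_lit 0) (XT.lf (nat_lit 0) (nat_lit 319169227975) (nat_lit 76) (nat_lit 42009250672) (nat_lit 76) (nat_lit 39825868265) (nat_lit 2) (nat_lit 4) (nat_lit 3) (nat_lit 5) (nat_lit 3) (nat_lit 4) (nat_lit 425) (nat_lit 259) (nat_lit 216)) (XT.nd (nat_lit 78) (nat_lit 0) (nat_lit 0) (XT.lf (nat_lit 0) (nat_lit 339539505652) (nat_lit 76) (nat_lit 41800722196) (nat_lit 76) (nat_lit 39602797771) (nat_lit 2) (nat_lit 4) (nat_lit 3) (nat_lit 5) (nat_lit 3) (nat_lit 4) (nat_lit 426) (nat_lit 259) (nat_lit 215)) (XT.lf (nat_lit 0) (nat_lit 360887694667) (nat_lit 76) (nat_lit 41601872032) (nat_lit 76) (nat_lit 39390098065) (nat_lit 2) (nat_lit 4) (nat_lit 3) (nat_lit 5) (nat_lit 3) (nat_lit 4) (nat_lit 427) (nat_lit 259) (nat_lit 214))))) (XT.nd (nat_lit 234) (nat_lit 0) (nat_lit 0)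 (XT.nd (nat_lit 78) (nat_lit 0) (nat_lit 0) (XT.lf (nat_lit 0) (nat_lit 383264624041) (nat_lit 76) (nat_lit 41412226728) (nat_lit 76) (nat_lit 39187262722) (nat_lit 2) (nat_lit 4) (nat_lit 3) (nat_lit 5) (nat_lit 3) (nat_lit 4) (nat_lit 428) (nat_lit 259) (nat_lit 213)) (XT.nd (nat_lit 78) (nat_lit 0) (nat_lit 0) (XT.lf (nat_lit 0) (nat_lit 406723572179) (nat_lit 76) (nat_lit 41231334748) (nat_lit 76) (nat_lit 38993808799) (nat_lit 2) (nat_lit 4) (nat_lit 3) (nat_lit 5) (nat_lit 3) (nat_lit 4) (nat_lit 429) (nat_lit 259) (nat_lit 212)) (XT.lf (nat_lit 0) (nat_lit 431320393718) (nat_lit 76) (nat_lit 41058765396) (nat_lit 76) (nat_lit 38809275692) (nat_lit 2) (nat_lit 4) (nat_lit 3) (nat_lit 5) (nat_lit 3) (nat_lit 4) (nat_lit 430) (nat_lit 259) (nat_lit 211)))) (XT.nd (nat_lit 78) (nat_lit 0) (nat_lit 0) (XT.lf (nat_lit 0) (nat_lit 457113652519) (nat_lit 76) (nat_lit 40894107793) (nat_lit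 76) (nat_lit 38633224037) (nat_lit 2) (nat_lit 4) (nat_lit 3) (nat_lit 5) (nat_lit 3) (nat_lit 4) (nat_lit 431) (nat_lit 259) (nat_lit 210)) (XT.nd (nat_lit 78) (nat_lit 0) (nat_lit 0) (XT.lf (nat_lit 0) (nat_lit 484164761103) (nat_lit 76) (nat_lit 40736969897) (nat_lit 76) (nat_lit 38465234663) (nat_lit 2) (nat_lit 4) (nat_lit 3) (nat_lit 5) (nat_lit 3) (nat_lit 4) (nat_lit 432) (nat_lit 259) (nat_lit 209)) (XT.lf (nat_lit 0) (nat_lit 512538126871) (nat_lit 76) (nat_lit 40586977570) (nat_lit 76) (nat_lit 38304907594) (nat_lit 2) (nat_lit 4) (nat_lit 3) (nat_lit 5) (nat_lit 3) (nat_lit 4) (nat_lit 433) (nat_lit 259) (nat_lit 208)))))) (XT.nd (nat_lit 468) (nat_lit 0) (nat_lit 0) (XT.nd (nat_lit 234) (nat_lit 0) (nat_lit 0) (XT.nd (nat_lit 78) (nat_lit 0) (nat_lit 0) (XT.lf (nat_lit 0) (nat_lit 542301305457) (nat_lit 76) (nat_lit 40443773687) (nat_lit 76) (nat_lit 38151861101) (nat_lit 2)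 (nat_lit 4) (nat_lit 3) (nat_lit 5) (nat_lit 3) (nat_lit 4) (nat_lit 434) (nat_lit 259) (nat_lit 207)) (XT.nd (nat_lit 78) (nat_lit 0) (nat_lit 0) (XT.lf (nat_lit 0) (nat_lit 573525161571) (nat_lit 76) (nat_lit 40307017287) (nat_lit 76) (nat_lit 38005730786) (nat_lit 2) (nat_lit 4) (nat_lit 3) (nat_lit 5) (nat_lit 3) (nat_lit 4) (nat_lit 435) (nat_lit 259) (nat_lit 206)) (XT.lf (nat_lit 0) (nat_lit 606284037728) (nat_lit 76) (nat_lit 40176382760) (nat_lit 76) (nat_lit 37866168721) (nat_lit 2) (nat_lit 4) (nat_lit 3) (nat_lit 5) (nat_lit 3) (nat_lit 4) (nat_lit 436) (nat_lit 259) (nat_lit 205)))) (XT.nd (nat_lit 78) (nat_lit 0) (nat_lit 0) (XT.lf (nat_lit 0) (nat_lit 640655931252) (nat_lit 76) (nat_lit 40051559070) (nat_lit 76) (nat_lit 37732842614) (nat_lit 2) (nat_lit 4) (nat_lit 3) (nat_lit 5) (nat_lit 3) (nat_lit 4) (nat_lit 437) (nat_lit 259) (nat_lit 204)) (XT.nd (nat_lit 78) (nat_lit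 0) (nat_lit 0) (XT.lf (nat_lit 0) (nat_lit 676722679985) (nat_lit 76) (nat_lit 39932249019) (nat_lit 76) (nat_lit 37605435023) (nat_lit 2) (nat_lit 4) (nat_lit 3) (nat_lit 5) (nat_lit 3) (nat_lit 4) (nat_lit 438) (nat_lit 259) (nat_lit 203)) (XT.lf (nat_lit 0) (nat_lit 714570157137) (nat_lit 76) (nat_lit 39818168535) (nat_lit 76) (nat_lit 37483642595) (nat_lit 2) (nat_lit 4) (nat_lit 3) (nat_lit 5) (nat_lit 3) (nat_lit 4) (nat_lit 439) (nat_lit 259) (nat_lit 202))))) (XT.nd (nat_lit 42198) (nat_lit 0) (nat_lit 228) (XT.nd (nat_lit 78) (nat_lit 0) (nat_lit 0) (XT.lf (nat_lit 0) (nat_lit 754288475750) (nat_lit 76) (nat_lit 39709045998) (nat_lit 76) (nat_lit 37367175350) (nat_lit 2) (nat_lit 4) (nat_lit 3) (nat_lit 5) (nat_lit 3) (nat_lit 4) (nat_lit 440) (nat_lit 259) (nat_lit 201)) (XT.nd (nat_lit 78) (nat_lit 0) (nat_lit 0) (XT.lf (nat_lit 0) (nat_lit 795972203250) (nat_lit 76) (nat_lit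 39604621592) (nat_lit 76) (nat_lit 37255755985) (nat_lit 2) (nat_lit 4) (nat_lit 3) (nat_lit 5) (nat_lit 3) (nat_lit 4) (nat_lit 441) (nat_lit 259) (nat_lit 200)) (XT.lf (nat_lit 0) (nat_lit 839720586605) (nat_lit 76) (nat_lit 39504646687) (nat_lit 76) (nat_lit 37149119214) (nat_lit 2) (nat_lit 4) (nat_lit 3) (nat_lit 5) (nat_lit 3) (nat_lit 4) (nat_lit 442) (nat_lit 259) (nat_lit 199)))) (XT.nd (nat_lit 156) (nat_lit 0) (nat_lit 0) (XT.nd (nat_lit 78) (nat_lit 76) (nat_lit 0) (XT.lf (nat_lit 0) (nat_lit 10861579225) (nat_lit 152) (nat_lit 2284170197) (nat_lit 0) (nat_lit 10861579225) (nat_lit 6) (nat_lit 5) (nat_lit 8) (nat_lit 4) (nat_lit 6) (nat_lit 4) (nat_lit 380) (nat_lit 260) (nat_lit 260)) (XT.lf (nat_lit 0) (nat_lit 5032732925) (nat_lit 76) (nat_lit 22631622509) (nat_lit 76) (nat_lit 22500962357) (nat_lit 5) (nat_lit 4) (nat_lit 6) (nat_lit 5) (nat_lit 6) (nat_lit 4) (nat_lit 381)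 (nat_lit 260) (nat_lit 259))) (XT.nd (nat_lit 78) (nat_lit 0) (nat_lit 0) (XT.lf (nat_lit 0) (nat_lit 14957937179) (nat_lit 76) (nat_lit 18862400385) (nat_lit 76) (nat_lit 18607301993) (nat_lit 5) (nat_lit 4) (nat_lit 6) (nat_lit 5) (nat_lit 6) (nat_lit 4) (nat_lit 382) (nat_lit 260) (nat_lit 258)) (XT.lf (nat_lit 0) (nat_lit 25079853840) (nat_lit 76) (nat_lit 15052225191) (nat_lit 76) (nat_lit 14678614189) (nat_lit 5) (nat_lit 4) (nat_lit 6) (nat_lit 5) (nat_lit 6) (nat_lit 4) (nat_lit 383) (nat_lit 260) (nat_lit 257))))))) (XT.nd (nat_lit 936) (nat_lit 76) (nat_lit 0) (XT.nd (nat_lit 468) (nat_lit 0) (nat_lit 0) (XT.nd (nat_lit 234) (nat_lit 152) (nat_lit 0) (XT.nd (nat_lit 78) (nat_lit 0) (nat_lit 0) (XT.lf (nat_lit 0) (nat_lit 35422582710) (nat_lit 76) (nat_lit 11192025079) (nat_lit 76) (nat_lit 10705544926) (nat_lit 5) (nat_lit 4) (nat_lit 6) (nat_lit 5) (nat_lit 6) (nat_lit 4) (nat_lit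 384) (nat_lit 260) (nat_lit 256)) (XT.nd (nat_lit 78) (nat_lit 0) (nat_lit 0) (XT.lf (nat_lit 0) (nat_lit 46010749333) (nat_lit 76) (nat_lit 7272609098) (nat_lit 76) (nat_lit 6678634514) (nat_lit 5) (nat_lit 4) (nat_lit 6) (nat_lit 5) (nat_lit 6) (nat_lit 4) (nat_lit 385) (nat_lit 260) (nat_lit 255)) (XT.lf (nat_lit 0) (nat_lit 56869563631) (nat_lit 76) (nat_lit 3284645304) (nat_lit 76) (nat_lit 2588295072) (nat_lit 5) (nat_lit 4) (nat_lit 6) (nat_lit 5) (nat_lit 6) (nat_lit 4) (nat_lit 386) (nat_lit 260) (nat_lit 254)))) (XT.nd (nat_lit 78) (nat_lit 0) (nat_lit 0) (XT.lf (nat_lit 0) (nat_lit 1575627269) (nat_lit 152) (nat_lit 63269328801) (nat_lit 0) (nat_lit 819578842) (nat_lit 3) (nat_lit 5) (nat_lit 5) (nat_lit 4) (nat_lit 3) (nat_lit 4) (nat_lit 387) (nat_lit 260) (nat_lit 253)) (XT.nd (nat_lit 78) (nat_lit 0) (nat_lit 0) (XT.lf (nat_lit 0) (nat_lit 5888859867) (nat_lit 152) (nat_lit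 57795915857) (nat_lit 0) (nat_lit 5044375505) (nat_lit 3) (nat_lit 5) (nat_lit 5) (nat_lit 4) (nat_lit 3) (nat_lit 4) (nat_lit 388) (nat_lit 260) (nat_lit 252)) (XT.lf (nat_lit 0) (nat_lit 10296953698) (nat_lit 152) (nat_lit 52287849867) (nat_lit 0) (nat_lit 9368244637) (nat_lit 3) (nat_lit 5) (nat_lit 5) (nat_lit 4) (nat_lit 3) (nat_lit 4) (nat_lit 389) (nat_lit 260) (nat_lit 251))))) (XT.nd (nat_lit 234) (nat_lit 0) (nat_lit 0) (XT.nd (nat_lit 78) (nat_lit 0) (nat_lit 0) (XT.lf (nat_lit 0) (nat_lit 14810404224) (nat_lit 152) (nat_lit 46732016388) (nat_lit 0) (nat_lit 13801481164) (nat_lit 3) (nat_lit 5) (nat_lit 5) (nat_lit 4) (nat_lit 3) (nat_lit 4) (nat_lit 390) (nat_lit 260) (nat_lit 250)) (XT.nd (nat_lit 78) (nat_lit 0) (nat_lit 0) (XT.lf (nat_lit 0) (nat_lit 19439957755) (nat_lit 152) (nat_lit 41115187246) (nat_lit 0) (nat_lit 18354640411) (nat_lit 3) (nat_lit 5) (nat_lit 5) (nat_lit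 4) (nat_lit 3) (nat_lit 4) (nat_lit 391) (nat_lit 260) (nat_lit 249)) (XT.lf (nat_lit 0) (nat_lit 24196637039) (nat_lit 152) (nat_lit 35423989038) (nat_lit 0) (nat_lit 23038563233) (nat_lit 3) (nat_lit 5) (nat_lit 5) (nat_lit 4) (nat_lit 3) (nat_lit 4) (nat_lit 392) (nat_lit 260) (nat_lit 248)))) (XT.nd (nat_lit 78) (nat_lit 0) (nat_lit 0) (XT.lf (nat_lit 0) (nat_lit 29091767502) (nat_lit 152) (nat_lit 29644871292) (nat_lit 0) (nat_lit 27864401827) (nat_lit 3) (nat_lit 5) (nat_lit 5) (nat_lit 4) (nat_lit 3) (nat_lit 4) (nat_lit 393) (nat_lit 260) (nat_lit 247)) (XT.nd (nat_lit 78) (nat_lit 0) (nat_lit 0) (XT.lf (nat_lit 0) (nat_lit 34137004216) (nat_lit 152) (nat_lit 23764074204) (nat_lit 0) (nat_lit 32843646286) (nat_lit 3) (nat_lit 5) (nat_lit 5) (nat_lit 4) (nat_lit 3) (nat_lit 4) (nat_lit 394) (nat_lit 260) (nat_lit 246)) (XT.lf (nat_lit 0) (nat_lit 39344359650) (nat_lit 152) (nat_lit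 17767595875) (nat_lit 0) (nat_lit 37988151953) (nat_lit 3) (nat_lit 5) (nat_lit 5) (nat_lit 4) (nat_lit 3) (nat_lit 4) (nat_lit 395) (nat_lit 260) (nat_lit 245)))))) (XT.nd (nat_lit 468) (nat_lit 0) (nat_lit 0) (XT.nd (nat_lit 234) (nat_lit 0) (nat_lit 0) (XT.nd (nat_lit 78) (nat_lit 76) (nat_lit 0) (XT.lf (nat_lit 0) (nat_lit 44726232270) (nat_lit 152) (nat_lit 11641158977) (nat_lit 0) (nat_lit 43310167651) (nat_lit 3) (nat_lit 5) (nat_lit 5) (nat_lit 4) (nat_lit 3) (nat_lit 4) (nat_lit 396) (nat_lit 260) (nat_lit 244)) (XT.nd (nat_lit 78) (nat_lit 76) (nat_lit 0) (XT.lf (nat_lit 0) (nat_lit 50295436057) (nat_lit 152) (nat_lit 5370176756) (nat_lit 0) (nat_lit 48822364847) (nat_lit 3) (nat_lit 5) (nat_lit 5) (nat_lit 4) (nat_lit 3) (nat_lit 4) (nat_lit 397) (nat_lit 260) (nat_lit 243)) (XT.lf (nat_lit 0) (nat_lit 1095339400) (nat_lit 76) (nat_lit 54986992937) (nat_lit 76) (nat_lit 53459629735)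 (nat_lit 2) (nat_lit 4) (nat_lit 3) (nat_lit 5) (nat_lit 3) (nat_lit 4) (nat_lit 398) (nat_lit 260) (nat_lit 242)))) (XT.nd (nat_lit 78) (nat_lit 0) (nat_lit 0) (XT.lf (nat_lit 0) (nat_lit 7918983945) (nat_lit 76) (nat_lit 54254008354) (nat_lit 76) (nat_lit 52674938494) (nat_lit 2) (nat_lit 4) (nat_lit 3) (nat_lit 5) (nat_lit 3) (nat_lit 4) (nat_lit 399) (nat_lit 260) (nat_lit 241)) (XT.nd (nat_lit 78) (nat_lit 0) (nat_lit 0) (XT.lf (nat_lit 0) (nat_lit 14939441355) (nat_lit 76) (nat_lit 53555860405) (nat_lit 76) (nat_lit 51927546107) (nat_lit 2) (nat_lit 4) (nat_lit 3) (nat_lit 5) (nat_lit 3) (nat_lit 4) (nat_lit 400) (nat_lit 260) (nat_lit 240)) (XT.lf (nat_lit 0) (nat_lit 22173427004) (nat_lit 76) (nat_lit 52890886831) (nat_lit 76) (nat_lit 51215673069) (nat_lit 2) (nat_lit 4) (nat_lit 3) (nat_lit 5) (nat_lit 3) (nat_lit 4) (nat_lit 401) (nat_lit 260) (nat_lit 239))))) (XT.nd (nat_lit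 234) (nat_lit 0) (nat_lit 0) (XT.nd (nat_lit 78) (nat_lit 0) (nat_lit 0) (XT.lf (nat_lit 0) (nat_lit 29638164668) (nat_lit 76) (nat_lit 52257504363) (nat_lit 76) (nat_lit 50537624445) (nat_lit 2) (nat_lit 4) (nat_lit 3) (nat_lit 5) (nat_lit 3) (nat_lit 4) (nat_lit 402) (nat_lit 260) (nat_lit 238)) (XT.nd (nat_lit 78) (nat_lit 0) (nat_lit 0) (XT.lf (nat_lit 0) (nat_lit 37351427531) (nat_lit 76) (nat_lit 51654204948) (nat_lit 76) (nat_lit 49891785834) (nat_lit 2) (nat_lit 4) (nat_lit 3) (nat_lit 5) (nat_lit 3) (nat_lit 4) (nat_lit 403) (nat_lit 260) (nat_lit 237)) (XT.lf (nat_lit 0) (nat_lit 45331580506) (nat_lit 76) (nat_lit 51079552157) (nat_lit 76) (nat_lit 49276619523) (nat_lit 2) (nat_lit 4) (nat_lit 3) (nat_lit 5) (nat_lit 3) (nat_lit 4) (nat_lit 404) (nat_lit 260) (nat_lit 236)))) (XT.nd (nat_lit 156) (nat_lit 0) (nat_lit 0) (XT.nd (nat_lit 78) (nat_lit 0) (nat_lit 0) (XT.lf (nat_lit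 0) (nat_lit 53597623956) (nat_lit 76) (nat_lit 50532177771) (nat_lit 76) (nat_lit 48690660831) (nat_lit 2) (nat_lit 4) (nat_lit 3) (nat_lit 5) (nat_lit 3) (nat_lit 4) (nat_lit 405) (nat_lit 260) (nat_lit 235)) (XT.lf (nat_lit 0) (nat_lit 62169238938) (nat_lit 76) (nat_lit 50010778516) (nat_lit 76) (nat_lit 48132514619) (nat_lit 2) (nat_lit 4) (nat_lit 3) (nat_lit 5) (nat_lit 3) (nat_lit 4) (nat_lit 406) (nat_lit 260) (nat_lit 234))) (XT.nd (nat_lit 78) (nat_lit 0) (nat_lit 0) (XT.lf (nat_lit 0) (nat_lit 71066834058) (nat_lit 76) (nat_lit 49514112967) (nat_lit 76) (nat_lit 47600851968) (nat_lit 2) (nat_lit 4) (nat_lit 3) (nat_lit 5) (nat_lit 3) (nat_lit 4) (nat_lit 407) (nat_lit 260) (nat_lit 233)) (XT.lf (nat_lit 0) (nat_lit 80311594067) (nat_lit 76) (nat_lit 49040998585) (nat_lit 76) (nat_lit 47094407012) (nat_lit 2) (nat_lit 4) (nat_lit 3) (nat_lit 5) (nat_lit 3) (nat_lit 4) (nat_lit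 408) (nat_lit 260) (nat_lit 232))))))))
noncomputable def xc20 : XT := (XT.nd (nat_lit 1872) (nat_lit 0) (nat_lit 0) (XT.nd (nat_lit 936) (nat_lit 0) (nat_lit 0) (XT.nd (nat_lit 468) (nat_lit 0) (nat_lit 0) (XT.nd (nat_lit 234) (nat_lit 0) (nat_lit 0) (XT.nd (nat_lit 78) (nat_lit 0) (nat_lit 0) (XT.lf (nat_lit 0) (nat_lit 89925530298) (nat_lit 76) (nat_lit 48590308908) (nat_lit 76) (nat_lit 46611973933) (nat_lit 2) (nat_lit 4) (nat_lit 3) (nat_lit 5) (nat_lit 3) (nat_lit 4) (nat_lit 409) (nat_lit 260) (nat_lit 231)) (XT.nd (nat_lit 78) (nat_lit 0) (nat_lit 0) (XT.lf (nat_lit 0) (nat_lit 99931533075) (nat_lit 76) (nat_lit 48160970866) (nat_lit 76) (nat_lit 46152404078) (nat_lit 2) (nat_lit 4) (nat_lit 3) (nat_lit 5) (nat_lit 3) (nat_lit 4) (nat_lit 410) (nat_lit 260) (nat_lit 230)) (XT.lf (nat_lit 0) (nat_lit 110353426215) (nat_lit 76) (nat_lit 47751962225) (nat_lit 76) (nat_lit 45714603234)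 (nat_lit 2) (nat_lit 4) (nat_lit 3) (nat_lit 5) (nat_lit 3) (nat_lit 4) (nat_lit 411) (nat_lit 260) (nat_lit 229)))) (XT.nd (nat_lit 78) (nat_lit 0) (nat_lit 0) (XT.lf (nat_lit 0) (nat_lit 121216023749) (nat_lit 76) (nat_lit 47362309155) (nat_lit 76) (nat_lit 45297529019) (nat_lit 2) (nat_lit 4) (nat_lit 3) (nat_lit 5) (nat_lit 3) (nat_lit 4) (nat_lit 412) (nat_lit 260) (nat_lit 228)) (XT.nd (nat_lit 78) (nat_lit 0) (nat_lit 0) (XT.lf (nat_lit 0) (nat_lit 132545189004) (nat_lit 76) (nat_lit 46991083910) (nat_lit 76) (nat_lit 44900188398) (nat_lit 2) (nat_lit 4) (nat_lit 3) (nat_lit 5) (nat_lit 3) (nat_lit 4) (nat_lit 413) (nat_lit 260) (nat_lit 227)) (XT.lf (nat_lit 0) (nat_lit 144367896184) (nat_lit 76) (nat_lit 46637402621) (nat_lit 76) (nat_lit 44521635322) (nat_lit 2) (nat_lit 4) (nat_lit 3) (nat_lit 5) (nat_lit 3) (nat_lit 4) (nat_lit 414) (nat_lit 260) (nat_lit 226))))) (XT.nd (nat_lit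 234) (nat_lit 0) (nat_lit 0) (XT.nd (nat_lit 78) (nat_lit 0) (nat_lit 0) (XT.lf (nat_lit 0) (nat_lit 156712294590) (nat_lit 76) (nat_lit 46300423190) (nat_lit 76) (nat_lit 44160968475) (nat_lit 2) (nat_lit 4) (nat_lit 3) (nat_lit 5) (nat_lit 3) (nat_lit 4) (nat_lit 415) (nat_lit 260) (nat_lit 225)) (XT.nd (nat_lit 78) (nat_lit 0) (nat_lit 0) (XT.lf (nat_lit 0) (nat_lit 169607775649) (nat_lit 76) (nat_lit 45979343285) (nat_lit 76) (nat_lit 43817329125) (nat_lit 2) (nat_lit 4) (nat_lit 3) (nat_lit 5) (nat_lit 3) (nat_lit 4) (nat_lit 416) (nat_lit 260) (nat_lit 224)) (XT.lf (nat_lit 0) (nat_lit 183085042885) (nat_lit 76) (nat_lit 45673398429) (nat_lit 76) (nat_lit 43489899084) (nat_lit 2) (nat_lit 4) (nat_lit 3) (nat_lit 5) (nat_lit 3) (nat_lit 4) (nat_lit 417) (nat_lit 260) (nat_lit 223)))) (XT.nd (nat_lit 78) (nat_lit 0) (nat_lit 0) (XT.lf (nat_lit 0) (nat_lit 197176185032) (nat_lit 76)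 (nat_lit 45381860183) (nat_lit 76) (nat_lit 43177898757) (nat_lit 2) (nat_lit 4) (nat_lit 3) (nat_lit 5) (nat_lit 3) (nat_lit 4) (nat_lit 418) (nat_lit 260) (nat_lit 222)) (XT.nd (nat_lit 78) (nat_lit 0) (nat_lit 0) (XT.lf (nat_lit 0) (nat_lit 211914752427) (nat_lit 76) (nat_lit 45104034407) (nat_lit 76) (nat_lit 42880585286) (nat_lit 2) (nat_lit 4) (nat_lit 3) (nat_lit 5) (nat_lit 3) (nat_lit 4) (nat_lit 419) (nat_lit 260) (nat_lit 221)) (XT.lf (nat_lit 0) (nat_lit 227335836897) (nat_lit 76) (nat_lit 44839259612) (nat_lit 76) (nat_lit 42597250781) (nat_lit 2) (nat_lit 4) (nat_lit 3) (nat_lit 5) (nat_lit 3) (nat_lit 4) (nat_lit 420) (nat_lit 260) (nat_lit 220)))))) (XT.nd (nat_lit 468) (nat_lit 0) (nat_lit 0) (XT.nd (nat_lit 234) (nat_lit 0) (nat_lit 0) (XT.nd (nat_lit 78) (nat_lit 0) (nat_lit 0) (XT.lf (nat_lit 0) (nat_lit 243476155310) (nat_lit 76) (nat_lit 44586905383) (nat_lit 76) (nat_lit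 42327220636) (nat_lit 2) (nat_lit 4) (nat_lit 3) (nat_lit 5) (nat_lit 3) (nat_lit 4) (nat_lit 421) (nat_lit 260) (nat_lit 219)) (XT.nd (nat_lit 78) (nat_lit 0) (nat_lit 0) (XT.lf (nat_lit 0) (nat_lit 260374136996) (nat_lit 76) (nat_lit 44346370874) (nat_lit 76) (nat_lit 42069851923) (nat_lit 2) (nat_lit 4) (nat_lit 3) (nat_lit 5) (nat_lit 3) (nat_lit 4) (nat_lit 422) (nat_lit 260) (nat_lit 218)) (XT.lf (nat_lit 0) (nat_lit 278070015244) (nat_lit 76) (nat_lit 44117083385) (nat_lit 76) (nat_lit 41824531859) (nat_lit 2) (nat_lit 4) (nat_lit 3) (nat_lit 5) (nat_lit 3) (nat_lit 4) (nat_lit 423) (nat_lit 260) (nat_lit 217)))) (XT.nd (nat_lit 78) (nat_lit 0) (nat_lit 0) (XT.lf (nat_lit 0) (nat_lit 296605923098) (nat_lit 76) (nat_lit 43898496995) (nat_lit 76) (nat_lit 41590676348) (nat_lit 2) (nat_lit 4) (nat_lit 3) (nat_lit 5) (nat_lit 3) (nat_lit 4) (nat_lit 424) (nat_lit 260) (nat_lit 216))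 (XT.nd (nat_lit 78) (nat_lit 0) (nat_lit 0) (XT.lf (nat_lit 0) (nat_lit 316025993672) (nat_lit 76) (nat_lit 43690091257) (nat_lit 76) (nat_lit 41367728592) (nat_lit 2) (nat_lit 4) (nat_lit 3) (nat_lit 5) (nat_lit 3) (nat_lit 4) (nat_lit 425) (nat_lit 260) (nat_lit 215)) (XT.lf (nat_lit 0) (nat_lit 336376465229) (nat_lit 76) (nat_lit 43491369970) (nat_lit 76) (nat_lit 41155157763) (nat_lit 2) (nat_lit 4) (nat_lit 3) (nat_lit 5) (nat_lit 3) (nat_lit 4) (nat_lit 426) (nat_lit 260) (nat_lit 214))))) (XT.nd (nat_lit 234) (nat_lit 0) (nat_lit 0) (XT.nd (nat_lit 78) (nat_lit 0) (nat_lit 0) (XT.lf (nat_lit 0) (nat_lit 357705791272) (nat_lit 76) (nat_lit 43301859986) (nat_lit 76) (nat_lit 40952457739) (nat_lit 2) (nat_lit 4) (nat_lit 3) (nat_lit 5) (nat_lit 3) (nat_lit 4) (nat_lit 427) (nat_lit 260) (nat_lit 213)) (XT.nd (nat_lit 78) (nat_lit 0) (nat_lit 0) (XT.lf (nat_lit 0) (nat_lit 380064755912)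 (nat_lit 76) (nat_lit 43121110091) (nat_lit 76) (nat_lit 40759145902) (nat_lit 2) (nat_lit 4) (nat_lit 3) (nat_lit 5) (nat_lit 3) (nat_lit 4) (nat_lit 428) (nat_lit 260) (nat_lit 212)) (XT.lf (nat_lit 0) (nat_lit 403506594779) (nat_lit 76) (nat_lit 42948689929) (nat_lit 76) (nat_lit 40574761985) (nat_lit 2) (nat_lit 4) (nat_lit 3) (nat_lit 5) (nat_lit 3) (nat_lit 4) (nat_lit 429) (nat_lit 260) (nat_lit 211)))) (XT.nd (nat_lit 78) (nat_lit 0) (nat_lit 0) (XT.lf (nat_lit 0) (nat_lit 428087121774) (nat_lit 76) (nat_lit 42784188975) (nat_lit 76) (nat_lit 40398866979) (nat_lit 2) (nat_lit 4) (nat_lit 3) (nat_lit 5) (nat_lit 3) (nat_lit 4) (nat_lit 430) (nat_lit 260) (nat_lit 210)) (XT.nd (nat_lit 78) (nat_lit 0) (nat_lit 0) (XT.lf (nat_lit 0) (nat_lit 453864861962) (nat_lit 76) (nat_lit 42627215561) (nat_lit 76) (nat_lit 40231042087) (nat_lit 2) (nat_lit 4) (nat_lit 3) (nat_lit 5) (nat_lit 3)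 (nat_lit 4) (nat_lit 431) (nat_lit 260) (nat_lit 209)) (XT.lf (nat_lit 0) (nat_lit 480901190914) (nat_lit 76) (nat_lit 42477395940) (nat_lit 76) (nat_lit 40070887724) (nat_lit 2) (nat_lit 4) (nat_lit 3) (nat_lit 5) (nat_lit 3) (nat_lit 4) (nat_lit 432) (nat_lit 260) (nat_lit 208))))))) (XT.nd (nat_lit 42744) (nat_lit 0) (nat_lit 76) (XT.nd (nat_lit 468) (nat_lit 0) (nat_lit 0) (XT.nd (nat_lit 234) (nat_lit 0) (nat_lit 0) (XT.nd (nat_lit 78) (nat_lit 0) (nat_lit 0) (XT.lf (nat_lit 0) (nat_lit 509260480843) (nat_lit 76) (nat_lit 42334373399) (nat_lit 76) (nat_lit 39918022572) (nat_lit 2) (nat_lit 4) (nat_lit 3) (nat_lit 5) (nat_lit 3) (nat_lit 4) (nat_lit 433) (nat_lit 260) (nat_lit 207)) (XT.nd (nat_lit 78) (nat_lit 0) (nat_lit 0) (XT.lf (nat_lit 0) (nat_lit 539010253868) (nat_lit 76) (nat_lit 42197807407) (nat_lit 76) (nat_lit 39772082666) (nat_lit 2) (nat_lit 4) (nat_lit 3) (nat_lit 5)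 (nat_lit 3) (nat_lit 4) (nat_lit 434) (nat_lit 260) (nat_lit 206)) (XT.lf (nat_lit 0) (nat_lit 570221342781) (nat_lit 76) (nat_lit 42067372809) (nat_lit 76) (nat_lit 39632720529) (nat_lit 2) (nat_lit 4) (nat_lit 3) (nat_lit 5) (nat_lit 3) (nat_lit 4) (nat_lit 435) (nat_lit 260) (nat_lit 205)))) (XT.nd (nat_lit 78) (nat_lit 0) (nat_lit 0) (XT.lf (nat_lit 0) (nat_lit 602968059698) (nat_lit 76) (nat_lit 41942759044) (nat_lit 76) (nat_lit 39499604348) (nat_lit 2) (nat_lit 4) (nat_lit 3) (nat_lit 5) (nat_lit 3) (nat_lit 4) (nat_lit 436) (nat_lit 260) (nat_lit 204)) (XT.nd (nat_lit 78) (nat_lit 0) (nat_lit 0) (XT.lf (nat_lit 0) (nat_lit 637328372994) (nat_lit 76) (nat_lit 41823669415) (nat_lit 76) (nat_lit 39372417178) (nat_lit 2) (nat_lit 4) (nat_lit 3) (nat_lit 5) (nat_lit 3) (nat_lit 4) (nat_lit 437) (nat_lit 260) (nat_lit 203)) (XT.lf (nat_lit 0) (nat_lit 673384092938) (nat_lit 76) (nat_lit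 41709820373) (nat_lit 76) (nat_lit 39250856193) (nat_lit 2) (nat_lit 4) (nat_lit 3) (nat_lit 5) (nat_lit 3) (nat_lit 4) (nat_lit 438) (nat_lit 260) (nat_lit 202))))) (XT.nd (nat_lit 234) (nat_lit 0) (nat_lit 0) (XT.nd (nat_lit 78) (nat_lit 0) (nat_lit 0) (XT.lf (nat_lit 0) (nat_lit 711221066482) (nat_lit 76) (nat_lit 41600940850) (nat_lit 76) (nat_lit 39134631963) (nat_lit 2) (nat_lit 4) (nat_lit 3) (nat_lit 5) (nat_lit 3) (nat_lit 4) (nat_lit 439) (nat_lit 260) (nat_lit 201)) (XT.nd (nat_lit 78) (nat_lit 0) (nat_lit 0) (XT.lf (nat_lit 0) (nat_lit 750929381659) (nat_lit 76) (nat_lit 41496771610) (nat_lit 76) (nat_lit 39023467763) (nat_lit 2) (nat_lit 4) (nat_lit 3) (nat_lit 5) (nat_lit 3) (nat_lit 4) (nat_lit 440) (nat_lit 260) (nat_lit 200)) (XT.lf (nat_lit 0) (nat_lit 792603582076) (nat_lit 76) (nat_lit 41397064629) (nat_lit 76) (nat_lit 38917098915) (nat_lit 2) (nat_lit 4) (nat_lit 3)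 (nat_lit 5) (nat_lit 3) (nat_lit 4) (nat_lit 441) (nat_lit 260) (nat_lit 199)))) (XT.nd (nat_lit 41886) (nat_lit 0) (nat_lit 304) (XT.lf (nat_lit 0) (nat_lit 836342892020) (nat_lit 76) (nat_lit 41301582511) (nat_lit 76) (nat_lit 38815272163) (nat_lit 2) (nat_lit 4) (nat_lit 3) (nat_lit 5) (nat_lit 3) (nat_lit 4) (nat_lit 442) (nat_lit 260) (nat_lit 198)) (XT.nd (nat_lit 78) (nat_lit 0) (nat_lit 0) (XT.lf (nat_lit 0) (nat_lit 5288992297) (nat_lit 152) (nat_lit 11435762734) (nat_lit 0) (nat_lit 5288992297) (nat_lit 6) (nat_lit 5) (nat_lit 8) (nat_lit 4) (nat_lit 6) (nat_lit 4) (nat_lit 378) (nat_lit 261) (nat_lit 261)) (XT.lf (nat_lit 0) (nat_lit 16122171022) (nat_lit 152) (nat_lit 13863269712) (nat_lit 0) (nat_lit 15984977863) (nat_lit 6) (nat_lit 5) (nat_lit 8) (nat_lit 4) (nat_lit 6) (nat_lit 4) (nat_lit 379) (nat_lit 261) (nat_lit 260)))))) (XT.nd (nat_lit 468) (nat_lit 152) (nat_lit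 0) (XT.nd (nat_lit 234) (nat_lit 0) (nat_lit 0) (XT.nd (nat_lit 78) (nat_lit 76) (nat_lit 0) (XT.lf (nat_lit 0) (nat_lit 21781099074) (nat_lit 152) (nat_lit 4724282515) (nat_lit 0) (nat_lit 21513245763) (nat_lit 6) (nat_lit 5) (nat_lit 8) (nat_lit 4) (nat_lit 6) (nat_lit 4) (nat_lit 380) (nat_lit 261) (nat_lit 259)) (XT.nd (nat_lit 78) (nat_lit 0) (nat_lit 0) (XT.lf (nat_lit 0) (nat_lit 4718207730) (nat_lit 76) (nat_lit 22923699105) (nat_lit 76) (nat_lit 22531407554) (nat_lit 5) (nat_lit 4) (nat_lit 6) (nat_lit 5) (nat_lit 6) (nat_lit 4) (nat_lit 381) (nat_lit 261) (nat_lit 258)) (XT.lf (nat_lit 0) (nat_lit 14497291103) (nat_lit 76) (nat_lit 19226432121) (nat_lit 76) (nat_lit 18715627960) (nat_lit 5) (nat_lit 4) (nat_lit 6) (nat_lit 5) (nat_lit 6) (nat_lit 4) (nat_lit 382) (nat_lit 261) (nat_lit 257)))) (XT.nd (nat_lit 78) (nat_lit 0) (nat_lit 0) (XT.lf (nat_lit 0) (nat_lit 24480045020)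 (nat_lit 76) (nat_lit 15484785630) (nat_lit 76) (nat_lit 14861112317) (nat_lit 5) (nat_lit 4) (nat_lit 6) (nat_lit 5) (nat_lit 6) (nat_lit 4) (nat_lit 383) (nat_lit 261) (nat_lit 256)) (XT.nd (nat_lit 78) (nat_lit 0) (nat_lit 0) (XT.lf (nat_lit 0) (nat_lit 34690237943) (nat_lit 76) (nat_lit 11689850950) (nat_lit 76) (nat_lit 10958683207) (nat_lit 5) (nat_lit 4) (nat_lit 6) (nat_lit 5) (nat_lit 6) (nat_lit 4) (nat_lit 384) (nat_lit 261) (nat_lit 255)) (XT.lf (nat_lit 0) (nat_lit 45152179856) (nat_lit 76) (nat_lit 7832592524) (nat_lit 76) (nat_lit 6999049132) (nat_lit 5) (nat_lit 4) (nat_lit 6) (nat_lit 5) (nat_lit 6) (nat_lit 4) (nat_lit 385) (nat_lit 261) (nat_lit 254))))) (XT.nd (nat_lit 234) (nat_lit 0) (nat_lit 0) (XT.nd (nat_lit 78) (nat_lit 152) (nat_lit 0) (XT.lf (nat_lit 0) (nat_lit 55890780143) (nat_lit 76) (nat_lit 3903826401) (nat_lit 76) (nat_lit 2972782392) (nat_lit 5) (nat_lit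 4) (nat_lit 6) (nat_lit 5) (nat_lit 6) (nat_lit 4) (nat_lit 386) (nat_lit 261) (nat_lit 253)) (XT.nd (nat_lit 78) (nat_lit 0) (nat_lit 0) (XT.lf (nat_lit 0) (nat_lit 1115451838) (nat_lit 152) (nat_lit 64438365560) (nat_lit 0) (nat_lit 140307325) (nat_lit 3) (nat_lit 5) (nat_lit 5) (nat_lit 4) (nat_lit 3) (nat_lit 4) (nat_lit 387) (nat_lit 261) (nat_lit 252)) (XT.lf (nat_lit 0) (nat_lit 5369757413) (nat_lit 152) (nat_lit 59081546568) (nat_lit 0) (nat_lit 4310388200) (nat_lit 3) (nat_lit 5) (nat_lit 5) (nat_lit 4) (nat_lit 3) (nat_lit 4) (nat_lit 388) (nat_lit 261) (nat_lit 251)))) (XT.nd (nat_lit 156) (nat_lit 0) (nat_lit 0) (XT.nd (nat_lit 78) (nat_lit 0) (nat_lit 0) (XT.lf (nat_lit 0) (nat_lit 9721730270) (nat_lit 152) (nat_lit 53684522437) (nat_lit 0) (nat_lit 8582147058) (nat_lit 3) (nat_lit 5) (nat_lit 5) (nat_lit 4) (nat_lit 3) (nat_lit 4) (nat_lit 389) (nat_lit 261) (nat_lit 250))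 (XT.lf (nat_lit 0) (nat_lit 14181732249) (nat_lit 152) (nat_lit 48234443110) (nat_lit 0) (nat_lit 12965754753) (nat_lit 3) (nat_lit 5) (nat_lit 5) (nat_lit 4) (nat_lit 3) (nat_lit 4) (nat_lit 390) (nat_lit 261) (nat_lit 249))) (XT.nd (nat_lit 78) (nat_lit 0) (nat_lit 0) (XT.lf (nat_lit 0) (nat_lit 18760382403) (nat_lit 152) (nat_lit 42718332207) (nat_lit 0) (nat_lit 17471648445) (nat_lit 3) (nat_lit 5) (nat_lit 5) (nat_lit 4) (nat_lit 3) (nat_lit 4) (nat_lit 391) (nat_lit 261) (nat_lit 248)) (XT.lf (nat_lit 0) (nat_lit 23468582279) (nat_lit 152) (nat_lit 37123056132) (nat_lit 0) (nat_lit 22110556453) (nat_lit 3) (nat_lit 5) (nat_lit 5) (nat_lit 4) (nat_lit 3) (nat_lit 4) (nat_lit 392) (nat_lit 261) (nat_lit 247))))))))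
noncomputable def xc21 : XT := (XT.nd (nat_lit 1950) (nat_lit 0) (nat_lit 0) (XT.nd (nat_lit 936) (nat_lit 0) (nat_lit 0) (XT.nd (nat_lit 468) (nat_lit 76) (nat_lit 0) (XT.nd (nat_lit 234) (nat_lit 0) (nat_lit 0) (XT.nd (nat_lit 78) (nat_lit 0) (nat_lit 0) (XT.lf (nat_lit 0) (nat_lit 28317541878) (nat_lit 152) (nat_lit 31435292798) (nat_lit 0) (nat_lit 26893523796) (nat_lit 3) (nat_lit 5) (nat_lit 5) (nat_lit 4) (nat_lit 3) (nat_lit 4) (nat_lit 393) (nat_lit 261) (nat_lit 246)) (XT.nd (nat_lit 78) (nat_lit 0) (nat_lit 0) (XT.lf (nat_lit 0) (nat_lit 33318806341) (nat_lit 152) (nat_lit 25641499912) (nat_lit 0) (nat_lit 31831938491) (nat_lit 3) (nat_lit 5) (nat_lit 5) (nat_lit 4) (nat_lit 3) (nat_lit 4) (nat_lit 394) (nat_lit 261) (nat_lit 245)) (XT.lf (nat_lit 0) (nat_lit 38484283440) (nat_lit 152) (nat_lit 19727882728) (nat_lit 0) (nat_lit 36937558670) (nat_lit 3) (nat_lit 5) (nat_lit 5)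 (nat_lit 4) (nat_lit 3) (nat_lit 4) (nat_lit 395) (nat_lit 261) (nat_lit 244)))) (XT.nd (nat_lit 78) (nat_lit 0) (nat_lit 0) (XT.lf (nat_lit 0) (nat_lit 43826271931) (nat_lit 152) (nat_lit 13680361207) (nat_lit 0) (nat_lit 42222540569) (nat_lit 3) (nat_lit 5) (nat_lit 5) (nat_lit 4) (nat_lit 3) (nat_lit 4) (nat_lit 396) (nat_lit 261) (nat_lit 243)) (XT.nd (nat_lit 78) (nat_lit 0) (nat_lit 0) (XT.lf (nat_lit 0) (nat_lit 49357490834) (nat_lit 152) (nat_lit 7484536486) (nat_lit 0) (nat_lit 47699467480) (nat_lit 3) (nat_lit 5) (nat_lit 5) (nat_lit 4) (nat_lit 3) (nat_lit 4) (nat_lit 397) (nat_lit 261) (nat_lit 242)) (XT.lf (nat_lit 0) (nat_lit 55091109717) (nat_lit 152) (nat_lit 1125656603) (nat_lit 0) (nat_lit 53381379704) (nat_lit 3) (nat_lit 5) (nat_lit 5) (nat_lit 4) (nat_lit 3) (nat_lit 4) (nat_lit 398) (nat_lit 261) (nat_lit 241))))) (XT.nd (nat_lit 234) (nat_lit 0) (nat_lit 0) (XT.nd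 (nat_lit 78) (nat_lit 0) (nat_lit 0) (XT.lf (nat_lit 0) (nat_lit 5590344571) (nat_lit 76) (nat_lit 55537716429) (nat_lit 76) (nat_lit 53778741979) (nat_lit 2) (nat_lit 4) (nat_lit 3) (nat_lit 5) (nat_lit 3) (nat_lit 4) (nat_lit 399) (nat_lit 261) (nat_lit 240)) (XT.nd (nat_lit 78) (nat_lit 0) (nat_lit 0) (XT.lf (nat_lit 0) (nat_lit 12543731429) (nat_lit 76) (nat_lit 54872779101) (nat_lit 76) (nat_lit 53066905187) (nat_lit 2) (nat_lit 4) (nat_lit 3) (nat_lit 5) (nat_lit 3) (nat_lit 4) (nat_lit 400) (nat_lit 261) (nat_lit 239)) (XT.lf (nat_lit 0) (nat_lit 19713840362) (nat_lit 76) (nat_lit 54239434690) (nat_lit 76) (nat_lit 52388894620) (nat_lit 2) (nat_lit 4) (nat_lit 3) (nat_lit 5) (nat_lit 3) (nat_lit 4) (nat_lit 401) (nat_lit 261) (nat_lit 238)))) (XT.nd (nat_lit 78) (nat_lit 0) (nat_lit 0) (XT.lf (nat_lit 0) (nat_lit 27117743058) (nat_lit 76) (nat_lit 53636175235) (nat_lit 76) (nat_lit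 51743095969) (nat_lit 2) (nat_lit 4) (nat_lit 3) (nat_lit 5) (nat_lit 3) (nat_lit 4) (nat_lit 402) (nat_lit 261) (nat_lit 237)) (XT.nd (nat_lit 78) (nat_lit 0) (nat_lit 0) (XT.lf (nat_lit 0) (nat_lit 34773067857) (nat_lit 76) (nat_lit 53061564403) (nat_lit 76) (nat_lit 51127971616) (nat_lit 2) (nat_lit 4) (nat_lit 3) (nat_lit 5) (nat_lit 3) (nat_lit 4) (nat_lit 403) (nat_lit 261) (nat_lit 236)) (XT.lf (nat_lit 0) (nat_lit 42698041723) (nat_lit 76) (nat_lit 52514234073) (nat_lit 76) (nat_lit 50542056981) (nat_lit 2) (nat_lit 4) (nat_lit 3) (nat_lit 5) (nat_lit 3) (nat_lit 4) (nat_lit 404) (nat_lit 261) (nat_lit 235)))))) (XT.nd (nat_lit 468) (nat_lit 0) (nat_lit 0) (XT.nd (nat_lit 234) (nat_lit 0) (nat_lit 0) (XT.nd (nat_lit 78) (nat_lit 0) (nat_lit 0) (XT.lf (nat_lit 0) (nat_lit 50911533641) (nat_lit 76) (nat_lit 51992881077) (nat_lit 76) (nat_lit 49983957028) (nat_lit 2) (nat_lit 4) (nat_lit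 3) (nat_lit 5) (nat_lit 3) (nat_lit 4) (nat_lit 405) (nat_lit 261) (nat_lit 234)) (XT.nd (nat_lit 78) (nat_lit 0) (nat_lit 0) (XT.lf (nat_lit 0) (nat_lit 59433099545) (nat_lit 76) (nat_lit 51496264099) (nat_lit 76) (nat_lit 49452342948) (nat_lit 2) (nat_lit 4) (nat_lit 3) (nat_lit 5) (nat_lit 3) (nat_lit 4) (nat_lit 406) (nat_lit 261) (nat_lit 233)) (XT.lf (nat_lit 0) (nat_lit 68283028876) (nat_lit 76) (nat_lit 51023200718) (nat_lit 76) (nat_lit 48945948994) (nat_lit 2) (nat_lit 4) (nat_lit 3) (nat_lit 5) (nat_lit 3) (nat_lit 4) (nat_lit 407) (nat_lit 261) (nat_lit 232)))) (XT.nd (nat_lit 78) (nat_lit 0) (nat_lit 0) (XT.lf (nat_lit 0) (nat_lit 77482392895) (nat_lit 76) (nat_lit 50572564592) (nat_lit 76) (nat_lit 48463569464) (nat_lit 2) (nat_lit 4) (nat_lit 3) (nat_lit 5) (nat_lit 3) (nat_lit 4) (nat_lit 408) (nat_lit 261) (nat_lit 231)) (XT.nd (nat_lit 78) (nat_lit 0) (nat_lit 0) (XT.lf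 (nat_lit 0) (nat_lit 87053094850) (nat_lit 76) (nat_lit 50143282778) (nat_lit 76) (nat_lit 48004055838) (nat_lit 2) (nat_lit 4) (nat_lit 3) (nat_lit 5) (nat_lit 3) (nat_lit 4) (nat_lit 409) (nat_lit 261) (nat_lit 230)) (XT.lf (nat_lit 0) (nat_lit 97017922127) (nat_lit 76) (nat_lit 49734333176) (nat_lit 76) (nat_lit 47566314034) (nat_lit 2) (nat_lit 4) (nat_lit 3) (nat_lit 5) (nat_lit 3) (nat_lit 4) (nat_lit 410) (nat_lit 261) (nat_lit 229))))) (XT.nd (nat_lit 234) (nat_lit 0) (nat_lit 0) (XT.nd (nat_lit 78) (nat_lit 0) (nat_lit 0) (XT.lf (nat_lit 0) (nat_lit 107400600505) (nat_lit 76) (nat_lit 49344742098) (nat_lit 76) (nat_lit 47149301810) (nat_lit 2) (nat_lit 4) (nat_lit 3) (nat_lit 5) (nat_lit 3) (nat_lit 4) (nat_lit 411) (nat_lit 261) (nat_lit 228)) (XT.nd (nat_lit 78) (nat_lit 0) (nat_lit 0) (XT.lf (nat_lit 0) (nat_lit 118225850646) (nat_lit 76) (nat_lit 48973581944) (nat_lit 76) (nat_lit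 46752026280) (nat_lit 2) (nat_lit 4) (nat_lit 3) (nat_lit 5) (nat_lit 3) (nat_lit 4) (nat_lit 412) (nat_lit 261) (nat_lit 227)) (XT.lf (nat_lit 0) (nat_lit 129519446955) (nat_lit 76) (nat_lit 48619969001) (nat_lit 76) (nat_lit 46373541550) (nat_lit 2) (nat_lit 4) (nat_lit 3) (nat_lit 5) (nat_lit 3) (nat_lit 4) (nat_lit 413) (nat_lit 261) (nat_lit 226)))) (XT.nd (nat_lit 156) (nat_lit 0) (nat_lit 0) (XT.nd (nat_lit 78) (nat_lit 0) (nat_lit 0) (XT.lf (nat_lit 0) (nat_lit 141308278948) (nat_lit 76) (nat_lit 48283061333) (nat_lit 76) (nat_lit 46012946465) (nat_lit 2) (nat_lit 4) (nat_lit 3) (nat_lit 5) (nat_lit 3) (nat_lit 4) (nat_lit 414) (nat_lit 261) (nat_lit 225)) (XT.lf (nat_lit 0) (nat_lit 153620415273) (nat_lit 76) (nat_lit 47962056778) (nat_lit 76) (nat_lit 45669382467) (nat_lit 2) (nat_lit 4) (nat_lit 3) (nat_lit 5) (nat_lit 3) (nat_lit 4) (nat_lit 415) (nat_lit 261) (nat_lit 224)))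 (XT.nd (nat_lit 78) (nat_lit 0) (nat_lit 0) (XT.lf (nat_lit 0) (nat_lit 166485170539) (nat_lit 76) (nat_lit 47656191041) (nat_lit 76) (nat_lit 45342031545) (nat_lit 2) (nat_lit 4) (nat_lit 3) (nat_lit 5) (nat_lit 3) (nat_lit 4) (nat_lit 416) (nat_lit 261) (nat_lit 223)) (XT.lf (nat_lit 0) (nat_lit 179933175116) (nat_lit 76) (nat_lit 47364735869) (nat_lit 76) (nat_lit 45030114292) (nat_lit 2) (nat_lit 4) (nat_lit 3) (nat_lit 5) (nat_lit 3) (nat_lit 4) (nat_lit 417) (nat_lit 261) (nat_lit 222))))))) (XT.nd (nat_lit 936) (nat_lit 0) (nat_lit 0) (XT.nd (nat_lit 468) (nat_lit 0) (nat_lit 0) (XT.nd (nat_lit 234) (nat_lit 0) (nat_lit 0) (XT.nd (nat_lit 78) (nat_lit 0) (nat_lit 0) (XT.lf (nat_lit 0) (nat_lit 193996448063) (nat_lit 76) (nat_lit 47086997322) (nat_lit 76) (nat_lit 44732888049) (nat_lit 2) (nat_lit 4) (nat_lit 3) (nat_lit 5) (nat_lit 3) (nat_lit 4) (nat_lit 418) (nat_lit 261) (nat_lit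 221)) (XT.nd (nat_lit 78) (nat_lit 0) (nat_lit 0) (XT.lf (nat_lit 0) (nat_lit 208708473363) (nat_lit 76) (nat_lit 46822314117) (nat_lit 76) (nat_lit 44449645133) (nat_lit 2) (nat_lit 4) (nat_lit 3) (nat_lit 5) (nat_lit 3) (nat_lit 4) (nat_lit 419) (nat_lit 261) (nat_lit 220)) (XT.lf (nat_lit 0) (nat_lit 224104279647) (nat_lit 76) (nat_lit 46570056056) (nat_lit 76) (nat_lit 44179711158) (nat_lit 2) (nat_lit 4) (nat_lit 3) (nat_lit 5) (nat_lit 3) (nat_lit 4) (nat_lit 420) (nat_lit 261) (nat_lit 219)))) (XT.nd (nat_lit 78) (nat_lit 0) (nat_lit 0) (XT.lf (nat_lit 0) (nat_lit 240220523598) (nat_lit 76) (nat_lit 46329622525) (nat_lit 76) (nat_lit 43922443423) (nat_lit 2) (nat_lit 4) (nat_lit 3) (nat_lit 5) (nat_lit 3) (nat_lit 4) (nat_lit 421) (nat_lit 261) (nat_lit 218)) (XT.nd (nat_lit 78) (nat_lit 0) (nat_lit 0) (XT.lf (nat_lit 0) (nat_lit 257095577224) (nat_lit 76) (nat_lit 46100441063) (nat_lit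 76) (nat_lit 43677229385) (nat_lit 2) (nat_lit 4) (nat_lit 3) (nat_lit 5) (nat_lit 3) (nat_lit 4) (nat_lit 422) (nat_lit 261) (nat_lit 217)) (XT.lf (nat_lit 0) (nat_lit 274769619226) (nat_lit 76) (nat_lit 45881966000) (nat_lit 76) (nat_lit 43443485202) (nat_lit 2) (nat_lit 4) (nat_lit 3) (nat_lit 5) (nat_lit 3) (nat_lit 4) (nat_lit 423) (nat_lit 261) (nat_lit 216))))) (XT.nd (nat_lit 234) (nat_lit 0) (nat_lit 0) (XT.nd (nat_lit 78) (nat_lit 0) (nat_lit 0) (XT.lf (nat_lit 0) (nat_lit 293284730654) (nat_lit 76) (nat_lit 45673677157) (nat_lit 76) (nat_lit 43220654340) (nat_lit 2) (nat_lit 4) (nat_lit 3) (nat_lit 5) (nat_lit 3) (nat_lit 4) (nat_lit 424) (nat_lit 261) (nat_lit 215)) (XT.nd (nat_lit 78) (nat_lit 0) (nat_lit 0) (XT.lf (nat_lit 0) (nat_lit 312684995108) (nat_lit 76) (nat_lit 45475078609) (nat_lit 76) (nat_lit 43008206250) (nat_lit 2) (nat_lit 4) (nat_lit 3) (nat_lit 5) (nat_lit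 3) (nat_lit 4) (nat_lit 425) (nat_lit 261) (nat_lit 214)) (XT.lf (nat_lit 0) (nat_lit 333016603693) (nat_lit 76) (nat_lit 45285697500) (nat_lit 76) (nat_lit 42805635102) (nat_lit 2) (nat_lit 4) (nat_lit 3) (nat_lit 5) (nat_lit 3) (nat_lit 4) (nat_lit 426) (nat_lit 261) (nat_lit 213)))) (XT.nd (nat_lit 78) (nat_lit 0) (nat_lit 0) (XT.lf (nat_lit 0) (nat_lit 354327965002) (nat_lit 76) (nat_lit 45105082926) (nat_lit 76) (nat_lit 42612458585) (nat_lit 2) (nat_lit 4) (nat_lit 3) (nat_lit 5) (nat_lit 3) (nat_lit 4) (nat_lit 427) (nat_lit 261) (nat_lit 212)) (XT.nd (nat_lit 78) (nat_lit 0) (nat_lit 0) (XT.lf (nat_lit 0) (nat_lit 376669820372) (nat_lit 76) (nat_lit 44932804849) (nat_lit 76) (nat_lit 42428216753) (nat_lit 2) (nat_lit 4) (nat_lit 3) (nat_lit 5) (nat_lit 3) (nat_lit 4) (nat_lit 428) (nat_lit 261) (nat_lit 211)) (XT.lf (nat_lit 0) (nat_lit 400095364694) (nat_lit 76) (nat_lit 44768453085)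 (nat_lit 76) (nat_lit 42252470937) (nat_lit 2) (nat_lit 4) (nat_lit 3) (nat_lit 5) (nat_lit 3) (nat_lit 4) (nat_lit 429) (nat_lit 261) (nat_lit 210)))))) (XT.nd (nat_lit 468) (nat_lit 0) (nat_lit 0) (XT.nd (nat_lit 234) (nat_lit 0) (nat_lit 0) (XT.nd (nat_lit 78) (nat_lit 0) (nat_lit 0) (XT.lf (nat_lit 0) (nat_lit 424660373076) (nat_lit 76) (nat_lit 44611636321) (nat_lit 76) (nat_lit 42084802694) (nat_lit 2) (nat_lit 4) (nat_lit 3) (nat_lit 5) (nat_lit 3) (nat_lit 4) (nat_lit 430) (nat_lit 261) (nat_lit 209)) (XT.nd (nat_lit 78) (nat_lit 0) (nat_lit 0) (XT.lf (nat_lit 0) (nat_lit 450423333632) (nat_lit 76) (nat_lit 44461981181) (nat_lit 76) (nat_lit 41924812814) (nat_lit 2) (nat_lit 4) (nat_lit 3) (nat_lit 5) (nat_lit 3) (nat_lit 4) (nat_lit 431) (nat_lit 261) (nat_lit 208)) (XT.lf (nat_lit 0) (nat_lit 477445586745) (nat_lit 76) (nat_lit 44319131346) (nat_lit 76) (nat_lit 41772120368) (nat_lit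 2) (nat_lit 4) (nat_lit 3) (nat_lit 5) (nat_lit 3) (nat_lit 4) (nat_lit 432) (nat_lit 261) (nat_lit 207)))) (XT.nd (nat_lit 78) (nat_lit 0) (nat_lit 0) (XT.lf (nat_lit 0) (nat_lit 505791471113) (nat_lit 76) (nat_lit 44182746696) (nat_lit 76) (nat_lit 41626361802) (nat_lit 2) (nat_lit 4) (nat_lit 3) (nat_lit 5) (nat_lit 3) (nat_lit 4) (nat_lit 433) (nat_lit 261) (nat_lit 206)) (XT.nd (nat_lit 78) (nat_lit 0) (nat_lit 0) (XT.lf (nat_lit 0) (nat_lit 535528476936) (nat_lit 76) (nat_lit 44052502506) (nat_lit 76) (nat_lit 41487190074) (nat_lit 2) (nat_lit 4) (nat_lit 3) (nat_lit 5) (nat_lit 3) (nat_lit 4) (nat_lit 434) (nat_lit 261) (nat_lit 205)) (XT.lf (nat_lit 0) (nat_lit 566727406609) (nat_lit 76) (nat_lit 43928088670) (nat_lit 76) (nat_lit 41354273821) (nat_lit 2) (nat_lit 4) (nat_lit 3) (nat_lit 5) (nat_lit 3) (nat_lit 4) (nat_lit 435) (nat_lit 261) (nat_lit 204))))) (XT.nd (nat_lit 234)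 (nat_lit 0) (nat_lit 0) (XT.nd (nat_lit 78) (nat_lit 0) (nat_lit 0) (XT.lf (nat_lit 0) (nat_lit 599462543299) (nat_lit 76) (nat_lit 43809208966) (nat_lit 76) (nat_lit 41227296577) (nat_lit 2) (nat_lit 4) (nat_lit 3) (nat_lit 5) (nat_lit 3) (nat_lit 4) (nat_lit 436) (nat_lit 261) (nat_lit 203)) (XT.nd (nat_lit 78) (nat_lit 0) (nat_lit 0) (XT.lf (nat_lit 0) (nat_lit 633811827806) (nat_lit 76) (nat_lit 43695580345) (nat_lit 76) (nat_lit 41105956014) (nat_lit 2) (nat_lit 4) (nat_lit 3) (nat_lit 5) (nat_lit 3) (nat_lit 4) (nat_lit 437) (nat_lit 261) (nat_lit 202)) (XT.lf (nat_lit 0) (nat_lit 669857044142) (nat_lit 76) (nat_lit 43586932265) (nat_lit 76) (nat_lit 40989963226) (nat_lit 2) (nat_lit 4) (nat_lit 3) (nat_lit 5) (nat_lit 3) (nat_lit 4) (nat_lit 438) (nat_lit 261) (nat_lit 201)))) (XT.nd (nat_lit 156) (nat_lit 0) (nat_lit 0) (XT.nd (nat_lit 78) (nat_lit 0) (nat_lit 0) (XT.lf (nat_lit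 0) (nat_lit 707684014249) (nat_lit 76) (nat_lit 43483006039) (nat_lit 76) (nat_lit 40879042040) (nat_lit 2) (nat_lit 4) (nat_lit 3) (nat_lit 5) (nat_lit 3) (nat_lit 4) (nat_lit 439) (nat_lit 261) (nat_lit 200)) (XT.lf (nat_lit 0) (nat_lit 747382802344) (nat_lit 76) (nat_lit 43383554224) (nat_lit 76) (nat_lit 40772928359) (nat_lit 2) (nat_lit 4) (nat_lit 3) (nat_lit 5) (nat_lit 3) (nat_lit 4) (nat_lit 440) (nat_lit 261) (nat_lit 199))) (XT.nd (nat_lit 78) (nat_lit 0) (nat_lit 0) (XT.lf (nat_lit 0) (nat_lit 789047929349) (nat_lit 76) (nat_lit 43288340029) (nat_lit 76) (nat_lit 40671369529) (nat_lit 2) (nat_lit 4) (nat_lit 3) (nat_lit 5) (nat_lit 3) (nat_lit 4) (nat_lit 441) (nat_lit 261) (nat_lit 198)) (XT.lf (nat_lit 0) (nat_lit 832778597949) (nat_lit 76) (nat_lit 43197136755) (nat_lit 76) (nat_lit 40574123746) (nat_lit 2) (nat_lit 4) (nat_lit 3) (nat_lit 5) (nat_lit 3) (nat_lit 4) (nat_lit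 442) (nat_lit 261) (nat_lit 197))))))))
noncomputable def xc22 : XT := (XT.nd (nat_lit 1872) (nat_lit 0) (nat_lit 0) (XT.nd (nat_lit 936) (nat_lit 152) (nat_lit 0) (XT.nd (nat_lit 468) (nat_lit 76) (nat_lit 0) (XT.nd (nat_lit 234) (nat_lit 76) (nat_lit 0) (XT.nd (nat_lit 78) (nat_lit 0) (nat_lit 0) (XT.lf (nat_lit 0) (nat_lit 6352671) (nat_lit 152) (nat_lit 20204724591) (nat_lit 0) (nat_lit 6352671) (nat_lit 6) (nat_lit 5) (nat_lit 8) (nat_lit 4) (nat_lit 6) (nat_lit 4) (nat_lit 376) (nat_lit 262) (nat_lit 262)) (XT.nd (nat_lit 78) (nat_lit 0) (nat_lit 0) (XT.lf (nat_lit 0) (nat_lit 5279392167) (nat_lit 152) (nat_lit 31770498011) (nat_lit 0) (nat_lit 5135339349) (nat_lit 6) (nat_lit 5) (nat_lit 8) (nat_lit 4) (nat_lit 6) (nat_lit 4) (nat_lit 377) (nat_lit 262) (nat_lit 261)) (XT.lf (nat_lit 0) (nat_lit 10638822251) (nat_lit 152) (nat_lit 23035264694) (nat_lit 0) (nat_lit 10357576274) (nat_lit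 6) (nat_lit 5) (nat_lit 8) (nat_lit 4) (nat_lit 6) (nat_lit 4) (nat_lit 378) (nat_lit 262) (nat_lit 260)))) (XT.nd (nat_lit 78) (nat_lit 76) (nat_lit 0) (XT.lf (nat_lit 0) (nat_lit 16103756144) (nat_lit 152) (nat_lit 14182951059) (nat_lit 0) (nat_lit 15691850014) (nat_lit 6) (nat_lit 5) (nat_lit 8) (nat_lit 4) (nat_lit 6) (nat_lit 4) (nat_lit 379) (nat_lit 262) (nat_lit 259)) (XT.nd (nat_lit 78) (nat_lit 76) (nat_lit 0) (XT.lf (nat_lit 0) (nat_lit 21687205591) (nat_lit 152) (nat_lit 5192480166) (nat_lit 0) (nat_lit 21150861222) (nat_lit 6) (nat_lit 5) (nat_lit 8) (nat_lit 4) (nat_lit 6) (nat_lit 4) (nat_lit 380) (nat_lit 262) (nat_lit 258)) (XT.lf (nat_lit 0) (nat_lit 4088408468) (nat_lit 76) (nat_lit 23377887566) (nat_lit 76) (nat_lit 22723030587) (nat_lit 5) (nat_lit 4) (nat_lit 6) (nat_lit 5) (nat_lit 6) (nat_lit 4) (nat_lit 381) (nat_lit 262) (nat_lit 257))))) (XT.nd (nat_lit 234) (nat_lit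 76) (nat_lit 0) (XT.nd (nat_lit 78) (nat_lit 0) (nat_lit 0) (XT.lf (nat_lit 0) (nat_lit 13728329098) (nat_lit 76) (nat_lit 19749149286) (nat_lit 76) (nat_lit 18981423155) (nat_lit 5) (nat_lit 4) (nat_lit 6) (nat_lit 5) (nat_lit 6) (nat_lit 4) (nat_lit 382) (nat_lit 262) (nat_lit 256)) (XT.nd (nat_lit 78) (nat_lit 0) (nat_lit 0) (XT.lf (nat_lit 0) (nat_lit 23578547069) (nat_lit 76) (nat_lit 16072768227) (nat_lit 76) (nat_lit 15197547666) (nat_lit 5) (nat_lit 4) (nat_lit 6) (nat_lit 5) (nat_lit 6) (nat_lit 4) (nat_lit 383) (nat_lit 262) (nat_lit 255)) (XT.lf (nat_lit 0) (nat_lit 33662515282) (nat_lit 76) (nat_lit 12339991102) (nat_lit 76) (nat_lit 11362394893) (nat_lit 5) (nat_lit 4) (nat_lit 6) (nat_lit 5) (nat_lit 6) (nat_lit 4) (nat_lit 384) (nat_lit 262) (nat_lit 254)))) (XT.nd (nat_lit 78) (nat_lit 76) (nat_lit 0) (XT.lf (nat_lit 0) (nat_lit 44004243184) (nat_lit 76) (nat_lit 8541930346)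 (nat_lit 76) (nat_lit 7466833520) (nat_lit 5) (nat_lit 4) (nat_lit 6) (nat_lit 5) (nat_lit 6) (nat_lit 4) (nat_lit 385) (nat_lit 262) (nat_lit 253)) (XT.nd (nat_lit 78) (nat_lit 76) (nat_lit 0) (XT.lf (nat_lit 0) (nat_lit 54628353938) (nat_lit 76) (nat_lit 4669542958) (nat_lit 76) (nat_lit 3501588401) (nat_lit 5) (nat_lit 4) (nat_lit 6) (nat_lit 5) (nat_lit 6) (nat_lit 4) (nat_lit 386) (nat_lit 262) (nat_lit 252)) (XT.lf (nat_lit 0) (nat_lit 525409125) (nat_lit 152) (nat_lit 179301784) (nat_lit 76) (nat_lit 65025835862) (nat_lit 4) (nat_lit 5) (nat_lit 6) (nat_lit 5) (nat_lit 5) (nat_lit 4) (nat_lit 387) (nat_lit 262) (nat_lit 251)))))) (XT.nd (nat_lit 468) (nat_lit 76) (nat_lit 0) (XT.nd (nat_lit 234) (nat_lit 0) (nat_lit 0) (XT.nd (nat_lit 78) (nat_lit 0) (nat_lit 0) (XT.lf (nat_lit 0) (nat_lit 4709651840) (nat_lit 152) (nat_lit 60659094625) (nat_lit 0) (nat_lit 3432875469) (nat_lit 3)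 (nat_lit 5) (nat_lit 5) (nat_lit 4) (nat_lit 3) (nat_lit 4) (nat_lit 388) (nat_lit 262) (nat_lit 250)) (XT.nd (nat_lit 78) (nat_lit 0) (nat_lit 0) (XT.lf (nat_lit 0) (nat_lit 9008176150) (nat_lit 152) (nat_lit 55367824646) (nat_lit 0) (nat_lit 7655005494) (nat_lit 3) (nat_lit 5) (nat_lit 5) (nat_lit 4) (nat_lit 3) (nat_lit 4) (nat_lit 389) (nat_lit 262) (nat_lit 249)) (XT.lf (nat_lit 0) (nat_lit 13417274752) (nat_lit 152) (nat_lit 50018463558) (nat_lit 0) (nat_lit 11991347634) (nat_lit 3) (nat_lit 5) (nat_lit 5) (nat_lit 4) (nat_lit 3) (nat_lit 4) (nat_lit 390) (nat_lit 262) (nat_lit 248)))) (XT.nd (nat_lit 78) (nat_lit 0) (nat_lit 0) (XT.lf (nat_lit 0) (nat_lit 17947445498) (nat_lit 152) (nat_lit 44598274789) (nat_lit 0) (nat_lit 16452226512) (nat_lit 3) (nat_lit 5) (nat_lit 5) (nat_lit 4) (nat_lit 3) (nat_lit 4) (nat_lit 391) (nat_lit 262) (nat_lit 247)) (XT.nd (nat_lit 78) (nat_lit 0)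 (nat_lit 0) (XT.lf (nat_lit 0) (nat_lit 22609474510) (nat_lit 152) (nat_lit 39094353126) (nat_lit 0) (nat_lit 21048263269) (nat_lit 3) (nat_lit 5) (nat_lit 5) (nat_lit 4) (nat_lit 3) (nat_lit 4) (nat_lit 392) (nat_lit 262) (nat_lit 246)) (XT.lf (nat_lit 0) (nat_lit 27414461857) (nat_lit 152) (nat_lit 33493593994) (nat_lit 0) (nat_lit 25790400848) (nat_lit 3) (nat_lit 5) (nat_lit 5) (nat_lit 4) (nat_lit 3) (nat_lit 4) (nat_lit 393) (nat_lit 262) (nat_lit 245))))) (XT.nd (nat_lit 234) (nat_lit 76) (nat_lit 0) (XT.nd (nat_lit 78) (nat_lit 0) (nat_lit 0) (XT.lf (nat_lit 0) (nat_lit 32373847985) (nat_lit 152) (nat_lit 27782662252) (nat_lit 0) (nat_lit 30689930055) (nat_lit 3) (nat_lit 5) (nat_lit 5) (nat_lit 4) (nat_lit 3) (nat_lit 4) (nat_lit 394) (nat_lit 262) (nat_lit 244)) (XT.nd (nat_lit 78) (nat_lit 0) (nat_lit 0) (XT.lf (nat_lit 0) (nat_lit 37499440956) (nat_lit 152) (nat_lit 21947960445)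 (nat_lit 0) (nat_lit 35758516434) (nat_lit 3) (nat_lit 5) (nat_lit 5) (nat_lit 4) (nat_lit 3) (nat_lit 4) (nat_lit 395) (nat_lit 262) (nat_lit 243)) (XT.lf (nat_lit 0) (nat_lit 42803444563) (nat_lit 152) (nat_lit 15975596424) (nat_lit 0) (nat_lit 41008228049) (nat_lit 3) (nat_lit 5) (nat_lit 5) (nat_lit 4) (nat_lit 3) (nat_lit 4) (nat_lit 396) (nat_lit 262) (nat_lit 242)))) (XT.nd (nat_lit 78) (nat_lit 76) (nat_lit 0) (XT.lf (nat_lit 0) (nat_lit 48298487385) (nat_lit 152) (nat_lit 9851350276) (nat_lit 0) (nat_lit 46451564213) (nat_lit 3) (nat_lit 5) (nat_lit 5) (nat_lit 4) (nat_lit 3) (nat_lit 4) (nat_lit 397) (nat_lit 262) (nat_lit 241)) (XT.nd (nat_lit 78) (nat_lit 76) (nat_lit 0) (XT.lf (nat_lit 0) (nat_lit 53997652859) (nat_lit 152) (nat_lit 3560640462) (nat_lit 0) (nat_lit 52101485249) (nat_lit 3) (nat_lit 5) (nat_lit 5) (nat_lit 4) (nat_lit 3) (nat_lit 4) (nat_lit 398) (nat_lit 262)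 (nat_lit 240)) (XT.lf (nat_lit 0) (nat_lit 3007778597) (nat_lit 76) (nat_lit 56953691681) (nat_lit 76) (nat_lit 55010624608) (nat_lit 2) (nat_lit 4) (nat_lit 3) (nat_lit 5) (nat_lit 3) (nat_lit 4) (nat_lit 399) (nat_lit 262) (nat_lit 239))))))) (XT.nd (nat_lit 936) (nat_lit 0) (nat_lit 0) (XT.nd (nat_lit 468) (nat_lit 0) (nat_lit 0) (XT.nd (nat_lit 234) (nat_lit 0) (nat_lit 0) (XT.nd (nat_lit 78) (nat_lit 0) (nat_lit 0) (XT.lf (nat_lit 0) (nat_lit 9897288739) (nat_lit 76) (nat_lit 56320383516) (nat_lit 76) (nat_lit 54332650286) (nat_lit 2) (nat_lit 4) (nat_lit 3) (nat_lit 5) (nat_lit 3) (nat_lit 4) (nat_lit 400) (nat_lit 262) (nat_lit 238)) (XT.nd (nat_lit 78) (nat_lit 0) (nat_lit 0) (XT.lf (nat_lit 0) (nat_lit 17006562704) (nat_lit 76) (nat_lit 55717162118) (nat_lit 76) (nat_lit 53686889692) (nat_lit 2) (nat_lit 4) (nat_lit 3) (nat_lit 5) (nat_lit 3) (nat_lit 4) (nat_lit 401) (nat_lit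 262) (nat_lit 237)) (XT.lf (nat_lit 0) (nat_lit 24352527336) (nat_lit 76) (nat_lit 55142591246) (nat_lit 76) (nat_lit 53071805300) (nat_lit 2) (nat_lit 4) (nat_lit 3) (nat_lit 5) (nat_lit 3) (nat_lit 4) (nat_lit 402) (nat_lit 262) (nat_lit 236)))) (XT.nd (nat_lit 78) (nat_lit 0) (nat_lit 0) (XT.lf (nat_lit 0) (nat_lit 31952673027) (nat_lit 76) (nat_lit 54595302874) (nat_lit 76) (nat_lit 52485932623) (nat_lit 2) (nat_lit 4) (nat_lit 3) (nat_lit 5) (nat_lit 3) (nat_lit 4) (nat_lit 403) (nat_lit 262) (nat_lit 235)) (XT.nd (nat_lit 78) (nat_lit 0) (nat_lit 0) (XT.lf (nat_lit 0) (nat_lit 39825095360) (nat_lit 76) (nat_lit 54073993935) (nat_lit 76) (nat_lit 51927876726) (nat_lit 2) (nat_lit 4) (nat_lit 3) (nat_lit 5) (nat_lit 3) (nat_lit 4) (nat_lit 404) (nat_lit 262) (nat_lit 234)) (XT.lf (nat_lit 0) (nat_lit 47988538200) (nat_lit 76) (nat_lit 53577423216) (nat_lit 76) (nat_lit 51396308905)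 (nat_lit 2) (nat_lit 4) (nat_lit 3) (nat_lit 5) (nat_lit 3) (nat_lit 4) (nat_lit 405) (nat_lit 262) (nat_lit 233))))) (XT.nd (nat_lit 234) (nat_lit 0) (nat_lit 0) (XT.nd (nat_lit 78) (nat_lit 0) (nat_lit 0) (XT.lf (nat_lit 0) (nat_lit 56462438314) (nat_lit 76) (nat_lit 53104408407) (nat_lit 76) (nat_lit 50889963523) (nat_lit 2) (nat_lit 4) (nat_lit 3) (nat_lit 5) (nat_lit 3) (nat_lit 4) (nat_lit 406) (nat_lit 262) (nat_lit 232)) (XT.nd (nat_lit 78) (nat_lit 0) (nat_lit 0) (XT.lf (nat_lit 0) (nat_lit 65266971656) (nat_lit 76) (nat_lit 52653823281) (nat_lit 76) (nat_lit 50407634994) (nat_lit 2) (nat_lit 4) (nat_lit 3) (nat_lit 5) (nat_lit 3) (nat_lit 4) (nat_lit 407) (nat_lit 262) (nat_lit 231)) (XT.lf (nat_lit 0) (nat_lit 74423101400) (nat_lit 76) (nat_lit 52224595018) (nat_lit 76) (nat_lit 49948174918) (nat_lit 2) (nat_lit 4) (nat_lit 3) (nat_lit 5) (nat_lit 3) (nat_lit 4) (nat_lit 408)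 (nat_lit 262) (nat_lit 230)))) (XT.nd (nat_lit 78) (nat_lit 0) (nat_lit 0) (XT.lf (nat_lit 0) (nat_lit 83952627854) (nat_lit 76) (nat_lit 51815701644) (nat_lit 76) (nat_lit 49510489342) (nat_lit 2) (nat_lit 4) (nat_lit 3) (nat_lit 5) (nat_lit 3) (nat_lit 4) (nat_lit 409) (nat_lit 262) (nat_lit 229)) (XT.nd (nat_lit 78) (nat_lit 0) (nat_lit 0) (XT.lf (nat_lit 0) (nat_lit 93878240369) (nat_lit 76) (nat_lit 51426169605) (nat_lit 76) (nat_lit 49093536158) (nat_lit 2) (nat_lit 4) (nat_lit 3) (nat_lit 5) (nat_lit 3) (nat_lit 4) (nat_lit 410) (nat_lit 262) (nat_lit 228)) (XT.lf (nat_lit 0) (nat_lit 104223571353) (nat_lit 76) (nat_lit 51055071443) (nat_lit 76) (nat_lit 48696322619) (nat_lit 2) (nat_lit 4) (nat_lit 3) (nat_lit 5) (nat_lit 3) (nat_lit 4) (nat_lit 411) (nat_lit 262) (nat_lit 227)))))) (XT.nd (nat_lit 468) (nat_lit 0) (nat_lit 0) (XT.nd (nat_lit 234) (nat_lit 0) (nat_lit 0) (XT.nd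 (nat_lit 78) (nat_lit 0) (nat_lit 0) (XT.lf (nat_lit 0) (nat_lit 115013252549) (nat_lit 76) (nat_lit 50701523591) (nat_lit 76) (nat_lit 48317902980) (nat_lit 2) (nat_lit 4) (nat_lit 3) (nat_lit 5) (nat_lit 3) (nat_lit 4) (nat_lit 412) (nat_lit 262) (nat_lit 226)) (XT.nd (nat_lit 78) (nat_lit 0) (nat_lit 0) (XT.lf (nat_lit 0) (nat_lit 126272973672) (nat_lit 76) (nat_lit 50364684269) (nat_lit 76) (nat_lit 47957376241) (nat_lit 2) (nat_lit 4) (nat_lit 3) (nat_lit 5) (nat_lit 3) (nat_lit 4) (nat_lit 413) (nat_lit 262) (nat_lit 225)) (XT.lf (nat_lit 0) (nat_lit 138029543583) (nat_lit 76) (nat_lit 50043751477) (nat_lit 76) (nat_lit 47613884006) (nat_lit 2) (nat_lit 4) (nat_lit 3) (nat_lit 5) (nat_lit 3) (nat_lit 4) (nat_lit 414) (nat_lit 262) (nat_lit 224)))) (XT.nd (nat_lit 78) (nat_lit 0) (nat_lit 0) (XT.lf (nat_lit 0) (nat_lit 150310954115) (nat_lit 76) (nat_lit 49737961091) (nat_lit 76) (nat_lit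 47286608435) (nat_lit 2) (nat_lit 4) (nat_lit 3) (nat_lit 5) (nat_lit 3) (nat_lit 4) (nat_lit 415) (nat_lit 262) (nat_lit 223)) (XT.nd (nat_lit 78) (nat_lit 0) (nat_lit 0) (XT.lf (nat_lit 0) (nat_lit 163146446721) (nat_lit 76) (nat_lit 49446585038) (nat_lit 76) (nat_lit 46974770301) (nat_lit 2) (nat_lit 4) (nat_lit 3) (nat_lit 5) (nat_lit 3) (nat_lit 4) (nat_lit 416) (nat_lit 262) (nat_lit 222)) (XT.lf (nat_lit 0) (nat_lit 176566582099) (nat_lit 76) (nat_lit 49168929565) (nat_lit 76) (nat_lit 46677627132) (nat_lit 2) (nat_lit 4) (nat_lit 3) (nat_lit 5) (nat_lit 3) (nat_lit 4) (nat_lit 417) (nat_lit 262) (nat_lit 221))))) (XT.nd (nat_lit 234) (nat_lit 0) (nat_lit 0) (XT.nd (nat_lit 78) (nat_lit 0) (nat_lit 0) (XT.lf (nat_lit 0) (nat_lit 190603312951) (nat_lit 76) (nat_lit 48904333588) (nat_lit 76) (nat_lit 46394471445) (nat_lit 2) (nat_lit 4) (nat_lit 3) (nat_lit 5) (nat_lit 3) (nat_lit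 4) (nat_lit 418) (nat_lit 262) (nat_lit 220)) (XT.nd (nat_lit 78) (nat_lit 0) (nat_lit 0) (XT.lf (nat_lit 0) (nat_lit 205290060065) (nat_lit 76) (nat_lit 48652167117) (nat_lit 76) (nat_lit 46124629059) (nat_lit 2) (nat_lit 4) (nat_lit 3) (nat_lit 5) (nat_lit 3) (nat_lit 4) (nat_lit 419) (nat_lit 262) (nat_lit 219)) (XT.lf (nat_lit 0) (nat_lit 220661791888) (nat_lit 76) (nat_lit 48411829755) (nat_lit 76) (nat_lit 45867457493) (nat_lit 2) (nat_lit 4) (nat_lit 3) (nat_lit 5) (nat_lit 3) (nat_lit 4) (nat_lit 420) (nat_lit 262) (nat_lit 218)))) (XT.nd (nat_lit 156) (nat_lit 0) (nat_lit 0) (XT.nd (nat_lit 78) (nat_lit 0) (nat_lit 0) (XT.lf (nat_lit 0) (nat_lit 236755107779) (nat_lit 76) (nat_lit 48182749271) (nat_lit 76) (nat_lit 45622344433) (nat_lit 2) (nat_lit 4) (nat_lit 3) (nat_lit 5) (nat_lit 3) (nat_lit 4) (nat_lit 421) (nat_lit 262) (nat_lit 217)) (XT.lf (nat_lit 0) (nat_lit 253608325158)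 (nat_lit 76) (nat_lit 47964380234) (nat_lit 76) (nat_lit 45388706276) (nat_lit 2) (nat_lit 4) (nat_lit 3) (nat_lit 5) (nat_lit 3) (nat_lit 4) (nat_lit 422) (nat_lit 262) (nat_lit 216))) (XT.nd (nat_lit 78) (nat_lit 0) (nat_lit 0) (XT.lf (nat_lit 0) (nat_lit 271261570733) (nat_lit 76) (nat_lit 47756202719) (nat_lit 76) (nat_lit 45165986742) (nat_lit 2) (nat_lit 4) (nat_lit 3) (nat_lit 5) (nat_lit 3) (nat_lit 4) (nat_lit 423) (nat_lit 262) (nat_lit 215)) (XT.lf (nat_lit 0) (nat_lit 289756876042) (nat_lit 76) (nat_lit 47557721065) (nat_lit 76) (nat_lit 44953655546) (nat_lit 2) (nat_lit 4) (nat_lit 3) (nat_lit 5) (nat_lit 3) (nat_lit 4) (nat_lit 424) (nat_lit 262) (nat_lit 214))))))))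
noncomputable def xc23 : XT := (XT.nd (nat_lit 43446) (nat_lit 0) (nat_lit 0) (XT.nd (nat_lit 936) (nat_lit 0) (nat_lit 0) (XT.nd (nat_lit 468) (nat_lit 0) (nat_lit 0) (XT.nd (nat_lit 234) (nat_lit 0) (nat_lit 0) (XT.nd (nat_lit 78) (nat_lit 0) (nat_lit 0) (XT.lf (nat_lit 0) (nat_lit 309138277524) (nat_lit 76) (nat_lit 47368462695) (nat_lit 76) (nat_lit 44751207137) (nat_lit 2) (nat_lit 4) (nat_lit 3) (nat_lit 5) (nat_lit 3) (nat_lit 4) (nat_lit 425) (nat_lit 262) (nat_lit 213)) (XT.nd (nat_lit 78) (nat_lit 0) (nat_lit 0) (XT.lf (nat_lit 0) (nat_lit 329451921376) (nat_lit 76) (nat_lit 47187976996) (nat_lit 76) (nat_lit 44558159496) (nat_lit 2) (nat_lit 4) (nat_lit 3) (nat_lit 5) (nat_lit 3) (nat_lit 4) (nat_lit 426) (nat_lit 262) (nat_lit 212)) (XT.lf (nat_lit 0) (nat_lit 350746173414) (nat_lit 76) (nat_lit 47015834240) (nat_lit 76) (nat_lit 44374052984) (nat_lit 2) (nat_lit 4) (nat_lit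 3) (nat_lit 5) (nat_lit 3) (nat_lit 4) (nat_lit 427) (nat_lit 262) (nat_lit 211)))) (XT.nd (nat_lit 78) (nat_lit 0) (nat_lit 0) (XT.lf (nat_lit 0) (nat_lit 373071734239) (nat_lit 76) (nat_lit 46851624562) (nat_lit 76) (nat_lit 44198449254) (nat_lit 2) (nat_lit 4) (nat_lit 3) (nat_lit 5) (nat_lit 3) (nat_lit 4) (nat_lit 428) (nat_lit 262) (nat_lit 210)) (XT.nd (nat_lit 78) (nat_lit 0) (nat_lit 0) (XT.lf (nat_lit 0) (nat_lit 396481759948) (nat_lit 76) (nat_lit 46694956987) (nat_lit 76) (nat_lit 44030930201) (nat_lit 2) (nat_lit 4) (nat_lit 3) (nat_lit 5) (nat_lit 3) (nat_lit 4) (nat_lit 429) (nat_lit 262) (nat_lit 209)) (XT.lf (nat_lit 0) (nat_lit 421031988699) (nat_lit 76) (nat_lit 46545458497) (nat_lit 76) (nat_lit 43871096970) (nat_lit 2) (nat_lit 4) (nat_lit 3) (nat_lit 5) (nat_lit 3) (nat_lit 4) (nat_lit 430) (nat_lit 262) (nat_lit 208))))) (XT.nd (nat_lit 234) (nat_lit 0) (nat_lit 0)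 (XT.nd (nat_lit 78) (nat_lit 0) (nat_lit 0) (XT.lf (nat_lit 0) (nat_lit 446780873416) (nat_lit 76) (nat_lit 46402773143) (nat_lit 76) (nat_lit 43718569005) (nat_lit 2) (nat_lit 4) (nat_lit 3) (nat_lit 5) (nat_lit 3) (nat_lit 4) (nat_lit 431) (nat_lit 262) (nat_lit 207)) (XT.nd (nat_lit 78) (nat_lit 0) (nat_lit 0) (XT.lf (nat_lit 0) (nat_lit 473789720967) (nat_lit 76) (nat_lit 46266561199) (nat_lit 76) (nat_lit 43572983146) (nat_lit 2) (nat_lit 4) (nat_lit 3) (nat_lit 5) (nat_lit 3) (nat_lit 4) (nat_lit 432) (nat_lit 262) (nat_lit 206)) (XT.lf (nat_lit 0) (nat_lit 502122838133) (nat_lit 76) (nat_lit 46136498350) (nat_lit 76) (nat_lit 43433992759) (nat_lit 2) (nat_lit 4) (nat_lit 3) (nat_lit 5) (nat_lit 3) (nat_lit 4) (nat_lit 433) (nat_lit 262) (nat_lit 205)))) (XT.nd (nat_lit 78) (nat_lit 0) (nat_lit 0) (XT.lf (nat_lit 0) (nat_lit 531847684717) (nat_lit 76) (nat_lit 46012274923) (nat_lit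 76) (nat_lit 43301266915) (nat_lit 2) (nat_lit 4) (nat_lit 3) (nat_lit 5) (nat_lit 3) (nat_lit 4) (nat_lit 434) (nat_lit 262) (nat_lit 204)) (XT.nd (nat_lit 78) (nat_lit 0) (nat_lit 0) (XT.lf (nat_lit 0) (nat_lit 563035034162) (nat_lit 76) (nat_lit 45893595147) (nat_lit 76) (nat_lit 43174489599) (nat_lit 2) (nat_lit 4) (nat_lit 3) (nat_lit 5) (nat_lit 3) (nat_lit 4) (nat_lit 435) (nat_lit 262) (nat_lit 203)) (XT.lf (nat_lit 0) (nat_lit 595759142063) (nat_lit 76) (nat_lit 45780176453) (nat_lit 76) (nat_lit 43053358961) (nat_lit 2) (nat_lit 4) (nat_lit 3) (nat_lit 5) (nat_lit 3) (nat_lit 4) (nat_lit 436) (nat_lit 262) (nat_lit 202)))))) (XT.nd (nat_lit 41964) (nat_lit 0) (nat_lit 304) (XT.nd (nat_lit 234) (nat_lit 0) (nat_lit 0) (XT.nd (nat_lit 78) (nat_lit 0) (nat_lit 0) (XT.lf (nat_lit 0) (nat_lit 630097922962) (nat_lit 76) (nat_lit 45671748794) (nat_lit 76) (nat_lit 42937586595) (nat_lit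 2) (nat_lit 4) (nat_lit 3) (nat_lit 5) (nat_lit 3) (nat_lit 4) (nat_lit 437) (nat_lit 262) (nat_lit 201)) (XT.nd (nat_lit 78) (nat_lit 0) (nat_lit 0) (XT.lf (nat_lit 0) (nat_lit 666133135861) (nat_lit 76) (nat_lit 45568054010) (nat_lit 76) (nat_lit 42826896852) (nat_lit 2) (nat_lit 4) (nat_lit 3) (nat_lit 5) (nat_lit 3) (nat_lit 4) (nat_lit 438) (nat_lit 262) (nat_lit 200)) (XT.lf (nat_lit 0) (nat_lit 703950578887) (nat_lit 76) (nat_lit 45468845210) (nat_lit 76) (nat_lit 42721026185) (nat_lit 2) (nat_lit 4) (nat_lit 3) (nat_lit 5) (nat_lit 3) (nat_lit 4) (nat_lit 439) (nat_lit 262) (nat_lit 199)))) (XT.nd (nat_lit 78) (nat_lit 0) (nat_lit 0) (XT.lf (nat_lit 0) (nat_lit 743640293569) (nat_lit 76) (nat_lit 45373886181) (nat_lit 76) (nat_lit 42619722521) (nat_lit 2) (nat_lit 4) (nat_lit 3) (nat_lit 5) (nat_lit 3) (nat_lit 4) (nat_lit 440) (nat_lit 262) (nat_lit 198)) (XT.nd (nat_lit 78) (nat_lit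 0) (nat_lit 0) (XT.lf (nat_lit 0) (nat_lit 785296779230) (nat_lit 76) (nat_lit 45282950830) (nat_lit 76) (nat_lit 42522744661) (nat_lit 2) (nat_lit 4) (nat_lit 3) (nat_lit 5) (nat_lit 3) (nat_lit 4) (nat_lit 441) (nat_lit 262) (nat_lit 197)) (XT.lf (nat_lit 0) (nat_lit 829019217978) (nat_lit 76) (nat_lit 45195822645) (nat_lit 76) (nat_lit 42429861705) (nat_lit 2) (nat_lit 4) (nat_lit 3) (nat_lit 5) (nat_lit 3) (nat_lit 4) (nat_lit 442) (nat_lit 262) (nat_lit 196))))) (XT.nd (nat_lit 234) (nat_lit 76) (nat_lit 0) (XT.nd (nat_lit 78) (nat_lit 76) (nat_lit 0) (XT.lf (nat_lit 0) (nat_lit 8697490801) (nat_lit 76) (nat_lit 4943659556) (nat_lit 76) (nat_lit 4943659556) (nat_lit 8) (nat_lit 4) (nat_lit 9) (nat_lit 5) (nat_lit 9) (nat_lit 4) (nat_lit 374) (nat_lit 263) (nat_lit 263)) (XT.nd (nat_lit 78) (nat_lit 76) (nat_lit 0) (XT.lf (nat_lit 0) (nat_lit 28728488628) (nat_lit 76) (nat_lit 5095331108)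 (nat_lit 76) (nat_lit 4936512877) (nat_lit 8) (nat_lit 4) (nat_lit 9) (nat_lit 5) (nat_lit 9) (nat_lit 4) (nat_lit 375) (nat_lit 263) (nat_lit 262)) (XT.lf (nat_lit 0) (nat_lit 82389691) (nat_lit 152) (nat_lit 141174821) (nat_lit 76) (nat_lit 40215382105) (nat_lit 7) (nat_lit 5) (nat_lit 9) (nat_lit 5) (nat_lit 8) (nat_lit 4) (nat_lit 376) (nat_lit 263) (nat_lit 261)))) (XT.nd (nat_lit 156) (nat_lit 0) (nat_lit 0) (XT.nd (nat_lit 78) (nat_lit 0) (nat_lit 0) (XT.lf (nat_lit 0) (nat_lit 5260056544) (nat_lit 152) (nat_lit 32106163425) (nat_lit 0) (nat_lit 4827555109) (nat_lit 6) (nat_lit 5) (nat_lit 8) (nat_lit 4) (nat_lit 6) (nat_lit 4) (nat_lit 377) (nat_lit 263) (nat_lit 260)) (XT.lf (nat_lit 0) (nat_lit 10540234094) (nat_lit 152) (nat_lit 23526872229) (nat_lit 0) (nat_lit 9977072506) (nat_lit 6) (nat_lit 5) (nat_lit 8) (nat_lit 4) (nat_lit 6) (nat_lit 4) (nat_lit 378) (nat_lit 263) (nat_lit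 259))) (XT.nd (nat_lit 78) (nat_lit 0) (nat_lit 0) (XT.lf (nat_lit 0) (nat_lit 15929689382) (nat_lit 152) (nat_lit 14823074898) (nat_lit 0) (nat_lit 15242089554) (nat_lit 6) (nat_lit 5) (nat_lit 8) (nat_lit 4) (nat_lit 6) (nat_lit 4) (nat_lit 379) (nat_lit 263) (nat_lit 258)) (XT.lf (nat_lit 0) (nat_lit 21441254444) (nat_lit 152) (nat_lit 5974048105) (nat_lit 0) (nat_lit 20635142007) (nat_lit 6) (nat_lit 5) (nat_lit 8) (nat_lit 4) (nat_lit 6) (nat_lit 4) (nat_lit 380) (nat_lit 263) (nat_lit 257))))))) (XT.nd (nat_lit 936) (nat_lit 76) (nat_lit 0) (XT.nd (nat_lit 468) (nat_lit 152) (nat_lit 0) (XT.nd (nat_lit 234) (nat_lit 0) (nat_lit 0) (XT.nd (nat_lit 78) (nat_lit 0) (nat_lit 0) (XT.lf (nat_lit 0) (nat_lit 3141835620) (nat_lit 76) (nat_lit 23995269293) (nat_lit 76) (nat_lit 23076287704) (nat_lit 5) (nat_lit 4) (nat_lit 6) (nat_lit 5) (nat_lit 6) (nat_lit 4) (nat_lit 381) (nat_lit 263)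 (nat_lit 256)) (XT.nd (nat_lit 78) (nat_lit 0) (nat_lit 0) (XT.lf (nat_lit 0) (nat_lit 12649220303) (nat_lit 76) (nat_lit 20431796445) (nat_lit 76) (nat_lit 19405320425) (nat_lit 5) (nat_lit 4) (nat_lit 6) (nat_lit 5) (nat_lit 6) (nat_lit 4) (nat_lit 382) (nat_lit 263) (nat_lit 255)) (XT.lf (nat_lit 0) (nat_lit 22373213564) (nat_lit 76) (nat_lit 16817572941) (nat_lit 76) (nat_lit 15688721273) (nat_lit 5) (nat_lit 4) (nat_lit 6) (nat_lit 5) (nat_lit 6) (nat_lit 4) (nat_lit 383) (nat_lit 263) (nat_lit 254)))) (XT.nd (nat_lit 78) (nat_lit 0) (nat_lit 0) (XT.lf (nat_lit 0) (nat_lit 32336967766) (nat_lit 76) (nat_lit 13143993486) (nat_lit 76) (nat_lit 11917641202) (nat_lit 5) (nat_lit 4) (nat_lit 6) (nat_lit 5) (nat_lit 6) (nat_lit 4) (nat_lit 384) (nat_lit 263) (nat_lit 253)) (XT.nd (nat_lit 78) (nat_lit 0) (nat_lit 0) (XT.lf (nat_lit 0) (nat_lit 42564206135) (nat_lit 76) (nat_lit 9402311465)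 (nat_lit 76) (nat_lit 8083101449) (nat_lit 5) (nat_lit 4) (nat_lit 6) (nat_lit 5) (nat_lit 6) (nat_lit 4) (nat_lit 385) (nat_lit 263) (nat_lit 252)) (XT.lf (nat_lit 0) (nat_lit 53079279238) (nat_lit 76) (nat_lit 5583618109) (nat_lit 76) (nat_lit 4175972160) (nat_lit 5) (nat_lit 4) (nat_lit 6) (nat_lit 5) (nat_lit 6) (nat_lit 4) (nat_lit 386) (nat_lit 263) (nat_lit 251))))) (XT.nd (nat_lit 234) (nat_lit 0) (nat_lit 0) (XT.nd (nat_lit 78) (nat_lit 152) (nat_lit 0) (XT.lf (nat_lit 0) (nat_lit 63907222963) (nat_lit 76) (nat_lit 1678821292) (nat_lit 76) (nat_lit 186950643) (nat_lit 5) (nat_lit 4) (nat_lit 6) (nat_lit 5) (nat_lit 6) (nat_lit 4) (nat_lit 387) (nat_lit 263) (nat_lit 250)) (XT.nd (nat_lit 78) (nat_lit 0) (nat_lit 0) (XT.lf (nat_lit 0) (nat_lit 3906971468) (nat_lit 152) (nat_lit 62532316096) (nat_lit 0) (nat_lit 2409747994) (nat_lit 3) (nat_lit 5) (nat_lit 5) (nat_lit 4) (nat_lit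 3) (nat_lit 4) (nat_lit 388) (nat_lit 263) (nat_lit 249)) (XT.lf (nat_lit 0) (nat_lit 8154592400) (nat_lit 152) (nat_lit 57341764356) (nat_lit 0) (nat_lit 6584612465) (nat_lit 3) (nat_lit 5) (nat_lit 5) (nat_lit 4) (nat_lit 3) (nat_lit 4) (nat_lit 389) (nat_lit 263) (nat_lit 248)))) (XT.nd (nat_lit 78) (nat_lit 0) (nat_lit 0) (XT.lf (nat_lit 0) (nat_lit 12515211594) (nat_lit 152) (nat_lit 52088325402) (nat_lit 0) (nat_lit 10875939790) (nat_lit 3) (nat_lit 5) (nat_lit 5) (nat_lit 4) (nat_lit 3) (nat_lit 4) (nat_lit 390) (nat_lit 263) (nat_lit 247)) (XT.nd (nat_lit 78) (nat_lit 0) (nat_lit 0) (XT.lf (nat_lit 0) (nat_lit 16999211476) (nat_lit 152) (nat_lit 46759491044) (nat_lit 0) (nat_lit 15293947417) (nat_lit 3) (nat_lit 5) (nat_lit 5) (nat_lit 4) (nat_lit 3) (nat_lit 4) (nat_lit 391) (nat_lit 263) (nat_lit 246)) (XT.lf (nat_lit 0) (nat_lit 21617268237) (nat_lit 152) (nat_lit 41342573583)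 (nat_lit 0) (nat_lit 19849154410) (nat_lit 3) (nat_lit 5) (nat_lit 5) (nat_lit 4) (nat_lit 3) (nat_lit 4) (nat_lit 392) (nat_lit 263) (nat_lit 245)))))) (XT.nd (nat_lit 468) (nat_lit 76) (nat_lit 0) (XT.nd (nat_lit 234) (nat_lit 0) (nat_lit 0) (XT.nd (nat_lit 78) (nat_lit 0) (nat_lit 0) (XT.lf (nat_lit 0) (nat_lit 26380377249) (nat_lit 152) (nat_lit 35824675596) (nat_lit 0) (nat_lit 24552406501) (nat_lit 3) (nat_lit 5) (nat_lit 5) (nat_lit 4) (nat_lit 3) (nat_lit 4) (nat_lit 393) (nat_lit 263) (nat_lit 244)) (XT.nd (nat_lit 78) (nat_lit 0) (nat_lit 0) (XT.lf (nat_lit 0) (nat_lit 31299879248) (nat_lit 152) (nat_lit 30192659231) (nat_lit 0) (nat_lit 29414901909) (nat_lit 3) (nat_lit 5) (nat_lit 5) (nat_lit 4) (nat_lit 3) (nat_lit 4) (nat_lit 394) (nat_lit 263) (nat_lit 243)) (XT.lf (nat_lit 0) (nat_lit 36387487335) (nat_lit 152) (nat_lit 24433114925) (nat_lit 0) (nat_lit 34448218004) (nat_lit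 3) (nat_lit 5) (nat_lit 5) (nat_lit 4) (nat_lit 3) (nat_lit 4) (nat_lit 395) (nat_lit 263) (nat_lit 242)))) (XT.nd (nat_lit 78) (nat_lit 0) (nat_lit 0) (XT.lf (nat_lit 0) (nat_lit 41655314861) (nat_lit 152) (nat_lit 18532329477) (nat_lit 0) (nat_lit 39664338871) (nat_lit 3) (nat_lit 5) (nat_lit 5) (nat_lit 4) (nat_lit 3) (nat_lit 4) (nat_lit 396) (nat_lit 263) (nat_lit 241)) (XT.nd (nat_lit 78) (nat_lit 0) (nat_lit 0) (XT.lf (nat_lit 0) (nat_lit 47115904274) (nat_lit 152) (nat_lit 12476253397) (nat_lit 0) (nat_lit 45075683847) (nat_lit 3) (nat_lit 5) (nat_lit 5) (nat_lit 4) (nat_lit 3) (nat_lit 4) (nat_lit 397) (nat_lit 263) (nat_lit 240)) (XT.lf (nat_lit 0) (nat_lit 52782256977) (nat_lit 152) (nat_lit 6250467458) (nat_lit 0) (nat_lit 50695137086) (nat_lit 3) (nat_lit 5) (nat_lit 5) (nat_lit 4) (nat_lit 3) (nat_lit 4) (nat_lit 398) (nat_lit 263) (nat_lit 239))))) (XT.nd (nat_lit 234) (nat_lit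 0) (nat_lit 0) (XT.nd (nat_lit 78) (nat_lit 0) (nat_lit 0) (XT.lf (nat_lit 0) (nat_lit 165137057) (nat_lit 76) (nat_lit 58505305480) (nat_lit 76) (nat_lit 56373519433) (nat_lit 2) (nat_lit 4) (nat_lit 3) (nat_lit 5) (nat_lit 3) (nat_lit 4) (nat_lit 399) (nat_lit 263) (nat_lit 238)) (XT.nd (nat_lit 78) (nat_lit 0) (nat_lit 0) (XT.lf (nat_lit 0) (nat_lit 6993812231) (nat_lit 76) (nat_lit 57902120328) (nat_lit 76) (nat_lit 55727795084) (nat_lit 2) (nat_lit 4) (nat_lit 3) (nat_lit 5) (nat_lit 3) (nat_lit 4) (nat_lit 400) (nat_lit 263) (nat_lit 237)) (XT.lf (nat_lit 0) (nat_lit 14045148132) (nat_lit 76) (nat_lit 57327587513) (nat_lit 76) (nat_lit 55112748749) (nat_lit 2) (nat_lit 4) (nat_lit 3) (nat_lit 5) (nat_lit 3) (nat_lit 4) (nat_lit 401) (nat_lit 263) (nat_lit 236)))) (XT.nd (nat_lit 156) (nat_lit 0) (nat_lit 0) (XT.nd (nat_lit 78) (nat_lit 0) (nat_lit 0) (XT.lf (nat_lit 0) (nat_lit 21335933655)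 (nat_lit 76) (nat_lit 56780339101) (nat_lit 76) (nat_lit 54526916033) (nat_lit 2) (nat_lit 4) (nat_lit 3) (nat_lit 5) (nat_lit 3) (nat_lit 4) (nat_lit 402) (nat_lit 263) (nat_lit 235)) (XT.lf (nat_lit 0) (nat_lit 28883527813) (nat_lit 76) (nat_lit 56259072120) (nat_lit 76) (nat_lit 53968902094) (nat_lit 2) (nat_lit 4) (nat_lit 3) (nat_lit 5) (nat_lit 3) (nat_lit 4) (nat_lit 403) (nat_lit 263) (nat_lit 234))) (XT.nd (nat_lit 78) (nat_lit 0) (nat_lit 0) (XT.lf (nat_lit 0) (nat_lit 36705901068) (nat_lit 76) (nat_lit 55762545458) (nat_lit 76) (nat_lit 53437378330) (nat_lit 2) (nat_lit 4) (nat_lit 3) (nat_lit 5) (nat_lit 3) (nat_lit 4) (nat_lit 404) (nat_lit 263) (nat_lit 233)) (XT.lf (nat_lit 0) (nat_lit 44821678119) (nat_lit 76) (nat_lit 55289576908) (nat_lit 76) (nat_lit 52931079206) (nat_lit 2) (nat_lit 4) (nat_lit 3) (nat_lit 5) (nat_lit 3) (nat_lit 4) (nat_lit 405) (nat_lit 263) (nat_lit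 232))))))))
noncomputable def xc24 : XT := (XT.nd (nat_lit 1872) (nat_lit 0) (nat_lit 0) (XT.nd (nat_lit 936) (nat_lit 0) (nat_lit 0) (XT.nd (nat_lit 468) (nat_lit 0) (nat_lit 0) (XT.nd (nat_lit 234) (nat_lit 0) (nat_lit 0) (XT.nd (nat_lit 78) (nat_lit 0) (nat_lit 0) (XT.lf (nat_lit 0) (nat_lit 53250182244) (nat_lit 76) (nat_lit 54839040354) (nat_lit 76) (nat_lit 52448799249) (nat_lit 2) (nat_lit 4) (nat_lit 3) (nat_lit 5) (nat_lit 3) (nat_lit 4) (nat_lit 406) (nat_lit 263) (nat_lit 231)) (XT.nd (nat_lit 78) (nat_lit 0) (nat_lit 0) (XT.lf (nat_lit 0) (nat_lit 62011481310) (nat_lit 76) (nat_lit 54409863091) (nat_lit 76) (nat_lit 51989390174) (nat_lit 2) (nat_lit 4) (nat_lit 3) (nat_lit 5) (nat_lit 3) (nat_lit 4) (nat_lit 407) (nat_lit 263) (nat_lit 230)) (XT.lf (nat_lit 0) (nat_lit 71126435553) (nat_lit 76) (nat_lit 54001023268) (nat_lit 76) (nat_lit 51551758148) (nat_lit 2) (nat_lit 4)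 (nat_lit 3) (nat_lit 5) (nat_lit 3) (nat_lit 4) (nat_lit 408) (nat_lit 263) (nat_lit 229)))) (XT.nd (nat_lit 78) (nat_lit 0) (nat_lit 0) (XT.lf (nat_lit 0) (nat_lit 80616747246) (nat_lit 76) (nat_lit 53611547457) (nat_lit 76) (nat_lit 51134861192) (nat_lit 2) (nat_lit 4) (nat_lit 3) (nat_lit 5) (nat_lit 3) (nat_lit 4) (nat_lit 409) (nat_lit 263) (nat_lit 228)) (XT.nd (nat_lit 78) (nat_lit 0) (nat_lit 0) (XT.lf (nat_lit 0) (nat_lit 90505012367) (nat_lit 76) (nat_lit 53240508335) (nat_lit 76) (nat_lit 50737706693) (nat_lit 2) (nat_lit 4) (nat_lit 3) (nat_lit 5) (nat_lit 3) (nat_lit 4) (nat_lit 410) (nat_lit 263) (nat_lit 227)) (XT.lf (nat_lit 0) (nat_lit 100814774406) (nat_lit 76) (nat_lit 52887022474) (nat_lit 76) (nat_lit 50359349045) (nat_lit 2) (nat_lit 4) (nat_lit 3) (nat_lit 5) (nat_lit 3) (nat_lit 4) (nat_lit 411) (nat_lit 263) (nat_lit 226))))) (XT.nd (nat_lit 234) (nat_lit 0) (nat_lit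 0) (XT.nd (nat_lit 78) (nat_lit 0) (nat_lit 0) (XT.lf (nat_lit 0) (nat_lit 111570580415) (nat_lit 76) (nat_lit 52550248243) (nat_lit 76) (nat_lit 49998887398) (nat_lit 2) (nat_lit 4) (nat_lit 3) (nat_lit 5) (nat_lit 3) (nat_lit 4) (nat_lit 412) (nat_lit 263) (nat_lit 225)) (XT.nd (nat_lit 78) (nat_lit 0) (nat_lit 0) (XT.lf (nat_lit 0) (nat_lit 122798039456) (nat_lit 76) (nat_lit 52229383797) (nat_lit 76) (nat_lit 49655463508) (nat_lit 2) (nat_lit 4) (nat_lit 3) (nat_lit 5) (nat_lit 3) (nat_lit 4) (nat_lit 413) (nat_lit 263) (nat_lit 224)) (XT.lf (nat_lit 0) (nat_lit 134523883575) (nat_lit 76) (nat_lit 51923665173) (nat_lit 76) (nat_lit 49328259700) (nat_lit 2) (nat_lit 4) (nat_lit 3) (nat_lit 5) (nat_lit 3) (nat_lit 4) (nat_lit 414) (nat_lit 263) (nat_lit 223)))) (XT.nd (nat_lit 78) (nat_lit 0) (nat_lit 0) (XT.lf (nat_lit 0) (nat_lit 146776031447) (nat_lit 76) (nat_lit 51632364471) (nat_lit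 76) (nat_lit 49016496917) (nat_lit 2) (nat_lit 4) (nat_lit 3) (nat_lit 5) (nat_lit 3) (nat_lit 4) (nat_lit 415) (nat_lit 263) (nat_lit 222)) (XT.nd (nat_lit 78) (nat_lit 0) (nat_lit 0) (XT.lf (nat_lit 0) (nat_lit 159583654854) (nat_lit 76) (nat_lit 51354788117) (nat_lit 76) (nat_lit 48719432867) (nat_lit 2) (nat_lit 4) (nat_lit 3) (nat_lit 5) (nat_lit 3) (nat_lit 4) (nat_lit 416) (nat_lit 263) (nat_lit 221)) (XT.lf (nat_lit 0) (nat_lit 172977248137) (nat_lit 76) (nat_lit 51090275215) (nat_lit 76) (nat_lit 48436360254) (nat_lit 2) (nat_lit 4) (nat_lit 3) (nat_lit 5) (nat_lit 3) (nat_lit 4) (nat_lit 417) (nat_lit 263) (nat_lit 220)))))) (XT.nd (nat_lit 468) (nat_lit 0) (nat_lit 0) (XT.nd (nat_lit 234) (nat_lit 0) (nat_lit 0) (XT.nd (nat_lit 78) (nat_lit 0) (nat_lit 0) (XT.lf (nat_lit 0) (nat_lit 186988700803) (nat_lit 76) (nat_lit 50838195972) (nat_lit 76) (nat_lit 48166605096) (nat_lit 2)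 (nat_lit 4) (nat_lit 3) (nat_lit 5) (nat_lit 3) (nat_lit 4) (nat_lit 418) (nat_lit 263) (nat_lit 219)) (XT.nd (nat_lit 78) (nat_lit 0) (nat_lit 0) (XT.lf (nat_lit 0) (nat_lit 201651373455) (nat_lit 76) (nat_lit 50597950200) (nat_lit 76) (nat_lit 47909525120) (nat_lit 2) (nat_lit 4) (nat_lit 3) (nat_lit 5) (nat_lit 3) (nat_lit 4) (nat_lit 419) (nat_lit 263) (nat_lit 218)) (XT.lf (nat_lit 0) (nat_lit 217000177218) (nat_lit 76) (nat_lit 50368965885) (nat_lit 76) (nat_lit 47664508229) (nat_lit 2) (nat_lit 4) (nat_lit 3) (nat_lit 5) (nat_lit 3) (nat_lit 4) (nat_lit 420) (nat_lit 263) (nat_lit 217)))) (XT.nd (nat_lit 78) (nat_lit 0) (nat_lit 0) (XT.lf (nat_lit 0) (nat_lit 233071656862) (nat_lit 76) (nat_lit 50150697826) (nat_lit 76) (nat_lit 47430971050) (nat_lit 2) (nat_lit 4) (nat_lit 3) (nat_lit 5) (nat_lit 3) (nat_lit 4) (nat_lit 421) (nat_lit 263) (nat_lit 216)) (XT.nd (nat_lit 78) (nat_lit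 0) (nat_lit 0) (XT.lf (nat_lit 0) (nat_lit 249904077815) (nat_lit 76) (nat_lit 49942626337) (nat_lit 76) (nat_lit 47208357543) (nat_lit 2) (nat_lit 4) (nat_lit 3) (nat_lit 5) (nat_lit 3) (nat_lit 4) (nat_lit 422) (nat_lit 263) (nat_lit 215)) (XT.lf (nat_lit 0) (nat_lit 267537517271) (nat_lit 76) (nat_lit 49744256010) (nat_lit 76) (nat_lit 46996137674) (nat_lit 2) (nat_lit 4) (nat_lit 3) (nat_lit 5) (nat_lit 3) (nat_lit 4) (nat_lit 423) (nat_lit 263) (nat_lit 214))))) (XT.nd (nat_lit 234) (nat_lit 0) (nat_lit 0) (XT.nd (nat_lit 78) (nat_lit 0) (nat_lit 0) (XT.lf (nat_lit 0) (nat_lit 286013959608) (nat_lit 76) (nat_lit 49555114535) (nat_lit 76) (nat_lit 46793806160) (nat_lit 2) (nat_lit 4) (nat_lit 3) (nat_lit 5) (nat_lit 3) (nat_lit 4) (nat_lit 424) (nat_lit 263) (nat_lit 213)) (XT.nd (nat_lit 78) (nat_lit 0) (nat_lit 0) (XT.lf (nat_lit 0) (nat_lit 305377396356) (nat_lit 76) (nat_lit 49374751575)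 (nat_lit 76) (nat_lit 46600881257) (nat_lit 2) (nat_lit 4) (nat_lit 3) (nat_lit 5) (nat_lit 3) (nat_lit 4) (nat_lit 425) (nat_lit 263) (nat_lit 212)) (XT.lf (nat_lit 0) (nat_lit 325673930936) (nat_lit 76) (nat_lit 49202737694) (nat_lit 76) (nat_lit 46416903621) (nat_lit 2) (nat_lit 4) (nat_lit 3) (nat_lit 5) (nat_lit 3) (nat_lit 4) (nat_lit 426) (nat_lit 263) (nat_lit 211)))) (XT.nd (nat_lit 78) (nat_lit 0) (nat_lit 0) (XT.lf (nat_lit 0) (nat_lit 346951888431) (nat_lit 76) (nat_lit 49038663336) (nat_lit 76) (nat_lit 46241435211) (nat_lit 2) (nat_lit 4) (nat_lit 3) (nat_lit 5) (nat_lit 3) (nat_lit 4) (nat_lit 427) (nat_lit 263) (nat_lit 210)) (XT.nd (nat_lit 78) (nat_lit 0) (nat_lit 0) (XT.lf (nat_lit 0) (nat_lit 369261930643) (nat_lit 76) (nat_lit 48882137847) (nat_lit 76) (nat_lit 46074058243) (nat_lit 2) (nat_lit 4) (nat_lit 3) (nat_lit 5) (nat_lit 3) (nat_lit 4) (nat_lit 428) (nat_lit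 263) (nat_lit 209)) (XT.lf (nat_lit 0) (nat_lit 392657176721) (nat_lit 76) (nat_lit 48732788547) (nat_lit 76) (nat_lit 45914374202) (nat_lit 2) (nat_lit 4) (nat_lit 3) (nat_lit 5) (nat_lit 3) (nat_lit 4) (nat_lit 429) (nat_lit 263) (nat_lit 208))))))) (XT.nd (nat_lit 936) (nat_lit 0) (nat_lit 0) (XT.nd (nat_lit 468) (nat_lit 0) (nat_lit 0) (XT.nd (nat_lit 234) (nat_lit 0) (nat_lit 0) (XT.nd (nat_lit 78) (nat_lit 0) (nat_lit 0) (XT.lf (nat_lit 0) (nat_lit 417193329632) (nat_lit 76) (nat_lit 48590259843) (nat_lit 76) (nat_lit 45762002887) (nat_lit 2) (nat_lit 4) (nat_lit 3) (nat_lit 5) (nat_lit 3) (nat_lit 4) (nat_lit 430) (nat_lit 263) (nat_lit 207)) (XT.nd (nat_lit 78) (nat_lit 0) (nat_lit 0) (XT.lf (nat_lit 0) (nat_lit 442928808787) (nat_lit 76) (nat_lit 48454212381) (nat_lit 76) (nat_lit 45616581510) (nat_lit 2) (nat_lit 4) (nat_lit 3) (nat_lit 5) (nat_lit 3) (nat_lit 4) (nat_lit 431)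 (nat_lit 263) (nat_lit 206)) (XT.lf (nat_lit 0) (nat_lit 469924889137) (nat_lit 76) (nat_lit 48324322238) (nat_lit 76) (nat_lit 45477763829) (nat_lit 2) (nat_lit 4) (nat_lit 3) (nat_lit 5) (nat_lit 3) (nat_lit 4) (nat_lit 432) (nat_lit 263) (nat_lit 205)))) (XT.nd (nat_lit 78) (nat_lit 0) (nat_lit 0) (XT.lf (nat_lit 0) (nat_lit 498245847063) (nat_lit 76) (nat_lit 48200280152) (nat_lit 76) (nat_lit 45345219326) (nat_lit 2) (nat_lit 4) (nat_lit 3) (nat_lit 5) (nat_lit 3) (nat_lit 4) (nat_lit 433) (nat_lit 263) (nat_lit 204)) (XT.nd (nat_lit 78) (nat_lit 0) (nat_lit 0) (XT.lf (nat_lit 0) (nat_lit 527959113419) (nat_lit 76) (nat_lit 48081790784) (nat_lit 76) (nat_lit 45218632418) (nat_lit 2) (nat_lit 4) (nat_lit 3) (nat_lit 5) (nat_lit 3) (nat_lit 4) (nat_lit 434) (nat_lit 263) (nat_lit 203)) (XT.lf (nat_lit 0) (nat_lit 559135434075) (nat_lit 76) (nat_lit 47968572018) (nat_lit 76) (nat_lit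 45097701709) (nat_lit 2) (nat_lit 4) (nat_lit 3) (nat_lit 5) (nat_lit 3) (nat_lit 4) (nat_lit 435) (nat_lit 263) (nat_lit 202))))) (XT.nd (nat_lit 234) (nat_lit 0) (nat_lit 0) (XT.nd (nat_lit 78) (nat_lit 0) (nat_lit 0) (XT.lf (nat_lit 0) (nat_lit 591849038368) (nat_lit 76) (nat_lit 47860354285) (nat_lit 76) (nat_lit 44982139268) (nat_lit 2) (nat_lit 4) (nat_lit 3) (nat_lit 5) (nat_lit 3) (nat_lit 4) (nat_lit 436) (nat_lit 263) (nat_lit 201)) (XT.nd (nat_lit 78) (nat_lit 0) (nat_lit 0) (XT.lf (nat_lit 0) (nat_lit 626177815831) (nat_lit 76) (nat_lit 47756879923) (nat_lit 76) (nat_lit 44871669946) (nat_lit 2) (nat_lit 4) (nat_lit 3) (nat_lit 5) (nat_lit 3) (nat_lit 4) (nat_lit 437) (nat_lit 263) (nat_lit 200)) (XT.lf (nat_lit 0) (nat_lit 662203501648) (nat_lit 76) (nat_lit 47657902565) (nat_lit 76) (nat_lit 44766030722) (nat_lit 2) (nat_lit 4) (nat_lit 3) (nat_lit 5) (nat_lit 3) (nat_lit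 4) (nat_lit 438) (nat_lit 263) (nat_lit 199)))) (XT.nd (nat_lit 78) (nat_lit 0) (nat_lit 0) (XT.lf (nat_lit 0) (nat_lit 700011871262) (nat_lit 76) (nat_lit 47563186550) (nat_lit 76) (nat_lit 44664970073) (nat_lit 2) (nat_lit 4) (nat_lit 3) (nat_lit 5) (nat_lit 3) (nat_lit 4) (nat_lit 439) (nat_lit 263) (nat_lit 198)) (XT.nd (nat_lit 78) (nat_lit 0) (nat_lit 0) (XT.lf (nat_lit 0) (nat_lit 739692944600) (nat_lit 76) (nat_lit 47472506365) (nat_lit 76) (nat_lit 44568247378) (nat_lit 2) (nat_lit 4) (nat_lit 3) (nat_lit 5) (nat_lit 3) (nat_lit 4) (nat_lit 440) (nat_lit 263) (nat_lit 197)) (XT.lf (nat_lit 0) (nat_lit 781341200409) (nat_lit 76) (nat_lit 47385646103) (nat_lit 76) (nat_lit 44475632346) (nat_lit 2) (nat_lit 4) (nat_lit 3) (nat_lit 5) (nat_lit 3) (nat_lit 4) (nat_lit 441) (nat_lit 263) (nat_lit 196)))))) (XT.nd (nat_lit 41808) (nat_lit 0) (nat_lit 228) (XT.nd (nat_lit 41574) (nat_lit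 0) (nat_lit 456) (XT.nd (nat_lit 41418) (nat_lit 0) (nat_lit 456) (XT.lf (nat_lit 0) (nat_lit 825055801202) (nat_lit 76) (nat_lit 47302398956) (nat_lit 76) (nat_lit 44386904465) (nat_lit 2) (nat_lit 4) (nat_lit 3) (nat_lit 5) (nat_lit 3) (nat_lit 4) (nat_lit 442) (nat_lit 263) (nat_lit 195)) (XT.nd (nat_lit 78) (nat_lit 76) (nat_lit 0) (XT.lf (nat_lit 0) (nat_lit 7470523136) (nat_lit 152) (nat_lit 2173507526) (nat_lit 0) (nat_lit 7470523136) (nat_lit 9) (nat_lit 5) (nat_lit 11) (nat_lit 4) (nat_lit 9) (nat_lit 4) (nat_lit 372) (nat_lit 264) (nat_lit 264)) (XT.lf (nat_lit 0) (nat_lit 6271661490) (nat_lit 76) (nat_lit 14779092476) (nat_lit 76) (nat_lit 14612333333) (nat_lit 8) (nat_lit 4) (nat_lit 9) (nat_lit 5) (nat_lit 9) (nat_lit 4) (nat_lit 373) (nat_lit 264) (nat_lit 263)))) (XT.nd (nat_lit 78) (nat_lit 0) (nat_lit 0) (XT.lf (nat_lit 0) (nat_lit 17226211313) (nat_lit 76) (nat_lit 10136652366)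 (nat_lit 76) (nat_lit 9811074992) (nat_lit 8) (nat_lit 4) (nat_lit 9) (nat_lit 5) (nat_lit 9) (nat_lit 4) (nat_lit 374) (nat_lit 264) (nat_lit 262)) (XT.nd (nat_lit 78) (nat_lit 0) (nat_lit 0) (XT.lf (nat_lit 0) (nat_lit 28398984729) (nat_lit 76) (nat_lit 5423306371) (nat_lit 76) (nat_lit 4946473538) (nat_lit 8) (nat_lit 4) (nat_lit 9) (nat_lit 5) (nat_lit 9) (nat_lit 4) (nat_lit 375) (nat_lit 264) (nat_lit 261)) (XT.lf (nat_lit 0) (nat_lit 39816583580) (nat_lit 76) (nat_lit 627832237) (nat_lit 76) (nat_lit 6946586) (nat_lit 8) (nat_lit 4) (nat_lit 9) (nat_lit 5) (nat_lit 9) (nat_lit 4) (nat_lit 376) (nat_lit 264) (nat_lit 260))))) (XT.nd (nat_lit 234) (nat_lit 76) (nat_lit 0) (XT.nd (nat_lit 78) (nat_lit 0) (nat_lit 0) (XT.lf (nat_lit 0) (nat_lit 5077286444) (nat_lit 152) (nat_lit 32778293456) (nat_lit 0) (nat_lit 4355306625) (nat_lit 6) (nat_lit 5) (nat_lit 8) (nat_lit 4) (nat_lit 6)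 (nat_lit 4) (nat_lit 377) (nat_lit 264) (nat_lit 259)) (XT.nd (nat_lit 78) (nat_lit 0) (nat_lit 0) (XT.lf (nat_lit 0) (nat_lit 10281985389) (nat_lit 152) (nat_lit 24347518565) (nat_lit 0) (nat_lit 9435567330) (nat_lit 6) (nat_lit 5) (nat_lit 8) (nat_lit 4) (nat_lit 6) (nat_lit 4) (nat_lit 378) (nat_lit 264) (nat_lit 258)) (XT.lf (nat_lit 0) (nat_lit 15599556292) (nat_lit 152) (nat_lit 15785165334) (nat_lit 0) (nat_lit 14634625623) (nat_lit 6) (nat_lit 5) (nat_lit 8) (nat_lit 4) (nat_lit 6) (nat_lit 4) (nat_lit 379) (nat_lit 264) (nat_lit 257)))) (XT.nd (nat_lit 156) (nat_lit 0) (nat_lit 0) (XT.nd (nat_lit 78) (nat_lit 76) (nat_lit 0) (XT.lf (nat_lit 0) (nat_lit 21042660035) (nat_lit 152) (nat_lit 7070847208) (nat_lit 0) (nat_lit 19964860214) (nat_lit 6) (nat_lit 5) (nat_lit 8) (nat_lit 4) (nat_lit 6) (nat_lit 4) (nat_lit 380) (nat_lit 264) (nat_lit 256)) (XT.lf (nat_lit 0) (nat_lit 1876235439)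 (nat_lit 76) (nat_lit 24777314242) (nat_lit 76) (nat_lit 23592019991) (nat_lit 5) (nat_lit 4) (nat_lit 6) (nat_lit 5) (nat_lit 6) (nat_lit 4) (nat_lit 381) (nat_lit 264) (nat_lit 255))) (XT.nd (nat_lit 78) (nat_lit 0) (nat_lit 0) (XT.lf (nat_lit 0) (nat_lit 11257395412) (nat_lit 76) (nat_lit 21275998948) (nat_lit 76) (nat_lit 19988329049) (nat_lit 5) (nat_lit 4) (nat_lit 6) (nat_lit 5) (nat_lit 6) (nat_lit 4) (nat_lit 382) (nat_lit 264) (nat_lit 254)) (XT.lf (nat_lit 0) (nat_lit 20861174662) (nat_lit 76) (nat_lit 17720973115) (nat_lit 76) (nat_lit 16335802599) (nat_lit 5) (nat_lit 4) (nat_lit 6) (nat_lit 5) (nat_lit 6) (nat_lit 4) (nat_lit 383) (nat_lit 264) (nat_lit 253))))))))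
noncomputable def xc25 : XT := (XT.nd (nat_lit 1950) (nat_lit 0) (nat_lit 0) (XT.nd (nat_lit 936) (nat_lit 76) (nat_lit 0) (XT.nd (nat_lit 468) (nat_lit 0) (nat_lit 0) (XT.nd (nat_lit 234) (nat_lit 152) (nat_lit 0) (XT.nd (nat_lit 78) (nat_lit 0) (nat_lit 0) (XT.lf (nat_lit 0) (nat_lit 30710439331) (nat_lit 76) (nat_lit 14103772395) (nat_lit 76) (nat_lit 12625744148) (nat_lit 5) (nat_lit 4) (nat_lit 6) (nat_lit 5) (nat_lit 6) (nat_lit 4) (nat_lit 384) (nat_lit 264) (nat_lit 252)) (XT.nd (nat_lit 78) (nat_lit 0) (nat_lit 0) (XT.lf (nat_lit 0) (nat_lit 40828640049) (nat_lit 76) (nat_lit 10415784406) (nat_lit 76) (nat_lit 8849320225) (nat_lit 5) (nat_lit 4) (nat_lit 6) (nat_lit 5) (nat_lit 6) (nat_lit 4) (nat_lit 385) (nat_lit 264) (nat_lit 251)) (XT.lf (nat_lit 0) (nat_lit 51239867770) (nat_lit 76) (nat_lit 6648228224) (nat_lit 76) (nat_lit 4997539344) (nat_lit 5) (nat_lit 4) (nat_lit 6)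 (nat_lit 5) (nat_lit 6) (nat_lit 4) (nat_lit 386) (nat_lit 264) (nat_lit 250)))) (XT.nd (nat_lit 78) (nat_lit 152) (nat_lit 0) (XT.lf (nat_lit 0) (nat_lit 61968911131) (nat_lit 76) (nat_lit 2792133478) (nat_lit 76) (nat_lit 1061230599) (nat_lit 5) (nat_lit 4) (nat_lit 6) (nat_lit 5) (nat_lit 6) (nat_lit 4) (nat_lit 387) (nat_lit 264) (nat_lit 249)) (XT.nd (nat_lit 78) (nat_lit 0) (nat_lit 0) (XT.lf (nat_lit 0) (nat_lit 2959805152) (nat_lit 152) (nat_lit 64705671032) (nat_lit 0) (nat_lit 1238569758) (nat_lit 3) (nat_lit 5) (nat_lit 5) (nat_lit 4) (nat_lit 3) (nat_lit 4) (nat_lit 388) (nat_lit 264) (nat_lit 248)) (XT.lf (nat_lit 0) (nat_lit 7158946677) (nat_lit 152) (nat_lit 59611041425) (nat_lit 0) (nat_lit 5368419415) (nat_lit 3) (nat_lit 5) (nat_lit 5) (nat_lit 4) (nat_lit 3) (nat_lit 4) (nat_lit 389) (nat_lit 264) (nat_lit 247))))) (XT.nd (nat_lit 234) (nat_lit 0) (nat_lit 0) (XT.nd (nat_lit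 78) (nat_lit 0) (nat_lit 0) (XT.lf (nat_lit 0) (nat_lit 11473395007) (nat_lit 152) (nat_lit 54448956882) (nat_lit 0) (nat_lit 9616875489) (nat_lit 3) (nat_lit 5) (nat_lit 5) (nat_lit 4) (nat_lit 3) (nat_lit 4) (nat_lit 390) (nat_lit 264) (nat_lit 246)) (XT.nd (nat_lit 78) (nat_lit 0) (nat_lit 0) (XT.lf (nat_lit 0) (nat_lit 15913422638) (nat_lit 152) (nat_lit 49207126727) (nat_lit 0) (nat_lit 13994053353) (nat_lit 3) (nat_lit 5) (nat_lit 5) (nat_lit 4) (nat_lit 3) (nat_lit 4) (nat_lit 391) (nat_lit 264) (nat_lit 245)) (XT.lf (nat_lit 0) (nat_lit 20489601063) (nat_lit 152) (nat_lit 43873070411) (nat_lit 0) (nat_lit 18510374857) (nat_lit 3) (nat_lit 5) (nat_lit 5) (nat_lit 4) (nat_lit 3) (nat_lit 4) (nat_lit 392) (nat_lit 264) (nat_lit 244)))) (XT.nd (nat_lit 78) (nat_lit 0) (nat_lit 0) (XT.lf (nat_lit 0) (nat_lit 25212825947) (nat_lit 152) (nat_lit 38434087800) (nat_lit 0) (nat_lit 23176593149)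 (nat_lit 3) (nat_lit 5) (nat_lit 5) (nat_lit 4) (nat_lit 3) (nat_lit 4) (nat_lit 393) (nat_lit 264) (nat_lit 243)) (XT.nd (nat_lit 78) (nat_lit 0) (nat_lit 0) (XT.lf (nat_lit 0) (nat_lit 30094343062) (nat_lit 152) (nat_lit 32877228936) (nat_lit 0) (nat_lit 28003818272) (nat_lit 3) (nat_lit 5) (nat_lit 5) (nat_lit 4) (nat_lit 3) (nat_lit 4) (nat_lit 394) (nat_lit 264) (nat_lit 242)) (XT.lf (nat_lit 0) (nat_lit 35145775069) (nat_lit 152) (nat_lit 27189263202) (nat_lit 0) (nat_lit 33003543620) (nat_lit 3) (nat_lit 5) (nat_lit 5) (nat_lit 4) (nat_lit 3) (nat_lit 4) (nat_lit 395) (nat_lit 264) (nat_lit 241)))))) (XT.nd (nat_lit 468) (nat_lit 0) (nat_lit 0) (XT.nd (nat_lit 234) (nat_lit 76) (nat_lit 0) (XT.nd (nat_lit 78) (nat_lit 0) (nat_lit 0) (XT.lf (nat_lit 0) (nat_lit 40379149185) (nat_lit 152) (nat_lit 21356647823) (nat_lit 0) (nat_lit 38187673300) (nat_lit 3) (nat_lit 5) (nat_lit 5) (nat_lit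 4) (nat_lit 3) (nat_lit 4) (nat_lit 396) (nat_lit 264) (nat_lit 240)) (XT.nd (nat_lit 78) (nat_lit 0) (nat_lit 0) (XT.lf (nat_lit 0) (nat_lit 45806925827) (nat_lit 152) (nat_lit 15365495619) (nat_lit 0) (nat_lit 43568550477) (nat_lit 3) (nat_lit 5) (nat_lit 5) (nat_lit 4) (nat_lit 3) (nat_lit 4) (nat_lit 397) (nat_lit 264) (nat_lit 239)) (XT.lf (nat_lit 0) (nat_lit 51442028271) (nat_lit 152) (nat_lit 9201541942) (nat_lit 0) (nat_lit 49158986766) (nat_lit 3) (nat_lit 5) (nat_lit 5) (nat_lit 4) (nat_lit 3) (nat_lit 4) (nat_lit 398) (nat_lit 264) (nat_lit 238)))) (XT.nd (nat_lit 78) (nat_lit 76) (nat_lit 0) (XT.lf (nat_lit 0) (nat_lit 57297873429) (nat_lit 152) (nat_lit 2850110712) (nat_lit 0) (nat_lit 54972292727) (nat_lit 3) (nat_lit 5) (nat_lit 5) (nat_lit 4) (nat_lit 3) (nat_lit 4) (nat_lit 399) (nat_lit 264) (nat_lit 237)) (XT.nd (nat_lit 78) (nat_lit 0) (nat_lit 0) (XT.lf (nat_lit 0)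 (nat_lit 3826388866) (nat_lit 76) (nat_lit 59621755576) (nat_lit 76) (nat_lit 57255661353) (nat_lit 2) (nat_lit 4) (nat_lit 3) (nat_lit 5) (nat_lit 3) (nat_lit 4) (nat_lit 400) (nat_lit 264) (nat_lit 236)) (XT.lf (nat_lit 0) (nat_lit 10822545658) (nat_lit 76) (nat_lit 59074545221) (nat_lit 76) (nat_lit 56669866694) (nat_lit 2) (nat_lit 4) (nat_lit 3) (nat_lit 5) (nat_lit 3) (nat_lit 4) (nat_lit 401) (nat_lit 264) (nat_lit 235))))) (XT.nd (nat_lit 234) (nat_lit 0) (nat_lit 0) (XT.nd (nat_lit 78) (nat_lit 0) (nat_lit 0) (XT.lf (nat_lit 0) (nat_lit 18060779649) (nat_lit 76) (nat_lit 58553318201) (nat_lit 76) (nat_lit 56111892716) (nat_lit 2) (nat_lit 4) (nat_lit 3) (nat_lit 5) (nat_lit 3) (nat_lit 4) (nat_lit 402) (nat_lit 264) (nat_lit 234)) (XT.nd (nat_lit 78) (nat_lit 0) (nat_lit 0) (XT.lf (nat_lit 0) (nat_lit 25558324728) (nat_lit 76) (nat_lit 58056833496) (nat_lit 76) (nat_lit 55580410910)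 (nat_lit 2) (nat_lit 4) (nat_lit 3) (nat_lit 5) (nat_lit 3) (nat_lit 4) (nat_lit 403) (nat_lit 264) (nat_lit 233)) (XT.lf (nat_lit 0) (nat_lit 33333032195) (nat_lit 76) (nat_lit 57583909002) (nat_lit 76) (nat_lit 55074155842) (nat_lit 2) (nat_lit 4) (nat_lit 3) (nat_lit 5) (nat_lit 3) (nat_lit 4) (nat_lit 404) (nat_lit 264) (nat_lit 232)))) (XT.nd (nat_lit 156) (nat_lit 0) (nat_lit 0) (XT.nd (nat_lit 78) (nat_lit 0) (nat_lit 0) (XT.lf (nat_lit 0) (nat_lit 41403413256) (nat_lit 76) (nat_lit 57133418708) (nat_lit 76) (nat_lit 54591922144) (nat_lit 2) (nat_lit 4) (nat_lit 3) (nat_lit 5) (nat_lit 3) (nat_lit 4) (nat_lit 405) (nat_lit 264) (nat_lit 231)) (XT.lf (nat_lit 0) (nat_lit 49788683105) (nat_lit 76) (nat_lit 56704290017) (nat_lit 76) (nat_lit 54132561641) (nat_lit 2) (nat_lit 4) (nat_lit 3) (nat_lit 5) (nat_lit 3) (nat_lit 4) (nat_lit 406) (nat_lit 264) (nat_lit 230))) (XT.nd (nat_lit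 78) (nat_lit 0) (nat_lit 0) (XT.lf (nat_lit 0) (nat_lit 58508806671) (nat_lit 76) (nat_lit 56295501194) (nat_lit 76) (nat_lit 53694980616) (nat_lit 2) (nat_lit 4) (nat_lit 3) (nat_lit 5) (nat_lit 3) (nat_lit 4) (nat_lit 407) (nat_lit 264) (nat_lit 229)) (XT.lf (nat_lit 0) (nat_lit 67584546152) (nat_lit 76) (nat_lit 55906078934) (nat_lit 76) (nat_lit 53278137210) (nat_lit 2) (nat_lit 4) (nat_lit 3) (nat_lit 5) (nat_lit 3) (nat_lit 4) (nat_lit 408) (nat_lit 264) (nat_lit 228))))))) (XT.nd (nat_lit 936) (nat_lit 0) (nat_lit 0) (XT.nd (nat_lit 468) (nat_lit 0) (nat_lit 0) (XT.nd (nat_lit 234) (nat_lit 0) (nat_lit 0) (XT.nd (nat_lit 78) (nat_lit 0) (nat_lit 0) (XT.lf (nat_lit 0) (nat_lit 77037510451) (nat_lit 76) (nat_lit 55535096040) (nat_lit 76) (nat_lit 52881038939) (nat_lit 2) (nat_lit 4) (nat_lit 3) (nat_lit 5) (nat_lit 3) (nat_lit 4) (nat_lit 409) (nat_lit 264) (nat_lit 227)) (XT.nd (nat_lit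 78) (nat_lit 0) (nat_lit 0) (XT.lf (nat_lit 0) (nat_lit 86890206627) (nat_lit 76) (nat_lit 55181669219) (nat_lit 76) (nat_lit 52502740331) (nat_lit 2) (nat_lit 4) (nat_lit 3) (nat_lit 5) (nat_lit 3) (nat_lit 4) (nat_lit 410) (nat_lit 264) (nat_lit 226)) (XT.lf (nat_lit 0) (nat_lit 97166093479) (nat_lit 76) (nat_lit 54844956979) (nat_lit 76) (nat_lit 52142340675) (nat_lit 2) (nat_lit 4) (nat_lit 3) (nat_lit 5) (nat_lit 3) (nat_lit 4) (nat_lit 411) (nat_lit 264) (nat_lit 225)))) (XT.nd (nat_lit 78) (nat_lit 0) (nat_lit 0) (XT.lf (nat_lit 0) (nat_lit 107889637406) (nat_lit 76) (nat_lit 54524157624) (nat_lit 76) (nat_lit 51798981876) (nat_lit 2) (nat_lit 4) (nat_lit 3) (nat_lit 5) (nat_lit 3) (nat_lit 4) (nat_lit 412) (nat_lit 264) (nat_lit 224)) (XT.nd (nat_lit 78) (nat_lit 0) (nat_lit 0) (XT.lf (nat_lit 0) (nat_lit 119086370655) (nat_lit 76) (nat_lit 54218507346) (nat_lit 76) (nat_lit 51471846414)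 (nat_lit 2) (nat_lit 4) (nat_lit 3) (nat_lit 5) (nat_lit 3) (nat_lit 4) (nat_lit 413) (nat_lit 264) (nat_lit 223)) (XT.lf (nat_lit 0) (nat_lit 130782952114) (nat_lit 76) (nat_lit 53927278407) (nat_lit 76) (nat_lit 51160155394) (nat_lit 2) (nat_lit 4) (nat_lit 3) (nat_lit 5) (nat_lit 3) (nat_lit 4) (nat_lit 414) (nat_lit 264) (nat_lit 222))))) (XT.nd (nat_lit 234) (nat_lit 0) (nat_lit 0) (XT.nd (nat_lit 78) (nat_lit 0) (nat_lit 0) (XT.lf (nat_lit 0) (nat_lit 143007230787) (nat_lit 76) (nat_lit 53649777404) (nat_lit 76) (nat_lit 50863166695) (nat_lit 2) (nat_lit 4) (nat_lit 3) (nat_lit 5) (nat_lit 3) (nat_lit 4) (nat_lit 415) (nat_lit 264) (nat_lit 221)) (XT.nd (nat_lit 78) (nat_lit 0) (nat_lit 0) (XT.lf (nat_lit 0) (nat_lit 155788312099) (nat_lit 76) (nat_lit 53385343620) (nat_lit 76) (nat_lit 50580173201) (nat_lit 2) (nat_lit 4) (nat_lit 3) (nat_lit 5) (nat_lit 3) (nat_lit 4) (nat_lit 416)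 (nat_lit 264) (nat_lit 220)) (XT.lf (nat_lit 0) (nat_lit 169156627196) (nat_lit 76) (nat_lit 53133347452) (nat_lit 76) (nat_lit 50310501118) (nat_lit 2) (nat_lit 4) (nat_lit 3) (nat_lit 5) (nat_lit 3) (nat_lit 4) (nat_lit 417) (nat_lit 264) (nat_lit 219)))) (XT.nd (nat_lit 78) (nat_lit 0) (nat_lit 0) (XT.lf (nat_lit 0) (nat_lit 183144005400) (nat_lit 76) (nat_lit 52893188908) (nat_lit 76) (nat_lit 50053508369) (nat_lit 2) (nat_lit 4) (nat_lit 3) (nat_lit 5) (nat_lit 3) (nat_lit 4) (nat_lit 418) (nat_lit 264) (nat_lit 218)) (XT.nd (nat_lit 78) (nat_lit 0) (nat_lit 0) (XT.lf (nat_lit 0) (nat_lit 197783749993) (nat_lit 76) (nat_lit 52664296183) (nat_lit 76) (nat_lit 49808583068) (nat_lit 2) (nat_lit 4) (nat_lit 3) (nat_lit 5) (nat_lit 3) (nat_lit 4) (nat_lit 419) (nat_lit 264) (nat_lit 217)) (XT.lf (nat_lit 0) (nat_lit 213110717508) (nat_lit 76) (nat_lit 52446124293) (nat_lit 76) (nat_lit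 49575142059) (nat_lit 2) (nat_lit 4) (nat_lit 3) (nat_lit 5) (nat_lit 3) (nat_lit 4) (nat_lit 420) (nat_lit 264) (nat_lit 216)))))) (XT.nd (nat_lit 468) (nat_lit 0) (nat_lit 0) (XT.nd (nat_lit 234) (nat_lit 0) (nat_lit 0) (XT.nd (nat_lit 78) (nat_lit 0) (nat_lit 0) (XT.lf (nat_lit 0) (nat_lit 229161400726) (nat_lit 76) (nat_lit 52238153782) (nat_lit 76) (nat_lit 49352629529) (nat_lit 2) (nat_lit 4) (nat_lit 3) (nat_lit 5) (nat_lit 3) (nat_lit 4) (nat_lit 421) (nat_lit 264) (nat_lit 215)) (XT.nd (nat_lit 78) (nat_lit 0) (nat_lit 0) (XT.lf (nat_lit 0) (nat_lit 245974015560) (nat_lit 76) (nat_lit 52039889481) (nat_lit 76) (nat_lit 49140515687) (nat_lit 2) (nat_lit 4) (nat_lit 3) (nat_lit 5) (nat_lit 3) (nat_lit 4) (nat_lit 422) (nat_lit 264) (nat_lit 214)) (XT.lf (nat_lit 0) (nat_lit 263588592044) (nat_lit 76) (nat_lit 51850859334) (nat_lit 76) (nat_lit 48938295500) (nat_lit 2) (nat_lit 4)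 (nat_lit 3) (nat_lit 5) (nat_lit 3) (nat_lit 4) (nat_lit 423) (nat_lit 264) (nat_lit 213)))) (XT.nd (nat_lit 78) (nat_lit 0) (nat_lit 0) (XT.lf (nat_lit 0) (nat_lit 282047069647) (nat_lit 76) (nat_lit 51670613268) (nat_lit 76) (nat_lit 48745487492) (nat_lit 2) (nat_lit 4) (nat_lit 3) (nat_lit 5) (nat_lit 3) (nat_lit 4) (nat_lit 424) (nat_lit 264) (nat_lit 212)) (XT.nd (nat_lit 78) (nat_lit 0) (nat_lit 0) (XT.lf (nat_lit 0) (nat_lit 301393397124) (nat_lit 76) (nat_lit 51498722126) (nat_lit 76) (nat_lit 48561632595) (nat_lit 2) (nat_lit 4) (nat_lit 3) (nat_lit 5) (nat_lit 3) (nat_lit 4) (nat_lit 425) (nat_lit 264) (nat_lit 211)) (XT.lf (nat_lit 0) (nat_lit 321673637160) (nat_lit 76) (nat_lit 51334776644) (nat_lit 76) (nat_lit 48386293060) (nat_lit 2) (nat_lit 4) (nat_lit 3) (nat_lit 5) (nat_lit 3) (nat_lit 4) (nat_lit 426) (nat_lit 264) (nat_lit 210))))) (XT.nd (nat_lit 234) (nat_lit 0) (nat_lit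 0) (XT.nd (nat_lit 78) (nat_lit 0) (nat_lit 0) (XT.lf (nat_lit 0) (nat_lit 342936076041) (nat_lit 76) (nat_lit 51178386474) (nat_lit 76) (nat_lit 48219051412) (nat_lit 2) (nat_lit 4) (nat_lit 3) (nat_lit 5) (nat_lit 3) (nat_lit 4) (nat_lit 427) (nat_lit 264) (nat_lit 209)) (XT.nd (nat_lit 78) (nat_lit 0) (nat_lit 0) (XT.lf (nat_lit 0) (nat_lit 365231338622) (nat_lit 76) (nat_lit 51029179260) (nat_lit 76) (nat_lit 48059509457) (nat_lit 2) (nat_lit 4) (nat_lit 3) (nat_lit 5) (nat_lit 3) (nat_lit 4) (nat_lit 428) (nat_lit 264) (nat_lit 208)) (XT.lf (nat_lit 0) (nat_lit 388612508860) (nat_lit 76) (nat_lit 50886799746) (nat_lit 76) (nat_lit 47907287332) (nat_lit 2) (nat_lit 4) (nat_lit 3) (nat_lit 5) (nat_lit 3) (nat_lit 4) (nat_lit 429) (nat_lit 264) (nat_lit 207)))) (XT.nd (nat_lit 156) (nat_lit 0) (nat_lit 0) (XT.nd (nat_lit 78) (nat_lit 0) (nat_lit 0) (XT.lf (nat_lit 0) (nat_lit 413135256210)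 (nat_lit 76) (nat_lit 50750908933) (nat_lit 76) (nat_lit 47762022604) (nat_lit 2) (nat_lit 4) (nat_lit 3) (nat_lit 5) (nat_lit 3) (nat_lit 4) (nat_lit 430) (nat_lit 264) (nat_lit 206)) (XT.lf (nat_lit 0) (nat_lit 438857968164) (nat_lit 76) (nat_lit 50621183272) (nat_lit 76) (nat_lit 47623369405) (nat_lit 2) (nat_lit 4) (nat_lit 3) (nat_lit 5) (nat_lit 3) (nat_lit 4) (nat_lit 431) (nat_lit 264) (nat_lit 205))) (XT.nd (nat_lit 78) (nat_lit 0) (nat_lit 0) (XT.lf (nat_lit 0) (nat_lit 465841889274) (nat_lit 76) (nat_lit 50497313892) (nat_lit 76) (nat_lit 47490997608) (nat_lit 2) (nat_lit 4) (nat_lit 3) (nat_lit 5) (nat_lit 3) (nat_lit 4) (nat_lit 432) (nat_lit 264) (nat_lit 204)) (XT.lf (nat_lit 0) (nat_lit 494151266973) (nat_lit 76) (nat_lit 50379005866) (nat_lit 76) (nat_lit 47364592041) (nat_lit 2) (nat_lit 4) (nat_lit 3) (nat_lit 5) (nat_lit 3) (nat_lit 4) (nat_lit 433) (nat_lit 264) (nat_lit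 203))))))))
noncomputable def xc26 : XT := (XT.nd (nat_lit 43134) (nat_lit 0) (nat_lit 0) (XT.nd (nat_lit 42198) (nat_lit 0) (nat_lit 228) (XT.nd (nat_lit 468) (nat_lit 0) (nat_lit 0) (XT.nd (nat_lit 234) (nat_lit 0) (nat_lit 0) (XT.nd (nat_lit 78) (nat_lit 0) (nat_lit 0) (XT.lf (nat_lit 0) (nat_lit 523853504540) (nat_lit 76) (nat_lit 50265977508) (nat_lit 76) (nat_lit 47243851741) (nat_lit 2) (nat_lit 4) (nat_lit 3) (nat_lit 5) (nat_lit 3) (nat_lit 4) (nat_lit 434) (nat_lit 264) (nat_lit 202)) (XT.nd (nat_lit 78) (nat_lit 0) (nat_lit 0) (XT.lf (nat_lit 0) (nat_lit 555019321588) (nat_lit 76) (nat_lit 50157959704) (nat_lit 76) (nat_lit 47128489228) (nat_lit 2) (nat_lit 4) (nat_lit 3) (nat_lit 5) (nat_lit 3) (nat_lit 4) (nat_lit 435) (nat_lit 264) (nat_lit 201)) (XT.lf (nat_lit 0) (nat_lit 587722922444) (nat_lit 76) (nat_lit 50054695267) (nat_lit 76) (nat_lit 47018229832) (nat_lit 2) (nat_lit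 4) (nat_lit 3) (nat_lit 5) (nat_lit 3) (nat_lit 4) (nat_lit 436) (nat_lit 264) (nat_lit 200)))) (XT.nd (nat_lit 78) (nat_lit 0) (nat_lit 0) (XT.lf (nat_lit 0) (nat_lit 622042172824) (nat_lit 76) (nat_lit 49955938330) (nat_lit 76) (nat_lit 46912811029) (nat_lit 2) (nat_lit 4) (nat_lit 3) (nat_lit 5) (nat_lit 3) (nat_lit 4) (nat_lit 437) (nat_lit 264) (nat_lit 199)) (XT.nd (nat_lit 78) (nat_lit 0) (nat_lit 0) (XT.lf (nat_lit 0) (nat_lit 658058785230) (nat_lit 76) (nat_lit 49861453758) (nat_lit 76) (nat_lit 46811981822) (nat_lit 2) (nat_lit 4) (nat_lit 3) (nat_lit 5) (nat_lit 3) (nat_lit 4) (nat_lit 438) (nat_lit 264) (nat_lit 198)) (XT.lf (nat_lit 0) (nat_lit 695858513499) (nat_lit 76) (nat_lit 49771016587) (nat_lit 76) (nat_lit 46715502142) (nat_lit 2) (nat_lit 4) (nat_lit 3) (nat_lit 5) (nat_lit 3) (nat_lit 4) (nat_lit 439) (nat_lit 264) (nat_lit 197))))) (XT.nd (nat_lit 41496) (nat_lit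 0) (nat_lit 456) (XT.nd (nat_lit 78) (nat_lit 0) (nat_lit 0) (XT.lf (nat_lit 0) (nat_lit 735531356986) (nat_lit 76) (nat_lit 49684411491) (nat_lit 76) (nat_lit 46623142276) (nat_lit 2) (nat_lit 4) (nat_lit 3) (nat_lit 5) (nat_lit 3) (nat_lit 4) (nat_lit 440) (nat_lit 264) (nat_lit 196)) (XT.nd (nat_lit 41340) (nat_lit 0) (nat_lit 532) (XT.lf (nat_lit 0) (nat_lit 777171774840) (nat_lit 76) (nat_lit 49601432268) (nat_lit 76) (nat_lit 46534682318) (nat_lit 2) (nat_lit 4) (nat_lit 3) (nat_lit 5) (nat_lit 3) (nat_lit 4) (nat_lit 441) (nat_lit 264) (nat_lit 195)) (XT.lf (nat_lit 0) (nat_lit 1757788138) (nat_lit 152) (nat_lit 12271824756) (nat_lit 0) (nat_lit 1757788138) (nat_lit 9) (nat_lit 5) (nat_lit 11) (nat_lit 4) (nat_lit 9) (nat_lit 4) (nat_lit 370) (nat_lit 265) (nat_lit 265)))) (XT.nd (nat_lit 78) (nat_lit 76) (nat_lit 0) (XT.lf (nat_lit 0) (nat_lit 9219329116) (nat_lit 152) (nat_lit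 14603772281) (nat_lit 0) (nat_lit 9044232016) (nat_lit 9) (nat_lit 5) (nat_lit 11) (nat_lit 4) (nat_lit 9) (nat_lit 4) (nat_lit 371) (nat_lit 265) (nat_lit 264)) (XT.nd (nat_lit 78) (nat_lit 76) (nat_lit 0) (XT.lf (nat_lit 0) (nat_lit 15028404110) (nat_lit 152) (nat_lit 4518552068) (nat_lit 0) (nat_lit 14686547867) (nat_lit 9) (nat_lit 5) (nat_lit 11) (nat_lit 4) (nat_lit 9) (nat_lit 4) (nat_lit 372) (nat_lit 265) (nat_lit 263)) (XT.lf (nat_lit 0) (nat_lit 5925682396) (nat_lit 76) (nat_lit 15123466502) (nat_lit 76) (nat_lit 14622792027) (nat_lit 8) (nat_lit 4) (nat_lit 9) (nat_lit 5) (nat_lit 9) (nat_lit 4) (nat_lit 373) (nat_lit 265) (nat_lit 262)))))) (XT.nd (nat_lit 468) (nat_lit 76) (nat_lit 0) (XT.nd (nat_lit 234) (nat_lit 152) (nat_lit 0) (XT.nd (nat_lit 78) (nat_lit 0) (nat_lit 0) (XT.lf (nat_lit 0) (nat_lit 16719498611) (nat_lit 76) (nat_lit 10559668401) (nat_lit 76) (nat_lit 9907738468)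 (nat_lit 8) (nat_lit 4) (nat_lit 9) (nat_lit 5) (nat_lit 9) (nat_lit 4) (nat_lit 374) (nat_lit 265) (nat_lit 261)) (XT.nd (nat_lit 78) (nat_lit 0) (nat_lit 0) (XT.lf (nat_lit 0) (nat_lit 27739192399) (nat_lit 76) (nat_lit 5921219558) (nat_lit 76) (nat_lit 5125236807) (nat_lit 8) (nat_lit 4) (nat_lit 9) (nat_lit 5) (nat_lit 9) (nat_lit 4) (nat_lit 375) (nat_lit 265) (nat_lit 260)) (XT.lf (nat_lit 0) (nat_lit 39011001128) (nat_lit 76) (nat_lit 1197076044) (nat_lit 76) (nat_lit 263900134) (nat_lit 8) (nat_lit 4) (nat_lit 9) (nat_lit 5) (nat_lit 9) (nat_lit 4) (nat_lit 376) (nat_lit 265) (nat_lit 259)))) (XT.nd (nat_lit 78) (nat_lit 0) (nat_lit 0) (XT.lf (nat_lit 0) (nat_lit 4730646700) (nat_lit 152) (nat_lit 33788488414) (nat_lit 0) (nat_lit 3717469498) (nat_lit 6) (nat_lit 5) (nat_lit 8) (nat_lit 4) (nat_lit 6) (nat_lit 4) (nat_lit 377) (nat_lit 265) (nat_lit 258)) (XT.nd (nat_lit 78) (nat_lit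 0) (nat_lit 0) (XT.lf (nat_lit 0) (nat_lit 9863461259) (nat_lit 152) (nat_lit 25499157623) (nat_lit 0) (nat_lit 8731771448) (nat_lit 6) (nat_lit 5) (nat_lit 8) (nat_lit 4) (nat_lit 6) (nat_lit 4) (nat_lit 378) (nat_lit 265) (nat_lit 257)) (XT.lf (nat_lit 0) (nat_lit 15112570843) (nat_lit 152) (nat_lit 17071513059) (nat_lit 0) (nat_lit 13868011879) (nat_lit 6) (nat_lit 5) (nat_lit 8) (nat_lit 4) (nat_lit 6) (nat_lit 4) (nat_lit 379) (nat_lit 265) (nat_lit 256))))) (XT.nd (nat_lit 234) (nat_lit 0) (nat_lit 0) (XT.nd (nat_lit 78) (nat_lit 76) (nat_lit 0) (XT.lf (nat_lit 0) (nat_lit 20490473329) (nat_lit 152) (nat_lit 8485488901) (nat_lit 0) (nat_lit 19138419935) (nat_lit 6) (nat_lit 5) (nat_lit 8) (nat_lit 4) (nat_lit 6) (nat_lit 4) (nat_lit 380) (nat_lit 265) (nat_lit 255)) (XT.nd (nat_lit 78) (nat_lit 0) (nat_lit 0) (XT.lf (nat_lit 0) (nat_lit 288594592) (nat_lit 76) (nat_lit 25725884426)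 (nat_lit 76) (nat_lit 24271455384) (nat_lit 5) (nat_lit 4) (nat_lit 6) (nat_lit 5) (nat_lit 6) (nat_lit 4) (nat_lit 381) (nat_lit 265) (nat_lit 254)) (XT.lf (nat_lit 0) (nat_lit 9549540555) (nat_lit 76) (nat_lit 22283766803) (nat_lit 76) (nat_lit 20731837143) (nat_lit 5) (nat_lit 4) (nat_lit 6) (nat_lit 5) (nat_lit 6) (nat_lit 4) (nat_lit 382) (nat_lit 265) (nat_lit 253)))) (XT.nd (nat_lit 78) (nat_lit 0) (nat_lit 0) (XT.lf (nat_lit 0) (nat_lit 19038830271) (nat_lit 76) (nat_lit 18785119704) (nat_lit 76) (nat_lit 17140332314) (nat_lit 5) (nat_lit 4) (nat_lit 6) (nat_lit 5) (nat_lit 6) (nat_lit 4) (nat_lit 383) (nat_lit 265) (nat_lit 252)) (XT.nd (nat_lit 78) (nat_lit 0) (nat_lit 0) (XT.lf (nat_lit 0) (nat_lit 28779057290) (nat_lit 76) (nat_lit 15221613016) (nat_lit 76) (nat_lit 13488389693) (nat_lit 5) (nat_lit 4) (nat_lit 6) (nat_lit 5) (nat_lit 6) (nat_lit 4) (nat_lit 384) (nat_lit 265)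 (nat_lit 251)) (XT.lf (nat_lit 0) (nat_lit 38793412626) (nat_lit 76) (nat_lit 11584762201) (nat_lit 76) (nat_lit 9767314178) (nat_lit 5) (nat_lit 4) (nat_lit 6) (nat_lit 5) (nat_lit 6) (nat_lit 4) (nat_lit 385) (nat_lit 265) (nat_lit 250))))))) (XT.nd (nat_lit 936) (nat_lit 76) (nat_lit 0) (XT.nd (nat_lit 468) (nat_lit 0) (nat_lit 0) (XT.nd (nat_lit 234) (nat_lit 0) (nat_lit 0) (XT.nd (nat_lit 78) (nat_lit 152) (nat_lit 0) (XT.lf (nat_lit 0) (nat_lit 49105739983) (nat_lit 76) (nat_lit 7865908090) (nat_lit 76) (nat_lit 5968246068) (nat_lit 5) (nat_lit 4) (nat_lit 6) (nat_lit 5) (nat_lit 6) (nat_lit 4) (nat_lit 386) (nat_lit 265) (nat_lit 249)) (XT.nd (nat_lit 78) (nat_lit 152) (nat_lit 0) (XT.lf (nat_lit 0) (nat_lit 59740592522) (nat_lit 76) (nat_lit 4056196267) (nat_lit 76) (nat_lit 2082139960) (nat_lit 5) (nat_lit 4) (nat_lit 6) (nat_lit 5) (nat_lit 6) (nat_lit 4) (nat_lit 387) (nat_lit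 265) (nat_lit 248)) (XT.lf (nat_lit 0) (nat_lit 1781036750) (nat_lit 76) (nat_lit 86206917) (nat_lit 152) (nat_lit 67099473101) (nat_lit 3) (nat_lit 5) (nat_lit 4) (nat_lit 5) (nat_lit 5) (nat_lit 4) (nat_lit 388) (nat_lit 265) (nat_lit 247)))) (XT.nd (nat_lit 78) (nat_lit 0) (nat_lit 0) (XT.lf (nat_lit 0) (nat_lit 6018868397) (nat_lit 152) (nat_lit 62181058891) (nat_lit 0) (nat_lit 4003530647) (nat_lit 3) (nat_lit 5) (nat_lit 5) (nat_lit 4) (nat_lit 3) (nat_lit 4) (nat_lit 389) (nat_lit 265) (nat_lit 246)) (XT.nd (nat_lit 78) (nat_lit 0) (nat_lit 0) (XT.lf (nat_lit 0) (nat_lit 10289344475) (nat_lit 152) (nat_lit 57105978551) (nat_lit 0) (nat_lit 8211156959) (nat_lit 3) (nat_lit 5) (nat_lit 5) (nat_lit 4) (nat_lit 3) (nat_lit 4) (nat_lit 390) (nat_lit 265) (nat_lit 245)) (XT.lf (nat_lit 0) (nat_lit 14687493771) (nat_lit 152) (nat_lit 51947009541) (nat_lit 0) (nat_lit 12549449333) (nat_lit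 3) (nat_lit 5) (nat_lit 5) (nat_lit 4) (nat_lit 3) (nat_lit 4) (nat_lit 391) (nat_lit 265) (nat_lit 244))))) (XT.nd (nat_lit 234) (nat_lit 0) (nat_lit 0) (XT.nd (nat_lit 78) (nat_lit 0) (nat_lit 0) (XT.lf (nat_lit 0) (nat_lit 19223788068) (nat_lit 152) (nat_lit 46691868601) (nat_lit 0) (nat_lit 17028737039) (nat_lit 3) (nat_lit 5) (nat_lit 5) (nat_lit 4) (nat_lit 3) (nat_lit 4) (nat_lit 392) (nat_lit 265) (nat_lit 243)) (XT.nd (nat_lit 78) (nat_lit 0) (nat_lit 0) (XT.lf (nat_lit 0) (nat_lit 23909028067) (nat_lit 152) (nat_lit 41328043491) (nat_lit 0) (nat_lit 21659685046) (nat_lit 3) (nat_lit 5) (nat_lit 5) (nat_lit 4) (nat_lit 3) (nat_lit 4) (nat_lit 393) (nat_lit 265) (nat_lit 242)) (XT.lf (nat_lit 0) (nat_lit 28754369102) (nat_lit 152) (nat_lit 35842763199) (nat_lit 0) (nat_lit 26453319422) (nat_lit 3) (nat_lit 5) (nat_lit 5) (nat_lit 4) (nat_lit 3) (nat_lit 4) (nat_lit 394) (nat_lit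 265) (nat_lit 241)))) (XT.nd (nat_lit 78) (nat_lit 0) (nat_lit 0) (XT.lf (nat_lit 0) (nat_lit 33771347699) (nat_lit 152) (nat_lit 30222967534) (nat_lit 0) (nat_lit 31421053582) (nat_lit 3) (nat_lit 5) (nat_lit 5) (nat_lit 4) (nat_lit 3) (nat_lit 4) (nat_lit 395) (nat_lit 265) (nat_lit 240)) (XT.nd (nat_lit 78) (nat_lit 0) (nat_lit 0) (XT.lf (nat_lit 0) (nat_lit 38971909044) (nat_lit 152) (nat_lit 24455276030) (nat_lit 0) (nat_lit 36574715463) (nat_lit 3) (nat_lit 5) (nat_lit 5) (nat_lit 4) (nat_lit 3) (nat_lit 4) (nat_lit 396) (nat_lit 265) (nat_lit 239)) (XT.lf (nat_lit 0) (nat_lit 44368435428) (nat_lit 152) (nat_lit 18525956088) (nat_lit 0) (nat_lit 41926575691) (nat_lit 3) (nat_lit 5) (nat_lit 5) (nat_lit 4) (nat_lit 3) (nat_lit 4) (nat_lit 397) (nat_lit 265) (nat_lit 238)))))) (XT.nd (nat_lit 468) (nat_lit 0) (nat_lit 0) (XT.nd (nat_lit 234) (nat_lit 0) (nat_lit 0) (XT.nd (nat_lit 78)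 (nat_lit 76) (nat_lit 0) (XT.lf (nat_lit 0) (nat_lit 49973775722) (nat_lit 152) (nat_lit 12420890280) (nat_lit 0) (nat_lit 47489376788) (nat_lit 3) (nat_lit 5) (nat_lit 5) (nat_lit 4) (nat_lit 3) (nat_lit 4) (nat_lit 398) (nat_lit 265) (nat_lit 237)) (XT.nd (nat_lit 78) (nat_lit 76) (nat_lit 0) (XT.lf (nat_lit 0) (nat_lit 55801275974) (nat_lit 152) (nat_lit 6125542734) (nat_lit 0) (nat_lit 53276363520) (nat_lit 3) (nat_lit 5) (nat_lit 5) (nat_lit 4) (nat_lit 3) (nat_lit 4) (nat_lit 399) (nat_lit 265) (nat_lit 236)) (XT.lf (nat_lit 0) (nat_lit 387477159) (nat_lit 76) (nat_lit 61483383630) (nat_lit 76) (nat_lit 58919886871) (nat_lit 2) (nat_lit 4) (nat_lit 3) (nat_lit 5) (nat_lit 3) (nat_lit 4) (nat_lit 400) (nat_lit 265) (nat_lit 235)))) (XT.nd (nat_lit 78) (nat_lit 0) (nat_lit 0) (XT.lf (nat_lit 0) (nat_lit 7331082419) (nat_lit 76) (nat_lit 60962194666) (nat_lit 76) (nat_lit 58361950950)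 (nat_lit 2) (nat_lit 4) (nat_lit 3) (nat_lit 5) (nat_lit 3) (nat_lit 4) (nat_lit 401) (nat_lit 265) (nat_lit 234)) (XT.nd (nat_lit 78) (nat_lit 0) (nat_lit 0) (XT.lf (nat_lit 0) (nat_lit 14519267331) (nat_lit 76) (nat_lit 60465749922) (nat_lit 76) (nat_lit 57830509104) (nat_lit 2) (nat_lit 4) (nat_lit 3) (nat_lit 5) (nat_lit 3) (nat_lit 4) (nat_lit 402) (nat_lit 265) (nat_lit 233)) (XT.lf (nat_lit 0) (nat_lit 21969146622) (nat_lit 76) (nat_lit 59992867387) (nat_lit 76) (nat_lit 57324295995) (nat_lit 2) (nat_lit 4) (nat_lit 3) (nat_lit 5) (nat_lit 3) (nat_lit 4) (nat_lit 403) (nat_lit 265) (nat_lit 232))))) (XT.nd (nat_lit 234) (nat_lit 0) (nat_lit 0) (XT.nd (nat_lit 78) (nat_lit 0) (nat_lit 0) (XT.lf (nat_lit 0) (nat_lit 29698458099) (nat_lit 76) (nat_lit 59542421148) (nat_lit 76) (nat_lit 56842106353) (nat_lit 2) (nat_lit 4) (nat_lit 3) (nat_lit 5) (nat_lit 3) (nat_lit 4) (nat_lit 404)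 (nat_lit 265) (nat_lit 231)) (XT.nd (nat_lit 78) (nat_lit 0) (nat_lit 0) (XT.lf (nat_lit 0) (nat_lit 37725604885) (nat_lit 76) (nat_lit 59113338716) (nat_lit 76) (nat_lit 56382792109) (nat_lit 2) (nat_lit 4) (nat_lit 3) (nat_lit 5) (nat_lit 3) (nat_lit 4) (nat_lit 405) (nat_lit 265) (nat_lit 230)) (XT.lf (nat_lit 0) (nat_lit 46069699233) (nat_lit 76) (nat_lit 58704598466) (nat_lit 76) (nat_lit 55945259656) (nat_lit 2) (nat_lit 4) (nat_lit 3) (nat_lit 5) (nat_lit 3) (nat_lit 4) (nat_lit 406) (nat_lit 265) (nat_lit 229)))) (XT.nd (nat_lit 156) (nat_lit 0) (nat_lit 0) (XT.nd (nat_lit 78) (nat_lit 0) (nat_lit 0) (XT.lf (nat_lit 0) (nat_lit 54750608036) (nat_lit 76) (nat_lit 58315227206) (nat_lit 76) (nat_lit 55528467251) (nat_lit 2) (nat_lit 4) (nat_lit 3) (nat_lit 5) (nat_lit 3) (nat_lit 4) (nat_lit 407) (nat_lit 265) (nat_lit 228)) (XT.lf (nat_lit 0) (nat_lit 63789000124) (nat_lit 76) (nat_lit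 57944297862) (nat_lit 76) (nat_lit 55131422531) (nat_lit 2) (nat_lit 4) (nat_lit 3) (nat_lit 5) (nat_lit 3) (nat_lit 4) (nat_lit 408) (nat_lit 265) (nat_lit 227))) (XT.nd (nat_lit 78) (nat_lit 0) (nat_lit 0) (XT.lf (nat_lit 0) (nat_lit 73206395478) (nat_lit 76) (nat_lit 57590927269) (nat_lit 76) (nat_lit 54753180151) (nat_lit 2) (nat_lit 4) (nat_lit 3) (nat_lit 5) (nat_lit 3) (nat_lit 4) (nat_lit 409) (nat_lit 265) (nat_lit 226)) (XT.lf (nat_lit 0) (nat_lit 83025216467) (nat_lit 76) (nat_lit 57254274069) (nat_lit 76) (nat_lit 54392839534) (nat_lit 2) (nat_lit 4) (nat_lit 3) (nat_lit 5) (nat_lit 3) (nat_lit 4) (nat_lit 410) (nat_lit 265) (nat_lit 225))))))))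
noncomputable def xc27 : XT := (XT.nd (nat_lit 1950) (nat_lit 0) (nat_lit 0) (XT.nd (nat_lit 936) (nat_lit 0) (nat_lit 0) (XT.nd (nat_lit 468) (nat_lit 0) (nat_lit 0) (XT.nd (nat_lit 234) (nat_lit 0) (nat_lit 0) (XT.nd (nat_lit 78) (nat_lit 0) (nat_lit 0) (XT.lf (nat_lit 0) (nat_lit 93268841238) (nat_lit 76) (nat_lit 56933536705) (nat_lit 76) (nat_lit 54049542727) (nat_lit 2) (nat_lit 4) (nat_lit 3) (nat_lit 5) (nat_lit 3) (nat_lit 4) (nat_lit 411) (nat_lit 265) (nat_lit 224)) (XT.nd (nat_lit 78) (nat_lit 0) (nat_lit 0) (XT.lf (nat_lit 0) (nat_lit 103961659372) (nat_lit 76) (nat_lit 56627951519) (nat_lit 76) (nat_lit 53722472355) (nat_lit 2) (nat_lit 4) (nat_lit 3) (nat_lit 5) (nat_lit 3) (nat_lit 4) (nat_lit 412) (nat_lit 265) (nat_lit 223)) (XT.lf (nat_lit 0) (nat_lit 115129129962) (nat_lit 76) (nat_lit 56336790925) (nat_lit 76) (nat_lit 53410849681) (nat_lit 2) (nat_lit 4) (nat_lit 3)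 (nat_lit 5) (nat_lit 3) (nat_lit 4) (nat_lit 413) (nat_lit 265) (nat_lit 222)))) (XT.nd (nat_lit 78) (nat_lit 0) (nat_lit 0) (XT.lf (nat_lit 0) (nat_lit 126797842221) (nat_lit 76) (nat_lit 56059361685) (nat_lit 76) (nat_lit 53113932745) (nat_lit 2) (nat_lit 4) (nat_lit 3) (nat_lit 5) (nat_lit 3) (nat_lit 4) (nat_lit 414) (nat_lit 265) (nat_lit 221)) (XT.nd (nat_lit 78) (nat_lit 0) (nat_lit 0) (XT.lf (nat_lit 0) (nat_lit 138995578799) (nat_lit 76) (nat_lit 55795003253) (nat_lit 76) (nat_lit 52831014602) (nat_lit 2) (nat_lit 4) (nat_lit 3) (nat_lit 5) (nat_lit 3) (nat_lit 4) (nat_lit 415) (nat_lit 265) (nat_lit 220)) (XT.lf (nat_lit 0) (nat_lit 151751381925) (nat_lit 76) (nat_lit 55543086203) (nat_lit 76) (nat_lit 52561421637) (nat_lit 2) (nat_lit 4) (nat_lit 3) (nat_lit 5) (nat_lit 3) (nat_lit 4) (nat_lit 416) (nat_lit 265) (nat_lit 219))))) (XT.nd (nat_lit 234) (nat_lit 0) (nat_lit 0) (XT.nd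 (nat_lit 78) (nat_lit 0) (nat_lit 0) (XT.lf (nat_lit 0) (nat_lit 165095622560) (nat_lit 76) (nat_lit 55303010734) (nat_lit 76) (nat_lit 52304511964) (nat_lit 2) (nat_lit 4) (nat_lit 3) (nat_lit 5) (nat_lit 3) (nat_lit 4) (nat_lit 417) (nat_lit 265) (nat_lit 218)) (XT.nd (nat_lit 78) (nat_lit 0) (nat_lit 0) (XT.lf (nat_lit 0) (nat_lit 179060072705) (nat_lit 76) (nat_lit 55074205236) (nat_lit 76) (nat_lit 52059673891) (nat_lit 2) (nat_lit 4) (nat_lit 3) (nat_lit 5) (nat_lit 3) (nat_lit 4) (nat_lit 418) (nat_lit 265) (nat_lit 217)) (XT.lf (nat_lit 0) (nat_lit 193677981050) (nat_lit 76) (nat_lit 54856124936) (nat_lit 76) (nat_lit 51826324471) (nat_lit 2) (nat_lit 4) (nat_lit 3) (nat_lit 5) (nat_lit 3) (nat_lit 4) (nat_lit 419) (nat_lit 265) (nat_lit 216)))) (XT.nd (nat_lit 78) (nat_lit 0) (nat_lit 0) (XT.lf (nat_lit 0) (nat_lit 208984152140) (nat_lit 76) (nat_lit 54648250594) (nat_lit 76) (nat_lit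 51603908110) (nat_lit 2) (nat_lit 4) (nat_lit 3) (nat_lit 5) (nat_lit 3) (nat_lit 4) (nat_lit 420) (nat_lit 265) (nat_lit 215)) (XT.nd (nat_lit 78) (nat_lit 0) (nat_lit 0) (XT.lf (nat_lit 0) (nat_lit 225015029238) (nat_lit 76) (nat_lit 54450087272) (nat_lit 76) (nat_lit 51391895246) (nat_lit 2) (nat_lit 4) (nat_lit 3) (nat_lit 5) (nat_lit 3) (nat_lit 4) (nat_lit 421) (nat_lit 265) (nat_lit 214)) (XT.lf (nat_lit 0) (nat_lit 241808781101) (nat_lit 76) (nat_lit 54261163151) (nat_lit 76) (nat_lit 51189781085) (nat_lit 2) (nat_lit 4) (nat_lit 3) (nat_lit 5) (nat_lit 3) (nat_lit 4) (nat_lit 422) (nat_lit 265) (nat_lit 213)))))) (XT.nd (nat_lit 468) (nat_lit 0) (nat_lit 0) (XT.nd (nat_lit 234) (nat_lit 0) (nat_lit 0) (XT.nd (nat_lit 78) (nat_lit 0) (nat_lit 0) (XT.lf (nat_lit 0) (nat_lit 259405392850) (nat_lit 76) (nat_lit 54081028413) (nat_lit 76) (nat_lit 50997084405) (nat_lit 2) (nat_lit 4)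 (nat_lit 3) (nat_lit 5) (nat_lit 3) (nat_lit 4) (nat_lit 423) (nat_lit 265) (nat_lit 212)) (XT.nd (nat_lit 78) (nat_lit 0) (nat_lit 0) (XT.lf (nat_lit 0) (nat_lit 277846761182) (nat_lit 76) (nat_lit 53909254165) (nat_lit 76) (nat_lit 50813346402) (nat_lit 2) (nat_lit 4) (nat_lit 3) (nat_lit 5) (nat_lit 3) (nat_lit 4) (nat_lit 424) (nat_lit 265) (nat_lit 211)) (XT.lf (nat_lit 0) (nat_lit 297176794115) (nat_lit 76) (nat_lit 53745431422) (nat_lit 76) (nat_lit 50638129606) (nat_lit 2) (nat_lit 4) (nat_lit 3) (nat_lit 5) (nat_lit 3) (nat_lit 4) (nat_lit 425) (nat_lit 265) (nat_lit 210)))) (XT.nd (nat_lit 78) (nat_lit 0) (nat_lit 0) (XT.lf (nat_lit 0) (nat_lit 317441515539) (nat_lit 76) (nat_lit 53589170128) (nat_lit 76) (nat_lit 50471016834) (nat_lit 2) (nat_lit 4) (nat_lit 3) (nat_lit 5) (nat_lit 3) (nat_lit 4) (nat_lit 426) (nat_lit 265) (nat_lit 209)) (XT.nd (nat_lit 78) (nat_lit 0) (nat_lit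 0) (XT.lf (nat_lit 0) (nat_lit 338689174788) (nat_lit 76) (nat_lit 53440098233) (nat_lit 76) (nat_lit 50311610198) (nat_lit 2) (nat_lit 4) (nat_lit 3) (nat_lit 5) (nat_lit 3) (nat_lit 4) (nat_lit 427) (nat_lit 265) (nat_lit 208)) (XT.lf (nat_lit 0) (nat_lit 360970361529) (nat_lit 76) (nat_lit 53297860805) (nat_lit 76) (nat_lit 50159530159) (nat_lit 2) (nat_lit 4) (nat_lit 3) (nat_lit 5) (nat_lit 3) (nat_lit 4) (nat_lit 428) (nat_lit 265) (nat_lit 207))))) (XT.nd (nat_lit 234) (nat_lit 0) (nat_lit 0) (XT.nd (nat_lit 78) (nat_lit 0) (nat_lit 0) (XT.lf (nat_lit 0) (nat_lit 384338126206) (nat_lit 76) (nat_lit 53162119182) (nat_lit 76) (nat_lit 50014414621) (nat_lit 2) (nat_lit 4) (nat_lit 3) (nat_lit 5) (nat_lit 3) (nat_lit 4) (nat_lit 429) (nat_lit 265) (nat_lit 206)) (XT.nd (nat_lit 78) (nat_lit 0) (nat_lit 0) (XT.lf (nat_lit 0) (nat_lit 408848106354) (nat_lit 76) (nat_lit 53032550170) (nat_lit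 76) (nat_lit 49875918072) (nat_lit 2) (nat_lit 4) (nat_lit 3) (nat_lit 5) (nat_lit 3) (nat_lit 4) (nat_lit 430) (nat_lit 265) (nat_lit 205)) (XT.lf (nat_lit 0) (nat_lit 434558659068) (nat_lit 76) (nat_lit 52908845272) (nat_lit 76) (nat_lit 49743710756) (nat_lit 2) (nat_lit 4) (nat_lit 3) (nat_lit 5) (nat_lit 3) (nat_lit 4) (nat_lit 431) (nat_lit 265) (nat_lit 204)))) (XT.nd (nat_lit 156) (nat_lit 0) (nat_lit 0) (XT.nd (nat_lit 78) (nat_lit 0) (nat_lit 0) (XT.lf (nat_lit 0) (nat_lit 461530999951) (nat_lit 76) (nat_lit 52790709952) (nat_lit 76) (nat_lit 49617477896) (nat_lit 2) (nat_lit 4) (nat_lit 3) (nat_lit 5) (nat_lit 3) (nat_lit 4) (nat_lit 432) (nat_lit 265) (nat_lit 203)) (XT.lf (nat_lit 0) (nat_lit 489829348861) (nat_lit 76) (nat_lit 52677862936) (nat_lit 76) (nat_lit 49496918937) (nat_lit 2) (nat_lit 4) (nat_lit 3) (nat_lit 5) (nat_lit 3) (nat_lit 4) (nat_lit 433) (nat_lit 265) (nat_lit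 202))) (XT.nd (nat_lit 78) (nat_lit 0) (nat_lit 0) (XT.lf (nat_lit 0) (nat_lit 519521082819) (nat_lit 76) (nat_lit 52570035539) (nat_lit 76) (nat_lit 49381746833) (nat_lit 2) (nat_lit 4) (nat_lit 3) (nat_lit 5) (nat_lit 3) (nat_lit 4) (nat_lit 434) (nat_lit 265) (nat_lit 201)) (XT.lf (nat_lit 0) (nat_lit 550676896431) (nat_lit 76) (nat_lit 52466971031) (nat_lit 76) (nat_lit 49271687365) (nat_lit 2) (nat_lit 4) (nat_lit 3) (nat_lit 5) (nat_lit 3) (nat_lit 4) (nat_lit 435) (nat_lit 265) (nat_lit 200))))))) (XT.nd (nat_lit 42042) (nat_lit 0) (nat_lit 228) (XT.nd (nat_lit 41574) (nat_lit 0) (nat_lit 456) (XT.nd (nat_lit 234) (nat_lit 0) (nat_lit 0) (XT.nd (nat_lit 78) (nat_lit 0) (nat_lit 0) (XT.lf (nat_lit 0) (nat_lit 583370970205) (nat_lit 76) (nat_lit 52368424020) (nat_lit 76) (nat_lit 49166478487) (nat_lit 2) (nat_lit 4) (nat_lit 3) (nat_lit 5) (nat_lit 3) (nat_lit 4) (nat_lit 436) (nat_lit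 265) (nat_lit 199)) (XT.nd (nat_lit 78) (nat_lit 0) (nat_lit 0) (XT.lf (nat_lit 0) (nat_lit 617681147174) (nat_lit 76) (nat_lit 52274159869) (nat_lit 76) (nat_lit 49065869702) (nat_lit 2) (nat_lit 4) (nat_lit 3) (nat_lit 5) (nat_lit 3) (nat_lit 4) (nat_lit 437) (nat_lit 265) (nat_lit 198)) (XT.lf (nat_lit 0) (nat_lit 653689118235) (nat_lit 76) (nat_lit 52183954141) (nat_lit 76) (nat_lit 48969621465) (nat_lit 2) (nat_lit 4) (nat_lit 3) (nat_lit 5) (nat_lit 3) (nat_lit 4) (nat_lit 438) (nat_lit 265) (nat_lit 197)))) (XT.nd (nat_lit 78) (nat_lit 0) (nat_lit 0) (XT.lf (nat_lit 0) (nat_lit 691480616652) (nat_lit 76) (nat_lit 52097592060) (nat_lit 76) (nat_lit 48877504613) (nat_lit 2) (nat_lit 4) (nat_lit 3) (nat_lit 5) (nat_lit 3) (nat_lit 4) (nat_lit 439) (nat_lit 265) (nat_lit 196)) (XT.nd (nat_lit 78) (nat_lit 0) (nat_lit 0) (XT.lf (nat_lit 0) (nat_lit 731145622185) (nat_lit 76) (nat_lit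 52014868001) (nat_lit 76) (nat_lit 48789299820) (nat_lit 2) (nat_lit 4) (nat_lit 3) (nat_lit 5) (nat_lit 3) (nat_lit 4) (nat_lit 440) (nat_lit 265) (nat_lit 195)) (XT.lf (nat_lit 0) (nat_lit 772778575321) (nat_lit 76) (nat_lit 51935585004) (nat_lit 76) (nat_lit 48704797076) (nat_lit 2) (nat_lit 4) (nat_lit 3) (nat_lit 5) (nat_lit 3) (nat_lit 4) (nat_lit 441) (nat_lit 265) (nat_lit 194))))) (XT.nd (nat_lit 234) (nat_lit 76) (nat_lit 0) (XT.nd (nat_lit 78) (nat_lit 152) (nat_lit 0) (XT.lf (nat_lit 0) (nat_lit 7354320951) (nat_lit 76) (nat_lit 3615470724) (nat_lit 76) (nat_lit 3615470724) (nat_lit 11) (nat_lit 4) (nat_lit 12) (nat_lit 5) (nat_lit 12) (nat_lit 4) (nat_lit 368) (nat_lit 266) (nat_lit 266)) (XT.nd (nat_lit 78) (nat_lit 152) (nat_lit 0) (XT.lf (nat_lit 0) (nat_lit 26402164331) (nat_lit 76) (nat_lit 2068700285) (nat_lit 76) (nat_lit 1875655732) (nat_lit 11) (nat_lit 4) (nat_lit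 12) (nat_lit 5) (nat_lit 12) (nat_lit 4) (nat_lit 369) (nat_lit 266) (nat_lit 265)) (XT.lf (nat_lit 0) (nat_lit 3607302006) (nat_lit 152) (nat_lit 24723763380) (nat_lit 0) (nat_lit 3248352950) (nat_lit 9) (nat_lit 5) (nat_lit 11) (nat_lit 4) (nat_lit 9) (nat_lit 4) (nat_lit 370) (nat_lit 266) (nat_lit 264)))) (XT.nd (nat_lit 78) (nat_lit 76) (nat_lit 0) (XT.lf (nat_lit 0) (nat_lit 9223315583) (nat_lit 152) (nat_lit 14955423162) (nat_lit 0) (nat_lit 8697607385) (nat_lit 9) (nat_lit 5) (nat_lit 11) (nat_lit 4) (nat_lit 9) (nat_lit 4) (nat_lit 371) (nat_lit 266) (nat_lit 263)) (XT.nd (nat_lit 78) (nat_lit 76) (nat_lit 0) (XT.lf (nat_lit 0) (nat_lit 14948829375) (nat_lit 152) (nat_lit 5033571536) (nat_lit 0) (nat_lit 14264302946) (nat_lit 9) (nat_lit 5) (nat_lit 11) (nat_lit 4) (nat_lit 9) (nat_lit 4) (nat_lit 372) (nat_lit 266) (nat_lit 262)) (XT.lf (nat_lit 0) (nat_lit 5232900450) (nat_lit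 76) (nat_lit 15646275348) (nat_lit 76) (nat_lit 14810493460) (nat_lit 8) (nat_lit 4) (nat_lit 9) (nat_lit 5) (nat_lit 9) (nat_lit 4) (nat_lit 373) (nat_lit 266) (nat_lit 261)))))) (XT.nd (nat_lit 468) (nat_lit 76) (nat_lit 0) (XT.nd (nat_lit 234) (nat_lit 152) (nat_lit 0) (XT.nd (nat_lit 78) (nat_lit 0) (nat_lit 0) (XT.lf (nat_lit 0) (nat_lit 15873637037) (nat_lit 76) (nat_lit 11157374400) (nat_lit 76) (nat_lit 10177539694) (nat_lit 8) (nat_lit 4) (nat_lit 9) (nat_lit 5) (nat_lit 9) (nat_lit 4) (nat_lit 374) (nat_lit 266) (nat_lit 260)) (XT.nd (nat_lit 78) (nat_lit 0) (nat_lit 0) (XT.lf (nat_lit 0) (nat_lit 26747540704) (nat_lit 76) (nat_lit 6590256177) (nat_lit 76) (nat_lit 5473228311) (nat_lit 8) (nat_lit 4) (nat_lit 9) (nat_lit 5) (nat_lit 9) (nat_lit 4) (nat_lit 375) (nat_lit 266) (nat_lit 259)) (XT.lf (nat_lit 0) (nat_lit 37880501698) (nat_lit 76) (nat_lit 1934046588) (nat_lit 76)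 (nat_lit 686358571) (nat_lit 8) (nat_lit 4) (nat_lit 9) (nat_lit 5) (nat_lit 9) (nat_lit 4) (nat_lit 376) (nat_lit 266) (nat_lit 258)))) (XT.nd (nat_lit 78) (nat_lit 0) (nat_lit 0) (XT.lf (nat_lit 0) (nat_lit 4219311978) (nat_lit 152) (nat_lit 35139153525) (nat_lit 0) (nat_lit 2912525066) (nat_lit 6) (nat_lit 5) (nat_lit 8) (nat_lit 4) (nat_lit 6) (nat_lit 4) (nat_lit 377) (nat_lit 266) (nat_lit 257)) (XT.nd (nat_lit 78) (nat_lit 0) (nat_lit 0) (XT.lf (nat_lit 0) (nat_lit 9283665219) (nat_lit 152) (nat_lit 26984531400) (nat_lit 0) (nat_lit 7864009155) (nat_lit 6) (nat_lit 5) (nat_lit 8) (nat_lit 4) (nat_lit 6) (nat_lit 4) (nat_lit 378) (nat_lit 266) (nat_lit 256)) (XT.lf (nat_lit 0) (nat_lit 14467573545) (nat_lit 152) (nat_lit 18685180804) (nat_lit 0) (nat_lit 12940423051) (nat_lit 6) (nat_lit 5) (nat_lit 8) (nat_lit 4) (nat_lit 6) (nat_lit 4) (nat_lit 379) (nat_lit 266) (nat_lit 255)))))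 (XT.nd (nat_lit 234) (nat_lit 0) (nat_lit 0) (XT.nd (nat_lit 78) (nat_lit 76) (nat_lit 0) (XT.lf (nat_lit 0) (nat_lit 19783379597) (nat_lit 152) (nat_lit 10221341379) (nat_lit 0) (nat_lit 18153853455) (nat_lit 6) (nat_lit 5) (nat_lit 8) (nat_lit 4) (nat_lit 6) (nat_lit 4) (nat_lit 380) (nat_lit 266) (nat_lit 254)) (XT.nd (nat_lit 78) (nat_lit 76) (nat_lit 0) (XT.lf (nat_lit 0) (nat_lit 25243740055) (nat_lit 152) (nat_lit 1572861124) (nat_lit 0) (nat_lit 23516713295) (nat_lit 6) (nat_lit 5) (nat_lit 8) (nat_lit 4) (nat_lit 6) (nat_lit 4) (nat_lit 381) (nat_lit 266) (nat_lit 253)) (XT.lf (nat_lit 0) (nat_lit 7521589411) (nat_lit 76) (nat_lit 23457499455) (nat_lit 76) (nat_lit 21637614965) (nat_lit 5) (nat_lit 4) (nat_lit 6) (nat_lit 5) (nat_lit 6) (nat_lit 4) (nat_lit 382) (nat_lit 266) (nat_lit 252)))) (XT.nd (nat_lit 156) (nat_lit 0) (nat_lit 0) (XT.nd (nat_lit 78) (nat_lit 0) (nat_lit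 0) (XT.lf (nat_lit 0) (nat_lit 16901841477) (nat_lit 76) (nat_lit 20012546388) (nat_lit 76) (nat_lit 18104225964) (nat_lit 5) (nat_lit 4) (nat_lit 6) (nat_lit 5) (nat_lit 6) (nat_lit 4) (nat_lit 383) (nat_lit 266) (nat_lit 251)) (XT.lf (nat_lit 0) (nat_lit 26538223113) (nat_lit 76) (nat_lit 16500176875) (nat_lit 76) (nat_lit 14507631752) (nat_lit 5) (nat_lit 4) (nat_lit 6) (nat_lit 5) (nat_lit 6) (nat_lit 4) (nat_lit 384) (nat_lit 266) (nat_lit 250))) (XT.nd (nat_lit 78) (nat_lit 0) (nat_lit 0) (XT.lf (nat_lit 0) (nat_lit 36453678085) (nat_lit 76) (nat_lit 12912028130) (nat_lit 76) (nat_lit 10839269008) (nat_lit 5) (nat_lit 4) (nat_lit 6) (nat_lit 5) (nat_lit 6) (nat_lit 4) (nat_lit 385) (nat_lit 266) (nat_lit 249)) (XT.lf (nat_lit 0) (nat_lit 46671814620) (nat_lit 76) (nat_lit 9239556943) (nat_lit 76) (nat_lit 7090403536) (nat_lit 5) (nat_lit 4) (nat_lit 6) (nat_lit 5) (nat_lit 6) (nat_lit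 4) (nat_lit 386) (nat_lit 266) (nat_lit 248))))))))
noncomputable def xc28 : XT := (XT.nd (nat_lit 1872) (nat_lit 0) (nat_lit 0) (XT.nd (nat_lit 936) (nat_lit 76) (nat_lit 0) (XT.nd (nat_lit 468) (nat_lit 0) (nat_lit 0) (XT.nd (nat_lit 234) (nat_lit 0) (nat_lit 0) (XT.nd (nat_lit 78) (nat_lit 152) (nat_lit 0) (XT.lf (nat_lit 0) (nat_lit 57216961614) (nat_lit 76) (nat_lit 5474019334) (nat_lit 76) (nat_lit 3252109465) (nat_lit 5) (nat_lit 4) (nat_lit 6) (nat_lit 5) (nat_lit 6) (nat_lit 4) (nat_lit 387) (nat_lit 266) (nat_lit 247)) (XT.nd (nat_lit 78) (nat_lit 76) (nat_lit 0) (XT.lf (nat_lit 0) (nat_lit 662835658) (nat_lit 152) (nat_lit 932388636) (nat_lit 76) (nat_lit 67440165457) (nat_lit 4) (nat_lit 5) (nat_lit 6) (nat_lit 5) (nat_lit 5) (nat_lit 4) (nat_lit 388) (nat_lit 266) (nat_lit 246)) (XT.lf (nat_lit 0) (nat_lit 4731643086) (nat_lit 152) (nat_lit 65057935846) (nat_lit 0) (nat_lit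 2486696427) (nat_lit 3) (nat_lit 5) (nat_lit 5) (nat_lit 4) (nat_lit 3) (nat_lit 4) (nat_lit 389) (nat_lit 266) (nat_lit 245)))) (XT.nd (nat_lit 78) (nat_lit 0) (nat_lit 0) (XT.lf (nat_lit 0) (nat_lit 8960240830) (nat_lit 152) (nat_lit 60065716651) (nat_lit 0) (nat_lit 6655437249) (nat_lit 3) (nat_lit 5) (nat_lit 5) (nat_lit 4) (nat_lit 3) (nat_lit 4) (nat_lit 390) (nat_lit 266) (nat_lit 244)) (XT.nd (nat_lit 78) (nat_lit 0) (nat_lit 0) (XT.lf (nat_lit 0) (nat_lit 13318505997) (nat_lit 152) (nat_lit 54985663016) (nat_lit 0) (nat_lit 10956695825) (nat_lit 3) (nat_lit 5) (nat_lit 5) (nat_lit 4) (nat_lit 3) (nat_lit 4) (nat_lit 391) (nat_lit 266) (nat_lit 243)) (XT.lf (nat_lit 0) (nat_lit 17816815410) (nat_lit 152) (nat_lit 49805679578) (nat_lit 0) (nat_lit 15400713246) (nat_lit 3) (nat_lit 5) (nat_lit 5) (nat_lit 4) (nat_lit 3) (nat_lit 4) (nat_lit 392) (nat_lit 266) (nat_lit 242))))) (XT.nd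 (nat_lit 234) (nat_lit 0) (nat_lit 0) (XT.nd (nat_lit 78) (nat_lit 0) (nat_lit 0) (XT.lf (nat_lit 0) (nat_lit 22465879329) (nat_lit 152) (nat_lit 44513433040) (nat_lit 0) (nat_lit 19998070506) (nat_lit 3) (nat_lit 5) (nat_lit 5) (nat_lit 4) (nat_lit 3) (nat_lit 4) (nat_lit 393) (nat_lit 266) (nat_lit 241)) (XT.nd (nat_lit 78) (nat_lit 0) (nat_lit 0) (XT.lf (nat_lit 0) (nat_lit 27276766954) (nat_lit 152) (nat_lit 39096322817) (nat_lit 0) (nat_lit 24759713694) (nat_lit 3) (nat_lit 5) (nat_lit 5) (nat_lit 4) (nat_lit 3) (nat_lit 4) (nat_lit 394) (nat_lit 266) (nat_lit 240)) (XT.lf (nat_lit 0) (nat_lit 32260932780) (nat_lit 152) (nat_lit 33541451028) (nat_lit 0) (nat_lit 29696980056) (nat_lit 3) (nat_lit 5) (nat_lit 5) (nat_lit 4) (nat_lit 3) (nat_lit 4) (nat_lit 395) (nat_lit 266) (nat_lit 239)))) (XT.nd (nat_lit 78) (nat_lit 0) (nat_lit 0) (XT.lf (nat_lit 0) (nat_lit 37430243867) (nat_lit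 152) (nat_lit 27835591786) (nat_lit 0) (nat_lit 34821624987) (nat_lit 3) (nat_lit 5) (nat_lit 5) (nat_lit 4) (nat_lit 3) (nat_lit 4) (nat_lit 396) (nat_lit 266) (nat_lit 238)) (XT.nd (nat_lit 78) (nat_lit 0) (nat_lit 0) (XT.lf (nat_lit 0) (nat_lit 42797008100) (nat_lit 152) (nat_lit 21965159712) (nat_lit 0) (nat_lit 40145850023) (nat_lit 3) (nat_lit 5) (nat_lit 5) (nat_lit 4) (nat_lit 3) (nat_lit 4) (nat_lit 397) (nat_lit 266) (nat_lit 237)) (XT.lf (nat_lit 0) (nat_lit 48374003488) (nat_lit 152) (nat_lit 15916177589) (nat_lit 0) (nat_lit 45682331891) (nat_lit 3) (nat_lit 5) (nat_lit 5) (nat_lit 4) (nat_lit 3) (nat_lit 4) (nat_lit 398) (nat_lit 266) (nat_lit 236)))))) (XT.nd (nat_lit 468) (nat_lit 0) (nat_lit 0) (XT.nd (nat_lit 234) (nat_lit 0) (nat_lit 0) (XT.nd (nat_lit 78) (nat_lit 76) (nat_lit 0) (XT.lf (nat_lit 0) (nat_lit 54174508592) (nat_lit 152) (nat_lit 9674243076) (nat_lit 0)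 (nat_lit 51444252690) (nat_lit 3) (nat_lit 5) (nat_lit 5) (nat_lit 4) (nat_lit 3) (nat_lit 4) (nat_lit 399) (nat_lit 266) (nat_lit 235)) (XT.nd (nat_lit 78) (nat_lit 76) (nat_lit 0) (XT.lf (nat_lit 0) (nat_lit 60212334139) (nat_lit 152) (nat_lit 3224494425) (nat_lit 0) (nat_lit 57445331280) (nat_lit 3) (nat_lit 5) (nat_lit 5) (nat_lit 4) (nat_lit 3) (nat_lit 4) (nat_lit 400) (nat_lit 266) (nat_lit 234)) (XT.lf (nat_lit 0) (nat_lit 3562445408) (nat_lit 76) (nat_lit 62995030251) (nat_lit 76) (nat_lit 60193030290) (nat_lit 2) (nat_lit 4) (nat_lit 3) (nat_lit 5) (nat_lit 3) (nat_lit 4) (nat_lit 401) (nat_lit 266) (nat_lit 233)))) (XT.nd (nat_lit 78) (nat_lit 0) (nat_lit 0) (XT.lf (nat_lit 0) (nat_lit 10702964531) (nat_lit 76) (nat_lit 62522187676) (nat_lit 76) (nat_lit 59686857141) (nat_lit 2) (nat_lit 4) (nat_lit 3) (nat_lit 5) (nat_lit 3) (nat_lit 4) (nat_lit 402) (nat_lit 266) (nat_lit 232))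 (XT.nd (nat_lit 78) (nat_lit 0) (nat_lit 0) (XT.lf (nat_lit 0) (nat_lit 18107447832) (nat_lit 76) (nat_lit 62071783396) (nat_lit 76) (nat_lit 59204709458) (nat_lit 2) (nat_lit 4) (nat_lit 3) (nat_lit 5) (nat_lit 3) (nat_lit 4) (nat_lit 403) (nat_lit 266) (nat_lit 231)) (XT.lf (nat_lit 0) (nat_lit 25793525034) (nat_lit 76) (nat_lit 61642745020) (nat_lit 76) (nat_lit 58745439269) (nat_lit 2) (nat_lit 4) (nat_lit 3) (nat_lit 5) (nat_lit 3) (nat_lit 4) (nat_lit 404) (nat_lit 266) (nat_lit 230))))) (XT.nd (nat_lit 234) (nat_lit 0) (nat_lit 0) (XT.nd (nat_lit 78) (nat_lit 0) (nat_lit 0) (XT.lf (nat_lit 0) (nat_lit 33779496319) (nat_lit 76) (nat_lit 61234051028) (nat_lit 76) (nat_lit 58307953076) (nat_lit 2) (nat_lit 4) (nat_lit 3) (nat_lit 5) (nat_lit 3) (nat_lit 4) (nat_lit 405) (nat_lit 266) (nat_lit 229)) (XT.nd (nat_lit 78) (nat_lit 0) (nat_lit 0) (XT.lf (nat_lit 0) (nat_lit 42084375905)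 (nat_lit 76) (nat_lit 60844728340) (nat_lit 76) (nat_lit 57891209242) (nat_lit 2) (nat_lit 4) (nat_lit 3) (nat_lit 5) (nat_lit 3) (nat_lit 4) (nat_lit 406) (nat_lit 266) (nat_lit 228)) (XT.lf (nat_lit 0) (nat_lit 50727937315) (nat_lit 76) (nat_lit 60473849997) (nat_lit 76) (nat_lit 57494215523) (nat_lit 2) (nat_lit 4) (nat_lit 3) (nat_lit 5) (nat_lit 3) (nat_lit 4) (nat_lit 407) (nat_lit 266) (nat_lit 227)))) (XT.nd (nat_lit 78) (nat_lit 0) (nat_lit 0) (XT.lf (nat_lit 0) (nat_lit 59730760457) (nat_lit 76) (nat_lit 60120532955) (nat_lit 76) (nat_lit 57116026693) (nat_lit 2) (nat_lit 4) (nat_lit 3) (nat_lit 5) (nat_lit 3) (nat_lit 4) (nat_lit 408) (nat_lit 266) (nat_lit 226)) (XT.nd (nat_lit 78) (nat_lit 0) (nat_lit 0) (XT.lf (nat_lit 0) (nat_lit 69114280625) (nat_lit 76) (nat_lit 59783935982) (nat_lit 76) (nat_lit 56755742305) (nat_lit 2) (nat_lit 4) (nat_lit 3) (nat_lit 5) (nat_lit 3) (nat_lit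 4) (nat_lit 409) (nat_lit 266) (nat_lit 225)) (XT.lf (nat_lit 0) (nat_lit 78900839532) (nat_lit 76) (nat_lit 59463257659) (nat_lit 76) (nat_lit 56412504537) (nat_lit 2) (nat_lit 4) (nat_lit 3) (nat_lit 5) (nat_lit 3) (nat_lit 4) (nat_lit 410) (nat_lit 266) (nat_lit 224))))))) (XT.nd (nat_lit 936) (nat_lit 0) (nat_lit 0) (XT.nd (nat_lit 468) (nat_lit 0) (nat_lit 0) (XT.nd (nat_lit 234) (nat_lit 0) (nat_lit 0) (XT.nd (nat_lit 78) (nat_lit 0) (nat_lit 0) (XT.lf (nat_lit 0) (nat_lit 89113738510) (nat_lit 76) (nat_lit 59157734464) (nat_lit 76) (nat_lit 56085496157) (nat_lit 2) (nat_lit 4) (nat_lit 3) (nat_lit 5) (nat_lit 3) (nat_lit 4) (nat_lit 411) (nat_lit 266) (nat_lit 223)) (XT.nd (nat_lit 78) (nat_lit 0) (nat_lit 0) (XT.lf (nat_lit 0) (nat_lit 99777293985) (nat_lit 76) (nat_lit 58866638961) (nat_lit 76) (nat_lit 55773938574) (nat_lit 2) (nat_lit 4) (nat_lit 3) (nat_lit 5) (nat_lit 3) (nat_lit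 4) (nat_lit 412) (nat_lit 266) (nat_lit 222)) (XT.lf (nat_lit 0) (nat_lit 110916895374) (nat_lit 76) (nat_lit 58589278066) (nat_lit 76) (nat_lit 55477089983) (nat_lit 2) (nat_lit 4) (nat_lit 3) (nat_lit 5) (nat_lit 3) (nat_lit 4) (nat_lit 413) (nat_lit 266) (nat_lit 221)))) (XT.nd (nat_lit 78) (nat_lit 0) (nat_lit 0) (XT.lf (nat_lit 0) (nat_lit 122559065539) (nat_lit 76) (nat_lit 58324991397) (nat_lit 76) (nat_lit 55194243603) (nat_lit 2) (nat_lit 4) (nat_lit 3) (nat_lit 5) (nat_lit 3) (nat_lit 4) (nat_lit 414) (nat_lit 266) (nat_lit 220)) (XT.nd (nat_lit 78) (nat_lit 0) (nat_lit 0) (XT.lf (nat_lit 0) (nat_lit 134731523931) (nat_lit 76) (nat_lit 58073149698) (nat_lit 76) (nat_lit 54924725990) (nat_lit 2) (nat_lit 4) (nat_lit 3) (nat_lit 5) (nat_lit 3) (nat_lit 4) (nat_lit 415) (nat_lit 266) (nat_lit 219)) (XT.lf (nat_lit 0) (nat_lit 147463252595) (nat_lit 76) (nat_lit 57833153348) (nat_lit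 76) (nat_lit 54667895435) (nat_lit 2) (nat_lit 4) (nat_lit 3) (nat_lit 5) (nat_lit 3) (nat_lit 4) (nat_lit 416) (nat_lit 266) (nat_lit 218))))) (XT.nd (nat_lit 234) (nat_lit 0) (nat_lit 0) (XT.nd (nat_lit 78) (nat_lit 0) (nat_lit 0) (XT.lf (nat_lit 0) (nat_lit 160784565171) (nat_lit 76) (nat_lit 57604430925) (nat_lit 76) (nat_lit 54423140436) (nat_lit 2) (nat_lit 4) (nat_lit 3) (nat_lit 5) (nat_lit 3) (nat_lit 4) (nat_lit 417) (nat_lit 266) (nat_lit 217)) (XT.nd (nat_lit 78) (nat_lit 0) (nat_lit 0) (XT.lf (nat_lit 0) (nat_lit 174727179068) (nat_lit 76) (nat_lit 57386437853) (nat_lit 76) (nat_lit 54189878244) (nat_lit 2) (nat_lit 4) (nat_lit 3) (nat_lit 5) (nat_lit 3) (nat_lit 4) (nat_lit 418) (nat_lit 266) (nat_lit 216)) (XT.lf (nat_lit 0) (nat_lit 189324290988) (nat_lit 76) (nat_lit 57178655101) (nat_lit 76) (nat_lit 53967553473) (nat_lit 2) (nat_lit 4) (nat_lit 3) (nat_lit 5) (nat_lit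 3) (nat_lit 4) (nat_lit 419) (nat_lit 266) (nat_lit 215)))) (XT.nd (nat_lit 78) (nat_lit 0) (nat_lit 0) (XT.lf (nat_lit 0) (nat_lit 204610655958) (nat_lit 76) (nat_lit 56980587947) (nat_lit 76) (nat_lit 53755636778) (nat_lit 2) (nat_lit 4) (nat_lit 3) (nat_lit 5) (nat_lit 3) (nat_lit 4) (nat_lit 420) (nat_lit 266) (nat_lit 214)) (XT.nd (nat_lit 78) (nat_lit 0) (nat_lit 0) (XT.lf (nat_lit 0) (nat_lit 220622670085) (nat_lit 76) (nat_lit 56791764804) (nat_lit 76) (nat_lit 53553623596) (nat_lit 2) (nat_lit 4) (nat_lit 3) (nat_lit 5) (nat_lit 3) (nat_lit 4) (nat_lit 421) (nat_lit 266) (nat_lit 213)) (XT.lf (nat_lit 0) (nat_lit 237398457213) (nat_lit 76) (nat_lit 56611736093) (nat_lit 76) (nat_lit 53361032941) (nat_lit 2) (nat_lit 4) (nat_lit 3) (nat_lit 5) (nat_lit 3) (nat_lit 4) (nat_lit 422) (nat_lit 266) (nat_lit 212)))))) (XT.nd (nat_lit 468) (nat_lit 0) (nat_lit 0) (XT.nd (nat_lit 234)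 (nat_lit 0) (nat_lit 0) (XT.nd (nat_lit 78) (nat_lit 0) (nat_lit 0) (XT.lf (nat_lit 0) (nat_lit 254977959691) (nat_lit 76) (nat_lit 56440073173) (nat_lit 76) (nat_lit 53177406267) (nat_lit 2) (nat_lit 4) (nat_lit 3) (nat_lit 5) (nat_lit 3) (nat_lit 4) (nat_lit 423) (nat_lit 266) (nat_lit 211)) (XT.nd (nat_lit 78) (nat_lit 0) (nat_lit 0) (XT.lf (nat_lit 0) (nat_lit 273403033479) (nat_lit 76) (nat_lit 56276367323) (nat_lit 76) (nat_lit 53002306365) (nat_lit 2) (nat_lit 4) (nat_lit 3) (nat_lit 5) (nat_lit 3) (nat_lit 4) (nat_lit 424) (nat_lit 266) (nat_lit 210)) (XT.lf (nat_lit 0) (nat_lit 292717547799) (nat_lit 76) (nat_lit 56120228768) (nat_lit 76) (nat_lit 52835316332) (nat_lit 2) (nat_lit 4) (nat_lit 3) (nat_lit 5) (nat_lit 3) (nat_lit 4) (nat_lit 425) (nat_lit 266) (nat_lit 209)))) (XT.nd (nat_lit 78) (nat_lit 0) (nat_lit 0) (XT.lf (nat_lit 0) (nat_lit 312967489591) (nat_lit 76) (nat_lit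 55971285750) (nat_lit 76) (nat_lit 52676038572) (nat_lit 2) (nat_lit 4) (nat_lit 3) (nat_lit 5) (nat_lit 3) (nat_lit 4) (nat_lit 426) (nat_lit 266) (nat_lit 208)) (XT.nd (nat_lit 78) (nat_lit 0) (nat_lit 0) (XT.lf (nat_lit 0) (nat_lit 334201073001) (nat_lit 76) (nat_lit 55829183641) (nat_lit 76) (nat_lit 52524093852) (nat_lit 2) (nat_lit 4) (nat_lit 3) (nat_lit 5) (nat_lit 3) (nat_lit 4) (nat_lit 427) (nat_lit 266) (nat_lit 207)) (XT.lf (nat_lit 0) (nat_lit 356468854181) (nat_lit 76) (nat_lit 55693584104) (nat_lit 76) (nat_lit 52379120400) (nat_lit 2) (nat_lit 4) (nat_lit 3) (nat_lit 5) (nat_lit 3) (nat_lit 4) (nat_lit 428) (nat_lit 266) (nat_lit 206))))) (XT.nd (nat_lit 234) (nat_lit 0) (nat_lit 0) (XT.nd (nat_lit 78) (nat_lit 0) (nat_lit 0) (XT.lf (nat_lit 0) (nat_lit 379823851656) (nat_lit 76) (nat_lit 55564164282) (nat_lit 76) (nat_lit 52240773040) (nat_lit 2) (nat_lit 4) (nat_lit 3)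 (nat_lit 5) (nat_lit 3) (nat_lit 4) (nat_lit 429) (nat_lit 266) (nat_lit 205)) (XT.nd (nat_lit 78) (nat_lit 0) (nat_lit 0) (XT.lf (nat_lit 0) (nat_lit 404321672564) (nat_lit 76) (nat_lit 55440616033) (nat_lit 76) (nat_lit 52108722375) (nat_lit 2) (nat_lit 4) (nat_lit 3) (nat_lit 5) (nat_lit 3) (nat_lit 4) (nat_lit 430) (nat_lit 266) (nat_lit 204)) (XT.lf (nat_lit 0) (nat_lit 430020645051) (nat_lit 76) (nat_lit 55322645195) (nat_lit 76) (nat_lit 51982653996) (nat_lit 2) (nat_lit 4) (nat_lit 3) (nat_lit 5) (nat_lit 3) (nat_lit 4) (nat_lit 431) (nat_lit 266) (nat_lit 203)))) (XT.nd (nat_lit 156) (nat_lit 0) (nat_lit 0) (XT.nd (nat_lit 78) (nat_lit 0) (nat_lit 0) (XT.lf (nat_lit 0) (nat_lit 456981957145) (nat_lit 76) (nat_lit 55209970885) (nat_lit 76) (nat_lit 51862267743) (nat_lit 2) (nat_lit 4) (nat_lit 3) (nat_lit 5) (nat_lit 3) (nat_lit 4) (nat_lit 432) (nat_lit 266) (nat_lit 202)) (XT.lf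 (nat_lit 0) (nat_lit 485269802446) (nat_lit 76) (nat_lit 55102324830) (nat_lit 76) (nat_lit 51747276980) (nat_lit 2) (nat_lit 4) (nat_lit 3) (nat_lit 5) (nat_lit 3) (nat_lit 4) (nat_lit 433) (nat_lit 266) (nat_lit 201))) (XT.nd (nat_lit 78) (nat_lit 0) (nat_lit 0) (XT.lf (nat_lit 0) (nat_lit 514951532969) (nat_lit 76) (nat_lit 54999450730) (nat_lit 76) (nat_lit 51637407921) (nat_lit 2) (nat_lit 4) (nat_lit 3) (nat_lit 5) (nat_lit 3) (nat_lit 4) (nat_lit 434) (nat_lit 266) (nat_lit 200)) (XT.lf (nat_lit 0) (nat_lit 546097819498) (nat_lit 76) (nat_lit 54901103648) (nat_lit 76) (nat_lit 51532398972) (nat_lit 2) (nat_lit 4) (nat_lit 3) (nat_lit 5) (nat_lit 3) (nat_lit 4) (nat_lit 435) (nat_lit 266) (nat_lit 199))))))))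
noncomputable def xc29 : XT := (XT.nd (nat_lit 42900) (nat_lit 0) (nat_lit 0) (XT.nd (nat_lit 41886) (nat_lit 0) (nat_lit 228) (XT.nd (nat_lit 41418) (nat_lit 0) (nat_lit 532) (XT.nd (nat_lit 234) (nat_lit 0) (nat_lit 0) (XT.nd (nat_lit 78) (nat_lit 0) (nat_lit 0) (XT.lf (nat_lit 0) (nat_lit 578782819860) (nat_lit 76) (nat_lit 54807049422) (nat_lit 76) (nat_lit 51432000112) (nat_lit 2) (nat_lit 4) (nat_lit 3) (nat_lit 5) (nat_lit 3) (nat_lit 4) (nat_lit 436) (nat_lit 266) (nat_lit 198)) (XT.nd (nat_lit 78) (nat_lit 0) (nat_lit 0) (XT.lf (nat_lit 0) (nat_lit 613084355485) (nat_lit 76) (nat_lit 54717064115) (nat_lit 76) (nat_lit 51335972296) (nat_lit 2) (nat_lit 4) (nat_lit 3) (nat_lit 5) (nat_lit 3) (nat_lit 4) (nat_lit 437) (nat_lit 266) (nat_lit 197)) (XT.lf (nat_lit 0) (nat_lit 649084096694) (nat_lit 76) (nat_lit 54630933477) (nat_lit 76) (nat_lit 51244086887) (nat_lit 2) (nat_lit 4)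 (nat_lit 3) (nat_lit 5) (nat_lit 3) (nat_lit 4) (nat_lit 438) (nat_lit 266) (nat_lit 196)))) (XT.nd (nat_lit 78) (nat_lit 0) (nat_lit 0) (XT.lf (nat_lit 0) (nat_lit 686867757157) (nat_lit 76) (nat_lit 54548452433) (nat_lit 76) (nat_lit 51156125109) (nat_lit 2) (nat_lit 4) (nat_lit 3) (nat_lit 5) (nat_lit 3) (nat_lit 4) (nat_lit 439) (nat_lit 266) (nat_lit 195)) (XT.nd (nat_lit 78) (nat_lit 0) (nat_lit 0) (XT.lf (nat_lit 0) (nat_lit 726525297971) (nat_lit 76) (nat_lit 54469424601) (nat_lit 76) (nat_lit 51071877530) (nat_lit 2) (nat_lit 4) (nat_lit 3) (nat_lit 5) (nat_lit 3) (nat_lit 4) (nat_lit 440) (nat_lit 266) (nat_lit 194)) (XT.lf (nat_lit 0) (nat_lit 768151141852) (nat_lit 76) (nat_lit 54393661818) (nat_lit 76) (nat_lit 50991143561) (nat_lit 2) (nat_lit 4) (nat_lit 3) (nat_lit 5) (nat_lit 3) (nat_lit 4) (nat_lit 441) (nat_lit 266) (nat_lit 193))))) (XT.nd (nat_lit 234) (nat_lit 152)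 (nat_lit 0) (XT.nd (nat_lit 78) (nat_lit 76) (nat_lit 0) (XT.lf (nat_lit 0) (nat_lit 4841783812) (nat_lit 152) (nat_lit 3816251494) (nat_lit 0) (nat_lit 4841783812) (nat_lit 12) (nat_lit 5) (nat_lit 14) (nat_lit 4) (nat_lit 12) (nat_lit 4) (nat_lit 366) (nat_lit 267) (nat_lit 267)) (XT.nd (nat_lit 78) (nat_lit 0) (nat_lit 0) (XT.lf (nat_lit 0) (nat_lit 3226883442) (nat_lit 76) (nat_lit 12517619635) (nat_lit 76) (nat_lit 12314922855) (nat_lit 11) (nat_lit 4) (nat_lit 12) (nat_lit 5) (nat_lit 12) (nat_lit 4) (nat_lit 367) (nat_lit 267) (nat_lit 266)) (XT.lf (nat_lit 0) (nat_lit 14531898510) (nat_lit 76) (nat_lit 7519462284) (nat_lit 76) (nat_lit 7123720951) (nat_lit 11) (nat_lit 4) (nat_lit 12) (nat_lit 5) (nat_lit 12) (nat_lit 4) (nat_lit 368) (nat_lit 267) (nat_lit 265)))) (XT.nd (nat_lit 78) (nat_lit 152) (nat_lit 0) (XT.lf (nat_lit 0) (nat_lit 26057093898) (nat_lit 76) (nat_lit 2438958317)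 (nat_lit 76) (nat_lit 1859365028) (nat_lit 11) (nat_lit 4) (nat_lit 12) (nat_lit 5) (nat_lit 12) (nat_lit 4) (nat_lit 369) (nat_lit 267) (nat_lit 264)) (XT.nd (nat_lit 78) (nat_lit 0) (nat_lit 0) (XT.lf (nat_lit 0) (nat_lit 3523748534) (nat_lit 152) (nat_lit 25264533821) (nat_lit 0) (nat_lit 2804995783) (nat_lit 9) (nat_lit 5) (nat_lit 11) (nat_lit 4) (nat_lit 9) (nat_lit 4) (nat_lit 370) (nat_lit 267) (nat_lit 263)) (XT.lf (nat_lit 0) (nat_lit 9056200909) (nat_lit 152) (nat_lit 15659562190) (nat_lit 0) (nat_lit 8178629927) (nat_lit 9) (nat_lit 5) (nat_lit 11) (nat_lit 4) (nat_lit 9) (nat_lit 4) (nat_lit 371) (nat_lit 267) (nat_lit 262)))))) (XT.nd (nat_lit 468) (nat_lit 76) (nat_lit 0) (XT.nd (nat_lit 234) (nat_lit 152) (nat_lit 0) (XT.nd (nat_lit 78) (nat_lit 76) (nat_lit 0) (XT.lf (nat_lit 0) (nat_lit 14702132604) (nat_lit 152) (nat_lit 5893299693) (nat_lit 0) (nat_lit 13673306163) (nat_lit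 9) (nat_lit 5) (nat_lit 11) (nat_lit 4) (nat_lit 9) (nat_lit 4) (nat_lit 372) (nat_lit 267) (nat_lit 261)) (XT.nd (nat_lit 78) (nat_lit 0) (nat_lit 0) (XT.lf (nat_lit 0) (nat_lit 4191666169) (nat_lit 76) (nat_lit 16348763798) (nat_lit 76) (nat_lit 15175884539) (nat_lit 8) (nat_lit 4) (nat_lit 9) (nat_lit 5) (nat_lit 9) (nat_lit 4) (nat_lit 373) (nat_lit 267) (nat_lit 260)) (XT.lf (nat_lit 0) (nat_lit 14686612635) (nat_lit 76) (nat_lit 11931193471) (nat_lit 76) (nat_lit 10621121052) (nat_lit 8) (nat_lit 4) (nat_lit 9) (nat_lit 5) (nat_lit 9) (nat_lit 4) (nat_lit 374) (nat_lit 267) (nat_lit 259)))) (XT.nd (nat_lit 78) (nat_lit 152) (nat_lit 0) (XT.lf (nat_lit 0) (nat_lit 25421668567) (nat_lit 76) (nat_lit 7432009172) (nat_lit 76) (nat_lit 5991276602) (nat_lit 8) (nat_lit 4) (nat_lit 9) (nat_lit 5) (nat_lit 9) (nat_lit 4) (nat_lit 375) (nat_lit 267) (nat_lit 258)) (XT.nd (nat_lit 78) (nat_lit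 152) (nat_lit 0) (XT.lf (nat_lit 0) (nat_lit 36422393623) (nat_lit 76) (nat_lit 2840498559) (nat_lit 76) (nat_lit 1275327749) (nat_lit 8) (nat_lit 4) (nat_lit 9) (nat_lit 5) (nat_lit 9) (nat_lit 4) (nat_lit 376) (nat_lit 267) (nat_lit 257)) (XT.lf (nat_lit 0) (nat_lit 3542064816) (nat_lit 152) (nat_lit 36833504658) (nat_lit 0) (nat_lit 1938556797) (nat_lit 6) (nat_lit 5) (nat_lit 8) (nat_lit 4) (nat_lit 6) (nat_lit 4) (nat_lit 377) (nat_lit 267) (nat_lit 256))))) (XT.nd (nat_lit 234) (nat_lit 76) (nat_lit 0) (XT.nd (nat_lit 78) (nat_lit 0) (nat_lit 0) (XT.lf (nat_lit 0) (nat_lit 8541216800) (nat_lit 152) (nat_lit 28807176502) (nat_lit 0) (nat_lit 6830214350) (nat_lit 6) (nat_lit 5) (nat_lit 8) (nat_lit 4) (nat_lit 6) (nat_lit 4) (nat_lit 378) (nat_lit 267) (nat_lit 255)) (XT.nd (nat_lit 78) (nat_lit 0) (nat_lit 0) (XT.lf (nat_lit 0) (nat_lit 13663028692) (nat_lit 152) (nat_lit 20630010638)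 (nat_lit 0) (nat_lit 11849650594) (nat_lit 6) (nat_lit 5) (nat_lit 8) (nat_lit 4) (nat_lit 6) (nat_lit 4) (nat_lit 379) (nat_lit 267) (nat_lit 254)) (XT.lf (nat_lit 0) (nat_lit 18919695282) (nat_lit 152) (nat_lit 12282537623) (nat_lit 0) (nat_lit 17008816567) (nat_lit 6) (nat_lit 5) (nat_lit 8) (nat_lit 4) (nat_lit 6) (nat_lit 4) (nat_lit 380) (nat_lit 267) (nat_lit 253)))) (XT.nd (nat_lit 156) (nat_lit 0) (nat_lit 0) (XT.nd (nat_lit 78) (nat_lit 76) (nat_lit 0) (XT.lf (nat_lit 0) (nat_lit 24323732443) (nat_lit 152) (nat_lit 3744882522) (nat_lit 0) (nat_lit 22319995997) (nat_lit 6) (nat_lit 5) (nat_lit 8) (nat_lit 4) (nat_lit 6) (nat_lit 4) (nat_lit 381) (nat_lit 267) (nat_lit 252)) (XT.lf (nat_lit 0) (nat_lit 5168713526) (nat_lit 76) (nat_lit 24799991507) (nat_lit 76) (nat_lit 22707819127) (nat_lit 5) (nat_lit 4) (nat_lit 6) (nat_lit 5) (nat_lit 6) (nat_lit 4) (nat_lit 382) (nat_lit 267)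 (nat_lit 251))) (XT.nd (nat_lit 78) (nat_lit 0) (nat_lit 0) (XT.lf (nat_lit 0) (nat_lit 14445120210) (nat_lit 76) (nat_lit 21406175614) (nat_lit 76) (nat_lit 19229778536) (nat_lit 5) (nat_lit 4) (nat_lit 6) (nat_lit 5) (nat_lit 6) (nat_lit 4) (nat_lit 383) (nat_lit 267) (nat_lit 250)) (XT.lf (nat_lit 0) (nat_lit 23982601482) (nat_lit 76) (nat_lit 17942508171) (nat_lit 76) (nat_lit 15685897094) (nat_lit 5) (nat_lit 4) (nat_lit 6) (nat_lit 5) (nat_lit 6) (nat_lit 4) (nat_lit 384) (nat_lit 267) (nat_lit 249))))))) (XT.nd (nat_lit 936) (nat_lit 76) (nat_lit 0) (XT.nd (nat_lit 468) (nat_lit 0) (nat_lit 0) (XT.nd (nat_lit 234) (nat_lit 152) (nat_lit 0) (XT.nd (nat_lit 78) (nat_lit 0) (nat_lit 0) (XT.lf (nat_lit 0) (nat_lit 33803865632) (nat_lit 76) (nat_lit 14400742350) (nat_lit 76) (nat_lit 12067736988) (nat_lit 5) (nat_lit 4) (nat_lit 6) (nat_lit 5) (nat_lit 6) (nat_lit 4) (nat_lit 385) (nat_lit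 267) (nat_lit 248)) (XT.nd (nat_lit 78) (nat_lit 0) (nat_lit 0) (XT.lf (nat_lit 0) (nat_lit 43932296621) (nat_lit 76) (nat_lit 10772445376) (nat_lit 76) (nat_lit 8366683553) (nat_lit 5) (nat_lit 4) (nat_lit 6) (nat_lit 5) (nat_lit 6) (nat_lit 4) (nat_lit 386) (nat_lit 267) (nat_lit 247)) (XT.lf (nat_lit 0) (nat_lit 54392009762) (nat_lit 76) (nat_lit 7048978447) (nat_lit 76) (nat_lit 4573924755) (nat_lit 5) (nat_lit 4) (nat_lit 6) (nat_lit 5) (nat_lit 6) (nat_lit 4) (nat_lit 387) (nat_lit 267) (nat_lit 246)))) (XT.nd (nat_lit 78) (nat_lit 152) (nat_lit 0) (XT.lf (nat_lit 0) (nat_lit 65207909134) (nat_lit 76) (nat_lit 3221476164) (nat_lit 76) (nat_lit 680430216) (nat_lit 5) (nat_lit 4) (nat_lit 6) (nat_lit 5) (nat_lit 6) (nat_lit 4) (nat_lit 388) (nat_lit 267) (nat_lit 245)) (XT.nd (nat_lit 78) (nat_lit 0) (nat_lit 0) (XT.lf (nat_lit 0) (nat_lit 3294205924) (nat_lit 152) (nat_lit 68248521995)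 (nat_lit 0) (nat_lit 814305243) (nat_lit 3) (nat_lit 5) (nat_lit 5) (nat_lit 4) (nat_lit 3) (nat_lit 4) (nat_lit 389) (nat_lit 267) (nat_lit 244)) (XT.lf (nat_lit 0) (nat_lit 7482919539) (nat_lit 152) (nat_lit 63335218176) (nat_lit 0) (nat_lit 4946012267) (nat_lit 3) (nat_lit 5) (nat_lit 5) (nat_lit 4) (nat_lit 3) (nat_lit 4) (nat_lit 390) (nat_lit 267) (nat_lit 243))))) (XT.nd (nat_lit 234) (nat_lit 0) (nat_lit 0) (XT.nd (nat_lit 78) (nat_lit 0) (nat_lit 0) (XT.lf (nat_lit 0) (nat_lit 11803199822) (nat_lit 152) (nat_lit 58330322043) (nat_lit 0) (nat_lit 9212000558) (nat_lit 3) (nat_lit 5) (nat_lit 5) (nat_lit 4) (nat_lit 3) (nat_lit 4) (nat_lit 391) (nat_lit 267) (nat_lit 242)) (XT.nd (nat_lit 78) (nat_lit 0) (nat_lit 0) (XT.lf (nat_lit 0) (nat_lit 16265333155) (nat_lit 152) (nat_lit 53221917176) (nat_lit 0) (nat_lit 13622427231) (nat_lit 3) (nat_lit 5) (nat_lit 5) (nat_lit 4) (nat_lit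 3) (nat_lit 4) (nat_lit 392) (nat_lit 267) (nat_lit 241)) (XT.lf (nat_lit 0) (nat_lit 20879943664) (nat_lit 152) (nat_lit 47997840708) (nat_lit 0) (nat_lit 18187793304) (nat_lit 3) (nat_lit 5) (nat_lit 5) (nat_lit 4) (nat_lit 3) (nat_lit 4) (nat_lit 393) (nat_lit 267) (nat_lit 240)))) (XT.nd (nat_lit 78) (nat_lit 0) (nat_lit 0) (XT.lf (nat_lit 0) (nat_lit 25658018518) (nat_lit 152) (nat_lit 42645654360) (nat_lit 0) (nat_lit 22918968694) (nat_lit 3) (nat_lit 5) (nat_lit 5) (nat_lit 4) (nat_lit 3) (nat_lit 4) (nat_lit 394) (nat_lit 267) (nat_lit 239)) (XT.nd (nat_lit 78) (nat_lit 0) (nat_lit 0) (XT.lf (nat_lit 0) (nat_lit 30610934085) (nat_lit 152) (nat_lit 37152614833) (nat_lit 0) (nat_lit 27827218105) (nat_lit 3) (nat_lit 5) (nat_lit 5) (nat_lit 4) (nat_lit 3) (nat_lit 4) (nat_lit 395) (nat_lit 267) (nat_lit 238)) (XT.lf (nat_lit 0) (nat_lit 35750483022) (nat_lit 152) (nat_lit 31505643460)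 (nat_lit 0) (nat_lit 32924227845) (nat_lit 3) (nat_lit 5) (nat_lit 5) (nat_lit 4) (nat_lit 3) (nat_lit 4) (nat_lit 396) (nat_lit 267) (nat_lit 237)))))) (XT.nd (nat_lit 468) (nat_lit 0) (nat_lit 0) (XT.nd (nat_lit 234) (nat_lit 76) (nat_lit 0) (XT.nd (nat_lit 78) (nat_lit 0) (nat_lit 0) (XT.lf (nat_lit 0) (nat_lit 41088902349) (nat_lit 152) (nat_lit 25691295071) (nat_lit 0) (nat_lit 38222133652) (nat_lit 3) (nat_lit 5) (nat_lit 5) (nat_lit 4) (nat_lit 3) (nat_lit 4) (nat_lit 397) (nat_lit 267) (nat_lit 236)) (XT.nd (nat_lit 78) (nat_lit 0) (nat_lit 0) (XT.lf (nat_lit 0) (nat_lit 46638902589) (nat_lit 152) (nat_lit 19695725980) (nat_lit 0) (nat_lit 43733549587) (nat_lit 3) (nat_lit 5) (nat_lit 5) (nat_lit 4) (nat_lit 3) (nat_lit 4) (nat_lit 398) (nat_lit 267) (nat_lit 235)) (XT.lf (nat_lit 0) (nat_lit 52413698029) (nat_lit 152) (nat_lit 13504661022) (nat_lit 0) (nat_lit 49471598069) (nat_lit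 3) (nat_lit 5) (nat_lit 5) (nat_lit 4) (nat_lit 3) (nat_lit 4) (nat_lit 399) (nat_lit 267) (nat_lit 234)))) (XT.nd (nat_lit 78) (nat_lit 76) (nat_lit 0) (XT.lf (nat_lit 0) (nat_lit 58427038180) (nat_lit 152) (nat_lit 7103359567) (nat_lit 0) (nat_lit 55449941119) (nat_lit 3) (nat_lit 5) (nat_lit 5) (nat_lit 4) (nat_lit 3) (nat_lit 4) (nat_lit 400) (nat_lit 267) (nat_lit 233)) (XT.nd (nat_lit 78) (nat_lit 76) (nat_lit 0) (XT.lf (nat_lit 0) (nat_lit 64693240520) (nat_lit 152) (nat_lit 476580420) (nat_lit 0) (nat_lit 61682812885) (nat_lit 3) (nat_lit 5) (nat_lit 5) (nat_lit 4) (nat_lit 3) (nat_lit 4) (nat_lit 401) (nat_lit 267) (nat_lit 232)) (XT.lf (nat_lit 0) (nat_lit 6602784812) (nat_lit 76) (nat_lit 64727527741) (nat_lit 76) (nat_lit 61685356703) (nat_lit 2) (nat_lit 4) (nat_lit 3) (nat_lit 5) (nat_lit 3) (nat_lit 4) (nat_lit 402) (nat_lit 267) (nat_lit 231))))) (XT.nd (nat_lit 234) (nat_lit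 0) (nat_lit 0) (XT.nd (nat_lit 78) (nat_lit 0) (nat_lit 0) (XT.lf (nat_lit 0) (nat_lit 13964033838) (nat_lit 76) (nat_lit 64298531323) (nat_lit 76) (nat_lit 61226128473) (nat_lit 2) (nat_lit 4) (nat_lit 3) (nat_lit 5) (nat_lit 3) (nat_lit 4) (nat_lit 403) (nat_lit 267) (nat_lit 230)) (XT.nd (nat_lit 78) (nat_lit 0) (nat_lit 0) (XT.lf (nat_lit 0) (nat_lit 21608935538) (nat_lit 76) (nat_lit 63889881388) (nat_lit 76) (nat_lit 60788686335) (nat_lit 2) (nat_lit 4) (nat_lit 3) (nat_lit 5) (nat_lit 3) (nat_lit 4) (nat_lit 404) (nat_lit 267) (nat_lit 229)) (XT.lf (nat_lit 0) (nat_lit 29555692061) (nat_lit 76) (nat_lit 63500604959) (nat_lit 76) (nat_lit 60371988761) (nat_lit 2) (nat_lit 4) (nat_lit 3) (nat_lit 5) (nat_lit 3) (nat_lit 4) (nat_lit 405) (nat_lit 267) (nat_lit 228)))) (XT.nd (nat_lit 156) (nat_lit 0) (nat_lit 0) (XT.nd (nat_lit 78) (nat_lit 0) (nat_lit 0) (XT.lf (nat_lit 0) (nat_lit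 37823224254) (nat_lit 76) (nat_lit 63129775188) (nat_lit 76) (nat_lit 59975043613) (nat_lit 2) (nat_lit 4) (nat_lit 3) (nat_lit 5) (nat_lit 3) (nat_lit 4) (nat_lit 406) (nat_lit 267) (nat_lit 227)) (XT.lf (nat_lit 0) (nat_lit 46431216719) (nat_lit 76) (nat_lit 62776509146) (nat_lit 76) (nat_lit 59596905784) (nat_lit 2) (nat_lit 4) (nat_lit 3) (nat_lit 5) (nat_lit 3) (nat_lit 4) (nat_lit 407) (nat_lit 267) (nat_lit 226))) (XT.nd (nat_lit 78) (nat_lit 0) (nat_lit 0) (XT.lf (nat_lit 0) (nat_lit 55400164675) (nat_lit 76) (nat_lit 62439965724) (nat_lit 76) (nat_lit 59236674946) (nat_lit 2) (nat_lit 4) (nat_lit 3) (nat_lit 5) (nat_lit 3) (nat_lit 4) (nat_lit 408) (nat_lit 267) (nat_lit 225)) (XT.lf (nat_lit 0) (nat_lit 64751422760) (nat_lit 76) (nat_lit 62119343629) (nat_lit 76) (nat_lit 58893493407) (nat_lit 2) (nat_lit 4) (nat_lit 3) (nat_lit 5) (nat_lit 3) (nat_lit 4) (nat_lit 409) (nat_lit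 267) (nat_lit 224))))))))
noncomputable def xc30 : XT := (XT.nd (nat_lit 1872) (nat_lit 0) (nat_lit 0) (XT.nd (nat_lit 936) (nat_lit 0) (nat_lit 0) (XT.nd (nat_lit 468) (nat_lit 0) (nat_lit 0) (XT.nd (nat_lit 234) (nat_lit 0) (nat_lit 0) (XT.nd (nat_lit 78) (nat_lit 0) (nat_lit 0) (XT.lf (nat_lit 0) (nat_lit 74507255875) (nat_lit 76) (nat_lit 61813879473) (nat_lit 76) (nat_lit 58566544066) (nat_lit 2) (nat_lit 4) (nat_lit 3) (nat_lit 5) (nat_lit 3) (nat_lit 4) (nat_lit 410) (nat_lit 267) (nat_lit 223)) (XT.nd (nat_lit 78) (nat_lit 0) (nat_lit 0) (XT.lf (nat_lit 0) (nat_lit 84690892193) (nat_lit 76) (nat_lit 61522845962) (nat_lit 76) (nat_lit 58255048474) (nat_lit 2) (nat_lit 4) (nat_lit 3) (nat_lit 5) (nat_lit 3) (nat_lit 4) (nat_lit 411) (nat_lit 267) (nat_lit 222)) (XT.lf (nat_lit 0) (nat_lit 95326578469) (nat_lit 76) (nat_lit 61245550158) (nat_lit 76) (nat_lit 57958264975) (nat_lit 2)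 (nat_lit 4) (nat_lit 3) (nat_lit 5) (nat_lit 3) (nat_lit 4) (nat_lit 412) (nat_lit 267) (nat_lit 221)))) (XT.nd (nat_lit 78) (nat_lit 0) (nat_lit 0) (XT.lf (nat_lit 0) (nat_lit 106439637763) (nat_lit 76) (nat_lit 60981331834) (nat_lit 76) (nat_lit 57675486941) (nat_lit 2) (nat_lit 4) (nat_lit 3) (nat_lit 5) (nat_lit 3) (nat_lit 4) (nat_lit 413) (nat_lit 267) (nat_lit 220)) (XT.nd (nat_lit 78) (nat_lit 0) (nat_lit 0) (XT.lf (nat_lit 0) (nat_lit 118056529742) (nat_lit 76) (nat_lit 60729561899) (nat_lit 76) (nat_lit 57406041090) (nat_lit 2) (nat_lit 4) (nat_lit 3) (nat_lit 5) (nat_lit 3) (nat_lit 4) (nat_lit 414) (nat_lit 267) (nat_lit 219)) (XT.lf (nat_lit 0) (nat_lit 130204913672) (nat_lit 76) (nat_lit 60489640899) (nat_lit 76) (nat_lit 57149285886) (nat_lit 2) (nat_lit 4) (nat_lit 3) (nat_lit 5) (nat_lit 3) (nat_lit 4) (nat_lit 415) (nat_lit 267) (nat_lit 218))))) (XT.nd (nat_lit 234) (nat_lit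 0) (nat_lit 0) (XT.nd (nat_lit 78) (nat_lit 0) (nat_lit 0) (XT.lf (nat_lit 0) (nat_lit 142913714277) (nat_lit 76) (nat_lit 60260997595) (nat_lit 76) (nat_lit 56904610006) (nat_lit 2) (nat_lit 4) (nat_lit 3) (nat_lit 5) (nat_lit 3) (nat_lit 4) (nat_lit 416) (nat_lit 267) (nat_lit 217)) (XT.nd (nat_lit 78) (nat_lit 0) (nat_lit 0) (XT.lf (nat_lit 0) (nat_lit 156213190605) (nat_lit 76) (nat_lit 60043087598) (nat_lit 76) (nat_lit 56671430889) (nat_lit 2) (nat_lit 4) (nat_lit 3) (nat_lit 5) (nat_lit 3) (nat_lit 4) (nat_lit 417) (nat_lit 267) (nat_lit 216)) (XT.lf (nat_lit 0) (nat_lit 170135008077) (nat_lit 76) (nat_lit 59835392074) (nat_lit 76) (nat_lit 56449193346) (nat_lit 2) (nat_lit 4) (nat_lit 3) (nat_lit 5) (nat_lit 3) (nat_lit 4) (nat_lit 418) (nat_lit 267) (nat_lit 215)))) (XT.nd (nat_lit 78) (nat_lit 0) (nat_lit 0) (XT.lf (nat_lit 0) (nat_lit 184712313877) (nat_lit 76) (nat_lit 59637416510)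 (nat_lit 76) (nat_lit 56237368241) (nat_lit 2) (nat_lit 4) (nat_lit 3) (nat_lit 5) (nat_lit 3) (nat_lit 4) (nat_lit 419) (nat_lit 267) (nat_lit 214)) (XT.nd (nat_lit 78) (nat_lit 0) (nat_lit 0) (XT.lf (nat_lit 0) (nat_lit 199979815875) (nat_lit 76) (nat_lit 59448689536) (nat_lit 76) (nat_lit 56035451227) (nat_lit 2) (nat_lit 4) (nat_lit 3) (nat_lit 5) (nat_lit 3) (nat_lit 4) (nat_lit 420) (nat_lit 267) (nat_lit 213)) (XT.lf (nat_lit 0) (nat_lit 215973865268) (nat_lit 76) (nat_lit 59268761802) (nat_lit 76) (nat_lit 55842961551) (nat_lit 2) (nat_lit 4) (nat_lit 3) (nat_lit 5) (nat_lit 3) (nat_lit 4) (nat_lit 421) (nat_lit 267) (nat_lit 212)))))) (XT.nd (nat_lit 468) (nat_lit 0) (nat_lit 0) (XT.nd (nat_lit 234) (nat_lit 0) (nat_lit 0) (XT.nd (nat_lit 78) (nat_lit 0) (nat_lit 0) (XT.lf (nat_lit 0) (nat_lit 232732543125) (nat_lit 76) (nat_lit 59097204909) (nat_lit 76) (nat_lit 55659440903) (nat_lit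 2) (nat_lit 4) (nat_lit 3) (nat_lit 5) (nat_lit 3) (nat_lit 4) (nat_lit 422) (nat_lit 267) (nat_lit 211)) (XT.nd (nat_lit 78) (nat_lit 0) (nat_lit 0) (XT.lf (nat_lit 0) (nat_lit 250295751060) (nat_lit 76) (nat_lit 58933610387) (nat_lit 76) (nat_lit 55484452329) (nat_lit 2) (nat_lit 4) (nat_lit 3) (nat_lit 5) (nat_lit 3) (nat_lit 4) (nat_lit 423) (nat_lit 267) (nat_lit 210)) (XT.lf (nat_lit 0) (nat_lit 268705306234) (nat_lit 76) (nat_lit 58777588726) (nat_lit 76) (nat_lit 55317579190) (nat_lit 2) (nat_lit 4) (nat_lit 3) (nat_lit 5) (nat_lit 3) (nat_lit 4) (nat_lit 424) (nat_lit 267) (nat_lit 209)))) (XT.nd (nat_lit 78) (nat_lit 0) (nat_lit 0) (XT.lf (nat_lit 0) (nat_lit 288005040923) (nat_lit 76) (nat_lit 58628768447) (nat_lit 76) (nat_lit 55158424169) (nat_lit 2) (nat_lit 4) (nat_lit 3) (nat_lit 5) (nat_lit 3) (nat_lit 4) (nat_lit 425) (nat_lit 267) (nat_lit 208)) (XT.nd (nat_lit 78) (nat_lit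 0) (nat_lit 0) (XT.lf (nat_lit 0) (nat_lit 308240906875) (nat_lit 76) (nat_lit 58486795214) (nat_lit 76) (nat_lit 55006608325) (nat_lit 2) (nat_lit 4) (nat_lit 3) (nat_lit 5) (nat_lit 3) (nat_lit 4) (nat_lit 426) (nat_lit 267) (nat_lit 207)) (XT.lf (nat_lit 0) (nat_lit 329461084724) (nat_lit 76) (nat_lit 58351330996) (nat_lit 76) (nat_lit 54861770192) (nat_lit 2) (nat_lit 4) (nat_lit 3) (nat_lit 5) (nat_lit 3) (nat_lit 4) (nat_lit 427) (nat_lit 267) (nat_lit 206))))) (XT.nd (nat_lit 234) (nat_lit 0) (nat_lit 0) (XT.nd (nat_lit 78) (nat_lit 0) (nat_lit 0) (XT.lf (nat_lit 0) (nat_lit 351716098702) (nat_lit 76) (nat_lit 58222053260) (nat_lit 76) (nat_lit 54723564918) (nat_lit 2) (nat_lit 4) (nat_lit 3) (nat_lit 5) (nat_lit 3) (nat_lit 4) (nat_lit 428) (nat_lit 267) (nat_lit 205)) (XT.nd (nat_lit 78) (nat_lit 0) (nat_lit 0) (XT.lf (nat_lit 0) (nat_lit 375058936938) (nat_lit 76) (nat_lit 58098654201)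 (nat_lit 76) (nat_lit 54591663442) (nat_lit 2) (nat_lit 4) (nat_lit 3) (nat_lit 5) (nat_lit 3) (nat_lit 4) (nat_lit 429) (nat_lit 267) (nat_lit 204)) (XT.lf (nat_lit 0) (nat_lit 399545177618) (nat_lit 76) (nat_lit 57980840013) (nat_lit 76) (nat_lit 54465751714) (nat_lit 2) (nat_lit 4) (nat_lit 3) (nat_lit 5) (nat_lit 3) (nat_lit 4) (nat_lit 430) (nat_lit 267) (nat_lit 203)))) (XT.nd (nat_lit 78) (nat_lit 0) (nat_lit 0) (XT.lf (nat_lit 0) (nat_lit 425233121316) (nat_lit 76) (nat_lit 57868330184) (nat_lit 76) (nat_lit 54345529942) (nat_lit 2) (nat_lit 4) (nat_lit 3) (nat_lit 5) (nat_lit 3) (nat_lit 4) (nat_lit 431) (nat_lit 267) (nat_lit 202)) (XT.nd (nat_lit 78) (nat_lit 0) (nat_lit 0) (XT.lf (nat_lit 0) (nat_lit 452183929801) (nat_lit 76) (nat_lit 57760856835) (nat_lit 76) (nat_lit 54230711885) (nat_lit 2) (nat_lit 4) (nat_lit 3) (nat_lit 5) (nat_lit 3) (nat_lit 4) (nat_lit 432) (nat_lit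 267) (nat_lit 201)) (XT.lf (nat_lit 0) (nat_lit 480461771667) (nat_lit 76) (nat_lit 57658164077) (nat_lit 76) (nat_lit 54121024167) (nat_lit 2) (nat_lit 4) (nat_lit 3) (nat_lit 5) (nat_lit 3) (nat_lit 4) (nat_lit 433) (nat_lit 267) (nat_lit 200))))))) (XT.nd (nat_lit 41730) (nat_lit 0) (nat_lit 304) (XT.nd (nat_lit 468) (nat_lit 0) (nat_lit 0) (XT.nd (nat_lit 234) (nat_lit 0) (nat_lit 0) (XT.nd (nat_lit 78) (nat_lit 0) (nat_lit 0) (XT.lf (nat_lit 0) (nat_lit 510133975107) (nat_lit 76) (nat_lit 57560007402) (nat_lit 76) (nat_lit 54016205627) (nat_lit 2) (nat_lit 4) (nat_lit 3) (nat_lit 5) (nat_lit 3) (nat_lit 4) (nat_lit 434) (nat_lit 267) (nat_lit 199)) (XT.nd (nat_lit 78) (nat_lit 0) (nat_lit 0) (XT.lf (nat_lit 0) (nat_lit 541271188225) (nat_lit 76) (nat_lit 57466153106) (nat_lit 76) (nat_lit 53916006695) (nat_lit 2) (nat_lit 4) (nat_lit 3) (nat_lit 5) (nat_lit 3) (nat_lit 4) (nat_lit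 435) (nat_lit 267) (nat_lit 198)) (XT.lf (nat_lit 0) (nat_lit 573947547242) (nat_lit 76) (nat_lit 57376377724) (nat_lit 76) (nat_lit 53820188805) (nat_lit 2) (nat_lit 4) (nat_lit 3) (nat_lit 5) (nat_lit 3) (nat_lit 4) (nat_lit 436) (nat_lit 267) (nat_lit 197)))) (XT.nd (nat_lit 78) (nat_lit 0) (nat_lit 0) (XT.lf (nat_lit 0) (nat_lit 608240853015) (nat_lit 76) (nat_lit 57290467507) (nat_lit 76) (nat_lit 53728523817) (nat_lit 2) (nat_lit 4) (nat_lit 3) (nat_lit 5) (nat_lit 3) (nat_lit 4) (nat_lit 437) (nat_lit 267) (nat_lit 196)) (XT.nd (nat_lit 78) (nat_lit 0) (nat_lit 0) (XT.lf (nat_lit 0) (nat_lit 644232756269) (nat_lit 76) (nat_lit 57208217906) (nat_lit 76) (nat_lit 53640793482) (nat_lit 2) (nat_lit 4) (nat_lit 3) (nat_lit 5) (nat_lit 3) (nat_lit 4) (nat_lit 438) (nat_lit 267) (nat_lit 195)) (XT.lf (nat_lit 0) (nat_lit 682008952014) (nat_lit 76) (nat_lit 57129433088) (nat_lit 76) (nat_lit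 53556788917) (nat_lit 2) (nat_lit 4) (nat_lit 3) (nat_lit 5) (nat_lit 3) (nat_lit 4) (nat_lit 439) (nat_lit 267) (nat_lit 194))))) (XT.nd (nat_lit 41028) (nat_lit 0) (nat_lit 684) (XT.nd (nat_lit 78) (nat_lit 0) (nat_lit 0) (XT.lf (nat_lit 0) (nat_lit 721659383573) (nat_lit 76) (nat_lit 57053925471) (nat_lit 76) (nat_lit 53476310113) (nat_lit 2) (nat_lit 4) (nat_lit 3) (nat_lit 5) (nat_lit 3) (nat_lit 4) (nat_lit 440) (nat_lit 267) (nat_lit 193)) (XT.nd (nat_lit 40872) (nat_lit 0) (nat_lit 912) (XT.lf (nat_lit 0) (nat_lit 763278456735) (nat_lit 76) (nat_lit 56981515275) (nat_lit 76) (nat_lit 53399165453) (nat_lit 2) (nat_lit 4) (nat_lit 3) (nat_lit 5) (nat_lit 3) (nat_lit 4) (nat_lit 441) (nat_lit 267) (nat_lit 192)) (XT.lf (nat_lit 0) (nat_lit 10823352043) (nat_lit 76) (nat_lit 848640979) (nat_lit 76) (nat_lit 848640979) (nat_lit 14) (nat_lit 4) (nat_lit 15) (nat_lit 5) (nat_lit 15) (nat_lit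 4) (nat_lit 364) (nat_lit 268) (nat_lit 268)))) (XT.nd (nat_lit 78) (nat_lit 76) (nat_lit 0) (XT.lf (nat_lit 0) (nat_lit 3991333631) (nat_lit 152) (nat_lit 18227140799) (nat_lit 0) (nat_lit 3778502011) (nat_lit 12) (nat_lit 5) (nat_lit 14) (nat_lit 4) (nat_lit 12) (nat_lit 4) (nat_lit 365) (nat_lit 268) (nat_lit 267)) (XT.nd (nat_lit 78) (nat_lit 76) (nat_lit 0) (XT.lf (nat_lit 0) (nat_lit 9803831373) (nat_lit 152) (nat_lit 7812143814) (nat_lit 0) (nat_lit 9388302973) (nat_lit 12) (nat_lit 5) (nat_lit 14) (nat_lit 4) (nat_lit 12) (nat_lit 4) (nat_lit 366) (nat_lit 268) (nat_lit 266)) (XT.lf (nat_lit 0) (nat_lit 2864559487) (nat_lit 76) (nat_lit 12906390569) (nat_lit 76) (nat_lit 12297817616) (nat_lit 11) (nat_lit 4) (nat_lit 12) (nat_lit 5) (nat_lit 12) (nat_lit 4) (nat_lit 367) (nat_lit 268) (nat_lit 265)))))) (XT.nd (nat_lit 468) (nat_lit 152) (nat_lit 0) (XT.nd (nat_lit 234) (nat_lit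 76) (nat_lit 0) (XT.nd (nat_lit 78) (nat_lit 152) (nat_lit 0) (XT.lf (nat_lit 0) (nat_lit 14001247515) (nat_lit 76) (nat_lit 7989970414) (nat_lit 76) (nat_lit 7197545506) (nat_lit 11) (nat_lit 4) (nat_lit 12) (nat_lit 5) (nat_lit 12) (nat_lit 4) (nat_lit 368) (nat_lit 268) (nat_lit 264)) (XT.nd (nat_lit 78) (nat_lit 152) (nat_lit 0) (XT.lf (nat_lit 0) (nat_lit 25366131436) (nat_lit 76) (nat_lit 2987311395) (nat_lit 76) (nat_lit 2019789387) (nat_lit 11) (nat_lit 4) (nat_lit 12) (nat_lit 5) (nat_lit 12) (nat_lit 4) (nat_lit 369) (nat_lit 268) (nat_lit 263)) (XT.lf (nat_lit 0) (nat_lit 3264716924) (nat_lit 152) (nat_lit 26167248386) (nat_lit 0) (nat_lit 2184449161) (nat_lit 9) (nat_lit 5) (nat_lit 11) (nat_lit 4) (nat_lit 9) (nat_lit 4) (nat_lit 370) (nat_lit 268) (nat_lit 262)))) (XT.nd (nat_lit 78) (nat_lit 76) (nat_lit 0) (XT.lf (nat_lit 0) (nat_lit 8717587202) (nat_lit 152) (nat_lit 16717865885)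 (nat_lit 0) (nat_lit 7486063980) (nat_lit 9) (nat_lit 5) (nat_lit 11) (nat_lit 4) (nat_lit 9) (nat_lit 4) (nat_lit 371) (nat_lit 268) (nat_lit 261)) (XT.nd (nat_lit 78) (nat_lit 76) (nat_lit 0) (XT.lf (nat_lit 0) (nat_lit 14287726423) (nat_lit 152) (nat_lit 7099783511) (nat_lit 0) (nat_lit 12912150383) (nat_lit 9) (nat_lit 5) (nat_lit 11) (nat_lit 4) (nat_lit 9) (nat_lit 4) (nat_lit 372) (nat_lit 268) (nat_lit 260)) (XT.lf (nat_lit 0) (nat_lit 2799500426) (nat_lit 76) (nat_lit 17232604443) (nat_lit 76) (nat_lit 15719835244) (nat_lit 8) (nat_lit 4) (nat_lit 9) (nat_lit 5) (nat_lit 9) (nat_lit 4) (nat_lit 373) (nat_lit 268) (nat_lit 259))))) (XT.nd (nat_lit 234) (nat_lit 152) (nat_lit 0) (XT.nd (nat_lit 78) (nat_lit 0) (nat_lit 0) (XT.lf (nat_lit 0) (nat_lit 13155599157) (nat_lit 76) (nat_lit 12882968040) (nat_lit 76) (nat_lit 11239538690) (nat_lit 8) (nat_lit 4) (nat_lit 9) (nat_lit 5) (nat_lit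 9) (nat_lit 4) (nat_lit 374) (nat_lit 268) (nat_lit 258)) (XT.nd (nat_lit 78) (nat_lit 0) (nat_lit 0) (XT.lf (nat_lit 0) (nat_lit 23758419151) (nat_lit 76) (nat_lit 8448482718) (nat_lit 76) (nat_lit 6680615127) (nat_lit 8) (nat_lit 4) (nat_lit 9) (nat_lit 5) (nat_lit 9) (nat_lit 4) (nat_lit 375) (nat_lit 268) (nat_lit 257)) (XT.lf (nat_lit 0) (nat_lit 34633205219) (nat_lit 76) (nat_lit 3918590177) (nat_lit 76) (nat_lit 2032209977) (nat_lit 8) (nat_lit 4) (nat_lit 9) (nat_lit 5) (nat_lit 9) (nat_lit 4) (nat_lit 376) (nat_lit 268) (nat_lit 256)))) (XT.nd (nat_lit 156) (nat_lit 0) (nat_lit 0) (XT.nd (nat_lit 78) (nat_lit 0) (nat_lit 0) (XT.lf (nat_lit 0) (nat_lit 2697292720) (nat_lit 152) (nat_lit 38875575983) (nat_lit 0) (nat_lit 793245717) (nat_lit 6) (nat_lit 5) (nat_lit 8) (nat_lit 4) (nat_lit 6) (nat_lit 4) (nat_lit 377) (nat_lit 268) (nat_lit 255)) (XT.lf (nat_lit 0) (nat_lit 7634348269)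 (nat_lit 152) (nat_lit 30971432558) (nat_lit 0) (nat_lit 5627925619) (nat_lit 6) (nat_lit 5) (nat_lit 8) (nat_lit 4) (nat_lit 6) (nat_lit 4) (nat_lit 378) (nat_lit 268) (nat_lit 254))) (XT.nd (nat_lit 78) (nat_lit 0) (nat_lit 0) (XT.lf (nat_lit 0) (nat_lit 12697020699) (nat_lit 152) (nat_lit 22910633105) (nat_lit 0) (nat_lit 10593097432) (nat_lit 6) (nat_lit 5) (nat_lit 8) (nat_lit 4) (nat_lit 6) (nat_lit 4) (nat_lit 379) (nat_lit 268) (nat_lit 253)) (XT.lf (nat_lit 0) (nat_lit 17897363992) (nat_lit 152) (nat_lit 14673985244) (nat_lit 0) (nat_lit 15700582994) (nat_lit 6) (nat_lit 5) (nat_lit 8) (nat_lit 4) (nat_lit 6) (nat_lit 4) (nat_lit 380) (nat_lit 268) (nat_lit 252))))))))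
noncomputable def xc31 : XT := (XT.nd (nat_lit 1950) (nat_lit 0) (nat_lit 0) (XT.nd (nat_lit 936) (nat_lit 76) (nat_lit 0) (XT.nd (nat_lit 468) (nat_lit 152) (nat_lit 0) (XT.nd (nat_lit 234) (nat_lit 0) (nat_lit 0) (XT.nd (nat_lit 78) (nat_lit 76) (nat_lit 0) (XT.lf (nat_lit 0) (nat_lit 23247759918) (nat_lit 152) (nat_lit 6241877908) (nat_lit 0) (nat_lit 20962542986) (nat_lit 6) (nat_lit 5) (nat_lit 8) (nat_lit 4) (nat_lit 6) (nat_lit 4) (nat_lit 381) (nat_lit 268) (nat_lit 251)) (XT.nd (nat_lit 78) (nat_lit 0) (nat_lit 0) (XT.lf (nat_lit 0) (nat_lit 2485310814) (nat_lit 76) (nat_lit 26314439367) (nat_lit 76) (nat_lit 23944997736) (nat_lit 5) (nat_lit 4) (nat_lit 6) (nat_lit 5) (nat_lit 6) (nat_lit 4) (nat_lit 382) (nat_lit 268) (nat_lit 250)) (XT.lf (nat_lit 0) (nat_lit 11662817134) (nat_lit 76) (nat_lit 22969325545) (nat_lit 76) (nat_lit 20519669915) (nat_lit 5) (nat_lit 4) (nat_lit 6)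 (nat_lit 5) (nat_lit 6) (nat_lit 4) (nat_lit 383) (nat_lit 268) (nat_lit 249)))) (XT.nd (nat_lit 78) (nat_lit 0) (nat_lit 0) (XT.lf (nat_lit 0) (nat_lit 21106107584) (nat_lit 76) (nat_lit 19552041026) (nat_lit 76) (nat_lit 17025991111) (nat_lit 5) (nat_lit 4) (nat_lit 6) (nat_lit 5) (nat_lit 6) (nat_lit 4) (nat_lit 384) (nat_lit 268) (nat_lit 248)) (XT.nd (nat_lit 78) (nat_lit 0) (nat_lit 0) (XT.lf (nat_lit 0) (nat_lit 30837666188) (nat_lit 76) (nat_lit 16054449419) (nat_lit 76) (nat_lit 13455643042) (nat_lit 5) (nat_lit 4) (nat_lit 6) (nat_lit 5) (nat_lit 6) (nat_lit 4) (nat_lit 385) (nat_lit 268) (nat_lit 247)) (XT.lf (nat_lit 0) (nat_lit 40880663325) (nat_lit 76) (nat_lit 12468223125) (nat_lit 76) (nat_lit 9800124880) (nat_lit 5) (nat_lit 4) (nat_lit 6) (nat_lit 5) (nat_lit 6) (nat_lit 4) (nat_lit 386) (nat_lit 268) (nat_lit 246))))) (XT.nd (nat_lit 234) (nat_lit 0) (nat_lit 0) (XT.nd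 (nat_lit 78) (nat_lit 152) (nat_lit 0) (XT.lf (nat_lit 0) (nat_lit 51259010892) (nat_lit 76) (nat_lit 8784823509) (nat_lit 76) (nat_lit 6050733008) (nat_lit 5) (nat_lit 4) (nat_lit 6) (nat_lit 5) (nat_lit 6) (nat_lit 4) (nat_lit 387) (nat_lit 268) (nat_lit 245)) (XT.nd (nat_lit 78) (nat_lit 152) (nat_lit 0) (XT.lf (nat_lit 0) (nat_lit 61997419240) (nat_lit 76) (nat_lit 4995480572) (nat_lit 76) (nat_lit 2198540305) (nat_lit 5) (nat_lit 4) (nat_lit 6) (nat_lit 5) (nat_lit 6) (nat_lit 4) (nat_lit 388) (nat_lit 268) (nat_lit 244)) (XT.lf (nat_lit 0) (nat_lit 668275685) (nat_lit 76) (nat_lit 1051272057) (nat_lit 152) (nat_lit 70725555218) (nat_lit 3) (nat_lit 5) (nat_lit 4) (nat_lit 5) (nat_lit 5) (nat_lit 4) (nat_lit 389) (nat_lit 268) (nat_lit 243)))) (XT.nd (nat_lit 78) (nat_lit 0) (nat_lit 0) (XT.lf (nat_lit 0) (nat_lit 5853863171) (nat_lit 152) (nat_lit 66922267655) (nat_lit 0) (nat_lit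 3078811951) (nat_lit 3) (nat_lit 5) (nat_lit 5) (nat_lit 4) (nat_lit 3) (nat_lit 4) (nat_lit 390) (nat_lit 268) (nat_lit 242)) (XT.nd (nat_lit 78) (nat_lit 0) (nat_lit 0) (XT.lf (nat_lit 0) (nat_lit 10137967374) (nat_lit 152) (nat_lit 61988950094) (nat_lit 0) (nat_lit 7311209495) (nat_lit 3) (nat_lit 5) (nat_lit 5) (nat_lit 4) (nat_lit 3) (nat_lit 4) (nat_lit 391) (nat_lit 268) (nat_lit 241)) (XT.lf (nat_lit 0) (nat_lit 14565647297) (nat_lit 152) (nat_lit 56948715297) (nat_lit 0) (nat_lit 11689644981) (nat_lit 3) (nat_lit 5) (nat_lit 5) (nat_lit 4) (nat_lit 3) (nat_lit 4) (nat_lit 392) (nat_lit 268) (nat_lit 240)))))) (XT.nd (nat_lit 468) (nat_lit 76) (nat_lit 0) (XT.nd (nat_lit 234) (nat_lit 0) (nat_lit 0) (XT.nd (nat_lit 78) (nat_lit 0) (nat_lit 0) (XT.lf (nat_lit 0) (nat_lit 19147445035) (nat_lit 152) (nat_lit 51789562704) (nat_lit 0) (nat_lit 16224543256) (nat_lit 3) (nat_lit 5) (nat_lit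 5) (nat_lit 4) (nat_lit 3) (nat_lit 4) (nat_lit 393) (nat_lit 268) (nat_lit 239)) (XT.nd (nat_lit 78) (nat_lit 0) (nat_lit 0) (XT.lf (nat_lit 0) (nat_lit 23894269631) (nat_lit 152) (nat_lit 46499208618) (nat_lit 0) (nat_lit 20926701695) (nat_lit 3) (nat_lit 5) (nat_lit 5) (nat_lit 4) (nat_lit 3) (nat_lit 4) (nat_lit 394) (nat_lit 268) (nat_lit 238)) (XT.lf (nat_lit 0) (nat_lit 28817423047) (nat_lit 152) (nat_lit 41065056959) (nat_lit 0) (nat_lit 25807315915) (nat_lit 3) (nat_lit 5) (nat_lit 5) (nat_lit 4) (nat_lit 3) (nat_lit 4) (nat_lit 395) (nat_lit 268) (nat_lit 237)))) (XT.nd (nat_lit 78) (nat_lit 0) (nat_lit 0) (XT.lf (nat_lit 0) (nat_lit 33928627078) (nat_lit 152) (nat_lit 35474169270) (nat_lit 0) (nat_lit 30878006426) (nat_lit 3) (nat_lit 5) (nat_lit 5) (nat_lit 4) (nat_lit 3) (nat_lit 4) (nat_lit 396) (nat_lit 268) (nat_lit 236)) (XT.nd (nat_lit 78) (nat_lit 0) (nat_lit 0) (XT.lf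 (nat_lit 0) (nat_lit 39240051258) (nat_lit 152) (nat_lit 29713233914) (nat_lit 0) (nat_lit 36150846300) (nat_lit 3) (nat_lit 5) (nat_lit 5) (nat_lit 4) (nat_lit 3) (nat_lit 4) (nat_lit 397) (nat_lit 268) (nat_lit 235)) (XT.lf (nat_lit 0) (nat_lit 44764341833) (nat_lit 152) (nat_lit 23768534378) (nat_lit 0) (nat_lit 41638389919) (nat_lit 3) (nat_lit 5) (nat_lit 5) (nat_lit 4) (nat_lit 3) (nat_lit 4) (nat_lit 398) (nat_lit 268) (nat_lit 234))))) (XT.nd (nat_lit 234) (nat_lit 76) (nat_lit 0) (XT.nd (nat_lit 78) (nat_lit 0) (nat_lit 0) (XT.lf (nat_lit 0) (nat_lit 50514651877) (nat_lit 152) (nat_lit 17625916616) (nat_lit 0) (nat_lit 47353702861) (nat_lit 3) (nat_lit 5) (nat_lit 5) (nat_lit 4) (nat_lit 3) (nat_lit 4) (nat_lit 399) (nat_lit 268) (nat_lit 233)) (XT.nd (nat_lit 78) (nat_lit 0) (nat_lit 0) (XT.lf (nat_lit 0) (nat_lit 56504672605) (nat_lit 152) (nat_lit 11270755346) (nat_lit 0) (nat_lit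 53310393015) (nat_lit 3) (nat_lit 5) (nat_lit 5) (nat_lit 4) (nat_lit 3) (nat_lit 4) (nat_lit 400) (nat_lit 268) (nat_lit 232)) (XT.lf (nat_lit 0) (nat_lit 62748665970) (nat_lit 152) (nat_lit 4687919234) (nat_lit 0) (nat_lit 59522642977) (nat_lit 3) (nat_lit 5) (nat_lit 5) (nat_lit 4) (nat_lit 3) (nat_lit 4) (nat_lit 401) (nat_lit 268) (nat_lit 231)))) (XT.nd (nat_lit 156) (nat_lit 0) (nat_lit 0) (XT.nd (nat_lit 78) (nat_lit 0) (nat_lit 0) (XT.lf (nat_lit 0) (nat_lit 2208965842) (nat_lit 76) (nat_lit 67087020927) (nat_lit 76) (nat_lit 63830766122) (nat_lit 2) (nat_lit 4) (nat_lit 3) (nat_lit 5) (nat_lit 3) (nat_lit 4) (nat_lit 402) (nat_lit 268) (nat_lit 230)) (XT.lf (nat_lit 0) (nat_lit 9529039367) (nat_lit 76) (nat_lit 66678412951) (nat_lit 76) (nat_lit 63393365942) (nat_lit 2) (nat_lit 4) (nat_lit 3) (nat_lit 5) (nat_lit 3) (nat_lit 4) (nat_lit 403) (nat_lit 268) (nat_lit 229))) (XT.nd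 (nat_lit 78) (nat_lit 0) (nat_lit 0) (XT.lf (nat_lit 0) (nat_lit 17134726305) (nat_lit 76) (nat_lit 66289180578) (nat_lit 76) (nat_lit 62976712424) (nat_lit 2) (nat_lit 4) (nat_lit 3) (nat_lit 5) (nat_lit 3) (nat_lit 4) (nat_lit 404) (nat_lit 268) (nat_lit 228)) (XT.lf (nat_lit 0) (nat_lit 25044135435) (nat_lit 76) (nat_lit 65918397065) (nat_lit 76) (nat_lit 62579813536) (nat_lit 2) (nat_lit 4) (nat_lit 3) (nat_lit 5) (nat_lit 3) (nat_lit 4) (nat_lit 405) (nat_lit 268) (nat_lit 227))))))) (XT.nd (nat_lit 936) (nat_lit 0) (nat_lit 0) (XT.nd (nat_lit 468) (nat_lit 0) (nat_lit 0) (XT.nd (nat_lit 234) (nat_lit 0) (nat_lit 0) (XT.nd (nat_lit 78) (nat_lit 0) (nat_lit 0) (XT.lf (nat_lit 0) (nat_lit 33276098683) (nat_lit 76) (nat_lit 65565179596) (nat_lit 76) (nat_lit 62201724279) (nat_lit 2) (nat_lit 4) (nat_lit 3) (nat_lit 5) (nat_lit 3) (nat_lit 4) (nat_lit 406) (nat_lit 268) (nat_lit 226))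 (XT.nd (nat_lit 78) (nat_lit 0) (nat_lit 0) (XT.lf (nat_lit 0) (nat_lit 41850215961) (nat_lit 76) (nat_lit 65228687174) (nat_lit 76) (nat_lit 61841544441) (nat_lit 2) (nat_lit 4) (nat_lit 3) (nat_lit 5) (nat_lit 3) (nat_lit 4) (nat_lit 407) (nat_lit 268) (nat_lit 225)) (XT.lf (nat_lit 0) (nat_lit 50786901835) (nat_lit 76) (nat_lit 64908118629) (nat_lit 76) (nat_lit 61498416452) (nat_lit 2) (nat_lit 4) (nat_lit 3) (nat_lit 5) (nat_lit 3) (nat_lit 4) (nat_lit 408) (nat_lit 268) (nat_lit 224)))) (XT.nd (nat_lit 78) (nat_lit 0) (nat_lit 0) (XT.lf (nat_lit 0) (nat_lit 60107434128) (nat_lit 76) (nat_lit 64602710702) (nat_lit 76) (nat_lit 61171523340) (nat_lit 2) (nat_lit 4) (nat_lit 3) (nat_lit 5) (nat_lit 3) (nat_lit 4) (nat_lit 409) (nat_lit 268) (nat_lit 223)) (XT.nd (nat_lit 78) (nat_lit 0) (nat_lit 0) (XT.lf (nat_lit 0) (nat_lit 69834004583) (nat_lit 76) (nat_lit 64311736230) (nat_lit 76)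 (nat_lit 60860086788) (nat_lit 2) (nat_lit 4) (nat_lit 3) (nat_lit 5) (nat_lit 3) (nat_lit 4) (nat_lit 410) (nat_lit 268) (nat_lit 222)) (XT.lf (nat_lit 0) (nat_lit 79989771702) (nat_lit 76) (nat_lit 64034502418) (nat_lit 76) (nat_lit 60563365280) (nat_lit 2) (nat_lit 4) (nat_lit 3) (nat_lit 5) (nat_lit 3) (nat_lit 4) (nat_lit 411) (nat_lit 268) (nat_lit 221))))) (XT.nd (nat_lit 234) (nat_lit 0) (nat_lit 0) (XT.nd (nat_lit 78) (nat_lit 0) (nat_lit 0) (XT.lf (nat_lit 0) (nat_lit 90598915882) (nat_lit 76) (nat_lit 63770349185) (nat_lit 76) (nat_lit 60280652336) (nat_lit 2) (nat_lit 4) (nat_lit 3) (nat_lit 5) (nat_lit 3) (nat_lit 4) (nat_lit 412) (nat_lit 268) (nat_lit 220)) (XT.nd (nat_lit 78) (nat_lit 0) (nat_lit 0) (XT.lf (nat_lit 0) (nat_lit 101686696991) (nat_lit 76) (nat_lit 63518647595) (nat_lit 76) (nat_lit 60011274832) (nat_lit 2) (nat_lit 4) (nat_lit 3) (nat_lit 5) (nat_lit 3) (nat_lit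 4) (nat_lit 413) (nat_lit 268) (nat_lit 219)) (XT.lf (nat_lit 0) (nat_lit 113279514508) (nat_lit 76) (nat_lit 63278798359) (nat_lit 76) (nat_lit 59754591390) (nat_lit 2) (nat_lit 4) (nat_lit 3) (nat_lit 5) (nat_lit 3) (nat_lit 4) (nat_lit 414) (nat_lit 268) (nat_lit 218)))) (XT.nd (nat_lit 78) (nat_lit 0) (nat_lit 0) (XT.lf (nat_lit 0) (nat_lit 125404970379) (nat_lit 76) (nat_lit 63050230406) (nat_lit 76) (nat_lit 59509990862) (nat_lit 2) (nat_lit 4) (nat_lit 3) (nat_lit 5) (nat_lit 3) (nat_lit 4) (nat_lit 415) (nat_lit 268) (nat_lit 217)) (XT.nd (nat_lit 78) (nat_lit 0) (nat_lit 0) (XT.lf (nat_lit 0) (nat_lit 138091934736) (nat_lit 76) (nat_lit 62832399527) (nat_lit 76) (nat_lit 59276890863) (nat_lit 2) (nat_lit 4) (nat_lit 3) (nat_lit 5) (nat_lit 3) (nat_lit 4) (nat_lit 416) (nat_lit 268) (nat_lit 216)) (XT.lf (nat_lit 0) (nat_lit 151370614638) (nat_lit 76) (nat_lit 62624787077) (nat_lit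 76) (nat_lit 59054736395) (nat_lit 2) (nat_lit 4) (nat_lit 3) (nat_lit 5) (nat_lit 3) (nat_lit 4) (nat_lit 417) (nat_lit 268) (nat_lit 215)))))) (XT.nd (nat_lit 468) (nat_lit 0) (nat_lit 0) (XT.nd (nat_lit 234) (nat_lit 0) (nat_lit 0) (XT.nd (nat_lit 78) (nat_lit 0) (nat_lit 0) (XT.lf (nat_lit 0) (nat_lit 165272625990) (nat_lit 76) (nat_lit 62426898742) (nat_lit 76) (nat_lit 58842998518) (nat_lit 2) (nat_lit 4) (nat_lit 3) (nat_lit 5) (nat_lit 3) (nat_lit 4) (nat_lit 418) (nat_lit 268) (nat_lit 214)) (XT.nd (nat_lit 78) (nat_lit 0) (nat_lit 0) (XT.lf (nat_lit 0) (nat_lit 179831068819) (nat_lit 76) (nat_lit 62238263358) (nat_lit 76) (nat_lit 58641173094) (nat_lit 2) (nat_lit 4) (nat_lit 3) (nat_lit 5) (nat_lit 3) (nat_lit 4) (nat_lit 419) (nat_lit 268) (nat_lit 213)) (XT.lf (nat_lit 0) (nat_lit 195080606083) (nat_lit 76) (nat_lit 62058431793) (nat_lit 76) (nat_lit 58448779586) (nat_lit 2)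 (nat_lit 4) (nat_lit 3) (nat_lit 5) (nat_lit 3) (nat_lit 4) (nat_lit 420) (nat_lit 268) (nat_lit 212)))) (XT.nd (nat_lit 78) (nat_lit 0) (nat_lit 0) (XT.lf (nat_lit 0) (nat_lit 211057546205) (nat_lit 76) (nat_lit 61886975877) (nat_lit 76) (nat_lit 58265359916) (nat_lit 2) (nat_lit 4) (nat_lit 3) (nat_lit 5) (nat_lit 3) (nat_lit 4) (nat_lit 421) (nat_lit 268) (nat_lit 211)) (XT.nd (nat_lit 78) (nat_lit 0) (nat_lit 0) (XT.lf (nat_lit 0) (nat_lit 227799929518) (nat_lit 76) (nat_lit 61723487382) (nat_lit 76) (nat_lit 58090477368) (nat_lit 2) (nat_lit 4) (nat_lit 3) (nat_lit 5) (nat_lit 3) (nat_lit 4) (nat_lit 422) (nat_lit 268) (nat_lit 210)) (XT.lf (nat_lit 0) (nat_lit 245347618839) (nat_lit 76) (nat_lit 61567577049) (nat_lit 76) (nat_lit 57923715557) (nat_lit 2) (nat_lit 4) (nat_lit 3) (nat_lit 5) (nat_lit 3) (nat_lit 4) (nat_lit 423) (nat_lit 268) (nat_lit 209))))) (XT.nd (nat_lit 234) (nat_lit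 0) (nat_lit 0) (XT.nd (nat_lit 78) (nat_lit 0) (nat_lit 0) (XT.lf (nat_lit 0) (nat_lit 263742394382) (nat_lit 76) (nat_lit 61418873664) (nat_lit 76) (nat_lit 57764677430) (nat_lit 2) (nat_lit 4) (nat_lit 3) (nat_lit 5) (nat_lit 3) (nat_lit 4) (nat_lit 424) (nat_lit 268) (nat_lit 208)) (XT.nd (nat_lit 78) (nat_lit 0) (nat_lit 0) (XT.lf (nat_lit 0) (nat_lit 283028053232) (nat_lit 76) (nat_lit 61277023170) (nat_lit 76) (nat_lit 57612984326) (nat_lit 2) (nat_lit 4) (nat_lit 3) (nat_lit 5) (nat_lit 3) (nat_lit 4) (nat_lit 425) (nat_lit 268) (nat_lit 207)) (XT.lf (nat_lit 0) (nat_lit 303250513622) (nat_lit 76) (nat_lit 61141687828) (nat_lit 76) (nat_lit 57468275069) (nat_lit 2) (nat_lit 4) (nat_lit 3) (nat_lit 5) (nat_lit 3) (nat_lit 4) (nat_lit 426) (nat_lit 268) (nat_lit 206)))) (XT.nd (nat_lit 156) (nat_lit 0) (nat_lit 0) (XT.nd (nat_lit 78) (nat_lit 0) (nat_lit 0) (XT.lf (nat_lit 0) (nat_lit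 324457924269) (nat_lit 76) (nat_lit 61012545411) (nat_lit 76) (nat_lit 57330205115) (nat_lit 2) (nat_lit 4) (nat_lit 3) (nat_lit 5) (nat_lit 3) (nat_lit 4) (nat_lit 427) (nat_lit 268) (nat_lit 205)) (XT.lf (nat_lit 0) (nat_lit 346700779008) (nat_lit 76) (nat_lit 60889288438) (nat_lit 76) (nat_lit 57198445724) (nat_lit 2) (nat_lit 4) (nat_lit 3) (nat_lit 5) (nat_lit 3) (nat_lit 4) (nat_lit 428) (nat_lit 268) (nat_lit 204))) (XT.nd (nat_lit 78) (nat_lit 0) (nat_lit 0) (XT.lf (nat_lit 0) (nat_lit 370032037016) (nat_lit 76) (nat_lit 60771623440) (nat_lit 76) (nat_lit 57072683185) (nat_lit 2) (nat_lit 4) (nat_lit 3) (nat_lit 5) (nat_lit 3) (nat_lit 4) (nat_lit 429) (nat_lit 268) (nat_lit 203)) (XT.lf (nat_lit 0) (nat_lit 394507248907) (nat_lit 76) (nat_lit 60659270260) (nat_lit 76) (nat_lit 56952618063) (nat_lit 2) (nat_lit 4) (nat_lit 3) (nat_lit 5) (nat_lit 3) (nat_lit 4) (nat_lit 430) (nat_lit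 268) (nat_lit 202))))))))
noncomputable def xc32 : XT := (XT.nd (nat_lit 42510) (nat_lit 0) (nat_lit 76) (XT.nd (nat_lit 41574) (nat_lit 0) (nat_lit 456) (XT.nd (nat_lit 468) (nat_lit 0) (nat_lit 0) (XT.nd (nat_lit 234) (nat_lit 0) (nat_lit 0) (XT.nd (nat_lit 78) (nat_lit 0) (nat_lit 0) (XT.lf (nat_lit 0) (nat_lit 420184688997) (nat_lit 76) (nat_lit 60551961393) (nat_lit 76) (nat_lit 56837964488) (nat_lit 2) (nat_lit 4) (nat_lit 3) (nat_lit 5) (nat_lit 3) (nat_lit 4) (nat_lit 431) (nat_lit 268) (nat_lit 201)) (XT.nd (nat_lit 78) (nat_lit 0) (nat_lit 0) (XT.lf (nat_lit 0) (nat_lit 447125494046) (nat_lit 76) (nat_lit 60449441341) (nat_lit 76) (nat_lit 56728449476) (nat_lit 2) (nat_lit 4) (nat_lit 3) (nat_lit 5) (nat_lit 3) (nat_lit 4) (nat_lit 432) (nat_lit 268) (nat_lit 200)) (XT.lf (nat_lit 0) (nat_lit 475393808829) (nat_lit 76) (nat_lit 60351466008) (nat_lit 76) (nat_lit 56623812277) (nat_lit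 2) (nat_lit 4) (nat_lit 3) (nat_lit 5) (nat_lit 3) (nat_lit 4) (nat_lit 433) (nat_lit 268) (nat_lit 199)))) (XT.nd (nat_lit 78) (nat_lit 0) (nat_lit 0) (XT.lf (nat_lit 0) (nat_lit 505056938858) (nat_lit 76) (nat_lit 60257802120) (nat_lit 76) (nat_lit 56523803754) (nat_lit 2) (nat_lit 4) (nat_lit 3) (nat_lit 5) (nat_lit 3) (nat_lit 4) (nat_lit 434) (nat_lit 268) (nat_lit 198)) (XT.nd (nat_lit 78) (nat_lit 0) (nat_lit 0) (XT.lf (nat_lit 0) (nat_lit 536185510631) (nat_lit 76) (nat_lit 60168226667) (nat_lit 76) (nat_lit 56428185792) (nat_lit 2) (nat_lit 4) (nat_lit 3) (nat_lit 5) (nat_lit 3) (nat_lit 4) (nat_lit 435) (nat_lit 268) (nat_lit 197)) (XT.lf (nat_lit 0) (nat_lit 568853639797) (nat_lit 76) (nat_lit 60082526375) (nat_lit 76) (nat_lit 56336730730) (nat_lit 2) (nat_lit 4) (nat_lit 3) (nat_lit 5) (nat_lit 3) (nat_lit 4) (nat_lit 436) (nat_lit 268) (nat_lit 196))))) (XT.nd (nat_lit 234)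 (nat_lit 0) (nat_lit 0) (XT.nd (nat_lit 78) (nat_lit 0) (nat_lit 0) (XT.lf (nat_lit 0) (nat_lit 603139107615) (nat_lit 76) (nat_lit 60000497195) (nat_lit 76) (nat_lit 56249220816) (nat_lit 2) (nat_lit 4) (nat_lit 3) (nat_lit 5) (nat_lit 3) (nat_lit 4) (nat_lit 437) (nat_lit 268) (nat_lit 195)) (XT.nd (nat_lit 78) (nat_lit 0) (nat_lit 0) (XT.lf (nat_lit 0) (nat_lit 639123546151) (nat_lit 76) (nat_lit 59921943820) (nat_lit 76) (nat_lit 56165447694) (nat_lit 2) (nat_lit 4) (nat_lit 3) (nat_lit 5) (nat_lit 3) (nat_lit 4) (nat_lit 438) (nat_lit 268) (nat_lit 194)) (XT.lf (nat_lit 0) (nat_lit 676892632641) (nat_lit 76) (nat_lit 59846679218) (nat_lit 76) (nat_lit 56085211905) (nat_lit 2) (nat_lit 4) (nat_lit 3) (nat_lit 5) (nat_lit 3) (nat_lit 4) (nat_lit 439) (nat_lit 268) (nat_lit 193)))) (XT.nd (nat_lit 78) (nat_lit 0) (nat_lit 0) (XT.lf (nat_lit 0) (nat_lit 716536293480) (nat_lit 76) (nat_lit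 59774524187) (nat_lit 76) (nat_lit 56008322410) (nat_lit 2) (nat_lit 4) (nat_lit 3) (nat_lit 5) (nat_lit 3) (nat_lit 4) (nat_lit 440) (nat_lit 268) (nat_lit 192)) (XT.nd (nat_lit 40716) (nat_lit 0) (nat_lit 988) (XT.lf (nat_lit 0) (nat_lit 758148918337) (nat_lit 76) (nat_lit 59705306930) (nat_lit 76) (nat_lit 55934596140) (nat_lit 2) (nat_lit 4) (nat_lit 3) (nat_lit 5) (nat_lit 3) (nat_lit 4) (nat_lit 441) (nat_lit 268) (nat_lit 191)) (XT.lf (nat_lit 0) (nat_lit 5446016406) (nat_lit 152) (nat_lit 739129608) (nat_lit 0) (nat_lit 5446016406) (nat_lit 15) (nat_lit 5) (nat_lit 17) (nat_lit 4) (nat_lit 15) (nat_lit 4) (nat_lit 362) (nat_lit 269) (nat_lit 269)))))) (XT.nd (nat_lit 468) (nat_lit 228) (nat_lit 0) (XT.nd (nat_lit 234) (nat_lit 76) (nat_lit 0) (XT.nd (nat_lit 78) (nat_lit 152) (nat_lit 0) (XT.lf (nat_lit 0) (nat_lit 9867426800) (nat_lit 76) (nat_lit 7247792739) (nat_lit 76) (nat_lit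 7013145879) (nat_lit 14) (nat_lit 4) (nat_lit 15) (nat_lit 5) (nat_lit 15) (nat_lit 4) (nat_lit 363) (nat_lit 269) (nat_lit 268)) (XT.nd (nat_lit 78) (nat_lit 152) (nat_lit 0) (XT.lf (nat_lit 0) (nat_lit 21470499467) (nat_lit 76) (nat_lit 2016735600) (nat_lit 76) (nat_lit 1558615539) (nat_lit 14) (nat_lit 4) (nat_lit 15) (nat_lit 5) (nat_lit 15) (nat_lit 4) (nat_lit 364) (nat_lit 269) (nat_lit 267)) (XT.lf (nat_lit 0) (nat_lit 4025042696) (nat_lit 152) (nat_lit 18595404491) (nat_lit 0) (nat_lit 3386041095) (nat_lit 12) (nat_lit 5) (nat_lit 14) (nat_lit 4) (nat_lit 12) (nat_lit 4) (nat_lit 365) (nat_lit 269) (nat_lit 266)))) (XT.nd (nat_lit 78) (nat_lit 76) (nat_lit 0) (XT.lf (nat_lit 0) (nat_lit 9749380562) (nat_lit 152) (nat_lit 8351494006) (nat_lit 0) (nat_lit 8917334408) (nat_lit 12) (nat_lit 5) (nat_lit 14) (nat_lit 4) (nat_lit 12) (nat_lit 4) (nat_lit 366) (nat_lit 269) (nat_lit 265))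 (XT.nd (nat_lit 78) (nat_lit 0) (nat_lit 0) (XT.lf (nat_lit 0) (nat_lit 2139048902) (nat_lit 76) (nat_lit 13482161301) (nat_lit 76) (nat_lit 12466263193) (nat_lit 11) (nat_lit 4) (nat_lit 12) (nat_lit 5) (nat_lit 12) (nat_lit 4) (nat_lit 367) (nat_lit 269) (nat_lit 264)) (XT.lf (nat_lit 0) (nat_lit 13115425462) (nat_lit 76) (nat_lit 8643586095) (nat_lit 76) (nat_lit 7452590886) (nat_lit 11) (nat_lit 4) (nat_lit 12) (nat_lit 5) (nat_lit 12) (nat_lit 4) (nat_lit 368) (nat_lit 269) (nat_lit 263))))) (XT.nd (nat_lit 234) (nat_lit 76) (nat_lit 0) (XT.nd (nat_lit 78) (nat_lit 152) (nat_lit 0) (XT.lf (nat_lit 0) (nat_lit 24327631796) (nat_lit 76) (nat_lit 3715065122) (nat_lit 76) (nat_lit 2357310770) (nat_lit 11) (nat_lit 4) (nat_lit 12) (nat_lit 5) (nat_lit 12) (nat_lit 4) (nat_lit 369) (nat_lit 269) (nat_lit 262)) (XT.nd (nat_lit 78) (nat_lit 0) (nat_lit 0) (XT.lf (nat_lit 0) (nat_lit 2829590434)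 (nat_lit 152) (nat_lit 27434056395) (nat_lit 0) (nat_lit 1385235593) (nat_lit 9) (nat_lit 5) (nat_lit 11) (nat_lit 4) (nat_lit 9) (nat_lit 4) (nat_lit 370) (nat_lit 269) (nat_lit 261)) (XT.lf (nat_lit 0) (nat_lit 8206668238) (nat_lit 152) (nat_lit 18132854017) (nat_lit 0) (nat_lit 6618260579) (nat_lit 9) (nat_lit 5) (nat_lit 11) (nat_lit 4) (nat_lit 9) (nat_lit 4) (nat_lit 371) (nat_lit 269) (nat_lit 260)))) (XT.nd (nat_lit 78) (nat_lit 76) (nat_lit 0) (XT.lf (nat_lit 0) (nat_lit 13704624150) (nat_lit 152) (nat_lit 8655895571) (nat_lit 0) (nat_lit 11979023332) (nat_lit 9) (nat_lit 5) (nat_lit 11) (nat_lit 4) (nat_lit 9) (nat_lit 4) (nat_lit 372) (nat_lit 269) (nat_lit 259)) (XT.nd (nat_lit 78) (nat_lit 0) (nat_lit 0) (XT.lf (nat_lit 0) (nat_lit 1053088539) (nat_lit 76) (nat_lit 18299901666) (nat_lit 76) (nat_lit 16443640696) (nat_lit 8) (nat_lit 4) (nat_lit 9) (nat_lit 5) (nat_lit 9) (nat_lit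 4) (nat_lit 373) (nat_lit 269) (nat_lit 258)) (XT.lf (nat_lit 0) (nat_lit 11276951332) (nat_lit 76) (nat_lit 14014964239) (nat_lit 76) (nat_lit 12034265029) (nat_lit 8) (nat_lit 4) (nat_lit 9) (nat_lit 5) (nat_lit 9) (nat_lit 4) (nat_lit 374) (nat_lit 269) (nat_lit 257))))))) (XT.nd (nat_lit 936) (nat_lit 152) (nat_lit 0) (XT.nd (nat_lit 468) (nat_lit 76) (nat_lit 0) (XT.nd (nat_lit 234) (nat_lit 0) (nat_lit 0) (XT.nd (nat_lit 78) (nat_lit 152) (nat_lit 0) (XT.lf (nat_lit 0) (nat_lit 21753832338) (nat_lit 76) (nat_lit 9642096989) (nat_lit 76) (nat_lit 7542885169) (nat_lit 8) (nat_lit 4) (nat_lit 9) (nat_lit 5) (nat_lit 9) (nat_lit 4) (nat_lit 375) (nat_lit 269) (nat_lit 256)) (XT.nd (nat_lit 78) (nat_lit 152) (nat_lit 0) (XT.lf (nat_lit 0) (nat_lit 32508676512) (nat_lit 76) (nat_lit 5170888327) (nat_lit 76) (nat_lit 2958807355) (nat_lit 8) (nat_lit 4) (nat_lit 9) (nat_lit 5) (nat_lit 9)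 (nat_lit 4) (nat_lit 376) (nat_lit 269) (nat_lit 255)) (XT.lf (nat_lit 0) (nat_lit 1147938872) (nat_lit 76) (nat_lit 543531505) (nat_lit 152) (nat_lit 40735184118) (nat_lit 6) (nat_lit 5) (nat_lit 7) (nat_lit 5) (nat_lit 8) (nat_lit 4) (nat_lit 377) (nat_lit 269) (nat_lit 254)))) (XT.nd (nat_lit 78) (nat_lit 0) (nat_lit 0) (XT.lf (nat_lit 0) (nat_lit 6560900415) (nat_lit 152) (nat_lit 33482452560) (nat_lit 0) (nat_lit 4254280367) (nat_lit 6) (nat_lit 5) (nat_lit 8) (nat_lit 4) (nat_lit 6) (nat_lit 4) (nat_lit 378) (nat_lit 269) (nat_lit 253)) (XT.nd (nat_lit 78) (nat_lit 0) (nat_lit 0) (XT.lf (nat_lit 0) (nat_lit 11567249548) (nat_lit 152) (nat_lit 25532478261) (nat_lit 0) (nat_lit 9167771770) (nat_lit 6) (nat_lit 5) (nat_lit 8) (nat_lit 4) (nat_lit 6) (nat_lit 4) (nat_lit 379) (nat_lit 269) (nat_lit 252)) (XT.lf (nat_lit 0) (nat_lit 16713951606) (nat_lit 152) (nat_lit 17401378165) (nat_lit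 0) (nat_lit 14226037894) (nat_lit 6) (nat_lit 5) (nat_lit 8) (nat_lit 4) (nat_lit 6) (nat_lit 4) (nat_lit 380) (nat_lit 269) (nat_lit 251))))) (XT.nd (nat_lit 234) (nat_lit 0) (nat_lit 0) (XT.nd (nat_lit 78) (nat_lit 76) (nat_lit 0) (XT.lf (nat_lit 0) (nat_lit 22013260642) (nat_lit 152) (nat_lit 9069792510) (nat_lit 0) (nat_lit 19441122230) (nat_lit 6) (nat_lit 5) (nat_lit 8) (nat_lit 4) (nat_lit 6) (nat_lit 4) (nat_lit 381) (nat_lit 269) (nat_lit 250)) (XT.nd (nat_lit 78) (nat_lit 76) (nat_lit 0) (XT.lf (nat_lit 0) (nat_lit 27477794057) (nat_lit 152) (nat_lit 517884189) (nat_lit 0) (nat_lit 24825441646) (nat_lit 6) (nat_lit 5) (nat_lit 8) (nat_lit 4) (nat_lit 6) (nat_lit 4) (nat_lit 382) (nat_lit 269) (nat_lit 249)) (XT.lf (nat_lit 0) (nat_lit 8548307718) (nat_lit 76) (nat_lit 24705717967) (nat_lit 76) (nat_lit 21976971272) (nat_lit 5) (nat_lit 4) (nat_lit 6) (nat_lit 5) (nat_lit 6) (nat_lit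 4) (nat_lit 383) (nat_lit 269) (nat_lit 248)))) (XT.nd (nat_lit 78) (nat_lit 0) (nat_lit 0) (XT.lf (nat_lit 0) (nat_lit 17901892622) (nat_lit 76) (nat_lit 21332607662) (nat_lit 76) (nat_lit 18531104505) (nat_lit 5) (nat_lit 4) (nat_lit 6) (nat_lit 5) (nat_lit 6) (nat_lit 4) (nat_lit 384) (nat_lit 269) (nat_lit 247)) (XT.nd (nat_lit 78) (nat_lit 0) (nat_lit 0) (XT.lf (nat_lit 0) (nat_lit 27548017374) (nat_lit 76) (nat_lit 17877086734) (nat_lit 76) (nat_lit 15006291709) (nat_lit 5) (nat_lit 4) (nat_lit 6) (nat_lit 5) (nat_lit 6) (nat_lit 4) (nat_lit 385) (nat_lit 269) (nat_lit 246)) (XT.lf (nat_lit 0) (nat_lit 37509648937) (nat_lit 76) (nat_lit 14330927754) (nat_lit 76) (nat_lit 11394140473) (nat_lit 5) (nat_lit 4) (nat_lit 6) (nat_lit 5) (nat_lit 6) (nat_lit 4) (nat_lit 386) (nat_lit 269) (nat_lit 245)))))) (XT.nd (nat_lit 468) (nat_lit 0) (nat_lit 0) (XT.nd (nat_lit 234) (nat_lit 76) (nat_lit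 0) (XT.nd (nat_lit 78) (nat_lit 76) (nat_lit 0) (XT.lf (nat_lit 0) (nat_lit 47810505481) (nat_lit 76) (nat_lit 10685687484) (nat_lit 76) (nat_lit 7686050436) (nat_lit 5) (nat_lit 4) (nat_lit 6) (nat_lit 5) (nat_lit 6) (nat_lit 4) (nat_lit 387) (nat_lit 269) (nat_lit 244)) (XT.nd (nat_lit 78) (nat_lit 76) (nat_lit 0) (XT.lf (nat_lit 0) (nat_lit 58475112855) (nat_lit 76) (nat_lit 6932686783) (nat_lit 76) (nat_lit 3873192813) (nat_lit 5) (nat_lit 4) (nat_lit 6) (nat_lit 5) (nat_lit 6) (nat_lit 4) (nat_lit 388) (nat_lit 269) (nat_lit 243)) (XT.lf (nat_lit 0) (nat_lit 51797953) (nat_lit 152) (nat_lit 3010314757) (nat_lit 76) (nat_lit 69476187805) (nat_lit 4) (nat_lit 5) (nat_lit 6) (nat_lit 5) (nat_lit 5) (nat_lit 4) (nat_lit 389) (nat_lit 269) (nat_lit 242)))) (XT.nd (nat_lit 78) (nat_lit 0) (nat_lit 0) (XT.lf (nat_lit 0) (nat_lit 4069193020) (nat_lit 152) (nat_lit 70835405681) (nat_lit 0)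 (nat_lit 1049390589) (nat_lit 3) (nat_lit 5) (nat_lit 5) (nat_lit 4) (nat_lit 3) (nat_lit 4) (nat_lit 390) (nat_lit 269) (nat_lit 241)) (XT.nd (nat_lit 78) (nat_lit 0) (nat_lit 0) (XT.lf (nat_lit 0) (nat_lit 8318843813) (nat_lit 152) (nat_lit 65970258189) (nat_lit 0) (nat_lit 5249796945) (nat_lit 3) (nat_lit 5) (nat_lit 5) (nat_lit 4) (nat_lit 3) (nat_lit 4) (nat_lit 391) (nat_lit 269) (nat_lit 240)) (XT.lf (nat_lit 0) (nat_lit 12713710965) (nat_lit 152) (nat_lit 60994947267) (nat_lit 0) (nat_lit 9597764633) (nat_lit 3) (nat_lit 5) (nat_lit 5) (nat_lit 4) (nat_lit 3) (nat_lit 4) (nat_lit 392) (nat_lit 269) (nat_lit 239))))) (XT.nd (nat_lit 234) (nat_lit 0) (nat_lit 0) (XT.nd (nat_lit 78) (nat_lit 0) (nat_lit 0) (XT.lf (nat_lit 0) (nat_lit 17264258445) (nat_lit 152) (nat_lit 55897626936) (nat_lit 0) (nat_lit 14103645956) (nat_lit 3) (nat_lit 5) (nat_lit 5) (nat_lit 4) (nat_lit 3) (nat_lit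 4) (nat_lit 393) (nat_lit 269) (nat_lit 238)) (XT.nd (nat_lit 78) (nat_lit 0) (nat_lit 0) (XT.lf (nat_lit 0) (nat_lit 21981320890) (nat_lit 152) (nat_lit 50666160719) (nat_lit 0) (nat_lit 18778169205) (nat_lit 3) (nat_lit 5) (nat_lit 5) (nat_lit 4) (nat_lit 3) (nat_lit 4) (nat_lit 394) (nat_lit 269) (nat_lit 237)) (XT.lf (nat_lit 0) (nat_lit 26876129401) (nat_lit 152) (nat_lit 45288092745) (nat_lit 0) (nat_lit 23632464196) (nat_lit 3) (nat_lit 5) (nat_lit 5) (nat_lit 4) (nat_lit 3) (nat_lit 4) (nat_lit 395) (nat_lit 269) (nat_lit 236)))) (XT.nd (nat_lit 156) (nat_lit 0) (nat_lit 0) (XT.nd (nat_lit 78) (nat_lit 0) (nat_lit 0) (XT.lf (nat_lit 0) (nat_lit 31960338284) (nat_lit 152) (nat_lit 39750618089) (nat_lit 0) (nat_lit 28678088774) (nat_lit 3) (nat_lit 5) (nat_lit 5) (nat_lit 4) (nat_lit 3) (nat_lit 4) (nat_lit 396) (nat_lit 269) (nat_lit 235)) (XT.lf (nat_lit 0) (nat_lit 37246052798)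 (nat_lit 152) (nat_lit 34040552288) (nat_lit 0) (nat_lit 33927056331) (nat_lit 3) (nat_lit 5) (nat_lit 5) (nat_lit 4) (nat_lit 3) (nat_lit 4) (nat_lit 397) (nat_lit 269) (nat_lit 234))) (XT.nd (nat_lit 78) (nat_lit 0) (nat_lit 0) (XT.lf (nat_lit 0) (nat_lit 42745857979) (nat_lit 152) (nat_lit 28144299947) (nat_lit 0) (nat_lit 39391864409) (nat_lit 3) (nat_lit 5) (nat_lit 5) (nat_lit 4) (nat_lit 3) (nat_lit 4) (nat_lit 398) (nat_lit 269) (nat_lit 233)) (XT.lf (nat_lit 0) (nat_lit 48472848599) (nat_lit 152) (nat_lit 22047822370) (nat_lit 0) (nat_lit 45085524456) (nat_lit 3) (nat_lit 5) (nat_lit 5) (nat_lit 4) (nat_lit 3) (nat_lit 4) (nat_lit 399) (nat_lit 269) (nat_lit 232))))))))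
noncomputable def xc33 : XT := (XT.nd (nat_lit 1950) (nat_lit 0) (nat_lit 0) (XT.nd (nat_lit 936) (nat_lit 0) (nat_lit 0) (XT.nd (nat_lit 468) (nat_lit 0) (nat_lit 0) (XT.nd (nat_lit 234) (nat_lit 76) (nat_lit 0) (XT.nd (nat_lit 78) (nat_lit 0) (nat_lit 0) (XT.lf (nat_lit 0) (nat_lit 54440660352) (nat_lit 152) (nat_lit 15736604135) (nat_lit 0) (nat_lit 51021592806) (nat_lit 3) (nat_lit 5) (nat_lit 5) (nat_lit 4) (nat_lit 3) (nat_lit 4) (nat_lit 400) (nat_lit 269) (nat_lit 231)) (XT.nd (nat_lit 78) (nat_lit 0) (nat_lit 0) (XT.lf (nat_lit 0) (nat_lit 60663502312) (nat_lit 152) (nat_lit 9195618532) (nat_lit 0) (nat_lit 57214202953) (nat_lit 3) (nat_lit 5) (nat_lit 5) (nat_lit 4) (nat_lit 3) (nat_lit 4) (nat_lit 401) (nat_lit 269) (nat_lit 230)) (XT.lf (nat_lit 0) (nat_lit 67156190770) (nat_lit 152) (nat_lit 2409291784) (nat_lit 0) (nat_lit 63678099209) (nat_lit 3) (nat_lit 5) (nat_lit 5) (nat_lit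 4) (nat_lit 3) (nat_lit 4) (nat_lit 402) (nat_lit 269) (nat_lit 229)))) (XT.nd (nat_lit 78) (nat_lit 0) (nat_lit 0) (XT.lf (nat_lit 0) (nat_lit 4791904910) (nat_lit 76) (nat_lit 69217094662) (nat_lit 76) (nat_lit 65711581956) (nat_lit 2) (nat_lit 4) (nat_lit 3) (nat_lit 5) (nat_lit 3) (nat_lit 4) (nat_lit 403) (nat_lit 269) (nat_lit 228)) (XT.nd (nat_lit 78) (nat_lit 0) (nat_lit 0) (XT.lf (nat_lit 0) (nat_lit 12360244455) (nat_lit 76) (nat_lit 68846355206) (nat_lit 76) (nat_lit 65314727123) (nat_lit 2) (nat_lit 4) (nat_lit 3) (nat_lit 5) (nat_lit 3) (nat_lit 4) (nat_lit 404) (nat_lit 269) (nat_lit 227)) (XT.lf (nat_lit 0) (nat_lit 20234084640) (nat_lit 76) (nat_lit 68493183995) (nat_lit 76) (nat_lit 64936684125) (nat_lit 2) (nat_lit 4) (nat_lit 3) (nat_lit 5) (nat_lit 3) (nat_lit 4) (nat_lit 405) (nat_lit 269) (nat_lit 226))))) (XT.nd (nat_lit 234) (nat_lit 0) (nat_lit 0) (XT.nd (nat_lit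 78) (nat_lit 0) (nat_lit 0) (XT.lf (nat_lit 0) (nat_lit 28432172701) (nat_lit 76) (nat_lit 68156740146) (nat_lit 76) (nat_lit 64576552860) (nat_lit 2) (nat_lit 4) (nat_lit 3) (nat_lit 5) (nat_lit 3) (nat_lit 4) (nat_lit 406) (nat_lit 269) (nat_lit 225)) (XT.nd (nat_lit 78) (nat_lit 0) (nat_lit 0) (XT.lf (nat_lit 0) (nat_lit 36974027897) (nat_lit 76) (nat_lit 67836222601) (nat_lit 76) (nat_lit 64233475871) (nat_lit 2) (nat_lit 4) (nat_lit 3) (nat_lit 5) (nat_lit 3) (nat_lit 4) (nat_lit 407) (nat_lit 269) (nat_lit 224)) (XT.lf (nat_lit 0) (nat_lit 45879987978) (nat_lit 76) (nat_lit 67530868224) (nat_lit 76) (nat_lit 63906636310) (nat_lit 2) (nat_lit 4) (nat_lit 3) (nat_lit 5) (nat_lit 3) (nat_lit 4) (nat_lit 408) (nat_lit 269) (nat_lit 223)))) (XT.nd (nat_lit 78) (nat_lit 0) (nat_lit 0) (XT.lf (nat_lit 0) (nat_lit 55171257612) (nat_lit 76) (nat_lit 67239949981) (nat_lit 76) (nat_lit 63595255985)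 (nat_lit 2) (nat_lit 4) (nat_lit 3) (nat_lit 5) (nat_lit 3) (nat_lit 4) (nat_lit 409) (nat_lit 269) (nat_lit 222)) (XT.nd (nat_lit 78) (nat_lit 0) (nat_lit 0) (XT.lf (nat_lit 0) (nat_lit 64869958867) (nat_lit 76) (nat_lit 66962775209) (nat_lit 76) (nat_lit 63298593517) (nat_lit 2) (nat_lit 4) (nat_lit 3) (nat_lit 5) (nat_lit 3) (nat_lit 4) (nat_lit 410) (nat_lit 269) (nat_lit 221)) (XT.lf (nat_lit 0) (nat_lit 74999183891) (nat_lit 76) (nat_lit 66698683967) (nat_lit 76) (nat_lit 63015942565) (nat_lit 2) (nat_lit 4) (nat_lit 3) (nat_lit 5) (nat_lit 3) (nat_lit 4) (nat_lit 411) (nat_lit 269) (nat_lit 220)))))) (XT.nd (nat_lit 468) (nat_lit 0) (nat_lit 0) (XT.nd (nat_lit 234) (nat_lit 0) (nat_lit 0) (XT.nd (nat_lit 78) (nat_lit 0) (nat_lit 0) (XT.lf (nat_lit 0) (nat_lit 85583049886) (nat_lit 76) (nat_lit 66447047468) (nat_lit 76) (nat_lit 62746630152) (nat_lit 2) (nat_lit 4) (nat_lit 3) (nat_lit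 5) (nat_lit 3) (nat_lit 4) (nat_lit 412) (nat_lit 269) (nat_lit 219)) (XT.nd (nat_lit 78) (nat_lit 0) (nat_lit 0) (XT.lf (nat_lit 0) (nat_lit 96646756533) (nat_lit 76) (nat_lit 66207266577) (nat_lit 76) (nat_lit 62490015056) (nat_lit 2) (nat_lit 4) (nat_lit 3) (nat_lit 5) (nat_lit 3) (nat_lit 4) (nat_lit 413) (nat_lit 269) (nat_lit 218)) (XT.lf (nat_lit 0) (nat_lit 108216645990) (nat_lit 76) (nat_lit 65978770387) (nat_lit 76) (nat_lit 62245486290) (nat_lit 2) (nat_lit 4) (nat_lit 3) (nat_lit 5) (nat_lit 3) (nat_lit 4) (nat_lit 414) (nat_lit 269) (nat_lit 217)))) (XT.nd (nat_lit 78) (nat_lit 0) (nat_lit 0) (XT.lf (nat_lit 0) (nat_lit 120320265614) (nat_lit 76) (nat_lit 65761014859) (nat_lit 76) (nat_lit 62012461643) (nat_lit 2) (nat_lit 4) (nat_lit 3) (nat_lit 5) (nat_lit 3) (nat_lit 4) (nat_lit 415) (nat_lit 269) (nat_lit 216)) (XT.nd (nat_lit 78) (nat_lit 0) (nat_lit 0) (XT.lf (nat_lit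 0) (nat_lit 132986433545) (nat_lit 76) (nat_lit 65553481528) (nat_lit 76) (nat_lit 61790386293) (nat_lit 2) (nat_lit 4) (nat_lit 3) (nat_lit 5) (nat_lit 3) (nat_lit 4) (nat_lit 416) (nat_lit 269) (nat_lit 215)) (XT.lf (nat_lit 0) (nat_lit 146245307328) (nat_lit 76) (nat_lit 65355676267) (nat_lit 76) (nat_lit 61578731490) (nat_lit 2) (nat_lit 4) (nat_lit 3) (nat_lit 5) (nat_lit 3) (nat_lit 4) (nat_lit 417) (nat_lit 269) (nat_lit 214))))) (XT.nd (nat_lit 234) (nat_lit 0) (nat_lit 0) (XT.nd (nat_lit 78) (nat_lit 0) (nat_lit 0) (XT.lf (nat_lit 0) (nat_lit 160128455708) (nat_lit 76) (nat_lit 65167128111) (nat_lit 76) (nat_lit 61376993295) (nat_lit 2) (nat_lit 4) (nat_lit 3) (nat_lit 5) (nat_lit 3) (nat_lit 4) (nat_lit 418) (nat_lit 269) (nat_lit 213)) (XT.nd (nat_lit 78) (nat_lit 0) (nat_lit 0) (XT.lf (nat_lit 0) (nat_lit 174668933802) (nat_lit 76) (nat_lit 64987388136) (nat_lit 76) (nat_lit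 61184691377) (nat_lit 2) (nat_lit 4) (nat_lit 3) (nat_lit 5) (nat_lit 3) (nat_lit 4) (nat_lit 419) (nat_lit 269) (nat_lit 212)) (XT.lf (nat_lit 0) (nat_lit 189901361795) (nat_lit 76) (nat_lit 64816028390) (nat_lit 76) (nat_lit 61001367876) (nat_lit 2) (nat_lit 4) (nat_lit 3) (nat_lit 5) (nat_lit 3) (nat_lit 4) (nat_lit 420) (nat_lit 269) (nat_lit 211)))) (XT.nd (nat_lit 156) (nat_lit 0) (nat_lit 0) (XT.nd (nat_lit 78) (nat_lit 0) (nat_lit 0) (XT.lf (nat_lit 0) (nat_lit 205862007373) (nat_lit 76) (nat_lit 64652640872) (nat_lit 76) (nat_lit 60826586306) (nat_lit 2) (nat_lit 4) (nat_lit 3) (nat_lit 5) (nat_lit 3) (nat_lit 4) (nat_lit 421) (nat_lit 269) (nat_lit 210)) (XT.lf (nat_lit 0) (nat_lit 222588872073) (nat_lit 76) (nat_lit 64496836566) (nat_lit 76) (nat_lit 60659930521) (nat_lit 2) (nat_lit 4) (nat_lit 3) (nat_lit 5) (nat_lit 3) (nat_lit 4) (nat_lit 422) (nat_lit 269) (nat_lit 209)))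 (XT.nd (nat_lit 78) (nat_lit 0) (nat_lit 0) (XT.lf (nat_lit 0) (nat_lit 240121781763) (nat_lit 76) (nat_lit 64348244508) (nat_lit 76) (nat_lit 60501003722) (nat_lit 2) (nat_lit 4) (nat_lit 3) (nat_lit 5) (nat_lit 3) (nat_lit 4) (nat_lit 423) (nat_lit 269) (nat_lit 208)) (XT.lf (nat_lit 0) (nat_lit 258502481467) (nat_lit 76) (nat_lit 64206510908) (nat_lit 76) (nat_lit 60349427512) (nat_lit 2) (nat_lit 4) (nat_lit 3) (nat_lit 5) (nat_lit 3) (nat_lit 4) (nat_lit 424) (nat_lit 269) (nat_lit 207))))))) (XT.nd (nat_lit 936) (nat_lit 0) (nat_lit 0) (XT.nd (nat_lit 468) (nat_lit 0) (nat_lit 0) (XT.nd (nat_lit 234) (nat_lit 0) (nat_lit 0) (XT.nd (nat_lit 78) (nat_lit 0) (nat_lit 0) (XT.lf (nat_lit 0) (nat_lit 277774734755) (nat_lit 76) (nat_lit 64071298306) (nat_lit 76) (nat_lit 60204840994) (nat_lit 2) (nat_lit 4) (nat_lit 3) (nat_lit 5) (nat_lit 3) (nat_lit 4) (nat_lit 425) (nat_lit 269) (nat_lit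 206)) (XT.nd (nat_lit 78) (nat_lit 0) (nat_lit 0) (XT.lf (nat_lit 0) (nat_lit 297984427944) (nat_lit 76) (nat_lit 63942284765) (nat_lit 76) (nat_lit 60066899915) (nat_lit 2) (nat_lit 4) (nat_lit 3) (nat_lit 5) (nat_lit 3) (nat_lit 4) (nat_lit 426) (nat_lit 269) (nat_lit 205)) (XT.lf (nat_lit 0) (nat_lit 319179679351) (nat_lit 76) (nat_lit 63819163112) (nat_lit 76) (nat_lit 59935275845) (nat_lit 2) (nat_lit 4) (nat_lit 3) (nat_lit 5) (nat_lit 3) (nat_lit 4) (nat_lit 427) (nat_lit 269) (nat_lit 204)))) (XT.nd (nat_lit 78) (nat_lit 0) (nat_lit 0) (XT.lf (nat_lit 0) (nat_lit 341410953862) (nat_lit 76) (nat_lit 63701640199) (nat_lit 76) (nat_lit 59809655391) (nat_lit 2) (nat_lit 4) (nat_lit 3) (nat_lit 5) (nat_lit 3) (nat_lit 4) (nat_lit 428) (nat_lit 269) (nat_lit 203)) (XT.nd (nat_lit 78) (nat_lit 0) (nat_lit 0) (XT.lf (nat_lit 0) (nat_lit 364731183081) (nat_lit 76) (nat_lit 63589436209) (nat_lit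 76) (nat_lit 59689739459) (nat_lit 2) (nat_lit 4) (nat_lit 3) (nat_lit 5) (nat_lit 3) (nat_lit 4) (nat_lit 429) (nat_lit 269) (nat_lit 202)) (XT.lf (nat_lit 0) (nat_lit 389195891365) (nat_lit 76) (nat_lit 63482283992) (nat_lit 76) (nat_lit 59575242534) (nat_lit 2) (nat_lit 4) (nat_lit 3) (nat_lit 5) (nat_lit 3) (nat_lit 4) (nat_lit 430) (nat_lit 269) (nat_lit 201))))) (XT.nd (nat_lit 234) (nat_lit 0) (nat_lit 0) (XT.nd (nat_lit 78) (nat_lit 0) (nat_lit 0) (XT.lf (nat_lit 0) (nat_lit 414863328018) (nat_lit 76) (nat_lit 63379928421) (nat_lit 76) (nat_lit 59465892004) (nat_lit 2) (nat_lit 4) (nat_lit 3) (nat_lit 5) (nat_lit 3) (nat_lit 4) (nat_lit 431) (nat_lit 269) (nat_lit 200)) (XT.nd (nat_lit 78) (nat_lit 0) (nat_lit 0) (XT.lf (nat_lit 0) (nat_lit 441794605985) (nat_lit 76) (nat_lit 63282125794) (nat_lit 76) (nat_lit 59361427510) (nat_lit 2) (nat_lit 4) (nat_lit 3) (nat_lit 5) (nat_lit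 3) (nat_lit 4) (nat_lit 432) (nat_lit 269) (nat_lit 199)) (XT.lf (nat_lit 0) (nat_lit 470053847356) (nat_lit 76) (nat_lit 63188643247) (nat_lit 76) (nat_lit 59261600329) (nat_lit 2) (nat_lit 4) (nat_lit 3) (nat_lit 5) (nat_lit 3) (nat_lit 4) (nat_lit 433) (nat_lit 269) (nat_lit 198)))) (XT.nd (nat_lit 78) (nat_lit 0) (nat_lit 0) (XT.lf (nat_lit 0) (nat_lit 499708336040) (nat_lit 76) (nat_lit 63099258203) (nat_lit 76) (nat_lit 59166172775) (nat_lit 2) (nat_lit 4) (nat_lit 3) (nat_lit 5) (nat_lit 3) (nat_lit 4) (nat_lit 434) (nat_lit 269) (nat_lit 197)) (XT.nd (nat_lit 78) (nat_lit 0) (nat_lit 0) (XT.lf (nat_lit 0) (nat_lit 530828677961) (nat_lit 76) (nat_lit 63013757840) (nat_lit 76) (nat_lit 59074917641) (nat_lit 2) (nat_lit 4) (nat_lit 3) (nat_lit 5) (nat_lit 3) (nat_lit 4) (nat_lit 435) (nat_lit 269) (nat_lit 196)) (XT.lf (nat_lit 0) (nat_lit 563488969173) (nat_lit 76) (nat_lit 62931938585)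 (nat_lit 76) (nat_lit 58987617653) (nat_lit 2) (nat_lit 4) (nat_lit 3) (nat_lit 5) (nat_lit 3) (nat_lit 4) (nat_lit 436) (nat_lit 269) (nat_lit 195)))))) (XT.nd (nat_lit 40950) (nat_lit 0) (nat_lit 684) (XT.nd (nat_lit 234) (nat_lit 0) (nat_lit 0) (XT.nd (nat_lit 78) (nat_lit 0) (nat_lit 0) (XT.lf (nat_lit 0) (nat_lit 597766972273) (nat_lit 76) (nat_lit 62853605631) (nat_lit 76) (nat_lit 58904064953) (nat_lit 2) (nat_lit 4) (nat_lit 3) (nat_lit 5) (nat_lit 3) (nat_lit 4) (nat_lit 437) (nat_lit 269) (nat_lit 194)) (XT.nd (nat_lit 78) (nat_lit 0) (nat_lit 0) (XT.lf (nat_lit 0) (nat_lit 633744301554) (nat_lit 76) (nat_lit 62778572472) (nat_lit 76) (nat_lit 58824060606) (nat_lit 2) (nat_lit 4) (nat_lit 3) (nat_lit 5) (nat_lit 3) (nat_lit 4) (nat_lit 438) (nat_lit 269) (nat_lit 193)) (XT.lf (nat_lit 0) (nat_lit 671506617324) (nat_lit 76) (nat_lit 62706660456) (nat_lit 76) (nat_lit 58747414126)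 (nat_lit 2) (nat_lit 4) (nat_lit 3) (nat_lit 5) (nat_lit 3) (nat_lit 4) (nat_lit 439) (nat_lit 269) (nat_lit 192)))) (XT.nd (nat_lit 78) (nat_lit 0) (nat_lit 0) (XT.lf (nat_lit 0) (nat_lit 711143829859) (nat_lit 76) (nat_lit 62637698364) (nat_lit 76) (nat_lit 58673943021) (nat_lit 2) (nat_lit 4) (nat_lit 3) (nat_lit 5) (nat_lit 3) (nat_lit 4) (nat_lit 440) (nat_lit 269) (nat_lit 191)) (XT.nd (nat_lit 40560) (nat_lit 0) (nat_lit 1140) (XT.lf (nat_lit 0) (nat_lit 752750313474) (nat_lit 76) (nat_lit 62571522002) (nat_lit 76) (nat_lit 58603472360) (nat_lit 2) (nat_lit 4) (nat_lit 3) (nat_lit 5) (nat_lit 3) (nat_lit 4) (nat_lit 441) (nat_lit 269) (nat_lit 190)) (XT.lf (nat_lit 0) (nat_lit 10244253510) (nat_lit 76) (nat_lit 292439045) (nat_lit 76) (nat_lit 292439045) (nat_lit 17) (nat_lit 4) (nat_lit 18) (nat_lit 5) (nat_lit 18) (nat_lit 4) (nat_lit 360) (nat_lit 270) (nat_lit 270))))) (XT.nd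 (nat_lit 234) (nat_lit 228) (nat_lit 0) (XT.nd (nat_lit 78) (nat_lit 76) (nat_lit 0) (XT.lf (nat_lit 0) (nat_lit 5176563675) (nat_lit 152) (nat_lit 12332552395) (nat_lit 0) (nat_lit 4930184471) (nat_lit 15) (nat_lit 5) (nat_lit 17) (nat_lit 4) (nat_lit 15) (nat_lit 4) (nat_lit 361) (nat_lit 270) (nat_lit 269)) (XT.nd (nat_lit 78) (nat_lit 76) (nat_lit 0) (XT.lf (nat_lit 0) (nat_lit 11045332886) (nat_lit 152) (nat_lit 1657352437) (nat_lit 0) (nat_lit 10564306822) (nat_lit 15) (nat_lit 5) (nat_lit 17) (nat_lit 4) (nat_lit 15) (nat_lit 4) (nat_lit 362) (nat_lit 270) (nat_lit 268)) (XT.lf (nat_lit 0) (nat_lit 9506207327) (nat_lit 76) (nat_lit 7668025845) (nat_lit 76) (nat_lit 6963526580) (nat_lit 14) (nat_lit 4) (nat_lit 15) (nat_lit 5) (nat_lit 15) (nat_lit 4) (nat_lit 363) (nat_lit 270) (nat_lit 267)))) (XT.nd (nat_lit 156) (nat_lit 76) (nat_lit 0) (XT.nd (nat_lit 78) (nat_lit 152) (nat_lit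 0) (XT.lf (nat_lit 0) (nat_lit 20941466070) (nat_lit 76) (nat_lit 2517737069) (nat_lit 76) (nat_lit 1600406185) (nat_lit 14) (nat_lit 4) (nat_lit 15) (nat_lit 5) (nat_lit 15) (nat_lit 4) (nat_lit 364) (nat_lit 270) (nat_lit 266)) (XT.lf (nat_lit 0) (nat_lit 3879709466) (nat_lit 152) (nat_lit 19332808692) (nat_lit 0) (nat_lit 2813016452) (nat_lit 12) (nat_lit 5) (nat_lit 14) (nat_lit 4) (nat_lit 12) (nat_lit 4) (nat_lit 365) (nat_lit 270) (nat_lit 265))) (XT.nd (nat_lit 78) (nat_lit 76) (nat_lit 0) (XT.lf (nat_lit 0) (nat_lit 9520085544) (nat_lit 152) (nat_lit 9251837731) (nat_lit 0) (nat_lit 8269540575) (nat_lit 12) (nat_lit 5) (nat_lit 14) (nat_lit 4) (nat_lit 12) (nat_lit 4) (nat_lit 366) (nat_lit 270) (nat_lit 264)) (XT.lf (nat_lit 0) (nat_lit 1048624280) (nat_lit 76) (nat_lit 14246302715) (nat_lit 76) (nat_lit 12820660645) (nat_lit 11) (nat_lit 4) (nat_lit 12) (nat_lit 5) (nat_lit 12)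 (nat_lit 4) (nat_lit 367) (nat_lit 270) (nat_lit 263))))))))
noncomputable def xc34 : XT := (XT.nd (nat_lit 1872) (nat_lit 76) (nat_lit 0) (XT.nd (nat_lit 936) (nat_lit 228) (nat_lit 0) (XT.nd (nat_lit 468) (nat_lit 228) (nat_lit 0) (XT.nd (nat_lit 234) (nat_lit 0) (nat_lit 0) (XT.nd (nat_lit 78) (nat_lit 152) (nat_lit 0) (XT.lf (nat_lit 0) (nat_lit 11872323252) (nat_lit 76) (nat_lit 9481865554) (nat_lit 76) (nat_lit 7889464341) (nat_lit 11) (nat_lit 4) (nat_lit 12) (nat_lit 5) (nat_lit 12) (nat_lit 4) (nat_lit 368) (nat_lit 270) (nat_lit 262)) (XT.nd (nat_lit 78) (nat_lit 152) (nat_lit 0) (XT.lf (nat_lit 0) (nat_lit 22939122360) (nat_lit 76) (nat_lit 4623952244) (nat_lit 76) (nat_lit 2872732801) (nat_lit 11) (nat_lit 4) (nat_lit 12) (nat_lit 5) (nat_lit 12) (nat_lit 4) (nat_lit 369) (nat_lit 270) (nat_lit 261)) (XT.lf (nat_lit 0) (nat_lit 2217333048) (nat_lit 152) (nat_lit 29067974058)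 (nat_lit 0) (nat_lit 405452189) (nat_lit 9) (nat_lit 5) (nat_lit 11) (nat_lit 4) (nat_lit 9) (nat_lit 4) (nat_lit 370) (nat_lit 270) (nat_lit 260)))) (XT.nd (nat_lit 78) (nat_lit 0) (nat_lit 0) (XT.lf (nat_lit 0) (nat_lit 7522227544) (nat_lit 152) (nat_lit 19907895607) (nat_lit 0) (nat_lit 5573153525) (nat_lit 9) (nat_lit 5) (nat_lit 11) (nat_lit 4) (nat_lit 9) (nat_lit 4) (nat_lit 371) (nat_lit 270) (nat_lit 259)) (XT.nd (nat_lit 78) (nat_lit 0) (nat_lit 0) (XT.lf (nat_lit 0) (nat_lit 12951437448) (nat_lit 152) (nat_lit 10565340901) (nat_lit 0) (nat_lit 10871703277) (nat_lit 9) (nat_lit 5) (nat_lit 11) (nat_lit 4) (nat_lit 9) (nat_lit 4) (nat_lit 372) (nat_lit 270) (nat_lit 258)) (XT.lf (nat_lit 0) (nat_lit 18517889452) (nat_lit 152) (nat_lit 1018065762) (nat_lit 0) (nat_lit 16313717041) (nat_lit 9) (nat_lit 5) (nat_lit 11) (nat_lit 4) (nat_lit 9) (nat_lit 4) (nat_lit 373) (nat_lit 270)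 (nat_lit 257))))) (XT.nd (nat_lit 234) (nat_lit 152) (nat_lit 0) (XT.nd (nat_lit 78) (nat_lit 0) (nat_lit 0) (XT.lf (nat_lit 0) (nat_lit 9046196189) (nat_lit 76) (nat_lit 15329877296) (nat_lit 76) (nat_lit 13007192276) (nat_lit 8) (nat_lit 4) (nat_lit 9) (nat_lit 5) (nat_lit 9) (nat_lit 4) (nat_lit 374) (nat_lit 270) (nat_lit 256)) (XT.nd (nat_lit 78) (nat_lit 0) (nat_lit 0) (XT.lf (nat_lit 0) (nat_lit 19403135301) (nat_lit 76) (nat_lit 11015693924) (nat_lit 76) (nat_lit 8580139752) (nat_lit 8) (nat_lit 4) (nat_lit 9) (nat_lit 5) (nat_lit 9) (nat_lit 4) (nat_lit 375) (nat_lit 270) (nat_lit 255)) (XT.lf (nat_lit 0) (nat_lit 30043749100) (nat_lit 76) (nat_lit 6600374670) (nat_lit 76) (nat_lit 4057326067) (nat_lit 8) (nat_lit 4) (nat_lit 9) (nat_lit 5) (nat_lit 9) (nat_lit 4) (nat_lit 376) (nat_lit 270) (nat_lit 254)))) (XT.nd (nat_lit 78) (nat_lit 76) (nat_lit 0) (XT.lf (nat_lit 0) (nat_lit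 553709253) (nat_lit 152) (nat_lit 1510320280) (nat_lit 76) (nat_lit 40430285793) (nat_lit 7) (nat_lit 5) (nat_lit 9) (nat_lit 5) (nat_lit 8) (nat_lit 4) (nat_lit 377) (nat_lit 270) (nat_lit 253)) (XT.nd (nat_lit 78) (nat_lit 0) (nat_lit 0) (XT.lf (nat_lit 0) (nat_lit 5318317410) (nat_lit 152) (nat_lit 36346215127) (nat_lit 0) (nat_lit 2706008011) (nat_lit 6) (nat_lit 5) (nat_lit 8) (nat_lit 4) (nat_lit 6) (nat_lit 4) (nat_lit 378) (nat_lit 270) (nat_lit 252)) (XT.lf (nat_lit 0) (nat_lit 10271025308) (nat_lit 152) (nat_lit 28501788593) (nat_lit 0) (nat_lit 7570279976) (nat_lit 6) (nat_lit 5) (nat_lit 8) (nat_lit 4) (nat_lit 6) (nat_lit 4) (nat_lit 379) (nat_lit 270) (nat_lit 251)))))) (XT.nd (nat_lit 468) (nat_lit 152) (nat_lit 0) (XT.nd (nat_lit 234) (nat_lit 76) (nat_lit 0) (XT.nd (nat_lit 78) (nat_lit 0) (nat_lit 0) (XT.lf (nat_lit 0) (nat_lit 15366640475) (nat_lit 152) (nat_lit 20471210178)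 (nat_lit 0) (nat_lit 12581670444) (nat_lit 6) (nat_lit 5) (nat_lit 8) (nat_lit 4) (nat_lit 6) (nat_lit 4) (nat_lit 380) (nat_lit 270) (nat_lit 250)) (XT.nd (nat_lit 78) (nat_lit 0) (nat_lit 0) (XT.lf (nat_lit 0) (nat_lit 20617295329) (nat_lit 152) (nat_lit 12235359458) (nat_lit 0) (nat_lit 17752111299) (nat_lit 6) (nat_lit 5) (nat_lit 8) (nat_lit 4) (nat_lit 6) (nat_lit 4) (nat_lit 381) (nat_lit 270) (nat_lit 249)) (XT.lf (nat_lit 0) (nat_lit 26035491429) (nat_lit 152) (nat_lit 3774627264) (nat_lit 0) (nat_lit 23093913114) (nat_lit 6) (nat_lit 5) (nat_lit 8) (nat_lit 4) (nat_lit 6) (nat_lit 4) (nat_lit 382) (nat_lit 270) (nat_lit 248)))) (XT.nd (nat_lit 78) (nat_lit 0) (nat_lit 0) (XT.lf (nat_lit 0) (nat_lit 5094176463) (nat_lit 76) (nat_lit 26619487148) (nat_lit 76) (nat_lit 23605152371) (nat_lit 5) (nat_lit 4) (nat_lit 6) (nat_lit 5) (nat_lit 6) (nat_lit 4) (nat_lit 383) (nat_lit 270)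 (nat_lit 247)) (XT.nd (nat_lit 78) (nat_lit 0) (nat_lit 0) (XT.lf (nat_lit 0) (nat_lit 14362327515) (nat_lit 76) (nat_lit 23288447522) (nat_lit 76) (nat_lit 20204820877) (nat_lit 5) (nat_lit 4) (nat_lit 6) (nat_lit 5) (nat_lit 6) (nat_lit 4) (nat_lit 384) (nat_lit 270) (nat_lit 246)) (XT.lf (nat_lit 0) (nat_lit 23927086693) (nat_lit 76) (nat_lit 19872993908) (nat_lit 76) (nat_lit 16723375008) (nat_lit 5) (nat_lit 4) (nat_lit 6) (nat_lit 5) (nat_lit 6) (nat_lit 4) (nat_lit 385) (nat_lit 270) (nat_lit 245))))) (XT.nd (nat_lit 234) (nat_lit 152) (nat_lit 0) (XT.nd (nat_lit 78) (nat_lit 0) (nat_lit 0) (XT.lf (nat_lit 0) (nat_lit 33811227232) (nat_lit 76) (nat_lit 16364994274) (nat_lit 76) (nat_lit 13152525607) (nat_lit 5) (nat_lit 4) (nat_lit 6) (nat_lit 5) (nat_lit 6) (nat_lit 4) (nat_lit 386) (nat_lit 270) (nat_lit 244)) (XT.nd (nat_lit 78) (nat_lit 0) (nat_lit 0) (XT.lf (nat_lit 0) (nat_lit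 44038282802) (nat_lit 76) (nat_lit 12756096240) (nat_lit 76) (nat_lit 9483770651) (nat_lit 5) (nat_lit 4) (nat_lit 6) (nat_lit 5) (nat_lit 6) (nat_lit 4) (nat_lit 387) (nat_lit 270) (nat_lit 243)) (XT.lf (nat_lit 0) (nat_lit 54632603535) (nat_lit 76) (nat_lit 9037707190) (nat_lit 76) (nat_lit 5708375010) (nat_lit 5) (nat_lit 4) (nat_lit 6) (nat_lit 5) (nat_lit 6) (nat_lit 4) (nat_lit 388) (nat_lit 270) (nat_lit 242)))) (XT.nd (nat_lit 78) (nat_lit 152) (nat_lit 0) (XT.lf (nat_lit 0) (nat_lit 65619414002) (nat_lit 76) (nat_lit 5200973819) (nat_lit 76) (nat_lit 1817349647) (nat_lit 5) (nat_lit 4) (nat_lit 6) (nat_lit 5) (nat_lit 6) (nat_lit 4) (nat_lit 389) (nat_lit 270) (nat_lit 241)) (XT.nd (nat_lit 78) (nat_lit 0) (nat_lit 0) (XT.lf (nat_lit 0) (nat_lit 958149676) (nat_lit 76) (nat_lit 1185011546) (nat_lit 152) (nat_lit 73917439054) (nat_lit 3) (nat_lit 5) (nat_lit 4) (nat_lit 5) (nat_lit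 5) (nat_lit 4) (nat_lit 390) (nat_lit 270) (nat_lit 240)) (XT.lf (nat_lit 0) (nat_lit 6341497893) (nat_lit 152) (nat_lit 70283725634) (nat_lit 0) (nat_lit 3022854781) (nat_lit 3) (nat_lit 5) (nat_lit 5) (nat_lit 4) (nat_lit 3) (nat_lit 4) (nat_lit 391) (nat_lit 270) (nat_lit 239))))))) (XT.nd (nat_lit 936) (nat_lit 76) (nat_lit 0) (XT.nd (nat_lit 468) (nat_lit 0) (nat_lit 0) (XT.nd (nat_lit 234) (nat_lit 0) (nat_lit 0) (XT.nd (nat_lit 78) (nat_lit 0) (nat_lit 0) (XT.lf (nat_lit 0) (nat_lit 10705114787) (nat_lit 152) (nat_lit 65370246973) (nat_lit 0) (nat_lit 7341805518) (nat_lit 3) (nat_lit 5) (nat_lit 5) (nat_lit 4) (nat_lit 3) (nat_lit 4) (nat_lit 392) (nat_lit 270) (nat_lit 238)) (XT.nd (nat_lit 78) (nat_lit 0) (nat_lit 0) (XT.lf (nat_lit 0) (nat_lit 15225900116) (nat_lit 152) (nat_lit 60331814511) (nat_lit 0) (nat_lit 11820051651) (nat_lit 3) (nat_lit 5) (nat_lit 5) (nat_lit 4) (nat_lit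 3) (nat_lit 4) (nat_lit 393) (nat_lit 270) (nat_lit 237)) (XT.lf (nat_lit 0) (nat_lit 19914617656) (nat_lit 152) (nat_lit 55156431979) (nat_lit 0) (nat_lit 16468255670) (nat_lit 3) (nat_lit 5) (nat_lit 5) (nat_lit 4) (nat_lit 3) (nat_lit 4) (nat_lit 394) (nat_lit 270) (nat_lit 236)))) (XT.nd (nat_lit 78) (nat_lit 0) (nat_lit 0) (XT.lf (nat_lit 0) (nat_lit 24782431019) (nat_lit 152) (nat_lit 49831777037) (nat_lit 0) (nat_lit 21297484728) (nat_lit 3) (nat_lit 5) (nat_lit 5) (nat_lit 4) (nat_lit 3) (nat_lit 4) (nat_lit 395) (nat_lit 270) (nat_lit 235)) (XT.nd (nat_lit 78) (nat_lit 0) (nat_lit 0) (XT.lf (nat_lit 0) (nat_lit 29840930237) (nat_lit 152) (nat_lit 44345171936) (nat_lit 0) (nat_lit 26319236989) (nat_lit 3) (nat_lit 5) (nat_lit 5) (nat_lit 4) (nat_lit 3) (nat_lit 4) (nat_lit 396) (nat_lit 270) (nat_lit 234)) (XT.lf (nat_lit 0) (nat_lit 35102159356) (nat_lit 152) (nat_lit 38683553330)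 (nat_lit 0) (nat_lit 31545469007) (nat_lit 3) (nat_lit 5) (nat_lit 5) (nat_lit 4) (nat_lit 3) (nat_lit 4) (nat_lit 397) (nat_lit 270) (nat_lit 233))))) (XT.nd (nat_lit 234) (nat_lit 0) (nat_lit 0) (XT.nd (nat_lit 78) (nat_lit 0) (nat_lit 0) (XT.lf (nat_lit 0) (nat_lit 40578645113) (nat_lit 152) (nat_lit 32833441175) (nat_lit 0) (nat_lit 36988624190) (nat_lit 3) (nat_lit 5) (nat_lit 5) (nat_lit 4) (nat_lit 3) (nat_lit 4) (nat_lit 398) (nat_lit 270) (nat_lit 232)) (XT.nd (nat_lit 78) (nat_lit 0) (nat_lit 0) (XT.lf (nat_lit 0) (nat_lit 46283426758) (nat_lit 152) (nat_lit 26780906633) (nat_lit 0) (nat_lit 42661662432) (nat_lit 3) (nat_lit 5) (nat_lit 5) (nat_lit 4) (nat_lit 3) (nat_lit 4) (nat_lit 399) (nat_lit 270) (nat_lit 231)) (XT.lf (nat_lit 0) (nat_lit 52230087106) (nat_lit 152) (nat_lit 20511538907) (nat_lit 0) (nat_lit 48578090967) (nat_lit 3) (nat_lit 5) (nat_lit 5) (nat_lit 4) (nat_lit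 3) (nat_lit 4) (nat_lit 400) (nat_lit 270) (nat_lit 230)))) (XT.nd (nat_lit 78) (nat_lit 0) (nat_lit 0) (XT.lf (nat_lit 0) (nat_lit 58432784871) (nat_lit 152) (nat_lit 14010410931) (nat_lit 0) (nat_lit 54751996529) (nat_lit 3) (nat_lit 5) (nat_lit 5) (nat_lit 4) (nat_lit 3) (nat_lit 4) (nat_lit 401) (nat_lit 270) (nat_lit 229)) (XT.nd (nat_lit 78) (nat_lit 0) (nat_lit 0) (XT.lf (nat_lit 0) (nat_lit 64906288381) (nat_lit 152) (nat_lit 7262043829) (nat_lit 0) (nat_lit 61198078894) (nat_lit 3) (nat_lit 5) (nat_lit 5) (nat_lit 4) (nat_lit 3) (nat_lit 4) (nat_lit 402) (nat_lit 270) (nat_lit 228)) (XT.lf (nat_lit 0) (nat_lit 71666010741) (nat_lit 152) (nat_lit 250370059) (nat_lit 0) (nat_lit 67931685877) (nat_lit 3) (nat_lit 5) (nat_lit 5) (nat_lit 4) (nat_lit 3) (nat_lit 4) (nat_lit 403) (nat_lit 270) (nat_lit 227)))))) (XT.nd (nat_lit 468) (nat_lit 0) (nat_lit 0) (XT.nd (nat_lit 234) (nat_lit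 0) (nat_lit 0) (XT.nd (nat_lit 78) (nat_lit 0) (nat_lit 0) (XT.lf (nat_lit 0) (nat_lit 7274122175) (nat_lit 76) (nat_lit 71567493784) (nat_lit 76) (nat_lit 67808297134) (nat_lit 2) (nat_lit 4) (nat_lit 3) (nat_lit 5) (nat_lit 3) (nat_lit 4) (nat_lit 404) (nat_lit 270) (nat_lit 226)) (XT.nd (nat_lit 78) (nat_lit 0) (nat_lit 0) (XT.lf (nat_lit 0) (nat_lit 15114087172) (nat_lit 76) (nat_lit 71231096194) (nat_lit 76) (nat_lit 67448212127) (nat_lit 2) (nat_lit 4) (nat_lit 3) (nat_lit 5) (nat_lit 3) (nat_lit 4) (nat_lit 405) (nat_lit 270) (nat_lit 225)) (XT.lf (nat_lit 0) (nat_lit 23279913152) (nat_lit 76) (nat_lit 70910627221) (nat_lit 76) (nat_lit 67105183710) (nat_lit 2) (nat_lit 4) (nat_lit 3) (nat_lit 5) (nat_lit 3) (nat_lit 4) (nat_lit 406) (nat_lit 270) (nat_lit 224)))) (XT.nd (nat_lit 78) (nat_lit 0) (nat_lit 0) (XT.lf (nat_lit 0) (nat_lit 31791042555) (nat_lit 76) (nat_lit 70605323845)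 (nat_lit 76) (nat_lit 66778395149) (nat_lit 2) (nat_lit 4) (nat_lit 3) (nat_lit 5) (nat_lit 3) (nat_lit 4) (nat_lit 407) (nat_lit 270) (nat_lit 223)) (XT.nd (nat_lit 78) (nat_lit 0) (nat_lit 0) (XT.lf (nat_lit 0) (nat_lit 40667739977) (nat_lit 76) (nat_lit 70314459152) (nat_lit 76) (nat_lit 66467068376) (nat_lit 2) (nat_lit 4) (nat_lit 3) (nat_lit 5) (nat_lit 3) (nat_lit 4) (nat_lit 408) (nat_lit 270) (nat_lit 222)) (XT.lf (nat_lit 0) (nat_lit 49931140411) (nat_lit 76) (nat_lit 70037340607) (nat_lit 76) (nat_lit 66170462135) (nat_lit 2) (nat_lit 4) (nat_lit 3) (nat_lit 5) (nat_lit 3) (nat_lit 4) (nat_lit 409) (nat_lit 270) (nat_lit 221))))) (XT.nd (nat_lit 234) (nat_lit 0) (nat_lit 0) (XT.nd (nat_lit 78) (nat_lit 0) (nat_lit 0) (XT.lf (nat_lit 0) (nat_lit 59603299571) (nat_lit 76) (nat_lit 69773308406) (nat_lit 76) (nat_lit 65887870223) (nat_lit 2) (nat_lit 4) (nat_lit 3) (nat_lit 5) (nat_lit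 3) (nat_lit 4) (nat_lit 410) (nat_lit 270) (nat_lit 220)) (XT.nd (nat_lit 78) (nat_lit 0) (nat_lit 0) (XT.lf (nat_lit 0) (nat_lit 69707246410) (nat_lit 76) (nat_lit 69521733898) (nat_lit 76) (nat_lit 65618619801) (nat_lit 2) (nat_lit 4) (nat_lit 3) (nat_lit 5) (nat_lit 3) (nat_lit 4) (nat_lit 411) (nat_lit 270) (nat_lit 219)) (XT.lf (nat_lit 0) (nat_lit 80267037942) (nat_lit 76) (nat_lit 69282018098) (nat_lit 76) (nat_lit 65362069796) (nat_lit 2) (nat_lit 4) (nat_lit 3) (nat_lit 5) (nat_lit 3) (nat_lit 4) (nat_lit 412) (nat_lit 270) (nat_lit 218)))) (XT.nd (nat_lit 156) (nat_lit 0) (nat_lit 0) (XT.nd (nat_lit 78) (nat_lit 0) (nat_lit 0) (XT.lf (nat_lit 0) (nat_lit 91307816530) (nat_lit 76) (nat_lit 69053590253) (nat_lit 76) (nat_lit 65117609376) (nat_lit 2) (nat_lit 4) (nat_lit 3) (nat_lit 5) (nat_lit 3) (nat_lit 4) (nat_lit 413) (nat_lit 270) (nat_lit 217)) (XT.lf (nat_lit 0) (nat_lit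 102855869740) (nat_lit 76) (nat_lit 68835906489) (nat_lit 76) (nat_lit 64884656491) (nat_lit 2) (nat_lit 4) (nat_lit 3) (nat_lit 5) (nat_lit 3) (nat_lit 4) (nat_lit 414) (nat_lit 270) (nat_lit 216))) (XT.nd (nat_lit 78) (nat_lit 0) (nat_lit 0) (XT.lf (nat_lit 0) (nat_lit 114938692937) (nat_lit 76) (nat_lit 68628448509) (nat_lit 76) (nat_lit 64662656493) (nat_lit 2) (nat_lit 4) (nat_lit 3) (nat_lit 5) (nat_lit 3) (nat_lit 4) (nat_lit 415) (nat_lit 270) (nat_lit 215)) (XT.lf (nat_lit 0) (nat_lit 127585054749) (nat_lit 76) (nat_lit 68430722367) (nat_lit 76) (nat_lit 64451080809) (nat_lit 2) (nat_lit 4) (nat_lit 3) (nat_lit 5) (nat_lit 3) (nat_lit 4) (nat_lit 416) (nat_lit 270) (nat_lit 214))))))))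
noncomputable def xc35 : XT := (XT.nd (nat_lit 42276) (nat_lit 0) (nat_lit 304) (XT.nd (nat_lit 936) (nat_lit 0) (nat_lit 0) (XT.nd (nat_lit 468) (nat_lit 0) (nat_lit 0) (XT.nd (nat_lit 234) (nat_lit 0) (nat_lit 0) (XT.nd (nat_lit 78) (nat_lit 0) (nat_lit 0) (XT.lf (nat_lit 0) (nat_lit 140825065560) (nat_lit 76) (nat_lit 68242257285) (nat_lit 76) (nat_lit 64249425688) (nat_lit 2) (nat_lit 4) (nat_lit 3) (nat_lit 5) (nat_lit 3) (nat_lit 4) (nat_lit 417) (nat_lit 270) (nat_lit 213)) (XT.nd (nat_lit 78) (nat_lit 0) (nat_lit 0) (XT.lf (nat_lit 0) (nat_lit 154690249207) (nat_lit 76) (nat_lit 68062604538) (nat_lit 76) (nat_lit 64057210998) (nat_lit 2) (nat_lit 4) (nat_lit 3) (nat_lit 5) (nat_lit 3) (nat_lit 4) (nat_lit 418) (nat_lit 270) (nat_lit 212)) (XT.lf (nat_lit 0) (nat_lit 169213618029) (nat_lit 76) (nat_lit 67891336381) (nat_lit 76) (nat_lit 63873979087) (nat_lit 2) (nat_lit 4) (nat_lit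 3) (nat_lit 5) (nat_lit 3) (nat_lit 4) (nat_lit 419) (nat_lit 270) (nat_lit 211)))) (XT.nd (nat_lit 78) (nat_lit 0) (nat_lit 0) (XT.lf (nat_lit 0) (nat_lit 184429751479) (nat_lit 76) (nat_lit 67728045033) (nat_lit 76) (nat_lit 63699293686) (nat_lit 2) (nat_lit 4) (nat_lit 3) (nat_lit 5) (nat_lit 3) (nat_lit 4) (nat_lit 420) (nat_lit 270) (nat_lit 210)) (XT.nd (nat_lit 78) (nat_lit 0) (nat_lit 0) (XT.lf (nat_lit 0) (nat_lit 200374878443) (nat_lit 76) (nat_lit 67572341704) (nat_lit 76) (nat_lit 63532738879) (nat_lit 2) (nat_lit 4) (nat_lit 3) (nat_lit 5) (nat_lit 3) (nat_lit 4) (nat_lit 421) (nat_lit 270) (nat_lit 209)) (XT.lf (nat_lit 0) (nat_lit 217086963512) (nat_lit 76) (nat_lit 67423855673) (nat_lit 76) (nat_lit 63373918106) (nat_lit 2) (nat_lit 4) (nat_lit 3) (nat_lit 5) (nat_lit 3) (nat_lit 4) (nat_lit 422) (nat_lit 270) (nat_lit 208))))) (XT.nd (nat_lit 234) (nat_lit 0) (nat_lit 0)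 (XT.nd (nat_lit 78) (nat_lit 0) (nat_lit 0) (XT.lf (nat_lit 0) (nat_lit 234605797362) (nat_lit 76) (nat_lit 67282233401) (nat_lit 76) (nat_lit 63222453224) (nat_lit 2) (nat_lit 4) (nat_lit 3) (nat_lit 5) (nat_lit 3) (nat_lit 4) (nat_lit 423) (nat_lit 270) (nat_lit 207)) (XT.nd (nat_lit 78) (nat_lit 0) (nat_lit 0) (XT.lf (nat_lit 0) (nat_lit 252973091504) (nat_lit 76) (nat_lit 67147137692) (nat_lit 76) (nat_lit 63077983600) (nat_lit 2) (nat_lit 4) (nat_lit 3) (nat_lit 5) (nat_lit 3) (nat_lit 4) (nat_lit 424) (nat_lit 270) (nat_lit 206)) (XT.lf (nat_lit 0) (nat_lit 272232577591) (nat_lit 76) (nat_lit 67018246891) (nat_lit 76) (nat_lit 62940165261) (nat_lit 2) (nat_lit 4) (nat_lit 3) (nat_lit 5) (nat_lit 3) (nat_lit 4) (nat_lit 425) (nat_lit 270) (nat_lit 205)))) (XT.nd (nat_lit 78) (nat_lit 0) (nat_lit 0) (XT.lf (nat_lit 0) (nat_lit 292430111540) (nat_lit 76) (nat_lit 66895254113) (nat_lit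 76) (nat_lit 62808670066) (nat_lit 2) (nat_lit 4) (nat_lit 3) (nat_lit 5) (nat_lit 3) (nat_lit 4) (nat_lit 426) (nat_lit 270) (nat_lit 204)) (XT.nd (nat_lit 78) (nat_lit 0) (nat_lit 0) (XT.lf (nat_lit 0) (nat_lit 313613782720) (nat_lit 76) (nat_lit 66777866520) (nat_lit 76) (nat_lit 62683184932) (nat_lit 2) (nat_lit 4) (nat_lit 3) (nat_lit 5) (nat_lit 3) (nat_lit 4) (nat_lit 427) (nat_lit 270) (nat_lit 203)) (XT.lf (nat_lit 0) (nat_lit 335834028442) (nat_lit 76) (nat_lit 66665804616) (nat_lit 76) (nat_lit 62563411086) (nat_lit 2) (nat_lit 4) (nat_lit 3) (nat_lit 5) (nat_lit 3) (nat_lit 4) (nat_lit 428) (nat_lit 270) (nat_lit 202)))))) (XT.nd (nat_lit 468) (nat_lit 0) (nat_lit 0) (XT.nd (nat_lit 234) (nat_lit 0) (nat_lit 0) (XT.nd (nat_lit 78) (nat_lit 0) (nat_lit 0) (XT.lf (nat_lit 0) (nat_lit 359143754053) (nat_lit 76) (nat_lit 66558801589) (nat_lit 76) (nat_lit 62449063350) (nat_lit 2)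 (nat_lit 4) (nat_lit 3) (nat_lit 5) (nat_lit 3) (nat_lit 4) (nat_lit 429) (nat_lit 270) (nat_lit 201)) (XT.nd (nat_lit 78) (nat_lit 0) (nat_lit 0) (XT.lf (nat_lit 0) (nat_lit 383598458900) (nat_lit 76) (nat_lit 66456602668) (nat_lit 76) (nat_lit 62339869470) (nat_lit 2) (nat_lit 4) (nat_lit 3) (nat_lit 5) (nat_lit 3) (nat_lit 4) (nat_lit 430) (nat_lit 270) (nat_lit 200)) (XT.lf (nat_lit 0) (nat_lit 409256368471) (nat_lit 76) (nat_lit 66358964522) (nat_lit 76) (nat_lit 62235569458) (nat_lit 2) (nat_lit 4) (nat_lit 3) (nat_lit 5) (nat_lit 3) (nat_lit 4) (nat_lit 431) (nat_lit 270) (nat_lit 199)))) (XT.nd (nat_lit 78) (nat_lit 0) (nat_lit 0) (XT.lf (nat_lit 0) (nat_lit 436178573026) (nat_lit 76) (nat_lit 66265654681) (nat_lit 76) (nat_lit 62135914982) (nat_lit 2) (nat_lit 4) (nat_lit 3) (nat_lit 5) (nat_lit 3) (nat_lit 4) (nat_lit 432) (nat_lit 270) (nat_lit 198)) (XT.nd (nat_lit 78) (nat_lit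 0) (nat_lit 0) (XT.lf (nat_lit 0) (nat_lit 464429173053) (nat_lit 76) (nat_lit 66176450978) (nat_lit 76) (nat_lit 62040668770) (nat_lit 2) (nat_lit 4) (nat_lit 3) (nat_lit 5) (nat_lit 3) (nat_lit 4) (nat_lit 433) (nat_lit 270) (nat_lit 197)) (XT.lf (nat_lit 0) (nat_lit 494075431885) (nat_lit 76) (nat_lit 66091141023) (nat_lit 76) (nat_lit 61949604045) (nat_lit 2) (nat_lit 4) (nat_lit 3) (nat_lit 5) (nat_lit 3) (nat_lit 4) (nat_lit 434) (nat_lit 270) (nat_lit 196))))) (XT.nd (nat_lit 234) (nat_lit 0) (nat_lit 0) (XT.nd (nat_lit 78) (nat_lit 0) (nat_lit 0) (XT.lf (nat_lit 0) (nat_lit 525187935852) (nat_lit 76) (nat_lit 66009521698) (nat_lit 76) (nat_lit 61862503985) (nat_lit 2) (nat_lit 4) (nat_lit 3) (nat_lit 5) (nat_lit 3) (nat_lit 4) (nat_lit 435) (nat_lit 270) (nat_lit 195)) (XT.nd (nat_lit 78) (nat_lit 0) (nat_lit 0) (XT.lf (nat_lit 0) (nat_lit 557840762346) (nat_lit 76) (nat_lit 65931398669)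 (nat_lit 76) (nat_lit 61779161210) (nat_lit 2) (nat_lit 4) (nat_lit 3) (nat_lit 5) (nat_lit 3) (nat_lit 4) (nat_lit 436) (nat_lit 270) (nat_lit 194)) (XT.lf (nat_lit 0) (nat_lit 592111656190) (nat_lit 76) (nat_lit 65856585931) (nat_lit 76) (nat_lit 61699377285) (nat_lit 2) (nat_lit 4) (nat_lit 3) (nat_lit 5) (nat_lit 3) (nat_lit 4) (nat_lit 437) (nat_lit 270) (nat_lit 193)))) (XT.nd (nat_lit 156) (nat_lit 0) (nat_lit 0) (XT.nd (nat_lit 78) (nat_lit 0) (nat_lit 0) (XT.lf (nat_lit 0) (nat_lit 628082214752) (nat_lit 76) (nat_lit 65784905358) (nat_lit 76) (nat_lit 61622962247) (nat_lit 2) (nat_lit 4) (nat_lit 3) (nat_lit 5) (nat_lit 3) (nat_lit 4) (nat_lit 438) (nat_lit 270) (nat_lit 192)) (XT.lf (nat_lit 0) (nat_lit 665838082217) (nat_lit 76) (nat_lit 65716186281) (nat_lit 76) (nat_lit 61549734157) (nat_lit 2) (nat_lit 4) (nat_lit 3) (nat_lit 5) (nat_lit 3) (nat_lit 4) (nat_lit 439) (nat_lit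 270) (nat_lit 191))) (XT.nd (nat_lit 78) (nat_lit 0) (nat_lit 0) (XT.lf (nat_lit 0) (nat_lit 705469153510) (nat_lit 76) (nat_lit 65650265084) (nat_lit 76) (nat_lit 61479518661) (nat_lit 2) (nat_lit 4) (nat_lit 3) (nat_lit 5) (nat_lit 3) (nat_lit 4) (nat_lit 440) (nat_lit 270) (nat_lit 190)) (XT.lf (nat_lit 0) (nat_lit 747069788323) (nat_lit 76) (nat_lit 65586984811) (nat_lit 76) (nat_lit 61412148581) (nat_lit 2) (nat_lit 4) (nat_lit 3) (nat_lit 5) (nat_lit 3) (nat_lit 4) (nat_lit 441) (nat_lit 270) (nat_lit 189))))))) (XT.nd (nat_lit 936) (nat_lit 380) (nat_lit 0) (XT.nd (nat_lit 468) (nat_lit 228) (nat_lit 0) (XT.nd (nat_lit 234) (nat_lit 228) (nat_lit 0) (XT.nd (nat_lit 78) (nat_lit 76) (nat_lit 0) (XT.lf (nat_lit 0) (nat_lit 4443498892) (nat_lit 152) (nat_lit 1211324696) (nat_lit 0) (nat_lit 4443498892) (nat_lit 18) (nat_lit 5) (nat_lit 20) (nat_lit 4) (nat_lit 18) (nat_lit 4) (nat_lit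 358) (nat_lit 271) (nat_lit 271)) (XT.nd (nat_lit 78) (nat_lit 0) (nat_lit 0) (XT.lf (nat_lit 0) (nat_lit 8802427420) (nat_lit 76) (nat_lit 6188736712) (nat_lit 76) (nat_lit 5917103640) (nat_lit 17) (nat_lit 4) (nat_lit 18) (nat_lit 5) (nat_lit 18) (nat_lit 4) (nat_lit 359) (nat_lit 271) (nat_lit 270)) (XT.lf (nat_lit 0) (nat_lit 20312926096) (nat_lit 76) (nat_lit 940140322) (nat_lit 76) (nat_lit 409809086) (nat_lit 17) (nat_lit 4) (nat_lit 18) (nat_lit 5) (nat_lit 18) (nat_lit 4) (nat_lit 360) (nat_lit 271) (nat_lit 269)))) (XT.nd (nat_lit 78) (nat_lit 76) (nat_lit 0) (XT.lf (nat_lit 0) (nat_lit 5244449621) (nat_lit 152) (nat_lit 12699693498) (nat_lit 0) (nat_lit 4504725393) (nat_lit 15) (nat_lit 5) (nat_lit 17) (nat_lit 4) (nat_lit 15) (nat_lit 4) (nat_lit 361) (nat_lit 271) (nat_lit 268)) (XT.nd (nat_lit 78) (nat_lit 76) (nat_lit 0) (XT.lf (nat_lit 0) (nat_lit 11024572041) (nat_lit 152)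 (nat_lit 2195058512) (nat_lit 0) (nat_lit 10061374612) (nat_lit 15) (nat_lit 5) (nat_lit 17) (nat_lit 4) (nat_lit 15) (nat_lit 4) (nat_lit 362) (nat_lit 271) (nat_lit 267)) (XT.lf (nat_lit 0) (nat_lit 8782908337) (nat_lit 76) (nat_lit 8274845751) (nat_lit 76) (nat_lit 7098816703) (nat_lit 14) (nat_lit 4) (nat_lit 15) (nat_lit 5) (nat_lit 15) (nat_lit 4) (nat_lit 363) (nat_lit 271) (nat_lit 266))))) (XT.nd (nat_lit 234) (nat_lit 76) (nat_lit 0) (XT.nd (nat_lit 78) (nat_lit 152) (nat_lit 0) (XT.lf (nat_lit 0) (nat_lit 20058344294) (nat_lit 76) (nat_lit 3201479226) (nat_lit 76) (nat_lit 1822753397) (nat_lit 14) (nat_lit 4) (nat_lit 15) (nat_lit 5) (nat_lit 15) (nat_lit 4) (nat_lit 364) (nat_lit 271) (nat_lit 265)) (XT.nd (nat_lit 78) (nat_lit 0) (nat_lit 0) (XT.lf (nat_lit 0) (nat_lit 3554987910) (nat_lit 152) (nat_lit 20441109128) (nat_lit 0) (nat_lit 2058063737) (nat_lit 12) (nat_lit 5)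 (nat_lit 14) (nat_lit 4) (nat_lit 12) (nat_lit 4) (nat_lit 365) (nat_lit 271) (nat_lit 264)) (XT.lf (nat_lit 0) (nat_lit 9115400381) (nat_lit 152) (nat_lit 10515318666) (nat_lit 0) (nat_lit 7443379108) (nat_lit 12) (nat_lit 5) (nat_lit 14) (nat_lit 4) (nat_lit 12) (nat_lit 4) (nat_lit 366) (nat_lit 271) (nat_lit 263)))) (XT.nd (nat_lit 78) (nat_lit 76) (nat_lit 0) (XT.lf (nat_lit 0) (nat_lit 14797714052) (nat_lit 152) (nat_lit 396210131) (nat_lit 0) (nat_lit 12958933636) (nat_lit 12) (nat_lit 5) (nat_lit 14) (nat_lit 4) (nat_lit 12) (nat_lit 4) (nat_lit 367) (nat_lit 271) (nat_lit 262)) (XT.nd (nat_lit 78) (nat_lit 0) (nat_lit 0) (XT.lf (nat_lit 0) (nat_lit 10268981118) (nat_lit 76) (nat_lit 10506804696) (nat_lit 76) (nat_lit 8509206048) (nat_lit 11) (nat_lit 4) (nat_lit 12) (nat_lit 5) (nat_lit 12) (nat_lit 4) (nat_lit 368) (nat_lit 271) (nat_lit 261)) (XT.lf (nat_lit 0) (nat_lit 21197297152)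 (nat_lit 76) (nat_lit 5716136779) (nat_lit 76) (nat_lit 3567282673) (nat_lit 11) (nat_lit 4) (nat_lit 12) (nat_lit 5) (nat_lit 12) (nat_lit 4) (nat_lit 369) (nat_lit 271) (nat_lit 260)))))) (XT.nd (nat_lit 468) (nat_lit 152) (nat_lit 0) (XT.nd (nat_lit 234) (nat_lit 76) (nat_lit 0) (XT.nd (nat_lit 78) (nat_lit 0) (nat_lit 0) (XT.lf (nat_lit 0) (nat_lit 656429020) (nat_lit 76) (nat_lit 782271439) (nat_lit 152) (nat_lit 30302833665) (nat_lit 9) (nat_lit 5) (nat_lit 10) (nat_lit 5) (nat_lit 11) (nat_lit 4) (nat_lit 370) (nat_lit 271) (nat_lit 259)) (XT.nd (nat_lit 78) (nat_lit 0) (nat_lit 0) (XT.lf (nat_lit 0) (nat_lit 6662635499) (nat_lit 152) (nat_lit 22047216944) (nat_lit 0) (nat_lit 4348254467) (nat_lit 9) (nat_lit 5) (nat_lit 11) (nat_lit 4) (nat_lit 9) (nat_lit 4) (nat_lit 371) (nat_lit 271) (nat_lit 258)) (XT.lf (nat_lit 0) (nat_lit 12026373015) (nat_lit 152) (nat_lit 12832665800) (nat_lit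 0) (nat_lit 9587553743) (nat_lit 9) (nat_lit 5) (nat_lit 11) (nat_lit 4) (nat_lit 9) (nat_lit 4) (nat_lit 372) (nat_lit 271) (nat_lit 257)))) (XT.nd (nat_lit 78) (nat_lit 76) (nat_lit 0) (XT.lf (nat_lit 0) (nat_lit 17530470363) (nat_lit 152) (nat_lit 3407298816) (nat_lit 0) (nat_lit 14973138481) (nat_lit 9) (nat_lit 5) (nat_lit 11) (nat_lit 4) (nat_lit 9) (nat_lit 4) (nat_lit 373) (nat_lit 271) (nat_lit 256)) (XT.nd (nat_lit 78) (nat_lit 0) (nat_lit 0) (XT.lf (nat_lit 0) (nat_lit 6458022407) (nat_lit 76) (nat_lit 16830837956) (nat_lit 76) (nat_lit 14160636923) (nat_lit 8) (nat_lit 4) (nat_lit 9) (nat_lit 5) (nat_lit 9) (nat_lit 4) (nat_lit 374) (nat_lit 271) (nat_lit 255)) (XT.lf (nat_lit 0) (nat_lit 16700731144) (nat_lit 76) (nat_lit 12572543992) (nat_lit 76) (nat_lit 9794848529) (nat_lit 8) (nat_lit 4) (nat_lit 9) (nat_lit 5) (nat_lit 9) (nat_lit 4) (nat_lit 375) (nat_lit 271) (nat_lit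 254))))) (XT.nd (nat_lit 234) (nat_lit 0) (nat_lit 0) (XT.nd (nat_lit 78) (nat_lit 152) (nat_lit 0) (XT.lf (nat_lit 0) (nat_lit 27232554110) (nat_lit 76) (nat_lit 8210452745) (nat_lit 76) (nat_lit 5330381634) (nat_lit 8) (nat_lit 4) (nat_lit 9) (nat_lit 5) (nat_lit 9) (nat_lit 4) (nat_lit 376) (nat_lit 271) (nat_lit 253)) (XT.nd (nat_lit 78) (nat_lit 152) (nat_lit 0) (XT.lf (nat_lit 0) (nat_lit 38078567073) (nat_lit 76) (nat_lit 3734178284) (nat_lit 76) (nat_lit 756606555) (nat_lit 8) (nat_lit 4) (nat_lit 9) (nat_lit 5) (nat_lit 9) (nat_lit 4) (nat_lit 377) (nat_lit 271) (nat_lit 252)) (XT.lf (nat_lit 0) (nat_lit 3903640722) (nat_lit 152) (nat_lit 39569538741) (nat_lit 0) (nat_lit 979422190) (nat_lit 6) (nat_lit 5) (nat_lit 8) (nat_lit 4) (nat_lit 6) (nat_lit 4) (nat_lit 378) (nat_lit 271) (nat_lit 251)))) (XT.nd (nat_lit 156) (nat_lit 0) (nat_lit 0) (XT.nd (nat_lit 78) (nat_lit 0) (nat_lit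 0) (XT.lf (nat_lit 0) (nat_lit 8805261730) (nat_lit 152) (nat_lit 31825633888) (nat_lit 0) (nat_lit 5796818498) (nat_lit 6) (nat_lit 5) (nat_lit 8) (nat_lit 4) (nat_lit 6) (nat_lit 4) (nat_lit 379) (nat_lit 271) (nat_lit 250)) (XT.lf (nat_lit 0) (nat_lit 13852222716) (nat_lit 152) (nat_lit 23890790407) (nat_lit 0) (nat_lit 10763565485) (nat_lit 6) (nat_lit 5) (nat_lit 8) (nat_lit 4) (nat_lit 6) (nat_lit 4) (nat_lit 380) (nat_lit 271) (nat_lit 249))) (XT.nd (nat_lit 78) (nat_lit 0) (nat_lit 0) (XT.lf (nat_lit 0) (nat_lit 19056540254) (nat_lit 152) (nat_lit 15746115815) (nat_lit 0) (nat_lit 15891488739) (nat_lit 6) (nat_lit 5) (nat_lit 8) (nat_lit 4) (nat_lit 6) (nat_lit 4) (nat_lit 381) (nat_lit 271) (nat_lit 248)) (XT.lf (nat_lit 0) (nat_lit 24430605577) (nat_lit 152) (nat_lit 7372218029) (nat_lit 0) (nat_lit 21192797599) (nat_lit 6) (nat_lit 5) (nat_lit 8) (nat_lit 4) (nat_lit 6) (nat_lit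 4) (nat_lit 382) (nat_lit 271) (nat_lit 247))))))))
noncomputable def xc36 : XT := (XT.nd (nat_lit 1872) (nat_lit 0) (nat_lit 0) (XT.nd (nat_lit 936) (nat_lit 76) (nat_lit 0) (XT.nd (nat_lit 468) (nat_lit 152) (nat_lit 0) (XT.nd (nat_lit 234) (nat_lit 0) (nat_lit 0) (XT.nd (nat_lit 78) (nat_lit 0) (nat_lit 0) (XT.lf (nat_lit 0) (nat_lit 1292199247) (nat_lit 76) (nat_lit 28715189681) (nat_lit 76) (nat_lit 25408089835) (nat_lit 5) (nat_lit 4) (nat_lit 6) (nat_lit 5) (nat_lit 6) (nat_lit 4) (nat_lit 383) (nat_lit 271) (nat_lit 246)) (XT.nd (nat_lit 78) (nat_lit 0) (nat_lit 0) (XT.lf (nat_lit 0) (nat_lit 10478984725) (nat_lit 76) (nat_lit 25424217369) (nat_lit 76) (nat_lit 22051125268) (nat_lit 5) (nat_lit 4) (nat_lit 6) (nat_lit 5) (nat_lit 6) (nat_lit 4) (nat_lit 384) (nat_lit 271) (nat_lit 245)) (XT.lf (nat_lit 0) (nat_lit 19966252880) (nat_lit 76) (nat_lit 22046923102) (nat_lit 76) (nat_lit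 18610981233) (nat_lit 5) (nat_lit 4) (nat_lit 6) (nat_lit 5) (nat_lit 6) (nat_lit 4) (nat_lit 385) (nat_lit 271) (nat_lit 244)))) (XT.nd (nat_lit 78) (nat_lit 0) (nat_lit 0) (XT.lf (nat_lit 0) (nat_lit 29776592446) (nat_lit 76) (nat_lit 18575265702) (nat_lit 76) (nat_lit 15079466913) (nat_lit 5) (nat_lit 4) (nat_lit 6) (nat_lit 5) (nat_lit 6) (nat_lit 4) (nat_lit 386) (nat_lit 271) (nat_lit 243)) (XT.nd (nat_lit 78) (nat_lit 0) (nat_lit 0) (XT.lf (nat_lit 0) (nat_lit 39933361374) (nat_lit 76) (nat_lit 15000979320) (nat_lit 76) (nat_lit 11448173939) (nat_lit 5) (nat_lit 4) (nat_lit 6) (nat_lit 5) (nat_lit 6) (nat_lit 4) (nat_lit 387) (nat_lit 271) (nat_lit 242)) (XT.lf (nat_lit 0) (nat_lit 50460742447) (nat_lit 76) (nat_lit 11315553749) (nat_lit 76) (nat_lit 7708456376) (nat_lit 5) (nat_lit 4) (nat_lit 6) (nat_lit 5) (nat_lit 6) (nat_lit 4) (nat_lit 388) (nat_lit 271) (nat_lit 241))))) (XT.nd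 (nat_lit 234) (nat_lit 0) (nat_lit 0) (XT.nd (nat_lit 78) (nat_lit 152) (nat_lit 0) (XT.lf (nat_lit 0) (nat_lit 61383800859) (nat_lit 76) (nat_lit 7510214166) (nat_lit 76) (nat_lit 3851410134) (nat_lit 5) (nat_lit 4) (nat_lit 6) (nat_lit 5) (nat_lit 6) (nat_lit 4) (nat_lit 389) (nat_lit 271) (nat_lit 240)) (XT.nd (nat_lit 78) (nat_lit 76) (nat_lit 0) (XT.lf (nat_lit 0) (nat_lit 127918660) (nat_lit 152) (nat_lit 3445815215) (nat_lit 76) (nat_lit 72598458865) (nat_lit 4) (nat_lit 5) (nat_lit 6) (nat_lit 5) (nat_lit 5) (nat_lit 4) (nat_lit 390) (nat_lit 271) (nat_lit 239)) (XT.lf (nat_lit 0) (nat_lit 4201221648) (nat_lit 152) (nat_lit 74939622587) (nat_lit 0) (nat_lit 625080760) (nat_lit 3) (nat_lit 5) (nat_lit 5) (nat_lit 4) (nat_lit 3) (nat_lit 4) (nat_lit 391) (nat_lit 271) (nat_lit 238)))) (XT.nd (nat_lit 78) (nat_lit 0) (nat_lit 0) (XT.lf (nat_lit 0) (nat_lit 8535076391) (nat_lit 152)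 (nat_lit 70085031796) (nat_lit 0) (nat_lit 4916396306) (nat_lit 3) (nat_lit 5) (nat_lit 5) (nat_lit 4) (nat_lit 3) (nat_lit 4) (nat_lit 392) (nat_lit 271) (nat_lit 237)) (XT.nd (nat_lit 78) (nat_lit 0) (nat_lit 0) (XT.lf (nat_lit 0) (nat_lit 13027516815) (nat_lit 152) (nat_lit 65102683018) (nat_lit 0) (nat_lit 9368323210) (nat_lit 3) (nat_lit 5) (nat_lit 5) (nat_lit 4) (nat_lit 3) (nat_lit 4) (nat_lit 393) (nat_lit 271) (nat_lit 236)) (XT.lf (nat_lit 0) (nat_lit 17689239207) (nat_lit 152) (nat_lit 59980713518) (nat_lit 0) (nat_lit 13991461296) (nat_lit 3) (nat_lit 5) (nat_lit 5) (nat_lit 4) (nat_lit 3) (nat_lit 4) (nat_lit 394) (nat_lit 271) (nat_lit 235)))))) (XT.nd (nat_lit 468) (nat_lit 76) (nat_lit 0) (XT.nd (nat_lit 234) (nat_lit 0) (nat_lit 0) (XT.nd (nat_lit 78) (nat_lit 0) (nat_lit 0) (XT.lf (nat_lit 0) (nat_lit 22531342905) (nat_lit 152) (nat_lit 54706928131) (nat_lit 0) (nat_lit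 18796818037) (nat_lit 3) (nat_lit 5) (nat_lit 5) (nat_lit 4) (nat_lit 3) (nat_lit 4) (nat_lit 395) (nat_lit 271) (nat_lit 234)) (XT.nd (nat_lit 78) (nat_lit 0) (nat_lit 0) (XT.lf (nat_lit 0) (nat_lit 27565356728) (nat_lit 152) (nat_lit 49268770226) (nat_lit 0) (nat_lit 23795834759) (nat_lit 3) (nat_lit 5) (nat_lit 5) (nat_lit 4) (nat_lit 3) (nat_lit 4) (nat_lit 396) (nat_lit 271) (nat_lit 233)) (XT.lf (nat_lit 0) (nat_lit 32803266424) (nat_lit 152) (nat_lit 43653291806) (nat_lit 0) (nat_lit 29000413881) (nat_lit 3) (nat_lit 5) (nat_lit 5) (nat_lit 4) (nat_lit 3) (nat_lit 4) (nat_lit 397) (nat_lit 271) (nat_lit 232)))) (XT.nd (nat_lit 78) (nat_lit 0) (nat_lit 0) (XT.lf (nat_lit 0) (nat_lit 38257543205) (nat_lit 152) (nat_lit 37847122686) (nat_lit 0) (nat_lit 34422947259) (nat_lit 3) (nat_lit 5) (nat_lit 5) (nat_lit 4) (nat_lit 3) (nat_lit 4) (nat_lit 398) (nat_lit 271) (nat_lit 231)) (XT.nd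 (nat_lit 78) (nat_lit 0) (nat_lit 0) (XT.lf (nat_lit 0) (nat_lit 43941173445) (nat_lit 152) (nat_lit 31836438652) (nat_lit 0) (nat_lit 40076345687) (nat_lit 3) (nat_lit 5) (nat_lit 5) (nat_lit 4) (nat_lit 3) (nat_lit 4) (nat_lit 399) (nat_lit 271) (nat_lit 230)) (XT.lf (nat_lit 0) (nat_lit 49867689598) (nat_lit 152) (nat_lit 25606928554) (nat_lit 0) (nat_lit 45974069637) (nat_lit 3) (nat_lit 5) (nat_lit 5) (nat_lit 4) (nat_lit 3) (nat_lit 4) (nat_lit 400) (nat_lit 271) (nat_lit 229))))) (XT.nd (nat_lit 234) (nat_lit 76) (nat_lit 0) (XT.nd (nat_lit 78) (nat_lit 0) (nat_lit 0) (XT.lf (nat_lit 0) (nat_lit 56051202415) (nat_lit 152) (nat_lit 19143760223) (nat_lit 0) (nat_lit 52130161309) (nat_lit 3) (nat_lit 5) (nat_lit 5) (nat_lit 4) (nat_lit 3) (nat_lit 4) (nat_lit 401) (nat_lit 271) (nat_lit 228)) (XT.nd (nat_lit 78) (nat_lit 0) (nat_lit 0) (XT.lf (nat_lit 0) (nat_lit 62506434547) (nat_lit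 152) (nat_lit 12431545163) (nat_lit 0) (nat_lit 58559278064) (nat_lit 3) (nat_lit 5) (nat_lit 5) (nat_lit 4) (nat_lit 3) (nat_lit 4) (nat_lit 402) (nat_lit 271) (nat_lit 227)) (XT.lf (nat_lit 0) (nat_lit 69248755593) (nat_lit 152) (nat_lit 5454301911) (nat_lit 0) (nat_lit 65276727323) (nat_lit 3) (nat_lit 5) (nat_lit 5) (nat_lit 4) (nat_lit 3) (nat_lit 4) (nat_lit 403) (nat_lit 271) (nat_lit 226)))) (XT.nd (nat_lit 78) (nat_lit 0) (nat_lit 0) (XT.lf (nat_lit 0) (nat_lit 1864249648) (nat_lit 76) (nat_lit 74459075213) (nat_lit 76) (nat_lit 70463359526) (nat_lit 2) (nat_lit 4) (nat_lit 3) (nat_lit 5) (nat_lit 3) (nat_lit 4) (nat_lit 404) (nat_lit 271) (nat_lit 225)) (XT.nd (nat_lit 78) (nat_lit 0) (nat_lit 0) (XT.lf (nat_lit 0) (nat_lit 9671952563) (nat_lit 76) (nat_lit 74138652499) (nat_lit 76) (nat_lit 70120377369) (nat_lit 2) (nat_lit 4) (nat_lit 3) (nat_lit 5) (nat_lit 3) (nat_lit 4) (nat_lit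 405) (nat_lit 271) (nat_lit 224)) (XT.lf (nat_lit 0) (nat_lit 17807052750) (nat_lit 76) (nat_lit 73833397695) (nat_lit 76) (nat_lit 69793637380) (nat_lit 2) (nat_lit 4) (nat_lit 3) (nat_lit 5) (nat_lit 3) (nat_lit 4) (nat_lit 406) (nat_lit 271) (nat_lit 223))))))) (XT.nd (nat_lit 936) (nat_lit 0) (nat_lit 0) (XT.nd (nat_lit 468) (nat_lit 0) (nat_lit 0) (XT.nd (nat_lit 234) (nat_lit 0) (nat_lit 0) (XT.nd (nat_lit 78) (nat_lit 0) (nat_lit 0) (XT.lf (nat_lit 0) (nat_lit 26288919494) (nat_lit 76) (nat_lit 73542584002) (nat_lit 76) (nat_lit 69482361607) (nat_lit 2) (nat_lit 4) (nat_lit 3) (nat_lit 5) (nat_lit 3) (nat_lit 4) (nat_lit 407) (nat_lit 271) (nat_lit 222)) (XT.nd (nat_lit 78) (nat_lit 0) (nat_lit 0) (XT.lf (nat_lit 0) (nat_lit 35137747716) (nat_lit 76) (nat_lit 73265519009) (nat_lit 76) (nat_lit 69185808917) (nat_lit 2) (nat_lit 4) (nat_lit 3) (nat_lit 5) (nat_lit 3) (nat_lit 4) (nat_lit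 408) (nat_lit 271) (nat_lit 221)) (XT.lf (nat_lit 0) (nat_lit 44374606055) (nat_lit 76) (nat_lit 73001543035) (nat_lit 76) (nat_lit 68903273233) (nat_lit 2) (nat_lit 4) (nat_lit 3) (nat_lit 5) (nat_lit 3) (nat_lit 4) (nat_lit 409) (nat_lit 271) (nat_lit 220)))) (XT.nd (nat_lit 78) (nat_lit 0) (nat_lit 0) (XT.lf (nat_lit 0) (nat_lit 54021487030) (nat_lit 76) (nat_lit 72750027567) (nat_lit 76) (nat_lit 68634081850) (nat_lit 2) (nat_lit 4) (nat_lit 3) (nat_lit 5) (nat_lit 3) (nat_lit 4) (nat_lit 410) (nat_lit 271) (nat_lit 219)) (XT.nd (nat_lit 78) (nat_lit 0) (nat_lit 0) (XT.lf (nat_lit 0) (nat_lit 64101359406) (nat_lit 76) (nat_lit 72510373758) (nat_lit 76) (nat_lit 68377593837) (nat_lit 2) (nat_lit 4) (nat_lit 3) (nat_lit 5) (nat_lit 3) (nat_lit 4) (nat_lit 411) (nat_lit 271) (nat_lit 218)) (XT.lf (nat_lit 0) (nat_lit 74638222880) (nat_lit 76) (nat_lit 72282011005) (nat_lit 76) (nat_lit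 68133198508) (nat_lit 2) (nat_lit 4) (nat_lit 3) (nat_lit 5) (nat_lit 3) (nat_lit 4) (nat_lit 412) (nat_lit 271) (nat_lit 217))))) (XT.nd (nat_lit 234) (nat_lit 0) (nat_lit 0) (XT.nd (nat_lit 78) (nat_lit 0) (nat_lit 0) (XT.lf (nat_lit 0) (nat_lit 85657165220) (nat_lit 76) (nat_lit 72064395586) (nat_lit 76) (nat_lit 67900313969) (nat_lit 2) (nat_lit 4) (nat_lit 3) (nat_lit 5) (nat_lit 3) (nat_lit 4) (nat_lit 413) (nat_lit 271) (nat_lit 216)) (XT.nd (nat_lit 78) (nat_lit 0) (nat_lit 0) (XT.lf (nat_lit 0) (nat_lit 97184422004) (nat_lit 76) (nat_lit 71857009369) (nat_lit 76) (nat_lit 67678385733) (nat_lit 2) (nat_lit 4) (nat_lit 3) (nat_lit 5) (nat_lit 3) (nat_lit 4) (nat_lit 414) (nat_lit 271) (nat_lit 215)) (XT.lf (nat_lit 0) (nat_lit 109247439082) (nat_lit 76) (nat_lit 71659358577) (nat_lit 76) (nat_lit 67466885400) (nat_lit 2) (nat_lit 4) (nat_lit 3) (nat_lit 5) (nat_lit 3) (nat_lit 4)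 (nat_lit 415) (nat_lit 271) (nat_lit 214)))) (XT.nd (nat_lit 78) (nat_lit 0) (nat_lit 0) (XT.lf (nat_lit 0) (nat_lit 121874937922) (nat_lit 76) (nat_lit 71470972615) (nat_lit 76) (nat_lit 67265309398) (nat_lit 2) (nat_lit 4) (nat_lit 3) (nat_lit 5) (nat_lit 3) (nat_lit 4) (nat_lit 416) (nat_lit 271) (nat_lit 213)) (XT.nd (nat_lit 78) (nat_lit 0) (nat_lit 0) (XT.lf (nat_lit 0) (nat_lit 135096983999) (nat_lit 76) (nat_lit 71291402942) (nat_lit 76) (nat_lit 67073177783) (nat_lit 2) (nat_lit 4) (nat_lit 3) (nat_lit 5) (nat_lit 3) (nat_lit 4) (nat_lit 417) (nat_lit 271) (nat_lit 212)) (XT.lf (nat_lit 0) (nat_lit 148945058374) (nat_lit 76) (nat_lit 71120222014) (nat_lit 76) (nat_lit 66890033099) (nat_lit 2) (nat_lit 4) (nat_lit 3) (nat_lit 5) (nat_lit 3) (nat_lit 4) (nat_lit 418) (nat_lit 271) (nat_lit 211)))))) (XT.nd (nat_lit 468) (nat_lit 0) (nat_lit 0) (XT.nd (nat_lit 234) (nat_lit 0) (nat_lit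 0) (XT.nd (nat_lit 78) (nat_lit 0) (nat_lit 0) (XT.lf (nat_lit 0) (nat_lit 163452132653) (nat_lit 76) (nat_lit 70957022255) (nat_lit 76) (nat_lit 66715439288) (nat_lit 2) (nat_lit 4) (nat_lit 3) (nat_lit 5) (nat_lit 3) (nat_lit 4) (nat_lit 419) (nat_lit 271) (nat_lit 210)) (XT.nd (nat_lit 78) (nat_lit 0) (nat_lit 0) (XT.lf (nat_lit 0) (nat_lit 178652747489) (nat_lit 76) (nat_lit 70801415095) (nat_lit 76) (nat_lit 66548980651) (nat_lit 2) (nat_lit 4) (nat_lit 3) (nat_lit 5) (nat_lit 3) (nat_lit 4) (nat_lit 420) (nat_lit 271) (nat_lit 209)) (XT.lf (nat_lit 0) (nat_lit 194583094823) (nat_lit 76) (nat_lit 70653030042) (nat_lit 76) (nat_lit 66390260856) (nat_lit 2) (nat_lit 4) (nat_lit 3) (nat_lit 5) (nat_lit 3) (nat_lit 4) (nat_lit 421) (nat_lit 271) (nat_lit 208)))) (XT.nd (nat_lit 78) (nat_lit 0) (nat_lit 0) (XT.lf (nat_lit 0) (nat_lit 211281104051) (nat_lit 76) (nat_lit 70511513796) (nat_lit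 76) (nat_lit 66238901999) (nat_lit 2) (nat_lit 4) (nat_lit 3) (nat_lit 5) (nat_lit 3) (nat_lit 4) (nat_lit 422) (nat_lit 271) (nat_lit 207)) (XT.nd (nat_lit 78) (nat_lit 0) (nat_lit 0) (XT.lf (nat_lit 0) (nat_lit 228786532340) (nat_lit 76) (nat_lit 70376529415) (nat_lit 76) (nat_lit 66094543704) (nat_lit 2) (nat_lit 4) (nat_lit 3) (nat_lit 5) (nat_lit 3) (nat_lit 4) (nat_lit 423) (nat_lit 271) (nat_lit 206)) (XT.lf (nat_lit 0) (nat_lit 247141059281) (nat_lit 76) (nat_lit 70247755508) (nat_lit 76) (nat_lit 65956842258) (nat_lit 2) (nat_lit 4) (nat_lit 3) (nat_lit 5) (nat_lit 3) (nat_lit 4) (nat_lit 424) (nat_lit 271) (nat_lit 205))))) (XT.nd (nat_lit 234) (nat_lit 0) (nat_lit 0) (XT.nd (nat_lit 78) (nat_lit 0) (nat_lit 0) (XT.lf (nat_lit 0) (nat_lit 266388386128) (nat_lit 76) (nat_lit 70124885469) (nat_lit 76) (nat_lit 65825469802) (nat_lit 2) (nat_lit 4) (nat_lit 3) (nat_lit 5) (nat_lit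 3) (nat_lit 4) (nat_lit 425) (nat_lit 271) (nat_lit 204)) (XT.nd (nat_lit 78) (nat_lit 0) (nat_lit 0) (XT.lf (nat_lit 0) (nat_lit 286574339849) (nat_lit 76) (nat_lit 70007626752) (nat_lit 76) (nat_lit 65700113545) (nat_lit 2) (nat_lit 4) (nat_lit 3) (nat_lit 5) (nat_lit 3) (nat_lit 4) (nat_lit 426) (nat_lit 271) (nat_lit 203)) (XT.lf (nat_lit 0) (nat_lit 307746982240) (nat_lit 76) (nat_lit 69895700168) (nat_lit 76) (nat_lit 65580475018) (nat_lit 2) (nat_lit 4) (nat_lit 3) (nat_lit 5) (nat_lit 3) (nat_lit 4) (nat_lit 427) (nat_lit 271) (nat_lit 202)))) (XT.nd (nat_lit 156) (nat_lit 0) (nat_lit 0) (XT.nd (nat_lit 78) (nat_lit 0) (nat_lit 0) (XT.lf (nat_lit 0) (nat_lit 329956724354) (nat_lit 76) (nat_lit 69788839226) (nat_lit 76) (nat_lit 65466269368) (nat_lit 2) (nat_lit 4) (nat_lit 3) (nat_lit 5) (nat_lit 3) (nat_lit 4) (nat_lit 428) (nat_lit 271) (nat_lit 201)) (XT.lf (nat_lit 0) (nat_lit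 353256446529) (nat_lit 76) (nat_lit 69686789495) (nat_lit 76) (nat_lit 65357224677) (nat_lit 2) (nat_lit 4) (nat_lit 3) (nat_lit 5) (nat_lit 3) (nat_lit 4) (nat_lit 429) (nat_lit 271) (nat_lit 200))) (XT.nd (nat_lit 78) (nat_lit 0) (nat_lit 0) (XT.lf (nat_lit 0) (nat_lit 377701624293) (nat_lit 76) (nat_lit 69589307999) (nat_lit 76) (nat_lit 65253081315) (nat_lit 2) (nat_lit 4) (nat_lit 3) (nat_lit 5) (nat_lit 3) (nat_lit 4) (nat_lit 430) (nat_lit 271) (nat_lit 199)) (XT.lf (nat_lit 0) (nat_lit 403350460453) (nat_lit 76) (nat_lit 69496162640) (nat_lit 76) (nat_lit 65153591322) (nat_lit 2) (nat_lit 4) (nat_lit 3) (nat_lit 5) (nat_lit 3) (nat_lit 4) (nat_lit 431) (nat_lit 271) (nat_lit 198))))))))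
noncomputable def xc37 : XT := (XT.nd (nat_lit 42120) (nat_lit 0) (nat_lit 76) (XT.nd (nat_lit 41106) (nat_lit 0) (nat_lit 608) (XT.nd (nat_lit 468) (nat_lit 0) (nat_lit 0) (XT.nd (nat_lit 234) (nat_lit 0) (nat_lit 0) (XT.nd (nat_lit 78) (nat_lit 0) (nat_lit 0) (XT.lf (nat_lit 0) (nat_lit 430264023663) (nat_lit 76) (nat_lit 69407131643) (nat_lit 76) (nat_lit 65058517815) (nat_lit 2) (nat_lit 4) (nat_lit 3) (nat_lit 5) (nat_lit 3) (nat_lit 4) (nat_lit 432) (nat_lit 271) (nat_lit 197)) (XT.nd (nat_lit 78) (nat_lit 0) (nat_lit 0) (XT.lf (nat_lit 0) (nat_lit 458506393838) (nat_lit 76) (nat_lit 69322003029) (nat_lit 76) (nat_lit 64967634431) (nat_lit 2) (nat_lit 4) (nat_lit 3) (nat_lit 5) (nat_lit 3) (nat_lit 4) (nat_lit 433) (nat_lit 271) (nat_lit 196)) (XT.lf (nat_lit 0) (nat_lit 488144814716) (nat_lit 76) (nat_lit 69240574112) (nat_lit 76) (nat_lit 64880724780) (nat_lit 2) (nat_lit 4) (nat_lit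 3) (nat_lit 5) (nat_lit 3) (nat_lit 4) (nat_lit 434) (nat_lit 271) (nat_lit 195)))) (XT.nd (nat_lit 78) (nat_lit 0) (nat_lit 0) (XT.lf (nat_lit 0) (nat_lit 519249853965) (nat_lit 76) (nat_lit 69162651012) (nat_lit 76) (nat_lit 64797581933) (nat_lit 2) (nat_lit 4) (nat_lit 3) (nat_lit 5) (nat_lit 3) (nat_lit 4) (nat_lit 435) (nat_lit 271) (nat_lit 194)) (XT.nd (nat_lit 78) (nat_lit 0) (nat_lit 0) (XT.lf (nat_lit 0) (nat_lit 551895571203) (nat_lit 76) (nat_lit 69088048199) (nat_lit 76) (nat_lit 64718007933) (nat_lit 2) (nat_lit 4) (nat_lit 3) (nat_lit 5) (nat_lit 3) (nat_lit 4) (nat_lit 436) (nat_lit 271) (nat_lit 193)) (XT.lf (nat_lit 0) (nat_lit 586159694328) (nat_lit 76) (nat_lit 69016588047) (nat_lit 76) (nat_lit 64641813317) (nat_lit 2) (nat_lit 4) (nat_lit 3) (nat_lit 5) (nat_lit 3) (nat_lit 4) (nat_lit 437) (nat_lit 271) (nat_lit 192))))) (XT.nd (nat_lit 234) (nat_lit 0) (nat_lit 0)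 (XT.nd (nat_lit 78) (nat_lit 0) (nat_lit 0) (XT.lf (nat_lit 0) (nat_lit 622123804585) (nat_lit 76) (nat_lit 68948100413) (nat_lit 76) (nat_lit 64568816669) (nat_lit 2) (nat_lit 4) (nat_lit 3) (nat_lit 5) (nat_lit 3) (nat_lit 4) (nat_lit 438) (nat_lit 271) (nat_lit 191)) (XT.nd (nat_lit 78) (nat_lit 0) (nat_lit 0) (XT.lf (nat_lit 0) (nat_lit 659873530809) (nat_lit 76) (nat_lit 68882422231) (nat_lit 76) (nat_lit 64498844189) (nat_lit 2) (nat_lit 4) (nat_lit 3) (nat_lit 5) (nat_lit 3) (nat_lit 4) (nat_lit 439) (nat_lit 271) (nat_lit 190)) (XT.lf (nat_lit 0) (nat_lit 699498753299) (nat_lit 76) (nat_lit 68819397123) (nat_lit 76) (nat_lit 64431729273) (nat_lit 2) (nat_lit 4) (nat_lit 3) (nat_lit 5) (nat_lit 3) (nat_lit 4) (nat_lit 440) (nat_lit 271) (nat_lit 189)))) (XT.nd (nat_lit 40248) (nat_lit 0) (nat_lit 1216) (XT.lf (nat_lit 0) (nat_lit 741093817825) (nat_lit 76) (nat_lit 68758875032) (nat_lit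 76) (nat_lit 64367312126) (nat_lit 2) (nat_lit 4) (nat_lit 3) (nat_lit 5) (nat_lit 3) (nat_lit 4) (nat_lit 441) (nat_lit 271) (nat_lit 188)) (XT.nd (nat_lit 78) (nat_lit 152) (nat_lit 0) (XT.lf (nat_lit 0) (nat_lit 7103056093) (nat_lit 76) (nat_lit 1167423635) (nat_lit 76) (nat_lit 1167423635) (nat_lit 20) (nat_lit 4) (nat_lit 21) (nat_lit 5) (nat_lit 21) (nat_lit 4) (nat_lit 356) (nat_lit 272) (nat_lit 272)) (XT.lf (nat_lit 0) (nat_lit 3306725565) (nat_lit 152) (nat_lit 13193302471) (nat_lit 0) (nat_lit 3021510839) (nat_lit 18) (nat_lit 5) (nat_lit 20) (nat_lit 4) (nat_lit 18) (nat_lit 4) (nat_lit 357) (nat_lit 272) (nat_lit 271)))))) (XT.nd (nat_lit 468) (nat_lit 304) (nat_lit 0) (XT.nd (nat_lit 234) (nat_lit 228) (nat_lit 0) (XT.nd (nat_lit 78) (nat_lit 76) (nat_lit 0) (XT.lf (nat_lit 0) (nat_lit 9078541532) (nat_lit 152) (nat_lit 2601108694) (nat_lit 0) (nat_lit 8521693734) (nat_lit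 18) (nat_lit 5) (nat_lit 20) (nat_lit 4) (nat_lit 18) (nat_lit 4) (nat_lit 358) (nat_lit 272) (nat_lit 270)) (XT.nd (nat_lit 78) (nat_lit 0) (nat_lit 0) (XT.lf (nat_lit 0) (nat_lit 8442486524) (nat_lit 76) (nat_lit 6645391214) (nat_lit 76) (nat_lit 5829845253) (nat_lit 17) (nat_lit 4) (nat_lit 18) (nat_lit 5) (nat_lit 18) (nat_lit 4) (nat_lit 359) (nat_lit 272) (nat_lit 269)) (XT.lf (nat_lit 0) (nat_lit 19785765272) (nat_lit 76) (nat_lit 1476441643) (nat_lit 76) (nat_lit 414516478) (nat_lit 17) (nat_lit 4) (nat_lit 18) (nat_lit 5) (nat_lit 18) (nat_lit 4) (nat_lit 360) (nat_lit 272) (nat_lit 268)))) (XT.nd (nat_lit 78) (nat_lit 76) (nat_lit 0) (XT.lf (nat_lit 0) (nat_lit 5134003942) (nat_lit 152) (nat_lit 13434849849) (nat_lit 0) (nat_lit 3899173442) (nat_lit 15) (nat_lit 5) (nat_lit 17) (nat_lit 4) (nat_lit 15) (nat_lit 4) (nat_lit 361) (nat_lit 272) (nat_lit 267)) (XT.nd (nat_lit 78)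 (nat_lit 76) (nat_lit 0) (XT.lf (nat_lit 0) (nat_lit 10829700846) (nat_lit 152) (nat_lit 3092657694) (nat_lit 0) (nat_lit 9382038726) (nat_lit 15) (nat_lit 5) (nat_lit 17) (nat_lit 4) (nat_lit 15) (nat_lit 4) (nat_lit 362) (nat_lit 272) (nat_lit 266)) (XT.lf (nat_lit 0) (nat_lit 7695807687) (nat_lit 76) (nat_lit 9069697266) (nat_lit 76) (nat_lit 7419338365) (nat_lit 14) (nat_lit 4) (nat_lit 15) (nat_lit 5) (nat_lit 15) (nat_lit 4) (nat_lit 363) (nat_lit 272) (nat_lit 265))))) (XT.nd (nat_lit 234) (nat_lit 152) (nat_lit 0) (XT.nd (nat_lit 78) (nat_lit 152) (nat_lit 0) (XT.lf (nat_lit 0) (nat_lit 18819031468) (nat_lit 76) (nat_lit 4069590027) (nat_lit 76) (nat_lit 2226186574) (nat_lit 14) (nat_lit 4) (nat_lit 15) (nat_lit 5) (nat_lit 15) (nat_lit 4) (nat_lit 364) (nat_lit 272) (nat_lit 264)) (XT.nd (nat_lit 78) (nat_lit 0) (nat_lit 0) (XT.lf (nat_lit 0) (nat_lit 3050104882) (nat_lit 152)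 (nat_lit 21922944608) (nat_lit 0) (nat_lit 1119385445) (nat_lit 12) (nat_lit 5) (nat_lit 14) (nat_lit 4) (nat_lit 12) (nat_lit 4) (nat_lit 365) (nat_lit 272) (nat_lit 263)) (XT.lf (nat_lit 0) (nat_lit 8534361536) (nat_lit 152) (nat_lit 12144945097) (nat_lit 0) (nat_lit 6436882956) (nat_lit 12) (nat_lit 5) (nat_lit 14) (nat_lit 4) (nat_lit 12) (nat_lit 4) (nat_lit 366) (nat_lit 272) (nat_lit 262)))) (XT.nd (nat_lit 156) (nat_lit 76) (nat_lit 0) (XT.nd (nat_lit 78) (nat_lit 76) (nat_lit 0) (XT.lf (nat_lit 0) (nat_lit 14144145857) (nat_lit 152) (nat_lit 2166589850) (nat_lit 0) (nat_lit 11887849046) (nat_lit 12) (nat_lit 5) (nat_lit 14) (nat_lit 4) (nat_lit 12) (nat_lit 4) (nat_lit 367) (nat_lit 272) (nat_lit 261)) (XT.lf (nat_lit 0) (nat_lit 8301581578) (nat_lit 76) (nat_lit 11720843851) (nat_lit 76) (nat_lit 9313291581) (nat_lit 11) (nat_lit 4) (nat_lit 12) (nat_lit 5) (nat_lit 12) (nat_lit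 4) (nat_lit 368) (nat_lit 272) (nat_lit 260))) (XT.nd (nat_lit 78) (nat_lit 76) (nat_lit 0) (XT.lf (nat_lit 0) (nat_lit 19098008971) (nat_lit 76) (nat_lit 6994219166) (nat_lit 76) (nat_lit 4442614079) (nat_lit 11) (nat_lit 4) (nat_lit 12) (nat_lit 5) (nat_lit 12) (nat_lit 4) (nat_lit 369) (nat_lit 272) (nat_lit 259)) (XT.lf (nat_lit 0) (nat_lit 515454944) (nat_lit 152) (nat_lit 1632115610) (nat_lit 76) (nat_lit 29652576441) (nat_lit 10) (nat_lit 5) (nat_lit 12) (nat_lit 5) (nat_lit 11) (nat_lit 4) (nat_lit 370) (nat_lit 272) (nat_lit 258))))))) (XT.nd (nat_lit 936) (nat_lit 228) (nat_lit 0) (XT.nd (nat_lit 468) (nat_lit 152) (nat_lit 0) (XT.nd (nat_lit 234) (nat_lit 76) (nat_lit 0) (XT.nd (nat_lit 78) (nat_lit 0) (nat_lit 0) (XT.lf (nat_lit 0) (nat_lit 5625845455) (nat_lit 152) (nat_lit 24555911650) (nat_lit 0) (nat_lit 2940646980) (nat_lit 9) (nat_lit 5) (nat_lit 11) (nat_lit 4) (nat_lit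 9) (nat_lit 4) (nat_lit 371) (nat_lit 272) (nat_lit 257)) (XT.nd (nat_lit 78) (nat_lit 0) (nat_lit 0) (XT.lf (nat_lit 0) (nat_lit 10927228316) (nat_lit 152) (nat_lit 15463268661) (nat_lit 0) (nat_lit 8123517231) (nat_lit 9) (nat_lit 5) (nat_lit 11) (nat_lit 4) (nat_lit 9) (nat_lit 4) (nat_lit 372) (nat_lit 272) (nat_lit 256)) (XT.lf (nat_lit 0) (nat_lit 16371940277) (nat_lit 152) (nat_lit 6154004680) (nat_lit 0) (nat_lit 13455360040) (nat_lit 9) (nat_lit 5) (nat_lit 11) (nat_lit 4) (nat_lit 9) (nat_lit 4) (nat_lit 373) (nat_lit 272) (nat_lit 255)))) (XT.nd (nat_lit 78) (nat_lit 0) (nat_lit 0) (XT.lf (nat_lit 0) (nat_lit 3506267667) (nat_lit 76) (nat_lit 18521419936) (nat_lit 76) (nat_lit 15497345269) (nat_lit 8) (nat_lit 4) (nat_lit 9) (nat_lit 5) (nat_lit 9) (nat_lit 4) (nat_lit 374) (nat_lit 272) (nat_lit 254)) (XT.nd (nat_lit 78) (nat_lit 0) (nat_lit 0) (XT.lf (nat_lit 0) (nat_lit 13640185571)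 (nat_lit 76) (nat_lit 14316353979) (nat_lit 76) (nat_lit 11189903664) (nat_lit 8) (nat_lit 4) (nat_lit 9) (nat_lit 5) (nat_lit 9) (nat_lit 4) (nat_lit 375) (nat_lit 272) (nat_lit 253)) (XT.lf (nat_lit 0) (nat_lit 24068398219) (nat_lit 76) (nat_lit 10004956073) (nat_lit 76) (nat_lit 6781005140) (nat_lit 8) (nat_lit 4) (nat_lit 9) (nat_lit 5) (nat_lit 9) (nat_lit 4) (nat_lit 376) (nat_lit 272) (nat_lit 252))))) (XT.nd (nat_lit 234) (nat_lit 0) (nat_lit 0) (XT.nd (nat_lit 78) (nat_lit 152) (nat_lit 0) (XT.lf (nat_lit 0) (nat_lit 34815734689) (nat_lit 76) (nat_lit 5576960984) (nat_lit 76) (nat_lit 2260152321) (nat_lit 8) (nat_lit 4) (nat_lit 9) (nat_lit 5) (nat_lit 9) (nat_lit 4) (nat_lit 377) (nat_lit 272) (nat_lit 251)) (XT.nd (nat_lit 78) (nat_lit 0) (nat_lit 0) (XT.lf (nat_lit 0) (nat_lit 1368171035) (nat_lit 76) (nat_lit 960324394) (nat_lit 152) (nat_lit 42214766942) (nat_lit 6) (nat_lit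 5) (nat_lit 7) (nat_lit 5) (nat_lit 8) (nat_lit 4) (nat_lit 378) (nat_lit 272) (nat_lit 250)) (XT.lf (nat_lit 0) (nat_lit 7166468901) (nat_lit 152) (nat_lit 35511928063) (nat_lit 0) (nat_lit 3843164810) (nat_lit 6) (nat_lit 5) (nat_lit 8) (nat_lit 4) (nat_lit 6) (nat_lit 4) (nat_lit 379) (nat_lit 272) (nat_lit 249)))) (XT.nd (nat_lit 78) (nat_lit 0) (nat_lit 0) (XT.lf (nat_lit 0) (nat_lit 12167092571) (nat_lit 152) (nat_lit 27668260710) (nat_lit 0) (nat_lit 8767394195) (nat_lit 6) (nat_lit 5) (nat_lit 8) (nat_lit 4) (nat_lit 6) (nat_lit 4) (nat_lit 380) (nat_lit 272) (nat_lit 248)) (XT.nd (nat_lit 78) (nat_lit 0) (nat_lit 0) (XT.lf (nat_lit 0) (nat_lit 17327279333) (nat_lit 152) (nat_lit 19610420526) (nat_lit 0) (nat_lit 13854824495) (nat_lit 6) (nat_lit 5) (nat_lit 8) (nat_lit 4) (nat_lit 6) (nat_lit 4) (nat_lit 381) (nat_lit 272) (nat_lit 247)) (XT.lf (nat_lit 0) (nat_lit 22659315344)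 (nat_lit 152) (nat_lit 11319222176) (nat_lit 0) (nat_lit 19117568638) (nat_lit 6) (nat_lit 5) (nat_lit 8) (nat_lit 4) (nat_lit 6) (nat_lit 4) (nat_lit 382) (nat_lit 272) (nat_lit 246)))))) (XT.nd (nat_lit 468) (nat_lit 152) (nat_lit 0) (XT.nd (nat_lit 234) (nat_lit 0) (nat_lit 0) (XT.nd (nat_lit 78) (nat_lit 76) (nat_lit 0) (XT.lf (nat_lit 0) (nat_lit 28175895929) (nat_lit 152) (nat_lit 2774924712) (nat_lit 0) (nat_lit 24568156967) (nat_lit 6) (nat_lit 5) (nat_lit 8) (nat_lit 4) (nat_lit 6) (nat_lit 4) (nat_lit 383) (nat_lit 272) (nat_lit 245)) (XT.nd (nat_lit 78) (nat_lit 0) (nat_lit 0) (XT.lf (nat_lit 0) (nat_lit 6242618199) (nat_lit 76) (nat_lit 27745002368) (nat_lit 76) (nat_lit 24074413639) (nat_lit 5) (nat_lit 4) (nat_lit 6) (nat_lit 5) (nat_lit 6) (nat_lit 4) (nat_lit 384) (nat_lit 272) (nat_lit 244)) (XT.lf (nat_lit 0) (nat_lit 15656085380) (nat_lit 76) (nat_lit 24404050336) (nat_lit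 76) (nat_lit 20673604686) (nat_lit 5) (nat_lit 4) (nat_lit 6) (nat_lit 5) (nat_lit 6) (nat_lit 4) (nat_lit 385) (nat_lit 272) (nat_lit 243)))) (XT.nd (nat_lit 78) (nat_lit 0) (nat_lit 0) (XT.lf (nat_lit 0) (nat_lit 25396138304) (nat_lit 76) (nat_lit 20967004589) (nat_lit 76) (nat_lit 17179552347) (nat_lit 5) (nat_lit 4) (nat_lit 6) (nat_lit 5) (nat_lit 6) (nat_lit 4) (nat_lit 386) (nat_lit 272) (nat_lit 242)) (XT.nd (nat_lit 78) (nat_lit 0) (nat_lit 0) (XT.lf (nat_lit 0) (nat_lit 35485967573) (nat_lit 76) (nat_lit 17425681684) (nat_lit 76) (nat_lit 13583937451) (nat_lit 5) (nat_lit 4) (nat_lit 6) (nat_lit 5) (nat_lit 6) (nat_lit 4) (nat_lit 387) (nat_lit 272) (nat_lit 241)) (XT.lf (nat_lit 0) (nat_lit 45949596590) (nat_lit 76) (nat_lit 13771649902) (nat_lit 76) (nat_lit 9878199010) (nat_lit 5) (nat_lit 4) (nat_lit 6) (nat_lit 5) (nat_lit 6) (nat_lit 4) (nat_lit 388) (nat_lit 272) (nat_lit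 240))))) (XT.nd (nat_lit 234) (nat_lit 76) (nat_lit 0) (XT.nd (nat_lit 78) (nat_lit 76) (nat_lit 0) (XT.lf (nat_lit 0) (nat_lit 56811938757) (nat_lit 76) (nat_lit 9996209166) (nat_lit 76) (nat_lit 6053513836) (nat_lit 5) (nat_lit 4) (nat_lit 6) (nat_lit 5) (nat_lit 6) (nat_lit 4) (nat_lit 389) (nat_lit 272) (nat_lit 239)) (XT.nd (nat_lit 78) (nat_lit 76) (nat_lit 0) (XT.lf (nat_lit 0) (nat_lit 68098856795) (nat_lit 76) (nat_lit 6090370331) (nat_lit 76) (nat_lit 2100775538) (nat_lit 5) (nat_lit 4) (nat_lit 6) (nat_lit 5) (nat_lit 6) (nat_lit 4) (nat_lit 390) (nat_lit 272) (nat_lit 238)) (XT.lf (nat_lit 0) (nat_lit 1925753073) (nat_lit 152) (nat_lit 86467148) (nat_lit 76) (nat_lit 77878857682) (nat_lit 4) (nat_lit 5) (nat_lit 6) (nat_lit 5) (nat_lit 5) (nat_lit 4) (nat_lit 391) (nat_lit 272) (nat_lit 237)))) (XT.nd (nat_lit 156) (nat_lit 0) (nat_lit 0) (XT.nd (nat_lit 78) (nat_lit 0) (nat_lit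 0) (XT.lf (nat_lit 0) (nat_lit 6198429020) (nat_lit 152) (nat_lit 75150527412) (nat_lit 0) (nat_lit 2315762214) (nat_lit 3) (nat_lit 5) (nat_lit 5) (nat_lit 4) (nat_lit 3) (nat_lit 4) (nat_lit 392) (nat_lit 272) (nat_lit 236)) (XT.lf (nat_lit 0) (nat_lit 10663874295) (nat_lit 152) (nat_lit 70221591667) (nat_lit 0) (nat_lit 6742623185) (nat_lit 3) (nat_lit 5) (nat_lit 5) (nat_lit 4) (nat_lit 3) (nat_lit 4) (nat_lit 393) (nat_lit 272) (nat_lit 235))) (XT.nd (nat_lit 78) (nat_lit 0) (nat_lit 0) (XT.lf (nat_lit 0) (nat_lit 15299887022) (nat_lit 152) (nat_lit 65150491723) (nat_lit 0) (nat_lit 11341888954) (nat_lit 3) (nat_lit 5) (nat_lit 5) (nat_lit 4) (nat_lit 3) (nat_lit 4) (nat_lit 394) (nat_lit 272) (nat_lit 234)) (XT.lf (nat_lit 0) (nat_lit 20117505325) (nat_lit 152) (nat_lit 59925153531) (nat_lit 0) (nat_lit 16124510155) (nat_lit 3) (nat_lit 5) (nat_lit 5) (nat_lit 4) (nat_lit 3) (nat_lit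 4) (nat_lit 395) (nat_lit 272) (nat_lit 233))))))))
noncomputable def xc38 : XT := (XT.nd (nat_lit 1872) (nat_lit 0) (nat_lit 0) (XT.nd (nat_lit 936) (nat_lit 0) (nat_lit 0) (XT.nd (nat_lit 468) (nat_lit 76) (nat_lit 0) (XT.nd (nat_lit 234) (nat_lit 0) (nat_lit 0) (XT.nd (nat_lit 78) (nat_lit 0) (nat_lit 0) (XT.lf (nat_lit 0) (nat_lit 25128199725) (nat_lit 152) (nat_lit 54533135811) (nat_lit 0) (nat_lit 21101873981) (nat_lit 3) (nat_lit 5) (nat_lit 5) (nat_lit 4) (nat_lit 3) (nat_lit 4) (nat_lit 396) (nat_lit 272) (nat_lit 232)) (XT.nd (nat_lit 78) (nat_lit 0) (nat_lit 0) (XT.lf (nat_lit 0) (nat_lit 30343900445) (nat_lit 152) (nat_lit 48961600426) (nat_lit 0) (nat_lit 26285831298) (nat_lit 3) (nat_lit 5) (nat_lit 5) (nat_lit 4) (nat_lit 3) (nat_lit 4) (nat_lit 397) (nat_lit 272) (nat_lit 231)) (XT.lf (nat_lit 0) (nat_lit 35777025821) (nat_lit 152) (nat_lit 43197281814) (nat_lit 0) (nat_lit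 31688724862) (nat_lit 3) (nat_lit 5) (nat_lit 5) (nat_lit 4) (nat_lit 3) (nat_lit 4) (nat_lit 398) (nat_lit 272) (nat_lit 230)))) (XT.nd (nat_lit 78) (nat_lit 0) (nat_lit 0) (XT.lf (nat_lit 0) (nat_lit 41440511867) (nat_lit 152) (nat_lit 37226455409) (nat_lit 0) (nat_lit 37323418705) (nat_lit 3) (nat_lit 5) (nat_lit 5) (nat_lit 4) (nat_lit 3) (nat_lit 4) (nat_lit 399) (nat_lit 272) (nat_lit 229)) (XT.nd (nat_lit 78) (nat_lit 0) (nat_lit 0) (XT.lf (nat_lit 0) (nat_lit 47347843071) (nat_lit 152) (nat_lit 31034904955) (nat_lit 0) (nat_lit 43203328764) (nat_lit 3) (nat_lit 5) (nat_lit 5) (nat_lit 4) (nat_lit 3) (nat_lit 4) (nat_lit 400) (nat_lit 272) (nat_lit 228)) (XT.lf (nat_lit 0) (nat_lit 53513084510) (nat_lit 152) (nat_lit 24607888667) (nat_lit 0) (nat_lit 49342454827) (nat_lit 3) (nat_lit 5) (nat_lit 5) (nat_lit 4) (nat_lit 3) (nat_lit 4) (nat_lit 401) (nat_lit 272) (nat_lit 227)))))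 (XT.nd (nat_lit 234) (nat_lit 76) (nat_lit 0) (XT.nd (nat_lit 78) (nat_lit 0) (nat_lit 0) (XT.lf (nat_lit 0) (nat_lit 59950915328) (nat_lit 152) (nat_lit 17930104125) (nat_lit 0) (nat_lit 55755413858) (nat_lit 3) (nat_lit 5) (nat_lit 5) (nat_lit 4) (nat_lit 3) (nat_lit 4) (nat_lit 402) (nat_lit 272) (nat_lit 226)) (XT.nd (nat_lit 78) (nat_lit 0) (nat_lit 0) (XT.lf (nat_lit 0) (nat_lit 66676663695) (nat_lit 152) (nat_lit 10985651842) (nat_lit 0) (nat_lit 62457474809) (nat_lit 3) (nat_lit 5) (nat_lit 5) (nat_lit 4) (nat_lit 3) (nat_lit 4) (nat_lit 403) (nat_lit 272) (nat_lit 225)) (XT.lf (nat_lit 0) (nat_lit 73706343298) (nat_lit 152) (nat_lit 3757997407) (nat_lit 0) (nat_lit 69464594967) (nat_lit 3) (nat_lit 5) (nat_lit 5) (nat_lit 4) (nat_lit 3) (nat_lit 4) (nat_lit 404) (nat_lit 272) (nat_lit 224)))) (XT.nd (nat_lit 78) (nat_lit 0) (nat_lit 0) (XT.lf (nat_lit 0) (nat_lit 3894723349) (nat_lit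 76) (nat_lit 77222775664) (nat_lit 76) (nat_lit 72959542149) (nat_lit 2) (nat_lit 4) (nat_lit 3) (nat_lit 5) (nat_lit 3) (nat_lit 4) (nat_lit 405) (nat_lit 272) (nat_lit 223)) (XT.nd (nat_lit 78) (nat_lit 0) (nat_lit 0) (XT.lf (nat_lit 0) (nat_lit 12000560876) (nat_lit 76) (nat_lit 76932010544) (nat_lit 76) (nat_lit 72648314948) (nat_lit 2) (nat_lit 4) (nat_lit 3) (nat_lit 5) (nat_lit 3) (nat_lit 4) (nat_lit 406) (nat_lit 272) (nat_lit 222)) (XT.lf (nat_lit 0) (nat_lit 20454558421) (nat_lit 76) (nat_lit 76654996551) (nat_lit 76) (nat_lit 72351813259) (nat_lit 2) (nat_lit 4) (nat_lit 3) (nat_lit 5) (nat_lit 3) (nat_lit 4) (nat_lit 407) (nat_lit 272) (nat_lit 221)))))) (XT.nd (nat_lit 468) (nat_lit 0) (nat_lit 0) (XT.nd (nat_lit 234) (nat_lit 0) (nat_lit 0) (XT.nd (nat_lit 78) (nat_lit 0) (nat_lit 0) (XT.lf (nat_lit 0) (nat_lit 29276844548) (nat_lit 76) (nat_lit 76391074128) (nat_lit 76)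 (nat_lit 72069331125) (nat_lit 2) (nat_lit 4) (nat_lit 3) (nat_lit 5) (nat_lit 3) (nat_lit 4) (nat_lit 408) (nat_lit 272) (nat_lit 220)) (XT.nd (nat_lit 78) (nat_lit 0) (nat_lit 0) (XT.lf (nat_lit 0) (nat_lit 38488424701) (nat_lit 76) (nat_lit 76139614888) (nat_lit 76) (nat_lit 71800195971) (nat_lit 2) (nat_lit 4) (nat_lit 3) (nat_lit 5) (nat_lit 3) (nat_lit 4) (nat_lit 409) (nat_lit 272) (nat_lit 219)) (XT.lf (nat_lit 0) (nat_lit 48111231214) (nat_lit 76) (nat_lit 75900020119) (nat_lit 76) (nat_lit 71543766997) (nat_lit 2) (nat_lit 4) (nat_lit 3) (nat_lit 5) (nat_lit 3) (nat_lit 4) (nat_lit 410) (nat_lit 272) (nat_lit 218)))) (XT.nd (nat_lit 78) (nat_lit 0) (nat_lit 0) (XT.lf (nat_lit 0) (nat_lit 58168175531) (nat_lit 76) (nat_lit 75671719357) (nat_lit 76) (nat_lit 71299433659) (nat_lit 2) (nat_lit 4) (nat_lit 3) (nat_lit 5) (nat_lit 3) (nat_lit 4) (nat_lit 411) (nat_lit 272) (nat_lit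 217)) (XT.nd (nat_lit 78) (nat_lit 0) (nat_lit 0) (XT.lf (nat_lit 0) (nat_lit 68683202757) (nat_lit 76) (nat_lit 75454169029) (nat_lit 76) (nat_lit 71066614212) (nat_lit 2) (nat_lit 4) (nat_lit 3) (nat_lit 5) (nat_lit 3) (nat_lit 4) (nat_lit 412) (nat_lit 272) (nat_lit 216)) (XT.lf (nat_lit 0) (nat_lit 79681348671) (nat_lit 76) (nat_lit 75246851158) (nat_lit 76) (nat_lit 70844754321) (nat_lit 2) (nat_lit 4) (nat_lit 3) (nat_lit 5) (nat_lit 3) (nat_lit 4) (nat_lit 413) (nat_lit 272) (nat_lit 215))))) (XT.nd (nat_lit 234) (nat_lit 0) (nat_lit 0) (XT.nd (nat_lit 78) (nat_lit 0) (nat_lit 0) (XT.lf (nat_lit 0) (nat_lit 91188799336) (nat_lit 76) (nat_lit 75049272129) (nat_lit 76) (nat_lit 70633325751) (nat_lit 2) (nat_lit 4) (nat_lit 3) (nat_lit 5) (nat_lit 3) (nat_lit 4) (nat_lit 414) (nat_lit 272) (nat_lit 214)) (XT.nd (nat_lit 78) (nat_lit 0) (nat_lit 0) (XT.lf (nat_lit 0) (nat_lit 103232953442)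 (nat_lit 76) (nat_lit 74860961517) (nat_lit 76) (nat_lit 70431825100) (nat_lit 2) (nat_lit 4) (nat_lit 3) (nat_lit 5) (nat_lit 3) (nat_lit 4) (nat_lit 415) (nat_lit 272) (nat_lit 213)) (XT.lf (nat_lit 0) (nat_lit 115842487548) (nat_lit 76) (nat_lit 74681470964) (nat_lit 76) (nat_lit 70239772604) (nat_lit 2) (nat_lit 4) (nat_lit 3) (nat_lit 5) (nat_lit 3) (nat_lit 4) (nat_lit 416) (nat_lit 272) (nat_lit 212)))) (XT.nd (nat_lit 78) (nat_lit 0) (nat_lit 0) (XT.lf (nat_lit 0) (nat_lit 129047424354) (nat_lit 76) (nat_lit 74510373110) (nat_lit 76) (nat_lit 70056710995) (nat_lit 2) (nat_lit 4) (nat_lit 3) (nat_lit 5) (nat_lit 3) (nat_lit 4) (nat_lit 417) (nat_lit 272) (nat_lit 211)) (XT.nd (nat_lit 78) (nat_lit 0) (nat_lit 0) (XT.lf (nat_lit 0) (nat_lit 142879204185) (nat_lit 76) (nat_lit 74347260579) (nat_lit 76) (nat_lit 69882204412) (nat_lit 2) (nat_lit 4) (nat_lit 3) (nat_lit 5) (nat_lit 3)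 (nat_lit 4) (nat_lit 418) (nat_lit 272) (nat_lit 210)) (XT.lf (nat_lit 0) (nat_lit 157370759851) (nat_lit 76) (nat_lit 74191745009) (nat_lit 76) (nat_lit 69715837364) (nat_lit 2) (nat_lit 4) (nat_lit 3) (nat_lit 5) (nat_lit 3) (nat_lit 4) (nat_lit 419) (nat_lit 272) (nat_lit 209))))))) (XT.nd (nat_lit 936) (nat_lit 0) (nat_lit 0) (XT.nd (nat_lit 468) (nat_lit 0) (nat_lit 0) (XT.nd (nat_lit 234) (nat_lit 0) (nat_lit 0) (XT.nd (nat_lit 78) (nat_lit 0) (nat_lit 0) (XT.lf (nat_lit 0) (nat_lit 172556595056) (nat_lit 76) (nat_lit 74043456125) (nat_lit 76) (nat_lit 69557213738) (nat_lit 2) (nat_lit 4) (nat_lit 3) (nat_lit 5) (nat_lit 3) (nat_lit 4) (nat_lit 420) (nat_lit 272) (nat_lit 208)) (XT.nd (nat_lit 78) (nat_lit 0) (nat_lit 0) (XT.lf (nat_lit 0) (nat_lit 188472866549) (nat_lit 76) (nat_lit 73902040857) (nat_lit 76) (nat_lit 69405955860) (nat_lit 2) (nat_lit 4) (nat_lit 3) (nat_lit 5) (nat_lit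 3) (nat_lit 4) (nat_lit 421) (nat_lit 272) (nat_lit 207)) (XT.lf (nat_lit 0) (nat_lit 205157470217) (nat_lit 76) (nat_lit 73767162503) (nat_lit 76) (nat_lit 69261703590) (nat_lit 2) (nat_lit 4) (nat_lit 3) (nat_lit 5) (nat_lit 3) (nat_lit 4) (nat_lit 422) (nat_lit 272) (nat_lit 206)))) (XT.nd (nat_lit 78) (nat_lit 0) (nat_lit 0) (XT.lf (nat_lit 0) (nat_lit 222650131304) (nat_lit 76) (nat_lit 73638499923) (nat_lit 76) (nat_lit 69124113473) (nat_lit 2) (nat_lit 4) (nat_lit 3) (nat_lit 5) (nat_lit 3) (nat_lit 4) (nat_lit 423) (nat_lit 272) (nat_lit 205)) (XT.nd (nat_lit 78) (nat_lit 0) (nat_lit 0) (XT.lf (nat_lit 0) (nat_lit 240992499005) (nat_lit 76) (nat_lit 73515746779) (nat_lit 76) (nat_lit 68992857911) (nat_lit 2) (nat_lit 4) (nat_lit 3) (nat_lit 5) (nat_lit 3) (nat_lit 4) (nat_lit 424) (nat_lit 272) (nat_lit 204)) (XT.lf (nat_lit 0) (nat_lit 260228245624) (nat_lit 76) (nat_lit 73398610800)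 (nat_lit 76) (nat_lit 68867624392) (nat_lit 2) (nat_lit 4) (nat_lit 3) (nat_lit 5) (nat_lit 3) (nat_lit 4) (nat_lit 425) (nat_lit 272) (nat_lit 203))))) (XT.nd (nat_lit 234) (nat_lit 0) (nat_lit 0) (XT.nd (nat_lit 78) (nat_lit 0) (nat_lit 0) (XT.lf (nat_lit 0) (nat_lit 280403170557) (nat_lit 76) (nat_lit 73286813092) (nat_lit 76) (nat_lit 68748114741) (nat_lit 2) (nat_lit 4) (nat_lit 3) (nat_lit 5) (nat_lit 3) (nat_lit 4) (nat_lit 426) (nat_lit 272) (nat_lit 202)) (XT.nd (nat_lit 78) (nat_lit 0) (nat_lit 0) (XT.lf (nat_lit 0) (nat_lit 301565309340) (nat_lit 76) (nat_lit 73180087470) (nat_lit 76) (nat_lit 68634044411) (nat_lit 2) (nat_lit 4) (nat_lit 3) (nat_lit 5) (nat_lit 3) (nat_lit 4) (nat_lit 427) (nat_lit 272) (nat_lit 201)) (XT.lf (nat_lit 0) (nat_lit 323765048017) (nat_lit 76) (nat_lit 73078179824) (nat_lit 76) (nat_lit 68525141806) (nat_lit 2) (nat_lit 4) (nat_lit 3) (nat_lit 5)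 (nat_lit 3) (nat_lit 4) (nat_lit 428) (nat_lit 272) (nat_lit 200)))) (XT.nd (nat_lit 78) (nat_lit 0) (nat_lit 0) (XT.lf (nat_lit 0) (nat_lit 347055243110) (nat_lit 76) (nat_lit 72980847518) (nat_lit 76) (nat_lit 68421147634) (nat_lit 2) (nat_lit 4) (nat_lit 3) (nat_lit 5) (nat_lit 3) (nat_lit 4) (nat_lit 429) (nat_lit 272) (nat_lit 199)) (XT.nd (nat_lit 78) (nat_lit 0) (nat_lit 0) (XT.lf (nat_lit 0) (nat_lit 371491347463) (nat_lit 76) (nat_lit 72887858809) (nat_lit 76) (nat_lit 68321814290) (nat_lit 2) (nat_lit 4) (nat_lit 3) (nat_lit 5) (nat_lit 3) (nat_lit 4) (nat_lit 430) (nat_lit 272) (nat_lit 198)) (XT.lf (nat_lit 0) (nat_lit 397131542277) (nat_lit 76) (nat_lit 72798992294) (nat_lit 76) (nat_lit 68226905265) (nat_lit 2) (nat_lit 4) (nat_lit 3) (nat_lit 5) (nat_lit 3) (nat_lit 4) (nat_lit 431) (nat_lit 272) (nat_lit 197)))))) (XT.nd (nat_lit 468) (nat_lit 0) (nat_lit 0) (XT.nd (nat_lit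 234) (nat_lit 0) (nat_lit 0) (XT.nd (nat_lit 78) (nat_lit 0) (nat_lit 0) (XT.lf (nat_lit 0) (nat_lit 424036875636) (nat_lit 76) (nat_lit 72714036386) (nat_lit 76) (nat_lit 68136194587) (nat_lit 2) (nat_lit 4) (nat_lit 3) (nat_lit 5) (nat_lit 3) (nat_lit 4) (nat_lit 432) (nat_lit 272) (nat_lit 196)) (XT.nd (nat_lit 78) (nat_lit 0) (nat_lit 0) (XT.lf (nat_lit 0) (nat_lit 452271407857) (nat_lit 76) (nat_lit 72632788810) (nat_lit 76) (nat_lit 68049466277) (nat_lit 2) (nat_lit 4) (nat_lit 3) (nat_lit 5) (nat_lit 3) (nat_lit 4) (nat_lit 433) (nat_lit 272) (nat_lit 195)) (XT.lf (nat_lit 0) (nat_lit 481902364017) (nat_lit 76) (nat_lit 72555056118) (nat_lit 76) (nat_lit 67966513839) (nat_lit 2) (nat_lit 4) (nat_lit 3) (nat_lit 5) (nat_lit 3) (nat_lit 4) (nat_lit 434) (nat_lit 272) (nat_lit 194)))) (XT.nd (nat_lit 78) (nat_lit 0) (nat_lit 0) (XT.lf (nat_lit 0) (nat_lit 513000294010) (nat_lit 76)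 (nat_lit 72480653234) (nat_lit 76) (nat_lit 67887139768) (nat_lit 2) (nat_lit 4) (nat_lit 3) (nat_lit 5) (nat_lit 3) (nat_lit 4) (nat_lit 435) (nat_lit 272) (nat_lit 193)) (XT.nd (nat_lit 78) (nat_lit 0) (nat_lit 0) (XT.lf (nat_lit 0) (nat_lit 545639240529) (nat_lit 76) (nat_lit 72409403008) (nat_lit 76) (nat_lit 67811155077) (nat_lit 2) (nat_lit 4) (nat_lit 3) (nat_lit 5) (nat_lit 3) (nat_lit 4) (nat_lit 436) (nat_lit 272) (nat_lit 192)) (XT.lf (nat_lit 0) (nat_lit 579896915349) (nat_lit 76) (nat_lit 72341135795) (nat_lit 76) (nat_lit 67738378851) (nat_lit 2) (nat_lit 4) (nat_lit 3) (nat_lit 5) (nat_lit 3) (nat_lit 4) (nat_lit 437) (nat_lit 272) (nat_lit 191))))) (XT.nd (nat_lit 234) (nat_lit 0) (nat_lit 0) (XT.nd (nat_lit 78) (nat_lit 0) (nat_lit 0) (XT.lf (nat_lit 0) (nat_lit 615854884364) (nat_lit 76) (nat_lit 72275689055) (nat_lit 76) (nat_lit 67668637812) (nat_lit 2) (nat_lit 4) (nat_lit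 3) (nat_lit 5) (nat_lit 3) (nat_lit 4) (nat_lit 438) (nat_lit 272) (nat_lit 190)) (XT.nd (nat_lit 78) (nat_lit 0) (nat_lit 0) (XT.lf (nat_lit 0) (nat_lit 653598761786) (nat_lit 76) (nat_lit 72212906962) (nat_lit 76) (nat_lit 67601765912) (nat_lit 2) (nat_lit 4) (nat_lit 3) (nat_lit 5) (nat_lit 3) (nat_lit 4) (nat_lit 439) (nat_lit 272) (nat_lit 189)) (XT.lf (nat_lit 0) (nat_lit 693218413989) (nat_lit 76) (nat_lit 72152640036) (nat_lit 76) (nat_lit 67537603930) (nat_lit 2) (nat_lit 4) (nat_lit 3) (nat_lit 5) (nat_lit 3) (nat_lit 4) (nat_lit 440) (nat_lit 272) (nat_lit 188)))) (XT.nd (nat_lit 40170) (nat_lit 0) (nat_lit 1368) (XT.nd (nat_lit 40092) (nat_lit 0) (nat_lit 1444) (XT.lf (nat_lit 0) (nat_lit 734808173478) (nat_lit 76) (nat_lit 72094744783) (nat_lit 76) (nat_lit 67475999101) (nat_lit 2) (nat_lit 4) (nat_lit 3) (nat_lit 5) (nat_lit 3) (nat_lit 4) (nat_lit 441) (nat_lit 272) (nat_lit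 187)) (XT.lf (nat_lit 0) (nat_lit 2454493137) (nat_lit 152) (nat_lit 3927325370) (nat_lit 0) (nat_lit 2454493137) (nat_lit 21) (nat_lit 5) (nat_lit 23) (nat_lit 4) (nat_lit 21) (nat_lit 4) (nat_lit 354) (nat_lit 273) (nat_lit 273))) (XT.nd (nat_lit 78) (nat_lit 0) (nat_lit 0) (XT.lf (nat_lit 0) (nat_lit 2863236602) (nat_lit 76) (nat_lit 7855809555) (nat_lit 76) (nat_lit 7541360320) (nat_lit 20) (nat_lit 4) (nat_lit 21) (nat_lit 5) (nat_lit 21) (nat_lit 4) (nat_lit 355) (nat_lit 273) (nat_lit 272)) (XT.lf (nat_lit 0) (nat_lit 14031253267) (nat_lit 76) (nat_lit 2731562420) (nat_lit 76) (nat_lit 2117637723) (nat_lit 20) (nat_lit 4) (nat_lit 21) (nat_lit 5) (nat_lit 21) (nat_lit 4) (nat_lit 356) (nat_lit 273) (nat_lit 271))))))))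
noncomputable def xc39 : XT := (XT.nd (nat_lit 1950) (nat_lit 304) (nat_lit 0) (XT.nd (nat_lit 936) (nat_lit 380) (nat_lit 0) (XT.nd (nat_lit 468) (nat_lit 304) (nat_lit 0) (XT.nd (nat_lit 234) (nat_lit 152) (nat_lit 0) (XT.nd (nat_lit 78) (nat_lit 76) (nat_lit 0) (XT.lf (nat_lit 0) (nat_lit 3414175522) (nat_lit 152) (nat_lit 13559144037) (nat_lit 0) (nat_lit 2557852263) (nat_lit 18) (nat_lit 5) (nat_lit 20) (nat_lit 4) (nat_lit 18) (nat_lit 4) (nat_lit 357) (nat_lit 273) (nat_lit 270)) (XT.nd (nat_lit 78) (nat_lit 76) (nat_lit 0) (XT.lf (nat_lit 0) (nat_lit 9096781034) (nat_lit 152) (nat_lit 3136911499) (nat_lit 0) (nat_lit 7981759611) (nat_lit 18) (nat_lit 5) (nat_lit 20) (nat_lit 4) (nat_lit 18) (nat_lit 4) (nat_lit 358) (nat_lit 273) (nat_lit 269)) (XT.lf (nat_lit 0) (nat_lit 7721747731) (nat_lit 76) (nat_lit 7288154419) (nat_lit 76) (nat_lit 5926753792) (nat_lit 17) (nat_lit 4) (nat_lit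 18) (nat_lit 5) (nat_lit 18) (nat_lit 4) (nat_lit 359) (nat_lit 273) (nat_lit 268)))) (XT.nd (nat_lit 78) (nat_lit 152) (nat_lit 0) (XT.lf (nat_lit 0) (nat_lit 18905769404) (nat_lit 76) (nat_lit 2195058961) (nat_lit 76) (nat_lit 599011474) (nat_lit 17) (nat_lit 4) (nat_lit 18) (nat_lit 5) (nat_lit 18) (nat_lit 4) (nat_lit 360) (nat_lit 273) (nat_lit 267)) (XT.nd (nat_lit 78) (nat_lit 0) (nat_lit 0) (XT.lf (nat_lit 0) (nat_lit 4844963673) (nat_lit 152) (nat_lit 14539771821) (nat_lit 0) (nat_lit 3112086827) (nat_lit 15) (nat_lit 5) (nat_lit 17) (nat_lit 4) (nat_lit 15) (nat_lit 4) (nat_lit 361) (nat_lit 273) (nat_lit 266)) (XT.lf (nat_lit 0) (nat_lit 10460255325) (nat_lit 152) (nat_lit 4352287123) (nat_lit 0) (nat_lit 8524681698) (nat_lit 15) (nat_lit 5) (nat_lit 17) (nat_lit 4) (nat_lit 15) (nat_lit 4) (nat_lit 362) (nat_lit 273) (nat_lit 265))))) (XT.nd (nat_lit 234) (nat_lit 76) (nat_lit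 0) (XT.nd (nat_lit 78) (nat_lit 152) (nat_lit 0) (XT.lf (nat_lit 0) (nat_lit 6242317043) (nat_lit 76) (nat_lit 10054472894) (nat_lit 76) (nat_lit 7925854715) (nat_lit 14) (nat_lit 4) (nat_lit 15) (nat_lit 5) (nat_lit 15) (nat_lit 4) (nat_lit 363) (nat_lit 273) (nat_lit 264)) (XT.nd (nat_lit 78) (nat_lit 152) (nat_lit 0) (XT.lf (nat_lit 0) (nat_lit 17220576847) (nat_lit 76) (nat_lit 5124136404) (nat_lit 76) (nat_lit 2811666270) (nat_lit 14) (nat_lit 4) (nat_lit 15) (nat_lit 5) (nat_lit 15) (nat_lit 4) (nat_lit 364) (nat_lit 273) (nat_lit 263)) (XT.lf (nat_lit 0) (nat_lit 2358515936) (nat_lit 76) (nat_lit 5427073) (nat_lit 152) (nat_lit 23776500971) (nat_lit 12) (nat_lit 5) (nat_lit 13) (nat_lit 5) (nat_lit 14) (nat_lit 4) (nat_lit 365) (nat_lit 273) (nat_lit 262)))) (XT.nd (nat_lit 78) (nat_lit 76) (nat_lit 0) (XT.lf (nat_lit 0) (nat_lit 7775585583) (nat_lit 152) (nat_lit 14144597089) (nat_lit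 0) (nat_lit 5247655700) (nat_lit 12) (nat_lit 5) (nat_lit 14) (nat_lit 4) (nat_lit 12) (nat_lit 4) (nat_lit 366) (nat_lit 273) (nat_lit 261)) (XT.nd (nat_lit 78) (nat_lit 76) (nat_lit 0) (XT.lf (nat_lit 0) (nat_lit 13316294334) (nat_lit 152) (nat_lit 4300292591) (nat_lit 0) (nat_lit 10637108992) (nat_lit 12) (nat_lit 5) (nat_lit 14) (nat_lit 4) (nat_lit 12) (nat_lit 4) (nat_lit 367) (nat_lit 273) (nat_lit 260)) (XT.lf (nat_lit 0) (nat_lit 5965440347) (nat_lit 76) (nat_lit 13126873589) (nat_lit 76) (nat_lit 10303635429) (nat_lit 11) (nat_lit 4) (nat_lit 12) (nat_lit 5) (nat_lit 12) (nat_lit 4) (nat_lit 368) (nat_lit 273) (nat_lit 259)))))) (XT.nd (nat_lit 468) (nat_lit 152) (nat_lit 0) (XT.nd (nat_lit 234) (nat_lit 76) (nat_lit 0) (XT.nd (nat_lit 78) (nat_lit 152) (nat_lit 0) (XT.lf (nat_lit 0) (nat_lit 16636259511) (nat_lit 76) (nat_lit 8461242458) (nat_lit 76) (nat_lit 5500811139) (nat_lit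 11) (nat_lit 4) (nat_lit 12) (nat_lit 5) (nat_lit 12) (nat_lit 4) (nat_lit 369) (nat_lit 273) (nat_lit 258)) (XT.nd (nat_lit 78) (nat_lit 152) (nat_lit 0) (XT.lf (nat_lit 0) (nat_lit 27595384520) (nat_lit 76) (nat_lit 3681412425) (nat_lit 76) (nat_lit 590320954) (nat_lit 11) (nat_lit 4) (nat_lit 12) (nat_lit 5) (nat_lit 12) (nat_lit 4) (nat_lit 370) (nat_lit 273) (nat_lit 257)) (XT.lf (nat_lit 0) (nat_lit 4409388865) (nat_lit 152) (nat_lit 27439952808) (nat_lit 0) (nat_lit 1346979617) (nat_lit 9) (nat_lit 5) (nat_lit 11) (nat_lit 4) (nat_lit 9) (nat_lit 4) (nat_lit 371) (nat_lit 273) (nat_lit 256)))) (XT.nd (nat_lit 78) (nat_lit 76) (nat_lit 0) (XT.lf (nat_lit 0) (nat_lit 9651386339) (nat_lit 152) (nat_lit 18463412822) (nat_lit 0) (nat_lit 6476107939) (nat_lit 9) (nat_lit 5) (nat_lit 11) (nat_lit 4) (nat_lit 9) (nat_lit 4) (nat_lit 372) (nat_lit 273) (nat_lit 255)) (XT.nd (nat_lit 78) (nat_lit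 76) (nat_lit 0) (XT.lf (nat_lit 0) (nat_lit 15039540790) (nat_lit 152) (nat_lit 9264723131) (nat_lit 0) (nat_lit 11756767959) (nat_lit 9) (nat_lit 5) (nat_lit 11) (nat_lit 4) (nat_lit 9) (nat_lit 4) (nat_lit 373) (nat_lit 273) (nat_lit 254)) (XT.lf (nat_lit 0) (nat_lit 183903982) (nat_lit 76) (nat_lit 20405648430) (nat_lit 76) (nat_lit 17020499951) (nat_lit 8) (nat_lit 4) (nat_lit 9) (nat_lit 5) (nat_lit 9) (nat_lit 4) (nat_lit 374) (nat_lit 273) (nat_lit 253))))) (XT.nd (nat_lit 234) (nat_lit 152) (nat_lit 0) (XT.nd (nat_lit 78) (nat_lit 0) (nat_lit 0) (XT.lf (nat_lit 0) (nat_lit 10214211568) (nat_lit 76) (nat_lit 16251275814) (nat_lit 76) (nat_lit 12768626717) (nat_lit 8) (nat_lit 4) (nat_lit 9) (nat_lit 5) (nat_lit 9) (nat_lit 4) (nat_lit 375) (nat_lit 273) (nat_lit 252)) (XT.nd (nat_lit 78) (nat_lit 0) (nat_lit 0) (XT.lf (nat_lit 0) (nat_lit 20543747724) (nat_lit 76) (nat_lit 11988157279)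 (nat_lit 76) (nat_lit 8412650452) (nat_lit 8) (nat_lit 4) (nat_lit 9) (nat_lit 5) (nat_lit 9) (nat_lit 4) (nat_lit 376) (nat_lit 273) (nat_lit 251)) (XT.lf (nat_lit 0) (nat_lit 31197106582) (nat_lit 76) (nat_lit 7606142544) (nat_lit 76) (nat_lit 3942199783) (nat_lit 8) (nat_lit 4) (nat_lit 9) (nat_lit 5) (nat_lit 9) (nat_lit 4) (nat_lit 377) (nat_lit 273) (nat_lit 250)))) (XT.nd (nat_lit 156) (nat_lit 0) (nat_lit 0) (XT.nd (nat_lit 78) (nat_lit 76) (nat_lit 0) (XT.lf (nat_lit 0) (nat_lit 632457323) (nat_lit 152) (nat_lit 2451629945) (nat_lit 76) (nat_lit 41556484988) (nat_lit 7) (nat_lit 5) (nat_lit 9) (nat_lit 5) (nat_lit 8) (nat_lit 4) (nat_lit 378) (nat_lit 273) (nat_lit 249)) (XT.lf (nat_lit 0) (nat_lit 5350744934) (nat_lit 152) (nat_lit 39569448009) (nat_lit 0) (nat_lit 1704667354) (nat_lit 6) (nat_lit 5) (nat_lit 8) (nat_lit 4) (nat_lit 6) (nat_lit 4) (nat_lit 379) (nat_lit 273) (nat_lit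 248))) (XT.nd (nat_lit 78) (nat_lit 0) (nat_lit 0) (XT.lf (nat_lit 0) (nat_lit 10307237827) (nat_lit 152) (nat_lit 31812615065) (nat_lit 0) (nat_lit 6588403786) (nat_lit 6) (nat_lit 5) (nat_lit 8) (nat_lit 4) (nat_lit 6) (nat_lit 4) (nat_lit 380) (nat_lit 273) (nat_lit 247)) (XT.lf (nat_lit 0) (nat_lit 15425395277) (nat_lit 152) (nat_lit 23837474316) (nat_lit 0) (nat_lit 11637269367) (nat_lit 6) (nat_lit 5) (nat_lit 8) (nat_lit 4) (nat_lit 6) (nat_lit 4) (nat_lit 381) (nat_lit 273) (nat_lit 246))))))) (XT.nd (nat_lit 936) (nat_lit 76) (nat_lit 0) (XT.nd (nat_lit 468) (nat_lit 152) (nat_lit 0) (XT.nd (nat_lit 234) (nat_lit 0) (nat_lit 0) (XT.nd (nat_lit 78) (nat_lit 76) (nat_lit 0) (XT.lf (nat_lit 0) (nat_lit 20717403373) (nat_lit 152) (nat_lit 15625037333) (nat_lit 0) (nat_lit 16863285207) (nat_lit 6) (nat_lit 5) (nat_lit 8) (nat_lit 4) (nat_lit 6) (nat_lit 4) (nat_lit 382) (nat_lit 273)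 (nat_lit 245)) (XT.nd (nat_lit 78) (nat_lit 76) (nat_lit 0) (XT.lf (nat_lit 0) (nat_lit 26195862133) (nat_lit 152) (nat_lit 7155750695) (nat_lit 0) (nat_lit 22278894201) (nat_lit 6) (nat_lit 5) (nat_lit 8) (nat_lit 4) (nat_lit 6) (nat_lit 4) (nat_lit 383) (nat_lit 273) (nat_lit 244)) (XT.lf (nat_lit 0) (nat_lit 1643141350) (nat_lit 76) (nat_lit 30256328199) (nat_lit 76) (nat_lit 26279503345) (nat_lit 5) (nat_lit 4) (nat_lit 6) (nat_lit 5) (nat_lit 6) (nat_lit 4) (nat_lit 384) (nat_lit 273) (nat_lit 243)))) (XT.nd (nat_lit 78) (nat_lit 0) (nat_lit 0) (XT.lf (nat_lit 0) (nat_lit 10986321889) (nat_lit 76) (nat_lit 26949987818) (nat_lit 76) (nat_lit 22916156373) (nat_lit 5) (nat_lit 4) (nat_lit 6) (nat_lit 5) (nat_lit 6) (nat_lit 4) (nat_lit 385) (nat_lit 273) (nat_lit 242)) (XT.nd (nat_lit 78) (nat_lit 0) (nat_lit 0) (XT.lf (nat_lit 0) (nat_lit 20659435154) (nat_lit 76) (nat_lit 23545905550)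 (nat_lit 76) (nat_lit 19457782112) (nat_lit 5) (nat_lit 4) (nat_lit 6) (nat_lit 5) (nat_lit 6) (nat_lit 4) (nat_lit 386) (nat_lit 273) (nat_lit 241)) (XT.lf (nat_lit 0) (nat_lit 30685512366) (nat_lit 76) (nat_lit 20035976434) (nat_lit 76) (nat_lit 15896146338) (nat_lit 5) (nat_lit 4) (nat_lit 6) (nat_lit 5) (nat_lit 6) (nat_lit 4) (nat_lit 387) (nat_lit 273) (nat_lit 240))))) (XT.nd (nat_lit 234) (nat_lit 152) (nat_lit 0) (XT.nd (nat_lit 78) (nat_lit 0) (nat_lit 0) (XT.lf (nat_lit 0) (nat_lit 41088425139) (nat_lit 76) (nat_lit 16411843498) (nat_lit 76) (nat_lit 12222768965) (nat_lit 5) (nat_lit 4) (nat_lit 6) (nat_lit 5) (nat_lit 6) (nat_lit 4) (nat_lit 388) (nat_lit 273) (nat_lit 239)) (XT.nd (nat_lit 78) (nat_lit 0) (nat_lit 0) (XT.lf (nat_lit 0) (nat_lit 51892942312) (nat_lit 76) (nat_lit 12664877854) (nat_lit 76) (nat_lit 8428903857) (nat_lit 5) (nat_lit 4) (nat_lit 6) (nat_lit 5) (nat_lit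 6) (nat_lit 4) (nat_lit 389) (nat_lit 273) (nat_lit 238)) (XT.lf (nat_lit 0) (nat_lit 63124788927) (nat_lit 76) (nat_lit 8786158154) (nat_lit 76) (nat_lit 4505518001) (nat_lit 5) (nat_lit 4) (nat_lit 6) (nat_lit 5) (nat_lit 6) (nat_lit 4) (nat_lit 390) (nat_lit 273) (nat_lit 237)))) (XT.nd (nat_lit 78) (nat_lit 152) (nat_lit 0) (XT.lf (nat_lit 0) (nat_lit 74810707474) (nat_lit 76) (nat_lit 4766449353) (nat_lit 76) (nat_lit 443270003) (nat_lit 5) (nat_lit 4) (nat_lit 6) (nat_lit 5) (nat_lit 6) (nat_lit 4) (nat_lit 391) (nat_lit 273) (nat_lit 236)) (XT.nd (nat_lit 78) (nat_lit 0) (nat_lit 0) (XT.lf (nat_lit 0) (nat_lit 3215423655) (nat_lit 76) (nat_lit 481706356) (nat_lit 152) (nat_lit 80104608956) (nat_lit 3) (nat_lit 5) (nat_lit 4) (nat_lit 5) (nat_lit 5) (nat_lit 4) (nat_lit 392) (nat_lit 273) (nat_lit 235)) (XT.lf (nat_lit 0) (nat_lit 8129344837) (nat_lit 152) (nat_lit 75700728337) (nat_lit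 0) (nat_lit 3936699908) (nat_lit 3) (nat_lit 5) (nat_lit 5) (nat_lit 4) (nat_lit 3) (nat_lit 4) (nat_lit 393) (nat_lit 273) (nat_lit 234)))))) (XT.nd (nat_lit 468) (nat_lit 76) (nat_lit 0) (XT.nd (nat_lit 234) (nat_lit 0) (nat_lit 0) (XT.nd (nat_lit 78) (nat_lit 0) (nat_lit 0) (XT.lf (nat_lit 0) (nat_lit 12740872168) (nat_lit 152) (nat_lit 70678075588) (nat_lit 0) (nat_lit 8513230138) (nat_lit 3) (nat_lit 5) (nat_lit 5) (nat_lit 4) (nat_lit 3) (nat_lit 4) (nat_lit 394) (nat_lit 273) (nat_lit 233)) (XT.nd (nat_lit 78) (nat_lit 0) (nat_lit 0) (XT.lf (nat_lit 0) (nat_lit 17535171048) (nat_lit 152) (nat_lit 65498877582) (nat_lit 0) (nat_lit 13274198444) (nat_lit 3) (nat_lit 5) (nat_lit 5) (nat_lit 4) (nat_lit 3) (nat_lit 4) (nat_lit 395) (nat_lit 273) (nat_lit 232)) (XT.lf (nat_lit 0) (nat_lit 22523656472) (nat_lit 152) (nat_lit 60150802897) (nat_lit 0) (nat_lit 18230940465) (nat_lit 3) (nat_lit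 5) (nat_lit 5) (nat_lit 4) (nat_lit 3) (nat_lit 4) (nat_lit 396) (nat_lit 273) (nat_lit 231)))) (XT.nd (nat_lit 78) (nat_lit 0) (nat_lit 0) (XT.lf (nat_lit 0) (nat_lit 27718205787) (nat_lit 152) (nat_lit 54621118020) (nat_lit 0) (nat_lit 23395257968) (nat_lit 3) (nat_lit 5) (nat_lit 5) (nat_lit 4) (nat_lit 3) (nat_lit 4) (nat_lit 397) (nat_lit 273) (nat_lit 230)) (XT.nd (nat_lit 78) (nat_lit 0) (nat_lit 0) (XT.lf (nat_lit 0) (nat_lit 33131186969) (nat_lit 152) (nat_lit 48896657036) (nat_lit 0) (nat_lit 28779446947) (nat_lit 3) (nat_lit 5) (nat_lit 5) (nat_lit 4) (nat_lit 3) (nat_lit 4) (nat_lit 398) (nat_lit 273) (nat_lit 229)) (XT.lf (nat_lit 0) (nat_lit 38775488066) (nat_lit 152) (nat_lit 42963790275) (nat_lit 0) (nat_lit 34396326899) (nat_lit 3) (nat_lit 5) (nat_lit 5) (nat_lit 4) (nat_lit 3) (nat_lit 4) (nat_lit 399) (nat_lit 273) (nat_lit 228))))) (XT.nd (nat_lit 234) (nat_lit 76)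 (nat_lit 0) (XT.nd (nat_lit 78) (nat_lit 0) (nat_lit 0) (XT.lf (nat_lit 0) (nat_lit 44664547892) (nat_lit 152) (nat_lit 36808391865) (nat_lit 0) (nat_lit 40259271348) (nat_lit 3) (nat_lit 5) (nat_lit 5) (nat_lit 4) (nat_lit 3) (nat_lit 4) (nat_lit 400) (nat_lit 273) (nat_lit 227)) (XT.nd (nat_lit 78) (nat_lit 0) (nat_lit 0) (XT.lf (nat_lit 0) (nat_lit 50812388018) (nat_lit 152) (nat_lit 30415806094) (nat_lit 0) (nat_lit 46382239687) (nat_lit 3) (nat_lit 5) (nat_lit 5) (nat_lit 4) (nat_lit 3) (nat_lit 4) (nat_lit 401) (nat_lit 273) (nat_lit 226)) (XT.lf (nat_lit 0) (nat_lit 57233646157) (nat_lit 152) (nat_lit 23770812521) (nat_lit 0) (nat_lit 52779810410) (nat_lit 3) (nat_lit 5) (nat_lit 5) (nat_lit 4) (nat_lit 3) (nat_lit 4) (nat_lit 402) (nat_lit 273) (nat_lit 225)))) (XT.nd (nat_lit 156) (nat_lit 76) (nat_lit 0) (XT.nd (nat_lit 78) (nat_lit 0) (nat_lit 0) (XT.lf (nat_lit 0) (nat_lit 63943611020)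 (nat_lit 152) (nat_lit 16857589731) (nat_lit 0) (nat_lit 59467215829) (nat_lit 3) (nat_lit 5) (nat_lit 5) (nat_lit 4) (nat_lit 3) (nat_lit 4) (nat_lit 403) (nat_lit 273) (nat_lit 224)) (XT.lf (nat_lit 0) (nat_lit 70958258714) (nat_lit 152) (nat_lit 9659677672) (nat_lit 0) (nat_lit 66460378338) (nat_lit 3) (nat_lit 5) (nat_lit 5) (nat_lit 4) (nat_lit 3) (nat_lit 4) (nat_lit 404) (nat_lit 273) (nat_lit 223))) (XT.nd (nat_lit 78) (nat_lit 76) (nat_lit 0) (XT.lf (nat_lit 0) (nat_lit 78294290780) (nat_lit 152) (nat_lit 2159938457) (nat_lit 0) (nat_lit 73775948324) (nat_lit 3) (nat_lit 5) (nat_lit 5) (nat_lit 4) (nat_lit 3) (nat_lit 4) (nat_lit 405) (nat_lit 273) (nat_lit 222)) (XT.lf (nat_lit 0) (nat_lit 5846612550) (nat_lit 76) (nat_lit 80213843419) (nat_lit 76) (nat_lit 75676013267) (nat_lit 2) (nat_lit 4) (nat_lit 3) (nat_lit 5) (nat_lit 3) (nat_lit 4) (nat_lit 406) (nat_lit 273) (nat_lit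 221))))))))
noncomputable def xc40 : XT := (XT.nd (nat_lit 1872) (nat_lit 0) (nat_lit 0) (XT.nd (nat_lit 936) (nat_lit 0) (nat_lit 0) (XT.nd (nat_lit 468) (nat_lit 0) (nat_lit 0) (XT.nd (nat_lit 234) (nat_lit 0) (nat_lit 0) (XT.nd (nat_lit 78) (nat_lit 0) (nat_lit 0) (XT.lf (nat_lit 0) (nat_lit 14274068000) (nat_lit 76) (nat_lit 79949971997) (nat_lit 76) (nat_lit 75393582134) (nat_lit 2) (nat_lit 4) (nat_lit 3) (nat_lit 5) (nat_lit 3) (nat_lit 4) (nat_lit 407) (nat_lit 273) (nat_lit 220)) (XT.nd (nat_lit 78) (nat_lit 0) (nat_lit 0) (XT.lf (nat_lit 0) (nat_lit 23071075941) (nat_lit 76) (nat_lit 79698566308) (nat_lit 76) (nat_lit 75124500530) (nat_lit 2) (nat_lit 4) (nat_lit 3) (nat_lit 5) (nat_lit 3) (nat_lit 4) (nat_lit 408) (nat_lit 273) (nat_lit 219)) (XT.lf (nat_lit 0) (nat_lit 32258581632) (nat_lit 76) (nat_lit 79459027767) (nat_lit 76) (nat_lit 74868127784) (nat_lit 2) (nat_lit 4)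 (nat_lit 3) (nat_lit 5) (nat_lit 3) (nat_lit 4) (nat_lit 409) (nat_lit 273) (nat_lit 218)))) (XT.nd (nat_lit 78) (nat_lit 0) (nat_lit 0) (XT.lf (nat_lit 0) (nat_lit 41858460085) (nat_lit 76) (nat_lit 79230786044) (nat_lit 76) (nat_lit 74623853486) (nat_lit 2) (nat_lit 4) (nat_lit 3) (nat_lit 5) (nat_lit 3) (nat_lit 4) (nat_lit 410) (nat_lit 273) (nat_lit 217)) (XT.nd (nat_lit 78) (nat_lit 0) (nat_lit 0) (XT.lf (nat_lit 0) (nat_lit 51893568155) (nat_lit 76) (nat_lit 79013297708) (nat_lit 76) (nat_lit 74391096030) (nat_lit 2) (nat_lit 4) (nat_lit 3) (nat_lit 5) (nat_lit 3) (nat_lit 4) (nat_lit 411) (nat_lit 273) (nat_lit 216)) (XT.lf (nat_lit 0) (nat_lit 62387798955) (nat_lit 76) (nat_lit 78806044927) (nat_lit 76) (nat_lit 74169301231) (nat_lit 2) (nat_lit 4) (nat_lit 3) (nat_lit 5) (nat_lit 3) (nat_lit 4) (nat_lit 412) (nat_lit 273) (nat_lit 215))))) (XT.nd (nat_lit 234) (nat_lit 0) (nat_lit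 0) (XT.nd (nat_lit 78) (nat_lit 0) (nat_lit 0) (XT.lf (nat_lit 0) (nat_lit 73366138750) (nat_lit 76) (nat_lit 78608534245) (nat_lit 76) (nat_lit 73957941006) (nat_lit 2) (nat_lit 4) (nat_lit 3) (nat_lit 5) (nat_lit 3) (nat_lit 4) (nat_lit 413) (nat_lit 273) (nat_lit 214)) (XT.nd (nat_lit 78) (nat_lit 0) (nat_lit 0) (XT.lf (nat_lit 0) (nat_lit 84854726443) (nat_lit 76) (nat_lit 78420295396) (nat_lit 76) (nat_lit 73756512118) (nat_lit 2) (nat_lit 4) (nat_lit 3) (nat_lit 5) (nat_lit 3) (nat_lit 4) (nat_lit 414) (nat_lit 273) (nat_lit 213)) (XT.lf (nat_lit 0) (nat_lit 96880915815) (nat_lit 76) (nat_lit 78240880193) (nat_lit 76) (nat_lit 73564534972) (nat_lit 2) (nat_lit 4) (nat_lit 3) (nat_lit 5) (nat_lit 3) (nat_lit 4) (nat_lit 415) (nat_lit 273) (nat_lit 212)))) (XT.nd (nat_lit 78) (nat_lit 0) (nat_lit 0) (XT.lf (nat_lit 0) (nat_lit 109473340650) (nat_lit 76) (nat_lit 78069861458) (nat_lit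 76) (nat_lit 73381552482) (nat_lit 2) (nat_lit 4) (nat_lit 3) (nat_lit 5) (nat_lit 3) (nat_lit 4) (nat_lit 416) (nat_lit 273) (nat_lit 211)) (XT.nd (nat_lit 78) (nat_lit 0) (nat_lit 0) (XT.lf (nat_lit 0) (nat_lit 122661982912) (nat_lit 76) (nat_lit 77906832002) (nat_lit 76) (nat_lit 73207128974) (nat_lit 2) (nat_lit 4) (nat_lit 3) (nat_lit 5) (nat_lit 3) (nat_lit 4) (nat_lit 417) (nat_lit 273) (nat_lit 210)) (XT.lf (nat_lit 0) (nat_lit 136478244130) (nat_lit 76) (nat_lit 77751403660) (nat_lit 76) (nat_lit 73040849154) (nat_lit 2) (nat_lit 4) (nat_lit 3) (nat_lit 5) (nat_lit 3) (nat_lit 4) (nat_lit 418) (nat_lit 273) (nat_lit 209)))))) (XT.nd (nat_lit 468) (nat_lit 0) (nat_lit 0) (XT.nd (nat_lit 234) (nat_lit 0) (nat_lit 0) (XT.nd (nat_lit 78) (nat_lit 0) (nat_lit 0) (XT.lf (nat_lit 0) (nat_lit 150955020164) (nat_lit 76) (nat_lit 77603206365) (nat_lit 76) (nat_lit 72882317118) (nat_lit 2)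 (nat_lit 4) (nat_lit 3) (nat_lit 5) (nat_lit 3) (nat_lit 4) (nat_lit 419) (nat_lit 273) (nat_lit 208)) (XT.nd (nat_lit 78) (nat_lit 0) (nat_lit 0) (XT.lf (nat_lit 0) (nat_lit 166126779529) (nat_lit 76) (nat_lit 77461887267) (nat_lit 76) (nat_lit 72731155409) (nat_lit 2) (nat_lit 4) (nat_lit 3) (nat_lit 5) (nat_lit 3) (nat_lit 4) (nat_lit 420) (nat_lit 273) (nat_lit 207)) (XT.lf (nat_lit 0) (nat_lit 182029645461) (nat_lit 76) (nat_lit 77327109890) (nat_lit 76) (nat_lit 72587004117) (nat_lit 2) (nat_lit 4) (nat_lit 3) (nat_lit 5) (nat_lit 3) (nat_lit 4) (nat_lit 421) (nat_lit 273) (nat_lit 206)))) (XT.nd (nat_lit 78) (nat_lit 0) (nat_lit 0) (XT.lf (nat_lit 0) (nat_lit 198701481927) (nat_lit 76) (nat_lit 77198553337) (nat_lit 76) (nat_lit 72449520026) (nat_lit 2) (nat_lit 4) (nat_lit 3) (nat_lit 5) (nat_lit 3) (nat_lit 4) (nat_lit 422) (nat_lit 273) (nat_lit 205)) (XT.nd (nat_lit 78) (nat_lit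 0) (nat_lit 0) (XT.lf (nat_lit 0) (nat_lit 216181983775) (nat_lit 76) (nat_lit 77075911520) (nat_lit 76) (nat_lit 72318375792) (nat_lit 2) (nat_lit 4) (nat_lit 3) (nat_lit 5) (nat_lit 3) (nat_lit 4) (nat_lit 423) (nat_lit 273) (nat_lit 204)) (XT.lf (nat_lit 0) (nat_lit 234512771249) (nat_lit 76) (nat_lit 76958892436) (nat_lit 76) (nat_lit 72193259167) (nat_lit 2) (nat_lit 4) (nat_lit 3) (nat_lit 5) (nat_lit 3) (nat_lit 4) (nat_lit 424) (nat_lit 273) (nat_lit 203))))) (XT.nd (nat_lit 234) (nat_lit 0) (nat_lit 0) (XT.nd (nat_lit 78) (nat_lit 0) (nat_lit 0) (XT.lf (nat_lit 0) (nat_lit 253737489079) (nat_lit 76) (nat_lit 76847217467) (nat_lit 76) (nat_lit 72073872255) (nat_lit 2) (nat_lit 4) (nat_lit 3) (nat_lit 5) (nat_lit 3) (nat_lit 4) (nat_lit 425) (nat_lit 273) (nat_lit 202)) (XT.nd (nat_lit 78) (nat_lit 0) (nat_lit 0) (XT.lf (nat_lit 0) (nat_lit 273901910403) (nat_lit 76) (nat_lit 76740620720)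 (nat_lit 76) (nat_lit 71959930801) (nat_lit 2) (nat_lit 4) (nat_lit 3) (nat_lit 5) (nat_lit 3) (nat_lit 4) (nat_lit 426) (nat_lit 273) (nat_lit 201)) (XT.lf (nat_lit 0) (nat_lit 295054045750) (nat_lit 76) (nat_lit 76638848394) (nat_lit 76) (nat_lit 71851163516) (nat_lit 2) (nat_lit 4) (nat_lit 3) (nat_lit 5) (nat_lit 3) (nat_lit 4) (nat_lit 427) (nat_lit 273) (nat_lit 200)))) (XT.nd (nat_lit 78) (nat_lit 0) (nat_lit 0) (XT.lf (nat_lit 0) (nat_lit 317244257345) (nat_lit 76) (nat_lit 76541658174) (nat_lit 76) (nat_lit 71747311429) (nat_lit 2) (nat_lit 4) (nat_lit 3) (nat_lit 5) (nat_lit 3) (nat_lit 4) (nat_lit 428) (nat_lit 273) (nat_lit 199)) (XT.nd (nat_lit 78) (nat_lit 0) (nat_lit 0) (XT.lf (nat_lit 0) (nat_lit 340525379025) (nat_lit 76) (nat_lit 76448818655) (nat_lit 76) (nat_lit 71648127275) (nat_lit 2) (nat_lit 4) (nat_lit 3) (nat_lit 5) (nat_lit 3) (nat_lit 4) (nat_lit 429) (nat_lit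 273) (nat_lit 198)) (XT.lf (nat_lit 0) (nat_lit 364952842034) (nat_lit 76) (nat_lit 76360108789) (nat_lit 76) (nat_lit 71553374900) (nat_lit 2) (nat_lit 4) (nat_lit 3) (nat_lit 5) (nat_lit 3) (nat_lit 4) (nat_lit 430) (nat_lit 273) (nat_lit 197))))))) (XT.nd (nat_lit 40794) (nat_lit 0) (nat_lit 760) (XT.nd (nat_lit 468) (nat_lit 0) (nat_lit 0) (XT.nd (nat_lit 234) (nat_lit 0) (nat_lit 0) (XT.nd (nat_lit 78) (nat_lit 0) (nat_lit 0) (XT.lf (nat_lit 0) (nat_lit 390584806997) (nat_lit 76) (nat_lit 76275317363) (nat_lit 76) (nat_lit 71462828704) (nat_lit 2) (nat_lit 4) (nat_lit 3) (nat_lit 5) (nat_lit 3) (nat_lit 4) (nat_lit 431) (nat_lit 273) (nat_lit 196)) (XT.nd (nat_lit 78) (nat_lit 0) (nat_lit 0) (XT.lf (nat_lit 0) (nat_lit 417482302402) (nat_lit 76) (nat_lit 76194242493) (nat_lit 76) (nat_lit 71376273099) (nat_lit 2) (nat_lit 4) (nat_lit 3) (nat_lit 5) (nat_lit 3) (nat_lit 4) (nat_lit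 432) (nat_lit 273) (nat_lit 195)) (XT.lf (nat_lit 0) (nat_lit 445709369904) (nat_lit 76) (nat_lit 76116691143) (nat_lit 76) (nat_lit 71293502003) (nat_lit 2) (nat_lit 4) (nat_lit 3) (nat_lit 5) (nat_lit 3) (nat_lit 4) (nat_lit 433) (nat_lit 273) (nat_lit 194)))) (XT.nd (nat_lit 78) (nat_lit 0) (nat_lit 0) (XT.lf (nat_lit 0) (nat_lit 475333216808) (nat_lit 76) (nat_lit 76042478667) (nat_lit 76) (nat_lit 71214318340) (nat_lit 2) (nat_lit 4) (nat_lit 3) (nat_lit 5) (nat_lit 3) (nat_lit 4) (nat_lit 434) (nat_lit 273) (nat_lit 193)) (XT.nd (nat_lit 78) (nat_lit 0) (nat_lit 0) (XT.lf (nat_lit 0) (nat_lit 506424376082) (nat_lit 76) (nat_lit 75971428369) (nat_lit 76) (nat_lit 71138533578) (nat_lit 2) (nat_lit 4) (nat_lit 3) (nat_lit 5) (nat_lit 3) (nat_lit 4) (nat_lit 435) (nat_lit 273) (nat_lit 192)) (XT.lf (nat_lit 0) (nat_lit 539056874296) (nat_lit 76) (nat_lit 75903371081) (nat_lit 76) (nat_lit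 71065967277) (nat_lit 2) (nat_lit 4) (nat_lit 3) (nat_lit 5) (nat_lit 3) (nat_lit 4) (nat_lit 436) (nat_lit 273) (nat_lit 191))))) (XT.nd (nat_lit 234) (nat_lit 0) (nat_lit 0) (XT.nd (nat_lit 78) (nat_lit 0) (nat_lit 0) (XT.lf (nat_lit 0) (nat_lit 573308407875) (nat_lit 76) (nat_lit 75838144763) (nat_lit 76) (nat_lit 70996446660) (nat_lit 2) (nat_lit 4) (nat_lit 3) (nat_lit 5) (nat_lit 3) (nat_lit 4) (nat_lit 437) (nat_lit 273) (nat_lit 190)) (XT.nd (nat_lit 78) (nat_lit 0) (nat_lit 0) (XT.lf (nat_lit 0) (nat_lit 609260528088) (nat_lit 76) (nat_lit 75775594113) (nat_lit 76) (nat_lit 70929806202) (nat_lit 2) (nat_lit 4) (nat_lit 3) (nat_lit 5) (nat_lit 3) (nat_lit 4) (nat_lit 438) (nat_lit 273) (nat_lit 189)) (XT.lf (nat_lit 0) (nat_lit 646998835222) (nat_lit 76) (nat_lit 75715570201) (nat_lit 76) (nat_lit 70865887235) (nat_lit 2) (nat_lit 4) (nat_lit 3) (nat_lit 5) (nat_lit 3) (nat_lit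 4) (nat_lit 439) (nat_lit 273) (nat_lit 188)))) (XT.nd (nat_lit 78) (nat_lit 0) (nat_lit 0) (XT.lf (nat_lit 0) (nat_lit 686613182389) (nat_lit 76) (nat_lit 75657930114) (nat_lit 76) (nat_lit 70804537571) (nat_lit 2) (nat_lit 4) (nat_lit 3) (nat_lit 5) (nat_lit 3) (nat_lit 4) (nat_lit 440) (nat_lit 273) (nat_lit 187)) (XT.nd (nat_lit 39936) (nat_lit 0) (nat_lit 1596) (XT.lf (nat_lit 0) (nat_lit 728197889463) (nat_lit 76) (nat_lit 75602536613) (nat_lit 76) (nat_lit 70745611140) (nat_lit 2) (nat_lit 4) (nat_lit 3) (nat_lit 5) (nat_lit 3) (nat_lit 4) (nat_lit 441) (nat_lit 273) (nat_lit 186)) (XT.lf (nat_lit 0) (nat_lit 2450515231) (nat_lit 76) (nat_lit 2919651076) (nat_lit 76) (nat_lit 2919651076) (nat_lit 23) (nat_lit 4) (nat_lit 24) (nat_lit 5) (nat_lit 24) (nat_lit 4) (nat_lit 352) (nat_lit 274) (nat_lit 274)))))) (XT.nd (nat_lit 468) (nat_lit 456) (nat_lit 0) (XT.nd (nat_lit 234) (nat_lit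 152) (nat_lit 0) (XT.nd (nat_lit 78) (nat_lit 228) (nat_lit 0) (XT.lf (nat_lit 0) (nat_lit 15935514607) (nat_lit 76) (nat_lit 764610086) (nat_lit 76) (nat_lit 417929804) (nat_lit 23) (nat_lit 4) (nat_lit 24) (nat_lit 5) (nat_lit 24) (nat_lit 4) (nat_lit 353) (nat_lit 274) (nat_lit 273)) (XT.nd (nat_lit 78) (nat_lit 76) (nat_lit 0) (XT.lf (nat_lit 0) (nat_lit 5144801857) (nat_lit 152) (nat_lit 8032376198) (nat_lit 0) (nat_lit 4500180926) (nat_lit 21) (nat_lit 5) (nat_lit 23) (nat_lit 4) (nat_lit 21) (nat_lit 4) (nat_lit 354) (nat_lit 274) (nat_lit 272)) (XT.lf (nat_lit 0) (nat_lit 2504775819) (nat_lit 76) (nat_lit 8354626377) (nat_lit 76) (nat_lit 7410529983) (nat_lit 20) (nat_lit 4) (nat_lit 21) (nat_lit 5) (nat_lit 21) (nat_lit 4) (nat_lit 355) (nat_lit 274) (nat_lit 271)))) (XT.nd (nat_lit 78) (nat_lit 152) (nat_lit 0) (XT.lf (nat_lit 0) (nat_lit 13506260179) (nat_lit 76) (nat_lit 3308727731)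 (nat_lit 76) (nat_lit 2079416612) (nat_lit 20) (nat_lit 4) (nat_lit 21) (nat_lit 5) (nat_lit 21) (nat_lit 4) (nat_lit 356) (nat_lit 274) (nat_lit 270)) (XT.nd (nat_lit 78) (nat_lit 0) (nat_lit 0) (XT.lf (nat_lit 0) (nat_lit 3344116544) (nat_lit 152) (nat_lit 14291698220) (nat_lit 0) (nat_lit 1914645886) (nat_lit 18) (nat_lit 5) (nat_lit 20) (nat_lit 4) (nat_lit 18) (nat_lit 4) (nat_lit 357) (nat_lit 274) (nat_lit 269)) (XT.lf (nat_lit 0) (nat_lit 8941759718) (nat_lit 152) (nat_lit 4031333529) (nat_lit 0) (nat_lit 7265909856) (nat_lit 18) (nat_lit 5) (nat_lit 20) (nat_lit 4) (nat_lit 18) (nat_lit 4) (nat_lit 358) (nat_lit 274) (nat_lit 268))))) (XT.nd (nat_lit 234) (nat_lit 228) (nat_lit 0) (XT.nd (nat_lit 78) (nat_lit 152) (nat_lit 0) (XT.lf (nat_lit 0) (nat_lit 6638494995) (nat_lit 76) (nat_lit 8118556716) (nat_lit 76) (nat_lit 6208059994) (nat_lit 17) (nat_lit 4) (nat_lit 18) (nat_lit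 5) (nat_lit 18) (nat_lit 4) (nat_lit 359) (nat_lit 274) (nat_lit 267)) (XT.nd (nat_lit 78) (nat_lit 152) (nat_lit 0) (XT.lf (nat_lit 0) (nat_lit 17670843263) (nat_lit 76) (nat_lit 3097703270) (nat_lit 76) (nat_lit 963733347) (nat_lit 17) (nat_lit 4) (nat_lit 18) (nat_lit 5) (nat_lit 18) (nat_lit 4) (nat_lit 360) (nat_lit 274) (nat_lit 266)) (XT.lf (nat_lit 0) (nat_lit 4376640622) (nat_lit 152) (nat_lit 16017090180) (nat_lit 0) (nat_lit 2141591534) (nat_lit 15) (nat_lit 5) (nat_lit 17) (nat_lit 4) (nat_lit 15) (nat_lit 4) (nat_lit 361) (nat_lit 274) (nat_lit 265)))) (XT.nd (nat_lit 156) (nat_lit 152) (nat_lit 0) (XT.nd (nat_lit 78) (nat_lit 76) (nat_lit 0) (XT.lf (nat_lit 0) (nat_lit 9915355843) (nat_lit 152) (nat_lit 5976945919) (nat_lit 0) (nat_lit 7487262202) (nat_lit 15) (nat_lit 5) (nat_lit 17) (nat_lit 4) (nat_lit 15) (nat_lit 4) (nat_lit 362) (nat_lit 274) (nat_lit 264)) (XT.lf (nat_lit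 0) (nat_lit 4418975714) (nat_lit 76) (nat_lit 11231517339) (nat_lit 76) (nat_lit 8619571743) (nat_lit 14) (nat_lit 4) (nat_lit 15) (nat_lit 5) (nat_lit 15) (nat_lit 4) (nat_lit 363) (nat_lit 274) (nat_lit 263))) (XT.nd (nat_lit 78) (nat_lit 152) (nat_lit 0) (XT.lf (nat_lit 0) (nat_lit 15259174587) (nat_lit 76) (nat_lit 6367629182) (nat_lit 76) (nat_lit 3580586485) (nat_lit 14) (nat_lit 4) (nat_lit 15) (nat_lit 5) (nat_lit 15) (nat_lit 4) (nat_lit 364) (nat_lit 274) (nat_lit 262)) (XT.lf (nat_lit 0) (nat_lit 153753797) (nat_lit 76) (nat_lit 1362127000) (nat_lit 152) (nat_lit 24681370810) (nat_lit 12) (nat_lit 5) (nat_lit 13) (nat_lit 5) (nat_lit 14) (nat_lit 4) (nat_lit 365) (nat_lit 274) (nat_lit 261))))))))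
noncomputable def xc41 : XT := (XT.nd (nat_lit 1950) (nat_lit 228) (nat_lit 0) (XT.nd (nat_lit 936) (nat_lit 228) (nat_lit 0) (XT.nd (nat_lit 468) (nat_lit 76) (nat_lit 0) (XT.nd (nat_lit 234) (nat_lit 152) (nat_lit 0) (XT.nd (nat_lit 78) (nat_lit 76) (nat_lit 0) (XT.lf (nat_lit 0) (nat_lit 6837265913) (nat_lit 152) (nat_lit 16519035717) (nat_lit 0) (nat_lit 3872865846) (nat_lit 12) (nat_lit 5) (nat_lit 14) (nat_lit 4) (nat_lit 12) (nat_lit 4) (nat_lit 366) (nat_lit 274) (nat_lit 260)) (XT.nd (nat_lit 78) (nat_lit 76) (nat_lit 0) (XT.lf (nat_lit 0) (nat_lit 12312188406) (nat_lit 152) (nat_lit 6802398599) (nat_lit 0) (nat_lit 9203735521) (nat_lit 12) (nat_lit 5) (nat_lit 14) (nat_lit 4) (nat_lit 12) (nat_lit 4) (nat_lit 367) (nat_lit 274) (nat_lit 259)) (XT.lf (nat_lit 0) (nat_lit 3254995185) (nat_lit 76) (nat_lit 14728241599) (nat_lit 76) (nat_lit 11482595555) (nat_lit 11) (nat_lit 4) (nat_lit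 12) (nat_lit 5) (nat_lit 12) (nat_lit 4) (nat_lit 368) (nat_lit 274) (nat_lit 258)))) (XT.nd (nat_lit 78) (nat_lit 152) (nat_lit 0) (XT.lf (nat_lit 0) (nat_lit 13806187464) (nat_lit 76) (nat_lit 10120699568) (nat_lit 76) (nat_lit 6744393372) (nat_lit 11) (nat_lit 4) (nat_lit 12) (nat_lit 5) (nat_lit 12) (nat_lit 4) (nat_lit 369) (nat_lit 274) (nat_lit 257)) (XT.nd (nat_lit 78) (nat_lit 152) (nat_lit 0) (XT.lf (nat_lit 0) (nat_lit 24651382106) (nat_lit 76) (nat_lit 5396192486) (nat_lit 76) (nat_lit 1895448050) (nat_lit 11) (nat_lit 4) (nat_lit 12) (nat_lit 5) (nat_lit 12) (nat_lit 4) (nat_lit 370) (nat_lit 274) (nat_lit 256)) (XT.lf (nat_lit 0) (nat_lit 2566434284) (nat_lit 76) (nat_lit 450976120) (nat_lit 152) (nat_lit 30262272062) (nat_lit 9) (nat_lit 5) (nat_lit 10) (nat_lit 5) (nat_lit 11) (nat_lit 4) (nat_lit 371) (nat_lit 274) (nat_lit 255))))) (XT.nd (nat_lit 234) (nat_lit 76) (nat_lit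 0) (XT.nd (nat_lit 78) (nat_lit 0) (nat_lit 0) (XT.lf (nat_lit 0) (nat_lit 8195809367) (nat_lit 152) (nat_lit 21840241486) (nat_lit 0) (nat_lit 4641403464) (nat_lit 9) (nat_lit 5) (nat_lit 11) (nat_lit 4) (nat_lit 9) (nat_lit 4) (nat_lit 372) (nat_lit 274) (nat_lit 254)) (XT.nd (nat_lit 78) (nat_lit 0) (nat_lit 0) (XT.lf (nat_lit 0) (nat_lit 13530099521) (nat_lit 152) (nat_lit 12746860642) (nat_lit 0) (nat_lit 9873317970) (nat_lit 9) (nat_lit 5) (nat_lit 11) (nat_lit 4) (nat_lit 9) (nat_lit 4) (nat_lit 373) (nat_lit 274) (nat_lit 253)) (XT.lf (nat_lit 0) (nat_lit 19025940558) (nat_lit 152) (nat_lit 3404413744) (nat_lit 0) (nat_lit 15271658390) (nat_lit 9) (nat_lit 5) (nat_lit 11) (nat_lit 4) (nat_lit 9) (nat_lit 4) (nat_lit 374) (nat_lit 274) (nat_lit 252)))) (XT.nd (nat_lit 78) (nat_lit 0) (nat_lit 0) (XT.lf (nat_lit 0) (nat_lit 6414652055) (nat_lit 76) (nat_lit 18381916452) (nat_lit 76)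 (nat_lit 14534776553) (nat_lit 8) (nat_lit 4) (nat_lit 9) (nat_lit 5) (nat_lit 9) (nat_lit 4) (nat_lit 375) (nat_lit 274) (nat_lit 251)) (XT.nd (nat_lit 78) (nat_lit 0) (nat_lit 0) (XT.lf (nat_lit 0) (nat_lit 16650210598) (nat_lit 76) (nat_lit 14164778272) (nat_lit 76) (nat_lit 10229202439) (nat_lit 8) (nat_lit 4) (nat_lit 9) (nat_lit 5) (nat_lit 9) (nat_lit 4) (nat_lit 376) (nat_lit 274) (nat_lit 250)) (XT.lf (nat_lit 0) (nat_lit 27214066968) (nat_lit 76) (nat_lit 9826554350) (nat_lit 76) (nat_lit 5806753819) (nat_lit 8) (nat_lit 4) (nat_lit 9) (nat_lit 5) (nat_lit 9) (nat_lit 4) (nat_lit 377) (nat_lit 274) (nat_lit 249)))))) (XT.nd (nat_lit 468) (nat_lit 76) (nat_lit 0) (XT.nd (nat_lit 234) (nat_lit 0) (nat_lit 0) (XT.nd (nat_lit 78) (nat_lit 152) (nat_lit 0) (XT.lf (nat_lit 0) (nat_lit 38131373205) (nat_lit 76) (nat_lit 5356915583) (nat_lit 76) (nat_lit 1256901052) (nat_lit 8) (nat_lit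 4) (nat_lit 9) (nat_lit 5) (nat_lit 9) (nat_lit 4) (nat_lit 378) (nat_lit 274) (nat_lit 248)) (XT.nd (nat_lit 78) (nat_lit 0) (nat_lit 0) (XT.lf (nat_lit 0) (nat_lit 2719437374) (nat_lit 76) (nat_lit 644390035) (nat_lit 152) (nat_lit 43373525188) (nat_lit 6) (nat_lit 5) (nat_lit 7) (nat_lit 5) (nat_lit 8) (nat_lit 4) (nat_lit 379) (nat_lit 274) (nat_lit 247)) (XT.lf (nat_lit 0) (nat_lit 8268230257) (nat_lit 152) (nat_lit 36333720980) (nat_lit 0) (nat_lit 4221406184) (nat_lit 6) (nat_lit 5) (nat_lit 8) (nat_lit 4) (nat_lit 6) (nat_lit 4) (nat_lit 380) (nat_lit 274) (nat_lit 246)))) (XT.nd (nat_lit 78) (nat_lit 0) (nat_lit 0) (XT.lf (nat_lit 0) (nat_lit 13346359792) (nat_lit 152) (nat_lit 28437341599) (nat_lit 0) (nat_lit 9233543463) (nat_lit 6) (nat_lit 5) (nat_lit 8) (nat_lit 4) (nat_lit 6) (nat_lit 4) (nat_lit 381) (nat_lit 274) (nat_lit 245)) (XT.nd (nat_lit 78) (nat_lit 0) (nat_lit 0)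 (XT.lf (nat_lit 0) (nat_lit 18600246063) (nat_lit 152) (nat_lit 20299915442) (nat_lit 0) (nat_lit 14424579967) (nat_lit 6) (nat_lit 5) (nat_lit 8) (nat_lit 4) (nat_lit 6) (nat_lit 4) (nat_lit 382) (nat_lit 274) (nat_lit 244)) (XT.lf (nat_lit 0) (nat_lit 24042398324) (nat_lit 152) (nat_lit 11902067686) (nat_lit 0) (nat_lit 19806875307) (nat_lit 6) (nat_lit 5) (nat_lit 8) (nat_lit 4) (nat_lit 6) (nat_lit 4) (nat_lit 383) (nat_lit 274) (nat_lit 243))))) (XT.nd (nat_lit 234) (nat_lit 0) (nat_lit 0) (XT.nd (nat_lit 78) (nat_lit 76) (nat_lit 0) (XT.lf (nat_lit 0) (nat_lit 29685774081) (nat_lit 152) (nat_lit 3223803455) (nat_lit 0) (nat_lit 25393244472) (nat_lit 6) (nat_lit 5) (nat_lit 8) (nat_lit 4) (nat_lit 6) (nat_lit 4) (nat_lit 384) (nat_lit 274) (nat_lit 242)) (XT.nd (nat_lit 78) (nat_lit 0) (nat_lit 0) (XT.lf (nat_lit 0) (nat_lit 5945843922) (nat_lit 76) (nat_lit 29690797306) (nat_lit 76)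 (nat_lit 25343975705) (nat_lit 5) (nat_lit 4) (nat_lit 6) (nat_lit 5) (nat_lit 6) (nat_lit 4) (nat_lit 385) (nat_lit 274) (nat_lit 241)) (XT.lf (nat_lit 0) (nat_lit 15555205131) (nat_lit 76) (nat_lit 26318108826) (nat_lit 76) (nat_lit 21919580566) (nat_lit 5) (nat_lit 4) (nat_lit 6) (nat_lit 5) (nat_lit 6) (nat_lit 4) (nat_lit 386) (nat_lit 274) (nat_lit 240)))) (XT.nd (nat_lit 156) (nat_lit 0) (nat_lit 0) (XT.nd (nat_lit 78) (nat_lit 0) (nat_lit 0) (XT.lf (nat_lit 0) (nat_lit 25520566099) (nat_lit 76) (nat_lit 22838078557) (nat_lit 76) (nat_lit 18390305860) (nat_lit 5) (nat_lit 4) (nat_lit 6) (nat_lit 5) (nat_lit 6) (nat_lit 4) (nat_lit 387) (nat_lit 274) (nat_lit 239)) (XT.lf (nat_lit 0) (nat_lit 35865653878) (nat_lit 76) (nat_lit 19242420713) (nat_lit 76) (nat_lit 14747748552) (nat_lit 5) (nat_lit 4) (nat_lit 6) (nat_lit 5) (nat_lit 6) (nat_lit 4) (nat_lit 388) (nat_lit 274) (nat_lit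 238))) (XT.nd (nat_lit 78) (nat_lit 0) (nat_lit 0) (XT.lf (nat_lit 0) (nat_lit 46615099628) (nat_lit 76) (nat_lit 15522574204) (nat_lit 76) (nat_lit 10983235887) (nat_lit 5) (nat_lit 4) (nat_lit 6) (nat_lit 5) (nat_lit 6) (nat_lit 4) (nat_lit 389) (nat_lit 274) (nat_lit 237)) (XT.lf (nat_lit 0) (nat_lit 57794497268) (nat_lit 76) (nat_lit 11669682252) (nat_lit 76) (nat_lit 7087804738) (nat_lit 5) (nat_lit 4) (nat_lit 6) (nat_lit 5) (nat_lit 6) (nat_lit 4) (nat_lit 390) (nat_lit 274) (nat_lit 236))))))) (XT.nd (nat_lit 936) (nat_lit 76) (nat_lit 0) (XT.nd (nat_lit 468) (nat_lit 0) (nat_lit 0) (XT.nd (nat_lit 234) (nat_lit 0) (nat_lit 0) (XT.nd (nat_lit 78) (nat_lit 152) (nat_lit 0) (XT.lf (nat_lit 0) (nat_lit 69430464411) (nat_lit 76) (nat_lit 7674571305) (nat_lit 76) (nat_lit 3052180271) (nat_lit 5) (nat_lit 4) (nat_lit 6) (nat_lit 5) (nat_lit 6) (nat_lit 4) (nat_lit 391) (nat_lit 274) (nat_lit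 235)) (XT.nd (nat_lit 78) (nat_lit 76) (nat_lit 0) (XT.lf (nat_lit 0) (nat_lit 1096975189) (nat_lit 152) (nat_lit 2412176199) (nat_lit 76) (nat_lit 80435152745) (nat_lit 4) (nat_lit 5) (nat_lit 6) (nat_lit 5) (nat_lit 5) (nat_lit 4) (nat_lit 392) (nat_lit 274) (nat_lit 234)) (XT.lf (nat_lit 0) (nat_lit 5417893845) (nat_lit 152) (nat_lit 81553138590) (nat_lit 0) (nat_lit 943872611) (nat_lit 3) (nat_lit 5) (nat_lit 5) (nat_lit 4) (nat_lit 3) (nat_lit 4) (nat_lit 393) (nat_lit 274) (nat_lit 233)))) (XT.nd (nat_lit 78) (nat_lit 0) (nat_lit 0) (XT.lf (nat_lit 0) (nat_lit 10006101753) (nat_lit 152) (nat_lit 76576626027) (nat_lit 0) (nat_lit 5498749946) (nat_lit 3) (nat_lit 5) (nat_lit 5) (nat_lit 4) (nat_lit 3) (nat_lit 4) (nat_lit 394) (nat_lit 274) (nat_lit 232)) (XT.nd (nat_lit 78) (nat_lit 0) (nat_lit 0) (XT.lf (nat_lit 0) (nat_lit 14778191657) (nat_lit 152) (nat_lit 71441371056) (nat_lit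 0) (nat_lit 10239096447) (nat_lit 3) (nat_lit 5) (nat_lit 5) (nat_lit 4) (nat_lit 3) (nat_lit 4) (nat_lit 395) (nat_lit 274) (nat_lit 231)) (XT.lf (nat_lit 0) (nat_lit 19745525677) (nat_lit 152) (nat_lit 66135146879) (nat_lit 0) (nat_lit 15176198653) (nat_lit 3) (nat_lit 5) (nat_lit 5) (nat_lit 4) (nat_lit 3) (nat_lit 4) (nat_lit 396) (nat_lit 274) (nat_lit 230))))) (XT.nd (nat_lit 234) (nat_lit 0) (nat_lit 0) (XT.nd (nat_lit 78) (nat_lit 0) (nat_lit 0) (XT.lf (nat_lit 0) (nat_lit 24919930797) (nat_lit 152) (nat_lit 60645319630) (nat_lit 0) (nat_lit 20321811571) (nat_lit 3) (nat_lit 5) (nat_lit 5) (nat_lit 4) (nat_lit 3) (nat_lit 4) (nat_lit 397) (nat_lit 274) (nat_lit 229)) (XT.nd (nat_lit 78) (nat_lit 0) (nat_lit 0) (XT.lf (nat_lit 0) (nat_lit 30313727031) (nat_lit 152) (nat_lit 54958818291) (nat_lit 0) (nat_lit 25688186660) (nat_lit 3) (nat_lit 5) (nat_lit 5) (nat_lit 4) (nat_lit 3)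 (nat_lit 4) (nat_lit 398) (nat_lit 274) (nat_lit 228)) (XT.lf (nat_lit 0) (nat_lit 35939756750) (nat_lit 152) (nat_lit 49062103574) (nat_lit 0) (nat_lit 31288101002) (nat_lit 3) (nat_lit 5) (nat_lit 5) (nat_lit 4) (nat_lit 3) (nat_lit 4) (nat_lit 399) (nat_lit 274) (nat_lit 227)))) (XT.nd (nat_lit 78) (nat_lit 0) (nat_lit 0) (XT.lf (nat_lit 0) (nat_lit 41811415262) (nat_lit 152) (nat_lit 42941135680) (nat_lit 0) (nat_lit 37134887728) (nat_lit 3) (nat_lit 5) (nat_lit 5) (nat_lit 4) (nat_lit 3) (nat_lit 4) (nat_lit 400) (nat_lit 274) (nat_lit 226)) (XT.nd (nat_lit 78) (nat_lit 0) (nat_lit 0) (XT.lf (nat_lit 0) (nat_lit 47942682709) (nat_lit 152) (nat_lit 36581340878) (nat_lit 0) (nat_lit 43242467758) (nat_lit 3) (nat_lit 5) (nat_lit 5) (nat_lit 4) (nat_lit 3) (nat_lit 4) (nat_lit 401) (nat_lit 274) (nat_lit 225)) (XT.lf (nat_lit 0) (nat_lit 54348157344) (nat_lit 152) (nat_lit 29967576799)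 (nat_lit 0) (nat_lit 49625382949) (nat_lit 3) (nat_lit 5) (nat_lit 5) (nat_lit 4) (nat_lit 3) (nat_lit 4) (nat_lit 402) (nat_lit 274) (nat_lit 224)))))) (XT.nd (nat_lit 468) (nat_lit 0) (nat_lit 0) (XT.nd (nat_lit 234) (nat_lit 76) (nat_lit 0) (XT.nd (nat_lit 78) (nat_lit 0) (nat_lit 0) (XT.lf (nat_lit 0) (nat_lit 61043090299) (nat_lit 152) (nat_lit 23084096385) (nat_lit 0) (nat_lit 56298830719) (nat_lit 3) (nat_lit 5) (nat_lit 5) (nat_lit 4) (nat_lit 3) (nat_lit 4) (nat_lit 403) (nat_lit 274) (nat_lit 223)) (XT.nd (nat_lit 78) (nat_lit 0) (nat_lit 0) (XT.lf (nat_lit 0) (nat_lit 68043421889) (nat_lit 152) (nat_lit 15914510397) (nat_lit 0) (nat_lit 63278700228) (nat_lit 3) (nat_lit 5) (nat_lit 5) (nat_lit 4) (nat_lit 3) (nat_lit 4) (nat_lit 404) (nat_lit 274) (nat_lit 222)) (XT.lf (nat_lit 0) (nat_lit 75365819571) (nat_lit 152) (nat_lit 8441748393) (nat_lit 0) (nat_lit 70581610215) (nat_lit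 3) (nat_lit 5) (nat_lit 5) (nat_lit 4) (nat_lit 3) (nat_lit 4) (nat_lit 405) (nat_lit 274) (nat_lit 221)))) (XT.nd (nat_lit 78) (nat_lit 76) (nat_lit 0) (XT.lf (nat_lit 0) (nat_lit 83027717626) (nat_lit 152) (nat_lit 648018082) (nat_lit 0) (nat_lit 78224948559) (nat_lit 3) (nat_lit 5) (nat_lit 5) (nat_lit 4) (nat_lit 3) (nat_lit 4) (nat_lit 406) (nat_lit 274) (nat_lit 220)) (XT.nd (nat_lit 78) (nat_lit 0) (nat_lit 0) (XT.lf (nat_lit 0) (nat_lit 7732732777) (nat_lit 76) (nat_lit 83435355519) (nat_lit 76) (nat_lit 78614910538) (nat_lit 2) (nat_lit 4) (nat_lit 3) (nat_lit 5) (nat_lit 3) (nat_lit 4) (nat_lit 407) (nat_lit 274) (nat_lit 219)) (XT.lf (nat_lit 0) (nat_lit 16505666256) (nat_lit 76) (nat_lit 83195870529) (nat_lit 76) (nat_lit 78358591343) (nat_lit 2) (nat_lit 4) (nat_lit 3) (nat_lit 5) (nat_lit 3) (nat_lit 4) (nat_lit 408) (nat_lit 274) (nat_lit 218))))) (XT.nd (nat_lit 234) (nat_lit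 0) (nat_lit 0) (XT.nd (nat_lit 78) (nat_lit 0) (nat_lit 0) (XT.lf (nat_lit 0) (nat_lit 25670243887) (nat_lit 76) (nat_lit 82967685035) (nat_lit 76) (nat_lit 78114373273) (nat_lit 2) (nat_lit 4) (nat_lit 3) (nat_lit 5) (nat_lit 3) (nat_lit 4) (nat_lit 409) (nat_lit 274) (nat_lit 217)) (XT.nd (nat_lit 78) (nat_lit 0) (nat_lit 0) (XT.lf (nat_lit 0) (nat_lit 35248286094) (nat_lit 76) (nat_lit 82750255738) (nat_lit 76) (nat_lit 77881674856) (nat_lit 2) (nat_lit 4) (nat_lit 3) (nat_lit 5) (nat_lit 3) (nat_lit 4) (nat_lit 410) (nat_lit 274) (nat_lit 216)) (XT.lf (nat_lit 0) (nat_lit 45262597737) (nat_lit 76) (nat_lit 82543064949) (nat_lit 76) (nat_lit 77659942049) (nat_lit 2) (nat_lit 4) (nat_lit 3) (nat_lit 5) (nat_lit 3) (nat_lit 4) (nat_lit 411) (nat_lit 274) (nat_lit 215)))) (XT.nd (nat_lit 156) (nat_lit 0) (nat_lit 0) (XT.nd (nat_lit 78) (nat_lit 0) (nat_lit 0) (XT.lf (nat_lit 0) (nat_lit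 55737022418) (nat_lit 76) (nat_lit 82345619357) (nat_lit 76) (nat_lit 77448646915) (nat_lit 2) (nat_lit 4) (nat_lit 3) (nat_lit 5) (nat_lit 3) (nat_lit 4) (nat_lit 412) (nat_lit 274) (nat_lit 214)) (XT.lf (nat_lit 0) (nat_lit 66696499241) (nat_lit 76) (nat_lit 82157448854) (nat_lit 76) (nat_lit 77247286372) (nat_lit 2) (nat_lit 4) (nat_lit 3) (nat_lit 5) (nat_lit 3) (nat_lit 4) (nat_lit 413) (nat_lit 274) (nat_lit 213))) (XT.nd (nat_lit 78) (nat_lit 0) (nat_lit 0) (XT.lf (nat_lit 0) (nat_lit 78167122199) (nat_lit 76) (nat_lit 81978105414) (nat_lit 76) (nat_lit 77055380990) (nat_lit 2) (nat_lit 4) (nat_lit 3) (nat_lit 5) (nat_lit 3) (nat_lit 4) (nat_lit 414) (nat_lit 274) (nat_lit 212)) (XT.lf (nat_lit 0) (nat_lit 90176202300) (nat_lit 76) (nat_lit 81807162030) (nat_lit 76) (nat_lit 76872473851) (nat_lit 2) (nat_lit 4) (nat_lit 3) (nat_lit 5) (nat_lit 3) (nat_lit 4) (nat_lit 415) (nat_lit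 274) (nat_lit 211))))))))
noncomputable def xc42 : XT := (XT.nd (nat_lit 1872) (nat_lit 0) (nat_lit 0) (XT.nd (nat_lit 936) (nat_lit 0) (nat_lit 0) (XT.nd (nat_lit 468) (nat_lit 0) (nat_lit 0) (XT.nd (nat_lit 234) (nat_lit 0) (nat_lit 0) (XT.nd (nat_lit 78) (nat_lit 0) (nat_lit 0) (XT.lf (nat_lit 0) (nat_lit 102752332592) (nat_lit 76) (nat_lit 81644211692) (nat_lit 76) (nat_lit 76698129461) (nat_lit 2) (nat_lit 4) (nat_lit 3) (nat_lit 5) (nat_lit 3) (nat_lit 4) (nat_lit 416) (nat_lit 274) (nat_lit 210)) (XT.nd (nat_lit 78) (nat_lit 0) (nat_lit 0) (XT.lf (nat_lit 0) (nat_lit 115925456241) (nat_lit 76) (nat_lit 81488866425) (nat_lit 76) (nat_lit 76531932716) (nat_lit 2) (nat_lit 4) (nat_lit 3) (nat_lit 5) (nat_lit 3) (nat_lit 4) (nat_lit 417) (nat_lit 274) (nat_lit 209)) (XT.lf (nat_lit 0) (nat_lit 129726937827) (nat_lit 76) (nat_lit 81340756359) (nat_lit 76) (nat_lit 76373487908) (nat_lit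 2) (nat_lit 4) (nat_lit 3) (nat_lit 5) (nat_lit 3) (nat_lit 4) (nat_lit 418) (nat_lit 274) (nat_lit 208)))) (XT.nd (nat_lit 78) (nat_lit 0) (nat_lit 0) (XT.lf (nat_lit 0) (nat_lit 144189638022) (nat_lit 76) (nat_lit 81199528850) (nat_lit 76) (nat_lit 76222417788) (nat_lit 2) (nat_lit 4) (nat_lit 3) (nat_lit 5) (nat_lit 3) (nat_lit 4) (nat_lit 419) (nat_lit 274) (nat_lit 207)) (XT.nd (nat_lit 78) (nat_lit 0) (nat_lit 0) (XT.lf (nat_lit 0) (nat_lit 159347991826) (nat_lit 76) (nat_lit 81064847642) (nat_lit 76) (nat_lit 76078362666) (nat_lit 2) (nat_lit 4) (nat_lit 3) (nat_lit 5) (nat_lit 3) (nat_lit 4) (nat_lit 420) (nat_lit 274) (nat_lit 206)) (XT.lf (nat_lit 0) (nat_lit 175238090556) (nat_lit 76) (nat_lit 80936392067) (nat_lit 76) (nat_lit 75940979552) (nat_lit 2) (nat_lit 4) (nat_lit 3) (nat_lit 5) (nat_lit 3) (nat_lit 4) (nat_lit 421) (nat_lit 274) (nat_lit 205))))) (XT.nd (nat_lit 234)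 (nat_lit 0) (nat_lit 0) (XT.nd (nat_lit 78) (nat_lit 0) (nat_lit 0) (XT.lf (nat_lit 0) (nat_lit 191897767783) (nat_lit 76) (nat_lit 80813856277) (nat_lit 76) (nat_lit 75809941345) (nat_lit 2) (nat_lit 4) (nat_lit 3) (nat_lit 5) (nat_lit 3) (nat_lit 4) (nat_lit 422) (nat_lit 274) (nat_lit 204)) (XT.nd (nat_lit 78) (nat_lit 0) (nat_lit 0) (XT.lf (nat_lit 0) (nat_lit 209366689403) (nat_lit 76) (nat_lit 80696948520) (nat_lit 76) (nat_lit 75684936048) (nat_lit 2) (nat_lit 4) (nat_lit 3) (nat_lit 5) (nat_lit 3) (nat_lit 4) (nat_lit 423) (nat_lit 274) (nat_lit 203)) (XT.lf (nat_lit 0) (nat_lit 227686448087) (nat_lit 76) (nat_lit 80585390445) (nat_lit 76) (nat_lit 75565666030) (nat_lit 2) (nat_lit 4) (nat_lit 3) (nat_lit 5) (nat_lit 3) (nat_lit 4) (nat_lit 424) (nat_lit 274) (nat_lit 202)))) (XT.nd (nat_lit 78) (nat_lit 0) (nat_lit 0) (XT.lf (nat_lit 0) (nat_lit 246900662309) (nat_lit 76) (nat_lit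 80478916438) (nat_lit 76) (nat_lit 75451847315) (nat_lit 2) (nat_lit 4) (nat_lit 3) (nat_lit 5) (nat_lit 3) (nat_lit 4) (nat_lit 425) (nat_lit 274) (nat_lit 201)) (XT.nd (nat_lit 78) (nat_lit 0) (nat_lit 0) (XT.lf (nat_lit 0) (nat_lit 267055080197) (nat_lit 76) (nat_lit 80377272988) (nat_lit 76) (nat_lit 75343208905) (nat_lit 2) (nat_lit 4) (nat_lit 3) (nat_lit 5) (nat_lit 3) (nat_lit 4) (nat_lit 426) (nat_lit 274) (nat_lit 200)) (XT.lf (nat_lit 0) (nat_lit 288197688461) (nat_lit 76) (nat_lit 80280218087) (nat_lit 76) (nat_lit 75239492139) (nat_lit 2) (nat_lit 4) (nat_lit 3) (nat_lit 5) (nat_lit 3) (nat_lit 4) (nat_lit 427) (nat_lit 274) (nat_lit 199)))))) (XT.nd (nat_lit 468) (nat_lit 0) (nat_lit 0) (XT.nd (nat_lit 234) (nat_lit 0) (nat_lit 0) (XT.nd (nat_lit 78) (nat_lit 0) (nat_lit 0) (XT.lf (nat_lit 0) (nat_lit 310378826645) (nat_lit 76) (nat_lit 80187520653) (nat_lit 76) (nat_lit 75140450070)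 (nat_lit 2) (nat_lit 4) (nat_lit 3) (nat_lit 5) (nat_lit 3) (nat_lit 4) (nat_lit 428) (nat_lit 274) (nat_lit 198)) (XT.nd (nat_lit 78) (nat_lit 0) (nat_lit 0) (XT.lf (nat_lit 0) (nat_lit 333651306981) (nat_lit 76) (nat_lit 80098959977) (nat_lit 76) (nat_lit 75045846885) (nat_lit 2) (nat_lit 4) (nat_lit 3) (nat_lit 5) (nat_lit 3) (nat_lit 4) (nat_lit 429) (nat_lit 274) (nat_lit 197)) (XT.lf (nat_lit 0) (nat_lit 358070540138) (nat_lit 76) (nat_lit 80014325201) (nat_lit 76) (nat_lit 74955457338) (nat_lit 2) (nat_lit 4) (nat_lit 3) (nat_lit 5) (nat_lit 3) (nat_lit 4) (nat_lit 430) (nat_lit 274) (nat_lit 196)))) (XT.nd (nat_lit 78) (nat_lit 0) (nat_lit 0) (XT.lf (nat_lit 0) (nat_lit 383694667146) (nat_lit 76) (nat_lit 79933414813) (nat_lit 76) (nat_lit 74869066216) (nat_lit 2) (nat_lit 4) (nat_lit 3) (nat_lit 5) (nat_lit 3) (nat_lit 4) (nat_lit 431) (nat_lit 274) (nat_lit 195)) (XT.nd (nat_lit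 78) (nat_lit 0) (nat_lit 0) (XT.lf (nat_lit 0) (nat_lit 410584697833) (nat_lit 76) (nat_lit 79856036169) (nat_lit 76) (nat_lit 74786467825) (nat_lit 2) (nat_lit 4) (nat_lit 3) (nat_lit 5) (nat_lit 3) (nat_lit 4) (nat_lit 432) (nat_lit 274) (nat_lit 194)) (XT.lf (nat_lit 0) (nat_lit 438804656080) (nat_lit 76) (nat_lit 79782005034) (nat_lit 76) (nat_lit 74707465503) (nat_lit 2) (nat_lit 4) (nat_lit 3) (nat_lit 5) (nat_lit 3) (nat_lit 4) (nat_lit 433) (nat_lit 274) (nat_lit 193))))) (XT.nd (nat_lit 234) (nat_lit 0) (nat_lit 0) (XT.nd (nat_lit 78) (nat_lit 0) (nat_lit 0) (XT.lf (nat_lit 0) (nat_lit 468421732264) (nat_lit 76) (nat_lit 79711145145) (nat_lit 76) (nat_lit 74631871150) (nat_lit 2) (nat_lit 4) (nat_lit 3) (nat_lit 5) (nat_lit 3) (nat_lit 4) (nat_lit 434) (nat_lit 274) (nat_lit 192)) (XT.nd (nat_lit 78) (nat_lit 0) (nat_lit 0) (XT.lf (nat_lit 0) (nat_lit 499506443234) (nat_lit 76)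 (nat_lit 79643287786) (nat_lit 76) (nat_lit 74559504777) (nat_lit 2) (nat_lit 4) (nat_lit 3) (nat_lit 5) (nat_lit 3) (nat_lit 4) (nat_lit 435) (nat_lit 274) (nat_lit 191)) (XT.lf (nat_lit 0) (nat_lit 532132800206) (nat_lit 76) (nat_lit 79578271393) (nat_lit 76) (nat_lit 74490194086) (nat_lit 2) (nat_lit 4) (nat_lit 3) (nat_lit 5) (nat_lit 3) (nat_lit 4) (nat_lit 436) (nat_lit 274) (nat_lit 190)))) (XT.nd (nat_lit 78) (nat_lit 0) (nat_lit 0) (XT.lf (nat_lit 0) (nat_lit 566378484983) (nat_lit 76) (nat_lit 79515941164) (nat_lit 76) (nat_lit 74423774049) (nat_lit 2) (nat_lit 4) (nat_lit 3) (nat_lit 5) (nat_lit 3) (nat_lit 4) (nat_lit 437) (nat_lit 274) (nat_lit 189)) (XT.nd (nat_lit 78) (nat_lit 0) (nat_lit 0) (XT.lf (nat_lit 0) (nat_lit 602325034908) (nat_lit 76) (nat_lit 79456148695) (nat_lit 76) (nat_lit 74360086525) (nat_lit 2) (nat_lit 4) (nat_lit 3) (nat_lit 5) (nat_lit 3) (nat_lit 4)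 (nat_lit 438) (nat_lit 274) (nat_lit 188)) (XT.lf (nat_lit 0) (nat_lit 640058037006) (nat_lit 76) (nat_lit 79398751622) (nat_lit 76) (nat_lit 74298979876) (nat_lit 2) (nat_lit 4) (nat_lit 3) (nat_lit 5) (nat_lit 3) (nat_lit 4) (nat_lit 439) (nat_lit 274) (nat_lit 187))))))) (XT.nd (nat_lit 40638) (nat_lit 0) (nat_lit 532) (XT.nd (nat_lit 40170) (nat_lit 0) (nat_lit 1140) (XT.nd (nat_lit 39936) (nat_lit 0) (nat_lit 1596) (XT.nd (nat_lit 78) (nat_lit 0) (nat_lit 0) (XT.lf (nat_lit 0) (nat_lit 679667331758) (nat_lit 76) (nat_lit 79343613287) (nat_lit 76) (nat_lit 74240308610) (nat_lit 2) (nat_lit 4) (nat_lit 3) (nat_lit 5) (nat_lit 3) (nat_lit 4) (nat_lit 440) (nat_lit 274) (nat_lit 186)) (XT.nd (nat_lit 39780) (nat_lit 0) (nat_lit 1824) (XT.lf (nat_lit 0) (nat_lit 721247227008) (nat_lit 76) (nat_lit 79290602406) (nat_lit 76) (nat_lit 74183933034) (nat_lit 2) (nat_lit 4) (nat_lit 3) (nat_lit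 5) (nat_lit 3) (nat_lit 4) (nat_lit 441) (nat_lit 274) (nat_lit 185)) (XT.lf (nat_lit 0) (nat_lit 7626996467) (nat_lit 152) (nat_lit 83417588) (nat_lit 152) (nat_lit 83417588) (nat_lit 26) (nat_lit 4) (nat_lit 28) (nat_lit 5) (nat_lit 28) (nat_lit 4) (nat_lit 350) (nat_lit 275) (nat_lit 275)))) (XT.nd (nat_lit 78) (nat_lit 76) (nat_lit 0) (XT.lf (nat_lit 0) (nat_lit 5338989584) (nat_lit 152) (nat_lit 5757395943) (nat_lit 0) (nat_lit 4974975289) (nat_lit 24) (nat_lit 5) (nat_lit 26) (nat_lit 4) (nat_lit 24) (nat_lit 4) (nat_lit 351) (nat_lit 275) (nat_lit 274)) (XT.nd (nat_lit 78) (nat_lit 0) (nat_lit 0) (XT.lf (nat_lit 0) (nat_lit 4727007356) (nat_lit 76) (nat_lit 6284004237) (nat_lit 76) (nat_lit 5573309660) (nat_lit 23) (nat_lit 4) (nat_lit 24) (nat_lit 5) (nat_lit 24) (nat_lit 4) (nat_lit 352) (nat_lit 275) (nat_lit 273)) (XT.lf (nat_lit 0) (nat_lit 15595755208) (nat_lit 76) (nat_lit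 1286157682) (nat_lit 76) (nat_lit 245291408) (nat_lit 23) (nat_lit 4) (nat_lit 24) (nat_lit 5) (nat_lit 24) (nat_lit 4) (nat_lit 353) (nat_lit 275) (nat_lit 272))))) (XT.nd (nat_lit 234) (nat_lit 228) (nat_lit 0) (XT.nd (nat_lit 78) (nat_lit 76) (nat_lit 0) (XT.lf (nat_lit 0) (nat_lit 5208189137) (nat_lit 152) (nat_lit 8565975730) (nat_lit 0) (nat_lit 3917412462) (nat_lit 21) (nat_lit 5) (nat_lit 23) (nat_lit 4) (nat_lit 21) (nat_lit 4) (nat_lit 354) (nat_lit 275) (nat_lit 271)) (XT.nd (nat_lit 78) (nat_lit 0) (nat_lit 0) (XT.lf (nat_lit 0) (nat_lit 1787000773) (nat_lit 76) (nat_lit 9038998444) (nat_lit 76) (nat_lit 7463007043) (nat_lit 20) (nat_lit 4) (nat_lit 21) (nat_lit 5) (nat_lit 21) (nat_lit 4) (nat_lit 355) (nat_lit 275) (nat_lit 270)) (XT.lf (nat_lit 0) (nat_lit 12629882940) (nat_lit 76) (nat_lit 4067717408) (nat_lit 76) (nat_lit 2220092936) (nat_lit 20) (nat_lit 4) (nat_lit 21)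 (nat_lit 5) (nat_lit 21) (nat_lit 4) (nat_lit 356) (nat_lit 275) (nat_lit 269)))) (XT.nd (nat_lit 78) (nat_lit 76) (nat_lit 0) (XT.lf (nat_lit 0) (nat_lit 3096381825) (nat_lit 152) (nat_lit 15392709198) (nat_lit 0) (nat_lit 1090360266) (nat_lit 18) (nat_lit 5) (nat_lit 20) (nat_lit 4) (nat_lit 18) (nat_lit 4) (nat_lit 357) (nat_lit 275) (nat_lit 268)) (XT.nd (nat_lit 78) (nat_lit 76) (nat_lit 0) (XT.lf (nat_lit 0) (nat_lit 8613108486) (nat_lit 152) (nat_lit 5286504360) (nat_lit 0) (nat_lit 6372440067) (nat_lit 18) (nat_lit 5) (nat_lit 20) (nat_lit 4) (nat_lit 18) (nat_lit 4) (nat_lit 358) (nat_lit 275) (nat_lit 267)) (XT.lf (nat_lit 0) (nat_lit 5190149143) (nat_lit 76) (nat_lit 9138575253) (nat_lit 76) (nat_lit 6674433633) (nat_lit 17) (nat_lit 4) (nat_lit 18) (nat_lit 5) (nat_lit 18) (nat_lit 4) (nat_lit 359) (nat_lit 275) (nat_lit 266)))))) (XT.nd (nat_lit 468) (nat_lit 304) (nat_lit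 0) (XT.nd (nat_lit 234) (nat_lit 152) (nat_lit 0) (XT.nd (nat_lit 78) (nat_lit 152) (nat_lit 0) (XT.lf (nat_lit 0) (nat_lit 16078046550) (nat_lit 76) (nat_lit 4186523723) (nat_lit 76) (nat_lit 1509550484) (nat_lit 17) (nat_lit 4) (nat_lit 18) (nat_lit 5) (nat_lit 18) (nat_lit 4) (nat_lit 360) (nat_lit 275) (nat_lit 265)) (XT.nd (nat_lit 78) (nat_lit 0) (nat_lit 0) (XT.lf (nat_lit 0) (nat_lit 3727919735) (nat_lit 152) (nat_lit 17870322351) (nat_lit 0) (nat_lit 985376859) (nat_lit 15) (nat_lit 5) (nat_lit 17) (nat_lit 4) (nat_lit 15) (nat_lit 4) (nat_lit 361) (nat_lit 275) (nat_lit 264)) (XT.lf (nat_lit 0) (nat_lit 9193705021) (nat_lit 152) (nat_lit 7970502314) (nat_lit 0) (nat_lit 6267310190) (nat_lit 15) (nat_lit 5) (nat_lit 17) (nat_lit 4) (nat_lit 15) (nat_lit 4) (nat_lit 362) (nat_lit 275) (nat_lit 263)))) (XT.nd (nat_lit 78) (nat_lit 76) (nat_lit 0) (XT.lf (nat_lit 0) (nat_lit 2221442410)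 (nat_lit 76) (nat_lit 12603633088) (nat_lit 76) (nat_lit 9502141156) (nat_lit 14) (nat_lit 4) (nat_lit 15) (nat_lit 5) (nat_lit 15) (nat_lit 4) (nat_lit 363) (nat_lit 275) (nat_lit 262)) (XT.nd (nat_lit 78) (nat_lit 76) (nat_lit 0) (XT.lf (nat_lit 0) (nat_lit 12930154682) (nat_lit 76) (nat_lit 7803029056) (nat_lit 76) (nat_lit 4534777982) (nat_lit 14) (nat_lit 4) (nat_lit 15) (nat_lit 5) (nat_lit 15) (nat_lit 4) (nat_lit 364) (nat_lit 275) (nat_lit 261)) (XT.lf (nat_lit 0) (nat_lit 523800547) (nat_lit 152) (nat_lit 2353278183) (nat_lit 76) (nat_lit 23384919270) (nat_lit 13) (nat_lit 5) (nat_lit 15) (nat_lit 5) (nat_lit 14) (nat_lit 4) (nat_lit 365) (nat_lit 275) (nat_lit 260))))) (XT.nd (nat_lit 234) (nat_lit 152) (nat_lit 0) (XT.nd (nat_lit 78) (nat_lit 76) (nat_lit 0) (XT.lf (nat_lit 0) (nat_lit 5717168431) (nat_lit 152) (nat_lit 19273914407) (nat_lit 0) (nat_lit 2309240084) (nat_lit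 12) (nat_lit 5) (nat_lit 14) (nat_lit 4) (nat_lit 12) (nat_lit 4) (nat_lit 366) (nat_lit 275) (nat_lit 259)) (XT.nd (nat_lit 78) (nat_lit 76) (nat_lit 0) (XT.lf (nat_lit 0) (nat_lit 11129437346) (nat_lit 152) (nat_lit 9678865270) (nat_lit 0) (nat_lit 7584315839) (nat_lit 12) (nat_lit 5) (nat_lit 14) (nat_lit 4) (nat_lit 12) (nat_lit 4) (nat_lit 367) (nat_lit 275) (nat_lit 258)) (XT.lf (nat_lit 0) (nat_lit 163792650) (nat_lit 76) (nat_lit 16528760664) (nat_lit 76) (nat_lit 12852979006) (nat_lit 11) (nat_lit 4) (nat_lit 12) (nat_lit 5) (nat_lit 12) (nat_lit 4) (nat_lit 368) (nat_lit 275) (nat_lit 257)))) (XT.nd (nat_lit 156) (nat_lit 152) (nat_lit 0) (XT.nd (nat_lit 78) (nat_lit 0) (nat_lit 0) (XT.lf (nat_lit 0) (nat_lit 10601054563) (nat_lit 76) (nat_lit 11976541584) (nat_lit 76) (nat_lit 8176321686) (nat_lit 11) (nat_lit 4) (nat_lit 12) (nat_lit 5) (nat_lit 12) (nat_lit 4) (nat_lit 369)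 (nat_lit 275) (nat_lit 256)) (XT.lf (nat_lit 0) (nat_lit 21337744093) (nat_lit 76) (nat_lit 7304723028) (nat_lit 76) (nat_lit 3385990520) (nat_lit 11) (nat_lit 4) (nat_lit 12) (nat_lit 5) (nat_lit 12) (nat_lit 4) (nat_lit 370) (nat_lit 275) (nat_lit 255))) (XT.nd (nat_lit 78) (nat_lit 76) (nat_lit 0) (XT.lf (nat_lit 0) (nat_lit 1480469050) (nat_lit 152) (nat_lit 996640106) (nat_lit 76) (nat_lit 30893883278) (nat_lit 10) (nat_lit 5) (nat_lit 12) (nat_lit 5) (nat_lit 11) (nat_lit 4) (nat_lit 371) (nat_lit 275) (nat_lit 254)) (XT.lf (nat_lit 0) (nat_lit 6557031739) (nat_lit 152) (nat_lit 25601794720) (nat_lit 0) (nat_lit 2615035462) (nat_lit 9) (nat_lit 5) (nat_lit 11) (nat_lit 4) (nat_lit 9) (nat_lit 4) (nat_lit 372) (nat_lit 275) (nat_lit 253))))))))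
noncomputable def xc43 : XT := (XT.nd (nat_lit 1950) (nat_lit 76) (nat_lit 0) (XT.nd (nat_lit 936) (nat_lit 228) (nat_lit 0) (XT.nd (nat_lit 468) (nat_lit 152) (nat_lit 0) (XT.nd (nat_lit 234) (nat_lit 0) (nat_lit 0) (XT.nd (nat_lit 78) (nat_lit 76) (nat_lit 0) (XT.lf (nat_lit 0) (nat_lit 11840022564) (nat_lit 152) (nat_lit 16608708016) (nat_lit 0) (nat_lit 7800525670) (nat_lit 9) (nat_lit 5) (nat_lit 11) (nat_lit 4) (nat_lit 9) (nat_lit 4) (nat_lit 373) (nat_lit 275) (nat_lit 252)) (XT.nd (nat_lit 78) (nat_lit 76) (nat_lit 0) (XT.lf (nat_lit 0) (nat_lit 17287007096) (nat_lit 152) (nat_lit 7361779347) (nat_lit 0) (nat_lit 13154652471) (nat_lit 9) (nat_lit 5) (nat_lit 11) (nat_lit 4) (nat_lit 9) (nat_lit 4) (nat_lit 374) (nat_lit 275) (nat_lit 251)) (XT.lf (nat_lit 0) (nat_lit 2232460461) (nat_lit 76) (nat_lit 20713348849) (nat_lit 76) (nat_lit 16492558290) (nat_lit 8) (nat_lit 4) (nat_lit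 9) (nat_lit 5) (nat_lit 9) (nat_lit 4) (nat_lit 375) (nat_lit 275) (nat_lit 250)))) (XT.nd (nat_lit 78) (nat_lit 0) (nat_lit 0) (XT.lf (nat_lit 0) (nat_lit 12378516517) (nat_lit 76) (nat_lit 16540001482) (nat_lit 76) (nat_lit 12234986225) (nat_lit 8) (nat_lit 4) (nat_lit 9) (nat_lit 5) (nat_lit 9) (nat_lit 4) (nat_lit 376) (nat_lit 275) (nat_lit 249)) (XT.nd (nat_lit 78) (nat_lit 0) (nat_lit 0) (XT.lf (nat_lit 0) (nat_lit 22857132422) (nat_lit 76) (nat_lit 12243483097) (nat_lit 76) (nat_lit 7858253841) (nat_lit 8) (nat_lit 4) (nat_lit 9) (nat_lit 5) (nat_lit 9) (nat_lit 4) (nat_lit 377) (nat_lit 275) (nat_lit 248)) (XT.lf (nat_lit 0) (nat_lit 33693257263) (nat_lit 76) (nat_lit 7813563888) (nat_lit 76) (nat_lit 3351940347) (nat_lit 8) (nat_lit 4) (nat_lit 9) (nat_lit 5) (nat_lit 9) (nat_lit 4) (nat_lit 378) (nat_lit 275) (nat_lit 247))))) (XT.nd (nat_lit 234) (nat_lit 0) (nat_lit 0) (XT.nd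 (nat_lit 78) (nat_lit 76) (nat_lit 0) (XT.lf (nat_lit 0) (nat_lit 1253245613) (nat_lit 152) (nat_lit 1965226495) (nat_lit 76) (nat_lit 43638221403) (nat_lit 7) (nat_lit 5) (nat_lit 9) (nat_lit 5) (nat_lit 8) (nat_lit 4) (nat_lit 379) (nat_lit 275) (nat_lit 246)) (XT.nd (nat_lit 78) (nat_lit 0) (nat_lit 0) (XT.lf (nat_lit 0) (nat_lit 6045215082) (nat_lit 152) (nat_lit 41242342994) (nat_lit 0) (nat_lit 1660765681) (nat_lit 6) (nat_lit 5) (nat_lit 8) (nat_lit 4) (nat_lit 6) (nat_lit 4) (nat_lit 380) (nat_lit 275) (nat_lit 245)) (XT.lf (nat_lit 0) (nat_lit 11085222792) (nat_lit 152) (nat_lit 33420974439) (nat_lit 0) (nat_lit 6637923624) (nat_lit 6) (nat_lit 5) (nat_lit 8) (nat_lit 4) (nat_lit 6) (nat_lit 4) (nat_lit 381) (nat_lit 275) (nat_lit 244)))) (XT.nd (nat_lit 78) (nat_lit 0) (nat_lit 0) (XT.lf (nat_lit 0) (nat_lit 16302802564) (nat_lit 152) (nat_lit 25354987165) (nat_lit 0) (nat_lit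 11795646475) (nat_lit 6) (nat_lit 5) (nat_lit 8) (nat_lit 4) (nat_lit 6) (nat_lit 4) (nat_lit 382) (nat_lit 275) (nat_lit 243)) (XT.nd (nat_lit 78) (nat_lit 0) (nat_lit 0) (XT.lf (nat_lit 0) (nat_lit 21710377207) (nat_lit 152) (nat_lit 17025176439) (nat_lit 0) (nat_lit 17146214526) (nat_lit 6) (nat_lit 5) (nat_lit 8) (nat_lit 4) (nat_lit 6) (nat_lit 4) (nat_lit 383) (nat_lit 275) (nat_lit 242)) (XT.lf (nat_lit 0) (nat_lit 27320821899) (nat_lit 152) (nat_lit 8411709380) (nat_lit 0) (nat_lit 22702367226) (nat_lit 6) (nat_lit 5) (nat_lit 8) (nat_lit 4) (nat_lit 6) (nat_lit 4) (nat_lit 384) (nat_lit 275) (nat_lit 241)))))) (XT.nd (nat_lit 468) (nat_lit 152) (nat_lit 0) (XT.nd (nat_lit 234) (nat_lit 0) (nat_lit 0) (XT.nd (nat_lit 78) (nat_lit 0) (nat_lit 0) (XT.lf (nat_lit 0) (nat_lit 522650342) (nat_lit 76) (nat_lit 32633004534) (nat_lit 76) (nat_lit 27962843203) (nat_lit 5) (nat_lit 4) (nat_lit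 6) (nat_lit 5) (nat_lit 6) (nat_lit 4) (nat_lit 385) (nat_lit 275) (nat_lit 240)) (XT.nd (nat_lit 78) (nat_lit 0) (nat_lit 0) (XT.lf (nat_lit 0) (nat_lit 10071295306) (nat_lit 76) (nat_lit 29290214901) (nat_lit 76) (nat_lit 24570809132) (nat_lit 5) (nat_lit 4) (nat_lit 6) (nat_lit 5) (nat_lit 6) (nat_lit 4) (nat_lit 386) (nat_lit 275) (nat_lit 239)) (XT.lf (nat_lit 0) (nat_lit 19978831280) (nat_lit 76) (nat_lit 25838659724) (nat_lit 76) (nat_lit 21072354491) (nat_lit 5) (nat_lit 4) (nat_lit 6) (nat_lit 5) (nat_lit 6) (nat_lit 4) (nat_lit 387) (nat_lit 275) (nat_lit 238)))) (XT.nd (nat_lit 78) (nat_lit 0) (nat_lit 0) (XT.lf (nat_lit 0) (nat_lit 30268847636) (nat_lit 76) (nat_lit 22270121015) (nat_lit 76) (nat_lit 17459149626) (nat_lit 5) (nat_lit 4) (nat_lit 6) (nat_lit 5) (nat_lit 6) (nat_lit 4) (nat_lit 388) (nat_lit 275) (nat_lit 237)) (XT.nd (nat_lit 78) (nat_lit 0) (nat_lit 0) (XT.lf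 (nat_lit 0) (nat_lit 40965844411) (nat_lit 76) (nat_lit 18576102253) (nat_lit 76) (nat_lit 13722591668) (nat_lit 5) (nat_lit 4) (nat_lit 6) (nat_lit 5) (nat_lit 6) (nat_lit 4) (nat_lit 389) (nat_lit 275) (nat_lit 236)) (XT.lf (nat_lit 0) (nat_lit 52095290647) (nat_lit 76) (nat_lit 14747808157) (nat_lit 76) (nat_lit 9853784051) (nat_lit 5) (nat_lit 4) (nat_lit 6) (nat_lit 5) (nat_lit 6) (nat_lit 4) (nat_lit 390) (nat_lit 275) (nat_lit 235))))) (XT.nd (nat_lit 234) (nat_lit 0) (nat_lit 0) (XT.nd (nat_lit 78) (nat_lit 152) (nat_lit 0) (XT.lf (nat_lit 0) (nat_lit 63683685024) (nat_lit 76) (nat_lit 10776123739) (nat_lit 76) (nat_lit 5843515328) (nat_lit 5) (nat_lit 4) (nat_lit 6) (nat_lit 5) (nat_lit 6) (nat_lit 4) (nat_lit 391) (nat_lit 275) (nat_lit 234)) (XT.nd (nat_lit 78) (nat_lit 152) (nat_lit 0) (XT.lf (nat_lit 0) (nat_lit 75758618958) (nat_lit 76) (nat_lit 6651592608) (nat_lit 76) (nat_lit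 1682237240) (nat_lit 5) (nat_lit 4) (nat_lit 6) (nat_lit 5) (nat_lit 6) (nat_lit 4) (nat_lit 392) (nat_lit 275) (nat_lit 233)) (XT.lf (nat_lit 0) (nat_lit 242094973) (nat_lit 76) (nat_lit 2317147682) (nat_lit 152) (nat_lit 85511786225) (nat_lit 3) (nat_lit 5) (nat_lit 4) (nat_lit 5) (nat_lit 5) (nat_lit 4) (nat_lit 393) (nat_lit 275) (nat_lit 232)))) (XT.nd (nat_lit 156) (nat_lit 0) (nat_lit 0) (XT.nd (nat_lit 78) (nat_lit 0) (nat_lit 0) (XT.lf (nat_lit 0) (nat_lit 7089064418) (nat_lit 152) (nat_lit 82860187209) (nat_lit 0) (nat_lit 2291271044) (nat_lit 3) (nat_lit 5) (nat_lit 5) (nat_lit 4) (nat_lit 3) (nat_lit 4) (nat_lit 394) (nat_lit 275) (nat_lit 231)) (XT.lf (nat_lit 0) (nat_lit 11840002917) (nat_lit 152) (nat_lit 77766782747) (nat_lit 0) (nat_lit 7011977730) (nat_lit 3) (nat_lit 5) (nat_lit 5) (nat_lit 4) (nat_lit 3) (nat_lit 4) (nat_lit 395) (nat_lit 275) (nat_lit 230))) (XT.nd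 (nat_lit 78) (nat_lit 0) (nat_lit 0) (XT.lf (nat_lit 0) (nat_lit 16787192742) (nat_lit 152) (nat_lit 72500416197) (nat_lit 0) (nat_lit 11930375352) (nat_lit 3) (nat_lit 5) (nat_lit 5) (nat_lit 4) (nat_lit 3) (nat_lit 4) (nat_lit 396) (nat_lit 275) (nat_lit 229)) (XT.lf (nat_lit 0) (nat_lit 21942412914) (nat_lit 152) (nat_lit 67048548593) (nat_lit 0) (nat_lit 17058174380) (nat_lit 3) (nat_lit 5) (nat_lit 5) (nat_lit 4) (nat_lit 3) (nat_lit 4) (nat_lit 397) (nat_lit 275) (nat_lit 228))))))) (XT.nd (nat_lit 936) (nat_lit 0) (nat_lit 0) (XT.nd (nat_lit 468) (nat_lit 76) (nat_lit 0) (XT.nd (nat_lit 234) (nat_lit 0) (nat_lit 0) (XT.nd (nat_lit 78) (nat_lit 0) (nat_lit 0) (XT.lf (nat_lit 0) (nat_lit 27317937769) (nat_lit 152) (nat_lit 61398199298) (nat_lit 0) (nat_lit 22407583858) (nat_lit 3) (nat_lit 5) (nat_lit 5) (nat_lit 4) (nat_lit 3) (nat_lit 4) (nat_lit 398) (nat_lit 275) (nat_lit 227))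 (XT.nd (nat_lit 78) (nat_lit 0) (nat_lit 0) (XT.lf (nat_lit 0) (nat_lit 32926566175) (nat_lit 152) (nat_lit 55535915097) (nat_lit 0) (nat_lit 27991340477) (nat_lit 3) (nat_lit 5) (nat_lit 5) (nat_lit 4) (nat_lit 3) (nat_lit 4) (nat_lit 399) (nat_lit 275) (nat_lit 226)) (XT.lf (nat_lit 0) (nat_lit 38781652009) (nat_lit 152) (nat_lit 49447738173) (nat_lit 0) (nat_lit 33822738894) (nat_lit 3) (nat_lit 5) (nat_lit 5) (nat_lit 4) (nat_lit 3) (nat_lit 4) (nat_lit 400) (nat_lit 275) (nat_lit 225)))) (XT.nd (nat_lit 78) (nat_lit 0) (nat_lit 0) (XT.lf (nat_lit 0) (nat_lit 44897135951) (nat_lit 152) (nat_lit 43119172865) (nat_lit 0) (nat_lit 39915663392) (nat_lit 3) (nat_lit 5) (nat_lit 5) (nat_lit 4) (nat_lit 3) (nat_lit 4) (nat_lit 401) (nat_lit 275) (nat_lit 224)) (XT.nd (nat_lit 78) (nat_lit 0) (nat_lit 0) (XT.lf (nat_lit 0) (nat_lit 51287578678) (nat_lit 152) (nat_lit 36535151161) (nat_lit 0)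 (nat_lit 46284620934) (nat_lit 3) (nat_lit 5) (nat_lit 5) (nat_lit 4) (nat_lit 3) (nat_lit 4) (nat_lit 402) (nat_lit 275) (nat_lit 223)) (XT.lf (nat_lit 0) (nat_lit 57968195529) (nat_lit 152) (nat_lit 29679996818) (nat_lit 0) (nat_lit 52944775705) (nat_lit 3) (nat_lit 5) (nat_lit 5) (nat_lit 4) (nat_lit 3) (nat_lit 4) (nat_lit 403) (nat_lit 275) (nat_lit 222))))) (XT.nd (nat_lit 234) (nat_lit 76) (nat_lit 0) (XT.nd (nat_lit 78) (nat_lit 0) (nat_lit 0) (XT.lf (nat_lit 0) (nat_lit 64954892735) (nat_lit 152) (nat_lit 22537388042) (nat_lit 0) (nat_lit 59911985215) (nat_lit 3) (nat_lit 5) (nat_lit 5) (nat_lit 4) (nat_lit 3) (nat_lit 4) (nat_lit 404) (nat_lit 275) (nat_lit 221)) (XT.nd (nat_lit 78) (nat_lit 0) (nat_lit 0) (XT.lf (nat_lit 0) (nat_lit 72264305290) (nat_lit 152) (nat_lit 15090318620) (nat_lit 0) (nat_lit 67202838059) (nat_lit 3) (nat_lit 5) (nat_lit 5) (nat_lit 4) (nat_lit 3) (nat_lit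 4) (nat_lit 405) (nat_lit 275) (nat_lit 220)) (XT.lf (nat_lit 0) (nat_lit 79913836556) (nat_lit 152) (nat_lit 7321057434) (nat_lit 0) (nat_lit 74834693411) (nat_lit 3) (nat_lit 5) (nat_lit 5) (nat_lit 4) (nat_lit 3) (nat_lit 4) (nat_lit 406) (nat_lit 275) (nat_lit 219)))) (XT.nd (nat_lit 78) (nat_lit 0) (nat_lit 0) (XT.lf (nat_lit 0) (nat_lit 814978145) (nat_lit 76) (nat_lit 87119445651) (nat_lit 76) (nat_lit 82023468301) (nat_lit 2) (nat_lit 4) (nat_lit 3) (nat_lit 5) (nat_lit 3) (nat_lit 4) (nat_lit 407) (nat_lit 275) (nat_lit 218)) (XT.nd (nat_lit 78) (nat_lit 0) (nat_lit 0) (XT.lf (nat_lit 0) (nat_lit 9564983565) (nat_lit 76) (nat_lit 86891313707) (nat_lit 76) (nat_lit 81779303782) (nat_lit 2) (nat_lit 4) (nat_lit 3) (nat_lit 5) (nat_lit 3) (nat_lit 4) (nat_lit 408) (nat_lit 275) (nat_lit 217)) (XT.lf (nat_lit 0) (nat_lit 18707724949) (nat_lit 76) (nat_lit 86673940638) (nat_lit 76)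 (nat_lit 81546661593) (nat_lit 2) (nat_lit 4) (nat_lit 3) (nat_lit 5) (nat_lit 3) (nat_lit 4) (nat_lit 409) (nat_lit 275) (nat_lit 216)))))) (XT.nd (nat_lit 468) (nat_lit 0) (nat_lit 0) (XT.nd (nat_lit 234) (nat_lit 0) (nat_lit 0) (XT.nd (nat_lit 78) (nat_lit 0) (nat_lit 0) (XT.lf (nat_lit 0) (nat_lit 28264970729) (nat_lit 76) (nat_lit 86466808889) (nat_lit 76) (nat_lit 81324987825) (nat_lit 2) (nat_lit 4) (nat_lit 3) (nat_lit 5) (nat_lit 3) (nat_lit 4) (nat_lit 410) (nat_lit 275) (nat_lit 215)) (XT.nd (nat_lit 78) (nat_lit 0) (nat_lit 0) (XT.lf (nat_lit 0) (nat_lit 38259476253) (nat_lit 76) (nat_lit 86269425289) (nat_lit 76) (nat_lit 81113754683) (nat_lit 2) (nat_lit 4) (nat_lit 3) (nat_lit 5) (nat_lit 3) (nat_lit 4) (nat_lit 411) (nat_lit 275) (nat_lit 214)) (XT.lf (nat_lit 0) (nat_lit 48715037962) (nat_lit 76) (nat_lit 86081319877) (nat_lit 76) (nat_lit 80912459231) (nat_lit 2) (nat_lit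 4) (nat_lit 3) (nat_lit 5) (nat_lit 3) (nat_lit 4) (nat_lit 412) (nat_lit 275) (nat_lit 213)))) (XT.nd (nat_lit 78) (nat_lit 0) (nat_lit 0) (XT.lf (nat_lit 0) (nat_lit 59656550051) (nat_lit 76) (nat_lit 85902044783) (nat_lit 76) (nat_lit 80720622195) (nat_lit 2) (nat_lit 4) (nat_lit 3) (nat_lit 5) (nat_lit 3) (nat_lit 4) (nat_lit 413) (nat_lit 275) (nat_lit 212)) (XT.nd (nat_lit 78) (nat_lit 0) (nat_lit 0) (XT.lf (nat_lit 0) (nat_lit 71110063739) (nat_lit 76) (nat_lit 85731173161) (nat_lit 76) (nat_lit 80537786818) (nat_lit 2) (nat_lit 4) (nat_lit 3) (nat_lit 5) (nat_lit 3) (nat_lit 4) (nat_lit 414) (nat_lit 275) (nat_lit 211)) (XT.lf (nat_lit 0) (nat_lit 83102849296) (nat_lit 76) (nat_lit 85568298175) (nat_lit 76) (nat_lit 80363517780) (nat_lit 2) (nat_lit 4) (nat_lit 3) (nat_lit 5) (nat_lit 3) (nat_lit 4) (nat_lit 415) (nat_lit 275) (nat_lit 210))))) (XT.nd (nat_lit 234) (nat_lit 0) (nat_lit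 0) (XT.nd (nat_lit 78) (nat_lit 0) (nat_lit 0) (XT.lf (nat_lit 0) (nat_lit 95663460974) (nat_lit 76) (nat_lit 85413032026) (nat_lit 76) (nat_lit 80197400153) (nat_lit 2) (nat_lit 4) (nat_lit 3) (nat_lit 5) (nat_lit 3) (nat_lit 4) (nat_lit 416) (nat_lit 275) (nat_lit 209)) (XT.nd (nat_lit 78) (nat_lit 0) (nat_lit 0) (XT.lf (nat_lit 0) (nat_lit 108821804991) (nat_lit 76) (nat_lit 85265005034) (nat_lit 76) (nat_lit 80039038420) (nat_lit 2) (nat_lit 4) (nat_lit 3) (nat_lit 5) (nat_lit 3) (nat_lit 4) (nat_lit 417) (nat_lit 275) (nat_lit 208)) (XT.lf (nat_lit 0) (nat_lit 122609210738) (nat_lit 76) (nat_lit 85123864753) (nat_lit 76) (nat_lit 79888055528) (nat_lit 2) (nat_lit 4) (nat_lit 3) (nat_lit 5) (nat_lit 3) (nat_lit 4) (nat_lit 418) (nat_lit 275) (nat_lit 207)))) (XT.nd (nat_lit 156) (nat_lit 0) (nat_lit 0) (XT.nd (nat_lit 78) (nat_lit 0) (nat_lit 0) (XT.lf (nat_lit 0) (nat_lit 137058505372)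 (nat_lit 76) (nat_lit 84989275136) (nat_lit 76) (nat_lit 79744091995) (nat_lit 2) (nat_lit 4) (nat_lit 3) (nat_lit 5) (nat_lit 3) (nat_lit 4) (nat_lit 419) (nat_lit 275) (nat_lit 206)) (XT.lf (nat_lit 0) (nat_lit 152204091974) (nat_lit 76) (nat_lit 84860915729) (nat_lit 76) (nat_lit 79606805051) (nat_lit 2) (nat_lit 4) (nat_lit 3) (nat_lit 5) (nat_lit 3) (nat_lit 4) (nat_lit 420) (nat_lit 275) (nat_lit 205))) (XT.nd (nat_lit 78) (nat_lit 0) (nat_lit 0) (XT.lf (nat_lit 0) (nat_lit 168082031465) (nat_lit 76) (nat_lit 84738480917) (nat_lit 76) (nat_lit 79475867821) (nat_lit 2) (nat_lit 4) (nat_lit 3) (nat_lit 5) (nat_lit 3) (nat_lit 4) (nat_lit 421) (nat_lit 275) (nat_lit 204)) (XT.lf (nat_lit 0) (nat_lit 184730128463) (nat_lit 76) (nat_lit 84621679187) (nat_lit 76) (nat_lit 79350968551) (nat_lit 2) (nat_lit 4) (nat_lit 3) (nat_lit 5) (nat_lit 3) (nat_lit 4) (nat_lit 422) (nat_lit 275) (nat_lit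 203))))))))
noncomputable def xc44 : XT := (XT.nd (nat_lit 41418) (nat_lit 0) (nat_lit 456) (XT.nd (nat_lit 936) (nat_lit 0) (nat_lit 0) (XT.nd (nat_lit 468) (nat_lit 0) (nat_lit 0) (XT.nd (nat_lit 234) (nat_lit 0) (nat_lit 0) (XT.nd (nat_lit 78) (nat_lit 0) (nat_lit 0) (XT.lf (nat_lit 0) (nat_lit 202188021295) (nat_lit 76) (nat_lit 84510232440) (nat_lit 76) (nat_lit 79231809861) (nat_lit 2) (nat_lit 4) (nat_lit 3) (nat_lit 5) (nat_lit 3) (nat_lit 4) (nat_lit 423) (nat_lit 275) (nat_lit 202)) (XT.nd (nat_lit 78) (nat_lit 0) (nat_lit 0) (XT.lf (nat_lit 0) (nat_lit 220497276371) (nat_lit 76) (nat_lit 84403875326) (nat_lit 76) (nat_lit 79118108040) (nat_lit 2) (nat_lit 4) (nat_lit 3) (nat_lit 5) (nat_lit 3) (nat_lit 4) (nat_lit 424) (nat_lit 275) (nat_lit 201)) (XT.lf (nat_lit 0) (nat_lit 239701487156) (nat_lit 76) (nat_lit 84302354615) (nat_lit 76) (nat_lit 79009592369) (nat_lit 2) (nat_lit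 4) (nat_lit 3) (nat_lit 5) (nat_lit 3) (nat_lit 4) (nat_lit 425) (nat_lit 275) (nat_lit 200)))) (XT.nd (nat_lit 78) (nat_lit 0) (nat_lit 0) (XT.lf (nat_lit 0) (nat_lit 259846377962) (nat_lit 76) (nat_lit 84205428591) (nat_lit 76) (nat_lit 78906004478) (nat_lit 2) (nat_lit 4) (nat_lit 3) (nat_lit 5) (nat_lit 3) (nat_lit 4) (nat_lit 426) (nat_lit 275) (nat_lit 199)) (XT.nd (nat_lit 78) (nat_lit 0) (nat_lit 0) (XT.lf (nat_lit 0) (nat_lit 280979912815) (nat_lit 76) (nat_lit 84112866476) (nat_lit 76) (nat_lit 78807097729) (nat_lit 2) (nat_lit 4) (nat_lit 3) (nat_lit 5) (nat_lit 3) (nat_lit 4) (nat_lit 427) (nat_lit 275) (nat_lit 198)) (XT.lf (nat_lit 0) (nat_lit 303152409654) (nat_lit 76) (nat_lit 84024447886) (nat_lit 76) (nat_lit 78712636630) (nat_lit 2) (nat_lit 4) (nat_lit 3) (nat_lit 5) (nat_lit 3) (nat_lit 4) (nat_lit 428) (nat_lit 275) (nat_lit 197))))) (XT.nd (nat_lit 234) (nat_lit 0)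 (nat_lit 0) (XT.nd (nat_lit 78) (nat_lit 0) (nat_lit 0) (XT.lf (nat_lit 0) (nat_lit 326416660138) (nat_lit 76) (nat_lit 83939962300) (nat_lit 76) (nat_lit 78622396273) (nat_lit 2) (nat_lit 4) (nat_lit 3) (nat_lit 5) (nat_lit 3) (nat_lit 4) (nat_lit 429) (nat_lit 275) (nat_lit 196)) (XT.nd (nat_lit 78) (nat_lit 0) (nat_lit 0) (XT.lf (nat_lit 0) (nat_lit 350828055341) (nat_lit 76) (nat_lit 83859208561) (nat_lit 76) (nat_lit 78536161800) (nat_lit 2) (nat_lit 4) (nat_lit 3) (nat_lit 5) (nat_lit 3) (nat_lit 4) (nat_lit 430) (nat_lit 275) (nat_lit 195)) (XT.lf (nat_lit 0) (nat_lit 376444717631) (nat_lit 76) (nat_lit 83781994399) (nat_lit 76) (nat_lit 78453727891) (nat_lit 2) (nat_lit 4) (nat_lit 3) (nat_lit 5) (nat_lit 3) (nat_lit 4) (nat_lit 431) (nat_lit 275) (nat_lit 194)))) (XT.nd (nat_lit 78) (nat_lit 0) (nat_lit 0) (XT.lf (nat_lit 0) (nat_lit 403327639062) (nat_lit 76) (nat_lit 83708135970)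 (nat_lit 76) (nat_lit 78374898276) (nat_lit 2) (nat_lit 4) (nat_lit 3) (nat_lit 5) (nat_lit 3) (nat_lit 4) (nat_lit 432) (nat_lit 275) (nat_lit 193)) (XT.nd (nat_lit 78) (nat_lit 0) (nat_lit 0) (XT.lf (nat_lit 0) (nat_lit 431540826590) (nat_lit 76) (nat_lit 83637457422) (nat_lit 76) (nat_lit 78299485263) (nat_lit 2) (nat_lit 4) (nat_lit 3) (nat_lit 5) (nat_lit 3) (nat_lit 4) (nat_lit 433) (nat_lit 275) (nat_lit 192)) (XT.lf (nat_lit 0) (nat_lit 461151454470) (nat_lit 76) (nat_lit 83569790471) (nat_lit 76) (nat_lit 78227309299) (nat_lit 2) (nat_lit 4) (nat_lit 3) (nat_lit 5) (nat_lit 3) (nat_lit 4) (nat_lit 434) (nat_lit 275) (nat_lit 191)))))) (XT.nd (nat_lit 468) (nat_lit 0) (nat_lit 0) (XT.nd (nat_lit 234) (nat_lit 0) (nat_lit 0) (XT.nd (nat_lit 78) (nat_lit 0) (nat_lit 0) (XT.lf (nat_lit 0) (nat_lit 492230024197) (nat_lit 76) (nat_lit 83504974007) (nat_lit 76) (nat_lit 78158198536) (nat_lit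 2) (nat_lit 4) (nat_lit 3) (nat_lit 5) (nat_lit 3) (nat_lit 4) (nat_lit 435) (nat_lit 275) (nat_lit 190)) (XT.nd (nat_lit 78) (nat_lit 0) (nat_lit 0) (XT.lf (nat_lit 0) (nat_lit 524850532367) (nat_lit 76) (nat_lit 83442853704) (nat_lit 76) (nat_lit 78091988425) (nat_lit 2) (nat_lit 4) (nat_lit 3) (nat_lit 5) (nat_lit 3) (nat_lit 4) (nat_lit 436) (nat_lit 275) (nat_lit 189)) (XT.lf (nat_lit 0) (nat_lit 559090646856) (nat_lit 76) (nat_lit 83383281656) (nat_lit 76) (nat_lit 78028521322) (nat_lit 2) (nat_lit 4) (nat_lit 3) (nat_lit 5) (nat_lit 3) (nat_lit 4) (nat_lit 437) (nat_lit 275) (nat_lit 188)))) (XT.nd (nat_lit 78) (nat_lit 0) (nat_lit 0) (XT.lf (nat_lit 0) (nat_lit 595031891745) (nat_lit 76) (nat_lit 83326116026) (nat_lit 76) (nat_lit 77967646116) (nat_lit 2) (nat_lit 4) (nat_lit 3) (nat_lit 5) (nat_lit 3) (nat_lit 4) (nat_lit 438) (nat_lit 275) (nat_lit 187)) (XT.nd (nat_lit 78) (nat_lit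 0) (nat_lit 0) (XT.lf (nat_lit 0) (nat_lit 632759841428) (nat_lit 76) (nat_lit 83271220705) (nat_lit 76) (nat_lit 77909217865) (nat_lit 2) (nat_lit 4) (nat_lit 3) (nat_lit 5) (nat_lit 3) (nat_lit 4) (nat_lit 439) (nat_lit 275) (nat_lit 186)) (XT.lf (nat_lit 0) (nat_lit 672364324356) (nat_lit 76) (nat_lit 83218464989) (nat_lit 76) (nat_lit 77853097454) (nat_lit 2) (nat_lit 4) (nat_lit 3) (nat_lit 5) (nat_lit 3) (nat_lit 4) (nat_lit 440) (nat_lit 275) (nat_lit 185))))) (XT.nd (nat_lit 39780) (nat_lit 0) (nat_lit 1596) (XT.nd (nat_lit 39624) (nat_lit 0) (nat_lit 1824) (XT.lf (nat_lit 0) (nat_lit 713939636917) (nat_lit 76) (nat_lit 83167723271) (nat_lit 76) (nat_lit 77799151264) (nat_lit 2) (nat_lit 4) (nat_lit 3) (nat_lit 5) (nat_lit 3) (nat_lit 4) (nat_lit 441) (nat_lit 275) (nat_lit 184)) (XT.nd (nat_lit 78) (nat_lit 152) (nat_lit 0) (XT.lf (nat_lit 0) (nat_lit 2227035484) (nat_lit 152)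 (nat_lit 2883485215) (nat_lit 0) (nat_lit 2227035484) (nat_lit 28) (nat_lit 5) (nat_lit 30) (nat_lit 4) (nat_lit 28) (nat_lit 4) (nat_lit 348) (nat_lit 276) (nat_lit 276)) (XT.lf (nat_lit 0) (nat_lit 4473908946) (nat_lit 152) (nat_lit 5523874759) (nat_lit 152) (nat_lit 5122548998) (nat_lit 26) (nat_lit 4) (nat_lit 28) (nat_lit 5) (nat_lit 28) (nat_lit 4) (nat_lit 349) (nat_lit 276) (nat_lit 275)))) (XT.nd (nat_lit 78) (nat_lit 152) (nat_lit 0) (XT.lf (nat_lit 0) (nat_lit 135784553) (nat_lit 228) (nat_lit 505182436) (nat_lit 76) (nat_lit 14951093995) (nat_lit 25) (nat_lit 5) (nat_lit 28) (nat_lit 5) (nat_lit 26) (nat_lit 4) (nat_lit 350) (nat_lit 276) (nat_lit 274)) (XT.nd (nat_lit 78) (nat_lit 76) (nat_lit 0) (XT.lf (nat_lit 0) (nat_lit 5535437018) (nat_lit 152) (nat_lit 6102725168) (nat_lit 0) (nat_lit 4442527430) (nat_lit 24) (nat_lit 5) (nat_lit 26) (nat_lit 4) (nat_lit 24) (nat_lit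 4) (nat_lit 351) (nat_lit 276) (nat_lit 273)) (XT.lf (nat_lit 0) (nat_lit 4204523695) (nat_lit 76) (nat_lit 6908474726) (nat_lit 76) (nat_lit 5485393442) (nat_lit 23) (nat_lit 4) (nat_lit 24) (nat_lit 5) (nat_lit 24) (nat_lit 4) (nat_lit 352) (nat_lit 276) (nat_lit 272))))))) (XT.nd (nat_lit 936) (nat_lit 456) (nat_lit 0) (XT.nd (nat_lit 468) (nat_lit 304) (nat_lit 0) (XT.nd (nat_lit 234) (nat_lit 152) (nat_lit 0) (XT.nd (nat_lit 78) (nat_lit 228) (nat_lit 0) (XT.lf (nat_lit 0) (nat_lit 14915427459) (nat_lit 76) (nat_lit 1983814374) (nat_lit 76) (nat_lit 246283855) (nat_lit 23) (nat_lit 4) (nat_lit 24) (nat_lit 5) (nat_lit 24) (nat_lit 4) (nat_lit 353) (nat_lit 276) (nat_lit 271)) (XT.nd (nat_lit 78) (nat_lit 76) (nat_lit 0) (XT.lf (nat_lit 0) (nat_lit 5099299036) (nat_lit 152) (nat_lit 9456719809) (nat_lit 0) (nat_lit 3159293340) (nat_lit 21) (nat_lit 5) (nat_lit 23) (nat_lit 4) (nat_lit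 21) (nat_lit 4) (nat_lit 354) (nat_lit 276) (nat_lit 270)) (XT.lf (nat_lit 0) (nat_lit 708202478) (nat_lit 76) (nat_lit 9910555215) (nat_lit 76) (nat_lit 7698916446) (nat_lit 20) (nat_lit 4) (nat_lit 21) (nat_lit 5) (nat_lit 21) (nat_lit 4) (nat_lit 355) (nat_lit 276) (nat_lit 269)))) (XT.nd (nat_lit 78) (nat_lit 152) (nat_lit 0) (XT.lf (nat_lit 0) (nat_lit 11400034936) (nat_lit 76) (nat_lit 5010338569) (nat_lit 76) (nat_lit 2540001637) (nat_lit 20) (nat_lit 4) (nat_lit 21) (nat_lit 5) (nat_lit 21) (nat_lit 4) (nat_lit 356) (nat_lit 276) (nat_lit 268)) (XT.nd (nat_lit 78) (nat_lit 0) (nat_lit 0) (XT.lf (nat_lit 0) (nat_lit 2670381518) (nat_lit 152) (nat_lit 16864798425) (nat_lit 0) (nat_lit 83032818) (nat_lit 18) (nat_lit 5) (nat_lit 20) (nat_lit 4) (nat_lit 18) (nat_lit 4) (nat_lit 357) (nat_lit 276) (nat_lit 267)) (XT.lf (nat_lit 0) (nat_lit 8110044834) (nat_lit 152) (nat_lit 6905412495)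 (nat_lit 0) (nat_lit 5299222933) (nat_lit 18) (nat_lit 5) (nat_lit 20) (nat_lit 4) (nat_lit 18) (nat_lit 4) (nat_lit 358) (nat_lit 276) (nat_lit 266))))) (XT.nd (nat_lit 234) (nat_lit 76) (nat_lit 0) (XT.nd (nat_lit 78) (nat_lit 152) (nat_lit 0) (XT.lf (nat_lit 0) (nat_lit 3373261732) (nat_lit 76) (nat_lit 10350638645) (nat_lit 76) (nat_lit 7326985124) (nat_lit 17) (nat_lit 4) (nat_lit 18) (nat_lit 5) (nat_lit 18) (nat_lit 4) (nat_lit 359) (nat_lit 276) (nat_lit 265)) (XT.nd (nat_lit 78) (nat_lit 152) (nat_lit 0) (XT.lf (nat_lit 0) (nat_lit 14123586891) (nat_lit 76) (nat_lit 5464112750) (nat_lit 76) (nat_lit 2237762449) (nat_lit 17) (nat_lit 4) (nat_lit 18) (nat_lit 5) (nat_lit 18) (nat_lit 4) (nat_lit 360) (nat_lit 276) (nat_lit 264)) (XT.lf (nat_lit 0) (nat_lit 2531861258) (nat_lit 76) (nat_lit 371190503) (nat_lit 152) (nat_lit 19738485612) (nat_lit 15) (nat_lit 5) (nat_lit 16) (nat_lit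 5) (nat_lit 17) (nat_lit 4) (nat_lit 361) (nat_lit 276) (nat_lit 263)))) (XT.nd (nat_lit 78) (nat_lit 76) (nat_lit 0) (XT.lf (nat_lit 0) (nat_lit 8293584643) (nat_lit 152) (nat_lit 10337702873) (nat_lit 0) (nat_lit 4861921015) (nat_lit 15) (nat_lit 5) (nat_lit 17) (nat_lit 4) (nat_lit 15) (nat_lit 4) (nat_lit 362) (nat_lit 276) (nat_lit 262)) (XT.nd (nat_lit 78) (nat_lit 76) (nat_lit 0) (XT.lf (nat_lit 0) (nat_lit 13824122578) (nat_lit 152) (nat_lit 344136387) (nat_lit 0) (nat_lit 10225699807) (nat_lit 15) (nat_lit 5) (nat_lit 17) (nat_lit 4) (nat_lit 15) (nat_lit 4) (nat_lit 363) (nat_lit 276) (nat_lit 261)) (XT.lf (nat_lit 0) (nat_lit 10227971847) (nat_lit 76) (nat_lit 9433753647) (nat_lit 76) (nat_lit 5676512645) (nat_lit 14) (nat_lit 4) (nat_lit 15) (nat_lit 5) (nat_lit 15) (nat_lit 4) (nat_lit 364) (nat_lit 276) (nat_lit 260)))))) (XT.nd (nat_lit 468) (nat_lit 228) (nat_lit 0) (XT.nd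 (nat_lit 234) (nat_lit 76) (nat_lit 0) (XT.nd (nat_lit 78) (nat_lit 152) (nat_lit 0) (XT.lf (nat_lit 0) (nat_lit 21096145575) (nat_lit 76) (nat_lit 4574074705) (nat_lit 76) (nat_lit 665578244) (nat_lit 14) (nat_lit 4) (nat_lit 15) (nat_lit 5) (nat_lit 15) (nat_lit 4) (nat_lit 365) (nat_lit 276) (nat_lit 259)) (XT.nd (nat_lit 78) (nat_lit 0) (nat_lit 0) (XT.lf (nat_lit 0) (nat_lit 4412626239) (nat_lit 152) (nat_lit 22415792393) (nat_lit 0) (nat_lit 553055498) (nat_lit 12) (nat_lit 5) (nat_lit 14) (nat_lit 4) (nat_lit 12) (nat_lit 4) (nat_lit 366) (nat_lit 276) (nat_lit 258)) (XT.lf (nat_lit 0) (nat_lit 9765225079) (nat_lit 152) (nat_lit 12936541334) (nat_lit 0) (nat_lit 5774994185) (nat_lit 12) (nat_lit 5) (nat_lit 14) (nat_lit 4) (nat_lit 12) (nat_lit 4) (nat_lit 367) (nat_lit 276) (nat_lit 257)))) (XT.nd (nat_lit 78) (nat_lit 76) (nat_lit 0) (XT.lf (nat_lit 0) (nat_lit 15268955142) (nat_lit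 152) (nat_lit 3209409684) (nat_lit 0) (nat_lit 11154286009) (nat_lit 12) (nat_lit 5) (nat_lit 14) (nat_lit 4) (nat_lit 12) (nat_lit 4) (nat_lit 368) (nat_lit 276) (nat_lit 256)) (XT.nd (nat_lit 78) (nat_lit 0) (nat_lit 0) (XT.lf (nat_lit 0) (nat_lit 7013229539) (nat_lit 76) (nat_lit 14033187178) (nat_lit 76) (nat_lit 9800005435) (nat_lit 11) (nat_lit 4) (nat_lit 12) (nat_lit 5) (nat_lit 12) (nat_lit 4) (nat_lit 369) (nat_lit 276) (nat_lit 255)) (XT.lf (nat_lit 0) (nat_lit 17646580868) (nat_lit 76) (nat_lit 9411548169) (nat_lit 76) (nat_lit 5065497274) (nat_lit 11) (nat_lit 4) (nat_lit 12) (nat_lit 5) (nat_lit 12) (nat_lit 4) (nat_lit 370) (nat_lit 276) (nat_lit 254))))) (XT.nd (nat_lit 234) (nat_lit 76) (nat_lit 0) (XT.nd (nat_lit 78) (nat_lit 152) (nat_lit 0) (XT.lf (nat_lit 0) (nat_lit 28609844229) (nat_lit 76) (nat_lit 4656796803) (nat_lit 76) (nat_lit 203251478) (nat_lit 11) (nat_lit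 4) (nat_lit 12) (nat_lit 5) (nat_lit 12) (nat_lit 4) (nat_lit 371) (nat_lit 276) (nat_lit 253)) (XT.nd (nat_lit 78) (nat_lit 0) (nat_lit 0) (XT.lf (nat_lit 0) (nat_lit 4731151604) (nat_lit 152) (nat_lit 29757028603) (nat_lit 0) (nat_lit 392179248) (nat_lit 9) (nat_lit 5) (nat_lit 11) (nat_lit 4) (nat_lit 9) (nat_lit 4) (nat_lit 372) (nat_lit 276) (nat_lit 252)) (XT.lf (nat_lit 0) (nat_lit 9965285924) (nat_lit 152) (nat_lit 20859460128) (nat_lit 0) (nat_lit 5533455838) (nat_lit 9) (nat_lit 5) (nat_lit 11) (nat_lit 4) (nat_lit 9) (nat_lit 4) (nat_lit 373) (nat_lit 276) (nat_lit 251)))) (XT.nd (nat_lit 156) (nat_lit 76) (nat_lit 0) (XT.nd (nat_lit 78) (nat_lit 0) (nat_lit 0) (XT.lf (nat_lit 0) (nat_lit 15365740452) (nat_lit 152) (nat_lit 11703501200) (nat_lit 0) (nat_lit 10845474432) (nat_lit 9) (nat_lit 5) (nat_lit 11) (nat_lit 4) (nat_lit 9) (nat_lit 4) (nat_lit 374) (nat_lit 276) (nat_lit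 250)) (XT.lf (nat_lit 0) (nat_lit 20945373413) (nat_lit 152) (nat_lit 2267351917) (nat_lit 0) (nat_lit 16340882694) (nat_lit 9) (nat_lit 5) (nat_lit 11) (nat_lit 4) (nat_lit 9) (nat_lit 4) (nat_lit 375) (nat_lit 276) (nat_lit 249))) (XT.nd (nat_lit 78) (nat_lit 0) (nat_lit 0) (XT.lf (nat_lit 0) (nat_lit 7718494778) (nat_lit 76) (nat_lit 19119482203) (nat_lit 76) (nat_lit 14434777484) (nat_lit 8) (nat_lit 4) (nat_lit 9) (nat_lit 5) (nat_lit 9) (nat_lit 4) (nat_lit 376) (nat_lit 276) (nat_lit 248)) (XT.lf (nat_lit 0) (nat_lit 18115929289) (nat_lit 76) (nat_lit 14862683377) (nat_lit 76) (nat_lit 10101584374) (nat_lit 8) (nat_lit 4) (nat_lit 9) (nat_lit 5) (nat_lit 9) (nat_lit 4) (nat_lit 377) (nat_lit 276) (nat_lit 247))))))))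
noncomputable def xc45 : XT := (XT.nd (nat_lit 1950) (nat_lit 76) (nat_lit 0) (XT.nd (nat_lit 936) (nat_lit 152) (nat_lit 0) (XT.nd (nat_lit 468) (nat_lit 76) (nat_lit 0) (XT.nd (nat_lit 234) (nat_lit 0) (nat_lit 0) (XT.nd (nat_lit 78) (nat_lit 152) (nat_lit 0) (XT.lf (nat_lit 0) (nat_lit 28874738516) (nat_lit 76) (nat_lit 10470592319) (nat_lit 76) (nat_lit 5636736854) (nat_lit 8) (nat_lit 4) (nat_lit 9) (nat_lit 5) (nat_lit 9) (nat_lit 4) (nat_lit 378) (nat_lit 276) (nat_lit 246)) (XT.nd (nat_lit 78) (nat_lit 152) (nat_lit 0) (XT.lf (nat_lit 0) (nat_lit 40020538672) (nat_lit 76) (nat_lit 5932751671) (nat_lit 76) (nat_lit 1029604338) (nat_lit 8) (nat_lit 4) (nat_lit 9) (nat_lit 5) (nat_lit 9) (nat_lit 4) (nat_lit 379) (nat_lit 276) (nat_lit 245)) (XT.lf (nat_lit 0) (nat_lit 2514662421) (nat_lit 76) (nat_lit 1135972705) (nat_lit 152) (nat_lit 45431931315) (nat_lit 6) (nat_lit 5) (nat_lit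 7) (nat_lit 5) (nat_lit 8) (nat_lit 4) (nat_lit 380) (nat_lit 276) (nat_lit 244)))) (XT.nd (nat_lit 78) (nat_lit 0) (nat_lit 0) (XT.lf (nat_lit 0) (nat_lit 8636600619) (nat_lit 152) (nat_lit 38800238630) (nat_lit 0) (nat_lit 3844229805) (nat_lit 6) (nat_lit 5) (nat_lit 8) (nat_lit 4) (nat_lit 6) (nat_lit 4) (nat_lit 381) (nat_lit 276) (nat_lit 243)) (XT.nd (nat_lit 78) (nat_lit 0) (nat_lit 0) (XT.lf (nat_lit 0) (nat_lit 13819602773) (nat_lit 152) (nat_lit 30802288386) (nat_lit 0) (nat_lit 8970225367) (nat_lit 6) (nat_lit 5) (nat_lit 8) (nat_lit 4) (nat_lit 6) (nat_lit 4) (nat_lit 382) (nat_lit 276) (nat_lit 242)) (XT.lf (nat_lit 0) (nat_lit 19194246351) (nat_lit 152) (nat_lit 22537274833) (nat_lit 0) (nat_lit 14290576952) (nat_lit 6) (nat_lit 5) (nat_lit 8) (nat_lit 4) (nat_lit 6) (nat_lit 4) (nat_lit 383) (nat_lit 276) (nat_lit 241))))) (XT.nd (nat_lit 234) (nat_lit 0) (nat_lit 0) (XT.nd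 (nat_lit 78) (nat_lit 76) (nat_lit 0) (XT.lf (nat_lit 0) (nat_lit 24773328123) (nat_lit 152) (nat_lit 13985519366) (nat_lit 0) (nat_lit 19817952066) (nat_lit 6) (nat_lit 5) (nat_lit 8) (nat_lit 4) (nat_lit 6) (nat_lit 4) (nat_lit 384) (nat_lit 276) (nat_lit 240)) (XT.nd (nat_lit 78) (nat_lit 76) (nat_lit 0) (XT.lf (nat_lit 0) (nat_lit 30570131618) (nat_lit 152) (nat_lit 5126660663) (nat_lit 0) (nat_lit 25565511123) (nat_lit 6) (nat_lit 5) (nat_lit 8) (nat_lit 4) (nat_lit 6) (nat_lit 4) (nat_lit 385) (nat_lit 276) (nat_lit 239)) (XT.lf (nat_lit 0) (nat_lit 4194648752) (nat_lit 76) (nat_lit 32469300218) (nat_lit 76) (nat_lit 27417780260) (nat_lit 5) (nat_lit 4) (nat_lit 6) (nat_lit 5) (nat_lit 6) (nat_lit 4) (nat_lit 386) (nat_lit 276) (nat_lit 238)))) (XT.nd (nat_lit 78) (nat_lit 0) (nat_lit 0) (XT.lf (nat_lit 0) (nat_lit 14047113303) (nat_lit 76) (nat_lit 29044864176) (nat_lit 76) (nat_lit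 23948678062) (nat_lit 5) (nat_lit 4) (nat_lit 6) (nat_lit 5) (nat_lit 6) (nat_lit 4) (nat_lit 387) (nat_lit 276) (nat_lit 237)) (XT.nd (nat_lit 78) (nat_lit 0) (nat_lit 0) (XT.lf (nat_lit 0) (nat_lit 24284680684) (nat_lit 76) (nat_lit 25502153215) (nat_lit 76) (nat_lit 20363427904) (nat_lit 5) (nat_lit 4) (nat_lit 6) (nat_lit 5) (nat_lit 6) (nat_lit 4) (nat_lit 388) (nat_lit 276) (nat_lit 236)) (XT.lf (nat_lit 0) (nat_lit 34931726055) (nat_lit 76) (nat_lit 21832732309) (nat_lit 76) (nat_lit 16653493477) (nat_lit 5) (nat_lit 4) (nat_lit 6) (nat_lit 5) (nat_lit 6) (nat_lit 4) (nat_lit 389) (nat_lit 276) (nat_lit 235)))))) (XT.nd (nat_lit 468) (nat_lit 0) (nat_lit 0) (XT.nd (nat_lit 234) (nat_lit 152) (nat_lit 0) (XT.nd (nat_lit 78) (nat_lit 0) (nat_lit 0) (XT.lf (nat_lit 0) (nat_lit 46013599525) (nat_lit 76) (nat_lit 18027864740) (nat_lit 76) (nat_lit 12810041604) (nat_lit 5) (nat_lit 4)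 (nat_lit 6) (nat_lit 5) (nat_lit 6) (nat_lit 4) (nat_lit 390) (nat_lit 276) (nat_lit 234)) (XT.nd (nat_lit 78) (nat_lit 0) (nat_lit 0) (XT.lf (nat_lit 0) (nat_lit 57556686506) (nat_lit 76) (nat_lit 14078491302) (nat_lit 76) (nat_lit 8823921208) (nat_lit 5) (nat_lit 4) (nat_lit 6) (nat_lit 5) (nat_lit 6) (nat_lit 4) (nat_lit 391) (nat_lit 276) (nat_lit 233)) (XT.lf (nat_lit 0) (nat_lit 69588470539) (nat_lit 76) (nat_lit 9975208723) (nat_lit 76) (nat_lit 4685641528) (nat_lit 5) (nat_lit 4) (nat_lit 6) (nat_lit 5) (nat_lit 6) (nat_lit 4) (nat_lit 392) (nat_lit 276) (nat_lit 232)))) (XT.nd (nat_lit 78) (nat_lit 152) (nat_lit 0) (XT.lf (nat_lit 0) (nat_lit 82137598728) (nat_lit 76) (nat_lit 5708247283) (nat_lit 76) (nat_lit 385349514) (nat_lit 5) (nat_lit 4) (nat_lit 6) (nat_lit 5) (nat_lit 6) (nat_lit 4) (nat_lit 393) (nat_lit 276) (nat_lit 231)) (XT.nd (nat_lit 78) (nat_lit 0) (nat_lit 0)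 (XT.lf (nat_lit 0) (nat_lit 2847057130) (nat_lit 76) (nat_lit 1153771309) (nat_lit 152) (nat_lit 88407962287) (nat_lit 3) (nat_lit 5) (nat_lit 4) (nat_lit 5) (nat_lit 5) (nat_lit 4) (nat_lit 394) (nat_lit 276) (nat_lit 230)) (XT.lf (nat_lit 0) (nat_lit 8713609141) (nat_lit 152) (nat_lit 84490173158) (nat_lit 0) (nat_lit 3585158679) (nat_lit 3) (nat_lit 5) (nat_lit 5) (nat_lit 4) (nat_lit 3) (nat_lit 4) (nat_lit 395) (nat_lit 276) (nat_lit 229))))) (XT.nd (nat_lit 234) (nat_lit 0) (nat_lit 0) (XT.nd (nat_lit 78) (nat_lit 0) (nat_lit 0) (XT.lf (nat_lit 0) (nat_lit 13641614017) (nat_lit 152) (nat_lit 79261766254) (nat_lit 0) (nat_lit 8485742410) (nat_lit 3) (nat_lit 5) (nat_lit 5) (nat_lit 4) (nat_lit 3) (nat_lit 4) (nat_lit 396) (nat_lit 276) (nat_lit 228)) (XT.nd (nat_lit 78) (nat_lit 0) (nat_lit 0) (XT.lf (nat_lit 0) (nat_lit 18778562811) (nat_lit 152) (nat_lit 73846050693) (nat_lit 0)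 (nat_lit 13596575828) (nat_lit 3) (nat_lit 5) (nat_lit 5) (nat_lit 4) (nat_lit 3) (nat_lit 4) (nat_lit 397) (nat_lit 276) (nat_lit 227)) (XT.lf (nat_lit 0) (nat_lit 24136686353) (nat_lit 152) (nat_lit 68230131914) (nat_lit 0) (nat_lit 18929827583) (nat_lit 3) (nat_lit 5) (nat_lit 5) (nat_lit 4) (nat_lit 3) (nat_lit 4) (nat_lit 398) (nat_lit 276) (nat_lit 226)))) (XT.nd (nat_lit 156) (nat_lit 0) (nat_lit 0) (XT.nd (nat_lit 78) (nat_lit 0) (nat_lit 0) (XT.lf (nat_lit 0) (nat_lit 29728742079) (nat_lit 152) (nat_lit 62400638683) (nat_lit 0) (nat_lit 24498195893) (nat_lit 3) (nat_lit 5) (nat_lit 5) (nat_lit 4) (nat_lit 3) (nat_lit 4) (nat_lit 399) (nat_lit 276) (nat_lit 225)) (XT.lf (nat_lit 0) (nat_lit 35568044409) (nat_lit 152) (nat_lit 56343691252) (nat_lit 0) (nat_lit 30314938778) (nat_lit 3) (nat_lit 5) (nat_lit 5) (nat_lit 4) (nat_lit 3) (nat_lit 4) (nat_lit 400) (nat_lit 276) (nat_lit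 224))) (XT.nd (nat_lit 78) (nat_lit 0) (nat_lit 0) (XT.lf (nat_lit 0) (nat_lit 41668496443) (nat_lit 152) (nat_lit 50044868320) (nat_lit 0) (nat_lit 36393905627) (nat_lit 3) (nat_lit 5) (nat_lit 5) (nat_lit 4) (nat_lit 3) (nat_lit 4) (nat_lit 401) (nat_lit 276) (nat_lit 223)) (XT.lf (nat_lit 0) (nat_lit 48044623066) (nat_lit 152) (nat_lit 43489172687) (nat_lit 0) (nat_lit 42749570170) (nat_lit 3) (nat_lit 5) (nat_lit 5) (nat_lit 4) (nat_lit 3) (nat_lit 4) (nat_lit 402) (nat_lit 276) (nat_lit 222))))))) (XT.nd (nat_lit 936) (nat_lit 0) (nat_lit 0) (XT.nd (nat_lit 468) (nat_lit 0) (nat_lit 0) (XT.nd (nat_lit 234) (nat_lit 76) (nat_lit 0) (XT.nd (nat_lit 78) (nat_lit 0) (nat_lit 0) (XT.lf (nat_lit 0) (nat_lit 54711605533) (nat_lit 152) (nat_lit 36660995556) (nat_lit 0) (nat_lit 49397064941) (nat_lit 3) (nat_lit 5) (nat_lit 5) (nat_lit 4) (nat_lit 3) (nat_lit 4) (nat_lit 403) (nat_lit 276)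 (nat_lit 221)) (XT.nd (nat_lit 78) (nat_lit 0) (nat_lit 0) (XT.lf (nat_lit 0) (nat_lit 61685317612) (nat_lit 152) (nat_lit 29544079362) (nat_lit 0) (nat_lit 56352217309) (nat_lit 3) (nat_lit 5) (nat_lit 5) (nat_lit 4) (nat_lit 3) (nat_lit 4) (nat_lit 404) (nat_lit 276) (nat_lit 220)) (XT.lf (nat_lit 0) (nat_lit 68982363378) (nat_lit 152) (nat_lit 22121479065) (nat_lit 0) (nat_lit 63631587161) (nat_lit 3) (nat_lit 5) (nat_lit 5) (nat_lit 4) (nat_lit 3) (nat_lit 4) (nat_lit 405) (nat_lit 276) (nat_lit 219)))) (XT.nd (nat_lit 78) (nat_lit 76) (nat_lit 0) (XT.lf (nat_lit 0) (nat_lit 76620116750) (nat_lit 152) (nat_lit 14375521809) (nat_lit 0) (nat_lit 71252506329) (nat_lit 3) (nat_lit 5) (nat_lit 5) (nat_lit 4) (nat_lit 3) (nat_lit 4) (nat_lit 406) (nat_lit 276) (nat_lit 218)) (XT.nd (nat_lit 78) (nat_lit 76) (nat_lit 0) (XT.lf (nat_lit 0) (nat_lit 84616762856) (nat_lit 152) (nat_lit 6287764838)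 (nat_lit 0) (nat_lit 79233119859) (nat_lit 3) (nat_lit 5) (nat_lit 5) (nat_lit 4) (nat_lit 3) (nat_lit 4) (nat_lit 407) (nat_lit 276) (nat_lit 217)) (XT.lf (nat_lit 0) (nat_lit 2232502432) (nat_lit 76) (nat_lit 90793694516) (nat_lit 76) (nat_lit 85394782399) (nat_lit 2) (nat_lit 4) (nat_lit 3) (nat_lit 5) (nat_lit 3) (nat_lit 4) (nat_lit 408) (nat_lit 276) (nat_lit 216))))) (XT.nd (nat_lit 234) (nat_lit 0) (nat_lit 0) (XT.nd (nat_lit 78) (nat_lit 0) (nat_lit 0) (XT.lf (nat_lit 0) (nat_lit 11354447391) (nat_lit 76) (nat_lit 90586618995) (nat_lit 76) (nat_lit 85173164859) (nat_lit 2) (nat_lit 4) (nat_lit 3) (nat_lit 5) (nat_lit 3) (nat_lit 4) (nat_lit 409) (nat_lit 276) (nat_lit 215)) (XT.nd (nat_lit 78) (nat_lit 0) (nat_lit 0) (XT.lf (nat_lit 0) (nat_lit 20891887051) (nat_lit 76) (nat_lit 90389294434) (nat_lit 76) (nat_lit 84961990757) (nat_lit 2) (nat_lit 4) (nat_lit 3) (nat_lit 5) (nat_lit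 3) (nat_lit 4) (nat_lit 410) (nat_lit 276) (nat_lit 214)) (XT.lf (nat_lit 0) (nat_lit 30867529604) (nat_lit 76) (nat_lit 90201251014) (nat_lit 76) (nat_lit 84760757296) (nat_lit 2) (nat_lit 4) (nat_lit 3) (nat_lit 5) (nat_lit 3) (nat_lit 4) (nat_lit 411) (nat_lit 276) (nat_lit 213)))) (XT.nd (nat_lit 78) (nat_lit 0) (nat_lit 0) (XT.lf (nat_lit 0) (nat_lit 41305126578) (nat_lit 76) (nat_lit 90022041011) (nat_lit 76) (nat_lit 84568985351) (nat_lit 2) (nat_lit 4) (nat_lit 3) (nat_lit 5) (nat_lit 3) (nat_lit 4) (nat_lit 412) (nat_lit 276) (nat_lit 212)) (XT.nd (nat_lit 78) (nat_lit 0) (nat_lit 0) (XT.lf (nat_lit 0) (nat_lit 52229529396) (nat_lit 76) (nat_lit 89851237735) (nat_lit 76) (nat_lit 84386218320) (nat_lit 2) (nat_lit 4) (nat_lit 3) (nat_lit 5) (nat_lit 3) (nat_lit 4) (nat_lit 413) (nat_lit 276) (nat_lit 211)) (XT.lf (nat_lit 0) (nat_lit 63666748540) (nat_lit 76) (nat_lit 89688434511)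 (nat_lit 76) (nat_lit 84212021044) (nat_lit 2) (nat_lit 4) (nat_lit 3) (nat_lit 5) (nat_lit 3) (nat_lit 4) (nat_lit 414) (nat_lit 276) (nat_lit 210)))))) (XT.nd (nat_lit 468) (nat_lit 0) (nat_lit 0) (XT.nd (nat_lit 234) (nat_lit 0) (nat_lit 0) (XT.nd (nat_lit 78) (nat_lit 0) (nat_lit 0) (XT.lf (nat_lit 0) (nat_lit 75644015484) (nat_lit 76) (nat_lit 89533243714) (nat_lit 76) (nat_lit 84045978769) (nat_lit 2) (nat_lit 4) (nat_lit 3) (nat_lit 5) (nat_lit 3) (nat_lit 4) (nat_lit 415) (nat_lit 276) (nat_lit 209)) (XT.nd (nat_lit 78) (nat_lit 0) (nat_lit 0) (XT.lf (nat_lit 0) (nat_lit 88189847530) (nat_lit 76) (nat_lit 89385295841) (nat_lit 76) (nat_lit 83887696154) (nat_lit 2) (nat_lit 4) (nat_lit 3) (nat_lit 5) (nat_lit 3) (nat_lit 4) (nat_lit 416) (nat_lit 276) (nat_lit 208)) (XT.lf (nat_lit 0) (nat_lit 101334115708) (nat_lit 76) (nat_lit 89244238634) (nat_lit 76) (nat_lit 83736796337) (nat_lit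 2) (nat_lit 4) (nat_lit 3) (nat_lit 5) (nat_lit 3) (nat_lit 4) (nat_lit 417) (nat_lit 276) (nat_lit 207)))) (XT.nd (nat_lit 78) (nat_lit 0) (nat_lit 0) (XT.lf (nat_lit 0) (nat_lit 115108115894) (nat_lit 76) (nat_lit 89109736245) (nat_lit 76) (nat_lit 83592920033) (nat_lit 2) (nat_lit 4) (nat_lit 3) (nat_lit 5) (nat_lit 3) (nat_lit 4) (nat_lit 418) (nat_lit 276) (nat_lit 206)) (XT.nd (nat_lit 78) (nat_lit 0) (nat_lit 0) (XT.lf (nat_lit 0) (nat_lit 129544643326) (nat_lit 76) (nat_lit 88981468428) (nat_lit 76) (nat_lit 83455724678) (nat_lit 2) (nat_lit 4) (nat_lit 3) (nat_lit 5) (nat_lit 3) (nat_lit 4) (nat_lit 419) (nat_lit 276) (nat_lit 205)) (XT.lf (nat_lit 0) (nat_lit 144678070688) (nat_lit 76) (nat_lit 88859129785) (nat_lit 76) (nat_lit 83324883617) (nat_lit 2) (nat_lit 4) (nat_lit 3) (nat_lit 5) (nat_lit 3) (nat_lit 4) (nat_lit 420) (nat_lit 276) (nat_lit 204))))) (XT.nd (nat_lit 234)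 (nat_lit 0) (nat_lit 0) (XT.nd (nat_lit 78) (nat_lit 0) (nat_lit 0) (XT.lf (nat_lit 0) (nat_lit 160544429951) (nat_lit 76) (nat_lit 88742429032) (nat_lit 76) (nat_lit 83200085325) (nat_lit 2) (nat_lit 4) (nat_lit 3) (nat_lit 5) (nat_lit 3) (nat_lit 4) (nat_lit 421) (nat_lit 276) (nat_lit 203)) (XT.nd (nat_lit 78) (nat_lit 0) (nat_lit 0) (XT.lf (nat_lit 0) (nat_lit 177181498161) (nat_lit 76) (nat_lit 88631088312) (nat_lit 76) (nat_lit 83081032661) (nat_lit 2) (nat_lit 4) (nat_lit 3) (nat_lit 5) (nat_lit 3) (nat_lit 4) (nat_lit 422) (nat_lit 276) (nat_lit 202)) (XT.lf (nat_lit 0) (nat_lit 194628887384) (nat_lit 76) (nat_lit 88524842526) (nat_lit 76) (nat_lit 82967442168) (nat_lit 2) (nat_lit 4) (nat_lit 3) (nat_lit 5) (nat_lit 3) (nat_lit 4) (nat_lit 423) (nat_lit 276) (nat_lit 201)))) (XT.nd (nat_lit 156) (nat_lit 0) (nat_lit 0) (XT.nd (nat_lit 78) (nat_lit 0) (nat_lit 0) (XT.lf (nat_lit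 0) (nat_lit 212928139024) (nat_lit 76) (nat_lit 88423438709) (nat_lit 76) (nat_lit 82859043391) (nat_lit 2) (nat_lit 4) (nat_lit 3) (nat_lit 5) (nat_lit 3) (nat_lit 4) (nat_lit 424) (nat_lit 276) (nat_lit 200)) (XT.lf (nat_lit 0) (nat_lit 232122822727) (nat_lit 76) (nat_lit 88326635424) (nat_lit 76) (nat_lit 82755578239) (nat_lit 2) (nat_lit 4) (nat_lit 3) (nat_lit 5) (nat_lit 3) (nat_lit 4) (nat_lit 425) (nat_lit 276) (nat_lit 199))) (XT.nd (nat_lit 78) (nat_lit 0) (nat_lit 0) (XT.lf (nat_lit 0) (nat_lit 252258640122) (nat_lit 76) (nat_lit 88234202185) (nat_lit 76) (nat_lit 82656800366) (nat_lit 2) (nat_lit 4) (nat_lit 3) (nat_lit 5) (nat_lit 3) (nat_lit 4) (nat_lit 426) (nat_lit 276) (nat_lit 198)) (XT.lf (nat_lit 0) (nat_lit 273383533630) (nat_lit 76) (nat_lit 88145918915) (nat_lit 76) (nat_lit 82562474587) (nat_lit 2) (nat_lit 4) (nat_lit 3) (nat_lit 5) (nat_lit 3) (nat_lit 4) (nat_lit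 427) (nat_lit 276) (nat_lit 197))))))))
noncomputable def xc46 : XT := (XT.nd (nat_lit 41262) (nat_lit 0) (nat_lit 380) (XT.nd (nat_lit 936) (nat_lit 0) (nat_lit 0) (XT.nd (nat_lit 468) (nat_lit 0) (nat_lit 0) (XT.nd (nat_lit 234) (nat_lit 0) (nat_lit 0) (XT.nd (nat_lit 78) (nat_lit 0) (nat_lit 0) (XT.lf (nat_lit 0) (nat_lit 295547800617) (nat_lit 76) (nat_lit 88061575414) (nat_lit 76) (nat_lit 82472376315) (nat_lit 2) (nat_lit 4) (nat_lit 3) (nat_lit 5) (nat_lit 3) (nat_lit 4) (nat_lit 428) (nat_lit 276) (nat_lit 196)) (XT.nd (nat_lit 78) (nat_lit 0) (nat_lit 0) (XT.lf (nat_lit 0) (nat_lit 318804213147) (nat_lit 76) (nat_lit 87980970865) (nat_lit 76) (nat_lit 82386291032) (nat_lit 2) (nat_lit 4) (nat_lit 3) (nat_lit 5) (nat_lit 3) (nat_lit 4) (nat_lit 429) (nat_lit 276) (nat_lit 195)) (XT.lf (nat_lit 0) (nat_lit 343208143631) (nat_lit 76) (nat_lit 87903913352) (nat_lit 76) (nat_lit 82304013773)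 (nat_lit 2) (nat_lit 4) (nat_lit 3) (nat_lit 5) (nat_lit 3) (nat_lit 4) (nat_lit 430) (nat_lit 276) (nat_lit 194)))) (XT.nd (nat_lit 78) (nat_lit 0) (nat_lit 0) (XT.lf (nat_lit 0) (nat_lit 368817696666) (nat_lit 76) (nat_lit 87830219406) (nat_lit 76) (nat_lit 82225348639) (nat_lit 2) (nat_lit 4) (nat_lit 3) (nat_lit 5) (nat_lit 3) (nat_lit 4) (nat_lit 431) (nat_lit 276) (nat_lit 193)) (XT.nd (nat_lit 78) (nat_lit 0) (nat_lit 0) (XT.lf (nat_lit 0) (nat_lit 395693847377) (nat_lit 76) (nat_lit 87759713563) (nat_lit 76) (nat_lit 82150108333) (nat_lit 2) (nat_lit 4) (nat_lit 3) (nat_lit 5) (nat_lit 3) (nat_lit 4) (nat_lit 432) (nat_lit 276) (nat_lit 192)) (XT.lf (nat_lit 0) (nat_lit 423900586601) (nat_lit 76) (nat_lit 87692227954) (nat_lit 76) (nat_lit 82078113710) (nat_lit 2) (nat_lit 4) (nat_lit 3) (nat_lit 5) (nat_lit 3) (nat_lit 4) (nat_lit 433) (nat_lit 276) (nat_lit 191))))) (XT.nd (nat_lit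 234) (nat_lit 0) (nat_lit 0) (XT.nd (nat_lit 78) (nat_lit 0) (nat_lit 0) (XT.lf (nat_lit 0) (nat_lit 453505073239) (nat_lit 76) (nat_lit 87627601898) (nat_lit 76) (nat_lit 82009193356) (nat_lit 2) (nat_lit 4) (nat_lit 3) (nat_lit 5) (nat_lit 3) (nat_lit 4) (nat_lit 434) (nat_lit 276) (nat_lit 190)) (XT.nd (nat_lit 78) (nat_lit 0) (nat_lit 0) (XT.lf (nat_lit 0) (nat_lit 484577794164) (nat_lit 76) (nat_lit 87565681524) (nat_lit 76) (nat_lit 81943183173) (nat_lit 2) (nat_lit 4) (nat_lit 3) (nat_lit 5) (nat_lit 3) (nat_lit 4) (nat_lit 435) (nat_lit 276) (nat_lit 189)) (XT.lf (nat_lit 0) (nat_lit 517192732047) (nat_lit 76) (nat_lit 87506319401) (nat_lit 76) (nat_lit 81879925995) (nat_lit 2) (nat_lit 4) (nat_lit 3) (nat_lit 5) (nat_lit 3) (nat_lit 4) (nat_lit 436) (nat_lit 276) (nat_lit 188)))) (XT.nd (nat_lit 78) (nat_lit 0) (nat_lit 0) (XT.lf (nat_lit 0) (nat_lit 551427541499) (nat_lit 76)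 (nat_lit 87449374193) (nat_lit 76) (nat_lit 81819271210) (nat_lit 2) (nat_lit 4) (nat_lit 3) (nat_lit 5) (nat_lit 3) (nat_lit 4) (nat_lit 437) (nat_lit 276) (nat_lit 187)) (XT.nd (nat_lit 78) (nat_lit 0) (nat_lit 0) (XT.lf (nat_lit 0) (nat_lit 587363733973) (nat_lit 76) (nat_lit 87394710314) (nat_lit 76) (nat_lit 81761074402) (nat_lit 2) (nat_lit 4) (nat_lit 3) (nat_lit 5) (nat_lit 3) (nat_lit 4) (nat_lit 438) (nat_lit 276) (nat_lit 186)) (XT.lf (nat_lit 0) (nat_lit 625086871832) (nat_lit 76) (nat_lit 87342197613) (nat_lit 76) (nat_lit 81705197006) (nat_lit 2) (nat_lit 4) (nat_lit 3) (nat_lit 5) (nat_lit 3) (nat_lit 4) (nat_lit 439) (nat_lit 276) (nat_lit 185)))))) (XT.nd (nat_lit 39858) (nat_lit 0) (nat_lit 1444) (XT.nd (nat_lit 39624) (nat_lit 0) (nat_lit 1824) (XT.nd (nat_lit 78) (nat_lit 0) (nat_lit 0) (XT.lf (nat_lit 0) (nat_lit 664686772071) (nat_lit 76) (nat_lit 87291711060) (nat_lit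 76) (nat_lit 81651505981) (nat_lit 2) (nat_lit 4) (nat_lit 3) (nat_lit 5) (nat_lit 3) (nat_lit 4) (nat_lit 440) (nat_lit 276) (nat_lit 184)) (XT.nd (nat_lit 39468) (nat_lit 0) (nat_lit 2128) (XT.lf (nat_lit 0) (nat_lit 706257720165) (nat_lit 76) (nat_lit 87243130448) (nat_lit 76) (nat_lit 81599873491) (nat_lit 2) (nat_lit 4) (nat_lit 3) (nat_lit 5) (nat_lit 3) (nat_lit 4) (nat_lit 441) (nat_lit 276) (nat_lit 183)) (XT.lf (nat_lit 0) (nat_lit 1272094266) (nat_lit 152) (nat_lit 2825155001) (nat_lit 152) (nat_lit 2825155001) (nat_lit 30) (nat_lit 4) (nat_lit 32) (nat_lit 5) (nat_lit 32) (nat_lit 4) (nat_lit 346) (nat_lit 277) (nat_lit 277)))) (XT.nd (nat_lit 78) (nat_lit 304) (nat_lit 0) (XT.lf (nat_lit 0) (nat_lit 12823778787) (nat_lit 152) (nat_lit 936568070) (nat_lit 152) (nat_lit 494106419) (nat_lit 30) (nat_lit 4) (nat_lit 32) (nat_lit 5) (nat_lit 32) (nat_lit 4) (nat_lit 347) (nat_lit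 277) (nat_lit 276)) (XT.nd (nat_lit 78) (nat_lit 152) (nat_lit 0) (XT.lf (nat_lit 0) (nat_lit 4783970260) (nat_lit 152) (nat_lit 5934487123) (nat_lit 0) (nat_lit 3961252450) (nat_lit 28) (nat_lit 5) (nat_lit 30) (nat_lit 4) (nat_lit 28) (nat_lit 4) (nat_lit 348) (nat_lit 277) (nat_lit 275)) (XT.lf (nat_lit 0) (nat_lit 4136038587) (nat_lit 152) (nat_lit 6099233346) (nat_lit 152) (nat_lit 4894300526) (nat_lit 26) (nat_lit 4) (nat_lit 28) (nat_lit 5) (nat_lit 28) (nat_lit 4) (nat_lit 349) (nat_lit 277) (nat_lit 274))))) (XT.nd (nat_lit 234) (nat_lit 152) (nat_lit 0) (XT.nd (nat_lit 78) (nat_lit 152) (nat_lit 0) (XT.lf (nat_lit 0) (nat_lit 269869680) (nat_lit 228) (nat_lit 1015714270) (nat_lit 76) (nat_lit 14319901227) (nat_lit 25) (nat_lit 5) (nat_lit 28) (nat_lit 5) (nat_lit 26) (nat_lit 4) (nat_lit 350) (nat_lit 277) (nat_lit 273)) (XT.nd (nat_lit 78) (nat_lit 76) (nat_lit 0) (XT.lf (nat_lit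 0) (nat_lit 5564785322) (nat_lit 152) (nat_lit 6794205831) (nat_lit 0) (nat_lit 3740378277) (nat_lit 24) (nat_lit 5) (nat_lit 26) (nat_lit 4) (nat_lit 24) (nat_lit 4) (nat_lit 351) (nat_lit 277) (nat_lit 272)) (XT.lf (nat_lit 0) (nat_lit 3332335471) (nat_lit 76) (nat_lit 7714200455) (nat_lit 76) (nat_lit 5575344175) (nat_lit 23) (nat_lit 4) (nat_lit 24) (nat_lit 5) (nat_lit 24) (nat_lit 4) (nat_lit 352) (nat_lit 277) (nat_lit 271)))) (XT.nd (nat_lit 78) (nat_lit 152) (nat_lit 0) (XT.lf (nat_lit 0) (nat_lit 13892911533) (nat_lit 76) (nat_lit 2859241249) (nat_lit 76) (nat_lit 420909507) (nat_lit 23) (nat_lit 4) (nat_lit 24) (nat_lit 5) (nat_lit 24) (nat_lit 4) (nat_lit 353) (nat_lit 277) (nat_lit 270)) (XT.nd (nat_lit 78) (nat_lit 0) (nat_lit 0) (XT.lf (nat_lit 0) (nat_lit 4817872294) (nat_lit 152) (nat_lit 10706729256) (nat_lit 0) (nat_lit 2224018515) (nat_lit 21) (nat_lit 5) (nat_lit 23)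 (nat_lit 4) (nat_lit 21) (nat_lit 4) (nat_lit 354) (nat_lit 277) (nat_lit 269)) (XT.lf (nat_lit 0) (nat_lit 10248646916) (nat_lit 152) (nat_lit 710689044) (nat_lit 0) (nat_lit 7396094974) (nat_lit 21) (nat_lit 5) (nat_lit 23) (nat_lit 4) (nat_lit 21) (nat_lit 4) (nat_lit 355) (nat_lit 277) (nat_lit 268))))))) (XT.nd (nat_lit 936) (nat_lit 380) (nat_lit 0) (XT.nd (nat_lit 468) (nat_lit 304) (nat_lit 0) (XT.nd (nat_lit 234) (nat_lit 152) (nat_lit 0) (XT.nd (nat_lit 78) (nat_lit 152) (nat_lit 0) (XT.lf (nat_lit 0) (nat_lit 9813787958) (nat_lit 76) (nat_lit 6138835549) (nat_lit 76) (nat_lit 3039904404) (nat_lit 20) (nat_lit 4) (nat_lit 21) (nat_lit 5) (nat_lit 21) (nat_lit 4) (nat_lit 356) (nat_lit 277) (nat_lit 267)) (XT.nd (nat_lit 78) (nat_lit 0) (nat_lit 0) (XT.lf (nat_lit 0) (nat_lit 936572585) (nat_lit 76) (nat_lit 1146427703) (nat_lit 152) (nat_lit 17582942120) (nat_lit 18) (nat_lit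 5) (nat_lit 19) (nat_lit 5) (nat_lit 20) (nat_lit 4) (nat_lit 357) (nat_lit 277) (nat_lit 266)) (XT.lf (nat_lit 0) (nat_lit 7431370993) (nat_lit 152) (nat_lit 8891912476) (nat_lit 0) (nat_lit 4043703176) (nat_lit 18) (nat_lit 5) (nat_lit 20) (nat_lit 4) (nat_lit 18) (nat_lit 4) (nat_lit 358) (nat_lit 277) (nat_lit 265)))) (XT.nd (nat_lit 78) (nat_lit 76) (nat_lit 0) (XT.lf (nat_lit 0) (nat_lit 1183506841) (nat_lit 76) (nat_lit 11757632758) (nat_lit 76) (nat_lit 8167268161) (nat_lit 17) (nat_lit 4) (nat_lit 18) (nat_lit 5) (nat_lit 18) (nat_lit 4) (nat_lit 359) (nat_lit 277) (nat_lit 264)) (XT.nd (nat_lit 78) (nat_lit 76) (nat_lit 0) (XT.lf (nat_lit 0) (nat_lit 11802810811) (nat_lit 76) (nat_lit 6933512229) (nat_lit 76) (nat_lit 3150103080) (nat_lit 17) (nat_lit 4) (nat_lit 18) (nat_lit 5) (nat_lit 18) (nat_lit 4) (nat_lit 360) (nat_lit 277) (nat_lit 263)) (XT.lf (nat_lit 0) (nat_lit 1913952469)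 (nat_lit 152) (nat_lit 43658542) (nat_lit 76) (nat_lit 20750910523) (nat_lit 16) (nat_lit 5) (nat_lit 18) (nat_lit 5) (nat_lit 17) (nat_lit 4) (nat_lit 361) (nat_lit 277) (nat_lit 262))))) (XT.nd (nat_lit 234) (nat_lit 152) (nat_lit 0) (XT.nd (nat_lit 78) (nat_lit 76) (nat_lit 0) (XT.lf (nat_lit 0) (nat_lit 7212851566) (nat_lit 152) (nat_lit 13084183788) (nat_lit 0) (nat_lit 3267748514) (nat_lit 15) (nat_lit 5) (nat_lit 17) (nat_lit 4) (nat_lit 15) (nat_lit 4) (nat_lit 362) (nat_lit 277) (nat_lit 261)) (XT.nd (nat_lit 78) (nat_lit 76) (nat_lit 0) (XT.lf (nat_lit 0) (nat_lit 12680389881) (nat_lit 152) (nat_lit 3211834643) (nat_lit 0) (nat_lit 8576468598) (nat_lit 15) (nat_lit 5) (nat_lit 17) (nat_lit 4) (nat_lit 15) (nat_lit 4) (nat_lit 363) (nat_lit 277) (nat_lit 260)) (XT.lf (nat_lit 0) (nat_lit 7146192313) (nat_lit 76) (nat_lit 11263685632) (nat_lit 76) (nat_lit 7008508889) (nat_lit 14)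 (nat_lit 4) (nat_lit 15) (nat_lit 5) (nat_lit 15) (nat_lit 4) (nat_lit 364) (nat_lit 277) (nat_lit 259)))) (XT.nd (nat_lit 78) (nat_lit 152) (nat_lit 0) (XT.lf (nat_lit 0) (nat_lit 17900782971) (nat_lit 76) (nat_lit 6458673897) (nat_lit 76) (nat_lit 2059444337) (nat_lit 14) (nat_lit 4) (nat_lit 15) (nat_lit 5) (nat_lit 15) (nat_lit 4) (nat_lit 365) (nat_lit 277) (nat_lit 258)) (XT.nd (nat_lit 78) (nat_lit 0) (nat_lit 0) (XT.lf (nat_lit 0) (nat_lit 1496956513) (nat_lit 76) (nat_lit 1446155307) (nat_lit 152) (nat_lit 24528573567) (nat_lit 12) (nat_lit 5) (nat_lit 13) (nat_lit 5) (nat_lit 14) (nat_lit 4) (nat_lit 366) (nat_lit 277) (nat_lit 257)) (XT.lf (nat_lit 0) (nat_lit 8216303480) (nat_lit 152) (nat_lit 16583183162) (nat_lit 0) (nat_lit 3771462650) (nat_lit 12) (nat_lit 5) (nat_lit 14) (nat_lit 4) (nat_lit 12) (nat_lit 4) (nat_lit 367) (nat_lit 277) (nat_lit 256)))))) (XT.nd (nat_lit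 468) (nat_lit 152) (nat_lit 0) (XT.nd (nat_lit 234) (nat_lit 152) (nat_lit 0) (XT.nd (nat_lit 78) (nat_lit 76) (nat_lit 0) (XT.lf (nat_lit 0) (nat_lit 13665911027) (nat_lit 152) (nat_lit 6961083781) (nat_lit 0) (nat_lit 9102557588) (nat_lit 12) (nat_lit 5) (nat_lit 14) (nat_lit 4) (nat_lit 12) (nat_lit 4) (nat_lit 368) (nat_lit 277) (nat_lit 255)) (XT.nd (nat_lit 78) (nat_lit 0) (nat_lit 0) (XT.lf (nat_lit 0) (nat_lit 3034169951) (nat_lit 76) (nat_lit 16295533125) (nat_lit 76) (nat_lit 11619310533) (nat_lit 11) (nat_lit 4) (nat_lit 12) (nat_lit 5) (nat_lit 12) (nat_lit 4) (nat_lit 369) (nat_lit 277) (nat_lit 254)) (XT.lf (nat_lit 0) (nat_lit 13569103946) (nat_lit 76) (nat_lit 11721684161) (nat_lit 76) (nat_lit 6937967139) (nat_lit 11) (nat_lit 4) (nat_lit 12) (nat_lit 5) (nat_lit 12) (nat_lit 4) (nat_lit 370) (nat_lit 277) (nat_lit 253)))) (XT.nd (nat_lit 78) (nat_lit 152) (nat_lit 0) (XT.lf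 (nat_lit 0) (nat_lit 24438636512) (nat_lit 76) (nat_lit 7012447125) (nat_lit 76) (nat_lit 2126354455) (nat_lit 11) (nat_lit 4) (nat_lit 12) (nat_lit 5) (nat_lit 12) (nat_lit 4) (nat_lit 371) (nat_lit 277) (nat_lit 252)) (XT.nd (nat_lit 78) (nat_lit 0) (nat_lit 0) (XT.lf (nat_lit 0) (nat_lit 646943281) (nat_lit 76) (nat_lit 2099659922) (nat_lit 152) (nat_lit 32248958202) (nat_lit 9) (nat_lit 5) (nat_lit 10) (nat_lit 5) (nat_lit 11) (nat_lit 4) (nat_lit 372) (nat_lit 277) (nat_lit 251)) (XT.lf (nat_lit 0) (nat_lit 7901425945) (nat_lit 152) (nat_lit 25509237816) (nat_lit 0) (nat_lit 3066710689) (nat_lit 9) (nat_lit 5) (nat_lit 11) (nat_lit 4) (nat_lit 9) (nat_lit 4) (nat_lit 373) (nat_lit 277) (nat_lit 250))))) (XT.nd (nat_lit 234) (nat_lit 76) (nat_lit 0) (XT.nd (nat_lit 78) (nat_lit 76) (nat_lit 0) (XT.lf (nat_lit 0) (nat_lit 13257566183) (nat_lit 152) (nat_lit 16439916738) (nat_lit 0) (nat_lit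 8338626229) (nat_lit 9) (nat_lit 5) (nat_lit 11) (nat_lit 4) (nat_lit 9) (nat_lit 4) (nat_lit 374) (nat_lit 277) (nat_lit 249)) (XT.nd (nat_lit 78) (nat_lit 76) (nat_lit 0) (XT.lf (nat_lit 0) (nat_lit 18794995058) (nat_lit 152) (nat_lit 7086279692) (nat_lit 0) (nat_lit 13795841105) (nat_lit 9) (nat_lit 5) (nat_lit 11) (nat_lit 4) (nat_lit 9) (nat_lit 4) (nat_lit 375) (nat_lit 277) (nat_lit 248)) (XT.lf (nat_lit 0) (nat_lit 2659050094) (nat_lit 76) (nat_lit 21909362055) (nat_lit 76) (nat_lit 16833813817) (nat_lit 8) (nat_lit 4) (nat_lit 9) (nat_lit 5) (nat_lit 9) (nat_lit 4) (nat_lit 376) (nat_lit 277) (nat_lit 247)))) (XT.nd (nat_lit 156) (nat_lit 76) (nat_lit 0) (XT.nd (nat_lit 78) (nat_lit 0) (nat_lit 0) (XT.lf (nat_lit 0) (nat_lit 12979168990) (nat_lit 76) (nat_lit 17690391380) (nat_lit 76) (nat_lit 12542086680) (nat_lit 8) (nat_lit 4) (nat_lit 9) (nat_lit 5) (nat_lit 9) (nat_lit 4)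 (nat_lit 377) (nat_lit 277) (nat_lit 246)) (XT.lf (nat_lit 0) (nat_lit 23664344299) (nat_lit 76) (nat_lit 13334327133) (nat_lit 76) (nat_lit 8116730565) (nat_lit 8) (nat_lit 4) (nat_lit 9) (nat_lit 5) (nat_lit 9) (nat_lit 4) (nat_lit 378) (nat_lit 277) (nat_lit 245))) (XT.nd (nat_lit 78) (nat_lit 76) (nat_lit 0) (XT.lf (nat_lit 0) (nat_lit 34740016914) (nat_lit 76) (nat_lit 8830797733) (nat_lit 76) (nat_lit 3547208910) (nat_lit 8) (nat_lit 4) (nat_lit 9) (nat_lit 5) (nat_lit 9) (nat_lit 4) (nat_lit 379) (nat_lit 277) (nat_lit 244)) (XT.lf (nat_lit 0) (nat_lit 1139675287) (nat_lit 152) (nat_lit 3010104250) (nat_lit 76) (nat_lit 45073581243) (nat_lit 7) (nat_lit 5) (nat_lit 9) (nat_lit 5) (nat_lit 8) (nat_lit 4) (nat_lit 380) (nat_lit 277) (nat_lit 243))))))))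
noncomputable def xc47 : XT := (XT.nd (nat_lit 1950) (nat_lit 76) (nat_lit 0) (XT.nd (nat_lit 936) (nat_lit 152) (nat_lit 0) (XT.nd (nat_lit 468) (nat_lit 76) (nat_lit 0) (XT.nd (nat_lit 234) (nat_lit 0) (nat_lit 0) (XT.nd (nat_lit 78) (nat_lit 0) (nat_lit 0) (XT.lf (nat_lit 0) (nat_lit 5994663220) (nat_lit 152) (nat_lit 44587941943) (nat_lit 0) (nat_lit 845810352) (nat_lit 6) (nat_lit 5) (nat_lit 8) (nat_lit 4) (nat_lit 6) (nat_lit 4) (nat_lit 381) (nat_lit 277) (nat_lit 242)) (XT.nd (nat_lit 78) (nat_lit 0) (nat_lit 0) (XT.lf (nat_lit 0) (nat_lit 11144734309) (nat_lit 152) (nat_lit 36654788871) (nat_lit 0) (nat_lit 5941589448) (nat_lit 6) (nat_lit 5) (nat_lit 8) (nat_lit 4) (nat_lit 6) (nat_lit 4) (nat_lit 382) (nat_lit 277) (nat_lit 241)) (XT.lf (nat_lit 0) (nat_lit 16488014967) (nat_lit 152) (nat_lit 28451486910) (nat_lit 0) (nat_lit 11233163448) (nat_lit 6) (nat_lit 5) (nat_lit 8)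 (nat_lit 4) (nat_lit 6) (nat_lit 4) (nat_lit 383) (nat_lit 277) (nat_lit 240)))) (XT.nd (nat_lit 78) (nat_lit 0) (nat_lit 0) (XT.lf (nat_lit 0) (nat_lit 22037227292) (nat_lit 152) (nat_lit 19958504388) (nat_lit 0) (nat_lit 16733131336) (nat_lit 6) (nat_lit 5) (nat_lit 8) (nat_lit 4) (nat_lit 6) (nat_lit 4) (nat_lit 384) (nat_lit 277) (nat_lit 239)) (XT.nd (nat_lit 78) (nat_lit 0) (nat_lit 0) (XT.lf (nat_lit 0) (nat_lit 27805583695) (nat_lit 152) (nat_lit 11155619918) (nat_lit 0) (nat_lit 22454588275) (nat_lit 6) (nat_lit 5) (nat_lit 8) (nat_lit 4) (nat_lit 6) (nat_lit 4) (nat_lit 385) (nat_lit 277) (nat_lit 238)) (XT.lf (nat_lit 0) (nat_lit 33806818357) (nat_lit 152) (nat_lit 2021874252) (nat_lit 0) (nat_lit 28411156780) (nat_lit 6) (nat_lit 5) (nat_lit 8) (nat_lit 4) (nat_lit 6) (nat_lit 4) (nat_lit 386) (nat_lit 277) (nat_lit 237))))) (XT.nd (nat_lit 234) (nat_lit 0) (nat_lit 0) (XT.nd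 (nat_lit 78) (nat_lit 0) (nat_lit 0) (XT.lf (nat_lit 0) (nat_lit 7711289029) (nat_lit 76) (nat_lit 32464325734) (nat_lit 76) (nat_lit 27026124961) (nat_lit 5) (nat_lit 4) (nat_lit 6) (nat_lit 5) (nat_lit 6) (nat_lit 4) (nat_lit 387) (nat_lit 277) (nat_lit 236)) (XT.nd (nat_lit 78) (nat_lit 0) (nat_lit 0) (XT.lf (nat_lit 0) (nat_lit 17898905006) (nat_lit 76) (nat_lit 28946212628) (nat_lit 76) (nat_lit 23467498335) (nat_lit 5) (nat_lit 4) (nat_lit 6) (nat_lit 5) (nat_lit 6) (nat_lit 4) (nat_lit 388) (nat_lit 277) (nat_lit 235)) (XT.lf (nat_lit 0) (nat_lit 28498377611) (nat_lit 76) (nat_lit 25300218250) (nat_lit 76) (nat_lit 19782919652) (nat_lit 5) (nat_lit 4) (nat_lit 6) (nat_lit 5) (nat_lit 6) (nat_lit 4) (nat_lit 389) (nat_lit 277) (nat_lit 234)))) (XT.nd (nat_lit 78) (nat_lit 0) (nat_lit 0) (XT.lf (nat_lit 0) (nat_lit 39534943685) (nat_lit 76) (nat_lit 21517661661) (nat_lit 76) (nat_lit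 15963616106) (nat_lit 5) (nat_lit 4) (nat_lit 6) (nat_lit 5) (nat_lit 6) (nat_lit 4) (nat_lit 390) (nat_lit 277) (nat_lit 233)) (XT.nd (nat_lit 78) (nat_lit 0) (nat_lit 0) (XT.lf (nat_lit 0) (nat_lit 51034880765) (nat_lit 76) (nat_lit 17589536775) (nat_lit 76) (nat_lit 12000494118) (nat_lit 5) (nat_lit 4) (nat_lit 6) (nat_lit 5) (nat_lit 6) (nat_lit 4) (nat_lit 391) (nat_lit 277) (nat_lit 232)) (XT.lf (nat_lit 0) (nat_lit 63025569654) (nat_lit 76) (nat_lit 13506490912) (nat_lit 76) (nat_lit 7884117681) (nat_lit 5) (nat_lit 4) (nat_lit 6) (nat_lit 5) (nat_lit 6) (nat_lit 4) (nat_lit 392) (nat_lit 277) (nat_lit 231)))))) (XT.nd (nat_lit 468) (nat_lit 0) (nat_lit 0) (XT.nd (nat_lit 234) (nat_lit 0) (nat_lit 0) (XT.nd (nat_lit 78) (nat_lit 152) (nat_lit 0) (XT.lf (nat_lit 0) (nat_lit 75535559611) (nat_lit 76) (nat_lit 9258802536) (nat_lit 76) (nat_lit 3604685902) (nat_lit 5) (nat_lit 4) (nat_lit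 6) (nat_lit 5) (nat_lit 6) (nat_lit 4) (nat_lit 393) (nat_lit 277) (nat_lit 230)) (XT.nd (nat_lit 78) (nat_lit 76) (nat_lit 0) (XT.lf (nat_lit 0) (nat_lit 820849358) (nat_lit 152) (nat_lit 4001607262) (nat_lit 76) (nat_lit 87759885488) (nat_lit 4) (nat_lit 5) (nat_lit 6) (nat_lit 5) (nat_lit 5) (nat_lit 4) (nat_lit 394) (nat_lit 277) (nat_lit 229)) (XT.lf (nat_lit 0) (nat_lit 5341208091) (nat_lit 76) (nat_lit 51157147) (nat_lit 152) (nat_lit 91577191921) (nat_lit 3) (nat_lit 5) (nat_lit 4) (nat_lit 5) (nat_lit 5) (nat_lit 4) (nat_lit 395) (nat_lit 277) (nat_lit 228)))) (XT.nd (nat_lit 78) (nat_lit 0) (nat_lit 0) (XT.lf (nat_lit 0) (nat_lit 10301300030) (nat_lit 152) (nat_lit 86435295502) (nat_lit 0) (nat_lit 4834098321) (nat_lit 3) (nat_lit 5) (nat_lit 5) (nat_lit 4) (nat_lit 3) (nat_lit 4) (nat_lit 396) (nat_lit 277) (nat_lit 227)) (XT.nd (nat_lit 78) (nat_lit 0) (nat_lit 0) (XT.lf (nat_lit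 0) (nat_lit 15420847511) (nat_lit 152) (nat_lit 81054010458) (nat_lit 0) (nat_lit 9928774015) (nat_lit 3) (nat_lit 5) (nat_lit 5) (nat_lit 4) (nat_lit 3) (nat_lit 4) (nat_lit 397) (nat_lit 277) (nat_lit 226)) (XT.lf (nat_lit 0) (nat_lit 20762398373) (nat_lit 152) (nat_lit 75470882648) (nat_lit 0) (nat_lit 15246637461) (nat_lit 3) (nat_lit 5) (nat_lit 5) (nat_lit 4) (nat_lit 3) (nat_lit 4) (nat_lit 398) (nat_lit 277) (nat_lit 225))))) (XT.nd (nat_lit 234) (nat_lit 0) (nat_lit 0) (XT.nd (nat_lit 78) (nat_lit 0) (nat_lit 0) (XT.lf (nat_lit 0) (nat_lit 26338670596) (nat_lit 152) (nat_lit 69672618910) (nat_lit 0) (nat_lit 20800350240) (nat_lit 3) (nat_lit 5) (nat_lit 5) (nat_lit 4) (nat_lit 3) (nat_lit 4) (nat_lit 399) (nat_lit 277) (nat_lit 224)) (XT.nd (nat_lit 78) (nat_lit 0) (nat_lit 0) (XT.lf (nat_lit 0) (nat_lit 32162941017) (nat_lit 152) (nat_lit 63645413855) (nat_lit 0) (nat_lit 26603135476)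 (nat_lit 3) (nat_lit 5) (nat_lit 5) (nat_lit 4) (nat_lit 3) (nat_lit 4) (nat_lit 400) (nat_lit 277) (nat_lit 223)) (XT.lf (nat_lit 0) (nat_lit 38249076947) (nat_lit 152) (nat_lit 57374916994) (nat_lit 0) (nat_lit 32668809326) (nat_lit 3) (nat_lit 5) (nat_lit 5) (nat_lit 4) (nat_lit 3) (nat_lit 4) (nat_lit 401) (nat_lit 277) (nat_lit 222)))) (XT.nd (nat_lit 156) (nat_lit 0) (nat_lit 0) (XT.nd (nat_lit 78) (nat_lit 0) (nat_lit 0) (XT.lf (nat_lit 0) (nat_lit 44611569187) (nat_lit 152) (nat_lit 50846198573) (nat_lit 0) (nat_lit 39011813869) (nat_lit 3) (nat_lit 5) (nat_lit 5) (nat_lit 4) (nat_lit 3) (nat_lit 4) (nat_lit 402) (nat_lit 277) (nat_lit 221)) (XT.lf (nat_lit 0) (nat_lit 51265566526) (nat_lit 152) (nat_lit 44043714024) (nat_lit 0) (nat_lit 45647251498) (nat_lit 3) (nat_lit 5) (nat_lit 5) (nat_lit 4) (nat_lit 3) (nat_lit 4) (nat_lit 403) (nat_lit 277) (nat_lit 220))) (XT.nd (nat_lit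 78) (nat_lit 0) (nat_lit 0) (XT.lf (nat_lit 0) (nat_lit 58226911816) (nat_lit 152) (nat_lit 36951266955) (nat_lit 0) (nat_lit 52590920873) (nat_lit 3) (nat_lit 5) (nat_lit 5) (nat_lit 4) (nat_lit 3) (nat_lit 4) (nat_lit 404) (nat_lit 277) (nat_lit 219)) (XT.lf (nat_lit 0) (nat_lit 65512179689) (nat_lit 152) (nat_lit 29551970588) (nat_lit 0) (nat_lit 59859354541) (nat_lit 3) (nat_lit 5) (nat_lit 5) (nat_lit 4) (nat_lit 3) (nat_lit 4) (nat_lit 405) (nat_lit 277) (nat_lit 218))))))) (XT.nd (nat_lit 936) (nat_lit 0) (nat_lit 0) (XT.nd (nat_lit 468) (nat_lit 0) (nat_lit 0) (XT.nd (nat_lit 234) (nat_lit 76) (nat_lit 0) (XT.nd (nat_lit 78) (nat_lit 0) (nat_lit 0) (XT.lf (nat_lit 0) (nat_lit 73138716019) (nat_lit 152) (nat_lit 21828207550) (nat_lit 0) (nat_lit 67469858296) (nat_lit 3) (nat_lit 5) (nat_lit 5) (nat_lit 4) (nat_lit 3) (nat_lit 4) (nat_lit 406) (nat_lit 277) (nat_lit 217)) (XT.nd (nat_lit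 78) (nat_lit 0) (nat_lit 0) (XT.lf (nat_lit 0) (nat_lit 81124679229) (nat_lit 152) (nat_lit 13761587930) (nat_lit 0) (nat_lit 75440552386) (nat_lit 3) (nat_lit 5) (nat_lit 5) (nat_lit 4) (nat_lit 3) (nat_lit 4) (nat_lit 407) (nat_lit 277) (nat_lit 216)) (XT.lf (nat_lit 0) (nat_lit 89489083514) (nat_lit 152) (nat_lit 5332905489) (nat_lit 0) (nat_lit 83790414652) (nat_lit 3) (nat_lit 5) (nat_lit 5) (nat_lit 4) (nat_lit 3) (nat_lit 4) (nat_lit 408) (nat_lit 277) (nat_lit 215)))) (XT.nd (nat_lit 78) (nat_lit 0) (nat_lit 0) (XT.lf (nat_lit 0) (nat_lit 3592903409) (nat_lit 76) (nat_lit 94715036006) (nat_lit 76) (nat_lit 89002517603) (nat_lit 2) (nat_lit 4) (nat_lit 3) (nat_lit 5) (nat_lit 3) (nat_lit 4) (nat_lit 409) (nat_lit 277) (nat_lit 214)) (XT.nd (nat_lit 78) (nat_lit 0) (nat_lit 0) (XT.lf (nat_lit 0) (nat_lit 13111480098) (nat_lit 76) (nat_lit 94527051625) (nat_lit 76) (nat_lit 88801343182)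 (nat_lit 2) (nat_lit 4) (nat_lit 3) (nat_lit 5) (nat_lit 3) (nat_lit 4) (nat_lit 410) (nat_lit 277) (nat_lit 213)) (XT.lf (nat_lit 0) (nat_lit 23069157916) (nat_lit 76) (nat_lit 94347903614) (nat_lit 76) (nat_lit 88609633228) (nat_lit 2) (nat_lit 4) (nat_lit 3) (nat_lit 5) (nat_lit 3) (nat_lit 4) (nat_lit 411) (nat_lit 277) (nat_lit 212))))) (XT.nd (nat_lit 234) (nat_lit 0) (nat_lit 0) (XT.nd (nat_lit 78) (nat_lit 0) (nat_lit 0) (XT.lf (nat_lit 0) (nat_lit 33489645620) (nat_lit 76) (nat_lit 94177165429) (nat_lit 76) (nat_lit 88426931288) (nat_lit 2) (nat_lit 4) (nat_lit 3) (nat_lit 5) (nat_lit 3) (nat_lit 4) (nat_lit 412) (nat_lit 277) (nat_lit 211)) (XT.nd (nat_lit 78) (nat_lit 0) (nat_lit 0) (XT.lf (nat_lit 0) (nat_lit 44397753894) (nat_lit 76) (nat_lit 94014430551) (nat_lit 76) (nat_lit 88252802358) (nat_lit 2) (nat_lit 4) (nat_lit 3) (nat_lit 5) (nat_lit 3) (nat_lit 4) (nat_lit 413)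 (nat_lit 277) (nat_lit 210)) (XT.lf (nat_lit 0) (nat_lit 55819454424) (nat_lit 76) (nat_lit 93859311516) (nat_lit 76) (nat_lit 88086831846) (nat_lit 2) (nat_lit 4) (nat_lit 3) (nat_lit 5) (nat_lit 3) (nat_lit 4) (nat_lit 414) (nat_lit 277) (nat_lit 209)))) (XT.nd (nat_lit 78) (nat_lit 0) (nat_lit 0) (XT.lf (nat_lit 0) (nat_lit 67781941737) (nat_lit 76) (nat_lit 93711438994) (nat_lit 76) (nat_lit 87928624582) (nat_lit 2) (nat_lit 4) (nat_lit 3) (nat_lit 5) (nat_lit 3) (nat_lit 4) (nat_lit 415) (nat_lit 277) (nat_lit 208)) (XT.nd (nat_lit 78) (nat_lit 0) (nat_lit 0) (XT.lf (nat_lit 0) (nat_lit 80313697944) (nat_lit 76) (nat_lit 93570460907) (nat_lit 76) (nat_lit 87777803884) (nat_lit 2) (nat_lit 4) (nat_lit 3) (nat_lit 5) (nat_lit 3) (nat_lit 4) (nat_lit 416) (nat_lit 277) (nat_lit 207)) (XT.lf (nat_lit 0) (nat_lit 93444560560) (nat_lit 76) (nat_lit 93436041592) (nat_lit 76) (nat_lit 87634010654)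 (nat_lit 2) (nat_lit 4) (nat_lit 3) (nat_lit 5) (nat_lit 3) (nat_lit 4) (nat_lit 417) (nat_lit 277) (nat_lit 206)))))) (XT.nd (nat_lit 468) (nat_lit 0) (nat_lit 0) (XT.nd (nat_lit 234) (nat_lit 0) (nat_lit 0) (XT.nd (nat_lit 78) (nat_lit 0) (nat_lit 0) (XT.lf (nat_lit 0) (nat_lit 107205793544) (nat_lit 76) (nat_lit 93307861003) (nat_lit 76) (nat_lit 87496902527) (nat_lit 2) (nat_lit 4) (nat_lit 3) (nat_lit 5) (nat_lit 3) (nat_lit 4) (nat_lit 418) (nat_lit 277) (nat_lit 205)) (XT.nd (nat_lit 78) (nat_lit 0) (nat_lit 0) (XT.lf (nat_lit 0) (nat_lit 121630161736) (nat_lit 76) (nat_lit 93185613949) (nat_lit 76) (nat_lit 87366153056) (nat_lit 2) (nat_lit 4) (nat_lit 3) (nat_lit 5) (nat_lit 3) (nat_lit 4) (nat_lit 419) (nat_lit 277) (nat_lit 204)) (XT.lf (nat_lit 0) (nat_lit 136752008871) (nat_lit 76) (nat_lit 93069009366) (nat_lit 76) (nat_lit 87241450933) (nat_lit 2) (nat_lit 4) (nat_lit 3)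 (nat_lit 5) (nat_lit 3) (nat_lit 4) (nat_lit 420) (nat_lit 277) (nat_lit 203)))) (XT.nd (nat_lit 78) (nat_lit 0) (nat_lit 0) (XT.lf (nat_lit 0) (nat_lit 152607339346) (nat_lit 76) (nat_lit 92957769623) (nat_lit 76) (nat_lit 87122499247) (nat_lit 2) (nat_lit 4) (nat_lit 3) (nat_lit 5) (nat_lit 3) (nat_lit 4) (nat_lit 421) (nat_lit 277) (nat_lit 202)) (XT.nd (nat_lit 78) (nat_lit 0) (nat_lit 0) (XT.lf (nat_lit 0) (nat_lit 169233903947) (nat_lit 76) (nat_lit 92851629864) (nat_lit 76) (nat_lit 87009014780) (nat_lit 2) (nat_lit 4) (nat_lit 3) (nat_lit 5) (nat_lit 3) (nat_lit 4) (nat_lit 422) (nat_lit 277) (nat_lit 201)) (XT.lf (nat_lit 0) (nat_lit 186671289734) (nat_lit 76) (nat_lit 92750337375) (nat_lit 76) (nat_lit 86900727331) (nat_lit 2) (nat_lit 4) (nat_lit 3) (nat_lit 5) (nat_lit 3) (nat_lit 4) (nat_lit 423) (nat_lit 277) (nat_lit 200))))) (XT.nd (nat_lit 234) (nat_lit 0) (nat_lit 0) (XT.nd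 (nat_lit 78) (nat_lit 0) (nat_lit 0) (XT.lf (nat_lit 0) (nat_lit 204961014291) (nat_lit 76) (nat_lit 92653650984) (nat_lit 76) (nat_lit 86797379074) (nat_lit 2) (nat_lit 4) (nat_lit 3) (nat_lit 5) (nat_lit 3) (nat_lit 4) (nat_lit 424) (nat_lit 277) (nat_lit 199)) (XT.nd (nat_lit 78) (nat_lit 0) (nat_lit 0) (XT.lf (nat_lit 0) (nat_lit 224146624583) (nat_lit 76) (nat_lit 92561340484) (nat_lit 76) (nat_lit 86698723939) (nat_lit 2) (nat_lit 4) (nat_lit 3) (nat_lit 5) (nat_lit 3) (nat_lit 4) (nat_lit 425) (nat_lit 277) (nat_lit 198)) (XT.lf (nat_lit 0) (nat_lit 244273800633) (nat_lit 76) (nat_lit 92473186089) (nat_lit 76) (nat_lit 86604527036) (nat_lit 2) (nat_lit 4) (nat_lit 3) (nat_lit 5) (nat_lit 3) (nat_lit 4) (nat_lit 426) (nat_lit 277) (nat_lit 197)))) (XT.nd (nat_lit 156) (nat_lit 0) (nat_lit 0) (XT.nd (nat_lit 78) (nat_lit 0) (nat_lit 0) (XT.lf (nat_lit 0) (nat_lit 265390464289) (nat_lit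 76) (nat_lit 92388977908) (nat_lit 76) (nat_lit 86514564084) (nat_lit 2) (nat_lit 4) (nat_lit 3) (nat_lit 5) (nat_lit 3) (nat_lit 4) (nat_lit 427) (nat_lit 277) (nat_lit 196)) (XT.lf (nat_lit 0) (nat_lit 287546893322) (nat_lit 76) (nat_lit 92308515445) (nat_lit 76) (nat_lit 86428620887) (nat_lit 2) (nat_lit 4) (nat_lit 3) (nat_lit 5) (nat_lit 3) (nat_lit 4) (nat_lit 428) (nat_lit 277) (nat_lit 195))) (XT.nd (nat_lit 78) (nat_lit 0) (nat_lit 0) (XT.lf (nat_lit 0) (nat_lit 310795841134) (nat_lit 76) (nat_lit 92231607122) (nat_lit 76) (nat_lit 86346492817) (nat_lit 2) (nat_lit 4) (nat_lit 3) (nat_lit 5) (nat_lit 3) (nat_lit 4) (nat_lit 429) (nat_lit 277) (nat_lit 194)) (XT.lf (nat_lit 0) (nat_lit 335192662362) (nat_lit 76) (nat_lit 92158069825) (nat_lit 76) (nat_lit 86267984333) (nat_lit 2) (nat_lit 4) (nat_lit 3) (nat_lit 5) (nat_lit 3) (nat_lit 4) (nat_lit 430) (nat_lit 277) (nat_lit 193))))))))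
noncomputable def xc48 : XT := (XT.nd (nat_lit 41106) (nat_lit 0) (nat_lit 304) (XT.nd (nat_lit 40170) (nat_lit 0) (nat_lit 1368) (XT.nd (nat_lit 468) (nat_lit 0) (nat_lit 0) (XT.nd (nat_lit 234) (nat_lit 0) (nat_lit 0) (XT.nd (nat_lit 78) (nat_lit 0) (nat_lit 0) (XT.lf (nat_lit 0) (nat_lit 360795444678) (nat_lit 76) (nat_lit 92087728465) (nat_lit 76) (nat_lit 86192908508) (nat_lit 2) (nat_lit 4) (nat_lit 3) (nat_lit 5) (nat_lit 3) (nat_lit 4) (nat_lit 431) (nat_lit 277) (nat_lit 192)) (XT.nd (nat_lit 78) (nat_lit 0) (nat_lit 0) (XT.lf (nat_lit 0) (nat_lit 387665147085) (nat_lit 76) (nat_lit 92020415561) (nat_lit 76) (nat_lit 86121086592) (nat_lit 2) (nat_lit 4) (nat_lit 3) (nat_lit 5) (nat_lit 3) (nat_lit 4) (nat_lit 432) (nat_lit 277) (nat_lit 191)) (XT.lf (nat_lit 0) (nat_lit 415865745066) (nat_lit 76) (nat_lit 91955970847) (nat_lit 76) (nat_lit 86052347579) (nat_lit 2) (nat_lit 4) (nat_lit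 3) (nat_lit 5) (nat_lit 3) (nat_lit 4) (nat_lit 433) (nat_lit 277) (nat_lit 190)))) (XT.nd (nat_lit 78) (nat_lit 0) (nat_lit 0) (XT.lf (nat_lit 0) (nat_lit 445464382902) (nat_lit 76) (nat_lit 91894240881) (nat_lit 76) (nat_lit 85986527804) (nat_lit 2) (nat_lit 4) (nat_lit 3) (nat_lit 5) (nat_lit 3) (nat_lit 4) (nat_lit 434) (nat_lit 277) (nat_lit 189)) (XT.nd (nat_lit 78) (nat_lit 0) (nat_lit 0) (XT.lf (nat_lit 0) (nat_lit 476531533540) (nat_lit 76) (nat_lit 91835078687) (nat_lit 76) (nat_lit 85923470556) (nat_lit 2) (nat_lit 4) (nat_lit 3) (nat_lit 5) (nat_lit 3) (nat_lit 4) (nat_lit 435) (nat_lit 277) (nat_lit 188)) (XT.lf (nat_lit 0) (nat_lit 509141166386) (nat_lit 76) (nat_lit 91778343404) (nat_lit 76) (nat_lit 85863025696) (nat_lit 2) (nat_lit 4) (nat_lit 3) (nat_lit 5) (nat_lit 3) (nat_lit 4) (nat_lit 436) (nat_lit 277) (nat_lit 187))))) (XT.nd (nat_lit 234) (nat_lit 0) (nat_lit 0)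 (XT.nd (nat_lit 78) (nat_lit 0) (nat_lit 0) (XT.lf (nat_lit 0) (nat_lit 543370923424) (nat_lit 76) (nat_lit 91723899946) (nat_lit 76) (nat_lit 85805049309) (nat_lit 2) (nat_lit 4) (nat_lit 3) (nat_lit 5) (nat_lit 3) (nat_lit 4) (nat_lit 437) (nat_lit 277) (nat_lit 186)) (XT.nd (nat_lit 78) (nat_lit 0) (nat_lit 0) (XT.lf (nat_lit 0) (nat_lit 579302304074) (nat_lit 76) (nat_lit 91671618688) (nat_lit 76) (nat_lit 85749403355) (nat_lit 2) (nat_lit 4) (nat_lit 3) (nat_lit 5) (nat_lit 3) (nat_lit 4) (nat_lit 438) (nat_lit 277) (nat_lit 185)) (XT.lf (nat_lit 0) (nat_lit 617020859243) (nat_lit 76) (nat_lit 91621375149) (nat_lit 76) (nat_lit 85695955345) (nat_lit 2) (nat_lit 4) (nat_lit 3) (nat_lit 5) (nat_lit 3) (nat_lit 4) (nat_lit 439) (nat_lit 277) (nat_lit 184)))) (XT.nd (nat_lit 78) (nat_lit 0) (nat_lit 0) (XT.lf (nat_lit 0) (nat_lit 656616395016) (nat_lit 76) (nat_lit 91573049703) (nat_lit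 76) (nat_lit 85644578021) (nat_lit 2) (nat_lit 4) (nat_lit 3) (nat_lit 5) (nat_lit 3) (nat_lit 4) (nat_lit 440) (nat_lit 277) (nat_lit 183)) (XT.nd (nat_lit 39312) (nat_lit 0) (nat_lit 2432) (XT.lf (nat_lit 0) (nat_lit 698183186476) (nat_lit 76) (nat_lit 91526527288) (nat_lit 76) (nat_lit 85595149056) (nat_lit 2) (nat_lit 4) (nat_lit 3) (nat_lit 5) (nat_lit 3) (nat_lit 4) (nat_lit 441) (nat_lit 277) (nat_lit 182)) (XT.lf (nat_lit 0) (nat_lit 4717418682) (nat_lit 152) (nat_lit 912703258) (nat_lit 152) (nat_lit 912703258) (nat_lit 34) (nat_lit 4) (nat_lit 36) (nat_lit 5) (nat_lit 36) (nat_lit 4) (nat_lit 344) (nat_lit 278) (nat_lit 278)))))) (XT.nd (nat_lit 468) (nat_lit 380) (nat_lit 0) (XT.nd (nat_lit 234) (nat_lit 380) (nat_lit 0) (XT.nd (nat_lit 78) (nat_lit 152) (nat_lit 0) (XT.lf (nat_lit 0) (nat_lit 3299399317) (nat_lit 152) (nat_lit 7323449729) (nat_lit 0) (nat_lit 2834814583) (nat_lit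 32) (nat_lit 5) (nat_lit 34) (nat_lit 4) (nat_lit 32) (nat_lit 4) (nat_lit 345) (nat_lit 278) (nat_lit 277)) (XT.nd (nat_lit 78) (nat_lit 0) (nat_lit 0) (XT.lf (nat_lit 0) (nat_lit 2380440455) (nat_lit 152) (nat_lit 6187986232) (nat_lit 152) (nat_lit 5280939847) (nat_lit 30) (nat_lit 4) (nat_lit 32) (nat_lit 5) (nat_lit 32) (nat_lit 4) (nat_lit 346) (nat_lit 278) (nat_lit 276)) (XT.lf (nat_lit 0) (nat_lit 12504080159) (nat_lit 152) (nat_lit 1543855247) (nat_lit 152) (nat_lit 215416813) (nat_lit 30) (nat_lit 4) (nat_lit 32) (nat_lit 5) (nat_lit 32) (nat_lit 4) (nat_lit 347) (nat_lit 278) (nat_lit 275)))) (XT.nd (nat_lit 78) (nat_lit 228) (nat_lit 0) (XT.lf (nat_lit 0) (nat_lit 4951735798) (nat_lit 152) (nat_lit 6437436047) (nat_lit 0) (nat_lit 3304341327) (nat_lit 28) (nat_lit 5) (nat_lit 30) (nat_lit 4) (nat_lit 28) (nat_lit 4) (nat_lit 348) (nat_lit 278) (nat_lit 274)) (XT.nd (nat_lit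 78) (nat_lit 76) (nat_lit 0) (XT.lf (nat_lit 0) (nat_lit 3459493415) (nat_lit 152) (nat_lit 6849994662) (nat_lit 152) (nat_lit 4838585894) (nat_lit 26) (nat_lit 4) (nat_lit 28) (nat_lit 5) (nat_lit 28) (nat_lit 4) (nat_lit 349) (nat_lit 278) (nat_lit 273)) (XT.lf (nat_lit 0) (nat_lit 241079221) (nat_lit 228) (nat_lit 1863876644) (nat_lit 76) (nat_lit 13523142204) (nat_lit 25) (nat_lit 5) (nat_lit 28) (nat_lit 5) (nat_lit 26) (nat_lit 4) (nat_lit 350) (nat_lit 278) (nat_lit 272))))) (XT.nd (nat_lit 234) (nat_lit 228) (nat_lit 0) (XT.nd (nat_lit 78) (nat_lit 76) (nat_lit 0) (XT.lf (nat_lit 0) (nat_lit 5427104373) (nat_lit 152) (nat_lit 7833484314) (nat_lit 0) (nat_lit 2866856044) (nat_lit 24) (nat_lit 5) (nat_lit 26) (nat_lit 4) (nat_lit 24) (nat_lit 4) (nat_lit 351) (nat_lit 278) (nat_lit 271)) (XT.nd (nat_lit 78) (nat_lit 0) (nat_lit 0) (XT.lf (nat_lit 0) (nat_lit 2108366045) (nat_lit 76)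 (nat_lit 8703099819) (nat_lit 76) (nat_lit 5843376028) (nat_lit 23) (nat_lit 4) (nat_lit 24) (nat_lit 5) (nat_lit 24) (nat_lit 4) (nat_lit 352) (nat_lit 278) (nat_lit 270)) (XT.lf (nat_lit 0) (nat_lit 12525772866) (nat_lit 76) (nat_lit 3914522655) (nat_lit 76) (nat_lit 769584139) (nat_lit 23) (nat_lit 4) (nat_lit 24) (nat_lit 5) (nat_lit 24) (nat_lit 4) (nat_lit 353) (nat_lit 278) (nat_lit 269)))) (XT.nd (nat_lit 78) (nat_lit 76) (nat_lit 0) (XT.lf (nat_lit 0) (nat_lit 4363238845) (nat_lit 152) (nat_lit 12318980282) (nat_lit 0) (nat_lit 1109361142) (nat_lit 21) (nat_lit 5) (nat_lit 23) (nat_lit 4) (nat_lit 21) (nat_lit 4) (nat_lit 354) (nat_lit 278) (nat_lit 268)) (XT.nd (nat_lit 78) (nat_lit 76) (nat_lit 0) (XT.lf (nat_lit 0) (nat_lit 9720082982) (nat_lit 152) (nat_lit 2462192618) (nat_lit 0) (nat_lit 6219826076) (nat_lit 21) (nat_lit 5) (nat_lit 23) (nat_lit 4) (nat_lit 21) (nat_lit 4)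 (nat_lit 355) (nat_lit 278) (nat_lit 267)) (XT.lf (nat_lit 0) (nat_lit 7867365228) (nat_lit 76) (nat_lit 7455895247) (nat_lit 76) (nat_lit 3720991480) (nat_lit 20) (nat_lit 4) (nat_lit 21) (nat_lit 5) (nat_lit 21) (nat_lit 4) (nat_lit 356) (nat_lit 278) (nat_lit 266))))))) (XT.nd (nat_lit 936) (nat_lit 456) (nat_lit 0) (XT.nd (nat_lit 468) (nat_lit 228) (nat_lit 0) (XT.nd (nat_lit 234) (nat_lit 228) (nat_lit 0) (XT.nd (nat_lit 78) (nat_lit 76) (nat_lit 0) (XT.lf (nat_lit 0) (nat_lit 1338850406) (nat_lit 152) (nat_lit 1213733634) (nat_lit 76) (nat_lit 17169869293) (nat_lit 19) (nat_lit 5) (nat_lit 21) (nat_lit 5) (nat_lit 20) (nat_lit 4) (nat_lit 357) (nat_lit 278) (nat_lit 265)) (XT.nd (nat_lit 78) (nat_lit 0) (nat_lit 0) (XT.lf (nat_lit 0) (nat_lit 6575471071) (nat_lit 152) (nat_lit 11250734066) (nat_lit 0) (nat_lit 2602891464) (nat_lit 18) (nat_lit 5) (nat_lit 20) (nat_lit 4) (nat_lit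 18) (nat_lit 4) (nat_lit 358) (nat_lit 278) (nat_lit 264)) (XT.lf (nat_lit 0) (nat_lit 12000191604) (nat_lit 152) (nat_lit 1340022051) (nat_lit 0) (nat_lit 7834567444) (nat_lit 18) (nat_lit 5) (nat_lit 20) (nat_lit 4) (nat_lit 18) (nat_lit 4) (nat_lit 359) (nat_lit 278) (nat_lit 263)))) (XT.nd (nat_lit 78) (nat_lit 152) (nat_lit 0) (XT.lf (nat_lit 0) (nat_lit 9110192652) (nat_lit 76) (nat_lit 8598220731) (nat_lit 76) (nat_lit 4248744616) (nat_lit 17) (nat_lit 4) (nat_lit 18) (nat_lit 5) (nat_lit 18) (nat_lit 4) (nat_lit 360) (nat_lit 278) (nat_lit 262)) (XT.nd (nat_lit 78) (nat_lit 76) (nat_lit 0) (XT.lf (nat_lit 0) (nat_lit 787207837) (nat_lit 152) (nat_lit 2910797149) (nat_lit 76) (nat_lit 19085278881) (nat_lit 16) (nat_lit 5) (nat_lit 18) (nat_lit 5) (nat_lit 17) (nat_lit 4) (nat_lit 361) (nat_lit 278) (nat_lit 261)) (XT.lf (nat_lit 0) (nat_lit 5948932615) (nat_lit 152) (nat_lit 16216484298)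 (nat_lit 0) (nat_lit 1480997035) (nat_lit 15) (nat_lit 5) (nat_lit 17) (nat_lit 4) (nat_lit 15) (nat_lit 4) (nat_lit 362) (nat_lit 278) (nat_lit 260))))) (XT.nd (nat_lit 234) (nat_lit 152) (nat_lit 0) (XT.nd (nat_lit 78) (nat_lit 76) (nat_lit 0) (XT.lf (nat_lit 0) (nat_lit 11356471293) (nat_lit 152) (nat_lit 6459580240) (nat_lit 0) (nat_lit 6737280255) (nat_lit 15) (nat_lit 5) (nat_lit 17) (nat_lit 4) (nat_lit 15) (nat_lit 4) (nat_lit 363) (nat_lit 278) (nat_lit 259)) (XT.nd (nat_lit 78) (nat_lit 0) (nat_lit 0) (XT.lf (nat_lit 0) (nat_lit 3677478509) (nat_lit 76) (nat_lit 13297181991) (nat_lit 76) (nat_lit 8533938135) (nat_lit 14) (nat_lit 4) (nat_lit 15) (nat_lit 5) (nat_lit 15) (nat_lit 4) (nat_lit 364) (nat_lit 278) (nat_lit 258)) (XT.lf (nat_lit 0) (nat_lit 14323894816) (nat_lit 76) (nat_lit 8544234263) (nat_lit 76) (nat_lit 3643797248) (nat_lit 14) (nat_lit 4) (nat_lit 15) (nat_lit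 5) (nat_lit 15) (nat_lit 4) (nat_lit 365) (nat_lit 278) (nat_lit 257)))) (XT.nd (nat_lit 78) (nat_lit 76) (nat_lit 0) (XT.lf (nat_lit 0) (nat_lit 1331774754) (nat_lit 152) (nat_lit 2300958920) (nat_lit 76) (nat_lit 23937105389) (nat_lit 13) (nat_lit 5) (nat_lit 15) (nat_lit 5) (nat_lit 14) (nat_lit 4) (nat_lit 366) (nat_lit 278) (nat_lit 256)) (XT.nd (nat_lit 78) (nat_lit 0) (nat_lit 0) (XT.lf (nat_lit 0) (nat_lit 6478984642) (nat_lit 152) (nat_lit 20627473234) (nat_lit 0) (nat_lit 1568950921) (nat_lit 12) (nat_lit 5) (nat_lit 14) (nat_lit 4) (nat_lit 12) (nat_lit 4) (nat_lit 367) (nat_lit 278) (nat_lit 255)) (XT.lf (nat_lit 0) (nat_lit 11877046935) (nat_lit 152) (nat_lit 11105404587) (nat_lit 0) (nat_lit 6854144062) (nat_lit 12) (nat_lit 5) (nat_lit 14) (nat_lit 4) (nat_lit 12) (nat_lit 4) (nat_lit 368) (nat_lit 278) (nat_lit 254)))))) (XT.nd (nat_lit 468) (nat_lit 228) (nat_lit 0) (XT.nd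 (nat_lit 234) (nat_lit 152) (nat_lit 0) (XT.nd (nat_lit 78) (nat_lit 76) (nat_lit 0) (XT.lf (nat_lit 0) (nat_lit 17444376370) (nat_lit 152) (nat_lit 1302530606) (nat_lit 0) (nat_lit 12313979066) (nat_lit 12) (nat_lit 5) (nat_lit 14) (nat_lit 4) (nat_lit 12) (nat_lit 4) (nat_lit 369) (nat_lit 278) (nat_lit 253)) (XT.nd (nat_lit 78) (nat_lit 0) (nat_lit 0) (XT.lf (nat_lit 0) (nat_lit 9095605049) (nat_lit 76) (nat_lit 14240631328) (nat_lit 76) (nat_lit 9007858376) (nat_lit 11) (nat_lit 4) (nat_lit 12) (nat_lit 5) (nat_lit 12) (nat_lit 4) (nat_lit 370) (nat_lit 278) (nat_lit 252)) (XT.lf (nat_lit 0) (nat_lit 19875870192) (nat_lit 76) (nat_lit 9574741271) (nat_lit 76) (nat_lit 4244467703) (nat_lit 11) (nat_lit 4) (nat_lit 12) (nat_lit 5) (nat_lit 12) (nat_lit 4) (nat_lit 371) (nat_lit 278) (nat_lit 251)))) (XT.nd (nat_lit 78) (nat_lit 76) (nat_lit 0) (XT.lf (nat_lit 0) (nat_lit 641726395) (nat_lit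 152) (nat_lit 4107592188) (nat_lit 76) (nat_lit 30368270232) (nat_lit 10) (nat_lit 5) (nat_lit 12) (nat_lit 5) (nat_lit 11) (nat_lit 4) (nat_lit 372) (nat_lit 278) (nat_lit 250)) (XT.nd (nat_lit 78) (nat_lit 0) (nat_lit 0) (XT.lf (nat_lit 0) (nat_lit 5643528672) (nat_lit 152) (nat_lit 30569111980) (nat_lit 0) (nat_lit 394417021) (nat_lit 9) (nat_lit 5) (nat_lit 11) (nat_lit 4) (nat_lit 9) (nat_lit 4) (nat_lit 373) (nat_lit 278) (nat_lit 249)) (XT.lf (nat_lit 0) (nat_lit 10957464825) (nat_lit 152) (nat_lit 21582303138) (nat_lit 0) (nat_lit 5628139175) (nat_lit 9) (nat_lit 5) (nat_lit 11) (nat_lit 4) (nat_lit 9) (nat_lit 4) (nat_lit 374) (nat_lit 278) (nat_lit 248))))) (XT.nd (nat_lit 234) (nat_lit 152) (nat_lit 0) (XT.nd (nat_lit 78) (nat_lit 76) (nat_lit 0) (XT.lf (nat_lit 0) (nat_lit 16454699333) (nat_lit 152) (nat_lit 12307249176) (nat_lit 0) (nat_lit 11048979399) (nat_lit 9) (nat_lit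 5) (nat_lit 11) (nat_lit 4) (nat_lit 9) (nat_lit 4) (nat_lit 375) (nat_lit 278) (nat_lit 247)) (XT.nd (nat_lit 78) (nat_lit 76) (nat_lit 0) (XT.lf (nat_lit 0) (nat_lit 22148320851) (nat_lit 152) (nat_lit 2721866630) (nat_lit 0) (nat_lit 16669844454) (nat_lit 9) (nat_lit 5) (nat_lit 11) (nat_lit 4) (nat_lit 9) (nat_lit 4) (nat_lit 376) (nat_lit 278) (nat_lit 246)) (XT.lf (nat_lit 0) (nat_lit 7434621144) (nat_lit 76) (nat_lit 20733339745) (nat_lit 76) (nat_lit 15185571481) (nat_lit 8) (nat_lit 4) (nat_lit 9) (nat_lit 5) (nat_lit 9) (nat_lit 4) (nat_lit 377) (nat_lit 278) (nat_lit 245)))) (XT.nd (nat_lit 156) (nat_lit 152) (nat_lit 0) (XT.nd (nat_lit 78) (nat_lit 0) (nat_lit 0) (XT.lf (nat_lit 0) (nat_lit 18049668912) (nat_lit 76) (nat_lit 16411586747) (nat_lit 76) (nat_lit 10797826227) (nat_lit 8) (nat_lit 4) (nat_lit 9) (nat_lit 5) (nat_lit 9) (nat_lit 4) (nat_lit 378) (nat_lit 278) (nat_lit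 244)) (XT.lf (nat_lit 0) (nat_lit 29058553392) (nat_lit 76) (nat_lit 11940734726) (nat_lit 76) (nat_lit 6264124439) (nat_lit 8) (nat_lit 4) (nat_lit 9) (nat_lit 5) (nat_lit 9) (nat_lit 4) (nat_lit 379) (nat_lit 278) (nat_lit 243))) (XT.nd (nat_lit 78) (nat_lit 152) (nat_lit 0) (XT.lf (nat_lit 0) (nat_lit 40487486215) (nat_lit 76) (nat_lit 7310138797) (nat_lit 76) (nat_lit 1573671588) (nat_lit 8) (nat_lit 4) (nat_lit 9) (nat_lit 5) (nat_lit 9) (nat_lit 4) (nat_lit 380) (nat_lit 278) (nat_lit 242)) (XT.lf (nat_lit 0) (nat_lit 748602931) (nat_lit 76) (nat_lit 2442654010) (nat_lit 152) (nat_lit 48393347288) (nat_lit 6) (nat_lit 5) (nat_lit 7) (nat_lit 5) (nat_lit 8) (nat_lit 4) (nat_lit 381) (nat_lit 278) (nat_lit 241))))))))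
noncomputable def xc49 : XT := (XT.nd (nat_lit 1950) (nat_lit 76) (nat_lit 0) (XT.nd (nat_lit 936) (nat_lit 152) (nat_lit 0) (XT.nd (nat_lit 468) (nat_lit 0) (nat_lit 0) (XT.nd (nat_lit 234) (nat_lit 76) (nat_lit 0) (XT.nd (nat_lit 78) (nat_lit 0) (nat_lit 0) (XT.lf (nat_lit 0) (nat_lit 8271828436) (nat_lit 152) (nat_lit 42926423144) (nat_lit 0) (nat_lit 2702527682) (nat_lit 6) (nat_lit 5) (nat_lit 8) (nat_lit 4) (nat_lit 6) (nat_lit 4) (nat_lit 382) (nat_lit 278) (nat_lit 240)) (XT.nd (nat_lit 78) (nat_lit 0) (nat_lit 0) (XT.lf (nat_lit 0) (nat_lit 13585239648) (nat_lit 152) (nat_lit 34781894128) (nat_lit 0) (nat_lit 7966694457) (nat_lit 6) (nat_lit 5) (nat_lit 8) (nat_lit 4) (nat_lit 6) (nat_lit 4) (nat_lit 383) (nat_lit 278) (nat_lit 239)) (XT.lf (nat_lit 0) (nat_lit 19106004881) (nat_lit 152) (nat_lit 26344885839) (nat_lit 0) (nat_lit 13440560226) (nat_lit 6) (nat_lit 5) (nat_lit 8)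 (nat_lit 4) (nat_lit 6) (nat_lit 4) (nat_lit 384) (nat_lit 278) (nat_lit 238)))) (XT.nd (nat_lit 78) (nat_lit 76) (nat_lit 0) (XT.lf (nat_lit 0) (nat_lit 24847268815) (nat_lit 152) (nat_lit 17595310164) (nat_lit 0) (nat_lit 19137158004) (nat_lit 6) (nat_lit 5) (nat_lit 8) (nat_lit 4) (nat_lit 6) (nat_lit 4) (nat_lit 385) (nat_lit 278) (nat_lit 237)) (XT.nd (nat_lit 78) (nat_lit 76) (nat_lit 0) (XT.lf (nat_lit 0) (nat_lit 30822701125) (nat_lit 152) (nat_lit 8512334777) (nat_lit 0) (nat_lit 25070051118) (nat_lit 6) (nat_lit 5) (nat_lit 8) (nat_lit 4) (nat_lit 6) (nat_lit 4) (nat_lit 386) (nat_lit 278) (nat_lit 236)) (XT.lf (nat_lit 0) (nat_lit 956273163) (nat_lit 76) (nat_lit 36105185973) (nat_lit 76) (nat_lit 30312022445) (nat_lit 5) (nat_lit 4) (nat_lit 6) (nat_lit 5) (nat_lit 6) (nat_lit 4) (nat_lit 387) (nat_lit 278) (nat_lit 235))))) (XT.nd (nat_lit 234) (nat_lit 0) (nat_lit 0) (XT.nd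 (nat_lit 78) (nat_lit 0) (nat_lit 0) (XT.lf (nat_lit 0) (nat_lit 11096316374) (nat_lit 76) (nat_lit 32610499395) (nat_lit 76) (nat_lit 26778751562) (nat_lit 5) (nat_lit 4) (nat_lit 6) (nat_lit 5) (nat_lit 6) (nat_lit 4) (nat_lit 388) (nat_lit 278) (nat_lit 234)) (XT.nd (nat_lit 78) (nat_lit 0) (nat_lit 0) (XT.lf (nat_lit 0) (nat_lit 21650481583) (nat_lit 76) (nat_lit 28986815997) (nat_lit 76) (nat_lit 23118321206) (nat_lit 5) (nat_lit 4) (nat_lit 6) (nat_lit 5) (nat_lit 6) (nat_lit 4) (nat_lit 389) (nat_lit 278) (nat_lit 233)) (XT.lf (nat_lit 0) (nat_lit 32643897756) (nat_lit 76) (nat_lit 25225507960) (nat_lit 76) (nat_lit 19322016068) (nat_lit 5) (nat_lit 4) (nat_lit 6) (nat_lit 5) (nat_lit 6) (nat_lit 4) (nat_lit 390) (nat_lit 278) (nat_lit 232)))) (XT.nd (nat_lit 78) (nat_lit 0) (nat_lit 0) (XT.lf (nat_lit 0) (nat_lit 44102739692) (nat_lit 76) (nat_lit 21317619790) (nat_lit 76) (nat_lit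 15380797324) (nat_lit 5) (nat_lit 4) (nat_lit 6) (nat_lit 5) (nat_lit 6) (nat_lit 4) (nat_lit 391) (nat_lit 278) (nat_lit 231)) (XT.nd (nat_lit 78) (nat_lit 0) (nat_lit 0) (XT.lf (nat_lit 0) (nat_lit 56054290348) (nat_lit 76) (nat_lit 17253846990) (nat_lit 76) (nat_lit 11285281121) (nat_lit 5) (nat_lit 4) (nat_lit 6) (nat_lit 5) (nat_lit 6) (nat_lit 4) (nat_lit 392) (nat_lit 278) (nat_lit 230)) (XT.lf (nat_lit 0) (nat_lit 68527005798) (nat_lit 76) (nat_lit 13024513912) (nat_lit 76) (nat_lit 7025716230) (nat_lit 5) (nat_lit 4) (nat_lit 6) (nat_lit 5) (nat_lit 6) (nat_lit 4) (nat_lit 393) (nat_lit 278) (nat_lit 229)))))) (XT.nd (nat_lit 468) (nat_lit 0) (nat_lit 0) (XT.nd (nat_lit 234) (nat_lit 0) (nat_lit 0) (XT.nd (nat_lit 78) (nat_lit 152) (nat_lit 0) (XT.lf (nat_lit 0) (nat_lit 81550582984) (nat_lit 76) (nat_lit 8619550713) (nat_lit 76) (nat_lit 2591960829) (nat_lit 5) (nat_lit 4) (nat_lit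 6) (nat_lit 5) (nat_lit 6) (nat_lit 4) (nat_lit 394) (nat_lit 278) (nat_lit 228)) (XT.nd (nat_lit 78) (nat_lit 76) (nat_lit 0) (XT.lf (nat_lit 0) (nat_lit 1961679651) (nat_lit 152) (nat_lit 2033567742) (nat_lit 76) (nat_lit 93161128776) (nat_lit 4) (nat_lit 5) (nat_lit 6) (nat_lit 5) (nat_lit 5) (nat_lit 4) (nat_lit 395) (nat_lit 278) (nat_lit 227)) (XT.lf (nat_lit 0) (nat_lit 6758297651) (nat_lit 152) (nat_lit 94038083772) (nat_lit 0) (nat_lit 966748694) (nat_lit 3) (nat_lit 5) (nat_lit 5) (nat_lit 4) (nat_lit 3) (nat_lit 4) (nat_lit 396) (nat_lit 278) (nat_lit 226)))) (XT.nd (nat_lit 78) (nat_lit 0) (nat_lit 0) (XT.lf (nat_lit 0) (nat_lit 11861272453) (nat_lit 152) (nat_lit 88689589697) (nat_lit 0) (nat_lit 6046036079) (nat_lit 3) (nat_lit 5) (nat_lit 5) (nat_lit 4) (nat_lit 3) (nat_lit 4) (nat_lit 397) (nat_lit 278) (nat_lit 225)) (XT.nd (nat_lit 78) (nat_lit 0) (nat_lit 0) (XT.lf (nat_lit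 0) (nat_lit 17187039812) (nat_lit 152) (nat_lit 83137691381) (nat_lit 0) (nat_lit 11349243994) (nat_lit 3) (nat_lit 5) (nat_lit 5) (nat_lit 4) (nat_lit 3) (nat_lit 4) (nat_lit 398) (nat_lit 278) (nat_lit 224)) (XT.lf (nat_lit 0) (nat_lit 22748280126) (nat_lit 152) (nat_lit 77369170019) (nat_lit 0) (nat_lit 16888999123) (nat_lit 3) (nat_lit 5) (nat_lit 5) (nat_lit 4) (nat_lit 3) (nat_lit 4) (nat_lit 399) (nat_lit 278) (nat_lit 223))))) (XT.nd (nat_lit 234) (nat_lit 0) (nat_lit 0) (XT.nd (nat_lit 78) (nat_lit 0) (nat_lit 0) (XT.lf (nat_lit 0) (nat_lit 28558234443) (nat_lit 152) (nat_lit 71370291035) (nat_lit 0) (nat_lit 22678491360) (nat_lit 3) (nat_lit 5) (nat_lit 5) (nat_lit 4) (nat_lit 3) (nat_lit 4) (nat_lit 400) (nat_lit 278) (nat_lit 222)) (XT.nd (nat_lit 78) (nat_lit 0) (nat_lit 0) (XT.lf (nat_lit 0) (nat_lit 34630735990) (nat_lit 152) (nat_lit 65126771385) (nat_lit 0) (nat_lit 28731505210)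 (nat_lit 3) (nat_lit 5) (nat_lit 5) (nat_lit 4) (nat_lit 3) (nat_lit 4) (nat_lit 401) (nat_lit 278) (nat_lit 221)) (XT.lf (nat_lit 0) (nat_lit 40980243101) (nat_lit 152) (nat_lit 58623745546) (nat_lit 0) (nat_lit 35062452611) (nat_lit 3) (nat_lit 5) (nat_lit 5) (nat_lit 4) (nat_lit 3) (nat_lit 4) (nat_lit 402) (nat_lit 278) (nat_lit 220)))) (XT.nd (nat_lit 156) (nat_lit 0) (nat_lit 0) (XT.nd (nat_lit 78) (nat_lit 0) (nat_lit 0) (XT.lf (nat_lit 0) (nat_lit 47621873652) (nat_lit 152) (nat_lit 51845730123) (nat_lit 0) (nat_lit 41686407247) (nat_lit 3) (nat_lit 5) (nat_lit 5) (nat_lit 4) (nat_lit 3) (nat_lit 4) (nat_lit 403) (nat_lit 278) (nat_lit 219)) (XT.lf (nat_lit 0) (nat_lit 54571441048) (nat_lit 152) (nat_lit 44776586984) (nat_lit 0) (nat_lit 48619140439) (nat_lit 3) (nat_lit 5) (nat_lit 5) (nat_lit 4) (nat_lit 3) (nat_lit 4) (nat_lit 404) (nat_lit 278) (nat_lit 218))) (XT.nd (nat_lit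 78) (nat_lit 0) (nat_lit 0) (XT.lf (nat_lit 0) (nat_lit 61845491879) (nat_lit 152) (nat_lit 37399484835) (nat_lit 0) (nat_lit 55877158694) (nat_lit 3) (nat_lit 5) (nat_lit 5) (nat_lit 4) (nat_lit 3) (nat_lit 4) (nat_lit 405) (nat_lit 278) (nat_lit 217)) (XT.lf (nat_lit 0) (nat_lit 69461345314) (nat_lit 152) (nat_lit 29696859148) (nat_lit 0) (nat_lit 63477743009) (nat_lit 3) (nat_lit 5) (nat_lit 5) (nat_lit 4) (nat_lit 3) (nat_lit 4) (nat_lit 406) (nat_lit 278) (nat_lit 216))))))) (XT.nd (nat_lit 936) (nat_lit 0) (nat_lit 0) (XT.nd (nat_lit 468) (nat_lit 0) (nat_lit 0) (XT.nd (nat_lit 234) (nat_lit 76) (nat_lit 0) (XT.nd (nat_lit 78) (nat_lit 0) (nat_lit 0) (XT.lf (nat_lit 0) (nat_lit 77437134335) (nat_lit 152) (nat_lit 21650370338) (nat_lit 0) (nat_lit 71438990012) (nat_lit 3) (nat_lit 5) (nat_lit 5) (nat_lit 4) (nat_lit 3) (nat_lit 4) (nat_lit 407) (nat_lit 278) (nat_lit 215)) (XT.nd (nat_lit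 78) (nat_lit 0) (nat_lit 0) (XT.lf (nat_lit 0) (nat_lit 85791848918) (nat_lit 152) (nat_lit 13240860098) (nat_lit 0) (nat_lit 79779855053) (nat_lit 3) (nat_lit 5) (nat_lit 5) (nat_lit 4) (nat_lit 3) (nat_lit 4) (nat_lit 408) (nat_lit 278) (nat_lit 214)) (XT.lf (nat_lit 0) (nat_lit 94545381241) (nat_lit 152) (nat_lit 4448305784) (nat_lit 0) (nat_lit 88520197336) (nat_lit 3) (nat_lit 5) (nat_lit 5) (nat_lit 4) (nat_lit 3) (nat_lit 4) (nat_lit 409) (nat_lit 278) (nat_lit 213)))) (XT.nd (nat_lit 78) (nat_lit 0) (nat_lit 0) (XT.lf (nat_lit 0) (nat_lit 4905225091) (nat_lit 76) (nat_lit 98889932264) (nat_lit 76) (nat_lit 92852186417) (nat_lit 2) (nat_lit 4) (nat_lit 3) (nat_lit 5) (nat_lit 3) (nat_lit 4) (nat_lit 410) (nat_lit 278) (nat_lit 212)) (XT.nd (nat_lit 78) (nat_lit 0) (nat_lit 0) (XT.lf (nat_lit 0) (nat_lit 14845793639) (nat_lit 76) (nat_lit 98719256071) (nat_lit 76) (nat_lit 92669546468)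 (nat_lit 2) (nat_lit 4) (nat_lit 3) (nat_lit 5) (nat_lit 3) (nat_lit 4) (nat_lit 411) (nat_lit 278) (nat_lit 211)) (XT.lf (nat_lit 0) (nat_lit 25249986798) (nat_lit 76) (nat_lit 98556586284) (nat_lit 76) (nat_lit 92495482630) (nat_lit 2) (nat_lit 4) (nat_lit 3) (nat_lit 5) (nat_lit 3) (nat_lit 4) (nat_lit 412) (nat_lit 278) (nat_lit 210))))) (XT.nd (nat_lit 234) (nat_lit 0) (nat_lit 0) (XT.nd (nat_lit 78) (nat_lit 0) (nat_lit 0) (XT.lf (nat_lit 0) (nat_lit 36142576459) (nat_lit 76) (nat_lit 98401535595) (nat_lit 76) (nat_lit 92329580462) (nat_lit 2) (nat_lit 4) (nat_lit 3) (nat_lit 5) (nat_lit 3) (nat_lit 4) (nat_lit 413) (nat_lit 278) (nat_lit 209)) (XT.nd (nat_lit 78) (nat_lit 0) (nat_lit 0) (XT.lf (nat_lit 0) (nat_lit 47549497358) (nat_lit 76) (nat_lit 98253734836) (nat_lit 76) (nat_lit 92171444962) (nat_lit 2) (nat_lit 4) (nat_lit 3) (nat_lit 5) (nat_lit 3) (nat_lit 4) (nat_lit 414)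 (nat_lit 278) (nat_lit 208)) (XT.lf (nat_lit 0) (nat_lit 59497908831) (nat_lit 76) (nat_lit 98112832099) (nat_lit 76) (nat_lit 92020699614) (nat_lit 2) (nat_lit 4) (nat_lit 3) (nat_lit 5) (nat_lit 3) (nat_lit 4) (nat_lit 415) (nat_lit 278) (nat_lit 207)))) (XT.nd (nat_lit 78) (nat_lit 0) (nat_lit 0) (XT.lf (nat_lit 0) (nat_lit 72016259477) (nat_lit 76) (nat_lit 97978491903) (nat_lit 76) (nat_lit 91876985503) (nat_lit 2) (nat_lit 4) (nat_lit 3) (nat_lit 5) (nat_lit 3) (nat_lit 4) (nat_lit 416) (nat_lit 278) (nat_lit 206)) (XT.nd (nat_lit 78) (nat_lit 0) (nat_lit 0) (XT.lf (nat_lit 0) (nat_lit 85134354891) (nat_lit 76) (nat_lit 97850394389) (nat_lit 76) (nat_lit 91739960451) (nat_lit 2) (nat_lit 4) (nat_lit 3) (nat_lit 5) (nat_lit 3) (nat_lit 4) (nat_lit 417) (nat_lit 278) (nat_lit 205)) (XT.lf (nat_lit 0) (nat_lit 98883428636) (nat_lit 76) (nat_lit 97728234563) (nat_lit 76) (nat_lit 91609298209)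 (nat_lit 2) (nat_lit 4) (nat_lit 3) (nat_lit 5) (nat_lit 3) (nat_lit 4) (nat_lit 418) (nat_lit 278) (nat_lit 204)))))) (XT.nd (nat_lit 468) (nat_lit 0) (nat_lit 0) (XT.nd (nat_lit 234) (nat_lit 0) (nat_lit 0) (XT.nd (nat_lit 78) (nat_lit 0) (nat_lit 0) (XT.lf (nat_lit 0) (nat_lit 113296216600) (nat_lit 76) (nat_lit 97611721570) (nat_lit 76) (nat_lit 91484687675) (nat_lit 2) (nat_lit 4) (nat_lit 3) (nat_lit 5) (nat_lit 3) (nat_lit 4) (nat_lit 419) (nat_lit 278) (nat_lit 203)) (XT.nd (nat_lit 78) (nat_lit 0) (nat_lit 0) (XT.lf (nat_lit 0) (nat_lit 128407034946) (nat_lit 76) (nat_lit 97500577996) (nat_lit 76) (nat_lit 91365832158) (nat_lit 2) (nat_lit 4) (nat_lit 3) (nat_lit 5) (nat_lit 3) (nat_lit 4) (nat_lit 420) (nat_lit 278) (nat_lit 202)) (XT.lf (nat_lit 0) (nat_lit 144251861813) (nat_lit 76) (nat_lit 97394539215) (nat_lit 76) (nat_lit 91252448669) (nat_lit 2) (nat_lit 4) (nat_lit 3)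 (nat_lit 5) (nat_lit 3) (nat_lit 4) (nat_lit 421) (nat_lit 278) (nat_lit 201)))) (XT.nd (nat_lit 78) (nat_lit 0) (nat_lit 0) (XT.lf (nat_lit 0) (nat_lit 160868422978) (nat_lit 76) (nat_lit 97293352752) (nat_lit 76) (nat_lit 91144267247) (nat_lit 2) (nat_lit 4) (nat_lit 3) (nat_lit 5) (nat_lit 3) (nat_lit 4) (nat_lit 422) (nat_lit 278) (nat_lit 200)) (XT.nd (nat_lit 78) (nat_lit 0) (nat_lit 0) (XT.lf (nat_lit 0) (nat_lit 178296281682) (nat_lit 76) (nat_lit 97196777688) (nat_lit 76) (nat_lit 91041030317) (nat_lit 2) (nat_lit 4) (nat_lit 3) (nat_lit 5) (nat_lit 3) (nat_lit 4) (nat_lit 423) (nat_lit 278) (nat_lit 199)) (XT.lf (nat_lit 0) (nat_lit 196576932828) (nat_lit 76) (nat_lit 97104584083) (nat_lit 76) (nat_lit 90942492077) (nat_lit 2) (nat_lit 4) (nat_lit 3) (nat_lit 5) (nat_lit 3) (nat_lit 4) (nat_lit 424) (nat_lit 278) (nat_lit 198))))) (XT.nd (nat_lit 234) (nat_lit 0) (nat_lit 0) (XT.nd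 (nat_lit 78) (nat_lit 0) (nat_lit 0) (XT.lf (nat_lit 0) (nat_lit 215753901775) (nat_lit 76) (nat_lit 97016552427) (nat_lit 76) (nat_lit 90848417912) (nat_lit 2) (nat_lit 4) (nat_lit 3) (nat_lit 5) (nat_lit 3) (nat_lit 4) (nat_lit 425) (nat_lit 278) (nat_lit 197)) (XT.nd (nat_lit 78) (nat_lit 0) (nat_lit 0) (XT.lf (nat_lit 0) (nat_lit 235872847973) (nat_lit 76) (nat_lit 96932473122) (nat_lit 76) (nat_lit 90758583836) (nat_lit 2) (nat_lit 4) (nat_lit 3) (nat_lit 5) (nat_lit 3) (nat_lit 4) (nat_lit 426) (nat_lit 278) (nat_lit 196)) (XT.lf (nat_lit 0) (nat_lit 256981673675) (nat_lit 76) (nat_lit 96852145979) (nat_lit 76) (nat_lit 90672775958) (nat_lit 2) (nat_lit 4) (nat_lit 3) (nat_lit 5) (nat_lit 3) (nat_lit 4) (nat_lit 427) (nat_lit 278) (nat_lit 195)))) (XT.nd (nat_lit 156) (nat_lit 0) (nat_lit 0) (XT.nd (nat_lit 78) (nat_lit 0) (nat_lit 0) (XT.lf (nat_lit 0) (nat_lit 279130637989) (nat_lit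 76) (nat_lit 96775379741) (nat_lit 76) (nat_lit 90590789975) (nat_lit 2) (nat_lit 4) (nat_lit 3) (nat_lit 5) (nat_lit 3) (nat_lit 4) (nat_lit 428) (nat_lit 278) (nat_lit 194)) (XT.lf (nat_lit 0) (nat_lit 302372476546) (nat_lit 76) (nat_lit 96701991634) (nat_lit 76) (nat_lit 90512430680) (nat_lit 2) (nat_lit 4) (nat_lit 3) (nat_lit 5) (nat_lit 3) (nat_lit 4) (nat_lit 429) (nat_lit 278) (nat_lit 193))) (XT.nd (nat_lit 78) (nat_lit 0) (nat_lit 0) (XT.lf (nat_lit 0) (nat_lit 326762527055) (nat_lit 76) (nat_lit 96631806923) (nat_lit 76) (nat_lit 90437511505) (nat_lit 2) (nat_lit 4) (nat_lit 3) (nat_lit 5) (nat_lit 3) (nat_lit 4) (nat_lit 430) (nat_lit 278) (nat_lit 192)) (XT.lf (nat_lit 0) (nat_lit 352358861066) (nat_lit 76) (nat_lit 96564658502) (nat_lit 76) (nat_lit 90365854070) (nat_lit 2) (nat_lit 4) (nat_lit 3) (nat_lit 5) (nat_lit 3) (nat_lit 4) (nat_lit 431) (nat_lit 278) (nat_lit 191))))))))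
noncomputable def xc50 : XT := (XT.nd (nat_lit 40950) (nat_lit 0) (nat_lit 456) (XT.nd (nat_lit 40014) (nat_lit 0) (nat_lit 1444) (XT.nd (nat_lit 468) (nat_lit 0) (nat_lit 0) (XT.nd (nat_lit 234) (nat_lit 0) (nat_lit 0) (XT.nd (nat_lit 78) (nat_lit 0) (nat_lit 0) (XT.lf (nat_lit 0) (nat_lit 379222422231) (nat_lit 76) (nat_lit 96500386493) (nat_lit 76) (nat_lit 90297287763) (nat_lit 2) (nat_lit 4) (nat_lit 3) (nat_lit 5) (nat_lit 3) (nat_lit 4) (nat_lit 432) (nat_lit 278) (nat_lit 190)) (XT.nd (nat_lit 78) (nat_lit 0) (nat_lit 0) (XT.lf (nat_lit 0) (nat_lit 407417171410) (nat_lit 76) (nat_lit 96438837868) (nat_lit 76) (nat_lit 90231649330) (nat_lit 2) (nat_lit 4) (nat_lit 3) (nat_lit 5) (nat_lit 3) (nat_lit 4) (nat_lit 433) (nat_lit 278) (nat_lit 189)) (XT.lf (nat_lit 0) (nat_lit 437010238959) (nat_lit 76) (nat_lit 96379866083) (nat_lit 76) (nat_lit 90168782490) (nat_lit 2) (nat_lit 4) (nat_lit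 3) (nat_lit 5) (nat_lit 3) (nat_lit 4) (nat_lit 434) (nat_lit 278) (nat_lit 188)))) (XT.nd (nat_lit 78) (nat_lit 0) (nat_lit 0) (XT.lf (nat_lit 0) (nat_lit 468072084561) (nat_lit 76) (nat_lit 96323330728) (nat_lit 76) (nat_lit 90108537559) (nat_lit 2) (nat_lit 4) (nat_lit 3) (nat_lit 5) (nat_lit 3) (nat_lit 4) (nat_lit 435) (nat_lit 278) (nat_lit 187)) (XT.nd (nat_lit 78) (nat_lit 0) (nat_lit 0) (XT.lf (nat_lit 0) (nat_lit 500676664992) (nat_lit 76) (nat_lit 96269097196) (nat_lit 76) (nat_lit 90050771097) (nat_lit 2) (nat_lit 4) (nat_lit 3) (nat_lit 5) (nat_lit 3) (nat_lit 4) (nat_lit 436) (nat_lit 278) (nat_lit 186)) (XT.lf (nat_lit 0) (nat_lit 534901610205) (nat_lit 76) (nat_lit 96217036360) (nat_lit 76) (nat_lit 89995345565) (nat_lit 2) (nat_lit 4) (nat_lit 3) (nat_lit 5) (nat_lit 3) (nat_lit 4) (nat_lit 437) (nat_lit 278) (nat_lit 185))))) (XT.nd (nat_lit 234) (nat_lit 0) (nat_lit 0)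 (XT.nd (nat_lit 78) (nat_lit 0) (nat_lit 0) (XT.lf (nat_lit 0) (nat_lit 570828408166) (nat_lit 76) (nat_lit 96167024263) (nat_lit 76) (nat_lit 89942128997) (nat_lit 2) (nat_lit 4) (nat_lit 3) (nat_lit 5) (nat_lit 3) (nat_lit 4) (nat_lit 438) (nat_lit 278) (nat_lit 184)) (XT.nd (nat_lit 78) (nat_lit 0) (nat_lit 0) (XT.lf (nat_lit 0) (nat_lit 608542598869) (nat_lit 76) (nat_lit 96118941832) (nat_lit 76) (nat_lit 89890994688) (nat_lit 2) (nat_lit 4) (nat_lit 3) (nat_lit 5) (nat_lit 3) (nat_lit 4) (nat_lit 439) (nat_lit 278) (nat_lit 183)) (XT.lf (nat_lit 0) (nat_lit 648133978007) (nat_lit 76) (nat_lit 96072674582) (nat_lit 76) (nat_lit 89841820888) (nat_lit 2) (nat_lit 4) (nat_lit 3) (nat_lit 5) (nat_lit 3) (nat_lit 4) (nat_lit 440) (nat_lit 278) (nat_lit 182)))) (XT.nd (nat_lit 39156) (nat_lit 0) (nat_lit 2584) (XT.lf (nat_lit 0) (nat_lit 689696810768) (nat_lit 76) (nat_lit 96028112355) (nat_lit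 76) (nat_lit 89794490518) (nat_lit 2) (nat_lit 4) (nat_lit 3) (nat_lit 5) (nat_lit 3) (nat_lit 4) (nat_lit 441) (nat_lit 278) (nat_lit 181)) (XT.nd (nat_lit 78) (nat_lit 0) (nat_lit 0) (XT.lf (nat_lit 0) (nat_lit 670078538) (nat_lit 152) (nat_lit 4854489780) (nat_lit 0) (nat_lit 670078538) (nat_lit 36) (nat_lit 5) (nat_lit 38) (nat_lit 4) (nat_lit 36) (nat_lit 4) (nat_lit 342) (nat_lit 279) (nat_lit 279)) (XT.lf (nat_lit 0) (nat_lit 6400744030) (nat_lit 152) (nat_lit 441099085) (nat_lit 0) (nat_lit 5888539360) (nat_lit 36) (nat_lit 5) (nat_lit 38) (nat_lit 4) (nat_lit 36) (nat_lit 4) (nat_lit 343) (nat_lit 279) (nat_lit 278)))))) (XT.nd (nat_lit 468) (nat_lit 380) (nat_lit 0) (XT.nd (nat_lit 234) (nat_lit 304) (nat_lit 0) (XT.nd (nat_lit 78) (nat_lit 304) (nat_lit 0) (XT.lf (nat_lit 0) (nat_lit 9280062886) (nat_lit 152) (nat_lit 2405001551) (nat_lit 152) (nat_lit 1404982911) (nat_lit 34)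 (nat_lit 4) (nat_lit 36) (nat_lit 5) (nat_lit 36) (nat_lit 4) (nat_lit 344) (nat_lit 279) (nat_lit 277)) (XT.nd (nat_lit 78) (nat_lit 152) (nat_lit 0) (XT.lf (nat_lit 0) (nat_lit 3606608254) (nat_lit 152) (nat_lit 7648389319) (nat_lit 0) (nat_lit 2211747898) (nat_lit 32) (nat_lit 5) (nat_lit 34) (nat_lit 4) (nat_lit 32) (nat_lit 4) (nat_lit 345) (nat_lit 279) (nat_lit 276)) (XT.lf (nat_lit 0) (nat_lit 1888806345) (nat_lit 152) (nat_lit 6895248716) (nat_lit 152) (nat_lit 5078996311) (nat_lit 30) (nat_lit 4) (nat_lit 32) (nat_lit 5) (nat_lit 32) (nat_lit 4) (nat_lit 346) (nat_lit 279) (nat_lit 275)))) (XT.nd (nat_lit 78) (nat_lit 304) (nat_lit 0) (XT.lf (nat_lit 0) (nat_lit 11863921715) (nat_lit 152) (nat_lit 2317413871) (nat_lit 152) (nat_lit 99835706) (nat_lit 30) (nat_lit 4) (nat_lit 32) (nat_lit 5) (nat_lit 32) (nat_lit 4) (nat_lit 347) (nat_lit 279) (nat_lit 274)) (XT.nd (nat_lit 78)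 (nat_lit 152) (nat_lit 0) (XT.lf (nat_lit 0) (nat_lit 4957767025) (nat_lit 152) (nat_lit 7277014700) (nat_lit 0) (nat_lit 2481773524) (nat_lit 28) (nat_lit 5) (nat_lit 30) (nat_lit 4) (nat_lit 28) (nat_lit 4) (nat_lit 348) (nat_lit 279) (nat_lit 273)) (XT.lf (nat_lit 0) (nat_lit 2442662609) (nat_lit 152) (nat_lit 7777946232) (nat_lit 152) (nat_lit 4955272449) (nat_lit 26) (nat_lit 4) (nat_lit 28) (nat_lit 5) (nat_lit 28) (nat_lit 4) (nat_lit 349) (nat_lit 279) (nat_lit 272))))) (XT.nd (nat_lit 234) (nat_lit 152) (nat_lit 0) (XT.nd (nat_lit 78) (nat_lit 152) (nat_lit 0) (XT.lf (nat_lit 0) (nat_lit 49344627) (nat_lit 228) (nat_lit 3051688992) (nat_lit 76) (nat_lit 12558919881) (nat_lit 25) (nat_lit 5) (nat_lit 28) (nat_lit 5) (nat_lit 26) (nat_lit 4) (nat_lit 350) (nat_lit 279) (nat_lit 271)) (XT.nd (nat_lit 78) (nat_lit 76) (nat_lit 0) (XT.lf (nat_lit 0) (nat_lit 5122066360) (nat_lit 152)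 (nat_lit 9223035090) (nat_lit 0) (nat_lit 1819880918) (nat_lit 24) (nat_lit 5) (nat_lit 26) (nat_lit 4) (nat_lit 24) (nat_lit 4) (nat_lit 351) (nat_lit 279) (nat_lit 270)) (XT.lf (nat_lit 0) (nat_lit 529701204) (nat_lit 76) (nat_lit 9877527339) (nat_lit 76) (nat_lit 6290127171) (nat_lit 23) (nat_lit 4) (nat_lit 24) (nat_lit 5) (nat_lit 24) (nat_lit 4) (nat_lit 352) (nat_lit 279) (nat_lit 269)))) (XT.nd (nat_lit 78) (nat_lit 152) (nat_lit 0) (XT.lf (nat_lit 0) (nat_lit 10810756368) (nat_lit 76) (nat_lit 5152171169) (nat_lit 76) (nat_lit 1293137929) (nat_lit 23) (nat_lit 4) (nat_lit 24) (nat_lit 5) (nat_lit 24) (nat_lit 4) (nat_lit 353) (nat_lit 279) (nat_lit 268)) (XT.nd (nat_lit 78) (nat_lit 0) (nat_lit 0) (XT.lf (nat_lit 0) (nat_lit 3543810935) (nat_lit 76) (nat_lit 193526790) (nat_lit 152) (nat_lit 14106806287) (nat_lit 21) (nat_lit 5) (nat_lit 22) (nat_lit 5) (nat_lit 23) (nat_lit 4)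 (nat_lit 354) (nat_lit 279) (nat_lit 267)) (XT.lf (nat_lit 0) (nat_lit 9020750382) (nat_lit 152) (nat_lit 4573145391) (nat_lit 0) (nat_lit 4864454565) (nat_lit 21) (nat_lit 5) (nat_lit 23) (nat_lit 4) (nat_lit 21) (nat_lit 4) (nat_lit 355) (nat_lit 279) (nat_lit 266))))))) (XT.nd (nat_lit 936) (nat_lit 304) (nat_lit 0) (XT.nd (nat_lit 468) (nat_lit 380) (nat_lit 0) (XT.nd (nat_lit 234) (nat_lit 76) (nat_lit 0) (XT.nd (nat_lit 78) (nat_lit 152) (nat_lit 0) (XT.lf (nat_lit 0) (nat_lit 5556132405) (nat_lit 76) (nat_lit 8964653518) (nat_lit 76) (nat_lit 4584884502) (nat_lit 20) (nat_lit 4) (nat_lit 21) (nat_lit 5) (nat_lit 21) (nat_lit 4) (nat_lit 356) (nat_lit 279) (nat_lit 265)) (XT.nd (nat_lit 78) (nat_lit 76) (nat_lit 0) (XT.lf (nat_lit 0) (nat_lit 435712763) (nat_lit 152) (nat_lit 3699389471) (nat_lit 76) (nat_lit 15652800217) (nat_lit 19) (nat_lit 5) (nat_lit 21) (nat_lit 5) (nat_lit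 20) (nat_lit 4) (nat_lit 357) (nat_lit 279) (nat_lit 264)) (XT.lf (nat_lit 0) (nat_lit 5540307212) (nat_lit 152) (nat_lit 13987493506) (nat_lit 0) (nat_lit 973357291) (nat_lit 18) (nat_lit 5) (nat_lit 20) (nat_lit 4) (nat_lit 18) (nat_lit 4) (nat_lit 358) (nat_lit 279) (nat_lit 263)))) (XT.nd (nat_lit 78) (nat_lit 76) (nat_lit 0) (XT.lf (nat_lit 0) (nat_lit 10901627541) (nat_lit 152) (nat_lit 4197569770) (nat_lit 0) (nat_lit 6150825665) (nat_lit 18) (nat_lit 5) (nat_lit 20) (nat_lit 4) (nat_lit 18) (nat_lit 4) (nat_lit 359) (nat_lit 279) (nat_lit 262)) (XT.nd (nat_lit 78) (nat_lit 0) (nat_lit 0) (XT.lf (nat_lit 0) (nat_lit 6039321419) (nat_lit 76) (nat_lit 10462201847) (nat_lit 76) (nat_lit 5536302871) (nat_lit 17) (nat_lit 4) (nat_lit 18) (nat_lit 5) (nat_lit 18) (nat_lit 4) (nat_lit 360) (nat_lit 279) (nat_lit 261)) (XT.lf (nat_lit 0) (nat_lit 16701766201) (nat_lit 76) (nat_lit 5629225949)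 (nat_lit 76) (nat_lit 536567830) (nat_lit 17) (nat_lit 4) (nat_lit 18) (nat_lit 5) (nat_lit 18) (nat_lit 4) (nat_lit 361) (nat_lit 279) (nat_lit 260))))) (XT.nd (nat_lit 234) (nat_lit 228) (nat_lit 0) (XT.nd (nat_lit 78) (nat_lit 0) (nat_lit 0) (XT.lf (nat_lit 0) (nat_lit 3987719307) (nat_lit 76) (nat_lit 519205404) (nat_lit 152) (nat_lit 19230963109) (nat_lit 15) (nat_lit 5) (nat_lit 16) (nat_lit 5) (nat_lit 17) (nat_lit 4) (nat_lit 362) (nat_lit 279) (nat_lit 259)) (XT.nd (nat_lit 78) (nat_lit 0) (nat_lit 0) (XT.lf (nat_lit 0) (nat_lit 9849214625) (nat_lit 152) (nat_lit 10095105906) (nat_lit 0) (nat_lit 4703755759) (nat_lit 15) (nat_lit 5) (nat_lit 17) (nat_lit 4) (nat_lit 15) (nat_lit 4) (nat_lit 363) (nat_lit 279) (nat_lit 258)) (XT.lf (nat_lit 0) (nat_lit 15355566647) (nat_lit 152) (nat_lit 180461531) (nat_lit 0) (nat_lit 10072914622) (nat_lit 15) (nat_lit 5) (nat_lit 17) (nat_lit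 4) (nat_lit 15) (nat_lit 4) (nat_lit 364) (nat_lit 279) (nat_lit 257)))) (XT.nd (nat_lit 78) (nat_lit 152) (nat_lit 0) (XT.lf (nat_lit 0) (nat_lit 10356964709) (nat_lit 76) (nat_lit 10835721423) (nat_lit 76) (nat_lit 5422409246) (nat_lit 14) (nat_lit 4) (nat_lit 15) (nat_lit 5) (nat_lit 15) (nat_lit 4) (nat_lit 365) (nat_lit 279) (nat_lit 256)) (XT.nd (nat_lit 78) (nat_lit 152) (nat_lit 0) (XT.lf (nat_lit 0) (nat_lit 21226386960) (nat_lit 76) (nat_lit 5993998674) (nat_lit 76) (nat_lit 456248256) (nat_lit 14) (nat_lit 4) (nat_lit 15) (nat_lit 5) (nat_lit 15) (nat_lit 4) (nat_lit 366) (nat_lit 279) (nat_lit 255)) (XT.lf (nat_lit 0) (nat_lit 3697158719) (nat_lit 76) (nat_lit 865486035) (nat_lit 152) (nat_lit 24227067441) (nat_lit 12) (nat_lit 5) (nat_lit 13) (nat_lit 5) (nat_lit 14) (nat_lit 4) (nat_lit 367) (nat_lit 279) (nat_lit 254)))))) (XT.nd (nat_lit 468) (nat_lit 76) (nat_lit 0) (XT.nd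 (nat_lit 234) (nat_lit 152) (nat_lit 0) (XT.nd (nat_lit 78) (nat_lit 76) (nat_lit 0) (XT.lf (nat_lit 0) (nat_lit 9898103665) (nat_lit 152) (nat_lit 15652239532) (nat_lit 0) (nat_lit 4403692066) (nat_lit 12) (nat_lit 5) (nat_lit 14) (nat_lit 4) (nat_lit 12) (nat_lit 4) (nat_lit 368) (nat_lit 279) (nat_lit 253)) (XT.nd (nat_lit 78) (nat_lit 76) (nat_lit 0) (XT.lf (nat_lit 0) (nat_lit 15418680035) (nat_lit 152) (nat_lit 5940096374) (nat_lit 0) (nat_lit 9821892788) (nat_lit 12) (nat_lit 5) (nat_lit 14) (nat_lit 4) (nat_lit 12) (nat_lit 4) (nat_lit 369) (nat_lit 279) (nat_lit 252)) (XT.lf (nat_lit 0) (nat_lit 4215432989) (nat_lit 76) (nat_lit 16974387162) (nat_lit 76) (nat_lit 11280099298) (nat_lit 11) (nat_lit 4) (nat_lit 12) (nat_lit 5) (nat_lit 12) (nat_lit 4) (nat_lit 370) (nat_lit 279) (nat_lit 251)))) (XT.nd (nat_lit 78) (nat_lit 152) (nat_lit 0) (XT.lf (nat_lit 0) (nat_lit 14910681538)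 (nat_lit 76) (nat_lit 12349779944) (nat_lit 76) (nat_lit 6562634349) (nat_lit 11) (nat_lit 4) (nat_lit 12) (nat_lit 5) (nat_lit 12) (nat_lit 4) (nat_lit 371) (nat_lit 279) (nat_lit 250)) (XT.nd (nat_lit 78) (nat_lit 152) (nat_lit 0) (XT.lf (nat_lit 0) (nat_lit 25974707736) (nat_lit 76) (nat_lit 7574542192) (nat_lit 76) (nat_lit 1698960663) (nat_lit 11) (nat_lit 4) (nat_lit 12) (nat_lit 5) (nat_lit 12) (nat_lit 4) (nat_lit 372) (nat_lit 279) (nat_lit 249)) (XT.lf (nat_lit 0) (nat_lit 654264630) (nat_lit 76) (nat_lit 2572111397) (nat_lit 152) (nat_lit 33519176407) (nat_lit 9) (nat_lit 5) (nat_lit 10) (nat_lit 5) (nat_lit 11) (nat_lit 4) (nat_lit 373) (nat_lit 279) (nat_lit 248))))) (XT.nd (nat_lit 234) (nat_lit 76) (nat_lit 0) (XT.nd (nat_lit 78) (nat_lit 0) (nat_lit 0) (XT.lf (nat_lit 0) (nat_lit 8459959947) (nat_lit 152) (nat_lit 27142904180) (nat_lit 0) (nat_lit 2707559731) (nat_lit 9)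 (nat_lit 5) (nat_lit 11) (nat_lit 4) (nat_lit 9) (nat_lit 4) (nat_lit 374) (nat_lit 279) (nat_lit 247)) (XT.nd (nat_lit 78) (nat_lit 0) (nat_lit 0) (XT.lf (nat_lit 0) (nat_lit 13918914106) (nat_lit 152) (nat_lit 17942691249) (nat_lit 0) (nat_lit 8093757428) (nat_lit 9) (nat_lit 5) (nat_lit 11) (nat_lit 4) (nat_lit 9) (nat_lit 4) (nat_lit 375) (nat_lit 279) (nat_lit 246)) (XT.lf (nat_lit 0) (nat_lit 19576078147) (nat_lit 152) (nat_lit 8428585876) (nat_lit 0) (nat_lit 13681629601) (nat_lit 9) (nat_lit 5) (nat_lit 11) (nat_lit 4) (nat_lit 9) (nat_lit 4) (nat_lit 376) (nat_lit 279) (nat_lit 245)))) (XT.nd (nat_lit 156) (nat_lit 0) (nat_lit 0) (XT.nd (nat_lit 78) (nat_lit 0) (nat_lit 0) (XT.lf (nat_lit 0) (nat_lit 1469084446) (nat_lit 76) (nat_lit 23998773588) (nat_lit 76) (nat_lit 18038332786) (nat_lit 8) (nat_lit 4) (nat_lit 9) (nat_lit 5) (nat_lit 9) (nat_lit 4) (nat_lit 377) (nat_lit 279)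 (nat_lit 244)) (XT.lf (nat_lit 0) (nat_lit 12017344079) (nat_lit 76) (nat_lit 19709697969) (nat_lit 76) (nat_lit 13686407400) (nat_lit 8) (nat_lit 4) (nat_lit 9) (nat_lit 5) (nat_lit 9) (nat_lit 4) (nat_lit 378) (nat_lit 279) (nat_lit 243))) (XT.nd (nat_lit 78) (nat_lit 0) (nat_lit 0) (XT.lf (nat_lit 0) (nat_lit 22962620813) (nat_lit 76) (nat_lit 15269967262) (nat_lit 76) (nat_lit 9186819772) (nat_lit 8) (nat_lit 4) (nat_lit 9) (nat_lit 5) (nat_lit 9) (nat_lit 4) (nat_lit 379) (nat_lit 279) (nat_lit 242)) (XT.lf (nat_lit 0) (nat_lit 34330974829) (nat_lit 76) (nat_lit 10669010679) (nat_lit 76) (nat_lit 4528856597) (nat_lit 8) (nat_lit 4) (nat_lit 9) (nat_lit 5) (nat_lit 9) (nat_lit 4) (nat_lit 380) (nat_lit 279) (nat_lit 241))))))))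
noncomputable def xc51 : XT := (XT.nd (nat_lit 1950) (nat_lit 76) (nat_lit 0) (XT.nd (nat_lit 936) (nat_lit 152) (nat_lit 0) (XT.nd (nat_lit 468) (nat_lit 76) (nat_lit 0) (XT.nd (nat_lit 234) (nat_lit 0) (nat_lit 0) (XT.nd (nat_lit 78) (nat_lit 76) (nat_lit 0) (XT.lf (nat_lit 0) (nat_lit 289016325) (nat_lit 152) (nat_lit 5601962605) (nat_lit 76) (nat_lit 45855562680) (nat_lit 7) (nat_lit 5) (nat_lit 9) (nat_lit 5) (nat_lit 8) (nat_lit 4) (nat_lit 381) (nat_lit 279) (nat_lit 240)) (XT.nd (nat_lit 78) (nat_lit 0) (nat_lit 0) (XT.lf (nat_lit 0) (nat_lit 4426592187) (nat_lit 76) (nat_lit 779624846) (nat_lit 152) (nat_lit 48864670951) (nat_lit 6) (nat_lit 5) (nat_lit 7) (nat_lit 5) (nat_lit 8) (nat_lit 4) (nat_lit 382) (nat_lit 279) (nat_lit 239)) (XT.lf (nat_lit 0) (nat_lit 10479009024) (nat_lit 152) (nat_lit 41543568886) (nat_lit 0) (nat_lit 4483392672) (nat_lit 6) (nat_lit 5) (nat_lit 8)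 (nat_lit 4) (nat_lit 6) (nat_lit 4) (nat_lit 383) (nat_lit 279) (nat_lit 238)))) (XT.nd (nat_lit 78) (nat_lit 0) (nat_lit 0) (XT.lf (nat_lit 0) (nat_lit 15972681789) (nat_lit 152) (nat_lit 33159869391) (nat_lit 0) (nat_lit 9932399280) (nat_lit 6) (nat_lit 5) (nat_lit 8) (nat_lit 4) (nat_lit 6) (nat_lit 4) (nat_lit 384) (nat_lit 279) (nat_lit 237)) (XT.nd (nat_lit 78) (nat_lit 0) (nat_lit 0) (XT.lf (nat_lit 0) (nat_lit 21688143371) (nat_lit 152) (nat_lit 24461063995) (nat_lit 0) (nat_lit 15605321667) (nat_lit 6) (nat_lit 5) (nat_lit 8) (nat_lit 4) (nat_lit 6) (nat_lit 4) (nat_lit 385) (nat_lit 279) (nat_lit 236)) (XT.lf (nat_lit 0) (nat_lit 27639002014) (nat_lit 152) (nat_lit 15426441256) (nat_lit 0) (nat_lit 21515666789) (nat_lit 6) (nat_lit 5) (nat_lit 8) (nat_lit 4) (nat_lit 6) (nat_lit 4) (nat_lit 386) (nat_lit 279) (nat_lit 235))))) (XT.nd (nat_lit 234) (nat_lit 0) (nat_lit 0) (XT.nd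 (nat_lit 78) (nat_lit 76) (nat_lit 0) (XT.lf (nat_lit 0) (nat_lit 33839426427) (nat_lit 152) (nat_lit 6034490168) (nat_lit 0) (nat_lit 27677506898) (nat_lit 6) (nat_lit 5) (nat_lit 8) (nat_lit 4) (nat_lit 6) (nat_lit 4) (nat_lit 387) (nat_lit 279) (nat_lit 234)) (XT.nd (nat_lit 78) (nat_lit 0) (nat_lit 0) (XT.lf (nat_lit 0) (nat_lit 3860718148) (nat_lit 76) (nat_lit 36503738009) (nat_lit 76) (nat_lit 30305071522) (nat_lit 5) (nat_lit 4) (nat_lit 6) (nat_lit 5) (nat_lit 6) (nat_lit 4) (nat_lit 388) (nat_lit 279) (nat_lit 233)) (XT.lf (nat_lit 0) (nat_lit 14371733456) (nat_lit 76) (nat_lit 32901303162) (nat_lit 76) (nat_lit 26667639573) (nat_lit 5) (nat_lit 4) (nat_lit 6) (nat_lit 5) (nat_lit 6) (nat_lit 4) (nat_lit 389) (nat_lit 279) (nat_lit 232)))) (XT.nd (nat_lit 78) (nat_lit 0) (nat_lit 0) (XT.lf (nat_lit 0) (nat_lit 25324054485) (nat_lit 76) (nat_lit 29160231842) (nat_lit 76) (nat_lit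 22893237679) (nat_lit 5) (nat_lit 4) (nat_lit 6) (nat_lit 5) (nat_lit 6) (nat_lit 4) (nat_lit 390) (nat_lit 279) (nat_lit 231)) (XT.nd (nat_lit 78) (nat_lit 0) (nat_lit 0) (XT.lf (nat_lit 0) (nat_lit 36743758188) (nat_lit 76) (nat_lit 25271616734) (nat_lit 76) (nat_lit 18972879169) (nat_lit 5) (nat_lit 4) (nat_lit 6) (nat_lit 5) (nat_lit 6) (nat_lit 4) (nat_lit 391) (nat_lit 279) (nat_lit 230)) (XT.lf (nat_lit 0) (nat_lit 48658034338) (nat_lit 76) (nat_lit 21226199233) (nat_lit 76) (nat_lit 14897229855) (nat_lit 5) (nat_lit 4) (nat_lit 6) (nat_lit 5) (nat_lit 6) (nat_lit 4) (nat_lit 392) (nat_lit 279) (nat_lit 229)))))) (XT.nd (nat_lit 468) (nat_lit 0) (nat_lit 0) (XT.nd (nat_lit 234) (nat_lit 152) (nat_lit 0) (XT.nd (nat_lit 78) (nat_lit 0) (nat_lit 0) (XT.lf (nat_lit 0) (nat_lit 61095250258) (nat_lit 76) (nat_lit 17014347391) (nat_lit 76) (nat_lit 10656585810) (nat_lit 5) (nat_lit 4)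 (nat_lit 6) (nat_lit 5) (nat_lit 6) (nat_lit 4) (nat_lit 393) (nat_lit 279) (nat_lit 228)) (XT.nd (nat_lit 78) (nat_lit 0) (nat_lit 0) (XT.lf (nat_lit 0) (nat_lit 74085018367) (nat_lit 76) (nat_lit 12626032989) (nat_lit 76) (nat_lit 6240850263) (nat_lit 5) (nat_lit 4) (nat_lit 6) (nat_lit 5) (nat_lit 6) (nat_lit 4) (nat_lit 394) (nat_lit 279) (nat_lit 227)) (XT.lf (nat_lit 0) (nat_lit 87658266684) (nat_lit 76) (nat_lit 8050807661) (nat_lit 76) (nat_lit 1639509558) (nat_lit 5) (nat_lit 4) (nat_lit 6) (nat_lit 5) (nat_lit 6) (nat_lit 4) (nat_lit 395) (nat_lit 279) (nat_lit 226)))) (XT.nd (nat_lit 78) (nat_lit 76) (nat_lit 0) (XT.lf (nat_lit 0) (nat_lit 3057303612) (nat_lit 152) (nat_lit 168697483) (nat_lit 76) (nat_lit 98738231939) (nat_lit 4) (nat_lit 5) (nat_lit 6) (nat_lit 5) (nat_lit 5) (nat_lit 4) (nat_lit 396) (nat_lit 279) (nat_lit 225)) (XT.nd (nat_lit 78) (nat_lit 0) (nat_lit 0)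 (XT.lf (nat_lit 0) (nat_lit 8091362459) (nat_lit 152) (nat_lit 96770968361) (nat_lit 0) (nat_lit 1939117406) (nat_lit 3) (nat_lit 5) (nat_lit 5) (nat_lit 4) (nat_lit 3) (nat_lit 4) (nat_lit 397) (nat_lit 279) (nat_lit 224)) (XT.lf (nat_lit 0) (nat_lit 13402097909) (nat_lit 152) (nat_lit 91248812420) (nat_lit 0) (nat_lit 7228367672) (nat_lit 3) (nat_lit 5) (nat_lit 5) (nat_lit 4) (nat_lit 3) (nat_lit 4) (nat_lit 398) (nat_lit 279) (nat_lit 223))))) (XT.nd (nat_lit 234) (nat_lit 0) (nat_lit 0) (XT.nd (nat_lit 78) (nat_lit 0) (nat_lit 0) (XT.lf (nat_lit 0) (nat_lit 18949022120) (nat_lit 152) (nat_lit 85508617130) (nat_lit 0) (nat_lit 12754829801) (nat_lit 3) (nat_lit 5) (nat_lit 5) (nat_lit 4) (nat_lit 3) (nat_lit 4) (nat_lit 399) (nat_lit 279) (nat_lit 222)) (XT.nd (nat_lit 78) (nat_lit 0) (nat_lit 0) (XT.lf (nat_lit 0) (nat_lit 24745342054) (nat_lit 152) (nat_lit 79536715357) (nat_lit 0)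 (nat_lit 18531662039) (nat_lit 3) (nat_lit 5) (nat_lit 5) (nat_lit 4) (nat_lit 3) (nat_lit 4) (nat_lit 400) (nat_lit 279) (nat_lit 221)) (XT.lf (nat_lit 0) (nat_lit 30804858472) (nat_lit 152) (nat_lit 73318888289) (nat_lit 0) (nat_lit 24572618747) (nat_lit 3) (nat_lit 5) (nat_lit 5) (nat_lit 4) (nat_lit 3) (nat_lit 4) (nat_lit 401) (nat_lit 279) (nat_lit 220)))) (XT.nd (nat_lit 156) (nat_lit 0) (nat_lit 0) (XT.nd (nat_lit 78) (nat_lit 0) (nat_lit 0) (XT.lf (nat_lit 0) (nat_lit 37141998795) (nat_lit 152) (nat_lit 66840331576) (nat_lit 0) (nat_lit 30892083155) (nat_lit 3) (nat_lit 5) (nat_lit 5) (nat_lit 4) (nat_lit 3) (nat_lit 4) (nat_lit 402) (nat_lit 279) (nat_lit 219)) (XT.lf (nat_lit 0) (nat_lit 43771851452) (nat_lit 152) (nat_lit 60085620082) (nat_lit 0) (nat_lit 37505101608) (nat_lit 3) (nat_lit 5) (nat_lit 5) (nat_lit 4) (nat_lit 3) (nat_lit 4) (nat_lit 403) (nat_lit 279) (nat_lit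 218))) (XT.nd (nat_lit 78) (nat_lit 0) (nat_lit 0) (XT.lf (nat_lit 0) (nat_lit 50710201807) (nat_lit 152) (nat_lit 53038671161) (nat_lit 0) (nat_lit 44427419387) (nat_lit 3) (nat_lit 5) (nat_lit 5) (nat_lit 4) (nat_lit 3) (nat_lit 4) (nat_lit 404) (nat_lit 279) (nat_lit 217)) (XT.lf (nat_lit 0) (nat_lit 57973569741) (nat_lit 152) (nat_lit 45682706363) (nat_lit 0) (nat_lit 51675518202) (nat_lit 3) (nat_lit 5) (nat_lit 5) (nat_lit 4) (nat_lit 3) (nat_lit 4) (nat_lit 405) (nat_lit 279) (nat_lit 216))))))) (XT.nd (nat_lit 936) (nat_lit 0) (nat_lit 0) (XT.nd (nat_lit 468) (nat_lit 0) (nat_lit 0) (XT.nd (nat_lit 234) (nat_lit 76) (nat_lit 0) (XT.nd (nat_lit 78) (nat_lit 0) (nat_lit 0) (XT.lf (nat_lit 0) (nat_lit 65579248988) (nat_lit 152) (nat_lit 38000211486) (nat_lit 0) (nat_lit 59266655430) (nat_lit 3) (nat_lit 5) (nat_lit 5) (nat_lit 4) (nat_lit 3) (nat_lit 4) (nat_lit 406) (nat_lit 279)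 (nat_lit 215)) (XT.nd (nat_lit 78) (nat_lit 0) (nat_lit 0) (XT.lf (nat_lit 0) (nat_lit 73545348308) (nat_lit 152) (nat_lit 29972894876) (nat_lit 0) (nat_lit 67218905208) (nat_lit 3) (nat_lit 5) (nat_lit 5) (nat_lit 4) (nat_lit 3) (nat_lit 4) (nat_lit 407) (nat_lit 279) (nat_lit 214)) (XT.lf (nat_lit 0) (nat_lit 81890834603) (nat_lit 152) (nat_lit 21581643875) (nat_lit 0) (nat_lit 75551201463) (nat_lit 3) (nat_lit 5) (nat_lit 5) (nat_lit 4) (nat_lit 3) (nat_lit 4) (nat_lit 408) (nat_lit 279) (nat_lit 213)))) (XT.nd (nat_lit 78) (nat_lit 76) (nat_lit 0) (XT.lf (nat_lit 0) (nat_lit 90635578080) (nat_lit 152) (nat_lit 12806479312) (nat_lit 0) (nat_lit 84283382997) (nat_lit 3) (nat_lit 5) (nat_lit 5) (nat_lit 4) (nat_lit 3) (nat_lit 4) (nat_lit 409) (nat_lit 279) (nat_lit 212)) (XT.nd (nat_lit 78) (nat_lit 76) (nat_lit 0) (XT.lf (nat_lit 0) (nat_lit 99800399555) (nat_lit 152) (nat_lit 3626507940)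 (nat_lit 0) (nat_lit 93436240718) (nat_lit 3) (nat_lit 5) (nat_lit 5) (nat_lit 4) (nat_lit 3) (nat_lit 4) (nat_lit 410) (nat_lit 279) (nat_lit 211)) (XT.lf (nat_lit 0) (nat_lit 6177857332) (nat_lit 76) (nat_lit 103325716367) (nat_lit 76) (nat_lit 96950163478) (nat_lit 2) (nat_lit 4) (nat_lit 3) (nat_lit 5) (nat_lit 3) (nat_lit 4) (nat_lit 411) (nat_lit 279) (nat_lit 210))))) (XT.nd (nat_lit 234) (nat_lit 0) (nat_lit 0) (XT.nd (nat_lit 78) (nat_lit 0) (nat_lit 0) (XT.lf (nat_lit 0) (nat_lit 16566531879) (nat_lit 76) (nat_lit 103170730769) (nat_lit 76) (nat_lit 96784326401) (nat_lit 2) (nat_lit 4) (nat_lit 3) (nat_lit 5) (nat_lit 3) (nat_lit 4) (nat_lit 412) (nat_lit 279) (nat_lit 209)) (XT.nd (nat_lit 78) (nat_lit 0) (nat_lit 0) (XT.lf (nat_lit 0) (nat_lit 27444341908) (nat_lit 76) (nat_lit 103022998355) (nat_lit 76) (nat_lit 96626259246) (nat_lit 2) (nat_lit 4) (nat_lit 3) (nat_lit 5) (nat_lit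 3) (nat_lit 4) (nat_lit 413) (nat_lit 279) (nat_lit 208)) (XT.lf (nat_lit 0) (nat_lit 38837186968) (nat_lit 76) (nat_lit 102882167382) (nat_lit 76) (nat_lit 96475585662) (nat_lit 2) (nat_lit 4) (nat_lit 3) (nat_lit 5) (nat_lit 3) (nat_lit 4) (nat_lit 414) (nat_lit 279) (nat_lit 207)))) (XT.nd (nat_lit 78) (nat_lit 0) (nat_lit 0) (XT.lf (nat_lit 0) (nat_lit 50772192879) (nat_lit 76) (nat_lit 102747902536) (nat_lit 76) (nat_lit 96331946902) (nat_lit 2) (nat_lit 4) (nat_lit 3) (nat_lit 5) (nat_lit 3) (nat_lit 4) (nat_lit 415) (nat_lit 279) (nat_lit 206)) (XT.nd (nat_lit 78) (nat_lit 0) (nat_lit 0) (XT.lf (nat_lit 0) (nat_lit 63277776323) (nat_lit 76) (nat_lit 102619884141) (nat_lit 76) (nat_lit 96195000968) (nat_lit 2) (nat_lit 4) (nat_lit 3) (nat_lit 5) (nat_lit 3) (nat_lit 4) (nat_lit 416) (nat_lit 279) (nat_lit 205)) (XT.lf (nat_lit 0) (nat_lit 76383712498) (nat_lit 76) (nat_lit 102497807390)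 (nat_lit 76) (nat_lit 96064421800) (nat_lit 2) (nat_lit 4) (nat_lit 3) (nat_lit 5) (nat_lit 3) (nat_lit 4) (nat_lit 417) (nat_lit 279) (nat_lit 204)))))) (XT.nd (nat_lit 468) (nat_lit 0) (nat_lit 0) (XT.nd (nat_lit 234) (nat_lit 0) (nat_lit 0) (XT.nd (nat_lit 78) (nat_lit 0) (nat_lit 0) (XT.lf (nat_lit 0) (nat_lit 90121206015) (nat_lit 76) (nat_lit 102381381625) (nat_lit 76) (nat_lit 95939898495) (nat_lit 2) (nat_lit 4) (nat_lit 3) (nat_lit 5) (nat_lit 3) (nat_lit 4) (nat_lit 418) (nat_lit 279) (nat_lit 203)) (XT.nd (nat_lit 78) (nat_lit 0) (nat_lit 0) (XT.lf (nat_lit 0) (nat_lit 104522965191) (nat_lit 76) (nat_lit 102270329641) (nat_lit 76) (nat_lit 95821134568) (nat_lit 2) (nat_lit 4) (nat_lit 3) (nat_lit 5) (nat_lit 3) (nat_lit 4) (nat_lit 419) (nat_lit 279) (nat_lit 202)) (XT.lf (nat_lit 0) (nat_lit 119623279928) (nat_lit 76) (nat_lit 102164387028) (nat_lit 76) (nat_lit 95707847248)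 (nat_lit 2) (nat_lit 4) (nat_lit 3) (nat_lit 5) (nat_lit 3) (nat_lit 4) (nat_lit 420) (nat_lit 279) (nat_lit 201)))) (XT.nd (nat_lit 78) (nat_lit 0) (nat_lit 0) (XT.lf (nat_lit 0) (nat_lit 135458103358) (nat_lit 76) (nat_lit 102063301544) (nat_lit 76) (nat_lit 95599766803) (nat_lit 2) (nat_lit 4) (nat_lit 3) (nat_lit 5) (nat_lit 3) (nat_lit 4) (nat_lit 421) (nat_lit 279) (nat_lit 200)) (XT.nd (nat_lit 78) (nat_lit 0) (nat_lit 0) (XT.lf (nat_lit 0) (nat_lit 152065137441) (nat_lit 76) (nat_lit 101966832506) (nat_lit 76) (nat_lit 95496635900) (nat_lit 2) (nat_lit 4) (nat_lit 3) (nat_lit 5) (nat_lit 3) (nat_lit 4) (nat_lit 422) (nat_lit 279) (nat_lit 199)) (XT.lf (nat_lit 0) (nat_lit 169483922734) (nat_lit 76) (nat_lit 101874750229) (nat_lit 76) (nat_lit 95398208987) (nat_lit 2) (nat_lit 4) (nat_lit 3) (nat_lit 5) (nat_lit 3) (nat_lit 4) (nat_lit 423) (nat_lit 279) (nat_lit 198))))) (XT.nd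 (nat_lit 234) (nat_lit 0) (nat_lit 0) (XT.nd (nat_lit 78) (nat_lit 0) (nat_lit 0) (XT.lf (nat_lit 0) (nat_lit 187755932535) (nat_lit 76) (nat_lit 101786835467) (nat_lit 76) (nat_lit 95304251717) (nat_lit 2) (nat_lit 4) (nat_lit 3) (nat_lit 5) (nat_lit 3) (nat_lit 4) (nat_lit 424) (nat_lit 279) (nat_lit 197)) (XT.nd (nat_lit 78) (nat_lit 0) (nat_lit 0) (XT.lf (nat_lit 0) (nat_lit 206924671631) (nat_lit 76) (nat_lit 101702878901) (nat_lit 76) (nat_lit 95214540380) (nat_lit 2) (nat_lit 4) (nat_lit 3) (nat_lit 5) (nat_lit 3) (nat_lit 4) (nat_lit 425) (nat_lit 279) (nat_lit 196)) (XT.lf (nat_lit 0) (nat_lit 227035779874) (nat_lit 76) (nat_lit 101622680633) (nat_lit 76) (nat_lit 95128861378) (nat_lit 2) (nat_lit 4) (nat_lit 3) (nat_lit 5) (nat_lit 3) (nat_lit 4) (nat_lit 426) (nat_lit 279) (nat_lit 195)))) (XT.nd (nat_lit 156) (nat_lit 0) (nat_lit 0) (XT.nd (nat_lit 78) (nat_lit 0) (nat_lit 0)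 (XT.lf (nat_lit 0) (nat_lit 248137140858) (nat_lit 76) (nat_lit 101546049716) (nat_lit 76) (nat_lit 95047010714) (nat_lit 2) (nat_lit 4) (nat_lit 3) (nat_lit 5) (nat_lit 3) (nat_lit 4) (nat_lit 427) (nat_lit 279) (nat_lit 194)) (XT.lf (nat_lit 0) (nat_lit 270278995917) (nat_lit 76) (nat_lit 101472803694) (nat_lit 76) (nat_lit 94968793505) (nat_lit 2) (nat_lit 4) (nat_lit 3) (nat_lit 5) (nat_lit 3) (nat_lit 4) (nat_lit 428) (nat_lit 279) (nat_lit 193))) (XT.nd (nat_lit 78) (nat_lit 0) (nat_lit 0) (XT.lf (nat_lit 0) (nat_lit 293514063754) (nat_lit 76) (nat_lit 101402768173) (nat_lit 76) (nat_lit 94894023520) (nat_lit 2) (nat_lit 4) (nat_lit 3) (nat_lit 5) (nat_lit 3) (nat_lit 4) (nat_lit 429) (nat_lit 279) (nat_lit 192)) (XT.lf (nat_lit 0) (nat_lit 317897665959) (nat_lit 76) (nat_lit 101335776401) (nat_lit 76) (nat_lit 94822522735) (nat_lit 2) (nat_lit 4) (nat_lit 3) (nat_lit 5) (nat_lit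 3) (nat_lit 4) (nat_lit 430) (nat_lit 279) (nat_lit 191))))))))
noncomputable def xc52 : XT := (XT.nd (nat_lit 40794) (nat_lit 0) (nat_lit 532) (XT.nd (nat_lit 39858) (nat_lit 0) (nat_lit 1672) (XT.nd (nat_lit 468) (nat_lit 0) (nat_lit 0) (XT.nd (nat_lit 234) (nat_lit 0) (nat_lit 0) (XT.nd (nat_lit 78) (nat_lit 0) (nat_lit 0) (XT.lf (nat_lit 0) (nat_lit 343487858728) (nat_lit 76) (nat_lit 101271668874) (nat_lit 76) (nat_lit 94754120909) (nat_lit 2) (nat_lit 4) (nat_lit 3) (nat_lit 5) (nat_lit 3) (nat_lit 4) (nat_lit 431) (nat_lit 279) (nat_lit 190)) (XT.nd (nat_lit 78) (nat_lit 0) (nat_lit 0) (XT.lf (nat_lit 0) (nat_lit 370345571091) (nat_lit 76) (nat_lit 101210292956) (nat_lit 76) (nat_lit 94688655183) (nat_lit 2) (nat_lit 4) (nat_lit 3) (nat_lit 5) (nat_lit 3) (nat_lit 4) (nat_lit 432) (nat_lit 279) (nat_lit 189)) (XT.lf (nat_lit 0) (nat_lit 398534749982) (nat_lit 76) (nat_lit 101151502512)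 (nat_lit 76) (nat_lit 94625969683) (nat_lit 2) (nat_lit 4) (nat_lit 3) (nat_lit 5) (nat_lit 3) (nat_lit 4) (nat_lit 433) (nat_lit 279) (nat_lit 188)))) (XT.nd (nat_lit 78) (nat_lit 0) (nat_lit 0) (XT.lf (nat_lit 0) (nat_lit 428122512495) (nat_lit 76) (nat_lit 101095157565) (nat_lit 76) (nat_lit 94565915161) (nat_lit 2) (nat_lit 4) (nat_lit 3) (nat_lit 5) (nat_lit 3) (nat_lit 4) (nat_lit 434) (nat_lit 279) (nat_lit 187)) (XT.nd (nat_lit 78) (nat_lit 0) (nat_lit 0) (XT.lf (nat_lit 0) (nat_lit 459179305681) (nat_lit 76) (nat_lit 101041123962) (nat_lit 76) (nat_lit 94508348627) (nat_lit 2) (nat_lit 4) (nat_lit 3) (nat_lit 5) (nat_lit 3) (nat_lit 4) (nat_lit 435) (nat_lit 279) (nat_lit 186)) (XT.lf (nat_lit 0) (nat_lit 491779074289) (nat_lit 76) (nat_lit 100989273051) (nat_lit 76) (nat_lit 94453133021) (nat_lit 2) (nat_lit 4) (nat_lit 3) (nat_lit 5) (nat_lit 3) (nat_lit 4) (nat_lit 436) (nat_lit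 279) (nat_lit 185))))) (XT.nd (nat_lit 234) (nat_lit 0) (nat_lit 0) (XT.nd (nat_lit 78) (nat_lit 0) (nat_lit 0) (XT.lf (nat_lit 0) (nat_lit 525999436813) (nat_lit 76) (nat_lit 100939481376) (nat_lit 76) (nat_lit 94400136874) (nat_lit 2) (nat_lit 4) (nat_lit 3) (nat_lit 5) (nat_lit 3) (nat_lit 4) (nat_lit 437) (nat_lit 279) (nat_lit 184)) (XT.nd (nat_lit 78) (nat_lit 0) (nat_lit 0) (XT.lf (nat_lit 0) (nat_lit 561921870307) (nat_lit 76) (nat_lit 100891630387) (nat_lit 76) (nat_lit 94349234008) (nat_lit 2) (nat_lit 4) (nat_lit 3) (nat_lit 5) (nat_lit 3) (nat_lit 4) (nat_lit 438) (nat_lit 279) (nat_lit 183)) (XT.lf (nat_lit 0) (nat_lit 599631904376) (nat_lit 76) (nat_lit 100845606152) (nat_lit 76) (nat_lit 94300303223) (nat_lit 2) (nat_lit 4) (nat_lit 3) (nat_lit 5) (nat_lit 3) (nat_lit 4) (nat_lit 439) (nat_lit 279) (nat_lit 182)))) (XT.nd (nat_lit 78) (nat_lit 0) (nat_lit 0) (XT.lf (nat_lit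 0) (nat_lit 639219324814) (nat_lit 76) (nat_lit 100801299091) (nat_lit 76) (nat_lit 94253228018) (nat_lit 2) (nat_lit 4) (nat_lit 3) (nat_lit 5) (nat_lit 3) (nat_lit 4) (nat_lit 440) (nat_lit 279) (nat_lit 181)) (XT.nd (nat_lit 39000) (nat_lit 0) (nat_lit 2888) (XT.lf (nat_lit 0) (nat_lit 680778387385) (nat_lit 76) (nat_lit 100758603709) (nat_lit 76) (nat_lit 94207896310) (nat_lit 2) (nat_lit 4) (nat_lit 3) (nat_lit 5) (nat_lit 3) (nat_lit 4) (nat_lit 441) (nat_lit 279) (nat_lit 180)) (XT.lf (nat_lit 0) (nat_lit 1990043210) (nat_lit 228) (nat_lit 1894188536) (nat_lit 0) (nat_lit 1990043210) (nat_lit 40) (nat_lit 5) (nat_lit 43) (nat_lit 4) (nat_lit 40) (nat_lit 4) (nat_lit 340) (nat_lit 280) (nat_lit 280)))))) (XT.nd (nat_lit 468) (nat_lit 456) (nat_lit 0) (XT.nd (nat_lit 234) (nat_lit 456) (nat_lit 0) (XT.nd (nat_lit 78) (nat_lit 152) (nat_lit 0) (XT.lf (nat_lit 0) (nat_lit 5402287978)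 (nat_lit 152) (nat_lit 3612486249) (nat_lit 152) (nat_lit 3047780601) (nat_lit 38) (nat_lit 4) (nat_lit 40) (nat_lit 5) (nat_lit 40) (nat_lit 4) (nat_lit 341) (nat_lit 280) (nat_lit 279)) (XT.nd (nat_lit 78) (nat_lit 0) (nat_lit 0) (XT.lf (nat_lit 0) (nat_lit 1788755946) (nat_lit 152) (nat_lit 9866291326) (nat_lit 0) (nat_lit 738736375) (nat_lit 36) (nat_lit 5) (nat_lit 38) (nat_lit 4) (nat_lit 36) (nat_lit 4) (nat_lit 342) (nat_lit 280) (nat_lit 278)) (XT.lf (nat_lit 0) (nat_lit 6764375250) (nat_lit 152) (nat_lit 748231580) (nat_lit 0) (nat_lit 5226541708) (nat_lit 36) (nat_lit 5) (nat_lit 38) (nat_lit 4) (nat_lit 36) (nat_lit 4) (nat_lit 343) (nat_lit 280) (nat_lit 277)))) (XT.nd (nat_lit 78) (nat_lit 304) (nat_lit 0) (XT.lf (nat_lit 0) (nat_lit 8815370939) (nat_lit 152) (nat_lit 3145148004) (nat_lit 152) (nat_lit 1142729727) (nat_lit 34) (nat_lit 4) (nat_lit 36) (nat_lit 5) (nat_lit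 36) (nat_lit 4) (nat_lit 344) (nat_lit 280) (nat_lit 276)) (XT.nd (nat_lit 78) (nat_lit 152) (nat_lit 0) (XT.lf (nat_lit 0) (nat_lit 3757172844) (nat_lit 152) (nat_lit 8299042163) (nat_lit 0) (nat_lit 1428715770) (nat_lit 32) (nat_lit 5) (nat_lit 34) (nat_lit 4) (nat_lit 32) (nat_lit 4) (nat_lit 345) (nat_lit 280) (nat_lit 275)) (XT.lf (nat_lit 0) (nat_lit 1068115645) (nat_lit 152) (nat_lit 7773781412) (nat_lit 152) (nat_lit 5043998577) (nat_lit 30) (nat_lit 4) (nat_lit 32) (nat_lit 5) (nat_lit 32) (nat_lit 4) (nat_lit 346) (nat_lit 280) (nat_lit 274))))) (XT.nd (nat_lit 234) (nat_lit 152) (nat_lit 0) (XT.nd (nat_lit 78) (nat_lit 304) (nat_lit 0) (XT.lf (nat_lit 0) (nat_lit 10901779269) (nat_lit 152) (nat_lit 3259085749) (nat_lit 152) (nat_lit 147087904) (nat_lit 30) (nat_lit 4) (nat_lit 32) (nat_lit 5) (nat_lit 32) (nat_lit 4) (nat_lit 347) (nat_lit 280) (nat_lit 273)) (XT.nd (nat_lit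 78) (nat_lit 152) (nat_lit 0) (XT.lf (nat_lit 0) (nat_lit 4802078301) (nat_lit 152) (nat_lit 8455222080) (nat_lit 0) (nat_lit 1491590548) (nat_lit 28) (nat_lit 5) (nat_lit 30) (nat_lit 4) (nat_lit 28) (nat_lit 4) (nat_lit 348) (nat_lit 280) (nat_lit 272)) (XT.lf (nat_lit 0) (nat_lit 1083125143) (nat_lit 152) (nat_lit 8885297466) (nat_lit 152) (nat_lit 5244638016) (nat_lit 26) (nat_lit 4) (nat_lit 28) (nat_lit 5) (nat_lit 28) (nat_lit 4) (nat_lit 349) (nat_lit 280) (nat_lit 271)))) (XT.nd (nat_lit 78) (nat_lit 152) (nat_lit 0) (XT.lf (nat_lit 0) (nat_lit 11113969166) (nat_lit 152) (nat_lit 4271010115) (nat_lit 152) (nat_lit 315901430) (nat_lit 26) (nat_lit 4) (nat_lit 28) (nat_lit 5) (nat_lit 28) (nat_lit 4) (nat_lit 350) (nat_lit 280) (nat_lit 270)) (XT.nd (nat_lit 78) (nat_lit 0) (nat_lit 0) (XT.lf (nat_lit 0) (nat_lit 4648945001) (nat_lit 152) (nat_lit 10966166612) (nat_lit 0) (nat_lit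 596960099) (nat_lit 24) (nat_lit 5) (nat_lit 26) (nat_lit 4) (nat_lit 24) (nat_lit 4) (nat_lit 351) (nat_lit 280) (nat_lit 269)) (XT.lf (nat_lit 0) (nat_lit 9854835232) (nat_lit 152) (nat_lit 1362371617) (nat_lit 0) (nat_lit 5531217258) (nat_lit 24) (nat_lit 5) (nat_lit 26) (nat_lit 4) (nat_lit 24) (nat_lit 4) (nat_lit 352) (nat_lit 280) (nat_lit 268))))))) (XT.nd (nat_lit 936) (nat_lit 456) (nat_lit 0) (XT.nd (nat_lit 468) (nat_lit 228) (nat_lit 0) (XT.nd (nat_lit 234) (nat_lit 228) (nat_lit 0) (XT.nd (nat_lit 78) (nat_lit 152) (nat_lit 0) (XT.lf (nat_lit 0) (nat_lit 8743778665) (nat_lit 76) (nat_lit 6575133572) (nat_lit 76) (nat_lit 1992817434) (nat_lit 23) (nat_lit 4) (nat_lit 24) (nat_lit 5) (nat_lit 24) (nat_lit 4) (nat_lit 353) (nat_lit 280) (nat_lit 267)) (XT.nd (nat_lit 78) (nat_lit 0) (nat_lit 0) (XT.lf (nat_lit 0) (nat_lit 1232188690) (nat_lit 76) (nat_lit 1724340105) (nat_lit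 152) (nat_lit 14949015143) (nat_lit 21) (nat_lit 5) (nat_lit 22) (nat_lit 5) (nat_lit 23) (nat_lit 4) (nat_lit 354) (nat_lit 280) (nat_lit 266)) (XT.lf (nat_lit 0) (nat_lit 8148984036) (nat_lit 152) (nat_lit 7048573442) (nat_lit 0) (nat_lit 3326753368) (nat_lit 21) (nat_lit 5) (nat_lit 23) (nat_lit 4) (nat_lit 21) (nat_lit 4) (nat_lit 355) (nat_lit 280) (nat_lit 265)))) (XT.nd (nat_lit 78) (nat_lit 152) (nat_lit 0) (XT.lf (nat_lit 0) (nat_lit 2874586555) (nat_lit 76) (nat_lit 10668702645) (nat_lit 76) (nat_lit 5633640357) (nat_lit 20) (nat_lit 4) (nat_lit 21) (nat_lit 5) (nat_lit 21) (nat_lit 4) (nat_lit 356) (nat_lit 280) (nat_lit 264)) (XT.nd (nat_lit 78) (nat_lit 152) (nat_lit 0) (XT.lf (nat_lit 0) (nat_lit 13295994738) (nat_lit 76) (nat_lit 5902211177) (nat_lit 76) (nat_lit 664452108) (nat_lit 20) (nat_lit 4) (nat_lit 21) (nat_lit 5) (nat_lit 21) (nat_lit 4) (nat_lit 357) (nat_lit 280)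 (nat_lit 263)) (XT.lf (nat_lit 0) (nat_lit 3460261071) (nat_lit 76) (nat_lit 876843656) (nat_lit 152) (nat_lit 16245553221) (nat_lit 18) (nat_lit 5) (nat_lit 19) (nat_lit 5) (nat_lit 20) (nat_lit 4) (nat_lit 358) (nat_lit 280) (nat_lit 262))))) (XT.nd (nat_lit 234) (nat_lit 152) (nat_lit 0) (XT.nd (nat_lit 78) (nat_lit 76) (nat_lit 0) (XT.lf (nat_lit 0) (nat_lit 9624353922) (nat_lit 152) (nat_lit 7433819611) (nat_lit 0) (nat_lit 4277062897) (nat_lit 18) (nat_lit 5) (nat_lit 20) (nat_lit 4) (nat_lit 18) (nat_lit 4) (nat_lit 359) (nat_lit 280) (nat_lit 261)) (XT.nd (nat_lit 78) (nat_lit 0) (nat_lit 0) (XT.lf (nat_lit 0) (nat_lit 2582885513) (nat_lit 76) (nat_lit 12529893627) (nat_lit 76) (nat_lit 7015843459) (nat_lit 17) (nat_lit 4) (nat_lit 18) (nat_lit 5) (nat_lit 18) (nat_lit 4) (nat_lit 360) (nat_lit 280) (nat_lit 260)) (XT.lf (nat_lit 0) (nat_lit 13137538839) (nat_lit 76) (nat_lit 7748258779)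 (nat_lit 76) (nat_lit 2075390379) (nat_lit 17) (nat_lit 4) (nat_lit 18) (nat_lit 5) (nat_lit 18) (nat_lit 4) (nat_lit 361) (nat_lit 280) (nat_lit 259)))) (XT.nd (nat_lit 78) (nat_lit 0) (nat_lit 0) (XT.lf (nat_lit 0) (nat_lit 125810289) (nat_lit 76) (nat_lit 2776596611) (nat_lit 152) (nat_lit 20936065756) (nat_lit 15) (nat_lit 5) (nat_lit 16) (nat_lit 5) (nat_lit 17) (nat_lit 4) (nat_lit 362) (nat_lit 280) (nat_lit 258)) (XT.nd (nat_lit 78) (nat_lit 0) (nat_lit 0) (XT.lf (nat_lit 0) (nat_lit 8155031172) (nat_lit 152) (nat_lit 14127067654) (nat_lit 0) (nat_lit 2471053386) (nat_lit 15) (nat_lit 5) (nat_lit 17) (nat_lit 4) (nat_lit 15) (nat_lit 4) (nat_lit 363) (nat_lit 280) (nat_lit 257)) (XT.lf (nat_lit 0) (nat_lit 13609553252) (nat_lit 152) (nat_lit 4312149086) (nat_lit 0) (nat_lit 7794915313) (nat_lit 15) (nat_lit 5) (nat_lit 17) (nat_lit 4) (nat_lit 15) (nat_lit 4) (nat_lit 364) (nat_lit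 280) (nat_lit 256)))))) (XT.nd (nat_lit 468) (nat_lit 228) (nat_lit 0) (XT.nd (nat_lit 234) (nat_lit 76) (nat_lit 0) (XT.nd (nat_lit 78) (nat_lit 76) (nat_lit 0) (XT.lf (nat_lit 0) (nat_lit 5990547578) (nat_lit 76) (nat_lit 13338591300) (nat_lit 76) (nat_lit 7399515121) (nat_lit 14) (nat_lit 4) (nat_lit 15) (nat_lit 5) (nat_lit 15) (nat_lit 4) (nat_lit 365) (nat_lit 280) (nat_lit 255)) (XT.nd (nat_lit 78) (nat_lit 76) (nat_lit 0) (XT.lf (nat_lit 0) (nat_lit 16766524757) (nat_lit 76) (nat_lit 8541843397) (nat_lit 76) (nat_lit 2484254609) (nat_lit 14) (nat_lit 4) (nat_lit 15) (nat_lit 5) (nat_lit 15) (nat_lit 4) (nat_lit 366) (nat_lit 280) (nat_lit 254)) (XT.lf (nat_lit 0) (nat_lit 2494899171) (nat_lit 152) (nat_lit 1055914638) (nat_lit 76) (nat_lit 25361708920) (nat_lit 13) (nat_lit 5) (nat_lit 15) (nat_lit 5) (nat_lit 14) (nat_lit 4) (nat_lit 367) (nat_lit 280) (nat_lit 253)))) (XT.nd (nat_lit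 78) (nat_lit 0) (nat_lit 0) (XT.lf (nat_lit 0) (nat_lit 7724369449) (nat_lit 152) (nat_lit 20612414412) (nat_lit 0) (nat_lit 1745367192) (nat_lit 12) (nat_lit 5) (nat_lit 14) (nat_lit 4) (nat_lit 12) (nat_lit 4) (nat_lit 368) (nat_lit 280) (nat_lit 252)) (XT.nd (nat_lit 78) (nat_lit 0) (nat_lit 0) (XT.lf (nat_lit 0) (nat_lit 13200419090) (nat_lit 152) (nat_lit 10986681563) (nat_lit 0) (nat_lit 7123916215) (nat_lit 12) (nat_lit 5) (nat_lit 14) (nat_lit 4) (nat_lit 12) (nat_lit 4) (nat_lit 369) (nat_lit 280) (nat_lit 251)) (XT.lf (nat_lit 0) (nat_lit 18863338076) (nat_lit 152) (nat_lit 1048367912) (nat_lit 0) (nat_lit 12693977471) (nat_lit 12) (nat_lit 5) (nat_lit 14) (nat_lit 4) (nat_lit 12) (nat_lit 4) (nat_lit 370) (nat_lit 280) (nat_lit 250))))) (XT.nd (nat_lit 234) (nat_lit 76) (nat_lit 0) (XT.nd (nat_lit 78) (nat_lit 76) (nat_lit 0) (XT.lf (nat_lit 0) (nat_lit 9531248674) (nat_lit 76)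 (nat_lit 15344170377) (nat_lit 76) (nat_lit 9086373838) (nat_lit 11) (nat_lit 4) (nat_lit 12) (nat_lit 5) (nat_lit 12) (nat_lit 4) (nat_lit 371) (nat_lit 280) (nat_lit 249)) (XT.nd (nat_lit 78) (nat_lit 76) (nat_lit 0) (XT.lf (nat_lit 0) (nat_lit 20518162315) (nat_lit 76) (nat_lit 10606377376) (nat_lit 76) (nat_lit 4264356138) (nat_lit 11) (nat_lit 4) (nat_lit 12) (nat_lit 5) (nat_lit 12) (nat_lit 4) (nat_lit 372) (nat_lit 280) (nat_lit 248)) (XT.lf (nat_lit 0) (nat_lit 694471721) (nat_lit 152) (nat_lit 4998568208) (nat_lit 76) (nat_lit 31197635615) (nat_lit 10) (nat_lit 5) (nat_lit 12) (nat_lit 5) (nat_lit 11) (nat_lit 4) (nat_lit 373) (nat_lit 280) (nat_lit 247)))) (XT.nd (nat_lit 156) (nat_lit 0) (nat_lit 0) (XT.nd (nat_lit 78) (nat_lit 0) (nat_lit 0) (XT.lf (nat_lit 0) (nat_lit 5321755870) (nat_lit 76) (nat_lit 444285784) (nat_lit 152) (nat_lit 32697610150) (nat_lit 9) (nat_lit 5) (nat_lit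 10) (nat_lit 5) (nat_lit 11) (nat_lit 4) (nat_lit 374) (nat_lit 280) (nat_lit 246)) (XT.lf (nat_lit 0) (nat_lit 11181601791) (nat_lit 152) (nat_lit 24006023631) (nat_lit 0) (nat_lit 4923138950) (nat_lit 9) (nat_lit 5) (nat_lit 11) (nat_lit 4) (nat_lit 9) (nat_lit 4) (nat_lit 375) (nat_lit 280) (nat_lit 245))) (XT.nd (nat_lit 78) (nat_lit 0) (nat_lit 0) (XT.lf (nat_lit 0) (nat_lit 16804044427) (nat_lit 152) (nat_lit 14559801280) (nat_lit 0) (nat_lit 10479589330) (nat_lit 9) (nat_lit 5) (nat_lit 11) (nat_lit 4) (nat_lit 9) (nat_lit 4) (nat_lit 376) (nat_lit 280) (nat_lit 244)) (XT.lf (nat_lit 0) (nat_lit 22639819784) (nat_lit 152) (nat_lit 4773801330) (nat_lit 0) (nat_lit 16252514920) (nat_lit 9) (nat_lit 5) (nat_lit 11) (nat_lit 4) (nat_lit 9) (nat_lit 4) (nat_lit 377) (nat_lit 280) (nat_lit 243))))))))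
noncomputable def xc53 : XT := (XT.nd (nat_lit 1950) (nat_lit 76) (nat_lit 0) (XT.nd (nat_lit 936) (nat_lit 152) (nat_lit 0) (XT.nd (nat_lit 468) (nat_lit 76) (nat_lit 0) (XT.nd (nat_lit 234) (nat_lit 152) (nat_lit 0) (XT.nd (nat_lit 78) (nat_lit 0) (nat_lit 0) (XT.lf (nat_lit 0) (nat_lit 5553007124) (nat_lit 76) (nat_lit 23236513445) (nat_lit 76) (nat_lit 16789351659) (nat_lit 8) (nat_lit 4) (nat_lit 9) (nat_lit 5) (nat_lit 9) (nat_lit 4) (nat_lit 378) (nat_lit 280) (nat_lit 242)) (XT.nd (nat_lit 78) (nat_lit 0) (nat_lit 0) (XT.lf (nat_lit 0) (nat_lit 16437705050) (nat_lit 76) (nat_lit 18826422084) (nat_lit 76) (nat_lit 12322253707) (nat_lit 8) (nat_lit 4) (nat_lit 9) (nat_lit 5) (nat_lit 9) (nat_lit 4) (nat_lit 379) (nat_lit 280) (nat_lit 241)) (XT.lf (nat_lit 0) (nat_lit 27748364965) (nat_lit 76) (nat_lit 14253693450) (nat_lit 76) (nat_lit 7695233081) (nat_lit 8) (nat_lit 4) (nat_lit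 9) (nat_lit 5) (nat_lit 9) (nat_lit 4) (nat_lit 380) (nat_lit 280) (nat_lit 240)))) (XT.nd (nat_lit 78) (nat_lit 152) (nat_lit 0) (XT.lf (nat_lit 0) (nat_lit 39511917009) (nat_lit 76) (nat_lit 9507440094) (nat_lit 76) (nat_lit 2897273066) (nat_lit 8) (nat_lit 4) (nat_lit 9) (nat_lit 5) (nat_lit 9) (nat_lit 4) (nat_lit 381) (nat_lit 280) (nat_lit 239)) (XT.nd (nat_lit 78) (nat_lit 76) (nat_lit 0) (XT.lf (nat_lit 0) (nat_lit 2016379441) (nat_lit 152) (nat_lit 2525833610) (nat_lit 76) (nat_lit 49705841839) (nat_lit 7) (nat_lit 5) (nat_lit 9) (nat_lit 5) (nat_lit 8) (nat_lit 4) (nat_lit 382) (nat_lit 280) (nat_lit 238)) (XT.lf (nat_lit 0) (nat_lit 7161927308) (nat_lit 152) (nat_lit 48752610409) (nat_lit 0) (nat_lit 774964518) (nat_lit 6) (nat_lit 5) (nat_lit 8) (nat_lit 4) (nat_lit 6) (nat_lit 4) (nat_lit 383) (nat_lit 280) (nat_lit 237))))) (XT.nd (nat_lit 234) (nat_lit 76) (nat_lit 0) (XT.nd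 (nat_lit 78) (nat_lit 0) (nat_lit 0) (XT.lf (nat_lit 0) (nat_lit 12629797721) (nat_lit 152) (nat_lit 40419681193) (nat_lit 0) (nat_lit 6200295735) (nat_lit 6) (nat_lit 5) (nat_lit 8) (nat_lit 4) (nat_lit 6) (nat_lit 4) (nat_lit 384) (nat_lit 280) (nat_lit 236)) (XT.nd (nat_lit 78) (nat_lit 0) (nat_lit 0) (XT.lf (nat_lit 0) (nat_lit 18320685636) (nat_lit 152) (nat_lit 31769228445) (nat_lit 0) (nat_lit 11850670130) (nat_lit 6) (nat_lit 5) (nat_lit 8) (nat_lit 4) (nat_lit 6) (nat_lit 4) (nat_lit 385) (nat_lit 280) (nat_lit 235)) (XT.lf (nat_lit 0) (nat_lit 24248140785) (nat_lit 152) (nat_lit 22780655846) (nat_lit 0) (nat_lit 17739540974) (nat_lit 6) (nat_lit 5) (nat_lit 8) (nat_lit 4) (nat_lit 6) (nat_lit 4) (nat_lit 386) (nat_lit 280) (nat_lit 234)))) (XT.nd (nat_lit 78) (nat_lit 76) (nat_lit 0) (XT.lf (nat_lit 0) (nat_lit 30426276158) (nat_lit 152) (nat_lit 13432562035) (nat_lit 0) (nat_lit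 23880929389) (nat_lit 6) (nat_lit 5) (nat_lit 8) (nat_lit 4) (nat_lit 6) (nat_lit 4) (nat_lit 387) (nat_lit 280) (nat_lit 233)) (XT.nd (nat_lit 78) (nat_lit 76) (nat_lit 0) (XT.lf (nat_lit 0) (nat_lit 36869801599) (nat_lit 152) (nat_lit 3702689644) (nat_lit 0) (nat_lit 30289457729) (nat_lit 6) (nat_lit 5) (nat_lit 8) (nat_lit 4) (nat_lit 6) (nat_lit 4) (nat_lit 388) (nat_lit 280) (nat_lit 232)) (XT.lf (nat_lit 0) (nat_lit 6644802878) (nat_lit 76) (nat_lit 37052999954) (nat_lit 76) (nat_lit 30439325510) (nat_lit 5) (nat_lit 4) (nat_lit 6) (nat_lit 5) (nat_lit 6) (nat_lit 4) (nat_lit 389) (nat_lit 280) (nat_lit 231)))))) (XT.nd (nat_lit 468) (nat_lit 152) (nat_lit 0) (XT.nd (nat_lit 234) (nat_lit 0) (nat_lit 0) (XT.nd (nat_lit 78) (nat_lit 0) (nat_lit 0) (XT.lf (nat_lit 0) (nat_lit 17557985674) (nat_lit 76) (nat_lit 33331201697) (nat_lit 76) (nat_lit 26685783850) (nat_lit 5) (nat_lit 4) (nat_lit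 6) (nat_lit 5) (nat_lit 6) (nat_lit 4) (nat_lit 390) (nat_lit 280) (nat_lit 230)) (XT.nd (nat_lit 78) (nat_lit 0) (nat_lit 0) (XT.lf (nat_lit 0) (nat_lit 28940414871) (nat_lit 76) (nat_lit 29460941888) (nat_lit 76) (nat_lit 22785292228) (nat_lit 5) (nat_lit 4) (nat_lit 6) (nat_lit 5) (nat_lit 6) (nat_lit 4) (nat_lit 391) (nat_lit 280) (nat_lit 229)) (XT.lf (nat_lit 0) (nat_lit 40819191490) (nat_lit 76) (nat_lit 25433005622) (nat_lit 76) (nat_lit 18728563760) (nat_lit 5) (nat_lit 4) (nat_lit 6) (nat_lit 5) (nat_lit 6) (nat_lit 4) (nat_lit 392) (nat_lit 280) (nat_lit 228)))) (XT.nd (nat_lit 78) (nat_lit 0) (nat_lit 0) (XT.lf (nat_lit 0) (nat_lit 53222598334) (nat_lit 76) (nat_lit 21237802577) (nat_lit 76) (nat_lit 14505939569) (nat_lit 5) (nat_lit 4) (nat_lit 6) (nat_lit 5) (nat_lit 6) (nat_lit 4) (nat_lit 393) (nat_lit 280) (nat_lit 227)) (XT.nd (nat_lit 78) (nat_lit 0) (nat_lit 0) (XT.lf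 (nat_lit 0) (nat_lit 66180167322) (nat_lit 76) (nat_lit 16865344172) (nat_lit 76) (nat_lit 10107365788) (nat_lit 5) (nat_lit 4) (nat_lit 6) (nat_lit 5) (nat_lit 6) (nat_lit 4) (nat_lit 394) (nat_lit 280) (nat_lit 226)) (XT.lf (nat_lit 0) (nat_lit 79722749810) (nat_lit 76) (nat_lit 12305219792) (nat_lit 76) (nat_lit 5522369621) (nat_lit 5) (nat_lit 4) (nat_lit 6) (nat_lit 5) (nat_lit 6) (nat_lit 4) (nat_lit 395) (nat_lit 280) (nat_lit 225))))) (XT.nd (nat_lit 234) (nat_lit 0) (nat_lit 0) (XT.nd (nat_lit 78) (nat_lit 152) (nat_lit 0) (XT.lf (nat_lit 0) (nat_lit 93882590042) (nat_lit 76) (nat_lit 7546572000) (nat_lit 76) (nat_lit 740034412) (nat_lit 5) (nat_lit 4) (nat_lit 6) (nat_lit 5) (nat_lit 6) (nat_lit 4) (nat_lit 396) (nat_lit 280) (nat_lit 224)) (XT.nd (nat_lit 78) (nat_lit 0) (nat_lit 0) (XT.lf (nat_lit 0) (nat_lit 1659706199) (nat_lit 76) (nat_lit 2481173425) (nat_lit 152) (nat_lit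 102874952472) (nat_lit 3) (nat_lit 5) (nat_lit 4) (nat_lit 5) (nat_lit 5) (nat_lit 4) (nat_lit 397) (nat_lit 280) (nat_lit 223)) (XT.lf (nat_lit 0) (nat_lit 9398560900) (nat_lit 152) (nat_lit 99823557958) (nat_lit 0) (nat_lit 2874196885) (nat_lit 3) (nat_lit 5) (nat_lit 5) (nat_lit 4) (nat_lit 3) (nat_lit 4) (nat_lit 398) (nat_lit 280) (nat_lit 222)))) (XT.nd (nat_lit 156) (nat_lit 0) (nat_lit 0) (XT.nd (nat_lit 78) (nat_lit 0) (nat_lit 0) (XT.lf (nat_lit 0) (nat_lit 14931850727) (nat_lit 152) (nat_lit 94110339879) (nat_lit 0) (nat_lit 8387999015) (nat_lit 3) (nat_lit 5) (nat_lit 5) (nat_lit 4) (nat_lit 3) (nat_lit 4) (nat_lit 399) (nat_lit 280) (nat_lit 221)) (XT.lf (nat_lit 0) (nat_lit 20715185532) (nat_lit 152) (nat_lit 88164130688) (nat_lit 0) (nat_lit 14152774111) (nat_lit 3) (nat_lit 5) (nat_lit 5) (nat_lit 4) (nat_lit 3) (nat_lit 4) (nat_lit 400) (nat_lit 280) (nat_lit 220))) (XT.nd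 (nat_lit 78) (nat_lit 0) (nat_lit 0) (XT.lf (nat_lit 0) (nat_lit 26762335162) (nat_lit 152) (nat_lit 81970772746) (nat_lit 0) (nat_lit 20182247826) (nat_lit 3) (nat_lit 5) (nat_lit 5) (nat_lit 4) (nat_lit 3) (nat_lit 4) (nat_lit 401) (nat_lit 280) (nat_lit 219)) (XT.lf (nat_lit 0) (nat_lit 33087697592) (nat_lit 152) (nat_lit 75515519962) (nat_lit 0) (nat_lit 26490776051) (nat_lit 3) (nat_lit 5) (nat_lit 5) (nat_lit 4) (nat_lit 3) (nat_lit 4) (nat_lit 402) (nat_lit 280) (nat_lit 218))))))) (XT.nd (nat_lit 936) (nat_lit 0) (nat_lit 0) (XT.nd (nat_lit 468) (nat_lit 76) (nat_lit 0) (XT.nd (nat_lit 234) (nat_lit 0) (nat_lit 0) (XT.nd (nat_lit 78) (nat_lit 0) (nat_lit 0) (XT.lf (nat_lit 0) (nat_lit 39706333207) (nat_lit 152) (nat_lit 68783002687) (nat_lit 0) (nat_lit 33093379091) (nat_lit 3) (nat_lit 5) (nat_lit 5) (nat_lit 4) (nat_lit 3) (nat_lit 4) (nat_lit 403) (nat_lit 280) (nat_lit 217))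 (XT.nd (nat_lit 78) (nat_lit 0) (nat_lit 0) (XT.lf (nat_lit 0) (nat_lit 46634000666) (nat_lit 152) (nat_lit 61757191116) (nat_lit 0) (nat_lit 40005777429) (nat_lit 3) (nat_lit 5) (nat_lit 5) (nat_lit 4) (nat_lit 3) (nat_lit 4) (nat_lit 404) (nat_lit 280) (nat_lit 216)) (XT.lf (nat_lit 0) (nat_lit 53887194412) (nat_lit 152) (nat_lit 54421357129) (nat_lit 0) (nat_lit 47244429157) (nat_lit 3) (nat_lit 5) (nat_lit 5) (nat_lit 4) (nat_lit 3) (nat_lit 4) (nat_lit 405) (nat_lit 280) (nat_lit 215)))) (XT.nd (nat_lit 78) (nat_lit 0) (nat_lit 0) (XT.lf (nat_lit 0) (nat_lit 61483183957) (nat_lit 152) (nat_lit 46758034452) (nat_lit 0) (nat_lit 54826569160) (nat_lit 3) (nat_lit 5) (nat_lit 5) (nat_lit 4) (nat_lit 3) (nat_lit 4) (nat_lit 406) (nat_lit 280) (nat_lit 214)) (XT.nd (nat_lit 78) (nat_lit 0) (nat_lit 0) (XT.lf (nat_lit 0) (nat_lit 69440054989) (nat_lit 152) (nat_lit 38748977081) (nat_lit 0)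 (nat_lit 62770250152) (nat_lit 3) (nat_lit 5) (nat_lit 5) (nat_lit 4) (nat_lit 3) (nat_lit 4) (nat_lit 407) (nat_lit 280) (nat_lit 213)) (XT.lf (nat_lit 0) (nat_lit 77776752438) (nat_lit 152) (nat_lit 30375115830) (nat_lit 0) (nat_lit 71094385659) (nat_lit 3) (nat_lit 5) (nat_lit 5) (nat_lit 4) (nat_lit 3) (nat_lit 4) (nat_lit 408) (nat_lit 280) (nat_lit 212))))) (XT.nd (nat_lit 234) (nat_lit 76) (nat_lit 0) (XT.nd (nat_lit 78) (nat_lit 0) (nat_lit 0) (XT.lf (nat_lit 0) (nat_lit 86513125586) (nat_lit 152) (nat_lit 21616512935) (nat_lit 0) (nat_lit 79818795052) (nat_lit 3) (nat_lit 5) (nat_lit 5) (nat_lit 4) (nat_lit 3) (nat_lit 4) (nat_lit 409) (nat_lit 280) (nat_lit 211)) (XT.nd (nat_lit 78) (nat_lit 0) (nat_lit 0) (XT.lf (nat_lit 0) (nat_lit 95669975319) (nat_lit 152) (nat_lit 12452314579) (nat_lit 0) (nat_lit 88964250733) (nat_lit 3) (nat_lit 5) (nat_lit 5) (nat_lit 4) (nat_lit 3) (nat_lit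 4) (nat_lit 410) (nat_lit 280) (nat_lit 210)) (XT.lf (nat_lit 0) (nat_lit 105269103662) (nat_lit 152) (nat_lit 2860701243) (nat_lit 0) (nat_lit 98552527598) (nat_lit 3) (nat_lit 5) (nat_lit 5) (nat_lit 4) (nat_lit 3) (nat_lit 4) (nat_lit 411) (nat_lit 280) (nat_lit 209)))) (XT.nd (nat_lit 78) (nat_lit 0) (nat_lit 0) (XT.lf (nat_lit 0) (nat_lit 7418605969) (nat_lit 76) (nat_lit 108030584942) (nat_lit 76) (nat_lit 101303674137) (nat_lit 2) (nat_lit 4) (nat_lit 3) (nat_lit 5) (nat_lit 3) (nat_lit 4) (nat_lit 412) (nat_lit 280) (nat_lit 208)) (XT.nd (nat_lit 78) (nat_lit 0) (nat_lit 0) (XT.lf (nat_lit 0) (nat_lit 18282340158) (nat_lit 76) (nat_lit 107889822314) (nat_lit 76) (nat_lit 101153068898) (nat_lit 2) (nat_lit 4) (nat_lit 3) (nat_lit 5) (nat_lit 3) (nat_lit 4) (nat_lit 413) (nat_lit 280) (nat_lit 207)) (XT.lf (nat_lit 0) (nat_lit 29661779656) (nat_lit 76) (nat_lit 107755629232) (nat_lit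 76) (nat_lit 101009501901) (nat_lit 2) (nat_lit 4) (nat_lit 3) (nat_lit 5) (nat_lit 3) (nat_lit 4) (nat_lit 414) (nat_lit 280) (nat_lit 206)))))) (XT.nd (nat_lit 468) (nat_lit 0) (nat_lit 0) (XT.nd (nat_lit 234) (nat_lit 0) (nat_lit 0) (XT.nd (nat_lit 78) (nat_lit 0) (nat_lit 0) (XT.lf (nat_lit 0) (nat_lit 41584018366) (nat_lit 76) (nat_lit 107627686188) (nat_lit 76) (nat_lit 100872631318) (nat_lit 2) (nat_lit 4) (nat_lit 3) (nat_lit 5) (nat_lit 3) (nat_lit 4) (nat_lit 415) (nat_lit 280) (nat_lit 205)) (XT.nd (nat_lit 78) (nat_lit 0) (nat_lit 0) (XT.lf (nat_lit 0) (nat_lit 54077442571) (nat_lit 76) (nat_lit 107505688556) (nat_lit 76) (nat_lit 100742131269) (nat_lit 2) (nat_lit 4) (nat_lit 3) (nat_lit 5) (nat_lit 3) (nat_lit 4) (nat_lit 416) (nat_lit 280) (nat_lit 204)) (XT.lf (nat_lit 0) (nat_lit 67171798518) (nat_lit 76) (nat_lit 107389345865) (nat_lit 76) (nat_lit 100617691038) (nat_lit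 2) (nat_lit 4) (nat_lit 3) (nat_lit 5) (nat_lit 3) (nat_lit 4) (nat_lit 417) (nat_lit 280) (nat_lit 203)))) (XT.nd (nat_lit 78) (nat_lit 0) (nat_lit 0) (XT.lf (nat_lit 0) (nat_lit 80898263246) (nat_lit 76) (nat_lit 107278381109) (nat_lit 76) (nat_lit 100499014339) (nat_lit 2) (nat_lit 4) (nat_lit 3) (nat_lit 5) (nat_lit 3) (nat_lit 4) (nat_lit 418) (nat_lit 280) (nat_lit 202)) (XT.nd (nat_lit 78) (nat_lit 0) (nat_lit 0) (XT.lf (nat_lit 0) (nat_lit 95289518814) (nat_lit 76) (nat_lit 107172530086) (nat_lit 76) (nat_lit 100385818609) (nat_lit 2) (nat_lit 4) (nat_lit 3) (nat_lit 5) (nat_lit 3) (nat_lit 4) (nat_lit 419) (nat_lit 280) (nat_lit 201)) (XT.lf (nat_lit 0) (nat_lit 110379830115) (nat_lit 76) (nat_lit 107071540771) (nat_lit 76) (nat_lit 100277834333) (nat_lit 2) (nat_lit 4) (nat_lit 3) (nat_lit 5) (nat_lit 3) (nat_lit 4) (nat_lit 420) (nat_lit 280) (nat_lit 200))))) (XT.nd (nat_lit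 234) (nat_lit 0) (nat_lit 0) (XT.nd (nat_lit 78) (nat_lit 0) (nat_lit 0) (XT.lf (nat_lit 0) (nat_lit 126205126463) (nat_lit 76) (nat_lit 106975172711) (nat_lit 76) (nat_lit 100174804408) (nat_lit 2) (nat_lit 4) (nat_lit 3) (nat_lit 5) (nat_lit 3) (nat_lit 4) (nat_lit 421) (nat_lit 280) (nat_lit 199)) (XT.nd (nat_lit 78) (nat_lit 0) (nat_lit 0) (XT.lf (nat_lit 0) (nat_lit 142803087134) (nat_lit 76) (nat_lit 106883196460) (nat_lit 76) (nat_lit 100076483522) (nat_lit 2) (nat_lit 4) (nat_lit 3) (nat_lit 5) (nat_lit 3) (nat_lit 4) (nat_lit 422) (nat_lit 280) (nat_lit 198)) (XT.lf (nat_lit 0) (nat_lit 160213231082) (nat_lit 76) (nat_lit 106795393026) (nat_lit 76) (nat_lit 99982637579) (nat_lit 2) (nat_lit 4) (nat_lit 3) (nat_lit 5) (nat_lit 3) (nat_lit 4) (nat_lit 423) (nat_lit 280) (nat_lit 197)))) (XT.nd (nat_lit 156) (nat_lit 0) (nat_lit 0) (XT.nd (nat_lit 78) (nat_lit 0) (nat_lit 0) (XT.lf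 (nat_lit 0) (nat_lit 178477011032) (nat_lit 76) (nat_lit 106711553354) (nat_lit 76) (nat_lit 99893043136) (nat_lit 2) (nat_lit 4) (nat_lit 3) (nat_lit 5) (nat_lit 3) (nat_lit 4) (nat_lit 424) (nat_lit 280) (nat_lit 196)) (XT.lf (nat_lit 0) (nat_lit 197637912173) (nat_lit 76) (nat_lit 106631477825) (nat_lit 76) (nat_lit 99807486873) (nat_lit 2) (nat_lit 4) (nat_lit 3) (nat_lit 5) (nat_lit 3) (nat_lit 4) (nat_lit 425) (nat_lit 280) (nat_lit 195))) (XT.nd (nat_lit 78) (nat_lit 0) (nat_lit 0) (XT.lf (nat_lit 0) (nat_lit 217741555698) (nat_lit 76) (nat_lit 106554975784) (nat_lit 76) (nat_lit 99725765085) (nat_lit 2) (nat_lit 4) (nat_lit 3) (nat_lit 5) (nat_lit 3) (nat_lit 4) (nat_lit 426) (nat_lit 280) (nat_lit 194)) (XT.lf (nat_lit 0) (nat_lit 238835807426) (nat_lit 76) (nat_lit 106481865082) (nat_lit 76) (nat_lit 99647683196) (nat_lit 2) (nat_lit 4) (nat_lit 3) (nat_lit 5) (nat_lit 3) (nat_lit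 4) (nat_lit 427) (nat_lit 280) (nat_lit 193))))))))
noncomputable def xc54 : XT := (XT.nd (nat_lit 40638) (nat_lit 0) (nat_lit 684) (XT.nd (nat_lit 936) (nat_lit 0) (nat_lit 0) (XT.nd (nat_lit 468) (nat_lit 0) (nat_lit 0) (XT.nd (nat_lit 234) (nat_lit 0) (nat_lit 0) (XT.nd (nat_lit 78) (nat_lit 0) (nat_lit 0) (XT.lf (nat_lit 0) (nat_lit 260970891766) (nat_lit 76) (nat_lit 106411971646) (nat_lit 76) (nat_lit 99573055297) (nat_lit 2) (nat_lit 4) (nat_lit 3) (nat_lit 5) (nat_lit 3) (nat_lit 4) (nat_lit 428) (nat_lit 280) (nat_lit 192)) (XT.nd (nat_lit 78) (nat_lit 0) (nat_lit 0) (XT.lf (nat_lit 0) (nat_lit 284199511299) (nat_lit 76) (nat_lit 106345129064) (nat_lit 76) (nat_lit 99501703701) (nat_lit 2) (nat_lit 4) (nat_lit 3) (nat_lit 5) (nat_lit 3) (nat_lit 4) (nat_lit 429) (nat_lit 280) (nat_lit 191)) (XT.lf (nat_lit 0) (nat_lit 308576972261) (nat_lit 76) (nat_lit 106281178187) (nat_lit 76)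 (nat_lit 99433458525) (nat_lit 2) (nat_lit 4) (nat_lit 3) (nat_lit 5) (nat_lit 3) (nat_lit 4) (nat_lit 430) (nat_lit 280) (nat_lit 190)))) (XT.nd (nat_lit 78) (nat_lit 0) (nat_lit 0) (XT.lf (nat_lit 0) (nat_lit 334161316228) (nat_lit 76) (nat_lit 106219966750) (nat_lit 76) (nat_lit 99368157280) (nat_lit 2) (nat_lit 4) (nat_lit 3) (nat_lit 5) (nat_lit 3) (nat_lit 4) (nat_lit 431) (nat_lit 280) (nat_lit 189)) (XT.nd (nat_lit 78) (nat_lit 0) (nat_lit 0) (XT.lf (nat_lit 0) (nat_lit 361013458303) (nat_lit 76) (nat_lit 106161349012) (nat_lit 76) (nat_lit 99305644487) (nat_lit 2) (nat_lit 4) (nat_lit 3) (nat_lit 5) (nat_lit 3) (nat_lit 4) (nat_lit 432) (nat_lit 280) (nat_lit 188)) (XT.lf (nat_lit 0) (nat_lit 389197332159) (nat_lit 76) (nat_lit 106105185407) (nat_lit 76) (nat_lit 99245771306) (nat_lit 2) (nat_lit 4) (nat_lit 3) (nat_lit 5) (nat_lit 3) (nat_lit 4) (nat_lit 433) (nat_lit 280) (nat_lit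 187))))) (XT.nd (nat_lit 234) (nat_lit 0) (nat_lit 0) (XT.nd (nat_lit 78) (nat_lit 0) (nat_lit 0) (XT.lf (nat_lit 0) (nat_lit 418780042256) (nat_lit 76) (nat_lit 106051342212) (nat_lit 76) (nat_lit 99188395181) (nat_lit 2) (nat_lit 4) (nat_lit 3) (nat_lit 5) (nat_lit 3) (nat_lit 4) (nat_lit 434) (nat_lit 280) (nat_lit 186)) (XT.nd (nat_lit 78) (nat_lit 0) (nat_lit 0) (XT.lf (nat_lit 0) (nat_lit 449832023619) (nat_lit 76) (nat_lit 105999691229) (nat_lit 76) (nat_lit 99133379503) (nat_lit 2) (nat_lit 4) (nat_lit 3) (nat_lit 5) (nat_lit 3) (nat_lit 4) (nat_lit 435) (nat_lit 280) (nat_lit 185)) (XT.lf (nat_lit 0) (nat_lit 482427209537) (nat_lit 76) (nat_lit 105950109480) (nat_lit 76) (nat_lit 99080593282) (nat_lit 2) (nat_lit 4) (nat_lit 3) (nat_lit 5) (nat_lit 3) (nat_lit 4) (nat_lit 436) (nat_lit 280) (nat_lit 184)))) (XT.nd (nat_lit 78) (nat_lit 0) (nat_lit 0) (XT.lf (nat_lit 0) (nat_lit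 516643207595) (nat_lit 76) (nat_lit 105902478912) (nat_lit 76) (nat_lit 99029910836) (nat_lit 2) (nat_lit 4) (nat_lit 3) (nat_lit 5) (nat_lit 3) (nat_lit 4) (nat_lit 437) (nat_lit 280) (nat_lit 183)) (XT.nd (nat_lit 78) (nat_lit 0) (nat_lit 0) (XT.lf (nat_lit 0) (nat_lit 552561484455) (nat_lit 76) (nat_lit 105856686120) (nat_lit 76) (nat_lit 98981211494) (nat_lit 2) (nat_lit 4) (nat_lit 3) (nat_lit 5) (nat_lit 3) (nat_lit 4) (nat_lit 438) (nat_lit 280) (nat_lit 182)) (XT.lf (nat_lit 0) (nat_lit 590267559824) (nat_lit 76) (nat_lit 105812622073) (nat_lit 76) (nat_lit 98934379304) (nat_lit 2) (nat_lit 4) (nat_lit 3) (nat_lit 5) (nat_lit 3) (nat_lit 4) (nat_lit 439) (nat_lit 280) (nat_lit 181)))))) (XT.nd (nat_lit 39234) (nat_lit 0) (nat_lit 2128) (XT.nd (nat_lit 39000) (nat_lit 0) (nat_lit 2736) (XT.nd (nat_lit 78) (nat_lit 0) (nat_lit 0) (XT.lf (nat_lit 0) (nat_lit 629851210073) (nat_lit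 76) (nat_lit 105770181857) (nat_lit 76) (nat_lit 98889302761) (nat_lit 2) (nat_lit 4) (nat_lit 3) (nat_lit 5) (nat_lit 3) (nat_lit 4) (nat_lit 440) (nat_lit 280) (nat_lit 180)) (XT.nd (nat_lit 38844) (nat_lit 0) (nat_lit 3116) (XT.lf (nat_lit 0) (nat_lit 671406681986) (nat_lit 76) (nat_lit 105729264423) (nat_lit 76) (nat_lit 98845874540) (nat_lit 2) (nat_lit 4) (nat_lit 3) (nat_lit 5) (nat_lit 3) (nat_lit 4) (nat_lit 441) (nat_lit 280) (nat_lit 179)) (XT.lf (nat_lit 0) (nat_lit 615858419) (nat_lit 152) (nat_lit 2482532268) (nat_lit 152) (nat_lit 2482532268) (nat_lit 43) (nat_lit 4) (nat_lit 45) (nat_lit 5) (nat_lit 45) (nat_lit 4) (nat_lit 338) (nat_lit 281) (nat_lit 281)))) (XT.nd (nat_lit 78) (nat_lit 380) (nat_lit 0) (XT.lf (nat_lit 0) (nat_lit 10258914879) (nat_lit 152) (nat_lit 907861092) (nat_lit 152) (nat_lit 285273116) (nat_lit 43) (nat_lit 4) (nat_lit 45) (nat_lit 5) (nat_lit 45)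 (nat_lit 4) (nat_lit 339) (nat_lit 281) (nat_lit 280)) (XT.nd (nat_lit 78) (nat_lit 152) (nat_lit 0) (XT.lf (nat_lit 0) (nat_lit 4486829294) (nat_lit 228) (nat_lit 3936879926) (nat_lit 0) (nat_lit 3329182716) (nat_lit 40) (nat_lit 5) (nat_lit 43) (nat_lit 4) (nat_lit 40) (nat_lit 4) (nat_lit 340) (nat_lit 281) (nat_lit 279)) (XT.lf (nat_lit 0) (nat_lit 5102767302) (nat_lit 152) (nat_lit 4331980052) (nat_lit 152) (nat_lit 2636518572) (nat_lit 38) (nat_lit 4) (nat_lit 40) (nat_lit 5) (nat_lit 40) (nat_lit 4) (nat_lit 341) (nat_lit 281) (nat_lit 278))))) (XT.nd (nat_lit 234) (nat_lit 304) (nat_lit 0) (XT.nd (nat_lit 78) (nat_lit 152) (nat_lit 0) (XT.lf (nat_lit 0) (nat_lit 2068376111) (nat_lit 76) (nat_lit 17498162) (nat_lit 152) (nat_lit 10321376208) (nat_lit 36) (nat_lit 5) (nat_lit 37) (nat_lit 5) (nat_lit 38) (nat_lit 4) (nat_lit 342) (nat_lit 281) (nat_lit 277)) (XT.nd (nat_lit 78) (nat_lit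 152) (nat_lit 0) (XT.lf (nat_lit 0) (nat_lit 6980298811) (nat_lit 152) (nat_lit 1363227836) (nat_lit 0) (nat_lit 4413174886) (nat_lit 36) (nat_lit 5) (nat_lit 38) (nat_lit 4) (nat_lit 36) (nat_lit 4) (nat_lit 343) (nat_lit 281) (nat_lit 276)) (XT.lf (nat_lit 0) (nat_lit 8039655114) (nat_lit 152) (nat_lit 4047608128) (nat_lit 152) (nat_lit 1038022553) (nat_lit 34) (nat_lit 4) (nat_lit 36) (nat_lit 5) (nat_lit 36) (nat_lit 4) (nat_lit 344) (nat_lit 281) (nat_lit 275)))) (XT.nd (nat_lit 78) (nat_lit 152) (nat_lit 0) (XT.lf (nat_lit 0) (nat_lit 3751451575) (nat_lit 152) (nat_lit 9276957436) (nat_lit 0) (nat_lit 483853837) (nat_lit 32) (nat_lit 5) (nat_lit 34) (nat_lit 4) (nat_lit 32) (nat_lit 4) (nat_lit 345) (nat_lit 281) (nat_lit 274)) (XT.nd (nat_lit 78) (nat_lit 152) (nat_lit 0) (XT.lf (nat_lit 0) (nat_lit 8743395403) (nat_lit 152) (nat_lit 80910405) (nat_lit 0) (nat_lit 5093582655) (nat_lit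 32) (nat_lit 5) (nat_lit 34) (nat_lit 4) (nat_lit 32) (nat_lit 4) (nat_lit 346) (nat_lit 281) (nat_lit 273)) (XT.lf (nat_lit 0) (nat_lit 9615362006) (nat_lit 152) (nat_lit 4371112957) (nat_lit 152) (nat_lit 357285913) (nat_lit 30) (nat_lit 4) (nat_lit 32) (nat_lit 5) (nat_lit 32) (nat_lit 4) (nat_lit 347) (nat_lit 281) (nat_lit 272))))))) (XT.nd (nat_lit 936) (nat_lit 532) (nat_lit 0) (XT.nd (nat_lit 468) (nat_lit 380) (nat_lit 0) (XT.nd (nat_lit 234) (nat_lit 228) (nat_lit 0) (XT.nd (nat_lit 78) (nat_lit 152) (nat_lit 0) (XT.lf (nat_lit 0) (nat_lit 4484298939) (nat_lit 152) (nat_lit 9974863442) (nat_lit 0) (nat_lit 331434819) (nat_lit 28) (nat_lit 5) (nat_lit 30) (nat_lit 4) (nat_lit 28) (nat_lit 4) (nat_lit 348) (nat_lit 281) (nat_lit 271)) (XT.nd (nat_lit 78) (nat_lit 152) (nat_lit 0) (XT.lf (nat_lit 0) (nat_lit 9562045658) (nat_lit 152) (nat_lit 602436698) (nat_lit 0) (nat_lit 5094732304)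 (nat_lit 28) (nat_lit 5) (nat_lit 30) (nat_lit 4) (nat_lit 28) (nat_lit 4) (nat_lit 349) (nat_lit 281) (nat_lit 270)) (XT.lf (nat_lit 0) (nat_lit 9279351330) (nat_lit 152) (nat_lit 5619244788) (nat_lit 152) (nat_lit 852455972) (nat_lit 26) (nat_lit 4) (nat_lit 28) (nat_lit 5) (nat_lit 28) (nat_lit 4) (nat_lit 350) (nat_lit 281) (nat_lit 269)))) (XT.nd (nat_lit 78) (nat_lit 76) (nat_lit 0) (XT.lf (nat_lit 0) (nat_lit 3188165705) (nat_lit 76) (nat_lit 831429049) (nat_lit 152) (nat_lit 12248581083) (nat_lit 24) (nat_lit 5) (nat_lit 25) (nat_lit 5) (nat_lit 26) (nat_lit 4) (nat_lit 351) (nat_lit 281) (nat_lit 268)) (XT.nd (nat_lit 78) (nat_lit 76) (nat_lit 0) (XT.lf (nat_lit 0) (nat_lit 9144883255) (nat_lit 152) (nat_lit 3588936632) (nat_lit 0) (nat_lit 4074753146) (nat_lit 24) (nat_lit 5) (nat_lit 26) (nat_lit 4) (nat_lit 24) (nat_lit 4) (nat_lit 352) (nat_lit 281) (nat_lit 267)) (XT.lf (nat_lit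 0) (nat_lit 6319918383) (nat_lit 76) (nat_lit 8186797870) (nat_lit 76) (nat_lit 2870288558) (nat_lit 23) (nat_lit 4) (nat_lit 24) (nat_lit 5) (nat_lit 24) (nat_lit 4) (nat_lit 353) (nat_lit 281) (nat_lit 266))))) (XT.nd (nat_lit 234) (nat_lit 228) (nat_lit 0) (XT.nd (nat_lit 78) (nat_lit 76) (nat_lit 0) (XT.lf (nat_lit 0) (nat_lit 2023682750) (nat_lit 152) (nat_lit 1402606534) (nat_lit 76) (nat_lit 14549400467) (nat_lit 22) (nat_lit 5) (nat_lit 24) (nat_lit 5) (nat_lit 23) (nat_lit 4) (nat_lit 354) (nat_lit 281) (nat_lit 265)) (XT.nd (nat_lit 78) (nat_lit 0) (nat_lit 0) (XT.lf (nat_lit 0) (nat_lit 7102708312) (nat_lit 152) (nat_lit 9894370646) (nat_lit 0) (nat_lit 1603061290) (nat_lit 21) (nat_lit 5) (nat_lit 23) (nat_lit 4) (nat_lit 21) (nat_lit 4) (nat_lit 355) (nat_lit 281) (nat_lit 264)) (XT.lf (nat_lit 0) (nat_lit 12391310331) (nat_lit 152) (nat_lit 177778786) (nat_lit 0) (nat_lit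 6688966528) (nat_lit 21) (nat_lit 5) (nat_lit 23) (nat_lit 4) (nat_lit 21) (nat_lit 4) (nat_lit 356) (nat_lit 281) (nat_lit 263)))) (XT.nd (nat_lit 78) (nat_lit 152) (nat_lit 0) (XT.lf (nat_lit 0) (nat_lit 10125035608) (nat_lit 76) (nat_lit 7858637760) (nat_lit 76) (nat_lit 1963249405) (nat_lit 20) (nat_lit 4) (nat_lit 21) (nat_lit 5) (nat_lit 21) (nat_lit 4) (nat_lit 357) (nat_lit 281) (nat_lit 262)) (XT.nd (nat_lit 78) (nat_lit 0) (nat_lit 0) (XT.lf (nat_lit 0) (nat_lit 5471375) (nat_lit 76) (nat_lit 2962680666) (nat_lit 152) (nat_lit 17705380761) (nat_lit 18) (nat_lit 5) (nat_lit 19) (nat_lit 5) (nat_lit 20) (nat_lit 4) (nat_lit 358) (nat_lit 281) (nat_lit 261)) (XT.lf (nat_lit 0) (nat_lit 8165329619) (nat_lit 152) (nat_lit 11056476930) (nat_lit 0) (nat_lit 2208817800) (nat_lit 18) (nat_lit 5) (nat_lit 20) (nat_lit 4) (nat_lit 18) (nat_lit 4) (nat_lit 359) (nat_lit 281) (nat_lit 260))))))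 (XT.nd (nat_lit 468) (nat_lit 228) (nat_lit 0) (XT.nd (nat_lit 234) (nat_lit 152) (nat_lit 0) (XT.nd (nat_lit 78) (nat_lit 152) (nat_lit 0) (XT.lf (nat_lit 0) (nat_lit 13558661277) (nat_lit 152) (nat_lit 1226781729) (nat_lit 0) (nat_lit 7443331226) (nat_lit 18) (nat_lit 5) (nat_lit 20) (nat_lit 4) (nat_lit 18) (nat_lit 4) (nat_lit 360) (nat_lit 281) (nat_lit 259)) (XT.nd (nat_lit 78) (nat_lit 76) (nat_lit 0) (XT.lf (nat_lit 0) (nat_lit 9184650122) (nat_lit 76) (nat_lit 10073480537) (nat_lit 76) (nat_lit 3806895027) (nat_lit 17) (nat_lit 4) (nat_lit 18) (nat_lit 5) (nat_lit 18) (nat_lit 4) (nat_lit 361) (nat_lit 281) (nat_lit 258)) (XT.lf (nat_lit 0) (nat_lit 1172307469) (nat_lit 152) (nat_lit 4007408014) (nat_lit 76) (nat_lit 18766655034) (nat_lit 16) (nat_lit 5) (nat_lit 18) (nat_lit 5) (nat_lit 17) (nat_lit 4) (nat_lit 362) (nat_lit 281) (nat_lit 257)))) (XT.nd (nat_lit 78) (nat_lit 76)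 (nat_lit 0) (XT.lf (nat_lit 0) (nat_lit 6269887164) (nat_lit 152) (nat_lit 18565065394) (nat_lit 0) (nat_lit 33857176) (nat_lit 15) (nat_lit 5) (nat_lit 17) (nat_lit 4) (nat_lit 15) (nat_lit 4) (nat_lit 363) (nat_lit 281) (nat_lit 256)) (XT.nd (nat_lit 78) (nat_lit 76) (nat_lit 0) (XT.lf (nat_lit 0) (nat_lit 11675047393) (nat_lit 152) (nat_lit 8845123784) (nat_lit 0) (nat_lit 5314579166) (nat_lit 15) (nat_lit 5) (nat_lit 17) (nat_lit 4) (nat_lit 15) (nat_lit 4) (nat_lit 364) (nat_lit 281) (nat_lit 255)) (XT.lf (nat_lit 0) (nat_lit 1214247192) (nat_lit 76) (nat_lit 16058803106) (nat_lit 76) (nat_lit 9579822269) (nat_lit 14) (nat_lit 4) (nat_lit 15) (nat_lit 5) (nat_lit 15) (nat_lit 4) (nat_lit 365) (nat_lit 281) (nat_lit 254))))) (XT.nd (nat_lit 234) (nat_lit 76) (nat_lit 0) (XT.nd (nat_lit 78) (nat_lit 152) (nat_lit 0) (XT.lf (nat_lit 0) (nat_lit 11901229065) (nat_lit 76) (nat_lit 11304888391)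 (nat_lit 76) (nat_lit 4713038402) (nat_lit 14) (nat_lit 4) (nat_lit 15) (nat_lit 5) (nat_lit 15) (nat_lit 4) (nat_lit 366) (nat_lit 281) (nat_lit 253)) (XT.nd (nat_lit 78) (nat_lit 76) (nat_lit 0) (XT.lf (nat_lit 0) (nat_lit 292759817) (nat_lit 152) (nat_lit 6099186794) (nat_lit 76) (nat_lit 22651089442) (nat_lit 13) (nat_lit 5) (nat_lit 15) (nat_lit 5) (nat_lit 14) (nat_lit 4) (nat_lit 367) (nat_lit 281) (nat_lit 252)) (XT.lf (nat_lit 0) (nat_lit 4204419823) (nat_lit 76) (nat_lit 1164428903) (nat_lit 152) (nat_lit 24851490264) (nat_lit 12) (nat_lit 5) (nat_lit 13) (nat_lit 5) (nat_lit 14) (nat_lit 4) (nat_lit 368) (nat_lit 281) (nat_lit 251)))) (XT.nd (nat_lit 156) (nat_lit 76) (nat_lit 0) (XT.nd (nat_lit 78) (nat_lit 0) (nat_lit 0) (XT.lf (nat_lit 0) (nat_lit 10784311961) (nat_lit 152) (nat_lit 16454301852) (nat_lit 0) (nat_lit 4213625595) (nat_lit 12) (nat_lit 5) (nat_lit 14) (nat_lit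 4) (nat_lit 12) (nat_lit 4) (nat_lit 369) (nat_lit 281) (nat_lit 250)) (XT.lf (nat_lit 0) (nat_lit 16406843892) (nat_lit 152) (nat_lit 6594364897) (nat_lit 0) (nat_lit 9747721591) (nat_lit 12) (nat_lit 5) (nat_lit 14) (nat_lit 4) (nat_lit 12) (nat_lit 4) (nat_lit 370) (nat_lit 281) (nat_lit 249))) (XT.nd (nat_lit 78) (nat_lit 0) (nat_lit 0) (XT.lf (nat_lit 0) (nat_lit 3724763425) (nat_lit 76) (nat_lit 18565042072) (nat_lit 76) (nat_lit 11821695072) (nat_lit 11) (nat_lit 4) (nat_lit 12) (nat_lit 5) (nat_lit 12) (nat_lit 4) (nat_lit 371) (nat_lit 281) (nat_lit 248)) (XT.lf (nat_lit 0) (nat_lit 14638236536) (nat_lit 76) (nat_lit 13862910738) (nat_lit 76) (nat_lit 7039349740) (nat_lit 11) (nat_lit 4) (nat_lit 12) (nat_lit 5) (nat_lit 12) (nat_lit 4) (nat_lit 372) (nat_lit 281) (nat_lit 247))))))))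
noncomputable def xc55 : XT := (XT.nd (nat_lit 1950) (nat_lit 152) (nat_lit 0) (XT.nd (nat_lit 936) (nat_lit 152) (nat_lit 0) (XT.nd (nat_lit 468) (nat_lit 228) (nat_lit 0) (XT.nd (nat_lit 234) (nat_lit 0) (nat_lit 0) (XT.nd (nat_lit 78) (nat_lit 152) (nat_lit 0) (XT.lf (nat_lit 0) (nat_lit 25953999410) (nat_lit 76) (nat_lit 8995298000) (nat_lit 76) (nat_lit 2095342717) (nat_lit 11) (nat_lit 4) (nat_lit 12) (nat_lit 5) (nat_lit 12) (nat_lit 4) (nat_lit 373) (nat_lit 281) (nat_lit 246)) (XT.nd (nat_lit 78) (nat_lit 76) (nat_lit 0) (XT.lf (nat_lit 0) (nat_lit 2925371451) (nat_lit 152) (nat_lit 975700269) (nat_lit 76) (nat_lit 34724080307) (nat_lit 10) (nat_lit 5) (nat_lit 12) (nat_lit 5) (nat_lit 11) (nat_lit 4) (nat_lit 374) (nat_lit 281) (nat_lit 245)) (XT.lf (nat_lit 0) (nat_lit 8236244980) (nat_lit 152) (nat_lit 30511682826) (nat_lit 0) (nat_lit 1529574872) (nat_lit 9) (nat_lit 5) (nat_lit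 11) (nat_lit 4) (nat_lit 9) (nat_lit 4) (nat_lit 375) (nat_lit 281) (nat_lit 244)))) (XT.nd (nat_lit 78) (nat_lit 0) (nat_lit 0) (XT.lf (nat_lit 0) (nat_lit 13825619611) (nat_lit 152) (nat_lit 21130110972) (nat_lit 0) (nat_lit 7056099736) (nat_lit 9) (nat_lit 5) (nat_lit 11) (nat_lit 4) (nat_lit 9) (nat_lit 4) (nat_lit 376) (nat_lit 281) (nat_lit 243)) (XT.nd (nat_lit 78) (nat_lit 0) (nat_lit 0) (XT.lf (nat_lit 0) (nat_lit 19629901629) (nat_lit 152) (nat_lit 11405682925) (nat_lit 0) (nat_lit 12800524833) (nat_lit 9) (nat_lit 5) (nat_lit 11) (nat_lit 4) (nat_lit 9) (nat_lit 4) (nat_lit 377) (nat_lit 281) (nat_lit 242)) (XT.lf (nat_lit 0) (nat_lit 25662910755) (nat_lit 152) (nat_lit 1315245284) (nat_lit 0) (nat_lit 18776527367) (nat_lit 9) (nat_lit 5) (nat_lit 11) (nat_lit 4) (nat_lit 9) (nat_lit 4) (nat_lit 378) (nat_lit 281) (nat_lit 241))))) (XT.nd (nat_lit 234) (nat_lit 152) (nat_lit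 0) (XT.nd (nat_lit 78) (nat_lit 0) (nat_lit 0) (XT.lf (nat_lit 0) (nat_lit 9468270591) (nat_lit 76) (nat_lit 22618566942) (nat_lit 76) (nat_lit 15677891563) (nat_lit 8) (nat_lit 4) (nat_lit 9) (nat_lit 5) (nat_lit 9) (nat_lit 4) (nat_lit 379) (nat_lit 281) (nat_lit 240)) (XT.nd (nat_lit 78) (nat_lit 0) (nat_lit 0) (XT.lf (nat_lit 0) (nat_lit 20723983742) (nat_lit 76) (nat_lit 18072722069) (nat_lit 76) (nat_lit 11080340031) (nat_lit 8) (nat_lit 4) (nat_lit 9) (nat_lit 5) (nat_lit 9) (nat_lit 4) (nat_lit 380) (nat_lit 281) (nat_lit 239)) (XT.lf (nat_lit 0) (nat_lit 32435205536) (nat_lit 76) (nat_lit 13352072295) (nat_lit 76) (nat_lit 6310445819) (nat_lit 8) (nat_lit 4) (nat_lit 9) (nat_lit 5) (nat_lit 9) (nat_lit 4) (nat_lit 381) (nat_lit 281) (nat_lit 238)))) (XT.nd (nat_lit 78) (nat_lit 152) (nat_lit 0) (XT.lf (nat_lit 0) (nat_lit 44629819834) (nat_lit 76) (nat_lit 8445377977) (nat_lit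 76) (nat_lit 1356852038) (nat_lit 8) (nat_lit 4) (nat_lit 9) (nat_lit 5) (nat_lit 9) (nat_lit 4) (nat_lit 382) (nat_lit 281) (nat_lit 237)) (XT.nd (nat_lit 78) (nat_lit 0) (nat_lit 0) (XT.lf (nat_lit 0) (nat_lit 405035307) (nat_lit 76) (nat_lit 3272148791) (nat_lit 152) (nat_lit 53205121702) (nat_lit 6) (nat_lit 5) (nat_lit 7) (nat_lit 5) (nat_lit 8) (nat_lit 4) (nat_lit 383) (nat_lit 281) (nat_lit 236)) (XT.lf (nat_lit 0) (nat_lit 9069393431) (nat_lit 152) (nat_lit 48141606513) (nat_lit 0) (nat_lit 2235363629) (nat_lit 6) (nat_lit 5) (nat_lit 8) (nat_lit 4) (nat_lit 6) (nat_lit 4) (nat_lit 384) (nat_lit 281) (nat_lit 235)))))) (XT.nd (nat_lit 468) (nat_lit 76) (nat_lit 0) (XT.nd (nat_lit 234) (nat_lit 76) (nat_lit 0) (XT.nd (nat_lit 78) (nat_lit 0) (nat_lit 0) (XT.lf (nat_lit 0) (nat_lit 14736877853) (nat_lit 152) (nat_lit 39537203905) (nat_lit 0) (nat_lit 7864263746) (nat_lit 6) (nat_lit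 5) (nat_lit 8) (nat_lit 4) (nat_lit 6) (nat_lit 4) (nat_lit 385) (nat_lit 281) (nat_lit 234)) (XT.nd (nat_lit 78) (nat_lit 0) (nat_lit 0) (XT.lf (nat_lit 0) (nat_lit 20642043961) (nat_lit 152) (nat_lit 30592488583) (nat_lit 0) (nat_lit 13732682897) (nat_lit 6) (nat_lit 5) (nat_lit 8) (nat_lit 4) (nat_lit 6) (nat_lit 4) (nat_lit 386) (nat_lit 281) (nat_lit 233)) (XT.lf (nat_lit 0) (nat_lit 26798951675) (nat_lit 152) (nat_lit 21286163606) (nat_lit 0) (nat_lit 19854593509) (nat_lit 6) (nat_lit 5) (nat_lit 8) (nat_lit 4) (nat_lit 6) (nat_lit 4) (nat_lit 387) (nat_lit 281) (nat_lit 232)))) (XT.nd (nat_lit 78) (nat_lit 76) (nat_lit 0) (XT.lf (nat_lit 0) (nat_lit 33222260300) (nat_lit 152) (nat_lit 11596071058) (nat_lit 0) (nat_lit 26244571560) (nat_lit 6) (nat_lit 5) (nat_lit 8) (nat_lit 4) (nat_lit 6) (nat_lit 4) (nat_lit 388) (nat_lit 281) (nat_lit 231)) (XT.nd (nat_lit 78) (nat_lit 76) (nat_lit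 0) (XT.lf (nat_lit 0) (nat_lit 39927263426) (nat_lit 152) (nat_lit 1499139289) (nat_lit 0) (nat_lit 32917831283) (nat_lit 6) (nat_lit 5) (nat_lit 8) (nat_lit 4) (nat_lit 6) (nat_lit 4) (nat_lit 389) (nat_lit 281) (nat_lit 230)) (XT.lf (nat_lit 0) (nat_lit 9327200684) (nat_lit 76) (nat_lit 37748348406) (nat_lit 76) (nat_lit 30708684450) (nat_lit 5) (nat_lit 4) (nat_lit 6) (nat_lit 5) (nat_lit 6) (nat_lit 4) (nat_lit 390) (nat_lit 281) (nat_lit 229))))) (XT.nd (nat_lit 234) (nat_lit 76) (nat_lit 0) (XT.nd (nat_lit 78) (nat_lit 0) (nat_lit 0) (XT.lf (nat_lit 0) (nat_lit 20674130350) (nat_lit 76) (nat_lit 33895569833) (nat_lit 76) (nat_lit 26827113675) (nat_lit 5) (nat_lit 4) (nat_lit 6) (nat_lit 5) (nat_lit 6) (nat_lit 4) (nat_lit 391) (nat_lit 281) (nat_lit 228)) (XT.nd (nat_lit 78) (nat_lit 0) (nat_lit 0) (XT.lf (nat_lit 0) (nat_lit 32519097893) (nat_lit 76) (nat_lit 29884282364) (nat_lit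 76) (nat_lit 22788405061) (nat_lit 5) (nat_lit 4) (nat_lit 6) (nat_lit 5) (nat_lit 6) (nat_lit 4) (nat_lit 392) (nat_lit 281) (nat_lit 227)) (XT.lf (nat_lit 0) (nat_lit 44890305616) (nat_lit 76) (nat_lit 25704935315) (nat_lit 76) (nat_lit 18582942635) (nat_lit 5) (nat_lit 4) (nat_lit 6) (nat_lit 5) (nat_lit 6) (nat_lit 4) (nat_lit 393) (nat_lit 281) (nat_lit 226)))) (XT.nd (nat_lit 156) (nat_lit 76) (nat_lit 0) (XT.nd (nat_lit 78) (nat_lit 0) (nat_lit 0) (XT.lf (nat_lit 0) (nat_lit 57817208775) (nat_lit 76) (nat_lit 21347577859) (nat_lit 76) (nat_lit 14200713393) (nat_lit 5) (nat_lit 4) (nat_lit 6) (nat_lit 5) (nat_lit 6) (nat_lit 4) (nat_lit 394) (nat_lit 281) (nat_lit 225)) (XT.lf (nat_lit 0) (nat_lit 71330585712) (nat_lit 76) (nat_lit 16801835336) (nat_lit 76) (nat_lit 9631283453) (nat_lit 5) (nat_lit 4) (nat_lit 6) (nat_lit 5) (nat_lit 6) (nat_lit 4) (nat_lit 395) (nat_lit 281) (nat_lit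 224))) (XT.nd (nat_lit 78) (nat_lit 76) (nat_lit 0) (XT.lf (nat_lit 0) (nat_lit 85462611132) (nat_lit 76) (nat_lit 12056884550) (nat_lit 76) (nat_lit 4863773223) (nat_lit 5) (nat_lit 4) (nat_lit 6) (nat_lit 5) (nat_lit 6) (nat_lit 4) (nat_lit 396) (nat_lit 281) (nat_lit 223)) (XT.lf (nat_lit 0) (nat_lit 109546414) (nat_lit 152) (nat_lit 6990026361) (nat_lit 76) (nat_lit 100135531081) (nat_lit 4) (nat_lit 5) (nat_lit 6) (nat_lit 5) (nat_lit 5) (nat_lit 4) (nat_lit 397) (nat_lit 281) (nat_lit 222))))))) (XT.nd (nat_lit 936) (nat_lit 76) (nat_lit 0) (XT.nd (nat_lit 468) (nat_lit 0) (nat_lit 0) (XT.nd (nat_lit 234) (nat_lit 0) (nat_lit 0) (XT.nd (nat_lit 78) (nat_lit 0) (nat_lit 0) (XT.lf (nat_lit 0) (nat_lit 3414070513) (nat_lit 76) (nat_lit 1780626611) (nat_lit 152) (nat_lit 107129518016) (nat_lit 3) (nat_lit 5) (nat_lit 4) (nat_lit 5) (nat_lit 5) (nat_lit 4) (nat_lit 398) (nat_lit 281) (nat_lit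 221)) (XT.nd (nat_lit 78) (nat_lit 0) (nat_lit 0) (XT.lf (nat_lit 0) (nat_lit 10687201252) (nat_lit 152) (nat_lit 103194818559) (nat_lit 0) (nat_lit 3778109548) (nat_lit 3) (nat_lit 5) (nat_lit 5) (nat_lit 4) (nat_lit 3) (nat_lit 4) (nat_lit 399) (nat_lit 281) (nat_lit 220)) (XT.lf (nat_lit 0) (nat_lit 16458169269) (nat_lit 152) (nat_lit 97273078494) (nat_lit 0) (nat_lit 9531401651) (nat_lit 3) (nat_lit 5) (nat_lit 5) (nat_lit 4) (nat_lit 3) (nat_lit 4) (nat_lit 400) (nat_lit 281) (nat_lit 219)))) (XT.nd (nat_lit 78) (nat_lit 0) (nat_lit 0) (XT.lf (nat_lit 0) (nat_lit 22493541005) (nat_lit 152) (nat_lit 91103024481) (nat_lit 0) (nat_lit 15549939183) (nat_lit 3) (nat_lit 5) (nat_lit 5) (nat_lit 4) (nat_lit 3) (nat_lit 4) (nat_lit 401) (nat_lit 281) (nat_lit 218)) (XT.nd (nat_lit 78) (nat_lit 0) (nat_lit 0) (XT.lf (nat_lit 0) (nat_lit 28807686393) (nat_lit 152) (nat_lit 84669965915) (nat_lit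 0) (nat_lit 21848051995) (nat_lit 3) (nat_lit 5) (nat_lit 5) (nat_lit 4) (nat_lit 3) (nat_lit 4) (nat_lit 402) (nat_lit 281) (nat_lit 217)) (XT.lf (nat_lit 0) (nat_lit 35415639112) (nat_lit 152) (nat_lit 77958585991) (nat_lit 0) (nat_lit 28440735594) (nat_lit 3) (nat_lit 5) (nat_lit 5) (nat_lit 4) (nat_lit 3) (nat_lit 4) (nat_lit 403) (nat_lit 281) (nat_lit 216))))) (XT.nd (nat_lit 234) (nat_lit 0) (nat_lit 0) (XT.nd (nat_lit 78) (nat_lit 0) (nat_lit 0) (XT.lf (nat_lit 0) (nat_lit 42333132383) (nat_lit 152) (nat_lit 70952905231) (nat_lit 0) (nat_lit 35343686846) (nat_lit 3) (nat_lit 5) (nat_lit 5) (nat_lit 4) (nat_lit 3) (nat_lit 4) (nat_lit 404) (nat_lit 281) (nat_lit 215)) (XT.nd (nat_lit 78) (nat_lit 0) (nat_lit 0) (XT.lf (nat_lit 0) (nat_lit 49576636427) (nat_lit 152) (nat_lit 63636243443) (nat_lit 0) (nat_lit 42573341349) (nat_lit 3) (nat_lit 5) (nat_lit 5) (nat_lit 4) (nat_lit 3)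 (nat_lit 4) (nat_lit 405) (nat_lit 281) (nat_lit 214)) (XT.lf (nat_lit 0) (nat_lit 57163397684) (nat_lit 152) (nat_lit 55991180005) (nat_lit 0) (nat_lit 50146912566) (nat_lit 3) (nat_lit 5) (nat_lit 5) (nat_lit 4) (nat_lit 3) (nat_lit 4) (nat_lit 406) (nat_lit 281) (nat_lit 213)))) (XT.nd (nat_lit 78) (nat_lit 0) (nat_lit 0) (XT.lf (nat_lit 0) (nat_lit 65111479870) (nat_lit 152) (nat_lit 47999512385) (nat_lit 0) (nat_lit 58082432809) (nat_lit 3) (nat_lit 5) (nat_lit 5) (nat_lit 4) (nat_lit 3) (nat_lit 4) (nat_lit 407) (nat_lit 281) (nat_lit 212)) (XT.nd (nat_lit 78) (nat_lit 0) (nat_lit 0) (XT.lf (nat_lit 0) (nat_lit 73439806990) (nat_lit 152) (nat_lit 39642212801) (nat_lit 0) (nat_lit 66398796175) (nat_lit 3) (nat_lit 5) (nat_lit 5) (nat_lit 4) (nat_lit 3) (nat_lit 4) (nat_lit 408) (nat_lit 281) (nat_lit 211)) (XT.lf (nat_lit 0) (nat_lit 82168208396) (nat_lit 152) (nat_lit 30899382923)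 (nat_lit 0) (nat_lit 75115803528) (nat_lit 3) (nat_lit 5) (nat_lit 5) (nat_lit 4) (nat_lit 3) (nat_lit 4) (nat_lit 409) (nat_lit 281) (nat_lit 210)))))) (XT.nd (nat_lit 468) (nat_lit 0) (nat_lit 0) (XT.nd (nat_lit 234) (nat_lit 76) (nat_lit 0) (XT.nd (nat_lit 78) (nat_lit 0) (nat_lit 0) (XT.lf (nat_lit 0) (nat_lit 91317465994) (nat_lit 152) (nat_lit 21750206488) (nat_lit 0) (nat_lit 84254209648) (nat_lit 3) (nat_lit 5) (nat_lit 5) (nat_lit 4) (nat_lit 3) (nat_lit 4) (nat_lit 410) (nat_lit 281) (nat_lit 209)) (XT.nd (nat_lit 78) (nat_lit 0) (nat_lit 0) (XT.lf (nat_lit 0) (nat_lit 100909363732) (nat_lit 152) (nat_lit 12172899742) (nat_lit 0) (nat_lit 93835772645) (nat_lit 3) (nat_lit 5) (nat_lit 5) (nat_lit 4) (nat_lit 3) (nat_lit 4) (nat_lit 411) (nat_lit 281) (nat_lit 208)) (XT.lf (nat_lit 0) (nat_lit 110966739461) (nat_lit 152) (nat_lit 2144659576) (nat_lit 0) (nat_lit 103883305764) (nat_lit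 3) (nat_lit 5) (nat_lit 5) (nat_lit 4) (nat_lit 3) (nat_lit 4) (nat_lit 412) (nat_lit 281) (nat_lit 207)))) (XT.nd (nat_lit 78) (nat_lit 0) (nat_lit 0) (XT.lf (nat_lit 0) (nat_lit 8634756920) (nat_lit 76) (nat_lit 113013595148) (nat_lit 76) (nat_lit 105920787536) (nat_lit 2) (nat_lit 4) (nat_lit 3) (nat_lit 5) (nat_lit 3) (nat_lit 4) (nat_lit 413) (nat_lit 281) (nat_lit 206)) (XT.nd (nat_lit 78) (nat_lit 0) (nat_lit 0) (XT.lf (nat_lit 0) (nat_lit 20001429217) (nat_lit 76) (nat_lit 112885723867) (nat_lit 76) (nat_lit 105783988716) (nat_lit 2) (nat_lit 4) (nat_lit 3) (nat_lit 5) (nat_lit 3) (nat_lit 4) (nat_lit 414) (nat_lit 281) (nat_lit 205)) (XT.lf (nat_lit 0) (nat_lit 31911508687) (nat_lit 76) (nat_lit 112763801586) (nat_lit 76) (nat_lit 105653564018) (nat_lit 2) (nat_lit 4) (nat_lit 3) (nat_lit 5) (nat_lit 3) (nat_lit 4) (nat_lit 415) (nat_lit 281) (nat_lit 204))))) (XT.nd (nat_lit 234)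 (nat_lit 0) (nat_lit 0) (XT.nd (nat_lit 78) (nat_lit 0) (nat_lit 0) (XT.lf (nat_lit 0) (nat_lit 44393352664) (nat_lit 76) (nat_lit 112647538014) (nat_lit 76) (nat_lit 105529202905) (nat_lit 2) (nat_lit 4) (nat_lit 3) (nat_lit 5) (nat_lit 3) (nat_lit 4) (nat_lit 416) (nat_lit 281) (nat_lit 203)) (XT.nd (nat_lit 78) (nat_lit 0) (nat_lit 0) (XT.lf (nat_lit 0) (nat_lit 57476679823) (nat_lit 76) (nat_lit 112536656332) (nat_lit 76) (nat_lit 105410609281) (nat_lit 2) (nat_lit 4) (nat_lit 3) (nat_lit 5) (nat_lit 3) (nat_lit 4) (nat_lit 417) (nat_lit 281) (nat_lit 202)) (XT.lf (nat_lit 0) (nat_lit 71192640942) (nat_lit 76) (nat_lit 112430892538) (nat_lit 76) (nat_lit 105297500779) (nat_lit 2) (nat_lit 4) (nat_lit 3) (nat_lit 5) (nat_lit 3) (nat_lit 4) (nat_lit 418) (nat_lit 281) (nat_lit 201)))) (XT.nd (nat_lit 156) (nat_lit 0) (nat_lit 0) (XT.nd (nat_lit 78) (nat_lit 0) (nat_lit 0) (XT.lf (nat_lit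 0) (nat_lit 85573893073) (nat_lit 76) (nat_lit 112329994812) (nat_lit 76) (nat_lit 105189608093) (nat_lit 2) (nat_lit 4) (nat_lit 3) (nat_lit 5) (nat_lit 3) (nat_lit 4) (nat_lit 419) (nat_lit 281) (nat_lit 200)) (XT.lf (nat_lit 0) (nat_lit 100654677292) (nat_lit 76) (nat_lit 112233722922) (nat_lit 76) (nat_lit 105086674337) (nat_lit 2) (nat_lit 4) (nat_lit 3) (nat_lit 5) (nat_lit 3) (nat_lit 4) (nat_lit 420) (nat_lit 281) (nat_lit 199))) (XT.nd (nat_lit 78) (nat_lit 0) (nat_lit 0) (XT.lf (nat_lit 0) (nat_lit 116470900228) (nat_lit 76) (nat_lit 112141847648) (nat_lit 76) (nat_lit 104988454429) (nat_lit 2) (nat_lit 4) (nat_lit 3) (nat_lit 5) (nat_lit 3) (nat_lit 4) (nat_lit 421) (nat_lit 281) (nat_lit 198)) (XT.lf (nat_lit 0) (nat_lit 133060219555) (nat_lit 76) (nat_lit 112054150241) (nat_lit 76) (nat_lit 104894714512) (nat_lit 2) (nat_lit 4) (nat_lit 3) (nat_lit 5) (nat_lit 3) (nat_lit 4)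 (nat_lit 422) (nat_lit 281) (nat_lit 197))))))))
noncomputable def xc56 : XT := (XT.nd (nat_lit 40560) (nat_lit 0) (nat_lit 912) (XT.nd (nat_lit 936) (nat_lit 0) (nat_lit 0) (XT.nd (nat_lit 468) (nat_lit 0) (nat_lit 0) (XT.nd (nat_lit 234) (nat_lit 0) (nat_lit 0) (XT.nd (nat_lit 78) (nat_lit 0) (nat_lit 0) (XT.lf (nat_lit 0) (nat_lit 150462133652) (nat_lit 76) (nat_lit 111970421897) (nat_lit 76) (nat_lit 104805231397) (nat_lit 2) (nat_lit 4) (nat_lit 3) (nat_lit 5) (nat_lit 3) (nat_lit 4) (nat_lit 423) (nat_lit 281) (nat_lit 196)) (XT.nd (nat_lit 78) (nat_lit 0) (nat_lit 0) (XT.lf (nat_lit 0) (nat_lit 168718075647) (nat_lit 76) (nat_lit 111890463262) (nat_lit 76) (nat_lit 104719792029) (nat_lit 2) (nat_lit 4) (nat_lit 3) (nat_lit 5) (nat_lit 3) (nat_lit 4) (nat_lit 424) (nat_lit 281) (nat_lit 195)) (XT.lf (nat_lit 0) (nat_lit 187871512070) (nat_lit 76) (nat_lit 111814083960) (nat_lit 76)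 (nat_lit 104638192980) (nat_lit 2) (nat_lit 4) (nat_lit 3) (nat_lit 5) (nat_lit 3) (nat_lit 4) (nat_lit 425) (nat_lit 281) (nat_lit 194)))) (XT.nd (nat_lit 78) (nat_lit 0) (nat_lit 0) (XT.lf (nat_lit 0) (nat_lit 207968046340) (nat_lit 76) (nat_lit 111741102133) (nat_lit 76) (nat_lit 104560239966) (nat_lit 2) (nat_lit 4) (nat_lit 3) (nat_lit 5) (nat_lit 3) (nat_lit 4) (nat_lit 426) (nat_lit 281) (nat_lit 193)) (XT.nd (nat_lit 78) (nat_lit 0) (nat_lit 0) (XT.lf (nat_lit 0) (nat_lit 229055527348) (nat_lit 76) (nat_lit 111671344018) (nat_lit 76) (nat_lit 104485747386) (nat_lit 2) (nat_lit 4) (nat_lit 3) (nat_lit 5) (nat_lit 3) (nat_lit 4) (nat_lit 427) (nat_lit 281) (nat_lit 192)) (XT.lf (nat_lit 0) (nat_lit 251184163383) (nat_lit 76) (nat_lit 111604643521) (nat_lit 76) (nat_lit 104414537877) (nat_lit 2) (nat_lit 4) (nat_lit 3) (nat_lit 5) (nat_lit 3) (nat_lit 4) (nat_lit 428) (nat_lit 281)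 (nat_lit 191))))) (XT.nd (nat_lit 234) (nat_lit 0) (nat_lit 0) (XT.nd (nat_lit 78) (nat_lit 0) (nat_lit 0) (XT.lf (nat_lit 0) (nat_lit 274406641674) (nat_lit 76) (nat_lit 111540841834) (nat_lit 76) (nat_lit 104346441891) (nat_lit 2) (nat_lit 4) (nat_lit 3) (nat_lit 5) (nat_lit 3) (nat_lit 4) (nat_lit 429) (nat_lit 281) (nat_lit 190)) (XT.nd (nat_lit 78) (nat_lit 0) (nat_lit 0) (XT.lf (nat_lit 0) (nat_lit 298778253835) (nat_lit 76) (nat_lit 111479787046) (nat_lit 76) (nat_lit 104281297295) (nat_lit 2) (nat_lit 4) (nat_lit 3) (nat_lit 5) (nat_lit 3) (nat_lit 4) (nat_lit 430) (nat_lit 281) (nat_lit 189)) (XT.lf (nat_lit 0) (nat_lit 324357027514) (nat_lit 76) (nat_lit 111421333790) (nat_lit 76) (nat_lit 104218948984) (nat_lit 2) (nat_lit 4) (nat_lit 3) (nat_lit 5) (nat_lit 3) (nat_lit 4) (nat_lit 431) (nat_lit 281) (nat_lit 188)))) (XT.nd (nat_lit 78) (nat_lit 0) (nat_lit 0) (XT.lf (nat_lit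 0) (nat_lit 351203864553) (nat_lit 76) (nat_lit 111365342891) (nat_lit 76) (nat_lit 104159248508) (nat_lit 2) (nat_lit 4) (nat_lit 3) (nat_lit 5) (nat_lit 3) (nat_lit 4) (nat_lit 432) (nat_lit 281) (nat_lit 187)) (XT.nd (nat_lit 78) (nat_lit 0) (nat_lit 0) (XT.lf (nat_lit 0) (nat_lit 379382685993) (nat_lit 76) (nat_lit 111311681038) (nat_lit 76) (nat_lit 104102053725) (nat_lit 2) (nat_lit 4) (nat_lit 3) (nat_lit 5) (nat_lit 3) (nat_lit 4) (nat_lit 433) (nat_lit 281) (nat_lit 186)) (XT.lf (nat_lit 0) (nat_lit 408960584267) (nat_lit 76) (nat_lit 111260220463) (nat_lit 76) (nat_lit 104047228455) (nat_lit 2) (nat_lit 4) (nat_lit 3) (nat_lit 5) (nat_lit 3) (nat_lit 4) (nat_lit 434) (nat_lit 281) (nat_lit 185)))))) (XT.nd (nat_lit 39156) (nat_lit 0) (nat_lit 2736) (XT.nd (nat_lit 234) (nat_lit 0) (nat_lit 0) (XT.nd (nat_lit 78) (nat_lit 0) (nat_lit 0) (XT.lf (nat_lit 0) (nat_lit 440007982940)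 (nat_lit 76) (nat_lit 111210838643) (nat_lit 76) (nat_lit 103994642163) (nat_lit 2) (nat_lit 4) (nat_lit 3) (nat_lit 5) (nat_lit 3) (nat_lit 4) (nat_lit 435) (nat_lit 281) (nat_lit 184)) (XT.nd (nat_lit 78) (nat_lit 0) (nat_lit 0) (XT.lf (nat_lit 0) (nat_lit 472598804392) (nat_lit 76) (nat_lit 111163418000) (nat_lit 76) (nat_lit 103944169643) (nat_lit 2) (nat_lit 4) (nat_lit 3) (nat_lit 5) (nat_lit 3) (nat_lit 4) (nat_lit 436) (nat_lit 281) (nat_lit 183)) (XT.lf (nat_lit 0) (nat_lit 506810645815) (nat_lit 76) (nat_lit 111117845630) (nat_lit 76) (nat_lit 103895690722) (nat_lit 2) (nat_lit 4) (nat_lit 3) (nat_lit 5) (nat_lit 3) (nat_lit 4) (nat_lit 437) (nat_lit 281) (nat_lit 182)))) (XT.nd (nat_lit 78) (nat_lit 0) (nat_lit 0) (XT.lf (nat_lit 0) (nat_lit 542724963976) (nat_lit 76) (nat_lit 111074013025) (nat_lit 76) (nat_lit 103849089974) (nat_lit 2) (nat_lit 4) (nat_lit 3) (nat_lit 5) (nat_lit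 3) (nat_lit 4) (nat_lit 438) (nat_lit 281) (nat_lit 181)) (XT.nd (nat_lit 78) (nat_lit 0) (nat_lit 0) (XT.lf (nat_lit 0) (nat_lit 580427269155) (nat_lit 76) (nat_lit 111031815824) (nat_lit 76) (nat_lit 103804256446) (nat_lit 2) (nat_lit 4) (nat_lit 3) (nat_lit 5) (nat_lit 3) (nat_lit 4) (nat_lit 439) (nat_lit 281) (nat_lit 180)) (XT.lf (nat_lit 0) (nat_lit 620007328747) (nat_lit 76) (nat_lit 110991153555) (nat_lit 76) (nat_lit 103761083391) (nat_lit 2) (nat_lit 4) (nat_lit 3) (nat_lit 5) (nat_lit 3) (nat_lit 4) (nat_lit 440) (nat_lit 281) (nat_lit 179))))) (XT.nd (nat_lit 234) (nat_lit 380) (nat_lit 0) (XT.nd (nat_lit 78) (nat_lit 380) (nat_lit 0) (XT.lf (nat_lit 0) (nat_lit 2802808700) (nat_lit 152) (nat_lit 1254174815) (nat_lit 152) (nat_lit 1254174815) (nat_lit 48) (nat_lit 4) (nat_lit 50) (nat_lit 5) (nat_lit 50) (nat_lit 4) (nat_lit 336) (nat_lit 282) (nat_lit 282)) (XT.nd (nat_lit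 78) (nat_lit 152) (nat_lit 0) (XT.lf (nat_lit 0) (nat_lit 2069242432) (nat_lit 228) (nat_lit 7403159990) (nat_lit 0) (nat_lit 1415525056) (nat_lit 45) (nat_lit 5) (nat_lit 48) (nat_lit 4) (nat_lit 45) (nat_lit 4) (nat_lit 337) (nat_lit 282) (nat_lit 281)) (XT.lf (nat_lit 0) (nat_lit 1087110191) (nat_lit 152) (nat_lit 5677680933) (nat_lit 152) (nat_lit 4401375581) (nat_lit 43) (nat_lit 4) (nat_lit 45) (nat_lit 5) (nat_lit 45) (nat_lit 4) (nat_lit 338) (nat_lit 282) (nat_lit 280)))) (XT.nd (nat_lit 78) (nat_lit 304) (nat_lit 0) (XT.lf (nat_lit 0) (nat_lit 186507700) (nat_lit 228) (nat_lit 1486905495) (nat_lit 76) (nat_lit 9786921314) (nat_lit 42) (nat_lit 5) (nat_lit 45) (nat_lit 5) (nat_lit 43) (nat_lit 4) (nat_lit 339) (nat_lit 282) (nat_lit 279)) (XT.nd (nat_lit 78) (nat_lit 152) (nat_lit 0) (XT.lf (nat_lit 0) (nat_lit 4850617865) (nat_lit 228) (nat_lit 4382742066) (nat_lit 0) (nat_lit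 2532568408) (nat_lit 40) (nat_lit 5) (nat_lit 43) (nat_lit 4) (nat_lit 40) (nat_lit 4) (nat_lit 340) (nat_lit 282) (nat_lit 278)) (XT.lf (nat_lit 0) (nat_lit 4503012806) (nat_lit 152) (nat_lit 5207975092) (nat_lit 152) (nat_lit 2377720965) (nat_lit 38) (nat_lit 4) (nat_lit 40) (nat_lit 5) (nat_lit 40) (nat_lit 4) (nat_lit 341) (nat_lit 282) (nat_lit 277))))))) (XT.nd (nat_lit 936) (nat_lit 684) (nat_lit 0) (XT.nd (nat_lit 468) (nat_lit 532) (nat_lit 0) (XT.nd (nat_lit 234) (nat_lit 304) (nat_lit 0) (XT.nd (nat_lit 78) (nat_lit 152) (nat_lit 0) (XT.lf (nat_lit 0) (nat_lit 1287006236) (nat_lit 76) (nat_lit 959371487) (nat_lit 152) (nat_lit 10182640642) (nat_lit 36) (nat_lit 5) (nat_lit 37) (nat_lit 5) (nat_lit 38) (nat_lit 4) (nat_lit 342) (nat_lit 282) (nat_lit 276)) (XT.nd (nat_lit 78) (nat_lit 152) (nat_lit 0) (XT.lf (nat_lit 0) (nat_lit 7049028815) (nat_lit 152) (nat_lit 2287552132) (nat_lit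 0) (nat_lit 3446502309) (nat_lit 36) (nat_lit 5) (nat_lit 38) (nat_lit 4) (nat_lit 36) (nat_lit 4) (nat_lit 343) (nat_lit 282) (nat_lit 275)) (XT.lf (nat_lit 0) (nat_lit 6951068469) (nat_lit 152) (nat_lit 5114530639) (nat_lit 152) (nat_lit 1090612084) (nat_lit 34) (nat_lit 4) (nat_lit 36) (nat_lit 5) (nat_lit 36) (nat_lit 4) (nat_lit 344) (nat_lit 282) (nat_lit 274)))) (XT.nd (nat_lit 78) (nat_lit 152) (nat_lit 0) (XT.lf (nat_lit 0) (nat_lit 2953757091) (nat_lit 76) (nat_lit 645755789) (nat_lit 152) (nat_lit 9948789775) (nat_lit 32) (nat_lit 5) (nat_lit 33) (nat_lit 5) (nat_lit 34) (nat_lit 4) (nat_lit 345) (nat_lit 282) (nat_lit 273)) (XT.nd (nat_lit 78) (nat_lit 152) (nat_lit 0) (XT.lf (nat_lit 0) (nat_lit 8508894550) (nat_lit 152) (nat_lit 1518820673) (nat_lit 0) (nat_lit 3930361859) (nat_lit 32) (nat_lit 5) (nat_lit 34) (nat_lit 4) (nat_lit 32) (nat_lit 4) (nat_lit 346) (nat_lit 282)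 (nat_lit 272)) (XT.lf (nat_lit 0) (nat_lit 8001607027) (nat_lit 152) (nat_lit 5656143177) (nat_lit 152) (nat_lit 730930204) (nat_lit 30) (nat_lit 4) (nat_lit 32) (nat_lit 5) (nat_lit 32) (nat_lit 4) (nat_lit 347) (nat_lit 282) (nat_lit 271))))) (XT.nd (nat_lit 234) (nat_lit 228) (nat_lit 0) (XT.nd (nat_lit 78) (nat_lit 152) (nat_lit 0) (XT.lf (nat_lit 0) (nat_lit 2985256243) (nat_lit 76) (nat_lit 1034568592) (nat_lit 152) (nat_lit 10821140903) (nat_lit 28) (nat_lit 5) (nat_lit 29) (nat_lit 5) (nat_lit 30) (nat_lit 4) (nat_lit 348) (nat_lit 282) (nat_lit 270)) (XT.nd (nat_lit 78) (nat_lit 152) (nat_lit 0) (XT.lf (nat_lit 0) (nat_lit 9013145735) (nat_lit 152) (nat_lit 2592133771) (nat_lit 0) (nat_lit 3708542016) (nat_lit 28) (nat_lit 5) (nat_lit 30) (nat_lit 4) (nat_lit 28) (nat_lit 4) (nat_lit 349) (nat_lit 282) (nat_lit 269)) (XT.lf (nat_lit 0) (nat_lit 7100878538) (nat_lit 152) (nat_lit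 7149783397) (nat_lit 152) (nat_lit 1559964953) (nat_lit 26) (nat_lit 4) (nat_lit 28) (nat_lit 5) (nat_lit 28) (nat_lit 4) (nat_lit 350) (nat_lit 282) (nat_lit 268)))) (XT.nd (nat_lit 78) (nat_lit 76) (nat_lit 0) (XT.lf (nat_lit 0) (nat_lit 764296781) (nat_lit 76) (nat_lit 2467775559) (nat_lit 152) (nat_lit 13101378225) (nat_lit 24) (nat_lit 5) (nat_lit 25) (nat_lit 5) (nat_lit 26) (nat_lit 4) (nat_lit 351) (nat_lit 282) (nat_lit 267)) (XT.nd (nat_lit 78) (nat_lit 76) (nat_lit 0) (XT.lf (nat_lit 0) (nat_lit 8267412130) (nat_lit 152) (nat_lit 6172248930) (nat_lit 0) (nat_lit 2438698149) (nat_lit 24) (nat_lit 5) (nat_lit 26) (nat_lit 4) (nat_lit 24) (nat_lit 4) (nat_lit 352) (nat_lit 282) (nat_lit 266)) (XT.lf (nat_lit 0) (nat_lit 3533404425) (nat_lit 76) (nat_lit 9991001359) (nat_lit 76) (nat_lit 3927640517) (nat_lit 23) (nat_lit 4) (nat_lit 24) (nat_lit 5) (nat_lit 24) (nat_lit 4) (nat_lit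 353) (nat_lit 282) (nat_lit 265)))))) (XT.nd (nat_lit 468) (nat_lit 304) (nat_lit 0) (XT.nd (nat_lit 234) (nat_lit 228) (nat_lit 0) (XT.nd (nat_lit 78) (nat_lit 76) (nat_lit 0) (XT.lf (nat_lit 0) (nat_lit 939009267) (nat_lit 152) (nat_lit 4361865044) (nat_lit 76) (nat_lit 12753752616) (nat_lit 22) (nat_lit 5) (nat_lit 24) (nat_lit 5) (nat_lit 23) (nat_lit 4) (nat_lit 354) (nat_lit 282) (nat_lit 264)) (XT.nd (nat_lit 78) (nat_lit 0) (nat_lit 0) (XT.lf (nat_lit 0) (nat_lit 5563444088) (nat_lit 76) (nat_lit 320999691) (nat_lit 152) (nat_lit 12801324725) (nat_lit 21) (nat_lit 5) (nat_lit 22) (nat_lit 5) (nat_lit 23) (nat_lit 4) (nat_lit 355) (nat_lit 282) (nat_lit 263)) (XT.lf (nat_lit 0) (nat_lit 11110107625) (nat_lit 152) (nat_lit 3509828866) (nat_lit 0) (nat_lit 4726905299) (nat_lit 21) (nat_lit 5) (nat_lit 23) (nat_lit 4) (nat_lit 21) (nat_lit 4) (nat_lit 356) (nat_lit 282) (nat_lit 262))))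 (XT.nd (nat_lit 78) (nat_lit 152) (nat_lit 0) (XT.lf (nat_lit 0) (nat_lit 6575464697) (nat_lit 76) (nat_lit 10016419151) (nat_lit 76) (nat_lit 3449364870) (nat_lit 20) (nat_lit 4) (nat_lit 21) (nat_lit 5) (nat_lit 21) (nat_lit 4) (nat_lit 357) (nat_lit 282) (nat_lit 261)) (XT.nd (nat_lit 78) (nat_lit 76) (nat_lit 0) (XT.lf (nat_lit 0) (nat_lit 1474481782) (nat_lit 152) (nat_lit 3719463727) (nat_lit 76) (nat_lit 15577838831) (nat_lit 19) (nat_lit 5) (nat_lit 21) (nat_lit 5) (nat_lit 20) (nat_lit 4) (nat_lit 358) (nat_lit 282) (nat_lit 260)) (XT.lf (nat_lit 0) (nat_lit 6461250366) (nat_lit 76) (nat_lit 60779336) (nat_lit 152) (nat_lit 15014336701) (nat_lit 18) (nat_lit 5) (nat_lit 19) (nat_lit 5) (nat_lit 20) (nat_lit 4) (nat_lit 359) (nat_lit 282) (nat_lit 259))))) (XT.nd (nat_lit 234) (nat_lit 228) (nat_lit 0) (XT.nd (nat_lit 78) (nat_lit 76) (nat_lit 0) (XT.lf (nat_lit 0) (nat_lit 11862252918)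 (nat_lit 152) (nat_lit 5343844716) (nat_lit 0) (nat_lit 5131082675) (nat_lit 18) (nat_lit 5) (nat_lit 20) (nat_lit 4) (nat_lit 18) (nat_lit 4) (nat_lit 360) (nat_lit 282) (nat_lit 258)) (XT.nd (nat_lit 78) (nat_lit 0) (nat_lit 0) (XT.lf (nat_lit 0) (nat_lit 4833688409) (nat_lit 76) (nat_lit 12610427466) (nat_lit 76) (nat_lit 5735204404) (nat_lit 17) (nat_lit 4) (nat_lit 18) (nat_lit 5) (nat_lit 18) (nat_lit 4) (nat_lit 361) (nat_lit 282) (nat_lit 257)) (XT.lf (nat_lit 0) (nat_lit 15514740072) (nat_lit 76) (nat_lit 7780866335) (nat_lit 76) (nat_lit 768450115) (nat_lit 17) (nat_lit 4) (nat_lit 18) (nat_lit 5) (nat_lit 18) (nat_lit 4) (nat_lit 362) (nat_lit 282) (nat_lit 256)))) (XT.nd (nat_lit 156) (nat_lit 76) (nat_lit 0) (XT.nd (nat_lit 78) (nat_lit 0) (nat_lit 0) (XT.lf (nat_lit 0) (nat_lit 1531395260) (nat_lit 76) (nat_lit 2700054316) (nat_lit 152) (nat_lit 20761766884) (nat_lit 15) (nat_lit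 5) (nat_lit 16) (nat_lit 5) (nat_lit 17) (nat_lit 4) (nat_lit 363) (nat_lit 282) (nat_lit 255)) (XT.lf (nat_lit 0) (nat_lit 9547443105) (nat_lit 152) (nat_lit 13790178423) (nat_lit 0) (nat_lit 2626000617) (nat_lit 15) (nat_lit 5) (nat_lit 17) (nat_lit 4) (nat_lit 15) (nat_lit 4) (nat_lit 364) (nat_lit 282) (nat_lit 254))) (XT.nd (nat_lit 78) (nat_lit 76) (nat_lit 0) (XT.lf (nat_lit 0) (nat_lit 15081715556) (nat_lit 152) (nat_lit 3855817840) (nat_lit 0) (nat_lit 8047403916) (nat_lit 15) (nat_lit 5) (nat_lit 17) (nat_lit 4) (nat_lit 15) (nat_lit 4) (nat_lit 365) (nat_lit 282) (nat_lit 253)) (XT.lf (nat_lit 0) (nat_lit 6618915845) (nat_lit 76) (nat_lit 14289712334) (nat_lit 76) (nat_lit 7147906263) (nat_lit 14) (nat_lit 4) (nat_lit 15) (nat_lit 5) (nat_lit 15) (nat_lit 4) (nat_lit 366) (nat_lit 282) (nat_lit 252))))))))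
noncomputable def xc57 : XT := (XT.nd (nat_lit 1950) (nat_lit 228) (nat_lit 0) (XT.nd (nat_lit 936) (nat_lit 304) (nat_lit 0) (XT.nd (nat_lit 468) (nat_lit 152) (nat_lit 0) (XT.nd (nat_lit 234) (nat_lit 76) (nat_lit 0) (XT.nd (nat_lit 78) (nat_lit 152) (nat_lit 0) (XT.lf (nat_lit 0) (nat_lit 17585772702) (nat_lit 76) (nat_lit 9420579547) (nat_lit 76) (nat_lit 2176397828) (nat_lit 14) (nat_lit 4) (nat_lit 15) (nat_lit 5) (nat_lit 15) (nat_lit 4) (nat_lit 367) (nat_lit 282) (nat_lit 251)) (XT.nd (nat_lit 78) (nat_lit 76) (nat_lit 0) (XT.lf (nat_lit 0) (nat_lit 2863170970) (nat_lit 152) (nat_lit 1472181845) (nat_lit 76) (nat_lit 26031713385) (nat_lit 13) (nat_lit 5) (nat_lit 15) (nat_lit 5) (nat_lit 14) (nat_lit 4) (nat_lit 368) (nat_lit 282) (nat_lit 250)) (XT.lf (nat_lit 0) (nat_lit 8164606012) (nat_lit 152) (nat_lit 22355975384) (nat_lit 0) (nat_lit 1084091663) (nat_lit 12) (nat_lit 5)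 (nat_lit 14) (nat_lit 4) (nat_lit 12) (nat_lit 4) (nat_lit 369) (nat_lit 282) (nat_lit 249)))) (XT.nd (nat_lit 78) (nat_lit 76) (nat_lit 0) (XT.lf (nat_lit 0) (nat_lit 13748674080) (nat_lit 152) (nat_lit 12570682903) (nat_lit 0) (nat_lit 6583935032) (nat_lit 12) (nat_lit 5) (nat_lit 14) (nat_lit 4) (nat_lit 12) (nat_lit 4) (nat_lit 370) (nat_lit 282) (nat_lit 248)) (XT.nd (nat_lit 78) (nat_lit 76) (nat_lit 0) (XT.lf (nat_lit 0) (nat_lit 19536849439) (nat_lit 152) (nat_lit 2441860245) (nat_lit 0) (nat_lit 12291896392) (nat_lit 12) (nat_lit 5) (nat_lit 14) (nat_lit 4) (nat_lit 12) (nat_lit 4) (nat_lit 371) (nat_lit 282) (nat_lit 247)) (XT.lf (nat_lit 0) (nat_lit 8320930575) (nat_lit 76) (nat_lit 17351895930) (nat_lit 76) (nat_lit 10030548598) (nat_lit 11) (nat_lit 4) (nat_lit 12) (nat_lit 5) (nat_lit 12) (nat_lit 4) (nat_lit 372) (nat_lit 282) (nat_lit 246))))) (XT.nd (nat_lit 234) (nat_lit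 0) (nat_lit 0) (XT.nd (nat_lit 78) (nat_lit 152) (nat_lit 0) (XT.lf (nat_lit 0) (nat_lit 19570080724) (nat_lit 76) (nat_lit 12516629375) (nat_lit 76) (nat_lit 5122525582) (nat_lit 11) (nat_lit 4) (nat_lit 12) (nat_lit 5) (nat_lit 12) (nat_lit 4) (nat_lit 373) (nat_lit 282) (nat_lit 245)) (XT.nd (nat_lit 78) (nat_lit 152) (nat_lit 0) (XT.lf (nat_lit 0) (nat_lit 31251634962) (nat_lit 76) (nat_lit 7502751566) (nat_lit 76) (nat_lit 39355904) (nat_lit 11) (nat_lit 4) (nat_lit 12) (nat_lit 5) (nat_lit 12) (nat_lit 4) (nat_lit 374) (nat_lit 282) (nat_lit 244)) (XT.lf (nat_lit 0) (nat_lit 2945336111) (nat_lit 76) (nat_lit 2164285366) (nat_lit 152) (nat_lit 35344663694) (nat_lit 9) (nat_lit 5) (nat_lit 10) (nat_lit 5) (nat_lit 11) (nat_lit 4) (nat_lit 375) (nat_lit 282) (nat_lit 243)))) (XT.nd (nat_lit 78) (nat_lit 0) (nat_lit 0) (XT.lf (nat_lit 0) (nat_lit 10633712209) (nat_lit 152) (nat_lit 28155158549)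 (nat_lit 0) (nat_lit 3403009653) (nat_lit 9) (nat_lit 5) (nat_lit 11) (nat_lit 4) (nat_lit 9) (nat_lit 4) (nat_lit 376) (nat_lit 282) (nat_lit 242)) (XT.nd (nat_lit 78) (nat_lit 0) (nat_lit 0) (XT.lf (nat_lit 0) (nat_lit 16408000573) (nat_lit 152) (nat_lit 18489370408) (nat_lit 0) (nat_lit 9120291424) (nat_lit 9) (nat_lit 5) (nat_lit 11) (nat_lit 4) (nat_lit 9) (nat_lit 4) (nat_lit 377) (nat_lit 282) (nat_lit 241)) (XT.lf (nat_lit 0) (nat_lit 22412444312) (nat_lit 152) (nat_lit 8454780297) (nat_lit 0) (nat_lit 15070443172) (nat_lit 9) (nat_lit 5) (nat_lit 11) (nat_lit 4) (nat_lit 9) (nat_lit 4) (nat_lit 378) (nat_lit 282) (nat_lit 240)))))) (XT.nd (nat_lit 468) (nat_lit 76) (nat_lit 0) (XT.nd (nat_lit 234) (nat_lit 152) (nat_lit 0) (XT.nd (nat_lit 78) (nat_lit 0) (nat_lit 0) (XT.lf (nat_lit 0) (nat_lit 2037723544) (nat_lit 76) (nat_lit 26655430753) (nat_lit 76) (nat_lit 19261722954) (nat_lit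 8) (nat_lit 4) (nat_lit 9) (nat_lit 5) (nat_lit 9) (nat_lit 4) (nat_lit 379) (nat_lit 282) (nat_lit 239)) (XT.nd (nat_lit 78) (nat_lit 0) (nat_lit 0) (XT.lf (nat_lit 0) (nat_lit 13241106444) (nat_lit 76) (nat_lit 22135189462) (nat_lit 76) (nat_lit 14692237225) (nat_lit 8) (nat_lit 4) (nat_lit 9) (nat_lit 5) (nat_lit 9) (nat_lit 4) (nat_lit 380) (nat_lit 282) (nat_lit 238)) (XT.lf (nat_lit 0) (nat_lit 24902489904) (nat_lit 76) (nat_lit 17438924051) (nat_lit 76) (nat_lit 9949072351) (nat_lit 8) (nat_lit 4) (nat_lit 9) (nat_lit 5) (nat_lit 9) (nat_lit 4) (nat_lit 381) (nat_lit 282) (nat_lit 237)))) (XT.nd (nat_lit 78) (nat_lit 152) (nat_lit 0) (XT.lf (nat_lit 0) (nat_lit 37049639122) (nat_lit 76) (nat_lit 12555452937) (nat_lit 76) (nat_lit 5020935080) (nat_lit 8) (nat_lit 4) (nat_lit 9) (nat_lit 5) (nat_lit 9) (nat_lit 4) (nat_lit 382) (nat_lit 282) (nat_lit 236)) (XT.nd (nat_lit 78) (nat_lit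 76) (nat_lit 0) (XT.lf (nat_lit 0) (nat_lit 100582532) (nat_lit 152) (nat_lit 7370862860) (nat_lit 76) (nat_lit 49609189936) (nat_lit 7) (nat_lit 5) (nat_lit 9) (nat_lit 5) (nat_lit 8) (nat_lit 4) (nat_lit 383) (nat_lit 282) (nat_lit 235)) (XT.lf (nat_lit 0) (nat_lit 3277760395) (nat_lit 76) (nat_lit 2037035198) (nat_lit 152) (nat_lit 54338799516) (nat_lit 6) (nat_lit 5) (nat_lit 7) (nat_lit 5) (nat_lit 8) (nat_lit 4) (nat_lit 384) (nat_lit 282) (nat_lit 234))))) (XT.nd (nat_lit 234) (nat_lit 76) (nat_lit 0) (XT.nd (nat_lit 78) (nat_lit 0) (nat_lit 0) (XT.lf (nat_lit 0) (nat_lit 10928187146) (nat_lit 152) (nat_lit 47783485555) (nat_lit 0) (nat_lit 3636611072) (nat_lit 6) (nat_lit 5) (nat_lit 8) (nat_lit 4) (nat_lit 6) (nat_lit 4) (nat_lit 385) (nat_lit 282) (nat_lit 233)) (XT.nd (nat_lit 78) (nat_lit 0) (nat_lit 0) (XT.lf (nat_lit 0) (nat_lit 16812125596) (nat_lit 152) (nat_lit 38880539067)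 (nat_lit 0) (nat_lit 9485552420) (nat_lit 6) (nat_lit 5) (nat_lit 8) (nat_lit 4) (nat_lit 6) (nat_lit 4) (nat_lit 386) (nat_lit 282) (nat_lit 232)) (XT.lf (nat_lit 0) (nat_lit 22948816493) (nat_lit 152) (nat_lit 29613993933) (nat_lit 0) (nat_lit 15588912743) (nat_lit 6) (nat_lit 5) (nat_lit 8) (nat_lit 4) (nat_lit 6) (nat_lit 4) (nat_lit 387) (nat_lit 282) (nat_lit 231)))) (XT.nd (nat_lit 156) (nat_lit 76) (nat_lit 0) (XT.nd (nat_lit 78) (nat_lit 0) (nat_lit 0) (XT.lf (nat_lit 0) (nat_lit 29352871006) (nat_lit 152) (nat_lit 19961786949) (nat_lit 0) (nat_lit 21961223853) (nat_lit 6) (nat_lit 5) (nat_lit 8) (nat_lit 4) (nat_lit 6) (nat_lit 4) (nat_lit 388) (nat_lit 282) (nat_lit 230)) (XT.lf (nat_lit 0) (nat_lit 36039536883) (nat_lit 152) (nat_lit 9900936671) (nat_lit 0) (nat_lit 28617657917) (nat_lit 6) (nat_lit 5) (nat_lit 8) (nat_lit 4) (nat_lit 6) (nat_lit 4) (nat_lit 389) (nat_lit 282)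 (nat_lit 229))) (XT.nd (nat_lit 78) (nat_lit 0) (nat_lit 0) (XT.lf (nat_lit 0) (nat_lit 612102407) (nat_lit 76) (nat_lit 42422188984) (nat_lit 76) (nat_lit 34971517816) (nat_lit 5) (nat_lit 4) (nat_lit 6) (nat_lit 5) (nat_lit 6) (nat_lit 4) (nat_lit 390) (nat_lit 282) (nat_lit 228)) (XT.lf (nat_lit 0) (nat_lit 11925222997) (nat_lit 76) (nat_lit 38586059208) (nat_lit 76) (nat_lit 31107966895) (nat_lit 5) (nat_lit 4) (nat_lit 6) (nat_lit 5) (nat_lit 6) (nat_lit 4) (nat_lit 391) (nat_lit 282) (nat_lit 227))))))) (XT.nd (nat_lit 936) (nat_lit 76) (nat_lit 0) (XT.nd (nat_lit 468) (nat_lit 152) (nat_lit 0) (XT.nd (nat_lit 234) (nat_lit 0) (nat_lit 0) (XT.nd (nat_lit 78) (nat_lit 0) (nat_lit 0) (XT.lf (nat_lit 0) (nat_lit 23737991419) (nat_lit 76) (nat_lit 34590627736) (nat_lit 76) (nat_lit 27086420046) (nat_lit 5) (nat_lit 4) (nat_lit 6) (nat_lit 5) (nat_lit 6) (nat_lit 4) (nat_lit 392) (nat_lit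 282) (nat_lit 226)) (XT.nd (nat_lit 78) (nat_lit 0) (nat_lit 0) (XT.lf (nat_lit 0) (nat_lit 36078533312) (nat_lit 76) (nat_lit 30426381636) (nat_lit 76) (nat_lit 22897302159) (nat_lit 5) (nat_lit 4) (nat_lit 6) (nat_lit 5) (nat_lit 6) (nat_lit 4) (nat_lit 393) (nat_lit 282) (nat_lit 225)) (XT.lf (nat_lit 0) (nat_lit 48976230920) (nat_lit 76) (nat_lit 26083406037) (nat_lit 76) (nat_lit 18530639143) (nat_lit 5) (nat_lit 4) (nat_lit 6) (nat_lit 5) (nat_lit 6) (nat_lit 4) (nat_lit 394) (nat_lit 282) (nat_lit 224)))) (XT.nd (nat_lit 78) (nat_lit 0) (nat_lit 0) (XT.lf (nat_lit 0) (nat_lit 62461793046) (nat_lit 76) (nat_lit 21551360520) (nat_lit 76) (nat_lit 13976034183) (nat_lit 5) (nat_lit 4) (nat_lit 6) (nat_lit 5) (nat_lit 6) (nat_lit 4) (nat_lit 395) (nat_lit 282) (nat_lit 223)) (XT.nd (nat_lit 78) (nat_lit 0) (nat_lit 0) (XT.lf (nat_lit 0) (nat_lit 76567328170) (nat_lit 76) (nat_lit 16819454501)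 (nat_lit 76) (nat_lit 9222642979) (nat_lit 5) (nat_lit 4) (nat_lit 6) (nat_lit 5) (nat_lit 6) (nat_lit 4) (nat_lit 396) (nat_lit 282) (nat_lit 222)) (XT.lf (nat_lit 0) (nat_lit 91326420902) (nat_lit 76) (nat_lit 11876421537) (nat_lit 76) (nat_lit 4259147934) (nat_lit 5) (nat_lit 4) (nat_lit 6) (nat_lit 5) (nat_lit 6) (nat_lit 4) (nat_lit 397) (nat_lit 282) (nat_lit 221))))) (XT.nd (nat_lit 234) (nat_lit 0) (nat_lit 0) (XT.nd (nat_lit 78) (nat_lit 76) (nat_lit 0) (XT.lf (nat_lit 0) (nat_lit 896622410) (nat_lit 152) (nat_lit 5798685357) (nat_lit 76) (nat_lit 105862404792) (nat_lit 4) (nat_lit 5) (nat_lit 6) (nat_lit 5) (nat_lit 5) (nat_lit 4) (nat_lit 398) (nat_lit 282) (nat_lit 220)) (XT.nd (nat_lit 78) (nat_lit 0) (nat_lit 0) (XT.lf (nat_lit 0) (nat_lit 5100764066) (nat_lit 76) (nat_lit 1121716458) (nat_lit 152) (nat_lit 111679479559) (nat_lit 3) (nat_lit 5) (nat_lit 4) (nat_lit 5) (nat_lit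 5) (nat_lit 4) (nat_lit 399) (nat_lit 282) (nat_lit 219)) (XT.lf (nat_lit 0) (nat_lit 11964157510) (nat_lit 152) (nat_lit 106885246745) (nat_lit 0) (nat_lit 4656541392) (nat_lit 3) (nat_lit 5) (nat_lit 5) (nat_lit 4) (nat_lit 3) (nat_lit 4) (nat_lit 400) (nat_lit 282) (nat_lit 218)))) (XT.nd (nat_lit 78) (nat_lit 0) (nat_lit 0) (XT.lf (nat_lit 0) (nat_lit 17988312205) (nat_lit 152) (nat_lit 100737386950) (nat_lit 0) (nat_lit 10664663511) (nat_lit 3) (nat_lit 5) (nat_lit 5) (nat_lit 4) (nat_lit 3) (nat_lit 4) (nat_lit 401) (nat_lit 282) (nat_lit 217)) (XT.nd (nat_lit 78) (nat_lit 0) (nat_lit 0) (XT.lf (nat_lit 0) (nat_lit 24291774696) (nat_lit 152) (nat_lit 94325465736) (nat_lit 0) (nat_lit 16952856883) (nat_lit 3) (nat_lit 5) (nat_lit 5) (nat_lit 4) (nat_lit 3) (nat_lit 4) (nat_lit 402) (nat_lit 282) (nat_lit 216)) (XT.lf (nat_lit 0) (nat_lit 30889553228) (nat_lit 152) (nat_lit 87634216621)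 (nat_lit 0) (nat_lit 23536093395) (nat_lit 3) (nat_lit 5) (nat_lit 5) (nat_lit 4) (nat_lit 3) (nat_lit 4) (nat_lit 403) (nat_lit 282) (nat_lit 215)))))) (XT.nd (nat_lit 468) (nat_lit 76) (nat_lit 0) (XT.nd (nat_lit 234) (nat_lit 0) (nat_lit 0) (XT.nd (nat_lit 78) (nat_lit 0) (nat_lit 0) (XT.lf (nat_lit 0) (nat_lit 37797356796) (nat_lit 152) (nat_lit 80647708061) (nat_lit 0) (nat_lit 30430047422) (nat_lit 3) (nat_lit 5) (nat_lit 5) (nat_lit 4) (nat_lit 3) (nat_lit 4) (nat_lit 404) (nat_lit 282) (nat_lit 214)) (XT.nd (nat_lit 78) (nat_lit 0) (nat_lit 0) (XT.lf (nat_lit 0) (nat_lit 45031632553) (nat_lit 152) (nat_lit 73349305513) (nat_lit 0) (nat_lit 37651133139) (nat_lit 3) (nat_lit 5) (nat_lit 5) (nat_lit 4) (nat_lit 3) (nat_lit 4) (nat_lit 405) (nat_lit 282) (nat_lit 213)) (XT.lf (nat_lit 0) (nat_lit 52609604964) (nat_lit 152) (nat_lit 65721631825) (nat_lit 0) (nat_lit 45216543608) (nat_lit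 3) (nat_lit 5) (nat_lit 5) (nat_lit 4) (nat_lit 3) (nat_lit 4) (nat_lit 406) (nat_lit 282) (nat_lit 212)))) (XT.nd (nat_lit 78) (nat_lit 0) (nat_lit 0) (XT.lf (nat_lit 0) (nat_lit 60549316821) (nat_lit 152) (nat_lit 57746525872) (nat_lit 0) (nat_lit 53144291710) (nat_lit 3) (nat_lit 5) (nat_lit 5) (nat_lit 4) (nat_lit 3) (nat_lit 4) (nat_lit 407) (nat_lit 282) (nat_lit 211)) (XT.nd (nat_lit 78) (nat_lit 0) (nat_lit 0) (XT.lf (nat_lit 0) (nat_lit 68869672199) (nat_lit 152) (nat_lit 49404999305) (nat_lit 0) (nat_lit 61453253036) (nat_lit 3) (nat_lit 5) (nat_lit 5) (nat_lit 4) (nat_lit 3) (nat_lit 4) (nat_lit 408) (nat_lit 282) (nat_lit 210)) (XT.lf (nat_lit 0) (nat_lit 77590481469) (nat_lit 152) (nat_lit 40677191347) (nat_lit 0) (nat_lit 70163210828) (nat_lit 3) (nat_lit 5) (nat_lit 5) (nat_lit 4) (nat_lit 3) (nat_lit 4) (nat_lit 409) (nat_lit 282) (nat_lit 209))))) (XT.nd (nat_lit 234) (nat_lit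 76) (nat_lit 0) (XT.nd (nat_lit 78) (nat_lit 0) (nat_lit 0) (XT.lf (nat_lit 0) (nat_lit 86732508463) (nat_lit 152) (nat_lit 31542321503) (nat_lit 0) (nat_lit 79294903080) (nat_lit 3) (nat_lit 5) (nat_lit 5) (nat_lit 4) (nat_lit 3) (nat_lit 4) (nat_lit 410) (nat_lit 282) (nat_lit 208)) (XT.nd (nat_lit 78) (nat_lit 0) (nat_lit 0) (XT.lf (nat_lit 0) (nat_lit 96317519910) (nat_lit 152) (nat_lit 21978640083) (nat_lit 0) (nat_lit 88870071916) (nat_lit 3) (nat_lit 5) (nat_lit 5) (nat_lit 4) (nat_lit 3) (nat_lit 4) (nat_lit 411) (nat_lit 282) (nat_lit 207)) (XT.lf (nat_lit 0) (nat_lit 106368337267) (nat_lit 152) (nat_lit 11963376416) (nat_lit 0) (nat_lit 98911515359) (nat_lit 3) (nat_lit 5) (nat_lit 5) (nat_lit 4) (nat_lit 3) (nat_lit 4) (nat_lit 412) (nat_lit 282) (nat_lit 206)))) (XT.nd (nat_lit 156) (nat_lit 0) (nat_lit 0) (XT.nd (nat_lit 78) (nat_lit 76) (nat_lit 0) (XT.lf (nat_lit 0) (nat_lit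 116908891052) (nat_lit 152) (nat_lit 1472684637) (nat_lit 0) (nat_lit 109443141606) (nat_lit 3) (nat_lit 5) (nat_lit 5) (nat_lit 4) (nat_lit 3) (nat_lit 4) (nat_lit 413) (nat_lit 282) (nat_lit 205)) (XT.lf (nat_lit 0) (nat_lit 9833134814) (nat_lit 76) (nat_lit 118284665798) (nat_lit 76) (nat_lit 110810413935) (nat_lit 2) (nat_lit 4) (nat_lit 3) (nat_lit 5) (nat_lit 3) (nat_lit 4) (nat_lit 414) (nat_lit 282) (nat_lit 204))) (XT.nd (nat_lit 78) (nat_lit 0) (nat_lit 0) (XT.lf (nat_lit 0) (nat_lit 21731634057) (nat_lit 76) (nat_lit 118168477577) (nat_lit 76) (nat_lit 110686128173) (nat_lit 2) (nat_lit 4) (nat_lit 3) (nat_lit 5) (nat_lit 3) (nat_lit 4) (nat_lit 415) (nat_lit 282) (nat_lit 203)) (XT.lf (nat_lit 0) (nat_lit 34202449245) (nat_lit 76) (nat_lit 118057675014) (nat_lit 76) (nat_lit 110567613667) (nat_lit 2) (nat_lit 4) (nat_lit 3) (nat_lit 5) (nat_lit 3) (nat_lit 4) (nat_lit 416) (nat_lit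 282) (nat_lit 202))))))))
noncomputable def xc58 : XT := (XT.nd (nat_lit 40404) (nat_lit 0) (nat_lit 1368) (XT.nd (nat_lit 936) (nat_lit 0) (nat_lit 0) (XT.nd (nat_lit 468) (nat_lit 0) (nat_lit 0) (XT.nd (nat_lit 234) (nat_lit 0) (nat_lit 0) (XT.nd (nat_lit 78) (nat_lit 0) (nat_lit 0) (XT.lf (nat_lit 0) (nat_lit 47275272795) (nat_lit 76) (nat_lit 117951994295) (nat_lit 76) (nat_lit 110454588240) (nat_lit 2) (nat_lit 4) (nat_lit 3) (nat_lit 5) (nat_lit 3) (nat_lit 4) (nat_lit 417) (nat_lit 282) (nat_lit 201)) (XT.nd (nat_lit 78) (nat_lit 0) (nat_lit 0) (XT.lf (nat_lit 0) (nat_lit 60981230478) (nat_lit 76) (nat_lit 117851183797) (nat_lit 76) (nat_lit 110346782783) (nat_lit 2) (nat_lit 4) (nat_lit 3) (nat_lit 5) (nat_lit 3) (nat_lit 4) (nat_lit 418) (nat_lit 282) (nat_lit 200)) (XT.lf (nat_lit 0) (nat_lit 75352955527) (nat_lit 76) (nat_lit 117755003496) (nat_lit 76) (nat_lit 110243940615)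 (nat_lit 2) (nat_lit 4) (nat_lit 3) (nat_lit 5) (nat_lit 3) (nat_lit 4) (nat_lit 419) (nat_lit 282) (nat_lit 199)))) (XT.nd (nat_lit 78) (nat_lit 0) (nat_lit 0) (XT.lf (nat_lit 0) (nat_lit 90424666335) (nat_lit 76) (nat_lit 117663224392) (nat_lit 76) (nat_lit 110145816877) (nat_lit 2) (nat_lit 4) (nat_lit 3) (nat_lit 5) (nat_lit 3) (nat_lit 4) (nat_lit 420) (nat_lit 282) (nat_lit 198)) (XT.nd (nat_lit 78) (nat_lit 0) (nat_lit 0) (XT.lf (nat_lit 0) (nat_lit 106232247926) (nat_lit 76) (nat_lit 117575627962) (nat_lit 76) (nat_lit 110052177938) (nat_lit 2) (nat_lit 4) (nat_lit 3) (nat_lit 5) (nat_lit 3) (nat_lit 4) (nat_lit 421) (nat_lit 282) (nat_lit 197)) (XT.lf (nat_lit 0) (nat_lit 122813337401) (nat_lit 76) (nat_lit 117492005644) (nat_lit 76) (nat_lit 109962800849) (nat_lit 2) (nat_lit 4) (nat_lit 3) (nat_lit 5) (nat_lit 3) (nat_lit 4) (nat_lit 422) (nat_lit 282) (nat_lit 196))))) (XT.nd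 (nat_lit 234) (nat_lit 0) (nat_lit 0) (XT.nd (nat_lit 78) (nat_lit 0) (nat_lit 0) (XT.lf (nat_lit 0) (nat_lit 140207413543) (nat_lit 76) (nat_lit 117412158338) (nat_lit 76) (nat_lit 109877472809) (nat_lit 2) (nat_lit 4) (nat_lit 3) (nat_lit 5) (nat_lit 3) (nat_lit 4) (nat_lit 423) (nat_lit 282) (nat_lit 195)) (XT.nd (nat_lit 78) (nat_lit 0) (nat_lit 0) (XT.lf (nat_lit 0) (nat_lit 158455890820) (nat_lit 76) (nat_lit 117335895929) (nat_lit 76) (nat_lit 109795990654) (nat_lit 2) (nat_lit 4) (nat_lit 3) (nat_lit 5) (nat_lit 3) (nat_lit 4) (nat_lit 424) (nat_lit 282) (nat_lit 194)) (XT.lf (nat_lit 0) (nat_lit 177602217988) (nat_lit 76) (nat_lit 117263036842) (nat_lit 76) (nat_lit 109718160379) (nat_lit 2) (nat_lit 4) (nat_lit 3) (nat_lit 5) (nat_lit 3) (nat_lit 4) (nat_lit 425) (nat_lit 282) (nat_lit 193)))) (XT.nd (nat_lit 78) (nat_lit 0) (nat_lit 0) (XT.lf (nat_lit 0) (nat_lit 197691981538)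 (nat_lit 76) (nat_lit 117193407602) (nat_lit 76) (nat_lit 109643796675) (nat_lit 2) (nat_lit 4) (nat_lit 3) (nat_lit 5) (nat_lit 3) (nat_lit 4) (nat_lit 426) (nat_lit 282) (nat_lit 192)) (XT.nd (nat_lit 78) (nat_lit 0) (nat_lit 0) (XT.lf (nat_lit 0) (nat_lit 218773014242) (nat_lit 76) (nat_lit 117126842425) (nat_lit 76) (nat_lit 109572722485) (nat_lit 2) (nat_lit 4) (nat_lit 3) (nat_lit 5) (nat_lit 3) (nat_lit 4) (nat_lit 427) (nat_lit 282) (nat_lit 191)) (XT.lf (nat_lit 0) (nat_lit 240895509035) (nat_lit 76) (nat_lit 117063182824) (nat_lit 76) (nat_lit 109504768585) (nat_lit 2) (nat_lit 4) (nat_lit 3) (nat_lit 5) (nat_lit 3) (nat_lit 4) (nat_lit 428) (nat_lit 282) (nat_lit 190)))))) (XT.nd (nat_lit 468) (nat_lit 0) (nat_lit 0) (XT.nd (nat_lit 234) (nat_lit 0) (nat_lit 0) (XT.nd (nat_lit 78) (nat_lit 0) (nat_lit 0) (XT.lf (nat_lit 0) (nat_lit 264112138524) (nat_lit 76) (nat_lit 117002277226)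 (nat_lit 76) (nat_lit 109439773179) (nat_lit 2) (nat_lit 4) (nat_lit 3) (nat_lit 5) (nat_lit 3) (nat_lit 4) (nat_lit 429) (nat_lit 282) (nat_lit 189)) (XT.nd (nat_lit 78) (nat_lit 0) (nat_lit 0) (XT.lf (nat_lit 0) (nat_lit 288478180397) (nat_lit 76) (nat_lit 116943980619) (nat_lit 76) (nat_lit 109377581517) (nat_lit 2) (nat_lit 4) (nat_lit 3) (nat_lit 5) (nat_lit 3) (nat_lit 4) (nat_lit 430) (nat_lit 282) (nat_lit 188)) (XT.lf (nat_lit 0) (nat_lit 314051649040) (nat_lit 76) (nat_lit 116888154202) (nat_lit 76) (nat_lit 109318045524) (nat_lit 2) (nat_lit 4) (nat_lit 3) (nat_lit 5) (nat_lit 3) (nat_lit 4) (nat_lit 431) (nat_lit 282) (nat_lit 187)))) (XT.nd (nat_lit 78) (nat_lit 0) (nat_lit 0) (XT.lf (nat_lit 0) (nat_lit 340893433664) (nat_lit 76) (nat_lit 116834665055) (nat_lit 76) (nat_lit 109261023446) (nat_lit 2) (nat_lit 4) (nat_lit 3) (nat_lit 5) (nat_lit 3) (nat_lit 4) (nat_lit 432)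 (nat_lit 282) (nat_lit 186)) (XT.nd (nat_lit 78) (nat_lit 0) (nat_lit 0) (XT.lf (nat_lit 0) (nat_lit 369067443281) (nat_lit 76) (nat_lit 116783385822) (nat_lit 76) (nat_lit 109206379518) (nat_lit 2) (nat_lit 4) (nat_lit 3) (nat_lit 5) (nat_lit 3) (nat_lit 4) (nat_lit 433) (nat_lit 282) (nat_lit 185)) (XT.lf (nat_lit 0) (nat_lit 398640758864) (nat_lit 76) (nat_lit 116734194409) (nat_lit 76) (nat_lit 109153983634) (nat_lit 2) (nat_lit 4) (nat_lit 3) (nat_lit 5) (nat_lit 3) (nat_lit 4) (nat_lit 434) (nat_lit 282) (nat_lit 184))))) (XT.nd (nat_lit 234) (nat_lit 0) (nat_lit 0) (XT.nd (nat_lit 78) (nat_lit 0) (nat_lit 0) (XT.lf (nat_lit 0) (nat_lit 429683793072) (nat_lit 76) (nat_lit 116686973696) (nat_lit 76) (nat_lit 109103711043) (nat_lit 2) (nat_lit 4) (nat_lit 3) (nat_lit 5) (nat_lit 3) (nat_lit 4) (nat_lit 435) (nat_lit 282) (nat_lit 183)) (XT.nd (nat_lit 78) (nat_lit 0) (nat_lit 0) (XT.lf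 (nat_lit 0) (nat_lit 462270457889) (nat_lit 76) (nat_lit 116641611250) (nat_lit 76) (nat_lit 109055442047) (nat_lit 2) (nat_lit 4) (nat_lit 3) (nat_lit 5) (nat_lit 3) (nat_lit 4) (nat_lit 436) (nat_lit 282) (nat_lit 182)) (XT.lf (nat_lit 0) (nat_lit 496478340613) (nat_lit 76) (nat_lit 116597999067) (nat_lit 76) (nat_lit 109009061721) (nat_lit 2) (nat_lit 4) (nat_lit 3) (nat_lit 5) (nat_lit 3) (nat_lit 4) (nat_lit 437) (nat_lit 282) (nat_lit 181)))) (XT.nd (nat_lit 78) (nat_lit 0) (nat_lit 0) (XT.lf (nat_lit 0) (nat_lit 532388888584) (nat_lit 76) (nat_lit 116556033308) (nat_lit 76) (nat_lit 108964459635) (nat_lit 2) (nat_lit 4) (nat_lit 3) (nat_lit 5) (nat_lit 3) (nat_lit 4) (nat_lit 438) (nat_lit 282) (nat_lit 180)) (XT.nd (nat_lit 78) (nat_lit 0) (nat_lit 0) (XT.lf (nat_lit 0) (nat_lit 570087603106) (nat_lit 76) (nat_lit 116515614055) (nat_lit 76) (nat_lit 108921529594) (nat_lit 2) (nat_lit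 4) (nat_lit 3) (nat_lit 5) (nat_lit 3) (nat_lit 4) (nat_lit 439) (nat_lit 282) (nat_lit 179)) (XT.lf (nat_lit 0) (nat_lit 609664243024) (nat_lit 76) (nat_lit 116476645070) (nat_lit 76) (nat_lit 108880169384) (nat_lit 2) (nat_lit 4) (nat_lit 3) (nat_lit 5) (nat_lit 3) (nat_lit 4) (nat_lit 440) (nat_lit 282) (nat_lit 178))))))) (XT.nd (nat_lit 936) (nat_lit 912) (nat_lit 0) (XT.nd (nat_lit 468) (nat_lit 760) (nat_lit 0) (XT.nd (nat_lit 234) (nat_lit 456) (nat_lit 0) (XT.nd (nat_lit 78) (nat_lit 380) (nat_lit 0) (XT.lf (nat_lit 0) (nat_lit 4687147803) (nat_lit 228) (nat_lit 188531310) (nat_lit 228) (nat_lit 188531310) (nat_lit 53) (nat_lit 4) (nat_lit 56) (nat_lit 5) (nat_lit 56) (nat_lit 4) (nat_lit 334) (nat_lit 283) (nat_lit 283)) (XT.nd (nat_lit 78) (nat_lit 152) (nat_lit 0) (XT.lf (nat_lit 0) (nat_lit 4112090304) (nat_lit 228) (nat_lit 2866547526) (nat_lit 0) (nat_lit 3391366898) (nat_lit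 50) (nat_lit 5) (nat_lit 53) (nat_lit 4) (nat_lit 50) (nat_lit 4) (nat_lit 335) (nat_lit 283) (nat_lit 282)) (XT.lf (nat_lit 0) (nat_lit 5469551634) (nat_lit 152) (nat_lit 3282042760) (nat_lit 152) (nat_lit 1874916109) (nat_lit 48) (nat_lit 4) (nat_lit 50) (nat_lit 5) (nat_lit 50) (nat_lit 4) (nat_lit 336) (nat_lit 283) (nat_lit 281)))) (XT.nd (nat_lit 78) (nat_lit 228) (nat_lit 0) (XT.lf (nat_lit 0) (nat_lit 2584573356) (nat_lit 228) (nat_lit 7690115571) (nat_lit 0) (nat_lit 621864759) (nat_lit 45) (nat_lit 5) (nat_lit 48) (nat_lit 4) (nat_lit 45) (nat_lit 4) (nat_lit 337) (nat_lit 283) (nat_lit 280)) (XT.nd (nat_lit 78) (nat_lit 76) (nat_lit 0) (XT.lf (nat_lit 0) (nat_lit 652945944) (nat_lit 152) (nat_lit 6540921476) (nat_lit 152) (nat_lit 3985271949) (nat_lit 43) (nat_lit 4) (nat_lit 45) (nat_lit 5) (nat_lit 45) (nat_lit 4) (nat_lit 338) (nat_lit 283) (nat_lit 279)) (XT.lf (nat_lit 0)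 (nat_lit 510248566) (nat_lit 228) (nat_lit 2074345612) (nat_lit 76) (nat_lit 8892371000) (nat_lit 42) (nat_lit 5) (nat_lit 45) (nat_lit 5) (nat_lit 43) (nat_lit 4) (nat_lit 339) (nat_lit 283) (nat_lit 278))))) (XT.nd (nat_lit 234) (nat_lit 304) (nat_lit 0) (XT.nd (nat_lit 78) (nat_lit 304) (nat_lit 0) (XT.lf (nat_lit 0) (nat_lit 5072318297) (nat_lit 228) (nat_lit 5127025070) (nat_lit 0) (nat_lit 1588346795) (nat_lit 40) (nat_lit 5) (nat_lit 43) (nat_lit 4) (nat_lit 40) (nat_lit 4) (nat_lit 340) (nat_lit 283) (nat_lit 277)) (XT.nd (nat_lit 78) (nat_lit 152) (nat_lit 0) (XT.lf (nat_lit 0) (nat_lit 3601596503) (nat_lit 152) (nat_lit 6242557070) (nat_lit 152) (nat_lit 2270771597) (nat_lit 38) (nat_lit 4) (nat_lit 40) (nat_lit 5) (nat_lit 40) (nat_lit 4) (nat_lit 341) (nat_lit 283) (nat_lit 276)) (XT.lf (nat_lit 0) (nat_lit 194033147) (nat_lit 76) (nat_lit 2064700195) (nat_lit 152) (nat_lit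 10201001541) (nat_lit 36) (nat_lit 5) (nat_lit 37) (nat_lit 5) (nat_lit 38) (nat_lit 4) (nat_lit 342) (nat_lit 283) (nat_lit 275)))) (XT.nd (nat_lit 78) (nat_lit 304) (nat_lit 0) (XT.lf (nat_lit 0) (nat_lit 6970728906) (nat_lit 152) (nat_lit 3523405238) (nat_lit 0) (nat_lit 2324222374) (nat_lit 36) (nat_lit 5) (nat_lit 38) (nat_lit 4) (nat_lit 36) (nat_lit 4) (nat_lit 343) (nat_lit 283) (nat_lit 274)) (XT.nd (nat_lit 78) (nat_lit 152) (nat_lit 0) (XT.lf (nat_lit 0) (nat_lit 5547019131) (nat_lit 152) (nat_lit 6348455827) (nat_lit 152) (nat_lit 1300623535) (nat_lit 34) (nat_lit 4) (nat_lit 36) (nat_lit 5) (nat_lit 36) (nat_lit 4) (nat_lit 344) (nat_lit 283) (nat_lit 273)) (XT.lf (nat_lit 0) (nat_lit 1337785932) (nat_lit 76) (nat_lit 1963596133) (nat_lit 152) (nat_lit 10291734591) (nat_lit 32) (nat_lit 5) (nat_lit 33) (nat_lit 5) (nat_lit 34) (nat_lit 4) (nat_lit 345) (nat_lit 283) (nat_lit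 272)))))) (XT.nd (nat_lit 468) (nat_lit 380) (nat_lit 0) (XT.nd (nat_lit 234) (nat_lit 228) (nat_lit 0) (XT.nd (nat_lit 78) (nat_lit 304) (nat_lit 0) (XT.lf (nat_lit 0) (nat_lit 8121159886) (nat_lit 152) (nat_lit 3283225125) (nat_lit 0) (nat_lit 2603005982) (nat_lit 32) (nat_lit 5) (nat_lit 34) (nat_lit 4) (nat_lit 32) (nat_lit 4) (nat_lit 346) (nat_lit 283) (nat_lit 271)) (XT.nd (nat_lit 78) (nat_lit 152) (nat_lit 0) (XT.lf (nat_lit 0) (nat_lit 6056672058) (nat_lit 152) (nat_lit 7117236007) (nat_lit 152) (nat_lit 1268910407) (nat_lit 30) (nat_lit 4) (nat_lit 32) (nat_lit 5) (nat_lit 32) (nat_lit 4) (nat_lit 347) (nat_lit 283) (nat_lit 270)) (XT.lf (nat_lit 0) (nat_lit 806286439) (nat_lit 76) (nat_lit 2593255645) (nat_lit 152) (nat_lit 11500974784) (nat_lit 28) (nat_lit 5) (nat_lit 29) (nat_lit 5) (nat_lit 30) (nat_lit 4) (nat_lit 348) (nat_lit 283) (nat_lit 269)))) (XT.nd (nat_lit 78)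 (nat_lit 228) (nat_lit 0) (XT.lf (nat_lit 0) (nat_lit 8303505316) (nat_lit 152) (nat_lit 4925370216) (nat_lit 0) (nat_lit 2148981224) (nat_lit 28) (nat_lit 5) (nat_lit 30) (nat_lit 4) (nat_lit 28) (nat_lit 4) (nat_lit 349) (nat_lit 283) (nat_lit 268)) (XT.nd (nat_lit 78) (nat_lit 76) (nat_lit 0) (XT.lf (nat_lit 0) (nat_lit 4573363950) (nat_lit 152) (nat_lit 8866270080) (nat_lit 152) (nat_lit 2440112916) (nat_lit 26) (nat_lit 4) (nat_lit 28) (nat_lit 5) (nat_lit 28) (nat_lit 4) (nat_lit 350) (nat_lit 283) (nat_lit 267)) (XT.lf (nat_lit 0) (nat_lit 2306433457) (nat_lit 228) (nat_lit 1956666740) (nat_lit 76) (nat_lit 12143854577) (nat_lit 25) (nat_lit 5) (nat_lit 28) (nat_lit 5) (nat_lit 26) (nat_lit 4) (nat_lit 351) (nat_lit 283) (nat_lit 266))))) (XT.nd (nat_lit 234) (nat_lit 228) (nat_lit 0) (XT.nd (nat_lit 78) (nat_lit 76) (nat_lit 0) (XT.lf (nat_lit 0) (nat_lit 7220332641) (nat_lit 152)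 (nat_lit 9118459256) (nat_lit 0) (nat_lit 619156897) (nat_lit 24) (nat_lit 5) (nat_lit 26) (nat_lit 4) (nat_lit 24) (nat_lit 4) (nat_lit 352) (nat_lit 283) (nat_lit 265)) (XT.nd (nat_lit 78) (nat_lit 0) (nat_lit 0) (XT.lf (nat_lit 0) (nat_lit 377602234) (nat_lit 76) (nat_lit 11992039761) (nat_lit 76) (nat_lit 5167390816) (nat_lit 23) (nat_lit 4) (nat_lit 24) (nat_lit 5) (nat_lit 24) (nat_lit 4) (nat_lit 353) (nat_lit 283) (nat_lit 264)) (XT.lf (nat_lit 0) (nat_lit 10446027177) (nat_lit 76) (nat_lit 7367350592) (nat_lit 76) (nat_lit 329870028) (nat_lit 23) (nat_lit 4) (nat_lit 24) (nat_lit 5) (nat_lit 24) (nat_lit 4) (nat_lit 354) (nat_lit 283) (nat_lit 263)))) (XT.nd (nat_lit 156) (nat_lit 76) (nat_lit 0) (XT.nd (nat_lit 78) (nat_lit 0) (nat_lit 0) (XT.lf (nat_lit 0) (nat_lit 2016108819) (nat_lit 76) (nat_lit 2499152724) (nat_lit 152) (nat_lit 14264939365) (nat_lit 21) (nat_lit 5) (nat_lit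 22) (nat_lit 5) (nat_lit 23) (nat_lit 4) (nat_lit 355) (nat_lit 283) (nat_lit 262)) (XT.lf (nat_lit 0) (nat_lit 9651750249) (nat_lit 152) (nat_lit 7221501860) (nat_lit 0) (nat_lit 2572491298) (nat_lit 21) (nat_lit 5) (nat_lit 23) (nat_lit 4) (nat_lit 21) (nat_lit 4) (nat_lit 356) (nat_lit 283) (nat_lit 261))) (XT.nd (nat_lit 78) (nat_lit 0) (nat_lit 0) (XT.lf (nat_lit 0) (nat_lit 2638830643) (nat_lit 76) (nat_lit 12380692922) (nat_lit 76) (nat_lit 5126336872) (nat_lit 20) (nat_lit 4) (nat_lit 21) (nat_lit 5) (nat_lit 21) (nat_lit 4) (nat_lit 357) (nat_lit 283) (nat_lit 260)) (XT.lf (nat_lit 0) (nat_lit 13043289633) (nat_lit 76) (nat_lit 7628999083) (nat_lit 76) (nat_lit 207883890) (nat_lit 20) (nat_lit 4) (nat_lit 21) (nat_lit 5) (nat_lit 21) (nat_lit 4) (nat_lit 358) (nat_lit 283) (nat_lit 259))))))))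
noncomputable def xc59 : XT := (XT.nd (nat_lit 1950) (nat_lit 380) (nat_lit 0) (XT.nd (nat_lit 936) (nat_lit 304) (nat_lit 0) (XT.nd (nat_lit 468) (nat_lit 228) (nat_lit 0) (XT.nd (nat_lit 234) (nat_lit 152) (nat_lit 0) (XT.nd (nat_lit 78) (nat_lit 76) (nat_lit 0) (XT.lf (nat_lit 0) (nat_lit 2113532106) (nat_lit 76) (nat_lit 2614987664) (nat_lit 152) (nat_lit 16922295676) (nat_lit 18) (nat_lit 5) (nat_lit 19) (nat_lit 5) (nat_lit 20) (nat_lit 4) (nat_lit 359) (nat_lit 283) (nat_lit 258)) (XT.nd (nat_lit 78) (nat_lit 76) (nat_lit 0) (XT.lf (nat_lit 0) (nat_lit 9979188917) (nat_lit 152) (nat_lit 9860774447) (nat_lit 0) (nat_lit 2616151885) (nat_lit 18) (nat_lit 5) (nat_lit 20) (nat_lit 4) (nat_lit 18) (nat_lit 4) (nat_lit 360) (nat_lit 283) (nat_lit 257)) (XT.lf (nat_lit 0) (nat_lit 74294269) (nat_lit 76) (nat_lit 15365139915) (nat_lit 76) (nat_lit 7864909723) (nat_lit 17) (nat_lit 4) (nat_lit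 18) (nat_lit 5) (nat_lit 18) (nat_lit 4) (nat_lit 361) (nat_lit 283) (nat_lit 256)))) (XT.nd (nat_lit 78) (nat_lit 152) (nat_lit 0) (XT.lf (nat_lit 0) (nat_lit 10666665634) (nat_lit 76) (nat_lit 10577817193) (nat_lit 76) (nat_lit 2946926849) (nat_lit 17) (nat_lit 4) (nat_lit 18) (nat_lit 5) (nat_lit 18) (nat_lit 4) (nat_lit 362) (nat_lit 283) (nat_lit 255)) (XT.nd (nat_lit 78) (nat_lit 76) (nat_lit 0) (XT.lf (nat_lit 0) (nat_lit 2053826020) (nat_lit 152) (nat_lit 3544985241) (nat_lit 76) (nat_lit 19526909284) (nat_lit 16) (nat_lit 5) (nat_lit 18) (nat_lit 5) (nat_lit 17) (nat_lit 4) (nat_lit 363) (nat_lit 283) (nat_lit 254)) (XT.lf (nat_lit 0) (nat_lit 6939758069) (nat_lit 76) (nat_lit 286387912) (nat_lit 152) (nat_lit 18877170347) (nat_lit 15) (nat_lit 5) (nat_lit 16) (nat_lit 5) (nat_lit 17) (nat_lit 4) (nat_lit 364) (nat_lit 283) (nat_lit 253))))) (XT.nd (nat_lit 234) (nat_lit 152) (nat_lit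 0) (XT.nd (nat_lit 78) (nat_lit 76) (nat_lit 0) (XT.lf (nat_lit 0) (nat_lit 12713306492) (nat_lit 152) (nat_lit 9306771026) (nat_lit 0) (nat_lit 5106915687) (nat_lit 15) (nat_lit 5) (nat_lit 17) (nat_lit 4) (nat_lit 15) (nat_lit 4) (nat_lit 365) (nat_lit 283) (nat_lit 252)) (XT.nd (nat_lit 78) (nat_lit 0) (nat_lit 0) (XT.lf (nat_lit 0) (nat_lit 907008162) (nat_lit 76) (nat_lit 17503421950) (nat_lit 76) (nat_lit 9794655497) (nat_lit 14) (nat_lit 4) (nat_lit 15) (nat_lit 5) (nat_lit 15) (nat_lit 4) (nat_lit 366) (nat_lit 283) (nat_lit 251)) (XT.lf (nat_lit 0) (nat_lit 11796987527) (nat_lit 76) (nat_lit 12671290081) (nat_lit 76) (nat_lit 4865023011) (nat_lit 14) (nat_lit 4) (nat_lit 15) (nat_lit 5) (nat_lit 15) (nat_lit 4) (nat_lit 367) (nat_lit 283) (nat_lit 250)))) (XT.nd (nat_lit 78) (nat_lit 76) (nat_lit 0) (XT.lf (nat_lit 0) (nat_lit 221993197) (nat_lit 152) (nat_lit 7444038745) (nat_lit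 76) (nat_lit 22855618948) (nat_lit 13) (nat_lit 5) (nat_lit 15) (nat_lit 5) (nat_lit 14) (nat_lit 4) (nat_lit 368) (nat_lit 283) (nat_lit 249)) (XT.nd (nat_lit 78) (nat_lit 0) (nat_lit 0) (XT.lf (nat_lit 0) (nat_lit 3024447258) (nat_lit 76) (nat_lit 2347263957) (nat_lit 152) (nat_lit 26395137173) (nat_lit 12) (nat_lit 5) (nat_lit 13) (nat_lit 5) (nat_lit 14) (nat_lit 4) (nat_lit 369) (nat_lit 283) (nat_lit 248)) (XT.lf (nat_lit 0) (nat_lit 10882499666) (nat_lit 152) (nat_lit 18991551256) (nat_lit 0) (nat_lit 3195084967) (nat_lit 12) (nat_lit 5) (nat_lit 14) (nat_lit 4) (nat_lit 12) (nat_lit 4) (nat_lit 370) (nat_lit 283) (nat_lit 247)))))) (XT.nd (nat_lit 468) (nat_lit 76) (nat_lit 0) (XT.nd (nat_lit 234) (nat_lit 152) (nat_lit 0) (XT.nd (nat_lit 78) (nat_lit 76) (nat_lit 0) (XT.lf (nat_lit 0) (nat_lit 16635787168) (nat_lit 152) (nat_lit 8930433336) (nat_lit 0) (nat_lit 8871978185) (nat_lit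 12) (nat_lit 5) (nat_lit 14) (nat_lit 4) (nat_lit 12) (nat_lit 4) (nat_lit 371) (nat_lit 283) (nat_lit 246)) (XT.nd (nat_lit 78) (nat_lit 0) (nat_lit 0) (XT.lf (nat_lit 0) (nat_lit 1551203229) (nat_lit 76) (nat_lit 21081640059) (nat_lit 76) (nat_lit 13245074614) (nat_lit 11) (nat_lit 4) (nat_lit 12) (nat_lit 5) (nat_lit 12) (nat_lit 4) (nat_lit 372) (nat_lit 283) (nat_lit 245)) (XT.lf (nat_lit 0) (nat_lit 12736912686) (nat_lit 76) (nat_lit 16277179393) (nat_lit 76) (nat_lit 8371322080) (nat_lit 11) (nat_lit 4) (nat_lit 12) (nat_lit 5) (nat_lit 12) (nat_lit 4) (nat_lit 373) (nat_lit 283) (nat_lit 244)))) (XT.nd (nat_lit 78) (nat_lit 152) (nat_lit 0) (XT.lf (nat_lit 0) (nat_lit 24358047219) (nat_lit 76) (nat_lit 11292640527) (nat_lit 76) (nat_lit 3320790958) (nat_lit 11) (nat_lit 4) (nat_lit 12) (nat_lit 5) (nat_lit 12) (nat_lit 4) (nat_lit 374) (nat_lit 283) (nat_lit 243)) (XT.nd (nat_lit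 78) (nat_lit 76) (nat_lit 0) (XT.lf (nat_lit 0) (nat_lit 1857138442) (nat_lit 152) (nat_lit 4227565528) (nat_lit 76) (nat_lit 34553686215) (nat_lit 10) (nat_lit 5) (nat_lit 12) (nat_lit 5) (nat_lit 11) (nat_lit 4) (nat_lit 375) (nat_lit 283) (nat_lit 242)) (XT.lf (nat_lit 0) (nat_lit 6724072762) (nat_lit 76) (nat_lit 504526759) (nat_lit 152) (nat_lit 35155020629) (nat_lit 9) (nat_lit 5) (nat_lit 10) (nat_lit 5) (nat_lit 11) (nat_lit 4) (nat_lit 376) (nat_lit 283) (nat_lit 241))))) (XT.nd (nat_lit 234) (nat_lit 76) (nat_lit 0) (XT.nd (nat_lit 78) (nat_lit 0) (nat_lit 0) (XT.lf (nat_lit 0) (nat_lit 12966445421) (nat_lit 152) (nat_lit 26041729701) (nat_lit 0) (nat_lit 5203052232) (nat_lit 9) (nat_lit 5) (nat_lit 11) (nat_lit 4) (nat_lit 9) (nat_lit 4) (nat_lit 377) (nat_lit 283) (nat_lit 240)) (XT.nd (nat_lit 78) (nat_lit 0) (nat_lit 0) (XT.lf (nat_lit 0) (nat_lit 18943684031) (nat_lit 152)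 (nat_lit 16060327714) (nat_lit 0) (nat_lit 11128584183) (nat_lit 9) (nat_lit 5) (nat_lit 11) (nat_lit 4) (nat_lit 9) (nat_lit 4) (nat_lit 378) (nat_lit 283) (nat_lit 239)) (XT.lf (nat_lit 0) (nat_lit 25166669794) (nat_lit 152) (nat_lit 5683699108) (nat_lit 0) (nat_lit 17302325509) (nat_lit 9) (nat_lit 5) (nat_lit 11) (nat_lit 4) (nat_lit 9) (nat_lit 4) (nat_lit 379) (nat_lit 283) (nat_lit 238)))) (XT.nd (nat_lit 156) (nat_lit 0) (nat_lit 0) (XT.nd (nat_lit 78) (nat_lit 0) (nat_lit 0) (XT.lf (nat_lit 0) (nat_lit 5281916696) (nat_lit 76) (nat_lit 26450768170) (nat_lit 76) (nat_lit 18539524420) (nat_lit 8) (nat_lit 4) (nat_lit 9) (nat_lit 5) (nat_lit 9) (nat_lit 4) (nat_lit 380) (nat_lit 283) (nat_lit 237)) (XT.lf (nat_lit 0) (nat_lit 16895835075) (nat_lit 76) (nat_lit 21777725962) (nat_lit 76) (nat_lit 13821816057) (nat_lit 8) (nat_lit 4) (nat_lit 9) (nat_lit 5) (nat_lit 9) (nat_lit 4) (nat_lit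 381) (nat_lit 283) (nat_lit 236))) (XT.nd (nat_lit 78) (nat_lit 0) (nat_lit 0) (XT.lf (nat_lit 0) (nat_lit 28997779455) (nat_lit 76) (nat_lit 16916372184) (nat_lit 76) (nat_lit 8917923083) (nat_lit 8) (nat_lit 4) (nat_lit 9) (nat_lit 5) (nat_lit 9) (nat_lit 4) (nat_lit 382) (nat_lit 283) (nat_lit 235)) (XT.lf (nat_lit 0) (nat_lit 41616563989) (nat_lit 76) (nat_lit 11855132184) (nat_lit 76) (nat_lit 3816169562) (nat_lit 8) (nat_lit 4) (nat_lit 9) (nat_lit 5) (nat_lit 9) (nat_lit 4) (nat_lit 383) (nat_lit 283) (nat_lit 234))))))) (XT.nd (nat_lit 936) (nat_lit 152) (nat_lit 0) (XT.nd (nat_lit 468) (nat_lit 76) (nat_lit 0) (XT.nd (nat_lit 234) (nat_lit 0) (nat_lit 0) (XT.nd (nat_lit 78) (nat_lit 76) (nat_lit 0) (XT.lf (nat_lit 0) (nat_lit 1447723266) (nat_lit 152) (nat_lit 5109714230) (nat_lit 76) (nat_lit 53309992240) (nat_lit 7) (nat_lit 5) (nat_lit 9) (nat_lit 5) (nat_lit 8) (nat_lit 4)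 (nat_lit 384) (nat_lit 283) (nat_lit 233)) (XT.nd (nat_lit 78) (nat_lit 0) (nat_lit 0) (XT.lf (nat_lit 0) (nat_lit 6028925805) (nat_lit 76) (nat_lit 870205750) (nat_lit 152) (nat_lit 55671087998) (nat_lit 6) (nat_lit 5) (nat_lit 7) (nat_lit 5) (nat_lit 8) (nat_lit 4) (nat_lit 385) (nat_lit 283) (nat_lit 232)) (XT.lf (nat_lit 0) (nat_lit 12749266838) (nat_lit 152) (nat_lit 47664540754) (nat_lit 0) (nat_lit 4988037327) (nat_lit 6) (nat_lit 5) (nat_lit 8) (nat_lit 4) (nat_lit 6) (nat_lit 4) (nat_lit 386) (nat_lit 283) (nat_lit 231)))) (XT.nd (nat_lit 78) (nat_lit 0) (nat_lit 0) (XT.lf (nat_lit 0) (nat_lit 18866703623) (nat_lit 152) (nat_lit 38435881184) (nat_lit 0) (nat_lit 11073730709) (nat_lit 6) (nat_lit 5) (nat_lit 8) (nat_lit 4) (nat_lit 6) (nat_lit 4) (nat_lit 387) (nat_lit 283) (nat_lit 230)) (XT.nd (nat_lit 78) (nat_lit 0) (nat_lit 0) (XT.lf (nat_lit 0) (nat_lit 25252420886) (nat_lit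 152) (nat_lit 28819755690) (nat_lit 0) (nat_lit 17429216159) (nat_lit 6) (nat_lit 5) (nat_lit 8) (nat_lit 4) (nat_lit 6) (nat_lit 4) (nat_lit 388) (nat_lit 283) (nat_lit 229)) (XT.lf (nat_lit 0) (nat_lit 31921622716) (nat_lit 152) (nat_lit 18793268735) (nat_lit 0) (nat_lit 24069625787) (nat_lit 6) (nat_lit 5) (nat_lit 8) (nat_lit 4) (nat_lit 6) (nat_lit 4) (nat_lit 389) (nat_lit 283) (nat_lit 228))))) (XT.nd (nat_lit 234) (nat_lit 0) (nat_lit 0) (XT.nd (nat_lit 78) (nat_lit 76) (nat_lit 0) (XT.lf (nat_lit 0) (nat_lit 38890188166) (nat_lit 152) (nat_lit 8332547731) (nat_lit 0) (nat_lit 31010770091) (nat_lit 6) (nat_lit 5) (nat_lit 8) (nat_lit 4) (nat_lit 6) (nat_lit 4) (nat_lit 390) (nat_lit 283) (nat_lit 227)) (XT.nd (nat_lit 78) (nat_lit 0) (nat_lit 0) (XT.lf (nat_lit 0) (nat_lit 2672862078) (nat_lit 76) (nat_lit 43543577845) (nat_lit 76) (nat_lit 35638044394) (nat_lit 5) (nat_lit 4) (nat_lit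 6) (nat_lit 5) (nat_lit 6) (nat_lit 4) (nat_lit 391) (nat_lit 283) (nat_lit 226)) (XT.lf (nat_lit 0) (nat_lit 14454964671) (nat_lit 76) (nat_lit 39563247322) (nat_lit 76) (nat_lit 31632842084) (nat_lit 5) (nat_lit 4) (nat_lit 6) (nat_lit 5) (nat_lit 6) (nat_lit 4) (nat_lit 392) (nat_lit 283) (nat_lit 225)))) (XT.nd (nat_lit 78) (nat_lit 0) (nat_lit 0) (XT.lf (nat_lit 0) (nat_lit 26766301013) (nat_lit 76) (nat_lit 35413383079) (nat_lit 76) (nat_lit 27459290425) (nat_lit 5) (nat_lit 4) (nat_lit 6) (nat_lit 5) (nat_lit 6) (nat_lit 4) (nat_lit 393) (nat_lit 283) (nat_lit 224)) (XT.nd (nat_lit 78) (nat_lit 0) (nat_lit 0) (XT.lf (nat_lit 0) (nat_lit 39636183810) (nat_lit 76) (nat_lit 31084104485) (nat_lit 76) (nat_lit 23107452387) (nat_lit 5) (nat_lit 4) (nat_lit 6) (nat_lit 5) (nat_lit 6) (nat_lit 4) (nat_lit 394) (nat_lit 283) (nat_lit 223)) (XT.lf (nat_lit 0) (nat_lit 53095255639) (nat_lit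 76) (nat_lit 26565103736) (nat_lit 76) (nat_lit 18566966453) (nat_lit 5) (nat_lit 4) (nat_lit 6) (nat_lit 5) (nat_lit 6) (nat_lit 4) (nat_lit 395) (nat_lit 283) (nat_lit 222)))))) (XT.nd (nat_lit 468) (nat_lit 0) (nat_lit 0) (XT.nd (nat_lit 234) (nat_lit 152) (nat_lit 0) (XT.nd (nat_lit 78) (nat_lit 0) (nat_lit 0) (XT.lf (nat_lit 0) (nat_lit 67175561911) (nat_lit 76) (nat_lit 21845621306) (nat_lit 76) (nat_lit 13827021942) (nat_lit 5) (nat_lit 4) (nat_lit 6) (nat_lit 5) (nat_lit 6) (nat_lit 4) (nat_lit 396) (nat_lit 283) (nat_lit 221)) (XT.nd (nat_lit 78) (nat_lit 0) (nat_lit 0) (XT.lf (nat_lit 0) (nat_lit 81910627162) (nat_lit 76) (nat_lit 16914420330) (nat_lit 76) (nat_lit 8876333271) (nat_lit 5) (nat_lit 4) (nat_lit 6) (nat_lit 5) (nat_lit 6) (nat_lit 4) (nat_lit 397) (nat_lit 283) (nat_lit 220)) (XT.lf (nat_lit 0) (nat_lit 97335534883) (nat_lit 76) (nat_lit 11759759856) (nat_lit 76)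 (nat_lit 3703113086) (nat_lit 5) (nat_lit 4) (nat_lit 6) (nat_lit 5) (nat_lit 6) (nat_lit 4) (nat_lit 398) (nat_lit 283) (nat_lit 219)))) (XT.nd (nat_lit 78) (nat_lit 76) (nat_lit 0) (XT.lf (nat_lit 0) (nat_lit 1650386569) (nat_lit 152) (nat_lit 4691030217) (nat_lit 76) (nat_lit 111808674380) (nat_lit 4) (nat_lit 5) (nat_lit 6) (nat_lit 5) (nat_lit 5) (nat_lit 4) (nat_lit 399) (nat_lit 283) (nat_lit 218)) (XT.nd (nat_lit 78) (nat_lit 0) (nat_lit 0) (XT.lf (nat_lit 0) (nat_lit 6730849912) (nat_lit 76) (nat_lit 499397307) (nat_lit 152) (nat_lit 116531921240) (nat_lit 3) (nat_lit 5) (nat_lit 4) (nat_lit 5) (nat_lit 5) (nat_lit 4) (nat_lit 400) (nat_lit 283) (nat_lit 217)) (XT.lf (nat_lit 0) (nat_lit 13235922026) (nat_lit 152) (nat_lit 110896799112) (nat_lit 0) (nat_lit 5514789203) (nat_lit 3) (nat_lit 5) (nat_lit 5) (nat_lit 4) (nat_lit 3) (nat_lit 4) (nat_lit 401) (nat_lit 283) (nat_lit 216)))))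 (XT.nd (nat_lit 234) (nat_lit 0) (nat_lit 0) (XT.nd (nat_lit 78) (nat_lit 0) (nat_lit 0) (XT.lf (nat_lit 0) (nat_lit 19529210330) (nat_lit 152) (nat_lit 104505008708) (nat_lit 0) (nat_lit 11793535488) (nat_lit 3) (nat_lit 5) (nat_lit 5) (nat_lit 4) (nat_lit 3) (nat_lit 4) (nat_lit 402) (nat_lit 283) (nat_lit 215)) (XT.nd (nat_lit 78) (nat_lit 0) (nat_lit 0) (XT.lf (nat_lit 0) (nat_lit 26117299159) (nat_lit 152) (nat_lit 97832931794) (nat_lit 0) (nat_lit 18367774775) (nat_lit 3) (nat_lit 5) (nat_lit 5) (nat_lit 4) (nat_lit 3) (nat_lit 4) (nat_lit 403) (nat_lit 283) (nat_lit 214)) (XT.lf (nat_lit 0) (nat_lit 33015874440) (nat_lit 152) (nat_lit 90864682472) (nat_lit 0) (nat_lit 25253160016) (nat_lit 3) (nat_lit 5) (nat_lit 5) (nat_lit 4) (nat_lit 3) (nat_lit 4) (nat_lit 404) (nat_lit 283) (nat_lit 213)))) (XT.nd (nat_lit 156) (nat_lit 0) (nat_lit 0) (XT.nd (nat_lit 78) (nat_lit 0) (nat_lit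 0) (XT.lf (nat_lit 0) (nat_lit 40241361351) (nat_lit 152) (nat_lit 83583669674) (nat_lit 0) (nat_lit 32466084984) (nat_lit 3) (nat_lit 5) (nat_lit 5) (nat_lit 4) (nat_lit 3) (nat_lit 4) (nat_lit 405) (nat_lit 283) (nat_lit 212)) (XT.lf (nat_lit 0) (nat_lit 47810963433) (nat_lit 152) (nat_lit 75972557655) (nat_lit 0) (nat_lit 40023723311) (nat_lit 3) (nat_lit 5) (nat_lit 5) (nat_lit 4) (nat_lit 3) (nat_lit 4) (nat_lit 406) (nat_lit 283) (nat_lit 211))) (XT.nd (nat_lit 78) (nat_lit 0) (nat_lit 0) (XT.lf (nat_lit 0) (nat_lit 55742703548) (nat_lit 152) (nat_lit 68013224718) (nat_lit 0) (nat_lit 47944069374) (nat_lit 3) (nat_lit 5) (nat_lit 5) (nat_lit 4) (nat_lit 3) (nat_lit 4) (nat_lit 407) (nat_lit 283) (nat_lit 210)) (XT.lf (nat_lit 0) (nat_lit 64055466791) (nat_lit 152) (nat_lit 59686720072) (nat_lit 0) (nat_lit 56245981139) (nat_lit 3) (nat_lit 5) (nat_lit 5) (nat_lit 4) (nat_lit 3) (nat_lit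 4) (nat_lit 408) (nat_lit 283) (nat_lit 209))))))))
noncomputable def xc60 : XT := (XT.nd (nat_lit 1872) (nat_lit 0) (nat_lit 0) (XT.nd (nat_lit 936) (nat_lit 0) (nat_lit 0) (XT.nd (nat_lit 468) (nat_lit 76) (nat_lit 0) (XT.nd (nat_lit 234) (nat_lit 0) (nat_lit 0) (XT.nd (nat_lit 78) (nat_lit 0) (nat_lit 0) (XT.lf (nat_lit 0) (nat_lit 72769045456) (nat_lit 152) (nat_lit 50973218705) (nat_lit 0) (nat_lit 64949225063) (nat_lit 3) (nat_lit 5) (nat_lit 5) (nat_lit 4) (nat_lit 3) (nat_lit 4) (nat_lit 409) (nat_lit 283) (nat_lit 208)) (XT.nd (nat_lit 78) (nat_lit 0) (nat_lit 0) (XT.lf (nat_lit 0) (nat_lit 81904186159) (nat_lit 152) (nat_lit 41851974186) (nat_lit 0) (nat_lit 74074523155) (nat_lit 3) (nat_lit 5) (nat_lit 5) (nat_lit 4) (nat_lit 3) (nat_lit 4) (nat_lit 410) (nat_lit 283) (nat_lit 207)) (XT.lf (nat_lit 0) (nat_lit 91482639234) (nat_lit 152) (nat_lit 32301269265) (nat_lit 0) (nat_lit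 83643602315) (nat_lit 3) (nat_lit 5) (nat_lit 5) (nat_lit 4) (nat_lit 3) (nat_lit 4) (nat_lit 411) (nat_lit 283) (nat_lit 206)))) (XT.nd (nat_lit 78) (nat_lit 0) (nat_lit 0) (XT.lf (nat_lit 0) (nat_lit 101527210523) (nat_lit 152) (nat_lit 22298364169) (nat_lit 0) (nat_lit 93679246066) (nat_lit 3) (nat_lit 5) (nat_lit 5) (nat_lit 4) (nat_lit 3) (nat_lit 4) (nat_lit 412) (nat_lit 283) (nat_lit 205)) (XT.nd (nat_lit 78) (nat_lit 0) (nat_lit 0) (XT.lf (nat_lit 0) (nat_lit 112061815672) (nat_lit 152) (nat_lit 11819442458) (nat_lit 0) (nat_lit 104205348797) (nat_lit 3) (nat_lit 5) (nat_lit 5) (nat_lit 4) (nat_lit 3) (nat_lit 4) (nat_lit 413) (nat_lit 283) (nat_lit 204)) (XT.lf (nat_lit 0) (nat_lit 123111537072) (nat_lit 152) (nat_lit 839554318) (nat_lit 0) (nat_lit 115246972658) (nat_lit 3) (nat_lit 5) (nat_lit 5) (nat_lit 4) (nat_lit 3) (nat_lit 4) (nat_lit 414) (nat_lit 283) (nat_lit 203)))))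 (XT.nd (nat_lit 234) (nat_lit 0) (nat_lit 0) (XT.nd (nat_lit 78) (nat_lit 0) (nat_lit 0) (XT.lf (nat_lit 0) (nat_lit 11020156678) (nat_lit 76) (nat_lit 123854582437) (nat_lit 76) (nat_lit 115982306080) (nat_lit 2) (nat_lit 4) (nat_lit 3) (nat_lit 5) (nat_lit 3) (nat_lit 4) (nat_lit 415) (nat_lit 283) (nat_lit 202)) (XT.nd (nat_lit 78) (nat_lit 0) (nat_lit 0) (XT.lf (nat_lit 0) (nat_lit 23480468258) (nat_lit 76) (nat_lit 123748980836) (nat_lit 76) (nat_lit 115869359771) (nat_lit 2) (nat_lit 4) (nat_lit 3) (nat_lit 5) (nat_lit 3) (nat_lit 4) (nat_lit 416) (nat_lit 283) (nat_lit 201)) (XT.lf (nat_lit 0) (nat_lit 36543288372) (nat_lit 76) (nat_lit 123648253413) (nat_lit 76) (nat_lit 115761637388) (nat_lit 2) (nat_lit 4) (nat_lit 3) (nat_lit 5) (nat_lit 3) (nat_lit 4) (nat_lit 417) (nat_lit 283) (nat_lit 200)))) (XT.nd (nat_lit 78) (nat_lit 0) (nat_lit 0) (XT.lf (nat_lit 0) (nat_lit 50239718973)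 (nat_lit 76) (nat_lit 123552160340) (nat_lit 76) (nat_lit 115658882449) (nat_lit 2) (nat_lit 4) (nat_lit 3) (nat_lit 5) (nat_lit 3) (nat_lit 4) (nat_lit 418) (nat_lit 283) (nat_lit 199)) (XT.nd (nat_lit 78) (nat_lit 0) (nat_lit 0) (XT.lf (nat_lit 0) (nat_lit 64602370610) (nat_lit 76) (nat_lit 123460472826) (nat_lit 76) (nat_lit 115560850300) (nat_lit 2) (nat_lit 4) (nat_lit 3) (nat_lit 5) (nat_lit 3) (nat_lit 4) (nat_lit 419) (nat_lit 283) (nat_lit 198)) (XT.lf (nat_lit 0) (nat_lit 79665440073) (nat_lit 76) (nat_lit 123372972565) (nat_lit 76) (nat_lit 115467307531) (nat_lit 2) (nat_lit 4) (nat_lit 3) (nat_lit 5) (nat_lit 3) (nat_lit 4) (nat_lit 420) (nat_lit 283) (nat_lit 197)))))) (XT.nd (nat_lit 468) (nat_lit 0) (nat_lit 0) (XT.nd (nat_lit 234) (nat_lit 0) (nat_lit 0) (XT.nd (nat_lit 78) (nat_lit 0) (nat_lit 0) (XT.lf (nat_lit 0) (nat_lit 95464791812) (nat_lit 76) (nat_lit 123289451225)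 (nat_lit 76) (nat_lit 115378031420) (nat_lit 2) (nat_lit 4) (nat_lit 3) (nat_lit 5) (nat_lit 3) (nat_lit 4) (nat_lit 421) (nat_lit 283) (nat_lit 196)) (XT.nd (nat_lit 78) (nat_lit 0) (nat_lit 0) (XT.lf (nat_lit 0) (nat_lit 112038043333) (nat_lit 76) (nat_lit 123209709945) (nat_lit 76) (nat_lit 115292809406) (nat_lit 2) (nat_lit 4) (nat_lit 3) (nat_lit 5) (nat_lit 3) (nat_lit 4) (nat_lit 422) (nat_lit 283) (nat_lit 195)) (XT.lf (nat_lit 0) (nat_lit 129424654757) (nat_lit 76) (nat_lit 123133558864) (nat_lit 76) (nat_lit 115211438578) (nat_lit 2) (nat_lit 4) (nat_lit 3) (nat_lit 5) (nat_lit 3) (nat_lit 4) (nat_lit 423) (nat_lit 283) (nat_lit 194)))) (XT.nd (nat_lit 78) (nat_lit 0) (nat_lit 0) (XT.lf (nat_lit 0) (nat_lit 147666022779) (nat_lit 76) (nat_lit 123060816671) (nat_lit 76) (nat_lit 115133725198) (nat_lit 2) (nat_lit 4) (nat_lit 3) (nat_lit 5) (nat_lit 3) (nat_lit 4) (nat_lit 424)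 (nat_lit 283) (nat_lit 193)) (XT.nd (nat_lit 78) (nat_lit 0) (nat_lit 0) (XT.lf (nat_lit 0) (nat_lit 166805579226) (nat_lit 76) (nat_lit 122991310170) (nat_lit 76) (nat_lit 115059484233) (nat_lit 2) (nat_lit 4) (nat_lit 3) (nat_lit 5) (nat_lit 3) (nat_lit 4) (nat_lit 425) (nat_lit 283) (nat_lit 192)) (XT.lf (nat_lit 0) (nat_lit 186888894473) (nat_lit 76) (nat_lit 122924873870) (nat_lit 76) (nat_lit 114988538919) (nat_lit 2) (nat_lit 4) (nat_lit 3) (nat_lit 5) (nat_lit 3) (nat_lit 4) (nat_lit 426) (nat_lit 283) (nat_lit 191))))) (XT.nd (nat_lit 234) (nat_lit 0) (nat_lit 0) (XT.nd (nat_lit 78) (nat_lit 0) (nat_lit 0) (XT.lf (nat_lit 0) (nat_lit 207963785935) (nat_lit 76) (nat_lit 122861349587) (nat_lit 76) (nat_lit 114920720338) (nat_lit 2) (nat_lit 4) (nat_lit 3) (nat_lit 5) (nat_lit 3) (nat_lit 4) (nat_lit 427) (nat_lit 283) (nat_lit 190)) (XT.nd (nat_lit 78) (nat_lit 0) (nat_lit 0) (XT.lf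 (nat_lit 0) (nat_lit 230080431926) (nat_lit 76) (nat_lit 122800586075) (nat_lit 76) (nat_lit 114855867018) (nat_lit 2) (nat_lit 4) (nat_lit 3) (nat_lit 5) (nat_lit 3) (nat_lit 4) (nat_lit 428) (nat_lit 283) (nat_lit 189)) (XT.lf (nat_lit 0) (nat_lit 253291491126) (nat_lit 76) (nat_lit 122742438659) (nat_lit 76) (nat_lit 114793824546) (nat_lit 2) (nat_lit 4) (nat_lit 3) (nat_lit 5) (nat_lit 3) (nat_lit 4) (nat_lit 429) (nat_lit 283) (nat_lit 188)))) (XT.nd (nat_lit 78) (nat_lit 0) (nat_lit 0) (XT.lf (nat_lit 0) (nat_lit 277652227964) (nat_lit 76) (nat_lit 122686768891) (nat_lit 76) (nat_lit 114734445202) (nat_lit 2) (nat_lit 4) (nat_lit 3) (nat_lit 5) (nat_lit 3) (nat_lit 4) (nat_lit 430) (nat_lit 283) (nat_lit 187)) (XT.nd (nat_lit 78) (nat_lit 0) (nat_lit 0) (XT.lf (nat_lit 0) (nat_lit 303220644192) (nat_lit 76) (nat_lit 122633444225) (nat_lit 76) (nat_lit 114677587607) (nat_lit 2) (nat_lit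 4) (nat_lit 3) (nat_lit 5) (nat_lit 3) (nat_lit 4) (nat_lit 431) (nat_lit 283) (nat_lit 186)) (XT.lf (nat_lit 0) (nat_lit 330057616992) (nat_lit 76) (nat_lit 122582337698) (nat_lit 76) (nat_lit 114623116384) (nat_lit 2) (nat_lit 4) (nat_lit 3) (nat_lit 5) (nat_lit 3) (nat_lit 4) (nat_lit 432) (nat_lit 283) (nat_lit 185))))))) (XT.nd (nat_lit 39312) (nat_lit 0) (nat_lit 2052) (XT.nd (nat_lit 468) (nat_lit 0) (nat_lit 0) (XT.nd (nat_lit 234) (nat_lit 0) (nat_lit 0) (XT.nd (nat_lit 78) (nat_lit 0) (nat_lit 0) (XT.lf (nat_lit 0) (nat_lit 358227043919) (nat_lit 76) (nat_lit 122533327627) (nat_lit 76) (nat_lit 114570901842) (nat_lit 2) (nat_lit 4) (nat_lit 3) (nat_lit 5) (nat_lit 3) (nat_lit 4) (nat_lit 433) (nat_lit 283) (nat_lit 184)) (XT.nd (nat_lit 78) (nat_lit 0) (nat_lit 0) (XT.lf (nat_lit 0) (nat_lit 387795995036) (nat_lit 76) (nat_lit 122486297322) (nat_lit 76) (nat_lit 114520819659)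 (nat_lit 2) (nat_lit 4) (nat_lit 3) (nat_lit 5) (nat_lit 3) (nat_lit 4) (nat_lit 434) (nat_lit 283) (nat_lit 183)) (XT.lf (nat_lit 0) (nat_lit 418834872609) (nat_lit 76) (nat_lit 122441134805) (nat_lit 76) (nat_lit 114472750592) (nat_lit 2) (nat_lit 4) (nat_lit 3) (nat_lit 5) (nat_lit 3) (nat_lit 4) (nat_lit 435) (nat_lit 283) (nat_lit 182)))) (XT.nd (nat_lit 78) (nat_lit 0) (nat_lit 0) (XT.lf (nat_lit 0) (nat_lit 451417578727) (nat_lit 76) (nat_lit 122397732548) (nat_lit 76) (nat_lit 114426580191) (nat_lit 2) (nat_lit 4) (nat_lit 3) (nat_lit 5) (nat_lit 3) (nat_lit 4) (nat_lit 436) (nat_lit 283) (nat_lit 181)) (XT.nd (nat_lit 78) (nat_lit 0) (nat_lit 0) (XT.lf (nat_lit 0) (nat_lit 485621691261) (nat_lit 76) (nat_lit 122355987210) (nat_lit 76) (nat_lit 114382198527) (nat_lit 2) (nat_lit 4) (nat_lit 3) (nat_lit 5) (nat_lit 3) (nat_lit 4) (nat_lit 437) (nat_lit 283) (nat_lit 180)) (XT.lf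 (nat_lit 0) (nat_lit 521528648575) (nat_lit 76) (nat_lit 122315799399) (nat_lit 76) (nat_lit 114339499928) (nat_lit 2) (nat_lit 4) (nat_lit 3) (nat_lit 5) (nat_lit 3) (nat_lit 4) (nat_lit 438) (nat_lit 283) (nat_lit 179))))) (XT.nd (nat_lit 38610) (nat_lit 0) (nat_lit 3648) (XT.nd (nat_lit 78) (nat_lit 0) (nat_lit 0) (XT.lf (nat_lit 0) (nat_lit 559223943423) (nat_lit 76) (nat_lit 122277073429) (nat_lit 76) (nat_lit 114298382732) (nat_lit 2) (nat_lit 4) (nat_lit 3) (nat_lit 5) (nat_lit 3) (nat_lit 4) (nat_lit 439) (nat_lit 283) (nat_lit 178)) (XT.nd (nat_lit 38454) (nat_lit 0) (nat_lit 4104) (XT.lf (nat_lit 0) (nat_lit 598797326509) (nat_lit 76) (nat_lit 122239717096) (nat_lit 76) (nat_lit 114258749041) (nat_lit 2) (nat_lit 4) (nat_lit 3) (nat_lit 5) (nat_lit 3) (nat_lit 4) (nat_lit 440) (nat_lit 283) (nat_lit 177)) (XT.lf (nat_lit 0) (nat_lit 762413573) (nat_lit 228) (nat_lit 3310946141)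 (nat_lit 0) (nat_lit 762413573) (nat_lit 56) (nat_lit 5) (nat_lit 59) (nat_lit 4) (nat_lit 56) (nat_lit 4) (nat_lit 332) (nat_lit 284) (nat_lit 284)))) (XT.nd (nat_lit 78) (nat_lit 228) (nat_lit 0) (XT.lf (nat_lit 0) (nat_lit 1134420308) (nat_lit 228) (nat_lit 4777617145) (nat_lit 228) (nat_lit 3983019589) (nat_lit 53) (nat_lit 4) (nat_lit 56) (nat_lit 5) (nat_lit 56) (nat_lit 4) (nat_lit 333) (nat_lit 284) (nat_lit 283)) (XT.nd (nat_lit 78) (nat_lit 152) (nat_lit 0) (XT.lf (nat_lit 0) (nat_lit 322046150) (nat_lit 304) (nat_lit 891162523) (nat_lit 76) (nat_lit 8919033476) (nat_lit 52) (nat_lit 5) (nat_lit 56) (nat_lit 5) (nat_lit 53) (nat_lit 4) (nat_lit 334) (nat_lit 284) (nat_lit 282)) (XT.lf (nat_lit 0) (nat_lit 4702857947) (nat_lit 228) (nat_lit 3136554692) (nat_lit 0) (nat_lit 2538971719) (nat_lit 50) (nat_lit 5) (nat_lit 53) (nat_lit 4) (nat_lit 50) (nat_lit 4) (nat_lit 335) (nat_lit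 284) (nat_lit 281)))))) (XT.nd (nat_lit 468) (nat_lit 684) (nat_lit 0) (XT.nd (nat_lit 234) (nat_lit 532) (nat_lit 0) (XT.nd (nat_lit 78) (nat_lit 228) (nat_lit 0) (XT.lf (nat_lit 0) (nat_lit 5061030367) (nat_lit 152) (nat_lit 4197837626) (nat_lit 152) (nat_lit 1380234023) (nat_lit 48) (nat_lit 4) (nat_lit 50) (nat_lit 5) (nat_lit 50) (nat_lit 4) (nat_lit 336) (nat_lit 284) (nat_lit 280)) (XT.nd (nat_lit 78) (nat_lit 0) (nat_lit 0) (XT.lf (nat_lit 0) (nat_lit 2643805236) (nat_lit 152) (nat_lit 323998088) (nat_lit 228) (nat_lit 7945770392) (nat_lit 45) (nat_lit 5) (nat_lit 47) (nat_lit 5) (nat_lit 48) (nat_lit 4) (nat_lit 337) (nat_lit 284) (nat_lit 279)) (XT.lf (nat_lit 0) (nat_lit 7486153024) (nat_lit 228) (nat_lit 69511268) (nat_lit 0) (nat_lit 3645074443) (nat_lit 45) (nat_lit 5) (nat_lit 48) (nat_lit 4) (nat_lit 45) (nat_lit 4) (nat_lit 338) (nat_lit 284) (nat_lit 278)))) (XT.nd (nat_lit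 78) (nat_lit 304) (nat_lit 0) (XT.lf (nat_lit 0) (nat_lit 695850814) (nat_lit 228) (nat_lit 2952399312) (nat_lit 76) (nat_lit 7853953259) (nat_lit 42) (nat_lit 5) (nat_lit 45) (nat_lit 5) (nat_lit 43) (nat_lit 4) (nat_lit 339) (nat_lit 284) (nat_lit 277)) (XT.nd (nat_lit 78) (nat_lit 152) (nat_lit 0) (XT.lf (nat_lit 0) (nat_lit 5152458449) (nat_lit 228) (nat_lit 6171501038) (nat_lit 0) (nat_lit 494269732) (nat_lit 40) (nat_lit 5) (nat_lit 43) (nat_lit 4) (nat_lit 40) (nat_lit 4) (nat_lit 340) (nat_lit 284) (nat_lit 276)) (XT.lf (nat_lit 0) (nat_lit 2396372163) (nat_lit 152) (nat_lit 7438189277) (nat_lit 152) (nat_lit 2315415826) (nat_lit 38) (nat_lit 4) (nat_lit 40) (nat_lit 5) (nat_lit 40) (nat_lit 4) (nat_lit 341) (nat_lit 284) (nat_lit 275))))) (XT.nd (nat_lit 234) (nat_lit 380) (nat_lit 0) (XT.nd (nat_lit 78) (nat_lit 228) (nat_lit 0) (XT.lf (nat_lit 0) (nat_lit 2141911153) (nat_lit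 228) (nat_lit 1174317238) (nat_lit 76) (nat_lit 9182297750) (nat_lit 37) (nat_lit 5) (nat_lit 40) (nat_lit 5) (nat_lit 38) (nat_lit 4) (nat_lit 342) (nat_lit 284) (nat_lit 274)) (XT.nd (nat_lit 78) (nat_lit 152) (nat_lit 0) (XT.lf (nat_lit 0) (nat_lit 6745212655) (nat_lit 152) (nat_lit 5073729663) (nat_lit 0) (nat_lit 1043662987) (nat_lit 36) (nat_lit 5) (nat_lit 38) (nat_lit 4) (nat_lit 36) (nat_lit 4) (nat_lit 343) (nat_lit 284) (nat_lit 273)) (XT.lf (nat_lit 0) (nat_lit 3824164125) (nat_lit 152) (nat_lit 7752321610) (nat_lit 152) (nat_lit 1668556932) (nat_lit 34) (nat_lit 4) (nat_lit 36) (nat_lit 5) (nat_lit 36) (nat_lit 4) (nat_lit 344) (nat_lit 284) (nat_lit 272)))) (XT.nd (nat_lit 156) (nat_lit 228) (nat_lit 0) (XT.nd (nat_lit 78) (nat_lit 76) (nat_lit 0) (XT.lf (nat_lit 0) (nat_lit 2858041862) (nat_lit 228) (nat_lit 588793156) (nat_lit 76) (nat_lit 10199891903) (nat_lit 33) (nat_lit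 5) (nat_lit 36) (nat_lit 5) (nat_lit 34) (nat_lit 4) (nat_lit 345) (nat_lit 284) (nat_lit 271)) (XT.lf (nat_lit 0) (nat_lit 7579268231) (nat_lit 152) (nat_lit 5378324725) (nat_lit 0) (nat_lit 1108354654) (nat_lit 32) (nat_lit 5) (nat_lit 34) (nat_lit 4) (nat_lit 32) (nat_lit 4) (nat_lit 346) (nat_lit 284) (nat_lit 270))) (XT.nd (nat_lit 78) (nat_lit 76) (nat_lit 0) (XT.lf (nat_lit 0) (nat_lit 3775926302) (nat_lit 152) (nat_lit 8757870238) (nat_lit 152) (nat_lit 1972507426) (nat_lit 30) (nat_lit 4) (nat_lit 32) (nat_lit 5) (nat_lit 32) (nat_lit 4) (nat_lit 347) (nat_lit 284) (nat_lit 269)) (XT.lf (nat_lit 0) (nat_lit 2643493840) (nat_lit 228) (nat_lit 1665675899) (nat_lit 76) (nat_lit 10659146637) (nat_lit 29) (nat_lit 5) (nat_lit 32) (nat_lit 5) (nat_lit 30) (nat_lit 4) (nat_lit 348) (nat_lit 284) (nat_lit 268))))))))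
noncomputable def xc61 : XT := (XT.nd (nat_lit 1950) (nat_lit 456) (nat_lit 0) (XT.nd (nat_lit 936) (nat_lit 532) (nat_lit 0) (XT.nd (nat_lit 468) (nat_lit 380) (nat_lit 0) (XT.nd (nat_lit 234) (nat_lit 152) (nat_lit 0) (XT.nd (nat_lit 78) (nat_lit 228) (nat_lit 0) (XT.lf (nat_lit 0) (nat_lit 7431434782) (nat_lit 152) (nat_lit 7607701360) (nat_lit 0) (nat_lit 412336688) (nat_lit 28) (nat_lit 5) (nat_lit 30) (nat_lit 4) (nat_lit 28) (nat_lit 4) (nat_lit 349) (nat_lit 284) (nat_lit 267)) (XT.nd (nat_lit 78) (nat_lit 76) (nat_lit 0) (XT.lf (nat_lit 0) (nat_lit 1690789675) (nat_lit 152) (nat_lit 10772791711) (nat_lit 152) (nat_lit 3494995453) (nat_lit 26) (nat_lit 4) (nat_lit 28) (nat_lit 5) (nat_lit 28) (nat_lit 4) (nat_lit 350) (nat_lit 284) (nat_lit 266)) (XT.lf (nat_lit 0) (nat_lit 1226524857) (nat_lit 228) (nat_lit 5009799504) (nat_lit 76) (nat_lit 10253236580) (nat_lit 25) (nat_lit 5)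 (nat_lit 28) (nat_lit 5) (nat_lit 26) (nat_lit 4) (nat_lit 351) (nat_lit 284) (nat_lit 265)))) (XT.nd (nat_lit 78) (nat_lit 76) (nat_lit 0) (XT.lf (nat_lit 0) (nat_lit 4589439005) (nat_lit 76) (nat_lit 1434103105) (nat_lit 152) (nat_lit 11022869658) (nat_lit 24) (nat_lit 5) (nat_lit 25) (nat_lit 5) (nat_lit 26) (nat_lit 4) (nat_lit 352) (nat_lit 284) (nat_lit 264)) (XT.nd (nat_lit 78) (nat_lit 76) (nat_lit 0) (XT.lf (nat_lit 0) (nat_lit 11088933873) (nat_lit 152) (nat_lit 3054022235) (nat_lit 0) (nat_lit 3486747661) (nat_lit 24) (nat_lit 5) (nat_lit 26) (nat_lit 4) (nat_lit 24) (nat_lit 4) (nat_lit 353) (nat_lit 284) (nat_lit 263)) (XT.lf (nat_lit 0) (nat_lit 6811675233) (nat_lit 76) (nat_lit 9617164764) (nat_lit 76) (nat_lit 1812281771) (nat_lit 23) (nat_lit 4) (nat_lit 24) (nat_lit 5) (nat_lit 24) (nat_lit 4) (nat_lit 354) (nat_lit 284) (nat_lit 262))))) (XT.nd (nat_lit 234) (nat_lit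 228) (nat_lit 0) (XT.nd (nat_lit 78) (nat_lit 76) (nat_lit 0) (XT.lf (nat_lit 0) (nat_lit 2995983889) (nat_lit 152) (nat_lit 1856160572) (nat_lit 76) (nat_lit 14031313721) (nat_lit 22) (nat_lit 5) (nat_lit 24) (nat_lit 5) (nat_lit 23) (nat_lit 4) (nat_lit 355) (nat_lit 284) (nat_lit 261)) (XT.nd (nat_lit 78) (nat_lit 0) (nat_lit 0) (XT.lf (nat_lit 0) (nat_lit 8012765922) (nat_lit 152) (nat_lit 11321635083) (nat_lit 0) (nat_lit 220594969) (nat_lit 21) (nat_lit 5) (nat_lit 23) (nat_lit 4) (nat_lit 21) (nat_lit 4) (nat_lit 356) (nat_lit 284) (nat_lit 260)) (XT.lf (nat_lit 0) (nat_lit 13289300635) (nat_lit 152) (nat_lit 1640013245) (nat_lit 0) (nat_lit 5330370539) (nat_lit 21) (nat_lit 5) (nat_lit 23) (nat_lit 4) (nat_lit 21) (nat_lit 4) (nat_lit 357) (nat_lit 284) (nat_lit 259)))) (XT.nd (nat_lit 78) (nat_lit 152) (nat_lit 0) (XT.lf (nat_lit 0) (nat_lit 8617488082) (nat_lit 76) (nat_lit 10249021830)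 (nat_lit 76) (nat_lit 2131273503) (nat_lit 20) (nat_lit 4) (nat_lit 21) (nat_lit 5) (nat_lit 21) (nat_lit 4) (nat_lit 358) (nat_lit 284) (nat_lit 258)) (XT.nd (nat_lit 78) (nat_lit 76) (nat_lit 0) (XT.lf (nat_lit 0) (nat_lit 2786151739) (nat_lit 152) (nat_lit 2557392719) (nat_lit 76) (nat_lit 16430418410) (nat_lit 19) (nat_lit 5) (nat_lit 21) (nat_lit 5) (nat_lit 20) (nat_lit 4) (nat_lit 359) (nat_lit 284) (nat_lit 257)) (XT.lf (nat_lit 0) (nat_lit 7795717013) (nat_lit 76) (nat_lit 111001824) (nat_lit 152) (nat_lit 14679056741) (nat_lit 18) (nat_lit 5) (nat_lit 19) (nat_lit 5) (nat_lit 20) (nat_lit 4) (nat_lit 360) (nat_lit 284) (nat_lit 256)))))) (XT.nd (nat_lit 468) (nat_lit 304) (nat_lit 0) (XT.nd (nat_lit 234) (nat_lit 152) (nat_lit 0) (XT.nd (nat_lit 78) (nat_lit 76) (nat_lit 0) (XT.lf (nat_lit 0) (nat_lit 13319013771) (nat_lit 152) (nat_lit 4941476653) (nat_lit 0) (nat_lit 5175918758)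 (nat_lit 18) (nat_lit 5) (nat_lit 20) (nat_lit 4) (nat_lit 18) (nat_lit 4) (nat_lit 361) (nat_lit 284) (nat_lit 255)) (XT.nd (nat_lit 78) (nat_lit 0) (nat_lit 0) (XT.lf (nat_lit 0) (nat_lit 5403049749) (nat_lit 76) (nat_lit 13597081057) (nat_lit 76) (nat_lit 5329547804) (nat_lit 17) (nat_lit 4) (nat_lit 18) (nat_lit 5) (nat_lit 18) (nat_lit 4) (nat_lit 362) (nat_lit 284) (nat_lit 254)) (XT.lf (nat_lit 0) (nat_lit 16271466312) (nat_lit 76) (nat_lit 8691169144) (nat_lit 76) (nat_lit 305123282) (nat_lit 17) (nat_lit 4) (nat_lit 18) (nat_lit 5) (nat_lit 18) (nat_lit 4) (nat_lit 363) (nat_lit 284) (nat_lit 253)))) (XT.nd (nat_lit 78) (nat_lit 0) (nat_lit 0) (XT.lf (nat_lit 0) (nat_lit 1232589753) (nat_lit 76) (nat_lit 3514485743) (nat_lit 152) (nat_lit 21505017683) (nat_lit 15) (nat_lit 5) (nat_lit 16) (nat_lit 5) (nat_lit 17) (nat_lit 4) (nat_lit 364) (nat_lit 284) (nat_lit 252)) (XT.nd (nat_lit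 78) (nat_lit 0) (nat_lit 0) (XT.lf (nat_lit 0) (nat_lit 10143226236) (nat_lit 152) (nat_lit 15190454319) (nat_lit 0) (nat_lit 1946645813) (nat_lit 15) (nat_lit 5) (nat_lit 17) (nat_lit 4) (nat_lit 15) (nat_lit 4) (nat_lit 365) (nat_lit 284) (nat_lit 251)) (XT.lf (nat_lit 0) (nat_lit 15787512616) (nat_lit 152) (nat_lit 5080121987) (nat_lit 0) (nat_lit 7493431576) (nat_lit 15) (nat_lit 5) (nat_lit 17) (nat_lit 4) (nat_lit 15) (nat_lit 4) (nat_lit 366) (nat_lit 284) (nat_lit 250))))) (XT.nd (nat_lit 234) (nat_lit 152) (nat_lit 0) (XT.nd (nat_lit 78) (nat_lit 76) (nat_lit 0) (XT.lf (nat_lit 0) (nat_lit 5568668941) (nat_lit 76) (nat_lit 16156776028) (nat_lit 76) (nat_lit 7769837257) (nat_lit 14) (nat_lit 4) (nat_lit 15) (nat_lit 5) (nat_lit 15) (nat_lit 4) (nat_lit 367) (nat_lit 284) (nat_lit 249)) (XT.nd (nat_lit 78) (nat_lit 76) (nat_lit 0) (XT.lf (nat_lit 0) (nat_lit 16783322970) (nat_lit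 76) (nat_lit 11188838376) (nat_lit 76) (nat_lit 2713463671) (nat_lit 14) (nat_lit 4) (nat_lit 15) (nat_lit 5) (nat_lit 15) (nat_lit 4) (nat_lit 368) (nat_lit 284) (nat_lit 248)) (XT.lf (nat_lit 0) (nat_lit 2440865808) (nat_lit 152) (nat_lit 3555824495) (nat_lit 76) (nat_lit 25940366829) (nat_lit 13) (nat_lit 5) (nat_lit 15) (nat_lit 5) (nat_lit 14) (nat_lit 4) (nat_lit 369) (nat_lit 284) (nat_lit 247)))) (XT.nd (nat_lit 156) (nat_lit 76) (nat_lit 0) (XT.nd (nat_lit 78) (nat_lit 0) (nat_lit 0) (XT.lf (nat_lit 0) (nat_lit 7367369418) (nat_lit 76) (nat_lit 441012445) (nat_lit 152) (nat_lit 25438130734) (nat_lit 12) (nat_lit 5) (nat_lit 13) (nat_lit 5) (nat_lit 14) (nat_lit 4) (nat_lit 370) (nat_lit 284) (nat_lit 246)) (XT.lf (nat_lit 0) (nat_lit 13521557396) (nat_lit 152) (nat_lit 15875620522) (nat_lit 0) (nat_lit 5220407217) (nat_lit 12) (nat_lit 5) (nat_lit 14) (nat_lit 4) (nat_lit 12) (nat_lit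 4) (nat_lit 371) (nat_lit 284) (nat_lit 245))) (XT.nd (nat_lit 78) (nat_lit 76) (nat_lit 0) (XT.lf (nat_lit 0) (nat_lit 19462750571) (nat_lit 152) (nat_lit 5505042340) (nat_lit 0) (nat_lit 11092308524) (nat_lit 12) (nat_lit 5) (nat_lit 14) (nat_lit 4) (nat_lit 12) (nat_lit 4) (nat_lit 372) (nat_lit 284) (nat_lit 244)) (XT.lf (nat_lit 0) (nat_lit 5438225849) (nat_lit 76) (nat_lit 20285901744) (nat_lit 76) (nat_lit 11849467441) (nat_lit 11) (nat_lit 4) (nat_lit 12) (nat_lit 5) (nat_lit 12) (nat_lit 4) (nat_lit 373) (nat_lit 284) (nat_lit 243))))))) (XT.nd (nat_lit 936) (nat_lit 152) (nat_lit 0) (XT.nd (nat_lit 468) (nat_lit 152) (nat_lit 0) (XT.nd (nat_lit 234) (nat_lit 76) (nat_lit 0) (XT.nd (nat_lit 78) (nat_lit 76) (nat_lit 0) (XT.lf (nat_lit 0) (nat_lit 17001817805) (nat_lit 76) (nat_lit 15329304727) (nat_lit 76) (nat_lit 6830020657) (nat_lit 11) (nat_lit 4) (nat_lit 12) (nat_lit 5) (nat_lit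 12) (nat_lit 4) (nat_lit 374) (nat_lit 284) (nat_lit 242)) (XT.nd (nat_lit 78) (nat_lit 76) (nat_lit 0) (XT.lf (nat_lit 0) (nat_lit 29031244327) (nat_lit 76) (nat_lit 10179430995) (nat_lit 76) (nat_lit 1620290004) (nat_lit 11) (nat_lit 4) (nat_lit 12) (nat_lit 5) (nat_lit 12) (nat_lit 4) (nat_lit 375) (nat_lit 284) (nat_lit 241)) (XT.lf (nat_lit 0) (nat_lit 3670756839) (nat_lit 152) (nat_lit 1091096061) (nat_lit 76) (nat_lit 37822224025) (nat_lit 10) (nat_lit 5) (nat_lit 12) (nat_lit 5) (nat_lit 11) (nat_lit 4) (nat_lit 376) (nat_lit 284) (nat_lit 240)))) (XT.nd (nat_lit 78) (nat_lit 0) (nat_lit 0) (XT.lf (nat_lit 0) (nat_lit 9297041997) (nat_lit 152) (nat_lit 34080742614) (nat_lit 0) (nat_lit 1039480497) (nat_lit 9) (nat_lit 5) (nat_lit 11) (nat_lit 4) (nat_lit 9) (nat_lit 4) (nat_lit 377) (nat_lit 284) (nat_lit 239)) (XT.nd (nat_lit 78) (nat_lit 0) (nat_lit 0) (XT.lf (nat_lit 0) (nat_lit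 15248370959) (nat_lit 152) (nat_lit 24149995983) (nat_lit 0) (nat_lit 6941565022) (nat_lit 9) (nat_lit 5) (nat_lit 11) (nat_lit 4) (nat_lit 9) (nat_lit 4) (nat_lit 378) (nat_lit 284) (nat_lit 238)) (XT.lf (nat_lit 0) (nat_lit 21446680868) (nat_lit 152) (nat_lit 13821610573) (nat_lit 0) (nat_lit 13092975467) (nat_lit 9) (nat_lit 5) (nat_lit 11) (nat_lit 4) (nat_lit 9) (nat_lit 4) (nat_lit 379) (nat_lit 284) (nat_lit 237))))) (XT.nd (nat_lit 234) (nat_lit 76) (nat_lit 0) (XT.nd (nat_lit 78) (nat_lit 76) (nat_lit 0) (XT.lf (nat_lit 0) (nat_lit 27906729603) (nat_lit 152) (nat_lit 3070994990) (nat_lit 0) (nat_lit 19508358046) (nat_lit 9) (nat_lit 5) (nat_lit 11) (nat_lit 4) (nat_lit 9) (nat_lit 4) (nat_lit 380) (nat_lit 284) (nat_lit 236)) (XT.nd (nat_lit 78) (nat_lit 0) (nat_lit 0) (XT.lf (nat_lit 0) (nat_lit 8396177587) (nat_lit 76) (nat_lit 26378808509) (nat_lit 76) (nat_lit 17937897756)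 (nat_lit 8) (nat_lit 4) (nat_lit 9) (nat_lit 5) (nat_lit 9) (nat_lit 4) (nat_lit 381) (nat_lit 284) (nat_lit 235)) (XT.lf (nat_lit 0) (nat_lit 20455069740) (nat_lit 76) (nat_lit 21538518861) (nat_lit 76) (nat_lit 13057094588) (nat_lit 8) (nat_lit 4) (nat_lit 9) (nat_lit 5) (nat_lit 9) (nat_lit 4) (nat_lit 382) (nat_lit 284) (nat_lit 234)))) (XT.nd (nat_lit 78) (nat_lit 76) (nat_lit 0) (XT.lf (nat_lit 0) (nat_lit 33032852152) (nat_lit 76) (nat_lit 16497339937) (nat_lit 76) (nat_lit 7977331359) (nat_lit 8) (nat_lit 4) (nat_lit 9) (nat_lit 5) (nat_lit 9) (nat_lit 4) (nat_lit 383) (nat_lit 284) (nat_lit 233)) (XT.nd (nat_lit 78) (nat_lit 76) (nat_lit 0) (XT.lf (nat_lit 0) (nat_lit 46159471926) (nat_lit 76) (nat_lit 11243268930) (nat_lit 76) (nat_lit 2686513395) (nat_lit 8) (nat_lit 4) (nat_lit 9) (nat_lit 5) (nat_lit 9) (nat_lit 4) (nat_lit 384) (nat_lit 284) (nat_lit 232)) (XT.lf (nat_lit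 0) (nat_lit 2737444221) (nat_lit 152) (nat_lit 2979991984) (nat_lit 76) (nat_lit 57082378753) (nat_lit 7) (nat_lit 5) (nat_lit 9) (nat_lit 5) (nat_lit 8) (nat_lit 4) (nat_lit 385) (nat_lit 284) (nat_lit 231)))))) (XT.nd (nat_lit 468) (nat_lit 76) (nat_lit 0) (XT.nd (nat_lit 234) (nat_lit 0) (nat_lit 0) (XT.nd (nat_lit 78) (nat_lit 0) (nat_lit 0) (XT.lf (nat_lit 0) (nat_lit 8443794212) (nat_lit 152) (nat_lit 56965407931) (nat_lit 0) (nat_lit 229429249) (nat_lit 6) (nat_lit 5) (nat_lit 8) (nat_lit 4) (nat_lit 6) (nat_lit 4) (nat_lit 386) (nat_lit 284) (nat_lit 230)) (XT.nd (nat_lit 78) (nat_lit 0) (nat_lit 0) (XT.lf (nat_lit 0) (nat_lit 14542893748) (nat_lit 152) (nat_lit 47772829851) (nat_lit 0) (nat_lit 6298296972) (nat_lit 6) (nat_lit 5) (nat_lit 8) (nat_lit 4) (nat_lit 6) (nat_lit 4) (nat_lit 387) (nat_lit 284) (nat_lit 229)) (XT.lf (nat_lit 0) (nat_lit 20911146964) (nat_lit 152) (nat_lit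 38191067681) (nat_lit 0) (nat_lit 12637757986) (nat_lit 6) (nat_lit 5) (nat_lit 8) (nat_lit 4) (nat_lit 6) (nat_lit 4) (nat_lit 388) (nat_lit 284) (nat_lit 228)))) (XT.nd (nat_lit 78) (nat_lit 0) (nat_lit 0) (XT.lf (nat_lit 0) (nat_lit 27563716369) (nat_lit 152) (nat_lit 28197307701) (nat_lit 0) (nat_lit 19262906245) (nat_lit 6) (nat_lit 5) (nat_lit 8) (nat_lit 4) (nat_lit 6) (nat_lit 4) (nat_lit 389) (nat_lit 284) (nat_lit 227)) (XT.nd (nat_lit 78) (nat_lit 0) (nat_lit 0) (XT.lf (nat_lit 0) (nat_lit 34516441413) (nat_lit 152) (nat_lit 17767755245) (nat_lit 0) (nat_lit 26189515913) (nat_lit 6) (nat_lit 5) (nat_lit 8) (nat_lit 4) (nat_lit 6) (nat_lit 4) (nat_lit 390) (nat_lit 284) (nat_lit 226)) (XT.lf (nat_lit 0) (nat_lit 41785876203) (nat_lit 152) (nat_lit 6877578045) (nat_lit 0) (nat_lit 33434078916) (nat_lit 6) (nat_lit 5) (nat_lit 8) (nat_lit 4) (nat_lit 6) (nat_lit 4) (nat_lit 391)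 (nat_lit 284) (nat_lit 225))))) (XT.nd (nat_lit 234) (nat_lit 0) (nat_lit 0) (XT.nd (nat_lit 78) (nat_lit 0) (nat_lit 0) (XT.lf (nat_lit 0) (nat_lit 4647915206) (nat_lit 76) (nat_lit 44813980693) (nat_lit 76) (nat_lit 36438495990) (nat_lit 5) (nat_lit 4) (nat_lit 6) (nat_lit 5) (nat_lit 6) (nat_lit 4) (nat_lit 392) (nat_lit 284) (nat_lit 224)) (XT.nd (nat_lit 78) (nat_lit 0) (nat_lit 0) (XT.lf (nat_lit 0) (nat_lit 16931436737) (nat_lit 76) (nat_lit 40677813456) (nat_lit 76) (nat_lit 32279769309) (nat_lit 5) (nat_lit 4) (nat_lit 6) (nat_lit 5) (nat_lit 6) (nat_lit 4) (nat_lit 393) (nat_lit 284) (nat_lit 223)) (XT.lf (nat_lit 0) (nat_lit 29774829237) (nat_lit 76) (nat_lit 36361579630) (nat_lit 76) (nat_lit 27942050298) (nat_lit 5) (nat_lit 4) (nat_lit 6) (nat_lit 5) (nat_lit 6) (nat_lit 4) (nat_lit 394) (nat_lit 284) (nat_lit 222)))) (XT.nd (nat_lit 156) (nat_lit 0) (nat_lit 0) (XT.nd (nat_lit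 78) (nat_lit 0) (nat_lit 0) (XT.lf (nat_lit 0) (nat_lit 43208672213) (nat_lit 76) (nat_lit 31855002469) (nat_lit 76) (nat_lit 23415011057) (nat_lit 5) (nat_lit 4) (nat_lit 6) (nat_lit 5) (nat_lit 6) (nat_lit 4) (nat_lit 395) (nat_lit 284) (nat_lit 221)) (XT.lf (nat_lit 0) (nat_lit 57264951005) (nat_lit 76) (nat_lit 27147352028) (nat_lit 76) (nat_lit 18687872919) (nat_lit 5) (nat_lit 4) (nat_lit 6) (nat_lit 5) (nat_lit 6) (nat_lit 4) (nat_lit 396) (nat_lit 284) (nat_lit 220))) (XT.nd (nat_lit 78) (nat_lit 0) (nat_lit 0) (XT.lf (nat_lit 0) (nat_lit 71977132943) (nat_lit 76) (nat_lit 22227419613) (nat_lit 76) (nat_lit 13749380794) (nat_lit 5) (nat_lit 4) (nat_lit 6) (nat_lit 5) (nat_lit 6) (nat_lit 4) (nat_lit 397) (nat_lit 284) (nat_lit 219)) (XT.lf (nat_lit 0) (nat_lit 87380247032) (nat_lit 76) (nat_lit 17083491102) (nat_lit 76) (nat_lit 8587776368) (nat_lit 5) (nat_lit 4) (nat_lit 6) (nat_lit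 5) (nat_lit 6) (nat_lit 4) (nat_lit 398) (nat_lit 284) (nat_lit 218))))))))
noncomputable def xc62 : XT := (XT.nd (nat_lit 1872) (nat_lit 0) (nat_lit 0) (XT.nd (nat_lit 936) (nat_lit 76) (nat_lit 0) (XT.nd (nat_lit 468) (nat_lit 0) (nat_lit 0) (XT.nd (nat_lit 234) (nat_lit 0) (nat_lit 0) (XT.nd (nat_lit 78) (nat_lit 152) (nat_lit 0) (XT.lf (nat_lit 0) (nat_lit 103510967353) (nat_lit 76) (nat_lit 11703319044) (nat_lit 76) (nat_lit 3190770106) (nat_lit 5) (nat_lit 4) (nat_lit 6) (nat_lit 5) (nat_lit 6) (nat_lit 4) (nat_lit 399) (nat_lit 284) (nat_lit 217)) (XT.nd (nat_lit 78) (nat_lit 76) (nat_lit 0) (XT.lf (nat_lit 0) (nat_lit 2375929062) (nat_lit 152) (nat_lit 3657926936) (nat_lit 76) (nat_lit 117991533812) (nat_lit 4) (nat_lit 5) (nat_lit 6) (nat_lit 5) (nat_lit 5) (nat_lit 4) (nat_lit 400) (nat_lit 284) (nat_lit 216)) (XT.lf (nat_lit 0) (nat_lit 8225055255) (nat_lit 152) (nat_lit 121605450044)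 (nat_lit 0) (nat_lit 88054651) (nat_lit 3) (nat_lit 5) (nat_lit 5) (nat_lit 4) (nat_lit 3) (nat_lit 4) (nat_lit 401) (nat_lit 284) (nat_lit 215)))) (XT.nd (nat_lit 78) (nat_lit 0) (nat_lit 0) (XT.lf (nat_lit 0) (nat_lit 14508653856) (nat_lit 152) (nat_lit 115232831839) (nat_lit 0) (nat_lit 6357803711) (nat_lit 3) (nat_lit 5) (nat_lit 5) (nat_lit 4) (nat_lit 3) (nat_lit 4) (nat_lit 402) (nat_lit 284) (nat_lit 214)) (XT.nd (nat_lit 78) (nat_lit 0) (nat_lit 0) (XT.lf (nat_lit 0) (nat_lit 21087514398) (nat_lit 152) (nat_lit 108579014163) (nat_lit 0) (nat_lit 12923474213) (nat_lit 3) (nat_lit 5) (nat_lit 5) (nat_lit 4) (nat_lit 3) (nat_lit 4) (nat_lit 403) (nat_lit 284) (nat_lit 213)) (XT.lf (nat_lit 0) (nat_lit 27977300833) (nat_lit 152) (nat_lit 101628154593) (nat_lit 0) (nat_lit 19800698705) (nat_lit 3) (nat_lit 5) (nat_lit 5) (nat_lit 4) (nat_lit 3) (nat_lit 4) (nat_lit 404) (nat_lit 284)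 (nat_lit 212))))) (XT.nd (nat_lit 234) (nat_lit 0) (nat_lit 0) (XT.nd (nat_lit 78) (nat_lit 0) (nat_lit 0) (XT.lf (nat_lit 0) (nat_lit 35194417414) (nat_lit 152) (nat_lit 94363703462) (nat_lit 0) (nat_lit 27005851532) (nat_lit 3) (nat_lit 5) (nat_lit 5) (nat_lit 4) (nat_lit 3) (nat_lit 4) (nat_lit 405) (nat_lit 284) (nat_lit 211)) (XT.nd (nat_lit 78) (nat_lit 0) (nat_lit 0) (XT.lf (nat_lit 0) (nat_lit 42756047754) (nat_lit 152) (nat_lit 86768364459) (nat_lit 0) (nat_lit 34556087820) (nat_lit 3) (nat_lit 5) (nat_lit 5) (nat_lit 4) (nat_lit 3) (nat_lit 4) (nat_lit 406) (nat_lit 284) (nat_lit 210)) (XT.lf (nat_lit 0) (nat_lit 50680195734) (nat_lit 152) (nat_lit 78824053443) (nat_lit 0) (nat_lit 42469384321) (nat_lit 3) (nat_lit 5) (nat_lit 5) (nat_lit 4) (nat_lit 3) (nat_lit 4) (nat_lit 407) (nat_lit 284) (nat_lit 209)))) (XT.nd (nat_lit 78) (nat_lit 0) (nat_lit 0) (XT.lf (nat_lit 0) (nat_lit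 58985728372) (nat_lit 152) (nat_lit 70511855388) (nat_lit 0) (nat_lit 50764582218) (nat_lit 3) (nat_lit 5) (nat_lit 5) (nat_lit 4) (nat_lit 3) (nat_lit 4) (nat_lit 408) (nat_lit 284) (nat_lit 208)) (XT.nd (nat_lit 78) (nat_lit 0) (nat_lit 0) (XT.lf (nat_lit 0) (nat_lit 67692420747) (nat_lit 152) (nat_lit 61811979346) (nat_lit 0) (nat_lit 59461431982) (nat_lit 3) (nat_lit 5) (nat_lit 5) (nat_lit 4) (nat_lit 3) (nat_lit 4) (nat_lit 409) (nat_lit 284) (nat_lit 207)) (XT.lf (nat_lit 0) (nat_lit 76821003077) (nat_lit 152) (nat_lit 52703711327) (nat_lit 0) (nat_lit 68580640398) (nat_lit 3) (nat_lit 5) (nat_lit 5) (nat_lit 4) (nat_lit 3) (nat_lit 4) (nat_lit 410) (nat_lit 284) (nat_lit 206)))))) (XT.nd (nat_lit 468) (nat_lit 0) (nat_lit 0) (XT.nd (nat_lit 234) (nat_lit 76) (nat_lit 0) (XT.nd (nat_lit 78) (nat_lit 0) (nat_lit 0) (XT.lf (nat_lit 0) (nat_lit 86393210085) (nat_lit 152) (nat_lit 43165364977)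 (nat_lit 0) (nat_lit 78143919867) (nat_lit 3) (nat_lit 5) (nat_lit 5) (nat_lit 4) (nat_lit 3) (nat_lit 4) (nat_lit 411) (nat_lit 284) (nat_lit 205)) (XT.nd (nat_lit 78) (nat_lit 0) (nat_lit 0) (XT.lf (nat_lit 0) (nat_lit 96431832737) (nat_lit 152) (nat_lit 33174229950) (nat_lit 0) (nat_lit 88174040102) (nat_lit 3) (nat_lit 5) (nat_lit 5) (nat_lit 4) (nat_lit 3) (nat_lit 4) (nat_lit 412) (nat_lit 284) (nat_lit 204)) (XT.lf (nat_lit 0) (nat_lit 106960772517) (nat_lit 152) (nat_lit 22706517827) (nat_lit 0) (nat_lit 98694882342) (nat_lit 3) (nat_lit 5) (nat_lit 5) (nat_lit 4) (nat_lit 3) (nat_lit 4) (nat_lit 413) (nat_lit 284) (nat_lit 203)))) (XT.nd (nat_lit 78) (nat_lit 76) (nat_lit 0) (XT.lf (nat_lit 0) (nat_lit 118005098329) (nat_lit 152) (nat_lit 11737305485) (nat_lit 0) (nat_lit 109731496211) (nat_lit 3) (nat_lit 5) (nat_lit 5) (nat_lit 4) (nat_lit 3) (nat_lit 4) (nat_lit 414) (nat_lit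 284) (nat_lit 202)) (XT.nd (nat_lit 78) (nat_lit 76) (nat_lit 0) (XT.lf (nat_lit 0) (nat_lit 129591106187) (nat_lit 152) (nat_lit 240475751) (nat_lit 0) (nat_lit 121310159361) (nat_lit 3) (nat_lit 5) (nat_lit 5) (nat_lit 4) (nat_lit 3) (nat_lit 4) (nat_lit 415) (nat_lit 284) (nat_lit 201)) (XT.lf (nat_lit 0) (nat_lit 12201881177) (nat_lit 76) (nat_lit 129735006207) (nat_lit 76) (nat_lit 121447064421) (nat_lit 2) (nat_lit 4) (nat_lit 3) (nat_lit 5) (nat_lit 3) (nat_lit 4) (nat_lit 416) (nat_lit 284) (nat_lit 200))))) (XT.nd (nat_lit 234) (nat_lit 0) (nat_lit 0) (XT.nd (nat_lit 78) (nat_lit 0) (nat_lit 0) (XT.lf (nat_lit 0) (nat_lit 25255174208) (nat_lit 76) (nat_lit 129638996209) (nat_lit 76) (nat_lit 121344392557) (nat_lit 2) (nat_lit 4) (nat_lit 3) (nat_lit 5) (nat_lit 3) (nat_lit 4) (nat_lit 417) (nat_lit 284) (nat_lit 199)) (XT.nd (nat_lit 78) (nat_lit 0) (nat_lit 0) (XT.lf (nat_lit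 0) (nat_lit 38942531398) (nat_lit 76) (nat_lit 129547395923) (nat_lit 76) (nat_lit 121246447636) (nat_lit 2) (nat_lit 4) (nat_lit 3) (nat_lit 5) (nat_lit 3) (nat_lit 4) (nat_lit 418) (nat_lit 284) (nat_lit 198)) (XT.lf (nat_lit 0) (nat_lit 53296541690) (nat_lit 76) (nat_lit 129459987252) (nat_lit 76) (nat_lit 121152996456) (nat_lit 2) (nat_lit 4) (nat_lit 3) (nat_lit 5) (nat_lit 3) (nat_lit 4) (nat_lit 419) (nat_lit 284) (nat_lit 197)))) (XT.nd (nat_lit 78) (nat_lit 0) (nat_lit 0) (XT.lf (nat_lit 0) (nat_lit 68351381301) (nat_lit 76) (nat_lit 129376562081) (nat_lit 76) (nat_lit 121063816515) (nat_lit 2) (nat_lit 4) (nat_lit 3) (nat_lit 5) (nat_lit 3) (nat_lit 4) (nat_lit 420) (nat_lit 284) (nat_lit 196)) (XT.nd (nat_lit 78) (nat_lit 0) (nat_lit 0) (XT.lf (nat_lit 0) (nat_lit 84142895087) (nat_lit 76) (nat_lit 129296921778) (nat_lit 76) (nat_lit 120978695478) (nat_lit 2) (nat_lit 4) (nat_lit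 3) (nat_lit 5) (nat_lit 3) (nat_lit 4) (nat_lit 421) (nat_lit 284) (nat_lit 195)) (XT.lf (nat_lit 0) (nat_lit 100708681889) (nat_lit 76) (nat_lit 129220876724) (nat_lit 76) (nat_lit 120897430677) (nat_lit 2) (nat_lit 4) (nat_lit 3) (nat_lit 5) (nat_lit 3) (nat_lit 4) (nat_lit 422) (nat_lit 284) (nat_lit 194))))))) (XT.nd (nat_lit 936) (nat_lit 0) (nat_lit 0) (XT.nd (nat_lit 468) (nat_lit 0) (nat_lit 0) (XT.nd (nat_lit 234) (nat_lit 0) (nat_lit 0) (XT.nd (nat_lit 78) (nat_lit 0) (nat_lit 0) (XT.lf (nat_lit 0) (nat_lit 118088184058) (nat_lit 76) (nat_lit 129148245859) (nat_lit 76) (nat_lit 120819828625) (nat_lit 2) (nat_lit 4) (nat_lit 3) (nat_lit 5) (nat_lit 3) (nat_lit 4) (nat_lit 423) (nat_lit 284) (nat_lit 193)) (XT.nd (nat_lit 78) (nat_lit 0) (nat_lit 0) (XT.lf (nat_lit 0) (nat_lit 136322781360) (nat_lit 76) (nat_lit 129078856252) (nat_lit 76) (nat_lit 120745704554) (nat_lit 2) (nat_lit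 4) (nat_lit 3) (nat_lit 5) (nat_lit 3) (nat_lit 4) (nat_lit 424) (nat_lit 284) (nat_lit 192)) (XT.lf (nat_lit 0) (nat_lit 155455889503) (nat_lit 76) (nat_lit 129012542690) (nat_lit 76) (nat_lit 120674881979) (nat_lit 2) (nat_lit 4) (nat_lit 3) (nat_lit 5) (nat_lit 3) (nat_lit 4) (nat_lit 425) (nat_lit 284) (nat_lit 191)))) (XT.nd (nat_lit 78) (nat_lit 0) (nat_lit 0) (XT.lf (nat_lit 0) (nat_lit 175533063507) (nat_lit 76) (nat_lit 128949147284) (nat_lit 76) (nat_lit 120607192274) (nat_lit 2) (nat_lit 4) (nat_lit 3) (nat_lit 5) (nat_lit 3) (nat_lit 4) (nat_lit 426) (nat_lit 284) (nat_lit 190)) (XT.nd (nat_lit 78) (nat_lit 0) (nat_lit 0) (XT.lf (nat_lit 0) (nat_lit 196602106167) (nat_lit 76) (nat_lit 128888519092) (nat_lit 76) (nat_lit 120542474274) (nat_lit 2) (nat_lit 4) (nat_lit 3) (nat_lit 5) (nat_lit 3) (nat_lit 4) (nat_lit 427) (nat_lit 284) (nat_lit 189)) (XT.lf (nat_lit 0) (nat_lit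 218713181871) (nat_lit 76) (nat_lit 128830513761) (nat_lit 76) (nat_lit 120480573887) (nat_lit 2) (nat_lit 4) (nat_lit 3) (nat_lit 5) (nat_lit 3) (nat_lit 4) (nat_lit 428) (nat_lit 284) (nat_lit 188))))) (XT.nd (nat_lit 234) (nat_lit 0) (nat_lit 0) (XT.nd (nat_lit 78) (nat_lit 0) (nat_lit 0) (XT.lf (nat_lit 0) (nat_lit 241918936036) (nat_lit 76) (nat_lit 128774993183) (nat_lit 76) (nat_lit 120421343733) (nat_lit 2) (nat_lit 4) (nat_lit 3) (nat_lit 5) (nat_lit 3) (nat_lit 4) (nat_lit 429) (nat_lit 284) (nat_lit 187)) (XT.nd (nat_lit 78) (nat_lit 0) (nat_lit 0) (XT.lf (nat_lit 0) (nat_lit 266274620458) (nat_lit 76) (nat_lit 128721825167) (nat_lit 76) (nat_lit 120364642787) (nat_lit 2) (nat_lit 4) (nat_lit 3) (nat_lit 5) (nat_lit 3) (nat_lit 4) (nat_lit 430) (nat_lit 284) (nat_lit 186)) (XT.lf (nat_lit 0) (nat_lit 291838224862) (nat_lit 76) (nat_lit 128670883121) (nat_lit 76) (nat_lit 120310336046)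 (nat_lit 2) (nat_lit 4) (nat_lit 3) (nat_lit 5) (nat_lit 3) (nat_lit 4) (nat_lit 431) (nat_lit 284) (nat_lit 185)))) (XT.nd (nat_lit 78) (nat_lit 0) (nat_lit 0) (XT.lf (nat_lit 0) (nat_lit 318670614972) (nat_lit 76) (nat_lit 128622045756) (nat_lit 76) (nat_lit 120258294210) (nat_lit 2) (nat_lit 4) (nat_lit 3) (nat_lit 5) (nat_lit 3) (nat_lit 4) (nat_lit 432) (nat_lit 284) (nat_lit 184)) (XT.nd (nat_lit 78) (nat_lit 0) (nat_lit 0) (XT.lf (nat_lit 0) (nat_lit 346835677433) (nat_lit 76) (nat_lit 128575196792) (nat_lit 76) (nat_lit 120208393368) (nat_lit 2) (nat_lit 4) (nat_lit 3) (nat_lit 5) (nat_lit 3) (nat_lit 4) (nat_lit 433) (nat_lit 284) (nat_lit 183)) (XT.lf (nat_lit 0) (nat_lit 376400471916) (nat_lit 76) (nat_lit 128530224684) (nat_lit 76) (nat_lit 120160514710) (nat_lit 2) (nat_lit 4) (nat_lit 3) (nat_lit 5) (nat_lit 3) (nat_lit 4) (nat_lit 434) (nat_lit 284) (nat_lit 182)))))) (XT.nd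 (nat_lit 38688) (nat_lit 0) (nat_lit 3496) (XT.nd (nat_lit 234) (nat_lit 0) (nat_lit 0) (XT.nd (nat_lit 78) (nat_lit 0) (nat_lit 0) (XT.lf (nat_lit 0) (nat_lit 407435390790) (nat_lit 76) (nat_lit 128487022355) (nat_lit 76) (nat_lit 120114544238) (nat_lit 2) (nat_lit 4) (nat_lit 3) (nat_lit 5) (nat_lit 3) (nat_lit 4) (nat_lit 435) (nat_lit 284) (nat_lit 181)) (XT.nd (nat_lit 78) (nat_lit 0) (nat_lit 0) (XT.lf (nat_lit 0) (nat_lit 440014326717) (nat_lit 76) (nat_lit 128445486943) (nat_lit 76) (nat_lit 120070372499) (nat_lit 2) (nat_lit 4) (nat_lit 3) (nat_lit 5) (nat_lit 3) (nat_lit 4) (nat_lit 436) (nat_lit 284) (nat_lit 180)) (XT.lf (nat_lit 0) (nat_lit 474214848594) (nat_lit 76) (nat_lit 128405519553) (nat_lit 76) (nat_lit 120027894322) (nat_lit 2) (nat_lit 4) (nat_lit 3) (nat_lit 5) (nat_lit 3) (nat_lit 4) (nat_lit 437) (nat_lit 284) (nat_lit 179)))) (XT.nd (nat_lit 78) (nat_lit 0) (nat_lit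 0) (XT.lf (nat_lit 0) (nat_lit 510118386235) (nat_lit 76) (nat_lit 128367025026) (nat_lit 76) (nat_lit 119987008568) (nat_lit 2) (nat_lit 4) (nat_lit 3) (nat_lit 5) (nat_lit 3) (nat_lit 4) (nat_lit 438) (nat_lit 284) (nat_lit 178)) (XT.nd (nat_lit 78) (nat_lit 0) (nat_lit 0) (XT.lf (nat_lit 0) (nat_lit 547810424251) (nat_lit 76) (nat_lit 128329911708) (nat_lit 76) (nat_lit 119947617892) (nat_lit 2) (nat_lit 4) (nat_lit 3) (nat_lit 5) (nat_lit 3) (nat_lit 4) (nat_lit 439) (nat_lit 284) (nat_lit 177)) (XT.lf (nat_lit 0) (nat_lit 587380705593) (nat_lit 76) (nat_lit 128294091233) (nat_lit 76) (nat_lit 119909628504) (nat_lit 2) (nat_lit 4) (nat_lit 3) (nat_lit 5) (nat_lit 3) (nat_lit 4) (nat_lit 440) (nat_lit 284) (nat_lit 176))))) (XT.nd (nat_lit 234) (nat_lit 608) (nat_lit 0) (XT.nd (nat_lit 78) (nat_lit 456) (nat_lit 0) (XT.lf (nat_lit 0) (nat_lit 1617895314) (nat_lit 304) (nat_lit 1390592103)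 (nat_lit 0) (nat_lit 1617895314) (nat_lit 62) (nat_lit 5) (nat_lit 66) (nat_lit 4) (nat_lit 62) (nat_lit 4) (nat_lit 330) (nat_lit 285) (nat_lit 285)) (XT.nd (nat_lit 78) (nat_lit 228) (nat_lit 0) (XT.lf (nat_lit 0) (nat_lit 4773494949) (nat_lit 228) (nat_lit 2780524536) (nat_lit 228) (nat_lit 1904480731) (nat_lit 59) (nat_lit 4) (nat_lit 62) (nat_lit 5) (nat_lit 62) (nat_lit 4) (nat_lit 331) (nat_lit 285) (nat_lit 284)) (XT.lf (nat_lit 0) (nat_lit 2276451598) (nat_lit 228) (nat_lit 6751748713) (nat_lit 0) (nat_lit 647526609) (nat_lit 56) (nat_lit 5) (nat_lit 59) (nat_lit 4) (nat_lit 56) (nat_lit 4) (nat_lit 332) (nat_lit 285) (nat_lit 283)))) (XT.nd (nat_lit 156) (nat_lit 304) (nat_lit 0) (XT.nd (nat_lit 78) (nat_lit 76) (nat_lit 0) (XT.lf (nat_lit 0) (nat_lit 872508266) (nat_lit 228) (nat_lit 5708299712) (nat_lit 228) (nat_lit 3322615146) (nat_lit 53) (nat_lit 4) (nat_lit 56) (nat_lit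 5) (nat_lit 56) (nat_lit 4) (nat_lit 333) (nat_lit 285) (nat_lit 282)) (XT.lf (nat_lit 0) (nat_lit 883099187) (nat_lit 304) (nat_lit 1296054638) (nat_lit 76) (nat_lit 7964888625) (nat_lit 52) (nat_lit 5) (nat_lit 56) (nat_lit 5) (nat_lit 53) (nat_lit 4) (nat_lit 334) (nat_lit 285) (nat_lit 281))) (XT.nd (nat_lit 78) (nat_lit 152) (nat_lit 0) (XT.lf (nat_lit 0) (nat_lit 5165076415) (nat_lit 228) (nat_lit 3677211897) (nat_lit 0) (nat_lit 1552875256) (nat_lit 50) (nat_lit 5) (nat_lit 53) (nat_lit 4) (nat_lit 50) (nat_lit 4) (nat_lit 335) (nat_lit 285) (nat_lit 280)) (XT.lf (nat_lit 0) (nat_lit 4379080932) (nat_lit 152) (nat_lit 5257914692) (nat_lit 152) (nat_lit 1023125556) (nat_lit 48) (nat_lit 4) (nat_lit 50) (nat_lit 5) (nat_lit 50) (nat_lit 4) (nat_lit 336) (nat_lit 285) (nat_lit 279))))))))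
noncomputable def xc63 : XT := (XT.nd (nat_lit 1950) (nat_lit 836) (nat_lit 0) (XT.nd (nat_lit 936) (nat_lit 836) (nat_lit 0) (XT.nd (nat_lit 468) (nat_lit 608) (nat_lit 0) (XT.nd (nat_lit 234) (nat_lit 380) (nat_lit 0) (XT.nd (nat_lit 78) (nat_lit 228) (nat_lit 0) (XT.lf (nat_lit 0) (nat_lit 1787882033) (nat_lit 152) (nat_lit 1439245819) (nat_lit 228) (nat_lit 7711536085) (nat_lit 45) (nat_lit 5) (nat_lit 47) (nat_lit 5) (nat_lit 48) (nat_lit 4) (nat_lit 337) (nat_lit 285) (nat_lit 278)) (XT.nd (nat_lit 78) (nat_lit 228) (nat_lit 0) (XT.lf (nat_lit 0) (nat_lit 7655978238) (nat_lit 228) (nat_lit 1054031096) (nat_lit 0) (nat_lit 2520325177) (nat_lit 45) (nat_lit 5) (nat_lit 48) (nat_lit 4) (nat_lit 45) (nat_lit 4) (nat_lit 338) (nat_lit 285) (nat_lit 277)) (XT.lf (nat_lit 0) (nat_lit 743756355) (nat_lit 228) (nat_lit 4123157201) (nat_lit 76) (nat_lit 6669195668) (nat_lit 42) (nat_lit 5)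 (nat_lit 45) (nat_lit 5) (nat_lit 43) (nat_lit 4) (nat_lit 339) (nat_lit 285) (nat_lit 276)))) (XT.nd (nat_lit 78) (nat_lit 228) (nat_lit 0) (XT.lf (nat_lit 0) (nat_lit 4326221387) (nat_lit 152) (nat_lit 777141094) (nat_lit 228) (nat_lit 6753649075) (nat_lit 40) (nat_lit 5) (nat_lit 42) (nat_lit 5) (nat_lit 43) (nat_lit 4) (nat_lit 340) (nat_lit 285) (nat_lit 275)) (XT.nd (nat_lit 78) (nat_lit 76) (nat_lit 0) (XT.lf (nat_lit 0) (nat_lit 884470206) (nat_lit 152) (nat_lit 8797718456) (nat_lit 152) (nat_lit 2511759947) (nat_lit 38) (nat_lit 4) (nat_lit 40) (nat_lit 5) (nat_lit 40) (nat_lit 4) (nat_lit 341) (nat_lit 285) (nat_lit 274)) (XT.lf (nat_lit 0) (nat_lit 1884634646) (nat_lit 228) (nat_lit 2843849532) (nat_lit 76) (nat_lit 7817550237) (nat_lit 37) (nat_lit 5) (nat_lit 40) (nat_lit 5) (nat_lit 38) (nat_lit 4) (nat_lit 342) (nat_lit 285) (nat_lit 273))))) (XT.nd (nat_lit 234) (nat_lit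 304) (nat_lit 0) (XT.nd (nat_lit 78) (nat_lit 228) (nat_lit 0) (XT.lf (nat_lit 0) (nat_lit 5966974185) (nat_lit 76) (nat_lit 411391914) (nat_lit 152) (nat_lit 6537247722) (nat_lit 36) (nat_lit 5) (nat_lit 37) (nat_lit 5) (nat_lit 38) (nat_lit 4) (nat_lit 343) (nat_lit 285) (nat_lit 272)) (XT.nd (nat_lit 78) (nat_lit 76) (nat_lit 0) (XT.lf (nat_lit 0) (nat_lit 1778401415) (nat_lit 152) (nat_lit 9329470526) (nat_lit 152) (nat_lit 2195288308) (nat_lit 34) (nat_lit 4) (nat_lit 36) (nat_lit 5) (nat_lit 36) (nat_lit 4) (nat_lit 344) (nat_lit 285) (nat_lit 271)) (XT.lf (nat_lit 0) (nat_lit 2285029765) (nat_lit 228) (nat_lit 2796551480) (nat_lit 76) (nat_lit 8626850195) (nat_lit 33) (nat_lit 5) (nat_lit 36) (nat_lit 5) (nat_lit 34) (nat_lit 4) (nat_lit 345) (nat_lit 285) (nat_lit 270)))) (XT.nd (nat_lit 78) (nat_lit 228) (nat_lit 0) (XT.lf (nat_lit 0) (nat_lit 6315342930) (nat_lit 76) (nat_lit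 575572741) (nat_lit 152) (nat_lit 7242521366) (nat_lit 32) (nat_lit 5) (nat_lit 33) (nat_lit 5) (nat_lit 34) (nat_lit 4) (nat_lit 346) (nat_lit 285) (nat_lit 269)) (XT.nd (nat_lit 78) (nat_lit 76) (nat_lit 0) (XT.lf (nat_lit 0) (nat_lit 1153939412) (nat_lit 152) (nat_lit 10581952143) (nat_lit 152) (nat_lit 2843396494) (nat_lit 30) (nat_lit 4) (nat_lit 32) (nat_lit 5) (nat_lit 32) (nat_lit 4) (nat_lit 347) (nat_lit 285) (nat_lit 268)) (XT.lf (nat_lit 0) (nat_lit 1741066917) (nat_lit 228) (nat_lit 4454583194) (nat_lit 76) (nat_lit 8849316236) (nat_lit 29) (nat_lit 5) (nat_lit 32) (nat_lit 5) (nat_lit 30) (nat_lit 4) (nat_lit 348) (nat_lit 285) (nat_lit 267)))))) (XT.nd (nat_lit 468) (nat_lit 380) (nat_lit 0) (XT.nd (nat_lit 234) (nat_lit 228) (nat_lit 0) (XT.nd (nat_lit 78) (nat_lit 152) (nat_lit 0) (XT.lf (nat_lit 0) (nat_lit 4863834495) (nat_lit 76) (nat_lit 1555305963) (nat_lit 152) (nat_lit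 9114490426) (nat_lit 28) (nat_lit 5) (nat_lit 29) (nat_lit 5) (nat_lit 30) (nat_lit 4) (nat_lit 349) (nat_lit 285) (nat_lit 266)) (XT.nd (nat_lit 78) (nat_lit 152) (nat_lit 0) (XT.lf (nat_lit 0) (nat_lit 11344437797) (nat_lit 152) (nat_lit 1503979215) (nat_lit 0) (nat_lit 3197674359) (nat_lit 28) (nat_lit 5) (nat_lit 30) (nat_lit 4) (nat_lit 28) (nat_lit 4) (nat_lit 350) (nat_lit 285) (nat_lit 265)) (XT.lf (nat_lit 0) (nat_lit 8154853998) (nat_lit 152) (nat_lit 8404300410) (nat_lit 152) (nat_lit 22890111) (nat_lit 26) (nat_lit 4) (nat_lit 28) (nat_lit 5) (nat_lit 28) (nat_lit 4) (nat_lit 351) (nat_lit 285) (nat_lit 264)))) (XT.nd (nat_lit 78) (nat_lit 76) (nat_lit 0) (XT.lf (nat_lit 0) (nat_lit 958038864) (nat_lit 76) (nat_lit 3706801312) (nat_lit 152) (nat_lit 12479586124) (nat_lit 24) (nat_lit 5) (nat_lit 25) (nat_lit 5) (nat_lit 26) (nat_lit 4) (nat_lit 352) (nat_lit 285) (nat_lit 263))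 (XT.nd (nat_lit 78) (nat_lit 76) (nat_lit 0) (XT.lf (nat_lit 0) (nat_lit 9641766091) (nat_lit 152) (nat_lit 6846444864) (nat_lit 0) (nat_lit 1243942168) (nat_lit 24) (nat_lit 5) (nat_lit 26) (nat_lit 4) (nat_lit 24) (nat_lit 4) (nat_lit 353) (nat_lit 285) (nat_lit 262)) (XT.lf (nat_lit 0) (nat_lit 2796955407) (nat_lit 76) (nat_lit 12071576103) (nat_lit 76) (nat_lit 3480707627) (nat_lit 23) (nat_lit 4) (nat_lit 24) (nat_lit 5) (nat_lit 24) (nat_lit 4) (nat_lit 354) (nat_lit 285) (nat_lit 261))))) (XT.nd (nat_lit 234) (nat_lit 228) (nat_lit 0) (XT.nd (nat_lit 78) (nat_lit 76) (nat_lit 0) (XT.lf (nat_lit 0) (nat_lit 1330638808) (nat_lit 152) (nat_lit 6046910873) (nat_lit 76) (nat_lit 11617854232) (nat_lit 22) (nat_lit 5) (nat_lit 24) (nat_lit 5) (nat_lit 23) (nat_lit 4) (nat_lit 355) (nat_lit 285) (nat_lit 260)) (XT.nd (nat_lit 78) (nat_lit 0) (nat_lit 0) (XT.lf (nat_lit 0) (nat_lit 3815334945)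 (nat_lit 76) (nat_lit 2411568701) (nat_lit 152) (nat_lit 13446073403) (nat_lit 21) (nat_lit 5) (nat_lit 22) (nat_lit 5) (nat_lit 23) (nat_lit 4) (nat_lit 356) (nat_lit 285) (nat_lit 259)) (XT.lf (nat_lit 0) (nat_lit 11418130765) (nat_lit 152) (nat_lit 6228132354) (nat_lit 0) (nat_lit 2735676790) (nat_lit 21) (nat_lit 5) (nat_lit 23) (nat_lit 4) (nat_lit 21) (nat_lit 4) (nat_lit 357) (nat_lit 285) (nat_lit 258)))) (XT.nd (nat_lit 156) (nat_lit 76) (nat_lit 0) (XT.nd (nat_lit 78) (nat_lit 76) (nat_lit 0) (XT.lf (nat_lit 0) (nat_lit 3789349398) (nat_lit 76) (nat_lit 13085222963) (nat_lit 76) (nat_lit 4251513529) (nat_lit 20) (nat_lit 4) (nat_lit 21) (nat_lit 5) (nat_lit 21) (nat_lit 4) (nat_lit 358) (nat_lit 285) (nat_lit 257)) (XT.lf (nat_lit 0) (nat_lit 688495741) (nat_lit 152) (nat_lit 7566345980) (nat_lit 76) (nat_lit 13651350414) (nat_lit 19) (nat_lit 5) (nat_lit 21) (nat_lit 5) (nat_lit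 20) (nat_lit 4) (nat_lit 359) (nat_lit 285) (nat_lit 256))) (XT.nd (nat_lit 78) (nat_lit 0) (nat_lit 0) (XT.lf (nat_lit 0) (nat_lit 2536911031) (nat_lit 76) (nat_lit 3146926257) (nat_lit 152) (nat_lit 17040436266) (nat_lit 18) (nat_lit 5) (nat_lit 19) (nat_lit 5) (nat_lit 20) (nat_lit 4) (nat_lit 360) (nat_lit 285) (nat_lit 255)) (XT.lf (nat_lit 0) (nat_lit 11005821180) (nat_lit 152) (nat_lit 10373135585) (nat_lit 0) (nat_lit 2200473025) (nat_lit 18) (nat_lit 5) (nat_lit 20) (nat_lit 4) (nat_lit 18) (nat_lit 4) (nat_lit 361) (nat_lit 285) (nat_lit 254))))))) (XT.nd (nat_lit 936) (nat_lit 380) (nat_lit 0) (XT.nd (nat_lit 468) (nat_lit 228) (nat_lit 0) (XT.nd (nat_lit 234) (nat_lit 76) (nat_lit 0) (XT.nd (nat_lit 78) (nat_lit 152) (nat_lit 0) (XT.lf (nat_lit 0) (nat_lit 16561713129) (nat_lit 152) (nat_lit 279401718) (nat_lit 0) (nat_lit 7637852364) (nat_lit 18) (nat_lit 5) (nat_lit 20) (nat_lit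 4) (nat_lit 18) (nat_lit 4) (nat_lit 362) (nat_lit 285) (nat_lit 253)) (XT.nd (nat_lit 78) (nat_lit 76) (nat_lit 0) (XT.lf (nat_lit 0) (nat_lit 10503171185) (nat_lit 76) (nat_lit 11976421864) (nat_lit 76) (nat_lit 2939691947) (nat_lit 17) (nat_lit 4) (nat_lit 18) (nat_lit 5) (nat_lit 18) (nat_lit 4) (nat_lit 363) (nat_lit 285) (nat_lit 252)) (XT.lf (nat_lit 0) (nat_lit 2138745166) (nat_lit 152) (nat_lit 4759796754) (nat_lit 76) (nat_lit 19510044204) (nat_lit 16) (nat_lit 5) (nat_lit 18) (nat_lit 5) (nat_lit 17) (nat_lit 4) (nat_lit 364) (nat_lit 285) (nat_lit 251)))) (XT.nd (nat_lit 78) (nat_lit 0) (nat_lit 0) (XT.lf (nat_lit 0) (nat_lit 5900022541) (nat_lit 76) (nat_lit 1488573817) (nat_lit 152) (nat_lit 20055543479) (nat_lit 15) (nat_lit 5) (nat_lit 16) (nat_lit 5) (nat_lit 17) (nat_lit 4) (nat_lit 365) (nat_lit 285) (nat_lit 250)) (XT.nd (nat_lit 78) (nat_lit 0) (nat_lit 0) (XT.lf (nat_lit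 0) (nat_lit 12972807357) (nat_lit 152) (nat_lit 11481417425) (nat_lit 0) (nat_lit 4073663917) (nat_lit 15) (nat_lit 5) (nat_lit 17) (nat_lit 4) (nat_lit 15) (nat_lit 4) (nat_lit 366) (nat_lit 285) (nat_lit 249)) (XT.lf (nat_lit 0) (nat_lit 18788716637) (nat_lit 152) (nat_lit 1078357030) (nat_lit 0) (nat_lit 9801137263) (nat_lit 15) (nat_lit 5) (nat_lit 17) (nat_lit 4) (nat_lit 15) (nat_lit 4) (nat_lit 367) (nat_lit 285) (nat_lit 248))))) (XT.nd (nat_lit 234) (nat_lit 0) (nat_lit 0) (XT.nd (nat_lit 78) (nat_lit 152) (nat_lit 0) (XT.lf (nat_lit 0) (nat_lit 10034231976) (nat_lit 76) (nat_lit 14949361297) (nat_lit 76) (nat_lit 5877557224) (nat_lit 14) (nat_lit 4) (nat_lit 15) (nat_lit 5) (nat_lit 15) (nat_lit 4) (nat_lit 368) (nat_lit 285) (nat_lit 247)) (XT.nd (nat_lit 78) (nat_lit 152) (nat_lit 0) (XT.lf (nat_lit 0) (nat_lit 21610231584) (nat_lit 76) (nat_lit 9828991216) (nat_lit 76) (nat_lit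 676973144) (nat_lit 14) (nat_lit 4) (nat_lit 15) (nat_lit 5) (nat_lit 15) (nat_lit 4) (nat_lit 369) (nat_lit 285) (nat_lit 246)) (XT.lf (nat_lit 0) (nat_lit 135029126) (nat_lit 76) (nat_lit 4432503304) (nat_lit 152) (nat_lit 28865885481) (nat_lit 12) (nat_lit 5) (nat_lit 13) (nat_lit 5) (nat_lit 14) (nat_lit 4) (nat_lit 370) (nat_lit 285) (nat_lit 245)))) (XT.nd (nat_lit 78) (nat_lit 0) (nat_lit 0) (XT.lf (nat_lit 0) (nat_lit 10186745289) (nat_lit 152) (nat_lit 23293957963) (nat_lit 0) (nat_lit 1328489271) (nat_lit 12) (nat_lit 5) (nat_lit 14) (nat_lit 4) (nat_lit 12) (nat_lit 4) (nat_lit 371) (nat_lit 285) (nat_lit 244)) (XT.nd (nat_lit 78) (nat_lit 0) (nat_lit 0) (XT.lf (nat_lit 0) (nat_lit 16097801022) (nat_lit 152) (nat_lit 12981865678) (nat_lit 0) (nat_lit 7173552749) (nat_lit 12) (nat_lit 5) (nat_lit 14) (nat_lit 4) (nat_lit 12) (nat_lit 4) (nat_lit 372) (nat_lit 285) (nat_lit 243))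 (XT.lf (nat_lit 0) (nat_lit 22245569773) (nat_lit 152) (nat_lit 2268355533) (nat_lit 0) (nat_lit 13258471732) (nat_lit 12) (nat_lit 5) (nat_lit 14) (nat_lit 4) (nat_lit 12) (nat_lit 4) (nat_lit 373) (nat_lit 285) (nat_lit 242)))))) (XT.nd (nat_lit 468) (nat_lit 152) (nat_lit 0) (XT.nd (nat_lit 234) (nat_lit 152) (nat_lit 0) (XT.nd (nat_lit 78) (nat_lit 0) (nat_lit 0) (XT.lf (nat_lit 0) (nat_lit 9165431889) (nat_lit 76) (nat_lit 19622355274) (nat_lit 76) (nat_lit 10575400312) (nat_lit 11) (nat_lit 4) (nat_lit 12) (nat_lit 5) (nat_lit 12) (nat_lit 4) (nat_lit 374) (nat_lit 285) (nat_lit 241)) (XT.nd (nat_lit 78) (nat_lit 0) (nat_lit 0) (XT.lf (nat_lit 0) (nat_lit 21142665598) (nat_lit 76) (nat_lit 14497825623) (nat_lit 76) (nat_lit 5393864070) (nat_lit 11) (nat_lit 4) (nat_lit 12) (nat_lit 5) (nat_lit 12) (nat_lit 4) (nat_lit 375) (nat_lit 285) (nat_lit 240)) (XT.lf (nat_lit 0) (nat_lit 33616860737)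 (nat_lit 76) (nat_lit 9166550792) (nat_lit 76) (nat_lit 8297247) (nat_lit 11) (nat_lit 4) (nat_lit 12) (nat_lit 5) (nat_lit 12) (nat_lit 4) (nat_lit 376) (nat_lit 285) (nat_lit 239)))) (XT.nd (nat_lit 78) (nat_lit 0) (nat_lit 0) (XT.lf (nat_lit 0) (nat_lit 1953468934) (nat_lit 76) (nat_lit 3492106255) (nat_lit 152) (nat_lit 39187964962) (nat_lit 9) (nat_lit 5) (nat_lit 10) (nat_lit 5) (nat_lit 11) (nat_lit 4) (nat_lit 377) (nat_lit 285) (nat_lit 238)) (XT.nd (nat_lit 78) (nat_lit 0) (nat_lit 0) (XT.lf (nat_lit 0) (nat_lit 11317706732) (nat_lit 152) (nat_lit 32743046217) (nat_lit 0) (nat_lit 2499416597) (nat_lit 9) (nat_lit 5) (nat_lit 11) (nat_lit 4) (nat_lit 9) (nat_lit 4) (nat_lit 378) (nat_lit 285) (nat_lit 237)) (XT.lf (nat_lit 0) (nat_lit 17492515826) (nat_lit 152) (nat_lit 22460606709) (nat_lit 0) (nat_lit 8629559535) (nat_lit 9) (nat_lit 5) (nat_lit 11) (nat_lit 4) (nat_lit 9) (nat_lit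 4) (nat_lit 379) (nat_lit 285) (nat_lit 236))))) (XT.nd (nat_lit 234) (nat_lit 76) (nat_lit 0) (XT.nd (nat_lit 78) (nat_lit 76) (nat_lit 0) (XT.lf (nat_lit 0) (nat_lit 23930182834) (nat_lit 152) (nat_lit 11753749127) (nat_lit 0) (nat_lit 15024687347) (nat_lit 9) (nat_lit 5) (nat_lit 11) (nat_lit 4) (nat_lit 9) (nat_lit 4) (nat_lit 380) (nat_lit 285) (nat_lit 235)) (XT.nd (nat_lit 78) (nat_lit 76) (nat_lit 0) (XT.lf (nat_lit 0) (nat_lit 30646035534) (nat_lit 152) (nat_lit 596980954) (nat_lit 0) (nat_lit 21700026526) (nat_lit 9) (nat_lit 5) (nat_lit 11) (nat_lit 4) (nat_lit 9) (nat_lit 4) (nat_lit 381) (nat_lit 285) (nat_lit 234)) (XT.lf (nat_lit 0) (nat_lit 11401170191) (nat_lit 76) (nat_lit 26432898078) (nat_lit 76) (nat_lit 17448304765) (nat_lit 8) (nat_lit 4) (nat_lit 9) (nat_lit 5) (nat_lit 9) (nat_lit 4) (nat_lit 382) (nat_lit 285) (nat_lit 233)))) (XT.nd (nat_lit 156) (nat_lit 76)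 (nat_lit 0) (XT.nd (nat_lit 78) (nat_lit 0) (nat_lit 0) (XT.lf (nat_lit 0) (nat_lit 23939902964) (nat_lit 76) (nat_lit 21410824941) (nat_lit 76) (nat_lit 12389484671) (nat_lit 8) (nat_lit 4) (nat_lit 9) (nat_lit 5) (nat_lit 9) (nat_lit 4) (nat_lit 383) (nat_lit 285) (nat_lit 232)) (XT.lf (nat_lit 0) (nat_lit 37029332605) (nat_lit 76) (nat_lit 16174949921) (nat_lit 76) (nat_lit 7118612550) (nat_lit 8) (nat_lit 4) (nat_lit 9) (nat_lit 5) (nat_lit 9) (nat_lit 4) (nat_lit 384) (nat_lit 285) (nat_lit 231))) (XT.nd (nat_lit 78) (nat_lit 76) (nat_lit 0) (XT.lf (nat_lit 0) (nat_lit 50700624422) (nat_lit 76) (nat_lit 10712806650) (nat_lit 76) (nat_lit 1623138705) (nat_lit 8) (nat_lit 4) (nat_lit 9) (nat_lit 5) (nat_lit 9) (nat_lit 4) (nat_lit 385) (nat_lit 285) (nat_lit 230)) (XT.lf (nat_lit 0) (nat_lit 3978474973) (nat_lit 152) (nat_lit 965537653) (nat_lit 76) (nat_lit 60940476738) (nat_lit 7)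 (nat_lit 5) (nat_lit 9) (nat_lit 5) (nat_lit 8) (nat_lit 4) (nat_lit 386) (nat_lit 285) (nat_lit 229))))))))
noncomputable def xc64 : XT := (XT.nd (nat_lit 1872) (nat_lit 76) (nat_lit 0) (XT.nd (nat_lit 936) (nat_lit 152) (nat_lit 0) (XT.nd (nat_lit 468) (nat_lit 76) (nat_lit 0) (XT.nd (nat_lit 234) (nat_lit 0) (nat_lit 0) (XT.nd (nat_lit 78) (nat_lit 0) (nat_lit 0) (XT.lf (nat_lit 0) (nat_lit 9967092083) (nat_lit 152) (nat_lit 57647070766) (nat_lit 0) (nat_lit 1251241453) (nat_lit 6) (nat_lit 5) (nat_lit 8) (nat_lit 4) (nat_lit 6) (nat_lit 4) (nat_lit 387) (nat_lit 285) (nat_lit 228)) (XT.nd (nat_lit 78) (nat_lit 0) (nat_lit 0) (XT.lf (nat_lit 0) (nat_lit 16318712874) (nat_lit 152) (nat_lit 48098035571) (nat_lit 0) (nat_lit 7575441099) (nat_lit 6) (nat_lit 5) (nat_lit 8) (nat_lit 4) (nat_lit 6) (nat_lit 4) (nat_lit 388) (nat_lit 285) (nat_lit 227)) (XT.lf (nat_lit 0) (nat_lit 22955441873)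 (nat_lit 152) (nat_lit 38135444139) (nat_lit 0) (nat_lit 14186054722) (nat_lit 6) (nat_lit 5) (nat_lit 8) (nat_lit 4) (nat_lit 6) (nat_lit 4) (nat_lit 389) (nat_lit 285) (nat_lit 226)))) (XT.nd (nat_lit 78) (nat_lit 0) (nat_lit 0) (XT.lf (nat_lit 0) (nat_lit 29893080816) (nat_lit 152) (nat_lit 27735576013) (nat_lit 0) (nat_lit 21098821878) (nat_lit 6) (nat_lit 5) (nat_lit 8) (nat_lit 4) (nat_lit 6) (nat_lit 4) (nat_lit 390) (nat_lit 285) (nat_lit 225)) (XT.nd (nat_lit 78) (nat_lit 0) (nat_lit 0) (XT.lf (nat_lit 0) (nat_lit 37148147892) (nat_lit 152) (nat_lit 16873669604) (nat_lit 0) (nat_lit 28330201537) (nat_lit 6) (nat_lit 5) (nat_lit 8) (nat_lit 4) (nat_lit 6) (nat_lit 4) (nat_lit 391) (nat_lit 285) (nat_lit 224)) (XT.lf (nat_lit 0) (nat_lit 44737917069) (nat_lit 152) (nat_lit 5523863230) (nat_lit 0) (nat_lit 35897411270) (nat_lit 6) (nat_lit 5) (nat_lit 8) (nat_lit 4) (nat_lit 6) (nat_lit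 4) (nat_lit 392) (nat_lit 285) (nat_lit 223))))) (XT.nd (nat_lit 234) (nat_lit 0) (nat_lit 0) (XT.nd (nat_lit 78) (nat_lit 0) (nat_lit 0) (XT.lf (nat_lit 0) (nat_lit 6550524139) (nat_lit 76) (nat_lit 46232207126) (nat_lit 76) (nat_lit 37370216143) (nat_lit 5) (nat_lit 4) (nat_lit 6) (nat_lit 5) (nat_lit 6) (nat_lit 4) (nat_lit 393) (nat_lit 285) (nat_lit 222)) (XT.nd (nat_lit 78) (nat_lit 0) (nat_lit 0) (XT.lf (nat_lit 0) (nat_lit 19368687786) (nat_lit 76) (nat_lit 41928396889) (nat_lit 76) (nat_lit 33045943824) (nat_lit 5) (nat_lit 4) (nat_lit 6) (nat_lit 5) (nat_lit 6) (nat_lit 4) (nat_lit 394) (nat_lit 285) (nat_lit 221)) (XT.lf (nat_lit 0) (nat_lit 32778503283) (nat_lit 76) (nat_lit 37433651716) (nat_lit 76) (nat_lit 28531710956) (nat_lit 5) (nat_lit 4) (nat_lit 6) (nat_lit 5) (nat_lit 6) (nat_lit 4) (nat_lit 395) (nat_lit 285) (nat_lit 220)))) (XT.nd (nat_lit 78) (nat_lit 0) (nat_lit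 0) (XT.lf (nat_lit 0) (nat_lit 46811898761) (nat_lit 76) (nat_lit 32737269835) (nat_lit 76) (nat_lit 23816769365) (nat_lit 5) (nat_lit 4) (nat_lit 6) (nat_lit 5) (nat_lit 6) (nat_lit 4) (nat_lit 396) (nat_lit 285) (nat_lit 219)) (XT.nd (nat_lit 78) (nat_lit 0) (nat_lit 0) (XT.lf (nat_lit 0) (nat_lit 61502287066) (nat_lit 76) (nat_lit 27828069384) (nat_lit 76) (nat_lit 18889892998) (nat_lit 5) (nat_lit 4) (nat_lit 6) (nat_lit 5) (nat_lit 6) (nat_lit 4) (nat_lit 397) (nat_lit 285) (nat_lit 218)) (XT.lf (nat_lit 0) (nat_lit 76884645315) (nat_lit 76) (nat_lit 22694361789) (nat_lit 76) (nat_lit 13739351199) (nat_lit 5) (nat_lit 4) (nat_lit 6) (nat_lit 5) (nat_lit 6) (nat_lit 4) (nat_lit 398) (nat_lit 285) (nat_lit 217)))))) (XT.nd (nat_lit 468) (nat_lit 0) (nat_lit 0) (XT.nd (nat_lit 234) (nat_lit 76) (nat_lit 0) (XT.nd (nat_lit 78) (nat_lit 76) (nat_lit 0) (XT.lf (nat_lit 0) (nat_lit 92995598169)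 (nat_lit 76) (nat_lit 17323923938) (nat_lit 76) (nat_lit 8352880772) (nat_lit 5) (nat_lit 4) (nat_lit 6) (nat_lit 5) (nat_lit 6) (nat_lit 4) (nat_lit 399) (nat_lit 285) (nat_lit 216)) (XT.nd (nat_lit 78) (nat_lit 76) (nat_lit 0) (XT.lf (nat_lit 0) (nat_lit 109873505040) (nat_lit 76) (nat_lit 11703969073) (nat_lit 76) (nat_lit 2717656788) (nat_lit 5) (nat_lit 4) (nat_lit 6) (nat_lit 5) (nat_lit 6) (nat_lit 4) (nat_lit 400) (nat_lit 285) (nat_lit 215)) (XT.lf (nat_lit 0) (nat_lit 3077966480) (nat_lit 152) (nat_lit 2691023018) (nat_lit 76) (nat_lit 124428458088) (nat_lit 4) (nat_lit 5) (nat_lit 6) (nat_lit 5) (nat_lit 5) (nat_lit 4) (nat_lit 401) (nat_lit 285) (nat_lit 214)))) (XT.nd (nat_lit 78) (nat_lit 0) (nat_lit 0) (XT.lf (nat_lit 0) (nat_lit 9218151568) (nat_lit 152) (nat_lit 126534477566) (nat_lit 0) (nat_lit 632719335) (nat_lit 3) (nat_lit 5) (nat_lit 5) (nat_lit 4) (nat_lit 3) (nat_lit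 4) (nat_lit 402) (nat_lit 285) (nat_lit 213)) (XT.nd (nat_lit 78) (nat_lit 0) (nat_lit 0) (XT.lf (nat_lit 0) (nat_lit 15788223264) (nat_lit 152) (nat_lit 119898049641) (nat_lit 0) (nat_lit 7190229088) (nat_lit 3) (nat_lit 5) (nat_lit 5) (nat_lit 4) (nat_lit 3) (nat_lit 4) (nat_lit 403) (nat_lit 285) (nat_lit 212)) (XT.lf (nat_lit 0) (nat_lit 22669639370) (nat_lit 152) (nat_lit 112963751738) (nat_lit 0) (nat_lit 14059681439) (nat_lit 3) (nat_lit 5) (nat_lit 5) (nat_lit 4) (nat_lit 3) (nat_lit 4) (nat_lit 404) (nat_lit 285) (nat_lit 211))))) (XT.nd (nat_lit 234) (nat_lit 0) (nat_lit 0) (XT.nd (nat_lit 78) (nat_lit 0) (nat_lit 0) (XT.lf (nat_lit 0) (nat_lit 29878784210) (nat_lit 152) (nat_lit 105715073624) (nat_lit 0) (nat_lit 21257432226) (nat_lit 3) (nat_lit 5) (nat_lit 5) (nat_lit 4) (nat_lit 3) (nat_lit 4) (nat_lit 405) (nat_lit 285) (nat_lit 210)) (XT.nd (nat_lit 78) (nat_lit 0) (nat_lit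 0) (XT.lf (nat_lit 0) (nat_lit 37432822414) (nat_lit 152) (nat_lit 98134756542) (nat_lit 0) (nat_lit 28800618953) (nat_lit 3) (nat_lit 5) (nat_lit 5) (nat_lit 4) (nat_lit 3) (nat_lit 4) (nat_lit 406) (nat_lit 285) (nat_lit 209)) (XT.lf (nat_lit 0) (nat_lit 45349739789) (nat_lit 152) (nat_lit 90204752117) (nat_lit 0) (nat_lit 36707201586) (nat_lit 3) (nat_lit 5) (nat_lit 5) (nat_lit 4) (nat_lit 3) (nat_lit 4) (nat_lit 407) (nat_lit 285) (nat_lit 208)))) (XT.nd (nat_lit 78) (nat_lit 0) (nat_lit 0) (XT.lf (nat_lit 0) (nat_lit 53648386137) (nat_lit 152) (nat_lit 81906179386) (nat_lit 0) (nat_lit 44996005323) (nat_lit 3) (nat_lit 5) (nat_lit 5) (nat_lit 4) (nat_lit 3) (nat_lit 4) (nat_lit 408) (nat_lit 285) (nat_lit 207)) (XT.nd (nat_lit 78) (nat_lit 0) (nat_lit 0) (XT.lf (nat_lit 0) (nat_lit 62348520139) (nat_lit 152) (nat_lit 73219279844) (nat_lit 0) (nat_lit 53686765411) (nat_lit 3) (nat_lit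 5) (nat_lit 5) (nat_lit 4) (nat_lit 3) (nat_lit 4) (nat_lit 409) (nat_lit 285) (nat_lit 206)) (XT.lf (nat_lit 0) (nat_lit 71470856402) (nat_lit 152) (nat_lit 64123370396) (nat_lit 0) (nat_lit 62800174135) (nat_lit 3) (nat_lit 5) (nat_lit 5) (nat_lit 4) (nat_lit 3) (nat_lit 4) (nat_lit 410) (nat_lit 285) (nat_lit 205))))))) (XT.nd (nat_lit 936) (nat_lit 0) (nat_lit 0) (XT.nd (nat_lit 468) (nat_lit 0) (nat_lit 0) (XT.nd (nat_lit 234) (nat_lit 76) (nat_lit 0) (XT.nd (nat_lit 78) (nat_lit 0) (nat_lit 0) (XT.lf (nat_lit 0) (nat_lit 81037114772) (nat_lit 152) (nat_lit 54596794114) (nat_lit 0) (nat_lit 72357930088) (nat_lit 3) (nat_lit 5) (nat_lit 5) (nat_lit 4) (nat_lit 3) (nat_lit 4) (nat_lit 411) (nat_lit 285) (nat_lit 204)) (XT.nd (nat_lit 78) (nat_lit 0) (nat_lit 0) (XT.lf (nat_lit 0) (nat_lit 91070072056) (nat_lit 152) (nat_lit 44616868675) (nat_lit 0) (nat_lit 82382789832) (nat_lit 3) (nat_lit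 5) (nat_lit 5) (nat_lit 4) (nat_lit 3) (nat_lit 4) (nat_lit 412) (nat_lit 285) (nat_lit 203)) (XT.lf (nat_lit 0) (nat_lit 101593616247) (nat_lit 152) (nat_lit 34159832351) (nat_lit 0) (nat_lit 92898622080) (nat_lit 3) (nat_lit 5) (nat_lit 5) (nat_lit 4) (nat_lit 3) (nat_lit 4) (nat_lit 413) (nat_lit 285) (nat_lit 202)))) (XT.nd (nat_lit 78) (nat_lit 76) (nat_lit 0) (XT.lf (nat_lit 0) (nat_lit 112632803403) (nat_lit 152) (nat_lit 23200787436) (nat_lit 0) (nat_lit 103930464528) (nat_lit 3) (nat_lit 5) (nat_lit 5) (nat_lit 4) (nat_lit 3) (nat_lit 4) (nat_lit 414) (nat_lit 285) (nat_lit 201)) (XT.nd (nat_lit 78) (nat_lit 76) (nat_lit 0) (XT.lf (nat_lit 0) (nat_lit 124213917303) (nat_lit 152) (nat_lit 11713640966) (nat_lit 0) (nat_lit 115504583469) (nat_lit 3) (nat_lit 5) (nat_lit 5) (nat_lit 4) (nat_lit 3) (nat_lit 4) (nat_lit 415) (nat_lit 285) (nat_lit 200)) (XT.lf (nat_lit 0) (nat_lit 339834223)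 (nat_lit 76) (nat_lit 136030003568) (nat_lit 76) (nat_lit 127314007867) (nat_lit 2) (nat_lit 4) (nat_lit 3) (nat_lit 5) (nat_lit 3) (nat_lit 4) (nat_lit 416) (nat_lit 285) (nat_lit 199))))) (XT.nd (nat_lit 234) (nat_lit 0) (nat_lit 0) (XT.nd (nat_lit 78) (nat_lit 0) (nat_lit 0) (XT.lf (nat_lit 0) (nat_lit 13384053843) (nat_lit 76) (nat_lit 135938486356) (nat_lit 76) (nat_lit 127216146021) (nat_lit 2) (nat_lit 4) (nat_lit 3) (nat_lit 5) (nat_lit 3) (nat_lit 4) (nat_lit 417) (nat_lit 285) (nat_lit 198)) (XT.nd (nat_lit 78) (nat_lit 0) (nat_lit 0) (XT.lf (nat_lit 0) (nat_lit 27062769688) (nat_lit 76) (nat_lit 135851164914) (nat_lit 76) (nat_lit 127122782069) (nat_lit 2) (nat_lit 4) (nat_lit 3) (nat_lit 5) (nat_lit 3) (nat_lit 4) (nat_lit 418) (nat_lit 285) (nat_lit 197)) (XT.lf (nat_lit 0) (nat_lit 41408550129) (nat_lit 76) (nat_lit 135767831333) (nat_lit 76) (nat_lit 127033693717) (nat_lit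 2) (nat_lit 4) (nat_lit 3) (nat_lit 5) (nat_lit 3) (nat_lit 4) (nat_lit 419) (nat_lit 285) (nat_lit 196)))) (XT.nd (nat_lit 78) (nat_lit 0) (nat_lit 0) (XT.lf (nat_lit 0) (nat_lit 56455551786) (nat_lit 76) (nat_lit 135688287199) (nat_lit 76) (nat_lit 126948668850) (nat_lit 2) (nat_lit 4) (nat_lit 3) (nat_lit 5) (nat_lit 3) (nat_lit 4) (nat_lit 420) (nat_lit 285) (nat_lit 195)) (XT.nd (nat_lit 78) (nat_lit 0) (nat_lit 0) (XT.lf (nat_lit 0) (nat_lit 72239600853) (nat_lit 76) (nat_lit 135612343123) (nat_lit 76) (nat_lit 126867505027) (nat_lit 2) (nat_lit 4) (nat_lit 3) (nat_lit 5) (nat_lit 3) (nat_lit 4) (nat_lit 421) (nat_lit 285) (nat_lit 194)) (XT.lf (nat_lit 0) (nat_lit 88798278400) (nat_lit 76) (nat_lit 135539818284) (nat_lit 76) (nat_lit 126790009001) (nat_lit 2) (nat_lit 4) (nat_lit 3) (nat_lit 5) (nat_lit 3) (nat_lit 4) (nat_lit 422) (nat_lit 285) (nat_lit 193)))))) (XT.nd (nat_lit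 468) (nat_lit 0) (nat_lit 0) (XT.nd (nat_lit 234) (nat_lit 0) (nat_lit 0) (XT.nd (nat_lit 78) (nat_lit 0) (nat_lit 0) (XT.lf (nat_lit 0) (nat_lit 106171009849) (nat_lit 76) (nat_lit 135470540005) (nat_lit 76) (nat_lit 126715996258) (nat_lit 2) (nat_lit 4) (nat_lit 3) (nat_lit 5) (nat_lit 3) (nat_lit 4) (nat_lit 423) (nat_lit 285) (nat_lit 192)) (XT.nd (nat_lit 78) (nat_lit 0) (nat_lit 0) (XT.lf (nat_lit 0) (nat_lit 124399158846) (nat_lit 76) (nat_lit 135404343337) (nat_lit 76) (nat_lit 126645290577) (nat_lit 2) (nat_lit 4) (nat_lit 3) (nat_lit 5) (nat_lit 3) (nat_lit 4) (nat_lit 424) (nat_lit 285) (nat_lit 191)) (XT.lf (nat_lit 0) (nat_lit 143526125748) (nat_lit 76) (nat_lit 135341070670) (nat_lit 76) (nat_lit 126577723611) (nat_lit 2) (nat_lit 4) (nat_lit 3) (nat_lit 5) (nat_lit 3) (nat_lit 4) (nat_lit 425) (nat_lit 285) (nat_lit 190)))) (XT.nd (nat_lit 78) (nat_lit 0) (nat_lit 0) (XT.lf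 (nat_lit 0) (nat_lit 163597450950) (nat_lit 76) (nat_lit 135280571354) (nat_lit 76) (nat_lit 126513134487) (nat_lit 2) (nat_lit 4) (nat_lit 3) (nat_lit 5) (nat_lit 3) (nat_lit 4) (nat_lit 426) (nat_lit 285) (nat_lit 189)) (XT.nd (nat_lit 78) (nat_lit 0) (nat_lit 0) (XT.lf (nat_lit 0) (nat_lit 184660923322) (nat_lit 76) (nat_lit 135222701342) (nat_lit 76) (nat_lit 126451369420) (nat_lit 2) (nat_lit 4) (nat_lit 3) (nat_lit 5) (nat_lit 3) (nat_lit 4) (nat_lit 427) (nat_lit 285) (nat_lit 188)) (XT.lf (nat_lit 0) (nat_lit 206766693989) (nat_lit 76) (nat_lit 135167322850) (nat_lit 76) (nat_lit 126392281351) (nat_lit 2) (nat_lit 4) (nat_lit 3) (nat_lit 5) (nat_lit 3) (nat_lit 4) (nat_lit 428) (nat_lit 285) (nat_lit 187))))) (XT.nd (nat_lit 234) (nat_lit 0) (nat_lit 0) (XT.nd (nat_lit 78) (nat_lit 0) (nat_lit 0) (XT.lf (nat_lit 0) (nat_lit 229967395739) (nat_lit 76) (nat_lit 135114304024) (nat_lit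 76) (nat_lit 126335729595) (nat_lit 2) (nat_lit 4) (nat_lit 3) (nat_lit 5) (nat_lit 3) (nat_lit 4) (nat_lit 429) (nat_lit 285) (nat_lit 186)) (XT.nd (nat_lit 78) (nat_lit 0) (nat_lit 0) (XT.lf (nat_lit 0) (nat_lit 254318268337) (nat_lit 76) (nat_lit 135063518628) (nat_lit 76) (nat_lit 126281579504) (nat_lit 2) (nat_lit 4) (nat_lit 3) (nat_lit 5) (nat_lit 3) (nat_lit 4) (nat_lit 430) (nat_lit 285) (nat_lit 185)) (XT.lf (nat_lit 0) (nat_lit 279877290052) (nat_lit 76) (nat_lit 135014845745) (nat_lit 76) (nat_lit 126229702149) (nat_lit 2) (nat_lit 4) (nat_lit 3) (nat_lit 5) (nat_lit 3) (nat_lit 4) (nat_lit 431) (nat_lit 285) (nat_lit 184)))) (XT.nd (nat_lit 156) (nat_lit 0) (nat_lit 0) (XT.nd (nat_lit 78) (nat_lit 0) (nat_lit 0) (XT.lf (nat_lit 0) (nat_lit 306705315696) (nat_lit 76) (nat_lit 134968169487) (nat_lit 76) (nat_lit 126179974013) (nat_lit 2) (nat_lit 4) (nat_lit 3) (nat_lit 5) (nat_lit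 3) (nat_lit 4) (nat_lit 432) (nat_lit 285) (nat_lit 183)) (XT.lf (nat_lit 0) (nat_lit 334866221523) (nat_lit 76) (nat_lit 134923378720) (nat_lit 76) (nat_lit 126132276696) (nat_lit 2) (nat_lit 4) (nat_lit 3) (nat_lit 5) (nat_lit 3) (nat_lit 4) (nat_lit 433) (nat_lit 285) (nat_lit 182))) (XT.nd (nat_lit 78) (nat_lit 0) (nat_lit 0) (XT.lf (nat_lit 0) (nat_lit 364427057306) (nat_lit 76) (nat_lit 134880366799) (nat_lit 76) (nat_lit 126086496633) (nat_lit 2) (nat_lit 4) (nat_lit 3) (nat_lit 5) (nat_lit 3) (nat_lit 4) (nat_lit 434) (nat_lit 285) (nat_lit 181)) (XT.lf (nat_lit 0) (nat_lit 395458205990) (nat_lit 76) (nat_lit 134839031316) (nat_lit 76) (nat_lit 126042524822) (nat_lit 2) (nat_lit 4) (nat_lit 3) (nat_lit 5) (nat_lit 3) (nat_lit 4) (nat_lit 435) (nat_lit 285) (nat_lit 180))))))))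
noncomputable def xc65 : XT := (XT.nd (nat_lit 40014) (nat_lit 0) (nat_lit 760) (XT.nd (nat_lit 39000) (nat_lit 0) (nat_lit 2280) (XT.nd (nat_lit 38532) (nat_lit 0) (nat_lit 3800) (XT.nd (nat_lit 234) (nat_lit 0) (nat_lit 0) (XT.nd (nat_lit 78) (nat_lit 0) (nat_lit 0) (XT.lf (nat_lit 0) (nat_lit 428033551260) (nat_lit 76) (nat_lit 134799273851) (nat_lit 76) (nat_lit 126000256571) (nat_lit 2) (nat_lit 4) (nat_lit 3) (nat_lit 5) (nat_lit 3) (nat_lit 4) (nat_lit 436) (nat_lit 285) (nat_lit 179)) (XT.nd (nat_lit 78) (nat_lit 0) (nat_lit 0) (XT.lf (nat_lit 0) (nat_lit 462230653464) (nat_lit 76) (nat_lit 134760999746) (nat_lit 76) (nat_lit 125959591239) (nat_lit 2) (nat_lit 4) (nat_lit 3) (nat_lit 5) (nat_lit 3) (nat_lit 4) (nat_lit 437) (nat_lit 285) (nat_lit 178)) (XT.lf (nat_lit 0) (nat_lit 498130934272) (nat_lit 76) (nat_lit 134724117870) (nat_lit 76) (nat_lit 125920432005) (nat_lit 2) (nat_lit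 4) (nat_lit 3) (nat_lit 5) (nat_lit 3) (nat_lit 4) (nat_lit 438) (nat_lit 285) (nat_lit 177)))) (XT.nd (nat_lit 78) (nat_lit 0) (nat_lit 0) (XT.lf (nat_lit 0) (nat_lit 535819870545) (nat_lit 76) (nat_lit 134688540410) (nat_lit 76) (nat_lit 125882685632) (nat_lit 2) (nat_lit 4) (nat_lit 3) (nat_lit 5) (nat_lit 3) (nat_lit 4) (nat_lit 439) (nat_lit 285) (nat_lit 176)) (XT.nd (nat_lit 38142) (nat_lit 0) (nat_lit 4864) (XT.lf (nat_lit 0) (nat_lit 575387197843) (nat_lit 76) (nat_lit 134654182657) (nat_lit 76) (nat_lit 125846262249) (nat_lit 2) (nat_lit 4) (nat_lit 3) (nat_lit 5) (nat_lit 3) (nat_lit 4) (nat_lit 440) (nat_lit 285) (nat_lit 175)) (XT.lf (nat_lit 0) (nat_lit 378153435) (nat_lit 228) (nat_lit 2028412241) (nat_lit 228) (nat_lit 2028412241) (nat_lit 66) (nat_lit 4) (nat_lit 69) (nat_lit 5) (nat_lit 69) (nat_lit 4) (nat_lit 328) (nat_lit 286) (nat_lit 286))))) (XT.nd (nat_lit 234)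 (nat_lit 532) (nat_lit 0) (XT.nd (nat_lit 78) (nat_lit 532) (nat_lit 0) (XT.lf (nat_lit 0) (nat_lit 8069081047) (nat_lit 228) (nat_lit 978211612) (nat_lit 228) (nat_lit 12373317) (nat_lit 66) (nat_lit 4) (nat_lit 69) (nat_lit 5) (nat_lit 69) (nat_lit 4) (nat_lit 329) (nat_lit 286) (nat_lit 285)) (XT.nd (nat_lit 78) (nat_lit 228) (nat_lit 0) (XT.lf (nat_lit 0) (nat_lit 4074963112) (nat_lit 304) (nat_lit 2902812541) (nat_lit 0) (nat_lit 2279073312) (nat_lit 62) (nat_lit 5) (nat_lit 66) (nat_lit 4) (nat_lit 62) (nat_lit 4) (nat_lit 330) (nat_lit 286) (nat_lit 284)) (XT.lf (nat_lit 0) (nat_lit 4528178446) (nat_lit 228) (nat_lit 3784351530) (nat_lit 228) (nat_lit 1154134296) (nat_lit 59) (nat_lit 4) (nat_lit 62) (nat_lit 5) (nat_lit 62) (nat_lit 4) (nat_lit 331) (nat_lit 286) (nat_lit 283)))) (XT.nd (nat_lit 78) (nat_lit 304) (nat_lit 0) (XT.lf (nat_lit 0) (nat_lit 2540595625) (nat_lit 152)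 (nat_lit 369360674) (nat_lit 228) (nat_lit 6778033267) (nat_lit 56) (nat_lit 5) (nat_lit 58) (nat_lit 5) (nat_lit 59) (nat_lit 4) (nat_lit 332) (nat_lit 286) (nat_lit 282)) (XT.nd (nat_lit 78) (nat_lit 76) (nat_lit 0) (XT.lf (nat_lit 0) (nat_lit 348060582) (nat_lit 228) (nat_lit 6777283201) (nat_lit 228) (nat_lit 2794831423) (nat_lit 53) (nat_lit 4) (nat_lit 56) (nat_lit 5) (nat_lit 56) (nat_lit 4) (nat_lit 333) (nat_lit 286) (nat_lit 281)) (XT.lf (nat_lit 0) (nat_lit 1319500686) (nat_lit 304) (nat_lit 1963878615) (nat_lit 76) (nat_lit 6880764897) (nat_lit 52) (nat_lit 5) (nat_lit 56) (nat_lit 5) (nat_lit 53) (nat_lit 4) (nat_lit 334) (nat_lit 286) (nat_lit 280)))))) (XT.nd (nat_lit 468) (nat_lit 608) (nat_lit 0) (XT.nd (nat_lit 234) (nat_lit 380) (nat_lit 0) (XT.nd (nat_lit 78) (nat_lit 380) (nat_lit 0) (XT.lf (nat_lit 0) (nat_lit 5499846230) (nat_lit 228) (nat_lit 4489806422) (nat_lit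 0) (nat_lit 430729661) (nat_lit 50) (nat_lit 5) (nat_lit 53) (nat_lit 4) (nat_lit 50) (nat_lit 4) (nat_lit 335) (nat_lit 286) (nat_lit 279)) (XT.nd (nat_lit 78) (nat_lit 228) (nat_lit 0) (XT.lf (nat_lit 0) (nat_lit 3422079637) (nat_lit 152) (nat_lit 6464797951) (nat_lit 152) (nat_lit 802740451) (nat_lit 48) (nat_lit 4) (nat_lit 50) (nat_lit 5) (nat_lit 50) (nat_lit 4) (nat_lit 336) (nat_lit 286) (nat_lit 278)) (XT.lf (nat_lit 0) (nat_lit 647162174) (nat_lit 152) (nat_lit 2705972128) (nat_lit 228) (nat_lit 7619251290) (nat_lit 45) (nat_lit 5) (nat_lit 47) (nat_lit 5) (nat_lit 48) (nat_lit 4) (nat_lit 337) (nat_lit 286) (nat_lit 277)))) (XT.nd (nat_lit 78) (nat_lit 380) (nat_lit 0) (XT.lf (nat_lit 0) (nat_lit 7693553090) (nat_lit 228) (nat_lit 2323855984) (nat_lit 0) (nat_lit 1251097805) (nat_lit 45) (nat_lit 5) (nat_lit 48) (nat_lit 4) (nat_lit 45) (nat_lit 4) (nat_lit 338) (nat_lit 286)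 (nat_lit 276)) (XT.nd (nat_lit 78) (nat_lit 152) (nat_lit 0) (XT.lf (nat_lit 0) (nat_lit 654079248) (nat_lit 228) (nat_lit 5589406795) (nat_lit 76) (nat_lit 5335277374) (nat_lit 42) (nat_lit 5) (nat_lit 45) (nat_lit 5) (nat_lit 43) (nat_lit 4) (nat_lit 339) (nat_lit 286) (nat_lit 275)) (XT.lf (nat_lit 0) (nat_lit 2697768044) (nat_lit 152) (nat_lit 2225462216) (nat_lit 228) (nat_lit 6980983413) (nat_lit 40) (nat_lit 5) (nat_lit 42) (nat_lit 5) (nat_lit 43) (nat_lit 4) (nat_lit 340) (nat_lit 286) (nat_lit 274))))) (XT.nd (nat_lit 234) (nat_lit 304) (nat_lit 0) (XT.nd (nat_lit 78) (nat_lit 304) (nat_lit 0) (XT.lf (nat_lit 0) (nat_lit 9401312713) (nat_lit 228) (nat_lit 907696588) (nat_lit 0) (nat_lit 1937202578) (nat_lit 40) (nat_lit 5) (nat_lit 43) (nat_lit 4) (nat_lit 40) (nat_lit 4) (nat_lit 341) (nat_lit 286) (nat_lit 273)) (XT.nd (nat_lit 78) (nat_lit 76) (nat_lit 0) (XT.lf (nat_lit 0)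 (nat_lit 1483261859) (nat_lit 228) (nat_lit 4824749084) (nat_lit 76) (nat_lit 6294513348) (nat_lit 37) (nat_lit 5) (nat_lit 40) (nat_lit 5) (nat_lit 38) (nat_lit 4) (nat_lit 342) (nat_lit 286) (nat_lit 272)) (XT.lf (nat_lit 0) (nat_lit 3811203983) (nat_lit 76) (nat_lit 2071164255) (nat_lit 152) (nat_lit 7094487416) (nat_lit 36) (nat_lit 5) (nat_lit 37) (nat_lit 5) (nat_lit 38) (nat_lit 4) (nat_lit 343) (nat_lit 286) (nat_lit 271)))) (XT.nd (nat_lit 156) (nat_lit 76) (nat_lit 0) (XT.nd (nat_lit 78) (nat_lit 228) (nat_lit 0) (XT.lf (nat_lit 0) (nat_lit 10497809631) (nat_lit 152) (nat_lit 576091668) (nat_lit 0) (nat_lit 2296223724) (nat_lit 36) (nat_lit 5) (nat_lit 38) (nat_lit 4) (nat_lit 36) (nat_lit 4) (nat_lit 344) (nat_lit 286) (nat_lit 270)) (XT.lf (nat_lit 0) (nat_lit 1560094873) (nat_lit 228) (nat_lit 5333563112) (nat_lit 76) (nat_lit 6885763474) (nat_lit 33) (nat_lit 5) (nat_lit 36)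 (nat_lit 5) (nat_lit 34) (nat_lit 4) (nat_lit 345) (nat_lit 286) (nat_lit 269))) (XT.nd (nat_lit 78) (nat_lit 0) (nat_lit 0) (XT.lf (nat_lit 0) (nat_lit 3589404624) (nat_lit 76) (nat_lit 2476747308) (nat_lit 152) (nat_lit 8143283600) (nat_lit 32) (nat_lit 5) (nat_lit 33) (nat_lit 5) (nat_lit 34) (nat_lit 4) (nat_lit 346) (nat_lit 286) (nat_lit 268)) (XT.lf (nat_lit 0) (nat_lit 10806638869) (nat_lit 152) (nat_lit 1757423093) (nat_lit 0) (nat_lit 2096465250) (nat_lit 32) (nat_lit 5) (nat_lit 34) (nat_lit 4) (nat_lit 32) (nat_lit 4) (nat_lit 347) (nat_lit 286) (nat_lit 267))))))) (XT.nd (nat_lit 936) (nat_lit 608) (nat_lit 0) (XT.nd (nat_lit 468) (nat_lit 304) (nat_lit 0) (XT.nd (nat_lit 234) (nat_lit 304) (nat_lit 0) (XT.nd (nat_lit 78) (nat_lit 76) (nat_lit 0) (XT.lf (nat_lit 0) (nat_lit 677524288) (nat_lit 228) (nat_lit 7592881900) (nat_lit 76) (nat_lit 6860872509) (nat_lit 29) (nat_lit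 5) (nat_lit 32) (nat_lit 5) (nat_lit 30) (nat_lit 4) (nat_lit 348) (nat_lit 286) (nat_lit 266)) (XT.nd (nat_lit 78) (nat_lit 0) (nat_lit 0) (XT.lf (nat_lit 0) (nat_lit 1521008573) (nat_lit 76) (nat_lit 3728510172) (nat_lit 152) (nat_lit 10375742457) (nat_lit 28) (nat_lit 5) (nat_lit 29) (nat_lit 5) (nat_lit 30) (nat_lit 4) (nat_lit 349) (nat_lit 286) (nat_lit 265)) (XT.lf (nat_lit 0) (nat_lit 10087392354) (nat_lit 152) (nat_lit 5002449186) (nat_lit 0) (nat_lit 1052264679) (nat_lit 28) (nat_lit 5) (nat_lit 30) (nat_lit 4) (nat_lit 28) (nat_lit 4) (nat_lit 350) (nat_lit 286) (nat_lit 264)))) (XT.nd (nat_lit 78) (nat_lit 152) (nat_lit 0) (XT.lf (nat_lit 0) (nat_lit 4444345004) (nat_lit 152) (nat_lit 10748885926) (nat_lit 152) (nat_lit 1490285051) (nat_lit 26) (nat_lit 4) (nat_lit 28) (nat_lit 5) (nat_lit 28) (nat_lit 4) (nat_lit 351) (nat_lit 286) (nat_lit 263)) (XT.nd (nat_lit 78) (nat_lit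 76) (nat_lit 0) (XT.lf (nat_lit 0) (nat_lit 3178669312) (nat_lit 228) (nat_lit 2955160403) (nat_lit 76) (nat_lit 11116512170) (nat_lit 25) (nat_lit 5) (nat_lit 28) (nat_lit 5) (nat_lit 26) (nat_lit 4) (nat_lit 352) (nat_lit 286) (nat_lit 262)) (XT.lf (nat_lit 0) (nat_lit 6803906586) (nat_lit 76) (nat_lit 1234159687) (nat_lit 152) (nat_lit 9805889863) (nat_lit 24) (nat_lit 5) (nat_lit 25) (nat_lit 5) (nat_lit 26) (nat_lit 4) (nat_lit 353) (nat_lit 286) (nat_lit 261))))) (XT.nd (nat_lit 234) (nat_lit 152) (nat_lit 0) (XT.nd (nat_lit 78) (nat_lit 152) (nat_lit 0) (XT.lf (nat_lit 0) (nat_lit 13153837853) (nat_lit 152) (nat_lit 1556234998) (nat_lit 0) (nat_lit 3756529445) (nat_lit 24) (nat_lit 5) (nat_lit 26) (nat_lit 4) (nat_lit 24) (nat_lit 4) (nat_lit 354) (nat_lit 286) (nat_lit 260)) (XT.nd (nat_lit 78) (nat_lit 76) (nat_lit 0) (XT.lf (nat_lit 0) (nat_lit 8478487994) (nat_lit 76) (nat_lit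 10105689852) (nat_lit 76) (nat_lit 533284344) (nat_lit 23) (nat_lit 4) (nat_lit 24) (nat_lit 5) (nat_lit 24) (nat_lit 4) (nat_lit 355) (nat_lit 286) (nat_lit 259)) (XT.lf (nat_lit 0) (nat_lit 4274839789) (nat_lit 152) (nat_lit 975743082) (nat_lit 76) (nat_lit 14550138249) (nat_lit 22) (nat_lit 5) (nat_lit 24) (nat_lit 5) (nat_lit 23) (nat_lit 4) (nat_lit 356) (nat_lit 286) (nat_lit 258)))) (XT.nd (nat_lit 78) (nat_lit 76) (nat_lit 0) (XT.lf (nat_lit 0) (nat_lit 9292945458) (nat_lit 76) (nat_lit 68483000) (nat_lit 152) (nat_lit 11153496047) (nat_lit 21) (nat_lit 5) (nat_lit 22) (nat_lit 5) (nat_lit 23) (nat_lit 4) (nat_lit 357) (nat_lit 286) (nat_lit 257)) (XT.nd (nat_lit 78) (nat_lit 76) (nat_lit 0) (XT.lf (nat_lit 0) (nat_lit 14714412856) (nat_lit 152) (nat_lit 1406129009) (nat_lit 0) (nat_lit 5143709675) (nat_lit 21) (nat_lit 5) (nat_lit 23) (nat_lit 4) (nat_lit 21) (nat_lit 4) (nat_lit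 358) (nat_lit 286) (nat_lit 256)) (XT.lf (nat_lit 0) (nat_lit 9029429896) (nat_lit 76) (nat_lit 11363321072) (nat_lit 76) (nat_lit 1655424730) (nat_lit 20) (nat_lit 4) (nat_lit 21) (nat_lit 5) (nat_lit 21) (nat_lit 4) (nat_lit 359) (nat_lit 286) (nat_lit 255)))))) (XT.nd (nat_lit 468) (nat_lit 304) (nat_lit 0) (XT.nd (nat_lit 234) (nat_lit 152) (nat_lit 0) (XT.nd (nat_lit 78) (nat_lit 76) (nat_lit 0) (XT.lf (nat_lit 0) (nat_lit 3312224977) (nat_lit 152) (nat_lit 3048495288) (nat_lit 76) (nat_lit 16510870008) (nat_lit 19) (nat_lit 5) (nat_lit 21) (nat_lit 5) (nat_lit 20) (nat_lit 4) (nat_lit 360) (nat_lit 286) (nat_lit 254)) (XT.nd (nat_lit 78) (nat_lit 0) (nat_lit 0) (XT.lf (nat_lit 0) (nat_lit 7480954122) (nat_lit 76) (nat_lit 1028289221) (nat_lit 152) (nat_lit 15223758182) (nat_lit 18) (nat_lit 5) (nat_lit 19) (nat_lit 5) (nat_lit 20) (nat_lit 4) (nat_lit 361) (nat_lit 286) (nat_lit 253))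 (XT.lf (nat_lit 0) (nat_lit 14010158591) (nat_lit 152) (nat_lit 6216412586) (nat_lit 0) (nat_lit 4408723026) (nat_lit 18) (nat_lit 5) (nat_lit 20) (nat_lit 4) (nat_lit 18) (nat_lit 4) (nat_lit 362) (nat_lit 286) (nat_lit 252)))) (XT.nd (nat_lit 78) (nat_lit 76) (nat_lit 0) (XT.lf (nat_lit 0) (nat_lit 4296898425) (nat_lit 76) (nat_lit 15497173988) (nat_lit 76) (nat_lit 5788243993) (nat_lit 17) (nat_lit 4) (nat_lit 18) (nat_lit 5) (nat_lit 18) (nat_lit 4) (nat_lit 363) (nat_lit 286) (nat_lit 251)) (XT.nd (nat_lit 78) (nat_lit 76) (nat_lit 0) (XT.lf (nat_lit 0) (nat_lit 15409253961) (nat_lit 76) (nat_lit 10488609628) (nat_lit 76) (nat_lit 677303985) (nat_lit 17) (nat_lit 4) (nat_lit 18) (nat_lit 5) (nat_lit 18) (nat_lit 4) (nat_lit 364) (nat_lit 286) (nat_lit 250)) (XT.lf (nat_lit 0) (nat_lit 4466880131) (nat_lit 152) (nat_lit 751701991) (nat_lit 76) (nat_lit 22399040428) (nat_lit 16) (nat_lit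 5) (nat_lit 18) (nat_lit 5) (nat_lit 17) (nat_lit 4) (nat_lit 365) (nat_lit 286) (nat_lit 249))))) (XT.nd (nat_lit 234) (nat_lit 152) (nat_lit 0) (XT.nd (nat_lit 78) (nat_lit 76) (nat_lit 0) (XT.lf (nat_lit 0) (nat_lit 9945451717) (nat_lit 152) (nat_lit 18341149255) (nat_lit 0) (nat_lit 420057440) (nat_lit 15) (nat_lit 5) (nat_lit 17) (nat_lit 4) (nat_lit 15) (nat_lit 4) (nat_lit 366) (nat_lit 286) (nat_lit 248)) (XT.nd (nat_lit 78) (nat_lit 76) (nat_lit 0) (XT.lf (nat_lit 0) (nat_lit 15727950954) (nat_lit 152) (nat_lit 8002373004) (nat_lit 0) (nat_lit 6118331978) (nat_lit 15) (nat_lit 5) (nat_lit 17) (nat_lit 4) (nat_lit 15) (nat_lit 4) (nat_lit 367) (nat_lit 286) (nat_lit 247)) (XT.lf (nat_lit 0) (nat_lit 2818029461) (nat_lit 76) (nat_lit 18960313896) (nat_lit 76) (nat_lit 9270480921) (nat_lit 14) (nat_lit 4) (nat_lit 15) (nat_lit 5) (nat_lit 15) (nat_lit 4) (nat_lit 368) (nat_lit 286)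 (nat_lit 246)))) (XT.nd (nat_lit 156) (nat_lit 76) (nat_lit 0) (XT.nd (nat_lit 78) (nat_lit 76) (nat_lit 0) (XT.lf (nat_lit 0) (nat_lit 14333793542) (nat_lit 76) (nat_lit 13868935002) (nat_lit 76) (nat_lit 4102707742) (nat_lit 14) (nat_lit 4) (nat_lit 15) (nat_lit 5) (nat_lit 15) (nat_lit 4) (nat_lit 369) (nat_lit 286) (nat_lit 245)) (XT.lf (nat_lit 0) (nat_lit 1219086219) (nat_lit 152) (nat_lit 7339856970) (nat_lit 76) (nat_lit 25068011096) (nat_lit 13) (nat_lit 5) (nat_lit 15) (nat_lit 5) (nat_lit 14) (nat_lit 4) (nat_lit 370) (nat_lit 286) (nat_lit 244))) (XT.nd (nat_lit 78) (nat_lit 0) (nat_lit 0) (XT.lf (nat_lit 0) (nat_lit 3762728469) (nat_lit 76) (nat_lit 2906053998) (nat_lit 152) (nat_lit 28342426015) (nat_lit 12) (nat_lit 5) (nat_lit 13) (nat_lit 5) (nat_lit 14) (nat_lit 4) (nat_lit 371) (nat_lit 286) (nat_lit 243)) (XT.lf (nat_lit 0) (nat_lit 12505764227) (nat_lit 152) (nat_lit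 20946716937) (nat_lit 0) (nat_lit 3006461517) (nat_lit 12) (nat_lit 5) (nat_lit 14) (nat_lit 4) (nat_lit 12) (nat_lit 4) (nat_lit 372) (nat_lit 286) (nat_lit 242))))))))
noncomputable def xc66 : XT := (XT.nd (nat_lit 1872) (nat_lit 228) (nat_lit 0) (XT.nd (nat_lit 936) (nat_lit 228) (nat_lit 0) (XT.nd (nat_lit 468) (nat_lit 76) (nat_lit 0) (XT.nd (nat_lit 234) (nat_lit 152) (nat_lit 0) (XT.nd (nat_lit 78) (nat_lit 76) (nat_lit 0) (XT.lf (nat_lit 0) (nat_lit 18626197429) (nat_lit 152) (nat_lit 10286255225) (nat_lit 0) (nat_lit 9067037798) (nat_lit 12) (nat_lit 5) (nat_lit 14) (nat_lit 4) (nat_lit 12) (nat_lit 4) (nat_lit 373) (nat_lit 286) (nat_lit 241)) (XT.nd (nat_lit 78) (nat_lit 0) (nat_lit 0) (XT.lf (nat_lit 0) (nat_lit 830231410) (nat_lit 76) (nat_lit 24182013714) (nat_lit 76) (nat_lit 14565847492) (nat_lit 11) (nat_lit 4) (nat_lit 12) (nat_lit 5) (nat_lit 12) (nat_lit 4) (nat_lit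 374) (nat_lit 286) (nat_lit 240)) (XT.lf (nat_lit 0) (nat_lit 12757757677) (nat_lit 76) (nat_lit 19081621284) (nat_lit 76) (nat_lit 9411163070) (nat_lit 11) (nat_lit 4) (nat_lit 12) (nat_lit 5) (nat_lit 12) (nat_lit 4) (nat_lit 375) (nat_lit 286) (nat_lit 239)))) (XT.nd (nat_lit 78) (nat_lit 152) (nat_lit 0) (XT.lf (nat_lit 0) (nat_lit 25184612395) (nat_lit 76) (nat_lit 13773334282) (nat_lit 76) (nat_lit 4051169409) (nat_lit 11) (nat_lit 4) (nat_lit 12) (nat_lit 5) (nat_lit 12) (nat_lit 4) (nat_lit 376) (nat_lit 286) (nat_lit 238)) (XT.nd (nat_lit 78) (nat_lit 76) (nat_lit 0) (XT.lf (nat_lit 0) (nat_lit 1478025192) (nat_lit 152) (nat_lit 6741457665) (nat_lit 76) (nat_lit 36637327049) (nat_lit 10) (nat_lit 5) (nat_lit 12) (nat_lit 5) (nat_lit 11) (nat_lit 4) (nat_lit 377) (nat_lit 286) (nat_lit 237)) (XT.lf (nat_lit 0) (nat_lit 4896494027) (nat_lit 76) (nat_lit 2281458558) (nat_lit 152)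 (nat_lit 39614099464) (nat_lit 9) (nat_lit 5) (nat_lit 10) (nat_lit 5) (nat_lit 11) (nat_lit 4) (nat_lit 378) (nat_lit 286) (nat_lit 236))))) (XT.nd (nat_lit 234) (nat_lit 76) (nat_lit 0) (XT.nd (nat_lit 78) (nat_lit 0) (nat_lit 0) (XT.lf (nat_lit 0) (nat_lit 13294759991) (nat_lit 152) (nat_lit 31621256554) (nat_lit 0) (nat_lit 3901450533) (nat_lit 9) (nat_lit 5) (nat_lit 11) (nat_lit 4) (nat_lit 9) (nat_lit 4) (nat_lit 379) (nat_lit 286) (nat_lit 235)) (XT.nd (nat_lit 78) (nat_lit 0) (nat_lit 0) (XT.lf (nat_lit 0) (nat_lit 19711111068) (nat_lit 152) (nat_lit 20956073258) (nat_lit 0) (nat_lit 10277288090) (nat_lit 9) (nat_lit 5) (nat_lit 11) (nat_lit 4) (nat_lit 9) (nat_lit 4) (nat_lit 380) (nat_lit 286) (nat_lit 234)) (XT.lf (nat_lit 0) (nat_lit 26406662881) (nat_lit 152) (nat_lit 9838994883) (nat_lit 0) (nat_lit 16934255598) (nat_lit 9) (nat_lit 5) (nat_lit 11) (nat_lit 4) (nat_lit 9)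 (nat_lit 4) (nat_lit 381) (nat_lit 286) (nat_lit 233)))) (XT.nd (nat_lit 78) (nat_lit 0) (nat_lit 0) (XT.lf (nat_lit 0) (nat_lit 1814523904) (nat_lit 76) (nat_lit 31611163118) (nat_lit 76) (nat_lit 22102008878) (nat_lit 8) (nat_lit 4) (nat_lit 9) (nat_lit 5) (nat_lit 9) (nat_lit 4) (nat_lit 382) (nat_lit 286) (nat_lit 232)) (XT.nd (nat_lit 78) (nat_lit 0) (nat_lit 0) (XT.lf (nat_lit 0) (nat_lit 14316066546) (nat_lit 76) (nat_lit 26607285969) (nat_lit 76) (nat_lit 17063134626) (nat_lit 8) (nat_lit 4) (nat_lit 9) (nat_lit 5) (nat_lit 9) (nat_lit 4) (nat_lit 383) (nat_lit 286) (nat_lit 231)) (XT.lf (nat_lit 0) (nat_lit 27370077013) (nat_lit 76) (nat_lit 21388740461) (nat_lit 76) (nat_lit 11811258546) (nat_lit 8) (nat_lit 4) (nat_lit 9) (nat_lit 5) (nat_lit 9) (nat_lit 4) (nat_lit 384) (nat_lit 286) (nat_lit 230)))))) (XT.nd (nat_lit 468) (nat_lit 76) (nat_lit 0) (XT.nd (nat_lit 234) (nat_lit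 0) (nat_lit 0) (XT.nd (nat_lit 78) (nat_lit 152) (nat_lit 0) (XT.lf (nat_lit 0) (nat_lit 41007636284) (nat_lit 76) (nat_lit 15943101487) (nat_lit 76) (nat_lit 6333876168) (nat_lit 8) (nat_lit 4) (nat_lit 9) (nat_lit 5) (nat_lit 9) (nat_lit 4) (nat_lit 385) (nat_lit 286) (nat_lit 229)) (XT.nd (nat_lit 78) (nat_lit 152) (nat_lit 0) (XT.lf (nat_lit 0) (nat_lit 55261214737) (nat_lit 76) (nat_lit 10257403240) (nat_lit 76) (nat_lit 617946108) (nat_lit 8) (nat_lit 4) (nat_lit 9) (nat_lit 5) (nat_lit 9) (nat_lit 4) (nat_lit 386) (nat_lit 286) (nat_lit 228)) (XT.lf (nat_lit 0) (nat_lit 979863711) (nat_lit 76) (nat_lit 4214337774) (nat_lit 152) (nat_lit 63933573874) (nat_lit 6) (nat_lit 5) (nat_lit 7) (nat_lit 5) (nat_lit 8) (nat_lit 4) (nat_lit 387) (nat_lit 286) (nat_lit 227)))) (XT.nd (nat_lit 78) (nat_lit 0) (nat_lit 0) (XT.lf (nat_lit 0) (nat_lit 11464184247) (nat_lit 152) (nat_lit 58564247378)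 (nat_lit 0) (nat_lit 2230212362) (nat_lit 6) (nat_lit 5) (nat_lit 8) (nat_lit 4) (nat_lit 6) (nat_lit 4) (nat_lit 388) (nat_lit 286) (nat_lit 226)) (XT.nd (nat_lit 78) (nat_lit 0) (nat_lit 0) (XT.lf (nat_lit 0) (nat_lit 18085827146) (nat_lit 152) (nat_lit 48631340276) (nat_lit 0) (nat_lit 8826983474) (nat_lit 6) (nat_lit 5) (nat_lit 8) (nat_lit 4) (nat_lit 6) (nat_lit 4) (nat_lit 389) (nat_lit 286) (nat_lit 225)) (XT.lf (nat_lit 0) (nat_lit 25009098375) (nat_lit 152) (nat_lit 38259742943) (nat_lit 0) (nat_lit 15726567287) (nat_lit 6) (nat_lit 5) (nat_lit 8) (nat_lit 4) (nat_lit 6) (nat_lit 4) (nat_lit 390) (nat_lit 286) (nat_lit 224))))) (XT.nd (nat_lit 234) (nat_lit 76) (nat_lit 0) (XT.nd (nat_lit 78) (nat_lit 0) (nat_lit 0) (XT.lf (nat_lit 0) (nat_lit 32250481913) (nat_lit 152) (nat_lit 27424761097) (nat_lit 0) (nat_lit 22945391380) (nat_lit 6) (nat_lit 5) (nat_lit 8) (nat_lit 4) (nat_lit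 6) (nat_lit 4) (nat_lit 391) (nat_lit 286) (nat_lit 223)) (XT.nd (nat_lit 78) (nat_lit 0) (nat_lit 0) (XT.lf (nat_lit 0) (nat_lit 39827219149) (nat_lit 152) (nat_lit 16100597164) (nat_lit 0) (nat_lit 30500643432) (nat_lit 6) (nat_lit 5) (nat_lit 8) (nat_lit 4) (nat_lit 6) (nat_lit 4) (nat_lit 392) (nat_lit 286) (nat_lit 222)) (XT.lf (nat_lit 0) (nat_lit 47757349934) (nat_lit 152) (nat_lit 4260288847) (nat_lit 0) (nat_lit 38410312136) (nat_lit 6) (nat_lit 5) (nat_lit 8) (nat_lit 4) (nat_lit 6) (nat_lit 4) (nat_lit 393) (nat_lit 286) (nat_lit 221)))) (XT.nd (nat_lit 78) (nat_lit 0) (nat_lit 0) (XT.lf (nat_lit 0) (nat_lit 8392982930) (nat_lit 76) (nat_lit 47797810587) (nat_lit 76) (nat_lit 38431285093) (nat_lit 5) (nat_lit 4) (nat_lit 6) (nat_lit 5) (nat_lit 6) (nat_lit 4) (nat_lit 394) (nat_lit 286) (nat_lit 220)) (XT.nd (nat_lit 78) (nat_lit 0) (nat_lit 0) (XT.lf (nat_lit 0) (nat_lit 21779915112)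 (nat_lit 76) (nat_lit 43314333975) (nat_lit 76) (nat_lit 33929248771) (nat_lit 5) (nat_lit 4) (nat_lit 6) (nat_lit 5) (nat_lit 6) (nat_lit 4) (nat_lit 395) (nat_lit 286) (nat_lit 219)) (XT.lf (nat_lit 0) (nat_lit 35791516958) (nat_lit 76) (nat_lit 38628684057) (nat_lit 76) (nat_lit 29225922938) (nat_lit 5) (nat_lit 4) (nat_lit 6) (nat_lit 5) (nat_lit 6) (nat_lit 4) (nat_lit 396) (nat_lit 286) (nat_lit 218))))))) (XT.nd (nat_lit 936) (nat_lit 76) (nat_lit 0) (XT.nd (nat_lit 468) (nat_lit 76) (nat_lit 0) (XT.nd (nat_lit 234) (nat_lit 76) (nat_lit 0) (XT.nd (nat_lit 78) (nat_lit 0) (nat_lit 0) (XT.lf (nat_lit 0) (nat_lit 50461149423) (nat_lit 76) (nat_lit 33729704522) (nat_lit 76) (nat_lit 24310109198) (nat_lit 5) (nat_lit 4) (nat_lit 6) (nat_lit 5) (nat_lit 6) (nat_lit 4) (nat_lit 397) (nat_lit 286) (nat_lit 217)) (XT.nd (nat_lit 78) (nat_lit 0) (nat_lit 0) (XT.lf (nat_lit 0) (nat_lit 65823740205)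 (nat_lit 76) (nat_lit 28605731134) (nat_lit 76) (nat_lit 19170103234) (nat_lit 5) (nat_lit 4) (nat_lit 6) (nat_lit 5) (nat_lit 6) (nat_lit 4) (nat_lit 398) (nat_lit 286) (nat_lit 216)) (XT.lf (nat_lit 0) (nat_lit 81915866900) (nat_lit 76) (nat_lit 23244563955) (nat_lit 76) (nat_lit 13793666936) (nat_lit 5) (nat_lit 4) (nat_lit 6) (nat_lit 5) (nat_lit 6) (nat_lit 4) (nat_lit 399) (nat_lit 286) (nat_lit 215)))) (XT.nd (nat_lit 78) (nat_lit 76) (nat_lit 0) (XT.lf (nat_lit 0) (nat_lit 98775844096) (nat_lit 76) (nat_lit 17633438303) (nat_lit 76) (nat_lit 8167999265) (nat_lit 5) (nat_lit 4) (nat_lit 6) (nat_lit 5) (nat_lit 6) (nat_lit 4) (nat_lit 400) (nat_lit 286) (nat_lit 214)) (XT.nd (nat_lit 78) (nat_lit 76) (nat_lit 0) (XT.lf (nat_lit 0) (nat_lit 116443814595) (nat_lit 76) (nat_lit 11758994354) (nat_lit 76) (nat_lit 2279705775) (nat_lit 5) (nat_lit 4) (nat_lit 6) (nat_lit 5) (nat_lit 6)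 (nat_lit 4) (nat_lit 401) (nat_lit 286) (nat_lit 213)) (XT.lf (nat_lit 0) (nat_lit 3760881553) (nat_lit 152) (nat_lit 1782671435) (nat_lit 76) (nat_lit 131137271092) (nat_lit 4) (nat_lit 5) (nat_lit 6) (nat_lit 5) (nat_lit 5) (nat_lit 4) (nat_lit 402) (nat_lit 286) (nat_lit 212))))) (XT.nd (nat_lit 234) (nat_lit 0) (nat_lit 0) (XT.nd (nat_lit 78) (nat_lit 0) (nat_lit 0) (XT.lf (nat_lit 0) (nat_lit 10206808399) (nat_lit 152) (nat_lit 131816988311) (nat_lit 0) (nat_lit 1154388817) (nat_lit 3) (nat_lit 5) (nat_lit 5) (nat_lit 4) (nat_lit 3) (nat_lit 4) (nat_lit 403) (nat_lit 286) (nat_lit 211)) (XT.nd (nat_lit 78) (nat_lit 0) (nat_lit 0) (XT.lf (nat_lit 0) (nat_lit 17080252763) (nat_lit 152) (nat_lit 124898463424) (nat_lit 0) (nat_lit 8016439128) (nat_lit 3) (nat_lit 5) (nat_lit 5) (nat_lit 4) (nat_lit 3) (nat_lit 4) (nat_lit 404) (nat_lit 286) (nat_lit 210)) (XT.lf (nat_lit 0) (nat_lit 24281805468)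 (nat_lit 152) (nat_lit 117664807231) (nat_lit 0) (nat_lit 15207140355) (nat_lit 3) (nat_lit 5) (nat_lit 5) (nat_lit 4) (nat_lit 3) (nat_lit 4) (nat_lit 405) (nat_lit 286) (nat_lit 209)))) (XT.nd (nat_lit 78) (nat_lit 0) (nat_lit 0) (XT.lf (nat_lit 0) (nat_lit 31828613067) (nat_lit 152) (nat_lit 110098796740) (nat_lit 0) (nat_lit 22743613213) (nat_lit 3) (nat_lit 5) (nat_lit 5) (nat_lit 4) (nat_lit 3) (nat_lit 4) (nat_lit 406) (nat_lit 286) (nat_lit 208)) (XT.nd (nat_lit 78) (nat_lit 0) (nat_lit 0) (XT.lf (nat_lit 0) (nat_lit 39738644151) (nat_lit 152) (nat_lit 102182417639) (nat_lit 0) (nat_lit 30643801686) (nat_lit 3) (nat_lit 5) (nat_lit 5) (nat_lit 4) (nat_lit 3) (nat_lit 4) (nat_lit 407) (nat_lit 286) (nat_lit 207)) (XT.lf (nat_lit 0) (nat_lit 48030732127) (nat_lit 152) (nat_lit 93896821409) (nat_lit 0) (nat_lit 38926515747) (nat_lit 3) (nat_lit 5) (nat_lit 5) (nat_lit 4) (nat_lit 3)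 (nat_lit 4) (nat_lit 408) (nat_lit 286) (nat_lit 206)))))) (XT.nd (nat_lit 468) (nat_lit 76) (nat_lit 0) (XT.nd (nat_lit 234) (nat_lit 0) (nat_lit 0) (XT.nd (nat_lit 78) (nat_lit 0) (nat_lit 0) (XT.lf (nat_lit 0) (nat_lit 56724620061) (nat_lit 152) (nat_lit 85222280438) (nat_lit 0) (nat_lit 47611476143) (nat_lit 3) (nat_lit 5) (nat_lit 5) (nat_lit 4) (nat_lit 3) (nat_lit 4) (nat_lit 409) (nat_lit 286) (nat_lit 205)) (XT.nd (nat_lit 78) (nat_lit 0) (nat_lit 0) (XT.lf (nat_lit 0) (nat_lit 65841007687) (nat_lit 152) (nat_lit 76138141058) (nat_lit 0) (nat_lit 56719361352) (nat_lit 3) (nat_lit 5) (nat_lit 5) (nat_lit 4) (nat_lit 3) (nat_lit 4) (nat_lit 410) (nat_lit 286) (nat_lit 204)) (XT.lf (nat_lit 0) (nat_lit 75401600689) (nat_lit 152) (nat_lit 66622774365) (nat_lit 0) (nat_lit 66271856814) (nat_lit 3) (nat_lit 5) (nat_lit 5) (nat_lit 4) (nat_lit 3) (nat_lit 4) (nat_lit 411) (nat_lit 286)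 (nat_lit 203)))) (XT.nd (nat_lit 78) (nat_lit 0) (nat_lit 0) (XT.lf (nat_lit 0) (nat_lit 85429162384) (nat_lit 152) (nat_lit 56653524724) (nat_lit 0) (nat_lit 76291706566) (nat_lit 3) (nat_lit 5) (nat_lit 5) (nat_lit 4) (nat_lit 3) (nat_lit 4) (nat_lit 412) (nat_lit 286) (nat_lit 202)) (XT.nd (nat_lit 78) (nat_lit 0) (nat_lit 0) (XT.lf (nat_lit 0) (nat_lit 95947567920) (nat_lit 152) (nat_lit 46206655827) (nat_lit 0) (nat_lit 86802767393) (nat_lit 3) (nat_lit 5) (nat_lit 5) (nat_lit 4) (nat_lit 3) (nat_lit 4) (nat_lit 413) (nat_lit 286) (nat_lit 201)) (XT.lf (nat_lit 0) (nat_lit 106981861118) (nat_lit 152) (nat_lit 35257294176) (nat_lit 0) (nat_lit 97830065632) (nat_lit 3) (nat_lit 5) (nat_lit 5) (nat_lit 4) (nat_lit 3) (nat_lit 4) (nat_lit 414) (nat_lit 286) (nat_lit 200))))) (XT.nd (nat_lit 234) (nat_lit 0) (nat_lit 0) (XT.nd (nat_lit 78) (nat_lit 76) (nat_lit 0) (XT.lf (nat_lit 0) (nat_lit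 118558314105) (nat_lit 152) (nat_lit 23779369862) (nat_lit 0) (nat_lit 109399856752) (nat_lit 3) (nat_lit 5) (nat_lit 5) (nat_lit 4) (nat_lit 3) (nat_lit 4) (nat_lit 415) (nat_lit 286) (nat_lit 199)) (XT.nd (nat_lit 78) (nat_lit 76) (nat_lit 0) (XT.lf (nat_lit 0) (nat_lit 130704489865) (nat_lit 152) (nat_lit 11745554495) (nat_lit 0) (nat_lit 121539687878) (nat_lit 3) (nat_lit 5) (nat_lit 5) (nat_lit 4) (nat_lit 3) (nat_lit 4) (nat_lit 416) (nat_lit 286) (nat_lit 198)) (XT.lf (nat_lit 0) (nat_lit 901662703) (nat_lit 76) (nat_lit 142561722641) (nat_lit 76) (nat_lit 133390878145) (nat_lit 2) (nat_lit 4) (nat_lit 3) (nat_lit 5) (nat_lit 3) (nat_lit 4) (nat_lit 417) (nat_lit 286) (nat_lit 197)))) (XT.nd (nat_lit 156) (nat_lit 0) (nat_lit 0) (XT.nd (nat_lit 78) (nat_lit 0) (nat_lit 0) (XT.lf (nat_lit 0) (nat_lit 14572148696) (nat_lit 76) (nat_lit 142478476288) (nat_lit 76) (nat_lit 133301877021)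 (nat_lit 2) (nat_lit 4) (nat_lit 3) (nat_lit 5) (nat_lit 3) (nat_lit 4) (nat_lit 418) (nat_lit 286) (nat_lit 196)) (XT.lf (nat_lit 0) (nat_lit 28910091183) (nat_lit 76) (nat_lit 142399023744) (nat_lit 76) (nat_lit 133216943744) (nat_lit 2) (nat_lit 4) (nat_lit 3) (nat_lit 5) (nat_lit 3) (nat_lit 4) (nat_lit 419) (nat_lit 286) (nat_lit 195))) (XT.nd (nat_lit 78) (nat_lit 0) (nat_lit 0) (XT.lf (nat_lit 0) (nat_lit 43949628121) (nat_lit 76) (nat_lit 142323175837) (nat_lit 76) (nat_lit 133135876090) (nat_lit 2) (nat_lit 4) (nat_lit 3) (nat_lit 5) (nat_lit 3) (nat_lit 4) (nat_lit 420) (nat_lit 286) (nat_lit 194)) (XT.lf (nat_lit 0) (nat_lit 59726567933) (nat_lit 76) (nat_lit 142250751976) (nat_lit 76) (nat_lit 133058481041) (nat_lit 2) (nat_lit 4) (nat_lit 3) (nat_lit 5) (nat_lit 3) (nat_lit 4) (nat_lit 421) (nat_lit 286) (nat_lit 193))))))))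
noncomputable def xc67 : XT := (XT.nd (nat_lit 39858) (nat_lit 0) (nat_lit 1520) (XT.nd (nat_lit 936) (nat_lit 0) (nat_lit 0) (XT.nd (nat_lit 468) (nat_lit 0) (nat_lit 0) (XT.nd (nat_lit 234) (nat_lit 0) (nat_lit 0) (XT.nd (nat_lit 78) (nat_lit 0) (nat_lit 0) (XT.lf (nat_lit 0) (nat_lit 76278474760) (nat_lit 76) (nat_lit 142181579723) (nat_lit 76) (nat_lit 132984574325) (nat_lit 2) (nat_lit 4) (nat_lit 3) (nat_lit 5) (nat_lit 3) (nat_lit 4) (nat_lit 422) (nat_lit 286) (nat_lit 192)) (XT.nd (nat_lit 78) (nat_lit 0) (nat_lit 0) (XT.lf (nat_lit 0) (nat_lit 93644757905) (nat_lit 76) (nat_lit 142115494384) (nat_lit 76) (nat_lit 132913979972) (nat_lit 2) (nat_lit 4) (nat_lit 3) (nat_lit 5) (nat_lit 3) (nat_lit 4) (nat_lit 423) (nat_lit 286) (nat_lit 191)) (XT.lf (nat_lit 0) (nat_lit 111866765661) (nat_lit 76) (nat_lit 142052338610) (nat_lit 76) (nat_lit 132846529900) (nat_lit 2) (nat_lit 4) (nat_lit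 3) (nat_lit 5) (nat_lit 3) (nat_lit 4) (nat_lit 424) (nat_lit 286) (nat_lit 190)))) (XT.nd (nat_lit 78) (nat_lit 0) (nat_lit 0) (XT.lf (nat_lit 0) (nat_lit 130987883760) (nat_lit 76) (nat_lit 141991962033) (nat_lit 76) (nat_lit 132782063514) (nat_lit 2) (nat_lit 4) (nat_lit 3) (nat_lit 5) (nat_lit 3) (nat_lit 4) (nat_lit 425) (nat_lit 286) (nat_lit 189)) (XT.nd (nat_lit 78) (nat_lit 0) (nat_lit 0) (XT.lf (nat_lit 0) (nat_lit 151053638674) (nat_lit 76) (nat_lit 141934220897) (nat_lit 76) (nat_lit 132720427324) (nat_lit 2) (nat_lit 4) (nat_lit 3) (nat_lit 5) (nat_lit 3) (nat_lit 4) (nat_lit 426) (nat_lit 286) (nat_lit 188)) (XT.lf (nat_lit 0) (nat_lit 172111806011) (nat_lit 76) (nat_lit 141878977725) (nat_lit 76) (nat_lit 132661474575) (nat_lit 2) (nat_lit 4) (nat_lit 3) (nat_lit 5) (nat_lit 3) (nat_lit 4) (nat_lit 427) (nat_lit 286) (nat_lit 187))))) (XT.nd (nat_lit 234) (nat_lit 0) (nat_lit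 0) (XT.nd (nat_lit 78) (nat_lit 0) (nat_lit 0) (XT.lf (nat_lit 0) (nat_lit 194212524263) (nat_lit 76) (nat_lit 141826100984) (nat_lit 76) (nat_lit 132605064904) (nat_lit 2) (nat_lit 4) (nat_lit 3) (nat_lit 5) (nat_lit 3) (nat_lit 4) (nat_lit 428) (nat_lit 286) (nat_lit 186)) (XT.nd (nat_lit 78) (nat_lit 0) (nat_lit 0) (XT.lf (nat_lit 0) (nat_lit 217408414189) (nat_lit 76) (nat_lit 141775464778) (nat_lit 76) (nat_lit 132551064003) (nat_lit 2) (nat_lit 4) (nat_lit 3) (nat_lit 5) (nat_lit 3) (nat_lit 4) (nat_lit 429) (nat_lit 286) (nat_lit 185)) (XT.lf (nat_lit 0) (nat_lit 241754704097) (nat_lit 76) (nat_lit 141726948545) (nat_lit 76) (nat_lit 132499343298) (nat_lit 2) (nat_lit 4) (nat_lit 3) (nat_lit 5) (nat_lit 3) (nat_lit 4) (nat_lit 430) (nat_lit 286) (nat_lit 184)))) (XT.nd (nat_lit 78) (nat_lit 0) (nat_lit 0) (XT.lf (nat_lit 0) (nat_lit 267309361346) (nat_lit 76) (nat_lit 141680436769)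 (nat_lit 76) (nat_lit 132449779644) (nat_lit 2) (nat_lit 4) (nat_lit 3) (nat_lit 5) (nat_lit 3) (nat_lit 4) (nat_lit 431) (nat_lit 286) (nat_lit 183)) (XT.nd (nat_lit 78) (nat_lit 0) (nat_lit 0) (XT.lf (nat_lit 0) (nat_lit 294133230356) (nat_lit 76) (nat_lit 141635818708) (nat_lit 76) (nat_lit 132402255033) (nat_lit 2) (nat_lit 4) (nat_lit 3) (nat_lit 5) (nat_lit 3) (nat_lit 4) (nat_lit 432) (nat_lit 286) (nat_lit 182)) (XT.lf (nat_lit 0) (nat_lit 322290177483) (nat_lit 76) (nat_lit 141592988128) (nat_lit 76) (nat_lit 132356656310) (nat_lit 2) (nat_lit 4) (nat_lit 3) (nat_lit 5) (nat_lit 3) (nat_lit 4) (nat_lit 433) (nat_lit 286) (nat_lit 181)))))) (XT.nd (nat_lit 468) (nat_lit 0) (nat_lit 0) (XT.nd (nat_lit 234) (nat_lit 0) (nat_lit 0) (XT.nd (nat_lit 78) (nat_lit 0) (nat_lit 0) (XT.lf (nat_lit 0) (nat_lit 351847243076) (nat_lit 76) (nat_lit 141551843053) (nat_lit 76) (nat_lit 132312874908)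 (nat_lit 2) (nat_lit 4) (nat_lit 3) (nat_lit 5) (nat_lit 3) (nat_lit 4) (nat_lit 434) (nat_lit 286) (nat_lit 180)) (XT.nd (nat_lit 78) (nat_lit 0) (nat_lit 0) (XT.lf (nat_lit 0) (nat_lit 382874801103) (nat_lit 76) (nat_lit 141512285518) (nat_lit 76) (nat_lit 132270806585) (nat_lit 2) (nat_lit 4) (nat_lit 3) (nat_lit 5) (nat_lit 3) (nat_lit 4) (nat_lit 435) (nat_lit 286) (nat_lit 179)) (XT.lf (nat_lit 0) (nat_lit 415446726700) (nat_lit 76) (nat_lit 141474221337) (nat_lit 76) (nat_lit 132230351179) (nat_lit 2) (nat_lit 4) (nat_lit 3) (nat_lit 5) (nat_lit 3) (nat_lit 4) (nat_lit 436) (nat_lit 286) (nat_lit 178)))) (XT.nd (nat_lit 78) (nat_lit 0) (nat_lit 0) (XT.lf (nat_lit 0) (nat_lit 449640572072) (nat_lit 76) (nat_lit 141437559883) (nat_lit 76) (nat_lit 132191412366) (nat_lit 2) (nat_lit 4) (nat_lit 3) (nat_lit 5) (nat_lit 3) (nat_lit 4) (nat_lit 437) (nat_lit 286) (nat_lit 177)) (XT.nd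 (nat_lit 78) (nat_lit 0) (nat_lit 0) (XT.lf (nat_lit 0) (nat_lit 485537751135) (nat_lit 76) (nat_lit 141402213865) (nat_lit 76) (nat_lit 132153897436) (nat_lit 2) (nat_lit 4) (nat_lit 3) (nat_lit 5) (nat_lit 3) (nat_lit 4) (nat_lit 438) (nat_lit 286) (nat_lit 176)) (XT.lf (nat_lit 0) (nat_lit 523223733365) (nat_lit 76) (nat_lit 141368099127) (nat_lit 76) (nat_lit 132117717067) (nat_lit 2) (nat_lit 4) (nat_lit 3) (nat_lit 5) (nat_lit 3) (nat_lit 4) (nat_lit 439) (nat_lit 286) (nat_lit 175))))) (XT.nd (nat_lit 38142) (nat_lit 0) (nat_lit 4332) (XT.nd (nat_lit 37986) (nat_lit 0) (nat_lit 5092) (XT.lf (nat_lit 0) (nat_lit 562788247290) (nat_lit 76) (nat_lit 141335134443) (nat_lit 76) (nat_lit 132082785116) (nat_lit 2) (nat_lit 4) (nat_lit 3) (nat_lit 5) (nat_lit 3) (nat_lit 4) (nat_lit 440) (nat_lit 286) (nat_lit 174)) (XT.nd (nat_lit 78) (nat_lit 304) (nat_lit 0) (XT.lf (nat_lit 0) (nat_lit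 2070483565) (nat_lit 304) (nat_lit 1094616014) (nat_lit 304) (nat_lit 1094616014) (nat_lit 73) (nat_lit 4) (nat_lit 77) (nat_lit 5) (nat_lit 77) (nat_lit 4) (nat_lit 326) (nat_lit 287) (nat_lit 287)) (XT.lf (nat_lit 0) (nat_lit 1737541222) (nat_lit 304) (nat_lit 6231293815) (nat_lit 0) (nat_lit 723411013) (nat_lit 69) (nat_lit 5) (nat_lit 73) (nat_lit 4) (nat_lit 69) (nat_lit 4) (nat_lit 327) (nat_lit 287) (nat_lit 286)))) (XT.nd (nat_lit 156) (nat_lit 456) (nat_lit 0) (XT.nd (nat_lit 78) (nat_lit 76) (nat_lit 0) (XT.lf (nat_lit 0) (nat_lit 638968824) (nat_lit 228) (nat_lit 5107524432) (nat_lit 228) (nat_lit 3127555927) (nat_lit 66) (nat_lit 4) (nat_lit 69) (nat_lit 5) (nat_lit 69) (nat_lit 4) (nat_lit 328) (nat_lit 287) (nat_lit 285)) (XT.lf (nat_lit 0) (nat_lit 809315005) (nat_lit 304) (nat_lit 1240718739) (nat_lit 76) (nat_lit 7016971335) (nat_lit 65) (nat_lit 5) (nat_lit 69) (nat_lit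 5) (nat_lit 66) (nat_lit 4) (nat_lit 329) (nat_lit 287) (nat_lit 284))) (XT.nd (nat_lit 78) (nat_lit 228) (nat_lit 0) (XT.lf (nat_lit 0) (nat_lit 4798588794) (nat_lit 304) (nat_lit 3267987135) (nat_lit 0) (nat_lit 1202533265) (nat_lit 62) (nat_lit 5) (nat_lit 66) (nat_lit 4) (nat_lit 62) (nat_lit 4) (nat_lit 330) (nat_lit 287) (nat_lit 283)) (XT.lf (nat_lit 0) (nat_lit 4036961353) (nat_lit 228) (nat_lit 4918351777) (nat_lit 228) (nat_lit 527698692) (nat_lit 59) (nat_lit 4) (nat_lit 62) (nat_lit 5) (nat_lit 62) (nat_lit 4) (nat_lit 331) (nat_lit 287) (nat_lit 282))))))) (XT.nd (nat_lit 936) (nat_lit 1064) (nat_lit 0) (XT.nd (nat_lit 468) (nat_lit 836) (nat_lit 0) (XT.nd (nat_lit 234) (nat_lit 380) (nat_lit 0) (XT.nd (nat_lit 78) (nat_lit 304) (nat_lit 0) (XT.lf (nat_lit 0) (nat_lit 1891492779) (nat_lit 152) (nat_lit 1542119631) (nat_lit 228) (nat_lit 6274413161) (nat_lit 56) (nat_lit 5)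 (nat_lit 58) (nat_lit 5) (nat_lit 59) (nat_lit 4) (nat_lit 332) (nat_lit 287) (nat_lit 281)) (XT.nd (nat_lit 78) (nat_lit 304) (nat_lit 0) (XT.lf (nat_lit 0) (nat_lit 7553813693) (nat_lit 228) (nat_lit 426083193) (nat_lit 0) (nat_lit 1965112675) (nat_lit 56) (nat_lit 5) (nat_lit 59) (nat_lit 4) (nat_lit 56) (nat_lit 4) (nat_lit 333) (nat_lit 287) (nat_lit 280)) (XT.lf (nat_lit 0) (nat_lit 1632289699) (nat_lit 304) (nat_lit 2896224509) (nat_lit 76) (nat_lit 5664081046) (nat_lit 52) (nat_lit 5) (nat_lit 56) (nat_lit 5) (nat_lit 53) (nat_lit 4) (nat_lit 334) (nat_lit 287) (nat_lit 279)))) (XT.nd (nat_lit 78) (nat_lit 228) (nat_lit 0) (XT.lf (nat_lit 0) (nat_lit 4863768849) (nat_lit 152) (nat_lit 857584916) (nat_lit 228) (nat_lit 4732077401) (nat_lit 50) (nat_lit 5) (nat_lit 52) (nat_lit 5) (nat_lit 53) (nat_lit 4) (nat_lit 335) (nat_lit 287) (nat_lit 278)) (XT.nd (nat_lit 78) (nat_lit 76)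 (nat_lit 0) (XT.lf (nat_lit 0) (nat_lit 2187747910) (nat_lit 152) (nat_lit 7821360934) (nat_lit 152) (nat_lit 718553982) (nat_lit 48) (nat_lit 4) (nat_lit 50) (nat_lit 5) (nat_lit 50) (nat_lit 4) (nat_lit 336) (nat_lit 287) (nat_lit 277)) (XT.lf (nat_lit 0) (nat_lit 3358317387) (nat_lit 228) (nat_lit 756071210) (nat_lit 76) (nat_lit 6899820640) (nat_lit 47) (nat_lit 5) (nat_lit 50) (nat_lit 5) (nat_lit 48) (nat_lit 4) (nat_lit 337) (nat_lit 287) (nat_lit 276))))) (XT.nd (nat_lit 234) (nat_lit 304) (nat_lit 0) (XT.nd (nat_lit 78) (nat_lit 380) (nat_lit 0) (XT.lf (nat_lit 0) (nat_lit 7430532386) (nat_lit 152) (nat_lit 171106106) (nat_lit 228) (nat_lit 3713574661) (nat_lit 45) (nat_lit 5) (nat_lit 47) (nat_lit 5) (nat_lit 48) (nat_lit 4) (nat_lit 338) (nat_lit 287) (nat_lit 275)) (XT.nd (nat_lit 78) (nat_lit 152) (nat_lit 0) (XT.lf (nat_lit 0) (nat_lit 426605978) (nat_lit 228) (nat_lit 7354639167)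 (nat_lit 76) (nat_lit 3849022382) (nat_lit 42) (nat_lit 5) (nat_lit 45) (nat_lit 5) (nat_lit 43) (nat_lit 4) (nat_lit 339) (nat_lit 287) (nat_lit 274)) (XT.lf (nat_lit 0) (nat_lit 765861579) (nat_lit 152) (nat_lit 3837799227) (nat_lit 228) (nat_lit 7356685752) (nat_lit 40) (nat_lit 5) (nat_lit 42) (nat_lit 5) (nat_lit 43) (nat_lit 4) (nat_lit 340) (nat_lit 287) (nat_lit 273)))) (XT.nd (nat_lit 78) (nat_lit 304) (nat_lit 0) (XT.lf (nat_lit 0) (nat_lit 8995310810) (nat_lit 228) (nat_lit 2976101045) (nat_lit 0) (nat_lit 335277359) (nat_lit 40) (nat_lit 5) (nat_lit 43) (nat_lit 4) (nat_lit 40) (nat_lit 4) (nat_lit 341) (nat_lit 287) (nat_lit 272)) (XT.nd (nat_lit 78) (nat_lit 76) (nat_lit 0) (XT.lf (nat_lit 0) (nat_lit 936837141) (nat_lit 228) (nat_lit 7121732321) (nat_lit 76) (nat_lit 4609560807) (nat_lit 37) (nat_lit 5) (nat_lit 40) (nat_lit 5) (nat_lit 38) (nat_lit 4) (nat_lit 342) (nat_lit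 287) (nat_lit 271)) (XT.lf (nat_lit 0) (nat_lit 1334107188) (nat_lit 76) (nat_lit 3905097663) (nat_lit 152) (nat_lit 7808113433) (nat_lit 36) (nat_lit 5) (nat_lit 37) (nat_lit 5) (nat_lit 38) (nat_lit 4) (nat_lit 343) (nat_lit 287) (nat_lit 270)))))) (XT.nd (nat_lit 468) (nat_lit 532) (nat_lit 0) (XT.nd (nat_lit 234) (nat_lit 228) (nat_lit 0) (XT.nd (nat_lit 78) (nat_lit 304) (nat_lit 0) (XT.lf (nat_lit 0) (nat_lit 9768503953) (nat_lit 152) (nat_lit 3196422819) (nat_lit 0) (nat_lit 479986774) (nat_lit 36) (nat_lit 5) (nat_lit 38) (nat_lit 4) (nat_lit 36) (nat_lit 4) (nat_lit 344) (nat_lit 287) (nat_lit 269)) (XT.nd (nat_lit 78) (nat_lit 76) (nat_lit 0) (XT.lf (nat_lit 0) (nat_lit 681511150) (nat_lit 228) (nat_lit 8205868556) (nat_lit 76) (nat_lit 4972486295) (nat_lit 33) (nat_lit 5) (nat_lit 36) (nat_lit 5) (nat_lit 34) (nat_lit 4) (nat_lit 345) (nat_lit 287) (nat_lit 268)) (XT.lf (nat_lit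 0) (nat_lit 522088161) (nat_lit 76) (nat_lit 4563048442) (nat_lit 152) (nat_lit 9209881274) (nat_lit 32) (nat_lit 5) (nat_lit 33) (nat_lit 5) (nat_lit 34) (nat_lit 4) (nat_lit 346) (nat_lit 287) (nat_lit 267)))) (XT.nd (nat_lit 78) (nat_lit 228) (nat_lit 0) (XT.lf (nat_lit 0) (nat_lit 9738964765) (nat_lit 152) (nat_lit 4975058513) (nat_lit 0) (nat_lit 36434668) (nat_lit 32) (nat_lit 5) (nat_lit 34) (nat_lit 4) (nat_lit 32) (nat_lit 4) (nat_lit 347) (nat_lit 287) (nat_lit 266)) (XT.nd (nat_lit 78) (nat_lit 76) (nat_lit 0) (XT.lf (nat_lit 0) (nat_lit 4130105910) (nat_lit 152) (nat_lit 10529069002) (nat_lit 152) (nat_lit 567840741) (nat_lit 30) (nat_lit 4) (nat_lit 32) (nat_lit 5) (nat_lit 32) (nat_lit 4) (nat_lit 348) (nat_lit 287) (nat_lit 265)) (XT.lf (nat_lit 0) (nat_lit 3947258860) (nat_lit 228) (nat_lit 2115726801) (nat_lit 76) (nat_lit 9662222588) (nat_lit 29) (nat_lit 5) (nat_lit 32)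 (nat_lit 5) (nat_lit 30) (nat_lit 4) (nat_lit 349) (nat_lit 287) (nat_lit 264))))) (XT.nd (nat_lit 234) (nat_lit 228) (nat_lit 0) (XT.nd (nat_lit 78) (nat_lit 228) (nat_lit 0) (XT.lf (nat_lit 0) (nat_lit 7359393692) (nat_lit 76) (nat_lit 1324337047) (nat_lit 152) (nat_lit 7563405324) (nat_lit 28) (nat_lit 5) (nat_lit 29) (nat_lit 5) (nat_lit 30) (nat_lit 4) (nat_lit 350) (nat_lit 287) (nat_lit 263)) (XT.nd (nat_lit 78) (nat_lit 76) (nat_lit 0) (XT.lf (nat_lit 0) (nat_lit 360171701) (nat_lit 152) (nat_lit 13296435048) (nat_lit 152) (nat_lit 3138599309) (nat_lit 26) (nat_lit 4) (nat_lit 28) (nat_lit 5) (nat_lit 28) (nat_lit 4) (nat_lit 351) (nat_lit 287) (nat_lit 262)) (XT.lf (nat_lit 0) (nat_lit 1534745638) (nat_lit 228) (nat_lit 7214303960) (nat_lit 76) (nat_lit 8616698372) (nat_lit 25) (nat_lit 5) (nat_lit 28) (nat_lit 5) (nat_lit 26) (nat_lit 4) (nat_lit 352) (nat_lit 287) (nat_lit 261))))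 (XT.nd (nat_lit 156) (nat_lit 152) (nat_lit 0) (XT.nd (nat_lit 78) (nat_lit 0) (nat_lit 0) (XT.lf (nat_lit 0) (nat_lit 2316357250) (nat_lit 76) (nat_lit 3961659492) (nat_lit 152) (nat_lit 11687162229) (nat_lit 24) (nat_lit 5) (nat_lit 25) (nat_lit 5) (nat_lit 26) (nat_lit 4) (nat_lit 353) (nat_lit 287) (nat_lit 260)) (XT.lf (nat_lit 0) (nat_lit 11305435992) (nat_lit 152) (nat_lit 6207503608) (nat_lit 0) (nat_lit 1079313109) (nat_lit 24) (nat_lit 5) (nat_lit 26) (nat_lit 4) (nat_lit 24) (nat_lit 4) (nat_lit 354) (nat_lit 287) (nat_lit 259))) (XT.nd (nat_lit 78) (nat_lit 76) (nat_lit 0) (XT.lf (nat_lit 0) (nat_lit 3589719349) (nat_lit 76) (nat_lit 13026140290) (nat_lit 76) (nat_lit 2633258264) (nat_lit 23) (nat_lit 4) (nat_lit 24) (nat_lit 5) (nat_lit 24) (nat_lit 4) (nat_lit 355) (nat_lit 287) (nat_lit 258)) (XT.lf (nat_lit 0) (nat_lit 2198610470) (nat_lit 152) (nat_lit 6044548793) (nat_lit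 76) (nat_lit 11693038881) (nat_lit 22) (nat_lit 5) (nat_lit 24) (nat_lit 5) (nat_lit 23) (nat_lit 4) (nat_lit 356) (nat_lit 287) (nat_lit 257))))))))
noncomputable def xc68 : XT := (XT.nd (nat_lit 1872) (nat_lit 456) (nat_lit 0) (XT.nd (nat_lit 936) (nat_lit 456) (nat_lit 0) (XT.nd (nat_lit 468) (nat_lit 228) (nat_lit 0) (XT.nd (nat_lit 234) (nat_lit 152) (nat_lit 0) (XT.nd (nat_lit 78) (nat_lit 76) (nat_lit 0) (XT.lf (nat_lit 0) (nat_lit 3976683466) (nat_lit 76) (nat_lit 3184116134) (nat_lit 152) (nat_lit 13495830098) (nat_lit 21) (nat_lit 5) (nat_lit 22) (nat_lit 5) (nat_lit 23) (nat_lit 4) (nat_lit 357) (nat_lit 287) (nat_lit 256)) (XT.nd (nat_lit 78) (nat_lit 76) (nat_lit 0) (XT.lf (nat_lit 0) (nat_lit 12423972974) (nat_lit 152) (nat_lit 6892993458) (nat_lit 0) (nat_lit 2093488656) (nat_lit 21) (nat_lit 5) (nat_lit 23) (nat_lit 4) (nat_lit 21) (nat_lit 4) (nat_lit 358) (nat_lit 287)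 (nat_lit 255)) (XT.lf (nat_lit 0) (nat_lit 3284854561) (nat_lit 76) (nat_lit 14688560689) (nat_lit 76) (nat_lit 4227416219) (nat_lit 20) (nat_lit 4) (nat_lit 21) (nat_lit 5) (nat_lit 21) (nat_lit 4) (nat_lit 359) (nat_lit 287) (nat_lit 254)))) (XT.nd (nat_lit 78) (nat_lit 76) (nat_lit 0) (XT.lf (nat_lit 0) (nat_lit 783441395) (nat_lit 152) (nat_lit 8979527848) (nat_lit 76) (nat_lit 13265246936) (nat_lit 19) (nat_lit 5) (nat_lit 21) (nat_lit 5) (nat_lit 20) (nat_lit 4) (nat_lit 360) (nat_lit 287) (nat_lit 253)) (XT.nd (nat_lit 78) (nat_lit 0) (nat_lit 0) (XT.lf (nat_lit 0) (nat_lit 1281050254) (nat_lit 76) (nat_lit 4565362220) (nat_lit 152) (nat_lit 18049923742) (nat_lit 18) (nat_lit 5) (nat_lit 19) (nat_lit 5) (nat_lit 20) (nat_lit 4) (nat_lit 361) (nat_lit 287) (nat_lit 252)) (XT.lf (nat_lit 0) (nat_lit 11255035313) (nat_lit 152) (nat_lit 12595049927) (nat_lit 0) (nat_lit 953164387) (nat_lit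 18) (nat_lit 5) (nat_lit 20) (nat_lit 4) (nat_lit 18) (nat_lit 4) (nat_lit 362) (nat_lit 287) (nat_lit 251))))) (XT.nd (nat_lit 234) (nat_lit 76) (nat_lit 0) (XT.nd (nat_lit 78) (nat_lit 152) (nat_lit 0) (XT.lf (nat_lit 0) (nat_lit 16936558903) (nat_lit 152) (nat_lit 2286525933) (nat_lit 0) (nat_lit 6532312330) (nat_lit 18) (nat_lit 5) (nat_lit 20) (nat_lit 4) (nat_lit 18) (nat_lit 4) (nat_lit 363) (nat_lit 287) (nat_lit 250)) (XT.nd (nat_lit 78) (nat_lit 76) (nat_lit 0) (XT.lf (nat_lit 0) (nat_lit 8684052124) (nat_lit 76) (nat_lit 14284762850) (nat_lit 76) (nat_lit 3783015659) (nat_lit 17) (nat_lit 4) (nat_lit 18) (nat_lit 5) (nat_lit 18) (nat_lit 4) (nat_lit 364) (nat_lit 287) (nat_lit 249)) (XT.lf (nat_lit 0) (nat_lit 1427019057) (nat_lit 152) (nat_lit 7669215853) (nat_lit 76) (nat_lit 18702157751) (nat_lit 16) (nat_lit 5) (nat_lit 18) (nat_lit 5) (nat_lit 17) (nat_lit 4) (nat_lit 365)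 (nat_lit 287) (nat_lit 248)))) (XT.nd (nat_lit 78) (nat_lit 0) (nat_lit 0) (XT.lf (nat_lit 0) (nat_lit 3163281575) (nat_lit 76) (nat_lit 3591022048) (nat_lit 152) (nat_lit 22140694041) (nat_lit 15) (nat_lit 5) (nat_lit 16) (nat_lit 5) (nat_lit 17) (nat_lit 4) (nat_lit 366) (nat_lit 287) (nat_lit 247)) (XT.nd (nat_lit 78) (nat_lit 0) (nat_lit 0) (XT.lf (nat_lit 0) (nat_lit 12448917854) (nat_lit 152) (nat_lit 15398096916) (nat_lit 0) (nat_lit 2194379231) (nat_lit 15) (nat_lit 5) (nat_lit 17) (nat_lit 4) (nat_lit 15) (nat_lit 4) (nat_lit 367) (nat_lit 287) (nat_lit 246)) (XT.lf (nat_lit 0) (nat_lit 18425009026) (nat_lit 152) (nat_lit 4726196605) (nat_lit 0) (nat_lit 8094076118) (nat_lit 15) (nat_lit 5) (nat_lit 17) (nat_lit 4) (nat_lit 15) (nat_lit 4) (nat_lit 368) (nat_lit 287) (nat_lit 245)))))) (XT.nd (nat_lit 468) (nat_lit 228) (nat_lit 0) (XT.nd (nat_lit 234) (nat_lit 76) (nat_lit 0)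 (XT.nd (nat_lit 78) (nat_lit 76) (nat_lit 0) (XT.lf (nat_lit 0) (nat_lit 6575930902) (nat_lit 76) (nat_lit 18167477819) (nat_lit 76) (nat_lit 7763788449) (nat_lit 14) (nat_lit 4) (nat_lit 15) (nat_lit 5) (nat_lit 15) (nat_lit 4) (nat_lit 369) (nat_lit 287) (nat_lit 244)) (XT.nd (nat_lit 78) (nat_lit 76) (nat_lit 0) (XT.lf (nat_lit 0) (nat_lit 18495245093) (nat_lit 76) (nat_lit 12904427683) (nat_lit 76) (nat_lit 2431446446) (nat_lit 14) (nat_lit 4) (nat_lit 15) (nat_lit 5) (nat_lit 15) (nat_lit 4) (nat_lit 370) (nat_lit 287) (nat_lit 243)) (XT.lf (nat_lit 0) (nat_lit 3009888408) (nat_lit 152) (nat_lit 4368702256) (nat_lit 76) (nat_lit 27842993557) (nat_lit 13) (nat_lit 5) (nat_lit 15) (nat_lit 5) (nat_lit 14) (nat_lit 4) (nat_lit 371) (nat_lit 287) (nat_lit 242)))) (XT.nd (nat_lit 78) (nat_lit 0) (nat_lit 0) (XT.lf (nat_lit 0) (nat_lit 7235171365) (nat_lit 76) (nat_lit 1465801622) (nat_lit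 152) (nat_lit 27975643696) (nat_lit 12) (nat_lit 5) (nat_lit 13) (nat_lit 5) (nat_lit 14) (nat_lit 4) (nat_lit 372) (nat_lit 287) (nat_lit 241)) (XT.nd (nat_lit 78) (nat_lit 0) (nat_lit 0) (XT.lf (nat_lit 0) (nat_lit 14772487062) (nat_lit 152) (nat_lit 18808620654) (nat_lit 0) (nat_lit 4618505937) (nat_lit 12) (nat_lit 5) (nat_lit 14) (nat_lit 4) (nat_lit 12) (nat_lit 4) (nat_lit 373) (nat_lit 287) (nat_lit 240)) (XT.lf (nat_lit 0) (nat_lit 21120778371) (nat_lit 152) (nat_lit 7766823101) (nat_lit 0) (nat_lit 10912505253) (nat_lit 12) (nat_lit 5) (nat_lit 14) (nat_lit 4) (nat_lit 12) (nat_lit 4) (nat_lit 374) (nat_lit 287) (nat_lit 239))))) (XT.nd (nat_lit 234) (nat_lit 152) (nat_lit 0) (XT.nd (nat_lit 78) (nat_lit 0) (nat_lit 0) (XT.lf (nat_lit 0) (nat_lit 3856556497) (nat_lit 76) (nat_lit 23941731778) (nat_lit 76) (nat_lit 13681752002) (nat_lit 11) (nat_lit 4) (nat_lit 12) (nat_lit 5)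 (nat_lit 12) (nat_lit 4) (nat_lit 375) (nat_lit 287) (nat_lit 238)) (XT.nd (nat_lit 78) (nat_lit 0) (nat_lit 0) (XT.lf (nat_lit 0) (nat_lit 16238325100) (nat_lit 76) (nat_lit 18655337947) (nat_lit 76) (nat_lit 8346113733) (nat_lit 11) (nat_lit 4) (nat_lit 12) (nat_lit 5) (nat_lit 12) (nat_lit 4) (nat_lit 376) (nat_lit 287) (nat_lit 237)) (XT.lf (nat_lit 0) (nat_lit 29151156862) (nat_lit 76) (nat_lit 13147368233) (nat_lit 76) (nat_lit 2791244555) (nat_lit 11) (nat_lit 4) (nat_lit 12) (nat_lit 5) (nat_lit 12) (nat_lit 4) (nat_lit 377) (nat_lit 287) (nat_lit 236)))) (XT.nd (nat_lit 78) (nat_lit 76) (nat_lit 0) (XT.lf (nat_lit 0) (nat_lit 2900188094) (nat_lit 152) (nat_lit 4455404240) (nat_lit 76) (nat_lit 39676492437) (nat_lit 10) (nat_lit 5) (nat_lit 12) (nat_lit 5) (nat_lit 11) (nat_lit 4) (nat_lit 378) (nat_lit 287) (nat_lit 235)) (XT.nd (nat_lit 78) (nat_lit 0) (nat_lit 0) (XT.lf (nat_lit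 0) (nat_lit 7722136548) (nat_lit 76) (nat_lit 1139066172) (nat_lit 152) (nat_lit 40204089022) (nat_lit 9) (nat_lit 5) (nat_lit 10) (nat_lit 5) (nat_lit 11) (nat_lit 4) (nat_lit 379) (nat_lit 287) (nat_lit 234)) (XT.lf (nat_lit 0) (nat_lit 15239468896) (nat_lit 152) (nat_lit 30699877681) (nat_lit 0) (nat_lit 5254856943) (nat_lit 9) (nat_lit 5) (nat_lit 11) (nat_lit 4) (nat_lit 9) (nat_lit 4) (nat_lit 380) (nat_lit 287) (nat_lit 233))))))) (XT.nd (nat_lit 936) (nat_lit 228) (nat_lit 0) (XT.nd (nat_lit 468) (nat_lit 152) (nat_lit 0) (XT.nd (nat_lit 234) (nat_lit 0) (nat_lit 0) (XT.nd (nat_lit 78) (nat_lit 76) (nat_lit 0) (XT.lf (nat_lit 0) (nat_lit 21915686531) (nat_lit 152) (nat_lit 19620599111) (nat_lit 0) (nat_lit 11894327621) (nat_lit 9) (nat_lit 5) (nat_lit 11) (nat_lit 4) (nat_lit 9) (nat_lit 4) (nat_lit 381) (nat_lit 287) (nat_lit 232)) (XT.nd (nat_lit 78) (nat_lit 76) (nat_lit 0) (XT.lf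 (nat_lit 0) (nat_lit 28887967367) (nat_lit 152) (nat_lit 8061156236) (nat_lit 0) (nat_lit 18831611356) (nat_lit 9) (nat_lit 5) (nat_lit 11) (nat_lit 4) (nat_lit 9) (nat_lit 4) (nat_lit 382) (nat_lit 287) (nat_lit 231)) (XT.lf (nat_lit 0) (nat_lit 4138429000) (nat_lit 76) (nat_lit 32099095548) (nat_lit 76) (nat_lit 22009408963) (nat_lit 8) (nat_lit 4) (nat_lit 9) (nat_lit 5) (nat_lit 9) (nat_lit 4) (nat_lit 383) (nat_lit 287) (nat_lit 230)))) (XT.nd (nat_lit 78) (nat_lit 0) (nat_lit 0) (XT.lf (nat_lit 0) (nat_lit 17158706921) (nat_lit 76) (nat_lit 26897054337) (nat_lit 76) (nat_lit 16775624349) (nat_lit 8) (nat_lit 4) (nat_lit 9) (nat_lit 5) (nat_lit 9) (nat_lit 4) (nat_lit 384) (nat_lit 287) (nat_lit 229)) (XT.nd (nat_lit 78) (nat_lit 0) (nat_lit 0) (XT.lf (nat_lit 0) (nat_lit 30764139957) (nat_lit 76) (nat_lit 21467133742) (nat_lit 76) (nat_lit 11315471941) (nat_lit 8) (nat_lit 4) (nat_lit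 9) (nat_lit 5) (nat_lit 9) (nat_lit 4) (nat_lit 385) (nat_lit 287) (nat_lit 228)) (XT.lf (nat_lit 0) (nat_lit 44987121996) (nat_lit 76) (nat_lit 15796405378) (nat_lit 76) (nat_lit 5615951375) (nat_lit 8) (nat_lit 4) (nat_lit 9) (nat_lit 5) (nat_lit 9) (nat_lit 4) (nat_lit 386) (nat_lit 287) (nat_lit 227))))) (XT.nd (nat_lit 234) (nat_lit 0) (nat_lit 0) (XT.nd (nat_lit 78) (nat_lit 76) (nat_lit 0) (XT.lf (nat_lit 0) (nat_lit 325737289) (nat_lit 152) (nat_lit 9540113705) (nat_lit 76) (nat_lit 59530263474) (nat_lit 7) (nat_lit 5) (nat_lit 9) (nat_lit 5) (nat_lit 8) (nat_lit 4) (nat_lit 387) (nat_lit 287) (nat_lit 226)) (XT.nd (nat_lit 78) (nat_lit 0) (nat_lit 0) (XT.lf (nat_lit 0) (nat_lit 2867586634) (nat_lit 76) (nat_lit 3523426614) (nat_lit 152) (nat_lit 66146206603) (nat_lit 6) (nat_lit 5) (nat_lit 7) (nat_lit 5) (nat_lit 8) (nat_lit 4) (nat_lit 388) (nat_lit 287) (nat_lit 225)) (XT.lf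 (nat_lit 0) (nat_lit 12943277868) (nat_lit 152) (nat_lit 59709986344) (nat_lit 0) (nat_lit 3172932809) (nat_lit 6) (nat_lit 5) (nat_lit 8) (nat_lit 4) (nat_lit 6) (nat_lit 4) (nat_lit 389) (nat_lit 287) (nat_lit 224)))) (XT.nd (nat_lit 78) (nat_lit 0) (nat_lit 0) (XT.lf (nat_lit 0) (nat_lit 19852865559) (nat_lit 152) (nat_lit 49365313573) (nat_lit 0) (nat_lit 10059961056) (nat_lit 6) (nat_lit 5) (nat_lit 8) (nat_lit 4) (nat_lit 6) (nat_lit 4) (nat_lit 390) (nat_lit 287) (nat_lit 223)) (XT.nd (nat_lit 78) (nat_lit 0) (nat_lit 0) (XT.lf (nat_lit 0) (nat_lit 27081217156) (nat_lit 152) (nat_lit 38555974169) (nat_lit 0) (nat_lit 17266827468) (nat_lit 6) (nat_lit 5) (nat_lit 8) (nat_lit 4) (nat_lit 6) (nat_lit 4) (nat_lit 391) (nat_lit 287) (nat_lit 222)) (XT.lf (nat_lit 0) (nat_lit 34645543020) (nat_lit 152) (nat_lit 27256231608) (nat_lit 0) (nat_lit 24810691252) (nat_lit 6) (nat_lit 5) (nat_lit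 8) (nat_lit 4) (nat_lit 6) (nat_lit 4) (nat_lit 392) (nat_lit 287) (nat_lit 221)))))) (XT.nd (nat_lit 468) (nat_lit 152) (nat_lit 0) (XT.nd (nat_lit 234) (nat_lit 0) (nat_lit 0) (XT.nd (nat_lit 78) (nat_lit 76) (nat_lit 0) (XT.lf (nat_lit 0) (nat_lit 42563853451) (nat_lit 152) (nat_lit 15439181742) (nat_lit 0) (nat_lit 32709513987) (nat_lit 6) (nat_lit 5) (nat_lit 8) (nat_lit 4) (nat_lit 6) (nat_lit 4) (nat_lit 393) (nat_lit 287) (nat_lit 220)) (XT.nd (nat_lit 78) (nat_lit 76) (nat_lit 0) (XT.lf (nat_lit 0) (nat_lit 50855001569) (nat_lit 152) (nat_lit 3076688738) (nat_lit 0) (nat_lit 40982102394) (nat_lit 6) (nat_lit 5) (nat_lit 8) (nat_lit 4) (nat_lit 6) (nat_lit 4) (nat_lit 394) (nat_lit 287) (nat_lit 219)) (XT.lf (nat_lit 0) (nat_lit 10186720587) (nat_lit 76) (nat_lit 49511050871) (nat_lit 76) (nat_lit 39620475781) (nat_lit 5) (nat_lit 4) (nat_lit 6) (nat_lit 5) (nat_lit 6) (nat_lit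 4) (nat_lit 395) (nat_lit 287) (nat_lit 218)))) (XT.nd (nat_lit 78) (nat_lit 0) (nat_lit 0) (XT.lf (nat_lit 0) (nat_lit 24177566593) (nat_lit 76) (nat_lit 44835621869) (nat_lit 76) (nat_lit 34928212575) (nat_lit 5) (nat_lit 4) (nat_lit 6) (nat_lit 5) (nat_lit 6) (nat_lit 4) (nat_lit 396) (nat_lit 287) (nat_lit 217)) (XT.nd (nat_lit 78) (nat_lit 0) (nat_lit 0) (XT.lf (nat_lit 0) (nat_lit 38827431591) (nat_lit 76) (nat_lit 39946376541) (nat_lit 76) (nat_lit 30022934671) (nat_lit 5) (nat_lit 4) (nat_lit 6) (nat_lit 5) (nat_lit 6) (nat_lit 4) (nat_lit 397) (nat_lit 287) (nat_lit 216)) (XT.lf (nat_lit 0) (nat_lit 54171196214) (nat_lit 76) (nat_lit 34831673825) (nat_lit 76) (nat_lit 24892962835) (nat_lit 5) (nat_lit 4) (nat_lit 6) (nat_lit 5) (nat_lit 6) (nat_lit 4) (nat_lit 398) (nat_lit 287) (nat_lit 215))))) (XT.nd (nat_lit 234) (nat_lit 152) (nat_lit 0) (XT.nd (nat_lit 78) (nat_lit 0) (nat_lit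 0) (XT.lf (nat_lit 0) (nat_lit 70245393234) (nat_lit 76) (nat_lit 29479335859) (nat_lit 76) (nat_lit 19526082851) (nat_lit 5) (nat_lit 4) (nat_lit 6) (nat_lit 5) (nat_lit 6) (nat_lit 4) (nat_lit 399) (nat_lit 287) (nat_lit 214)) (XT.nd (nat_lit 78) (nat_lit 0) (nat_lit 0) (XT.lf (nat_lit 0) (nat_lit 87088294549) (nat_lit 76) (nat_lit 23876618980) (nat_lit 76) (nat_lit 13909516430) (nat_lit 5) (nat_lit 4) (nat_lit 6) (nat_lit 5) (nat_lit 6) (nat_lit 4) (nat_lit 400) (nat_lit 287) (nat_lit 213)) (XT.lf (nat_lit 0) (nat_lit 104740002304) (nat_lit 76) (nat_lit 18010183387) (nat_lit 76) (nat_lit 8029890797) (nat_lit 5) (nat_lit 4) (nat_lit 6) (nat_lit 5) (nat_lit 6) (nat_lit 4) (nat_lit 401) (nat_lit 287) (nat_lit 212)))) (XT.nd (nat_lit 156) (nat_lit 76) (nat_lit 0) (XT.nd (nat_lit 78) (nat_lit 76) (nat_lit 0) (XT.lf (nat_lit 0) (nat_lit 123242544376) (nat_lit 76) (nat_lit 11866061375) (nat_lit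 76) (nat_lit 1873206843) (nat_lit 5) (nat_lit 4) (nat_lit 6) (nat_lit 5) (nat_lit 6) (nat_lit 4) (nat_lit 402) (nat_lit 287) (nat_lit 211)) (XT.lf (nat_lit 0) (nat_lit 4428759416) (nat_lit 152) (nat_lit 925861483) (nat_lit 76) (nat_lit 138136211835) (nat_lit 4) (nat_lit 5) (nat_lit 6) (nat_lit 5) (nat_lit 5) (nat_lit 4) (nat_lit 403) (nat_lit 287) (nat_lit 210))) (XT.nd (nat_lit 78) (nat_lit 0) (nat_lit 0) (XT.lf (nat_lit 0) (nat_lit 11195832949) (nat_lit 152) (nat_lit 137460705632) (nat_lit 0) (nat_lit 1656583101) (nat_lit 3) (nat_lit 5) (nat_lit 5) (nat_lit 4) (nat_lit 3) (nat_lit 4) (nat_lit 404) (nat_lit 287) (nat_lit 209)) (XT.lf (nat_lit 0) (nat_lit 18390155048) (nat_lit 152) (nat_lit 130241356030) (nat_lit 0) (nat_lit 8840570460) (nat_lit 3) (nat_lit 5) (nat_lit 5) (nat_lit 4) (nat_lit 3) (nat_lit 4) (nat_lit 405) (nat_lit 287) (nat_lit 208))))))))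
noncomputable def xc69 : XT := (XT.nd (nat_lit 1950) (nat_lit 0) (nat_lit 0) (XT.nd (nat_lit 936) (nat_lit 76) (nat_lit 0) (XT.nd (nat_lit 468) (nat_lit 0) (nat_lit 0) (XT.nd (nat_lit 234) (nat_lit 0) (nat_lit 0) (XT.nd (nat_lit 78) (nat_lit 0) (nat_lit 0) (XT.lf (nat_lit 0) (nat_lit 25930076357) (nat_lit 152) (nat_lit 122688970863) (nat_lit 0) (nat_lit 16370649158) (nat_lit 3) (nat_lit 5) (nat_lit 5) (nat_lit 4) (nat_lit 3) (nat_lit 4) (nat_lit 406) (nat_lit 287) (nat_lit 207)) (XT.nd (nat_lit 78) (nat_lit 0) (nat_lit 0) (XT.lf (nat_lit 0) (nat_lit 33833549069) (nat_lit 152) (nat_lit 114785568263) (nat_lit 0) (nat_lit 24264747955) (nat_lit 3) (nat_lit 5) (nat_lit 5) (nat_lit 4) (nat_lit 3) (nat_lit 4) (nat_lit 407) (nat_lit 287) (nat_lit 206)) (XT.lf (nat_lit 0) (nat_lit 42119390977) (nat_lit 152) (nat_lit 106512330604) (nat_lit 0) (nat_lit 32541662324) (nat_lit 3) (nat_lit 5) (nat_lit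 5) (nat_lit 4) (nat_lit 3) (nat_lit 4) (nat_lit 408) (nat_lit 287) (nat_lit 205)))) (XT.nd (nat_lit 78) (nat_lit 0) (nat_lit 0) (XT.lf (nat_lit 0) (nat_lit 50807330274) (nat_lit 152) (nat_lit 97849559701) (nat_lit 0) (nat_lit 41221099205) (nat_lit 3) (nat_lit 5) (nat_lit 5) (nat_lit 4) (nat_lit 3) (nat_lit 4) (nat_lit 409) (nat_lit 287) (nat_lit 204)) (XT.nd (nat_lit 78) (nat_lit 0) (nat_lit 0) (XT.lf (nat_lit 0) (nat_lit 59918052532) (nat_lit 152) (nat_lit 88776629909) (nat_lit 0) (nat_lit 50323723922) (nat_lit 3) (nat_lit 5) (nat_lit 5) (nat_lit 4) (nat_lit 3) (nat_lit 4) (nat_lit 410) (nat_lit 287) (nat_lit 203)) (XT.lf (nat_lit 0) (nat_lit 69473249945) (nat_lit 152) (nat_lit 79271939014) (nat_lit 0) (nat_lit 59871209393) (nat_lit 3) (nat_lit 5) (nat_lit 5) (nat_lit 4) (nat_lit 3) (nat_lit 4) (nat_lit 411) (nat_lit 287) (nat_lit 202))))) (XT.nd (nat_lit 234) (nat_lit 0) (nat_lit 0) (XT.nd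 (nat_lit 78) (nat_lit 0) (nat_lit 0) (XT.lf (nat_lit 0) (nat_lit 79495672984) (nat_lit 152) (nat_lit 69312856801) (nat_lit 0) (nat_lit 69886287724) (nat_lit 3) (nat_lit 5) (nat_lit 5) (nat_lit 4) (nat_lit 3) (nat_lit 4) (nat_lit 412) (nat_lit 287) (nat_lit 201)) (XT.nd (nat_lit 78) (nat_lit 0) (nat_lit 0) (XT.lf (nat_lit 0) (nat_lit 90009184561) (nat_lit 152) (nat_lit 58875671167) (nat_lit 0) (nat_lit 80392804342) (nat_lit 3) (nat_lit 5) (nat_lit 5) (nat_lit 4) (nat_lit 3) (nat_lit 4) (nat_lit 413) (nat_lit 287) (nat_lit 200)) (XT.lf (nat_lit 0) (nat_lit 101038816847) (nat_lit 152) (nat_lit 47935531673) (nat_lit 0) (nat_lit 91415774761) (nat_lit 3) (nat_lit 5) (nat_lit 5) (nat_lit 4) (nat_lit 3) (nat_lit 4) (nat_lit 414) (nat_lit 287) (nat_lit 199)))) (XT.nd (nat_lit 78) (nat_lit 0) (nat_lit 0) (XT.lf (nat_lit 0) (nat_lit 112610830870) (nat_lit 152) (nat_lit 36466390365) (nat_lit 0) (nat_lit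 102981444149) (nat_lit 3) (nat_lit 5) (nat_lit 5) (nat_lit 4) (nat_lit 3) (nat_lit 4) (nat_lit 415) (nat_lit 287) (nat_lit 198)) (XT.nd (nat_lit 78) (nat_lit 0) (nat_lit 0) (XT.lf (nat_lit 0) (nat_lit 124752779045) (nat_lit 152) (nat_lit 24440939766) (nat_lit 0) (nat_lit 115117349815) (nat_lit 3) (nat_lit 5) (nat_lit 5) (nat_lit 4) (nat_lit 3) (nat_lit 4) (nat_lit 416) (nat_lit 287) (nat_lit 197)) (XT.lf (nat_lit 0) (nat_lit 137493570772) (nat_lit 152) (nat_lit 11830547849) (nat_lit 0) (nat_lit 127852386771) (nat_lit 3) (nat_lit 5) (nat_lit 5) (nat_lit 4) (nat_lit 3) (nat_lit 4) (nat_lit 417) (nat_lit 287) (nat_lit 196)))))) (XT.nd (nat_lit 468) (nat_lit 0) (nat_lit 0) (XT.nd (nat_lit 234) (nat_lit 0) (nat_lit 0) (XT.nd (nat_lit 78) (nat_lit 0) (nat_lit 0) (XT.lf (nat_lit 0) (nat_lit 1440928849) (nat_lit 76) (nat_lit 149445109358) (nat_lit 76) (nat_lit 139798444623) (nat_lit 2) (nat_lit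 4) (nat_lit 3) (nat_lit 5) (nat_lit 3) (nat_lit 4) (nat_lit 418) (nat_lit 287) (nat_lit 195)) (XT.nd (nat_lit 78) (nat_lit 0) (nat_lit 0) (XT.lf (nat_lit 0) (nat_lit 15771406617) (nat_lit 76) (nat_lit 149369353040) (nat_lit 76) (nat_lit 139717468559) (nat_lit 2) (nat_lit 4) (nat_lit 3) (nat_lit 5) (nat_lit 3) (nat_lit 4) (nat_lit 419) (nat_lit 287) (nat_lit 194)) (XT.lf (nat_lit 0) (nat_lit 30803834300) (nat_lit 76) (nat_lit 149297025348) (nat_lit 76) (nat_lit 139640169680) (nat_lit 2) (nat_lit 4) (nat_lit 3) (nat_lit 5) (nat_lit 3) (nat_lit 4) (nat_lit 420) (nat_lit 287) (nat_lit 193)))) (XT.nd (nat_lit 78) (nat_lit 0) (nat_lit 0) (XT.lf (nat_lit 0) (nat_lit 46574003392) (nat_lit 76) (nat_lit 149227954073) (nat_lit 76) (nat_lit 139566363941) (nat_lit 2) (nat_lit 4) (nat_lit 3) (nat_lit 5) (nat_lit 3) (nat_lit 4) (nat_lit 421) (nat_lit 287) (nat_lit 192)) (XT.nd (nat_lit 78) (nat_lit 0)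 (nat_lit 0) (XT.lf (nat_lit 0) (nat_lit 63119461915) (nat_lit 76) (nat_lit 149161974760) (nat_lit 76) (nat_lit 139495875614) (nat_lit 2) (nat_lit 4) (nat_lit 3) (nat_lit 5) (nat_lit 3) (nat_lit 4) (nat_lit 422) (nat_lit 287) (nat_lit 191)) (XT.lf (nat_lit 0) (nat_lit 80479603818) (nat_lit 76) (nat_lit 149098930315) (nat_lit 76) (nat_lit 139428536870) (nat_lit 2) (nat_lit 4) (nat_lit 3) (nat_lit 5) (nat_lit 3) (nat_lit 4) (nat_lit 423) (nat_lit 287) (nat_lit 190))))) (XT.nd (nat_lit 234) (nat_lit 0) (nat_lit 0) (XT.nd (nat_lit 78) (nat_lit 0) (nat_lit 0) (XT.lf (nat_lit 0) (nat_lit 98695762772) (nat_lit 76) (nat_lit 149038670631) (nat_lit 76) (nat_lit 139364187379) (nat_lit 2) (nat_lit 4) (nat_lit 3) (nat_lit 5) (nat_lit 3) (nat_lit 4) (nat_lit 424) (nat_lit 287) (nat_lit 189)) (XT.nd (nat_lit 78) (nat_lit 0) (nat_lit 0) (XT.lf (nat_lit 0) (nat_lit 117811310583) (nat_lit 76) (nat_lit 148981052235)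 (nat_lit 76) (nat_lit 139302673927) (nat_lit 2) (nat_lit 4) (nat_lit 3) (nat_lit 5) (nat_lit 3) (nat_lit 4) (nat_lit 425) (nat_lit 287) (nat_lit 188)) (XT.lf (nat_lit 0) (nat_lit 137871760462) (nat_lit 76) (nat_lit 148925937938) (nat_lit 76) (nat_lit 139243850054) (nat_lit 2) (nat_lit 4) (nat_lit 3) (nat_lit 5) (nat_lit 3) (nat_lit 4) (nat_lit 426) (nat_lit 287) (nat_lit 187)))) (XT.nd (nat_lit 156) (nat_lit 0) (nat_lit 0) (XT.nd (nat_lit 78) (nat_lit 0) (nat_lit 0) (XT.lf (nat_lit 0) (nat_lit 158924875383) (nat_lit 76) (nat_lit 148873196517) (nat_lit 76) (nat_lit 139187575703) (nat_lit 2) (nat_lit 4) (nat_lit 3) (nat_lit 5) (nat_lit 3) (nat_lit 4) (nat_lit 427) (nat_lit 287) (nat_lit 186)) (XT.lf (nat_lit 0) (nat_lit 181020781811) (nat_lit 76) (nat_lit 148822702397) (nat_lit 76) (nat_lit 139133716888) (nat_lit 2) (nat_lit 4) (nat_lit 3) (nat_lit 5) (nat_lit 3) (nat_lit 4) (nat_lit 428)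 (nat_lit 287) (nat_lit 185))) (XT.nd (nat_lit 78) (nat_lit 0) (nat_lit 0) (XT.lf (nat_lit 0) (nat_lit 204212089047) (nat_lit 76) (nat_lit 148774335353) (nat_lit 76) (nat_lit 139082145372) (nat_lit 2) (nat_lit 4) (nat_lit 3) (nat_lit 5) (nat_lit 3) (nat_lit 4) (nat_lit 429) (nat_lit 287) (nat_lit 184)) (XT.lf (nat_lit 0) (nat_lit 228554014490) (nat_lit 76) (nat_lit 148727980227) (nat_lit 76) (nat_lit 139032738368) (nat_lit 2) (nat_lit 4) (nat_lit 3) (nat_lit 5) (nat_lit 3) (nat_lit 4) (nat_lit 430) (nat_lit 287) (nat_lit 183))))))) (XT.nd (nat_lit 38688) (nat_lit 0) (nat_lit 3268) (XT.nd (nat_lit 468) (nat_lit 0) (nat_lit 0) (XT.nd (nat_lit 234) (nat_lit 0) (nat_lit 0) (XT.nd (nat_lit 78) (nat_lit 0) (nat_lit 0) (XT.lf (nat_lit 0) (nat_lit 254104515104) (nat_lit 76) (nat_lit 148683526647) (nat_lit 76) (nat_lit 138985378239) (nat_lit 2) (nat_lit 4) (nat_lit 3) (nat_lit 5) (nat_lit 3) (nat_lit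 4) (nat_lit 431) (nat_lit 287) (nat_lit 182)) (XT.nd (nat_lit 78) (nat_lit 0) (nat_lit 0) (XT.lf (nat_lit 0) (nat_lit 280924425415) (nat_lit 76) (nat_lit 148640868774) (nat_lit 76) (nat_lit 138939952222) (nat_lit 2) (nat_lit 4) (nat_lit 3) (nat_lit 5) (nat_lit 3) (nat_lit 4) (nat_lit 432) (nat_lit 287) (nat_lit 181)) (XT.lf (nat_lit 0) (nat_lit 309077602351) (nat_lit 76) (nat_lit 148599905040) (nat_lit 76) (nat_lit 138896352162) (nat_lit 2) (nat_lit 4) (nat_lit 3) (nat_lit 5) (nat_lit 3) (nat_lit 4) (nat_lit 433) (nat_lit 287) (nat_lit 180)))) (XT.nd (nat_lit 78) (nat_lit 0) (nat_lit 0) (XT.lf (nat_lit 0) (nat_lit 338631077288) (nat_lit 76) (nat_lit 148560537913) (nat_lit 76) (nat_lit 138854474247) (nat_lit 2) (nat_lit 4) (nat_lit 3) (nat_lit 5) (nat_lit 3) (nat_lit 4) (nat_lit 434) (nat_lit 287) (nat_lit 179)) (XT.nd (nat_lit 78) (nat_lit 0) (nat_lit 0) (XT.lf (nat_lit 0) (nat_lit 369655215641)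 (nat_lit 76) (nat_lit 148522673661) (nat_lit 76) (nat_lit 138814218769) (nat_lit 2) (nat_lit 4) (nat_lit 3) (nat_lit 5) (nat_lit 3) (nat_lit 4) (nat_lit 435) (nat_lit 287) (nat_lit 178)) (XT.lf (nat_lit 0) (nat_lit 402223884406) (nat_lit 76) (nat_lit 148486222132) (nat_lit 76) (nat_lit 138775489882) (nat_lit 2) (nat_lit 4) (nat_lit 3) (nat_lit 5) (nat_lit 3) (nat_lit 4) (nat_lit 436) (nat_lit 287) (nat_lit 177))))) (XT.nd (nat_lit 234) (nat_lit 0) (nat_lit 0) (XT.nd (nat_lit 78) (nat_lit 0) (nat_lit 0) (XT.lf (nat_lit 0) (nat_lit 436414628033) (nat_lit 76) (nat_lit 148451096536) (nat_lit 76) (nat_lit 138738195373) (nat_lit 2) (nat_lit 4) (nat_lit 3) (nat_lit 5) (nat_lit 3) (nat_lit 4) (nat_lit 437) (nat_lit 287) (nat_lit 176)) (XT.nd (nat_lit 78) (nat_lit 0) (nat_lit 0) (XT.lf (nat_lit 0) (nat_lit 472308853054) (nat_lit 76) (nat_lit 148417213241) (nat_lit 76) (nat_lit 138702246447) (nat_lit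 2) (nat_lit 4) (nat_lit 3) (nat_lit 5) (nat_lit 3) (nat_lit 4) (nat_lit 438) (nat_lit 287) (nat_lit 175)) (XT.lf (nat_lit 0) (nat_lit 509992021910) (nat_lit 76) (nat_lit 148384491571) (nat_lit 76) (nat_lit 138667557510) (nat_lit 2) (nat_lit 4) (nat_lit 3) (nat_lit 5) (nat_lit 3) (nat_lit 4) (nat_lit 439) (nat_lit 287) (nat_lit 174)))) (XT.nd (nat_lit 37830) (nat_lit 0) (nat_lit 5700) (XT.lf (nat_lit 0) (nat_lit 549553856432) (nat_lit 76) (nat_lit 148352853620) (nat_lit 76) (nat_lit 138634045970) (nat_lit 2) (nat_lit 4) (nat_lit 3) (nat_lit 5) (nat_lit 3) (nat_lit 4) (nat_lit 440) (nat_lit 287) (nat_lit 173)) (XT.nd (nat_lit 78) (nat_lit 304) (nat_lit 0) (XT.lf (nat_lit 0) (nat_lit 3680674309) (nat_lit 304) (nat_lit 210060508) (nat_lit 304) (nat_lit 210060508) (nat_lit 81) (nat_lit 4) (nat_lit 85) (nat_lit 5) (nat_lit 85) (nat_lit 4) (nat_lit 324) (nat_lit 288) (nat_lit 288)) (XT.lf (nat_lit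 0) (nat_lit 3422750930) (nat_lit 304) (nat_lit 2629461401) (nat_lit 0) (nat_lit 2304672374) (nat_lit 77) (nat_lit 5) (nat_lit 81) (nat_lit 4) (nat_lit 77) (nat_lit 4) (nat_lit 325) (nat_lit 288) (nat_lit 287)))))) (XT.nd (nat_lit 468) (nat_lit 1064) (nat_lit 0) (XT.nd (nat_lit 234) (nat_lit 532) (nat_lit 0) (XT.nd (nat_lit 78) (nat_lit 532) (nat_lit 0) (XT.lf (nat_lit 0) (nat_lit 4031783827) (nat_lit 304) (nat_lit 3337291657) (nat_lit 304) (nat_lit 1154376380) (nat_lit 73) (nat_lit 4) (nat_lit 77) (nat_lit 5) (nat_lit 77) (nat_lit 4) (nat_lit 326) (nat_lit 288) (nat_lit 286)) (XT.nd (nat_lit 78) (nat_lit 228) (nat_lit 0) (XT.lf (nat_lit 0) (nat_lit 2229465594) (nat_lit 228) (nat_lit 417612981) (nat_lit 304) (nat_lit 6053045058) (nat_lit 69) (nat_lit 5) (nat_lit 72) (nat_lit 5) (nat_lit 73) (nat_lit 4) (nat_lit 327) (nat_lit 288) (nat_lit 285)) (XT.lf (nat_lit 0) (nat_lit 286675311) (nat_lit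 228) (nat_lit 6282157444) (nat_lit 228) (nat_lit 2317506223) (nat_lit 66) (nat_lit 4) (nat_lit 69) (nat_lit 5) (nat_lit 69) (nat_lit 4) (nat_lit 328) (nat_lit 288) (nat_lit 284)))) (XT.nd (nat_lit 78) (nat_lit 456) (nat_lit 0) (XT.lf (nat_lit 0) (nat_lit 1518929623) (nat_lit 304) (nat_lit 1726889298) (nat_lit 76) (nat_lit 5836616471) (nat_lit 65) (nat_lit 5) (nat_lit 69) (nat_lit 5) (nat_lit 66) (nat_lit 4) (nat_lit 329) (nat_lit 288) (nat_lit 283)) (XT.nd (nat_lit 78) (nat_lit 228) (nat_lit 0) (XT.lf (nat_lit 0) (nat_lit 5408390592) (nat_lit 304) (nat_lit 3877577452) (nat_lit 0) (nat_lit 3607298) (nat_lit 62) (nat_lit 5) (nat_lit 66) (nat_lit 4) (nat_lit 62) (nat_lit 4) (nat_lit 330) (nat_lit 288) (nat_lit 282)) (XT.lf (nat_lit 0) (nat_lit 3298674106) (nat_lit 228) (nat_lit 6185225277) (nat_lit 228) (nat_lit 23682406) (nat_lit 59) (nat_lit 4) (nat_lit 62) (nat_lit 5) (nat_lit 62) (nat_lit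 4) (nat_lit 331) (nat_lit 288) (nat_lit 281))))) (XT.nd (nat_lit 234) (nat_lit 532) (nat_lit 0) (XT.nd (nat_lit 78) (nat_lit 304) (nat_lit 0) (XT.lf (nat_lit 0) (nat_lit 986090360) (nat_lit 152) (nat_lit 2852132389) (nat_lit 228) (nat_lit 5898182086) (nat_lit 56) (nat_lit 5) (nat_lit 58) (nat_lit 5) (nat_lit 59) (nat_lit 4) (nat_lit 332) (nat_lit 288) (nat_lit 280)) (XT.nd (nat_lit 78) (nat_lit 304) (nat_lit 0) (XT.lf (nat_lit 0) (nat_lit 7869931115) (nat_lit 228) (nat_lit 1446245113) (nat_lit 0) (nat_lit 661674426) (nat_lit 56) (nat_lit 5) (nat_lit 59) (nat_lit 4) (nat_lit 56) (nat_lit 4) (nat_lit 333) (nat_lit 288) (nat_lit 279)) (XT.lf (nat_lit 0) (nat_lit 1822210961) (nat_lit 304) (nat_lit 4095312192) (nat_lit 76) (nat_lit 4311940204) (nat_lit 52) (nat_lit 5) (nat_lit 56) (nat_lit 5) (nat_lit 53) (nat_lit 4) (nat_lit 334) (nat_lit 288) (nat_lit 278)))) (XT.nd (nat_lit 156) (nat_lit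 228) (nat_lit 0) (XT.nd (nat_lit 78) (nat_lit 152) (nat_lit 0) (XT.lf (nat_lit 0) (nat_lit 3519388010) (nat_lit 152) (nat_lit 2306550333) (nat_lit 228) (nat_lit 4668659879) (nat_lit 50) (nat_lit 5) (nat_lit 52) (nat_lit 5) (nat_lit 53) (nat_lit 4) (nat_lit 335) (nat_lit 288) (nat_lit 277)) (XT.lf (nat_lit 0) (nat_lit 673146865) (nat_lit 152) (nat_lit 9330833554) (nat_lit 152) (nat_lit 770365704) (nat_lit 48) (nat_lit 4) (nat_lit 50) (nat_lit 5) (nat_lit 50) (nat_lit 4) (nat_lit 336) (nat_lit 288) (nat_lit 276))) (XT.nd (nat_lit 78) (nat_lit 152) (nat_lit 0) (XT.lf (nat_lit 0) (nat_lit 3245111700) (nat_lit 228) (nat_lit 2420193534) (nat_lit 76) (nat_lit 5398808105) (nat_lit 47) (nat_lit 5) (nat_lit 50) (nat_lit 5) (nat_lit 48) (nat_lit 4) (nat_lit 337) (nat_lit 288) (nat_lit 275)) (XT.lf (nat_lit 0) (nat_lit 5609411479) (nat_lit 152) (nat_lit 1790538749) (nat_lit 228) (nat_lit 3969617579)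 (nat_lit 45) (nat_lit 5) (nat_lit 47) (nat_lit 5) (nat_lit 48) (nat_lit 4) (nat_lit 338) (nat_lit 288) (nat_lit 274))))))))
noncomputable def xc70 : XT := (XT.nd (nat_lit 1872) (nat_lit 760) (nat_lit 0) (XT.nd (nat_lit 936) (nat_lit 760) (nat_lit 0) (XT.nd (nat_lit 468) (nat_lit 608) (nat_lit 0) (XT.nd (nat_lit 234) (nat_lit 304) (nat_lit 0) (XT.nd (nat_lit 78) (nat_lit 152) (nat_lit 0) (XT.lf (nat_lit 0) (nat_lit 60794941) (nat_lit 228) (nat_lit 9423057250) (nat_lit 76) (nat_lit 2206891990) (nat_lit 42) (nat_lit 5) (nat_lit 45) (nat_lit 5) (nat_lit 43) (nat_lit 4) (nat_lit 339) (nat_lit 288) (nat_lit 273)) (XT.nd (nat_lit 78) (nat_lit 152) (nat_lit 0) (XT.lf (nat_lit 0) (nat_lit 4166908039) (nat_lit 228) (nat_lit 1426917448) (nat_lit 76) (nat_lit 6430567638) (nat_lit 42) (nat_lit 5) (nat_lit 45) (nat_lit 5) (nat_lit 43) (nat_lit 4) (nat_lit 340) (nat_lit 288) (nat_lit 272)) (XT.lf (nat_lit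 0) (nat_lit 6998068761) (nat_lit 152) (nat_lit 1474357312) (nat_lit 228) (nat_lit 3902638045) (nat_lit 40) (nat_lit 5) (nat_lit 42) (nat_lit 5) (nat_lit 43) (nat_lit 4) (nat_lit 341) (nat_lit 288) (nat_lit 271)))) (XT.nd (nat_lit 78) (nat_lit 76) (nat_lit 0) (XT.lf (nat_lit 0) (nat_lit 244059482) (nat_lit 228) (nat_lit 9740268251) (nat_lit 76) (nat_lit 2758680820) (nat_lit 37) (nat_lit 5) (nat_lit 40) (nat_lit 5) (nat_lit 38) (nat_lit 4) (nat_lit 342) (nat_lit 288) (nat_lit 270)) (XT.nd (nat_lit 78) (nat_lit 76) (nat_lit 0) (XT.lf (nat_lit 0) (nat_lit 4470298758) (nat_lit 228) (nat_lit 1423158018) (nat_lit 76) (nat_lit 7232564993) (nat_lit 37) (nat_lit 5) (nat_lit 40) (nat_lit 5) (nat_lit 38) (nat_lit 4) (nat_lit 343) (nat_lit 288) (nat_lit 269)) (XT.lf (nat_lit 0) (nat_lit 7357817646) (nat_lit 76) (nat_lit 1556943239) (nat_lit 152) (nat_lit 4613115880) (nat_lit 36) (nat_lit 5) (nat_lit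 37) (nat_lit 5) (nat_lit 38) (nat_lit 4) (nat_lit 344) (nat_lit 288) (nat_lit 268))))) (XT.nd (nat_lit 234) (nat_lit 304) (nat_lit 0) (XT.nd (nat_lit 78) (nat_lit 152) (nat_lit 0) (XT.lf (nat_lit 0) (nat_lit 2523674905) (nat_lit 152) (nat_lit 11061518301) (nat_lit 152) (nat_lit 364478868) (nat_lit 34) (nat_lit 4) (nat_lit 36) (nat_lit 5) (nat_lit 36) (nat_lit 4) (nat_lit 345) (nat_lit 288) (nat_lit 267)) (XT.nd (nat_lit 78) (nat_lit 76) (nat_lit 0) (XT.lf (nat_lit 0) (nat_lit 3990715972) (nat_lit 228) (nat_lit 2801286414) (nat_lit 76) (nat_lit 7596126351) (nat_lit 33) (nat_lit 5) (nat_lit 36) (nat_lit 5) (nat_lit 34) (nat_lit 4) (nat_lit 346) (nat_lit 288) (nat_lit 266)) (XT.lf (nat_lit 0) (nat_lit 6269279822) (nat_lit 76) (nat_lit 2278606544) (nat_lit 152) (nat_lit 6300530042) (nat_lit 32) (nat_lit 5) (nat_lit 33) (nat_lit 5) (nat_lit 34) (nat_lit 4) (nat_lit 347) (nat_lit 288) (nat_lit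 265)))) (XT.nd (nat_lit 78) (nat_lit 152) (nat_lit 0) (XT.lf (nat_lit 0) (nat_lit 352431401) (nat_lit 152) (nat_lit 12972052208) (nat_lit 152) (nat_lit 2007685166) (nat_lit 30) (nat_lit 4) (nat_lit 32) (nat_lit 5) (nat_lit 32) (nat_lit 4) (nat_lit 348) (nat_lit 288) (nat_lit 264)) (XT.nd (nat_lit 78) (nat_lit 76) (nat_lit 0) (XT.lf (nat_lit 0) (nat_lit 2504620258) (nat_lit 228) (nat_lit 6064542371) (nat_lit 76) (nat_lit 7264779361) (nat_lit 29) (nat_lit 5) (nat_lit 32) (nat_lit 5) (nat_lit 30) (nat_lit 4) (nat_lit 349) (nat_lit 288) (nat_lit 263)) (XT.lf (nat_lit 0) (nat_lit 3192971402) (nat_lit 76) (nat_lit 3936520551) (nat_lit 152) (nat_lit 9231969967) (nat_lit 28) (nat_lit 5) (nat_lit 29) (nat_lit 5) (nat_lit 30) (nat_lit 4) (nat_lit 350) (nat_lit 288) (nat_lit 262)))))) (XT.nd (nat_lit 468) (nat_lit 380) (nat_lit 0) (XT.nd (nat_lit 234) (nat_lit 152) (nat_lit 0) (XT.nd (nat_lit 78)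 (nat_lit 228) (nat_lit 0) (XT.lf (nat_lit 0) (nat_lit 12009751108) (nat_lit 152) (nat_lit 3975927996) (nat_lit 0) (nat_lit 928495182) (nat_lit 28) (nat_lit 5) (nat_lit 30) (nat_lit 4) (nat_lit 28) (nat_lit 4) (nat_lit 351) (nat_lit 288) (nat_lit 261)) (XT.nd (nat_lit 78) (nat_lit 76) (nat_lit 0) (XT.lf (nat_lit 0) (nat_lit 5626631159) (nat_lit 152) (nat_lit 11569553025) (nat_lit 152) (nat_lit 295252546) (nat_lit 26) (nat_lit 4) (nat_lit 28) (nat_lit 5) (nat_lit 28) (nat_lit 4) (nat_lit 352) (nat_lit 288) (nat_lit 260)) (XT.lf (nat_lit 0) (nat_lit 4377434478) (nat_lit 228) (nat_lit 2484411753) (nat_lit 76) (nat_lit 11233263646) (nat_lit 25) (nat_lit 5) (nat_lit 28) (nat_lit 5) (nat_lit 26) (nat_lit 4) (nat_lit 353) (nat_lit 288) (nat_lit 259)))) (XT.nd (nat_lit 78) (nat_lit 76) (nat_lit 0) (XT.lf (nat_lit 0) (nat_lit 7440675946) (nat_lit 76) (nat_lit 1863677946) (nat_lit 152) (nat_lit 9422864198)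 (nat_lit 24) (nat_lit 5) (nat_lit 25) (nat_lit 5) (nat_lit 26) (nat_lit 4) (nat_lit 354) (nat_lit 288) (nat_lit 258)) (XT.nd (nat_lit 78) (nat_lit 76) (nat_lit 0) (XT.lf (nat_lit 0) (nat_lit 14488121425) (nat_lit 152) (nat_lit 1652285777) (nat_lit 0) (nat_lit 3250017923) (nat_lit 24) (nat_lit 5) (nat_lit 26) (nat_lit 4) (nat_lit 24) (nat_lit 4) (nat_lit 355) (nat_lit 288) (nat_lit 257)) (XT.lf (nat_lit 0) (nat_lit 8556321021) (nat_lit 76) (nat_lit 11457846782) (nat_lit 76) (nat_lit 68487821) (nat_lit 23) (nat_lit 4) (nat_lit 24) (nat_lit 5) (nat_lit 24) (nat_lit 4) (nat_lit 356) (nat_lit 288) (nat_lit 256))))) (XT.nd (nat_lit 234) (nat_lit 228) (nat_lit 0) (XT.nd (nat_lit 78) (nat_lit 76) (nat_lit 0) (XT.lf (nat_lit 0) (nat_lit 4794379707) (nat_lit 152) (nat_lit 1704933378) (nat_lit 76) (nat_lit 14308911044) (nat_lit 22) (nat_lit 5) (nat_lit 24) (nat_lit 5) (nat_lit 23) (nat_lit 4) (nat_lit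 357) (nat_lit 288) (nat_lit 255)) (XT.nd (nat_lit 78) (nat_lit 0) (nat_lit 0) (XT.lf (nat_lit 0) (nat_lit 8742492061) (nat_lit 76) (nat_lit 1215116230) (nat_lit 152) (nat_lit 11609445897) (nat_lit 21) (nat_lit 5) (nat_lit 22) (nat_lit 5) (nat_lit 23) (nat_lit 4) (nat_lit 358) (nat_lit 288) (nat_lit 254)) (XT.lf (nat_lit 0) (nat_lit 15399453495) (nat_lit 152) (nat_lit 2803210597) (nat_lit 0) (nat_lit 4160153410) (nat_lit 21) (nat_lit 5) (nat_lit 23) (nat_lit 4) (nat_lit 21) (nat_lit 4) (nat_lit 359) (nat_lit 288) (nat_lit 253)))) (XT.nd (nat_lit 78) (nat_lit 152) (nat_lit 0) (XT.lf (nat_lit 0) (nat_lit 7812006718) (nat_lit 76) (nat_lit 13370369750) (nat_lit 76) (nat_lit 2012557055) (nat_lit 20) (nat_lit 4) (nat_lit 21) (nat_lit 5) (nat_lit 21) (nat_lit 4) (nat_lit 360) (nat_lit 288) (nat_lit 252)) (XT.nd (nat_lit 78) (nat_lit 76) (nat_lit 0) (XT.lf (nat_lit 0) (nat_lit 3059352002) (nat_lit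 152) (nat_lit 5199010241) (nat_lit 76) (nat_lit 15809042334) (nat_lit 19) (nat_lit 5) (nat_lit 21) (nat_lit 5) (nat_lit 20) (nat_lit 4) (nat_lit 361) (nat_lit 288) (nat_lit 251)) (XT.lf (nat_lit 0) (nat_lit 5506379121) (nat_lit 76) (nat_lit 2827550341) (nat_lit 152) (nat_lit 16647096618) (nat_lit 18) (nat_lit 5) (nat_lit 19) (nat_lit 5) (nat_lit 20) (nat_lit 4) (nat_lit 362) (nat_lit 288) (nat_lit 250))))))) (XT.nd (nat_lit 936) (nat_lit 304) (nat_lit 0) (XT.nd (nat_lit 468) (nat_lit 228) (nat_lit 0) (XT.nd (nat_lit 234) (nat_lit 152) (nat_lit 0) (XT.nd (nat_lit 78) (nat_lit 76) (nat_lit 0) (XT.lf (nat_lit 0) (nat_lit 13937684585) (nat_lit 152) (nat_lit 9186033583) (nat_lit 0) (nat_lit 2813349418) (nat_lit 18) (nat_lit 5) (nat_lit 20) (nat_lit 4) (nat_lit 18) (nat_lit 4) (nat_lit 363) (nat_lit 288) (nat_lit 249)) (XT.nd (nat_lit 78) (nat_lit 0) (nat_lit 0) (XT.lf (nat_lit 0) (nat_lit 1493392159)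 (nat_lit 76) (nat_lit 18332260732) (nat_lit 76) (nat_lit 7115067834) (nat_lit 17) (nat_lit 4) (nat_lit 18) (nat_lit 5) (nat_lit 18) (nat_lit 4) (nat_lit 364) (nat_lit 288) (nat_lit 248)) (XT.lf (nat_lit 0) (nat_lit 12902661785) (nat_lit 76) (nat_lit 13196488668) (nat_lit 76) (nat_lit 1890859836) (nat_lit 17) (nat_lit 4) (nat_lit 18) (nat_lit 5) (nat_lit 18) (nat_lit 4) (nat_lit 365) (nat_lit 288) (nat_lit 247)))) (XT.nd (nat_lit 78) (nat_lit 76) (nat_lit 0) (XT.lf (nat_lit 0) (nat_lit 3417124102) (nat_lit 152) (nat_lit 4384749121) (nat_lit 76) (nat_lit 21290213712) (nat_lit 16) (nat_lit 5) (nat_lit 18) (nat_lit 5) (nat_lit 17) (nat_lit 4) (nat_lit 366) (nat_lit 288) (nat_lit 246)) (XT.nd (nat_lit 78) (nat_lit 0) (nat_lit 0) (XT.lf (nat_lit 0) (nat_lit 6930213058) (nat_lit 76) (nat_lit 2045533569) (nat_lit 152) (nat_lit 21269540573) (nat_lit 15) (nat_lit 5) (nat_lit 16) (nat_lit 5) (nat_lit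 17) (nat_lit 4) (nat_lit 367) (nat_lit 288) (nat_lit 245)) (XT.lf (nat_lit 0) (nat_lit 14891040437) (nat_lit 152) (nat_lit 12666768381) (nat_lit 0) (nat_lit 3894410137) (nat_lit 15) (nat_lit 5) (nat_lit 17) (nat_lit 4) (nat_lit 15) (nat_lit 4) (nat_lit 368) (nat_lit 288) (nat_lit 244))))) (XT.nd (nat_lit 234) (nat_lit 152) (nat_lit 0) (XT.nd (nat_lit 78) (nat_lit 76) (nat_lit 0) (XT.lf (nat_lit 0) (nat_lit 21079284896) (nat_lit 152) (nat_lit 1627998454) (nat_lit 0) (nat_lit 10013362729) (nat_lit 15) (nat_lit 5) (nat_lit 17) (nat_lit 4) (nat_lit 15) (nat_lit 4) (nat_lit 369) (nat_lit 288) (nat_lit 243)) (XT.nd (nat_lit 78) (nat_lit 0) (nat_lit 0) (XT.lf (nat_lit 0) (nat_lit 10185453042) (nat_lit 76) (nat_lit 17496847835) (nat_lit 76) (nat_lit 6364933412) (nat_lit 14) (nat_lit 4) (nat_lit 15) (nat_lit 5) (nat_lit 15) (nat_lit 4) (nat_lit 370) (nat_lit 288) (nat_lit 242)) (XT.lf (nat_lit 0)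 (nat_lit 22544507914) (nat_lit 76) (nat_lit 12045835854) (nat_lit 76) (nat_lit 851071663) (nat_lit 14) (nat_lit 4) (nat_lit 15) (nat_lit 5) (nat_lit 15) (nat_lit 4) (nat_lit 371) (nat_lit 288) (nat_lit 241)))) (XT.nd (nat_lit 78) (nat_lit 76) (nat_lit 0) (XT.lf (nat_lit 0) (nat_lit 4729405846) (nat_lit 152) (nat_lit 1559339126) (nat_lit 76) (nat_lit 30615262879) (nat_lit 13) (nat_lit 5) (nat_lit 15) (nat_lit 5) (nat_lit 14) (nat_lit 4) (nat_lit 372) (nat_lit 288) (nat_lit 240)) (XT.nd (nat_lit 78) (nat_lit 0) (nat_lit 0) (XT.lf (nat_lit 0) (nat_lit 10575892721) (nat_lit 76) (nat_lit 100946510) (nat_lit 152) (nat_lit 27756372712) (nat_lit 12) (nat_lit 5) (nat_lit 13) (nat_lit 5) (nat_lit 14) (nat_lit 4) (nat_lit 373) (nat_lit 288) (nat_lit 239)) (XT.lf (nat_lit 0) (nat_lit 16999941006) (nat_lit 152) (nat_lit 16859770842) (nat_lit 0) (nat_lit 6175255583) (nat_lit 12) (nat_lit 5) (nat_lit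 14) (nat_lit 4) (nat_lit 12) (nat_lit 4) (nat_lit 374) (nat_lit 288) (nat_lit 238)))))) (XT.nd (nat_lit 468) (nat_lit 76) (nat_lit 0) (XT.nd (nat_lit 234) (nat_lit 152) (nat_lit 0) (XT.nd (nat_lit 78) (nat_lit 76) (nat_lit 0) (XT.lf (nat_lit 0) (nat_lit 23594750233) (nat_lit 152) (nat_lit 5403468214) (nat_lit 0) (nat_lit 12720820372) (nat_lit 12) (nat_lit 5) (nat_lit 14) (nat_lit 4) (nat_lit 12) (nat_lit 4) (nat_lit 375) (nat_lit 288) (nat_lit 237)) (XT.nd (nat_lit 78) (nat_lit 0) (nat_lit 0) (XT.lf (nat_lit 0) (nat_lit 6756698170) (nat_lit 76) (nat_lit 23824185603) (nat_lit 76) (nat_lit 12903356278) (nat_lit 11) (nat_lit 4) (nat_lit 12) (nat_lit 5) (nat_lit 12) (nat_lit 4) (nat_lit 376) (nat_lit 288) (nat_lit 236)) (XT.lf (nat_lit 0) (nat_lit 19628635496) (nat_lit 76) (nat_lit 18336073640) (nat_lit 76) (nat_lit 7370578159) (nat_lit 11) (nat_lit 4) (nat_lit 12) (nat_lit 5) (nat_lit 12)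 (nat_lit 4) (nat_lit 377) (nat_lit 288) (nat_lit 235)))) (XT.nd (nat_lit 78) (nat_lit 152) (nat_lit 0) (XT.lf (nat_lit 0) (nat_lit 33064328172) (nat_lit 76) (nat_lit 12612325974) (nat_lit 76) (nat_lit 1604291297) (nat_lit 11) (nat_lit 4) (nat_lit 12) (nat_lit 5) (nat_lit 12) (nat_lit 4) (nat_lit 378) (nat_lit 288) (nat_lit 234)) (XT.nd (nat_lit 78) (nat_lit 76) (nat_lit 0) (XT.lf (nat_lit 0) (nat_lit 4268110552) (nat_lit 152) (nat_lit 2298921564) (nat_lit 76) (nat_lit 42755372873) (nat_lit 10) (nat_lit 5) (nat_lit 12) (nat_lit 5) (nat_lit 11) (nat_lit 4) (nat_lit 379) (nat_lit 288) (nat_lit 233)) (XT.lf (nat_lit 0) (nat_lit 10449121217) (nat_lit 76) (nat_lit 56368402) (nat_lit 152) (nat_lit 40952873594) (nat_lit 9) (nat_lit 5) (nat_lit 10) (nat_lit 5) (nat_lit 11) (nat_lit 4) (nat_lit 380) (nat_lit 288) (nat_lit 232))))) (XT.nd (nat_lit 234) (nat_lit 76) (nat_lit 0) (XT.nd (nat_lit 78)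 (nat_lit 0) (nat_lit 0) (XT.lf (nat_lit 0) (nat_lit 17162413683) (nat_lit 152) (nat_lit 29965083174) (nat_lit 0) (nat_lit 6568242769) (nat_lit 9) (nat_lit 5) (nat_lit 11) (nat_lit 4) (nat_lit 9) (nat_lit 4) (nat_lit 381) (nat_lit 288) (nat_lit 231)) (XT.nd (nat_lit 78) (nat_lit 0) (nat_lit 0) (XT.lf (nat_lit 0) (nat_lit 24117157850) (nat_lit 152) (nat_lit 18439925838) (nat_lit 0) (nat_lit 13489656362) (nat_lit 9) (nat_lit 5) (nat_lit 11) (nat_lit 4) (nat_lit 9) (nat_lit 4) (nat_lit 382) (nat_lit 288) (nat_lit 230)) (XT.lf (nat_lit 0) (nat_lit 31385400967) (nat_lit 152) (nat_lit 6405449068) (nat_lit 0) (nat_lit 20726156076) (nat_lit 9) (nat_lit 5) (nat_lit 11) (nat_lit 4) (nat_lit 9) (nat_lit 4) (nat_lit 383) (nat_lit 288) (nat_lit 229)))) (XT.nd (nat_lit 156) (nat_lit 0) (nat_lit 0) (XT.nd (nat_lit 78) (nat_lit 0) (nat_lit 0) (XT.lf (nat_lit 0) (nat_lit 6370909543) (nat_lit 76) (nat_lit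 32713006582) (nat_lit 76) (nat_lit 22023529879) (nat_lit 8) (nat_lit 4) (nat_lit 9) (nat_lit 5) (nat_lit 9) (nat_lit 4) (nat_lit 384) (nat_lit 288) (nat_lit 228)) (XT.lf (nat_lit 0) (nat_lit 19945746165) (nat_lit 76) (nat_lit 27298055871) (nat_lit 76) (nat_lit 16579786965) (nat_lit 8) (nat_lit 4) (nat_lit 9) (nat_lit 5) (nat_lit 9) (nat_lit 4) (nat_lit 385) (nat_lit 288) (nat_lit 227))) (XT.nd (nat_lit 78) (nat_lit 0) (nat_lit 0) (XT.lf (nat_lit 0) (nat_lit 34139588763) (nat_lit 76) (nat_lit 21641584540) (nat_lit 76) (nat_lit 10895894488) (nat_lit 8) (nat_lit 4) (nat_lit 9) (nat_lit 5) (nat_lit 9) (nat_lit 4) (nat_lit 386) (nat_lit 288) (nat_lit 226)) (XT.lf (nat_lit 0) (nat_lit 48986232199) (nat_lit 76) (nat_lit 15730124800) (nat_lit 76) (nat_lit 4958319373) (nat_lit 8) (nat_lit 4) (nat_lit 9) (nat_lit 5) (nat_lit 9) (nat_lit 4) (nat_lit 387) (nat_lit 288) (nat_lit 225))))))))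
noncomputable def xc71 : XT := (XT.nd (nat_lit 1950) (nat_lit 76) (nat_lit 0) (XT.nd (nat_lit 936) (nat_lit 152) (nat_lit 0) (XT.nd (nat_lit 468) (nat_lit 76) (nat_lit 0) (XT.nd (nat_lit 234) (nat_lit 0) (nat_lit 0) (XT.nd (nat_lit 78) (nat_lit 76) (nat_lit 0) (XT.lf (nat_lit 0) (nat_lit 1207161262) (nat_lit 152) (nat_lit 8321996626) (nat_lit 76) (nat_lit 63293420502) (nat_lit 7) (nat_lit 5) (nat_lit 9) (nat_lit 5) (nat_lit 8) (nat_lit 4) (nat_lit 388) (nat_lit 288) (nat_lit 224)) (XT.nd (nat_lit 78) (nat_lit 0) (nat_lit 0) (XT.lf (nat_lit 0) (nat_lit 4678748040) (nat_lit 76) (nat_lit 2881794726) (nat_lit 152) (nat_lit 68560958235) (nat_lit 6) (nat_lit 5) (nat_lit 7) (nat_lit 5) (nat_lit 8) (nat_lit 4) (nat_lit 389) (nat_lit 288) (nat_lit 223)) (XT.lf (nat_lit 0) (nat_lit 14412105624) (nat_lit 152) (nat_lit 61078729740) (nat_lit 0) (nat_lit 4085511267) (nat_lit 6) (nat_lit 5) (nat_lit 8)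 (nat_lit 4) (nat_lit 6) (nat_lit 4) (nat_lit 390) (nat_lit 288) (nat_lit 222)))) (XT.nd (nat_lit 78) (nat_lit 0) (nat_lit 0) (XT.lf (nat_lit 0) (nat_lit 21628045849) (nat_lit 152) (nat_lit 50293811708) (nat_lit 0) (nat_lit 11280989411) (nat_lit 6) (nat_lit 5) (nat_lit 8) (nat_lit 4) (nat_lit 6) (nat_lit 4) (nat_lit 391) (nat_lit 288) (nat_lit 221)) (XT.nd (nat_lit 78) (nat_lit 0) (nat_lit 0) (XT.lf (nat_lit 0) (nat_lit 29180551359) (nat_lit 152) (nat_lit 39017327597) (nat_lit 0) (nat_lit 18814007225) (nat_lit 6) (nat_lit 5) (nat_lit 8) (nat_lit 4) (nat_lit 6) (nat_lit 4) (nat_lit 392) (nat_lit 288) (nat_lit 220)) (XT.lf (nat_lit 0) (nat_lit 37087604309) (nat_lit 152) (nat_lit 27222428636) (nat_lit 0) (nat_lit 26702500465) (nat_lit 6) (nat_lit 5) (nat_lit 8) (nat_lit 4) (nat_lit 6) (nat_lit 4) (nat_lit 393) (nat_lit 288) (nat_lit 219))))) (XT.nd (nat_lit 234) (nat_lit 0) (nat_lit 0) (XT.nd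 (nat_lit 78) (nat_lit 76) (nat_lit 0) (XT.lf (nat_lit 0) (nat_lit 45368031017) (nat_lit 152) (nat_lit 14881031732) (nat_lit 0) (nat_lit 34965251258) (nat_lit 6) (nat_lit 5) (nat_lit 8) (nat_lit 4) (nat_lit 6) (nat_lit 4) (nat_lit 394) (nat_lit 288) (nat_lit 218)) (XT.nd (nat_lit 78) (nat_lit 76) (nat_lit 0) (XT.lf (nat_lit 0) (nat_lit 54041546784) (nat_lit 152) (nat_lit 1963752606) (nat_lit 0) (nat_lit 43621932820) (nat_lit 6) (nat_lit 5) (nat_lit 8) (nat_lit 4) (nat_lit 6) (nat_lit 4) (nat_lit 395) (nat_lit 288) (nat_lit 217)) (XT.lf (nat_lit 0) (nat_lit 11942395402) (nat_lit 76) (nat_lit 51372861695) (nat_lit 76) (nat_lit 40937215156) (nat_lit 5) (nat_lit 4) (nat_lit 6) (nat_lit 5) (nat_lit 6) (nat_lit 4) (nat_lit 396) (nat_lit 288) (nat_lit 216)))) (XT.nd (nat_lit 78) (nat_lit 0) (nat_lit 0) (XT.lf (nat_lit 0) (nat_lit 26573434242) (nat_lit 76) (nat_lit 46492887040) (nat_lit 76) (nat_lit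 36041971381) (nat_lit 5) (nat_lit 4) (nat_lit 6) (nat_lit 5) (nat_lit 6) (nat_lit 4) (nat_lit 397) (nat_lit 288) (nat_lit 215)) (XT.nd (nat_lit 78) (nat_lit 0) (nat_lit 0) (XT.lf (nat_lit 0) (nat_lit 41899269190) (nat_lit 76) (nat_lit 41387013536) (nat_lit 76) (nat_lit 30921555859) (nat_lit 5) (nat_lit 4) (nat_lit 6) (nat_lit 5) (nat_lit 6) (nat_lit 4) (nat_lit 398) (nat_lit 288) (nat_lit 214)) (XT.lf (nat_lit 0) (nat_lit 57956390328) (nat_lit 76) (nat_lit 36043084344) (nat_lit 76) (nat_lit 25563777124) (nat_lit 5) (nat_lit 4) (nat_lit 6) (nat_lit 5) (nat_lit 6) (nat_lit 4) (nat_lit 399) (nat_lit 288) (nat_lit 213)))))) (XT.nd (nat_lit 468) (nat_lit 0) (nat_lit 0) (XT.nd (nat_lit 234) (nat_lit 152) (nat_lit 0) (XT.nd (nat_lit 78) (nat_lit 0) (nat_lit 0) (XT.lf (nat_lit 0) (nat_lit 74783028899) (nat_lit 76) (nat_lit 30448375821) (nat_lit 76) (nat_lit 19955878562) (nat_lit 5) (nat_lit 4)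 (nat_lit 6) (nat_lit 5) (nat_lit 6) (nat_lit 4) (nat_lit 400) (nat_lit 288) (nat_lit 212)) (XT.nd (nat_lit 78) (nat_lit 0) (nat_lit 0) (XT.lf (nat_lit 0) (nat_lit 92419248327) (nat_lit 76) (nat_lit 24589567233) (nat_lit 76) (nat_lit 14084508031) (nat_lit 5) (nat_lit 4) (nat_lit 6) (nat_lit 5) (nat_lit 6) (nat_lit 4) (nat_lit 401) (nat_lit 288) (nat_lit 211)) (XT.lf (nat_lit 0) (nat_lit 110907039611) (nat_lit 76) (nat_lit 18452709036) (nat_lit 76) (nat_lit 7935686080) (nat_lit 5) (nat_lit 4) (nat_lit 6) (nat_lit 5) (nat_lit 6) (nat_lit 4) (nat_lit 402) (nat_lit 288) (nat_lit 210)))) (XT.nd (nat_lit 78) (nat_lit 152) (nat_lit 0) (XT.lf (nat_lit 0) (nat_lit 130290421301) (nat_lit 76) (nat_lit 12023189663) (nat_lit 76) (nat_lit 1494772654) (nat_lit 5) (nat_lit 4) (nat_lit 6) (nat_lit 5) (nat_lit 6) (nat_lit 4) (nat_lit 403) (nat_lit 288) (nat_lit 209)) (XT.nd (nat_lit 78) (nat_lit 76) (nat_lit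 0) (XT.lf (nat_lit 0) (nat_lit 5085420775) (nat_lit 152) (nat_lit 114155897) (nat_lit 76) (nat_lit 145443999469) (nat_lit 4) (nat_lit 5) (nat_lit 6) (nat_lit 5) (nat_lit 5) (nat_lit 4) (nat_lit 404) (nat_lit 288) (nat_lit 208)) (XT.lf (nat_lit 0) (nat_lit 12189805212) (nat_lit 152) (nat_lit 143474664185) (nat_lit 0) (nat_lit 2142564042) (nat_lit 3) (nat_lit 5) (nat_lit 5) (nat_lit 4) (nat_lit 3) (nat_lit 4) (nat_lit 405) (nat_lit 288) (nat_lit 207))))) (XT.nd (nat_lit 234) (nat_lit 0) (nat_lit 0) (XT.nd (nat_lit 78) (nat_lit 0) (nat_lit 0) (XT.lf (nat_lit 0) (nat_lit 19723168149) (nat_lit 152) (nat_lit 135935255518) (nat_lit 0) (nat_lit 9666553065) (nat_lit 3) (nat_lit 5) (nat_lit 5) (nat_lit 4) (nat_lit 3) (nat_lit 4) (nat_lit 406) (nat_lit 288) (nat_lit 206)) (XT.nd (nat_lit 78) (nat_lit 0) (nat_lit 0) (XT.lf (nat_lit 0) (nat_lit 27620394793) (nat_lit 152) (nat_lit 128044211489) (nat_lit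 0) (nat_lit 17554852170) (nat_lit 3) (nat_lit 5) (nat_lit 5) (nat_lit 4) (nat_lit 3) (nat_lit 4) (nat_lit 407) (nat_lit 288) (nat_lit 205)) (XT.lf (nat_lit 0) (nat_lit 35900288064) (nat_lit 152) (nat_lit 119782743898) (nat_lit 0) (nat_lit 25826243024) (nat_lit 3) (nat_lit 5) (nat_lit 5) (nat_lit 4) (nat_lit 3) (nat_lit 4) (nat_lit 408) (nat_lit 288) (nat_lit 204)))) (XT.nd (nat_lit 156) (nat_lit 0) (nat_lit 0) (XT.nd (nat_lit 78) (nat_lit 0) (nat_lit 0) (XT.lf (nat_lit 0) (nat_lit 44582561993) (nat_lit 152) (nat_lit 111131182583) (nat_lit 0) (nat_lit 34500419413) (nat_lit 3) (nat_lit 5) (nat_lit 5) (nat_lit 4) (nat_lit 3) (nat_lit 4) (nat_lit 409) (nat_lit 288) (nat_lit 203)) (XT.lf (nat_lit 0) (nat_lit 53687888662) (nat_lit 152) (nat_lit 102068928589) (nat_lit 0) (nat_lit 43598034138) (nat_lit 3) (nat_lit 5) (nat_lit 5) (nat_lit 4) (nat_lit 3) (nat_lit 4) (nat_lit 410) (nat_lit 288) (nat_lit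 202))) (XT.nd (nat_lit 78) (nat_lit 0) (nat_lit 0) (XT.lf (nat_lit 0) (nat_lit 63237947419) (nat_lit 152) (nat_lit 92574405122) (nat_lit 0) (nat_lit 53140748188) (nat_lit 3) (nat_lit 5) (nat_lit 5) (nat_lit 4) (nat_lit 3) (nat_lit 4) (nat_lit 411) (nat_lit 288) (nat_lit 201)) (XT.lf (nat_lit 0) (nat_lit 73255476500) (nat_lit 152) (nat_lit 82625006172) (nat_lit 0) (nat_lit 63151282310) (nat_lit 3) (nat_lit 5) (nat_lit 5) (nat_lit 4) (nat_lit 3) (nat_lit 4) (nat_lit 412) (nat_lit 288) (nat_lit 200))))))) (XT.nd (nat_lit 936) (nat_lit 0) (nat_lit 0) (XT.nd (nat_lit 468) (nat_lit 76) (nat_lit 0) (XT.nd (nat_lit 234) (nat_lit 0) (nat_lit 0) (XT.nd (nat_lit 78) (nat_lit 0) (nat_lit 0) (XT.lf (nat_lit 0) (nat_lit 83764327165) (nat_lit 152) (nat_lit 72197042695) (nat_lit 0) (nat_lit 73653471108) (nat_lit 3) (nat_lit 5) (nat_lit 5) (nat_lit 4) (nat_lit 3) (nat_lit 4) (nat_lit 413) (nat_lit 288)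 (nat_lit 199)) (XT.nd (nat_lit 78) (nat_lit 0) (nat_lit 0) (XT.lf (nat_lit 0) (nat_lit 94789520486) (nat_lit 152) (nat_lit 61265686206) (nat_lit 0) (nat_lit 84672319794) (nat_lit 3) (nat_lit 5) (nat_lit 5) (nat_lit 4) (nat_lit 3) (nat_lit 4) (nat_lit 414) (nat_lit 288) (nat_lit 198)) (XT.lf (nat_lit 0) (nat_lit 106357306924) (nat_lit 152) (nat_lit 49804909666) (nat_lit 0) (nat_lit 96234063723) (nat_lit 3) (nat_lit 5) (nat_lit 5) (nat_lit 4) (nat_lit 3) (nat_lit 4) (nat_lit 415) (nat_lit 288) (nat_lit 197)))) (XT.nd (nat_lit 78) (nat_lit 0) (nat_lit 0) (XT.lf (nat_lit 0) (nat_lit 118495228827) (nat_lit 152) (nat_lit 37787425512) (nat_lit 0) (nat_lit 108366230856) (nat_lit 3) (nat_lit 5) (nat_lit 5) (nat_lit 4) (nat_lit 3) (nat_lit 4) (nat_lit 416) (nat_lit 288) (nat_lit 196)) (XT.nd (nat_lit 78) (nat_lit 0) (nat_lit 0) (XT.lf (nat_lit 0) (nat_lit 131232186010) (nat_lit 152) (nat_lit 25184620686)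 (nat_lit 0) (nat_lit 121097707305) (nat_lit 3) (nat_lit 5) (nat_lit 5) (nat_lit 4) (nat_lit 3) (nat_lit 4) (nat_lit 417) (nat_lit 288) (nat_lit 195)) (XT.lf (nat_lit 0) (nat_lit 144598504561) (nat_lit 152) (nat_lit 11966488510) (nat_lit 0) (nat_lit 134458806109) (nat_lit 3) (nat_lit 5) (nat_lit 5) (nat_lit 4) (nat_lit 3) (nat_lit 4) (nat_lit 418) (nat_lit 288) (nat_lit 194))))) (XT.nd (nat_lit 234) (nat_lit 0) (nat_lit 0) (XT.nd (nat_lit 78) (nat_lit 0) (nat_lit 0) (XT.lf (nat_lit 0) (nat_lit 1961213850) (nat_lit 76) (nat_lit 156695415243) (nat_lit 76) (nat_lit 146550745603) (nat_lit 2) (nat_lit 4) (nat_lit 3) (nat_lit 5) (nat_lit 3) (nat_lit 4) (nat_lit 419) (nat_lit 288) (nat_lit 193)) (XT.nd (nat_lit 78) (nat_lit 0) (nat_lit 0) (XT.lf (nat_lit 0) (nat_lit 16986870813) (nat_lit 76) (nat_lit 156626440137) (nat_lit 76) (nat_lit 146477036034) (nat_lit 2) (nat_lit 4) (nat_lit 3) (nat_lit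 5) (nat_lit 3) (nat_lit 4) (nat_lit 420) (nat_lit 288) (nat_lit 192)) (XT.lf (nat_lit 0) (nat_lit 32750591601) (nat_lit 76) (nat_lit 156560561801) (nat_lit 76) (nat_lit 146406648685) (nat_lit 2) (nat_lit 4) (nat_lit 3) (nat_lit 5) (nat_lit 3) (nat_lit 4) (nat_lit 421) (nat_lit 288) (nat_lit 191)))) (XT.nd (nat_lit 78) (nat_lit 0) (nat_lit 0) (XT.lf (nat_lit 0) (nat_lit 49289908882) (nat_lit 76) (nat_lit 156497623382) (nat_lit 76) (nat_lit 146339415967) (nat_lit 2) (nat_lit 4) (nat_lit 3) (nat_lit 5) (nat_lit 3) (nat_lit 4) (nat_lit 422) (nat_lit 288) (nat_lit 190)) (XT.nd (nat_lit 78) (nat_lit 0) (nat_lit 0) (XT.lf (nat_lit 0) (nat_lit 66644201982) (nat_lit 76) (nat_lit 156437475027) (nat_lit 76) (nat_lit 146275177804) (nat_lit 2) (nat_lit 4) (nat_lit 3) (nat_lit 5) (nat_lit 3) (nat_lit 4) (nat_lit 423) (nat_lit 288) (nat_lit 189)) (XT.lf (nat_lit 0) (nat_lit 84854790648) (nat_lit 76) (nat_lit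 156379973524) (nat_lit 76) (nat_lit 146213781246) (nat_lit 2) (nat_lit 4) (nat_lit 3) (nat_lit 5) (nat_lit 3) (nat_lit 4) (nat_lit 424) (nat_lit 288) (nat_lit 188)))))) (XT.nd (nat_lit 468) (nat_lit 0) (nat_lit 0) (XT.nd (nat_lit 234) (nat_lit 0) (nat_lit 0) (XT.nd (nat_lit 78) (nat_lit 0) (nat_lit 0) (XT.lf (nat_lit 0) (nat_lit 103965033424) (nat_lit 76) (nat_lit 156324981967) (nat_lit 76) (nat_lit 146155080112) (nat_lit 2) (nat_lit 4) (nat_lit 3) (nat_lit 5) (nat_lit 3) (nat_lit 4) (nat_lit 425) (nat_lit 288) (nat_lit 187)) (XT.nd (nat_lit 78) (nat_lit 0) (nat_lit 0) (XT.lf (nat_lit 0) (nat_lit 124020430887) (nat_lit 76) (nat_lit 156272369422) (nat_lit 76) (nat_lit 146098934637) (nat_lit 2) (nat_lit 4) (nat_lit 3) (nat_lit 5) (nat_lit 3) (nat_lit 4) (nat_lit 426) (nat_lit 288) (nat_lit 186)) (XT.lf (nat_lit 0) (nat_lit 145068733984) (nat_lit 76) (nat_lit 156222010621) (nat_lit 76) (nat_lit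 146045211141) (nat_lit 2) (nat_lit 4) (nat_lit 3) (nat_lit 5) (nat_lit 3) (nat_lit 4) (nat_lit 427) (nat_lit 288) (nat_lit 185)))) (XT.nd (nat_lit 78) (nat_lit 0) (nat_lit 0) (XT.lf (nat_lit 0) (nat_lit 167160057723) (nat_lit 76) (nat_lit 156173785663) (nat_lit 76) (nat_lit 145993781711) (nat_lit 2) (nat_lit 4) (nat_lit 3) (nat_lit 5) (nat_lit 3) (nat_lit 4) (nat_lit 428) (nat_lit 288) (nat_lit 184)) (XT.nd (nat_lit 78) (nat_lit 0) (nat_lit 0) (XT.lf (nat_lit 0) (nat_lit 190347000493) (nat_lit 76) (nat_lit 156127579726) (nat_lit 76) (nat_lit 145944523897) (nat_lit 2) (nat_lit 4) (nat_lit 3) (nat_lit 5) (nat_lit 3) (nat_lit 4) (nat_lit 429) (nat_lit 288) (nat_lit 183)) (XT.lf (nat_lit 0) (nat_lit 214684769301) (nat_lit 76) (nat_lit 156083282796) (nat_lit 76) (nat_lit 145897320417) (nat_lit 2) (nat_lit 4) (nat_lit 3) (nat_lit 5) (nat_lit 3) (nat_lit 4) (nat_lit 430) (nat_lit 288) (nat_lit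 182))))) (XT.nd (nat_lit 234) (nat_lit 0) (nat_lit 0) (XT.nd (nat_lit 78) (nat_lit 0) (nat_lit 0) (XT.lf (nat_lit 0) (nat_lit 240231311216) (nat_lit 76) (nat_lit 156040789405) (nat_lit 76) (nat_lit 145852058882) (nat_lit 2) (nat_lit 4) (nat_lit 3) (nat_lit 5) (nat_lit 3) (nat_lit 4) (nat_lit 431) (nat_lit 288) (nat_lit 181)) (XT.nd (nat_lit 78) (nat_lit 0) (nat_lit 0) (XT.lf (nat_lit 0) (nat_lit 267047451337) (nat_lit 76) (nat_lit 155999998377) (nat_lit 76) (nat_lit 145808631528) (nat_lit 2) (nat_lit 4) (nat_lit 3) (nat_lit 5) (nat_lit 3) (nat_lit 4) (nat_lit 432) (nat_lit 288) (nat_lit 180)) (XT.lf (nat_lit 0) (nat_lit 295197037616) (nat_lit 76) (nat_lit 155960812591) (nat_lit 76) (nat_lit 145766934955) (nat_lit 2) (nat_lit 4) (nat_lit 3) (nat_lit 5) (nat_lit 3) (nat_lit 4) (nat_lit 433) (nat_lit 288) (nat_lit 179)))) (XT.nd (nat_lit 156) (nat_lit 0) (nat_lit 0) (XT.nd (nat_lit 78) (nat_lit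 0) (nat_lit 0) (XT.lf (nat_lit 0) (nat_lit 324747092880) (nat_lit 76) (nat_lit 155923138748) (nat_lit 76) (nat_lit 145726869885) (nat_lit 2) (nat_lit 4) (nat_lit 3) (nat_lit 5) (nat_lit 3) (nat_lit 4) (nat_lit 434) (nat_lit 288) (nat_lit 178)) (XT.lf (nat_lit 0) (nat_lit 355767974401) (nat_lit 76) (nat_lit 155886887147) (nat_lit 76) (nat_lit 145688340926) (nat_lit 2) (nat_lit 4) (nat_lit 3) (nat_lit 5) (nat_lit 3) (nat_lit 4) (nat_lit 435) (nat_lit 288) (nat_lit 177))) (XT.nd (nat_lit 78) (nat_lit 0) (nat_lit 0) (XT.lf (nat_lit 0) (nat_lit 388333541421) (nat_lit 76) (nat_lit 155851971476) (nat_lit 76) (nat_lit 145651256343) (nat_lit 2) (nat_lit 4) (nat_lit 3) (nat_lit 5) (nat_lit 3) (nat_lit 4) (nat_lit 436) (nat_lit 288) (nat_lit 176)) (XT.lf (nat_lit 0) (nat_lit 422521331006) (nat_lit 76) (nat_lit 155818308603) (nat_lit 76) (nat_lit 145615527838) (nat_lit 2) (nat_lit 4) (nat_lit 3) (nat_lit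 5) (nat_lit 3) (nat_lit 4) (nat_lit 437) (nat_lit 288) (nat_lit 175))))))))
noncomputable def xc72 : XT := (XT.nd (nat_lit 39468) (nat_lit 0) (nat_lit 1064) (XT.nd (nat_lit 38532) (nat_lit 0) (nat_lit 2736) (XT.nd (nat_lit 38064) (nat_lit 0) (nat_lit 4560) (XT.nd (nat_lit 37830) (nat_lit 0) (nat_lit 5928) (XT.nd (nat_lit 78) (nat_lit 0) (nat_lit 0) (XT.lf (nat_lit 0) (nat_lit 458412742653) (nat_lit 76) (nat_lit 155785818376) (nat_lit 76) (nat_lit 145581070344) (nat_lit 2) (nat_lit 4) (nat_lit 3) (nat_lit 5) (nat_lit 3) (nat_lit 4) (nat_lit 438) (nat_lit 288) (nat_lit 174)) (XT.nd (nat_lit 78) (nat_lit 0) (nat_lit 0) (XT.lf (nat_lit 0) (nat_lit 496093232106) (nat_lit 76) (nat_lit 155754423439) (nat_lit 76) (nat_lit 145547801819) (nat_lit 2) (nat_lit 4) (nat_lit 3) (nat_lit 5) (nat_lit 3) (nat_lit 4) (nat_lit 439) (nat_lit 288) (nat_lit 173)) (XT.lf (nat_lit 0) (nat_lit 535652514814) (nat_lit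 76) (nat_lit 155724049042) (nat_lit 76) (nat_lit 145515643052) (nat_lit 2) (nat_lit 4) (nat_lit 3) (nat_lit 5) (nat_lit 3) (nat_lit 4) (nat_lit 440) (nat_lit 288) (nat_lit 172)))) (XT.nd (nat_lit 78) (nat_lit 380) (nat_lit 0) (XT.lf (nat_lit 0) (nat_lit 653714481) (nat_lit 380) (nat_lit 2648006215) (nat_lit 0) (nat_lit 653714481) (nat_lit 85) (nat_lit 5) (nat_lit 90) (nat_lit 4) (nat_lit 85) (nat_lit 4) (nat_lit 322) (nat_lit 289) (nat_lit 289)) (XT.nd (nat_lit 78) (nat_lit 76) (nat_lit 0) (XT.lf (nat_lit 0) (nat_lit 840429952) (nat_lit 304) (nat_lit 4222547013) (nat_lit 304) (nat_lit 2989865405) (nat_lit 81) (nat_lit 4) (nat_lit 85) (nat_lit 5) (nat_lit 85) (nat_lit 4) (nat_lit 323) (nat_lit 289) (nat_lit 288)) (XT.lf (nat_lit 0) (nat_lit 707266728) (nat_lit 380) (nat_lit 956767298) (nat_lit 76) (nat_lit 6540950244) (nat_lit 80) (nat_lit 5) (nat_lit 85) (nat_lit 5) (nat_lit 81) (nat_lit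 4) (nat_lit 324) (nat_lit 289) (nat_lit 287))))) (XT.nd (nat_lit 234) (nat_lit 532) (nat_lit 0) (XT.nd (nat_lit 78) (nat_lit 608) (nat_lit 0) (XT.lf (nat_lit 0) (nat_lit 4437863387) (nat_lit 304) (nat_lit 2846123350) (nat_lit 0) (nat_lit 1080965626) (nat_lit 77) (nat_lit 5) (nat_lit 81) (nat_lit 4) (nat_lit 77) (nat_lit 4) (nat_lit 325) (nat_lit 289) (nat_lit 286)) (XT.nd (nat_lit 78) (nat_lit 304) (nat_lit 0) (XT.lf (nat_lit 0) (nat_lit 3703973958) (nat_lit 304) (nat_lit 4601288739) (nat_lit 304) (nat_lit 230260768) (nat_lit 73) (nat_lit 4) (nat_lit 77) (nat_lit 5) (nat_lit 77) (nat_lit 4) (nat_lit 326) (nat_lit 289) (nat_lit 285)) (XT.lf (nat_lit 0) (nat_lit 1758584136) (nat_lit 228) (nat_lit 1702611181) (nat_lit 304) (nat_lit 5254351903) (nat_lit 69) (nat_lit 5) (nat_lit 72) (nat_lit 5) (nat_lit 73) (nat_lit 4) (nat_lit 327) (nat_lit 289) (nat_lit 284)))) (XT.nd (nat_lit 78) (nat_lit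 532) (nat_lit 0) (XT.lf (nat_lit 0) (nat_lit 7286813691) (nat_lit 304) (nat_lit 291765382) (nat_lit 0) (nat_lit 1328040109) (nat_lit 69) (nat_lit 5) (nat_lit 73) (nat_lit 4) (nat_lit 69) (nat_lit 4) (nat_lit 328) (nat_lit 289) (nat_lit 283)) (XT.nd (nat_lit 78) (nat_lit 228) (nat_lit 0) (XT.lf (nat_lit 0) (nat_lit 2118556118) (nat_lit 304) (nat_lit 2450060972) (nat_lit 76) (nat_lit 4537386220) (nat_lit 65) (nat_lit 5) (nat_lit 69) (nat_lit 5) (nat_lit 66) (nat_lit 4) (nat_lit 329) (nat_lit 289) (nat_lit 282)) (XT.lf (nat_lit 0) (nat_lit 4562896931) (nat_lit 228) (nat_lit 1364222825) (nat_lit 304) (nat_lit 3390111413) (nat_lit 62) (nat_lit 5) (nat_lit 65) (nat_lit 5) (nat_lit 66) (nat_lit 4) (nat_lit 330) (nat_lit 289) (nat_lit 281)))))) (XT.nd (nat_lit 468) (nat_lit 912) (nat_lit 0) (XT.nd (nat_lit 234) (nat_lit 456) (nat_lit 0) (XT.nd (nat_lit 78) (nat_lit 152) (nat_lit 0) (XT.lf (nat_lit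 0) (nat_lit 347620691) (nat_lit 304) (nat_lit 7234480581) (nat_lit 76) (nat_lit 1958051061) (nat_lit 58) (nat_lit 5) (nat_lit 62) (nat_lit 5) (nat_lit 59) (nat_lit 4) (nat_lit 331) (nat_lit 289) (nat_lit 280)) (XT.nd (nat_lit 78) (nat_lit 152) (nat_lit 0) (XT.lf (nat_lit 0) (nat_lit 4127526126) (nat_lit 304) (nat_lit 172077683) (nat_lit 76) (nat_lit 5473452352) (nat_lit 58) (nat_lit 5) (nat_lit 62) (nat_lit 5) (nat_lit 59) (nat_lit 4) (nat_lit 332) (nat_lit 289) (nat_lit 279)) (XT.lf (nat_lit 0) (nat_lit 7279912879) (nat_lit 152) (nat_lit 801617119) (nat_lit 228) (nat_lit 1936892617) (nat_lit 56) (nat_lit 5) (nat_lit 58) (nat_lit 5) (nat_lit 59) (nat_lit 4) (nat_lit 333) (nat_lit 289) (nat_lit 278)))) (XT.nd (nat_lit 78) (nat_lit 152) (nat_lit 0) (XT.lf (nat_lit 0) (nat_lit 1889716668) (nat_lit 304) (nat_lit 5563996635) (nat_lit 76) (nat_lit 2821122988) (nat_lit 52) (nat_lit 5) (nat_lit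 56) (nat_lit 5) (nat_lit 53) (nat_lit 4) (nat_lit 334) (nat_lit 289) (nat_lit 277)) (XT.nd (nat_lit 78) (nat_lit 0) (nat_lit 0) (XT.lf (nat_lit 0) (nat_lit 1901527082) (nat_lit 152) (nat_lit 3905374642) (nat_lit 228) (nat_lit 4737427138) (nat_lit 50) (nat_lit 5) (nat_lit 52) (nat_lit 5) (nat_lit 53) (nat_lit 4) (nat_lit 335) (nat_lit 289) (nat_lit 276)) (XT.lf (nat_lit 0) (nat_lit 9737057293) (nat_lit 152) (nat_lit 154403023) (nat_lit 228) (nat_lit 937319753) (nat_lit 50) (nat_lit 5) (nat_lit 52) (nat_lit 5) (nat_lit 53) (nat_lit 4) (nat_lit 336) (nat_lit 289) (nat_lit 275))))) (XT.nd (nat_lit 234) (nat_lit 532) (nat_lit 0) (XT.nd (nat_lit 78) (nat_lit 152) (nat_lit 0) (XT.lf (nat_lit 0) (nat_lit 3003143688) (nat_lit 228) (nat_lit 4369880222) (nat_lit 76) (nat_lit 3749698005) (nat_lit 47) (nat_lit 5) (nat_lit 50) (nat_lit 5) (nat_lit 48) (nat_lit 4) (nat_lit 337) (nat_lit 289) (nat_lit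 274)) (XT.nd (nat_lit 78) (nat_lit 0) (nat_lit 0) (XT.lf (nat_lit 0) (nat_lit 3498140121) (nat_lit 152) (nat_lit 3569688971) (nat_lit 228) (nat_lit 4364880115) (nat_lit 45) (nat_lit 5) (nat_lit 47) (nat_lit 5) (nat_lit 48) (nat_lit 4) (nat_lit 338) (nat_lit 289) (nat_lit 273)) (XT.lf (nat_lit 0) (nat_lit 11301796441) (nat_lit 228) (nat_lit 45274656) (nat_lit 0) (nat_lit 412871516) (nat_lit 45) (nat_lit 5) (nat_lit 48) (nat_lit 4) (nat_lit 45) (nat_lit 4) (nat_lit 339) (nat_lit 289) (nat_lit 272)))) (XT.nd (nat_lit 78) (nat_lit 304) (nat_lit 0) (XT.lf (nat_lit 0) (nat_lit 3605712556) (nat_lit 228) (nat_lit 3898539943) (nat_lit 76) (nat_lit 4592564339) (nat_lit 42) (nat_lit 5) (nat_lit 45) (nat_lit 5) (nat_lit 43) (nat_lit 4) (nat_lit 340) (nat_lit 289) (nat_lit 271)) (XT.nd (nat_lit 78) (nat_lit 152) (nat_lit 0) (XT.lf (nat_lit 0) (nat_lit 4351163139) (nat_lit 152) (nat_lit 3465241170) (nat_lit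 228) (nat_lit 4635845540) (nat_lit 40) (nat_lit 5) (nat_lit 42) (nat_lit 5) (nat_lit 43) (nat_lit 4) (nat_lit 341) (nat_lit 289) (nat_lit 270)) (XT.lf (nat_lit 0) (nat_lit 130640190) (nat_lit 152) (nat_lit 12079765143) (nat_lit 152) (nat_lit 616450866) (nat_lit 38) (nat_lit 4) (nat_lit 40) (nat_lit 5) (nat_lit 40) (nat_lit 4) (nat_lit 342) (nat_lit 289) (nat_lit 269))))))) (XT.nd (nat_lit 936) (nat_lit 608) (nat_lit 0) (XT.nd (nat_lit 468) (nat_lit 608) (nat_lit 0) (XT.nd (nat_lit 234) (nat_lit 304) (nat_lit 0) (XT.nd (nat_lit 78) (nat_lit 76) (nat_lit 0) (XT.lf (nat_lit 0) (nat_lit 3576852703) (nat_lit 228) (nat_lit 4460937931) (nat_lit 76) (nat_lit 5175211190) (nat_lit 37) (nat_lit 5) (nat_lit 40) (nat_lit 5) (nat_lit 38) (nat_lit 4) (nat_lit 343) (nat_lit 289) (nat_lit 268)) (XT.nd (nat_lit 78) (nat_lit 0) (nat_lit 0) (XT.lf (nat_lit 0) (nat_lit 4129613437) (nat_lit 76) (nat_lit 3791141999)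 (nat_lit 152) (nat_lit 5699146387) (nat_lit 36) (nat_lit 5) (nat_lit 37) (nat_lit 5) (nat_lit 38) (nat_lit 4) (nat_lit 344) (nat_lit 289) (nat_lit 267)) (XT.lf (nat_lit 0) (nat_lit 12467225191) (nat_lit 152) (nat_lit 930042693) (nat_lit 0) (nat_lit 650643600) (nat_lit 36) (nat_lit 5) (nat_lit 38) (nat_lit 4) (nat_lit 36) (nat_lit 4) (nat_lit 345) (nat_lit 289) (nat_lit 266)))) (XT.nd (nat_lit 78) (nat_lit 76) (nat_lit 0) (XT.lf (nat_lit 0) (nat_lit 2748716795) (nat_lit 228) (nat_lit 6453345232) (nat_lit 76) (nat_lit 5288506153) (nat_lit 33) (nat_lit 5) (nat_lit 36) (nat_lit 5) (nat_lit 34) (nat_lit 4) (nat_lit 346) (nat_lit 289) (nat_lit 265)) (XT.nd (nat_lit 78) (nat_lit 0) (nat_lit 0) (XT.lf (nat_lit 0) (nat_lit 2410049453) (nat_lit 76) (nat_lit 4788468732) (nat_lit 152) (nat_lit 7757720130) (nat_lit 32) (nat_lit 5) (nat_lit 33) (nat_lit 5) (nat_lit 34) (nat_lit 4) (nat_lit 347) (nat_lit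 289) (nat_lit 264)) (XT.lf (nat_lit 0) (nat_lit 11771938601) (nat_lit 76) (nat_lit 113539755) (nat_lit 152) (nat_lit 3559007524) (nat_lit 32) (nat_lit 5) (nat_lit 33) (nat_lit 5) (nat_lit 34) (nat_lit 4) (nat_lit 348) (nat_lit 289) (nat_lit 263))))) (XT.nd (nat_lit 234) (nat_lit 304) (nat_lit 0) (XT.nd (nat_lit 78) (nat_lit 76) (nat_lit 0) (XT.lf (nat_lit 0) (nat_lit 894420880) (nat_lit 228) (nat_lit 10383521853) (nat_lit 76) (nat_lit 4674965944) (nat_lit 29) (nat_lit 5) (nat_lit 32) (nat_lit 5) (nat_lit 30) (nat_lit 4) (nat_lit 349) (nat_lit 289) (nat_lit 262)) (XT.nd (nat_lit 78) (nat_lit 76) (nat_lit 0) (XT.lf (nat_lit 0) (nat_lit 5425107384) (nat_lit 228) (nat_lit 1308446139) (nat_lit 76) (nat_lit 9751595872) (nat_lit 29) (nat_lit 5) (nat_lit 32) (nat_lit 5) (nat_lit 30) (nat_lit 4) (nat_lit 350) (nat_lit 289) (nat_lit 261)) (XT.lf (nat_lit 0) (nat_lit 8330341334) (nat_lit 76) (nat_lit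 1895490076) (nat_lit 152) (nat_lit 6816018088) (nat_lit 28) (nat_lit 5) (nat_lit 29) (nat_lit 5) (nat_lit 30) (nat_lit 4) (nat_lit 351) (nat_lit 289) (nat_lit 260)))) (XT.nd (nat_lit 78) (nat_lit 152) (nat_lit 0) (XT.lf (nat_lit 0) (nat_lit 685765003) (nat_lit 152) (nat_lit 14577850918) (nat_lit 152) (nat_lit 2362938907) (nat_lit 26) (nat_lit 4) (nat_lit 28) (nat_lit 5) (nat_lit 28) (nat_lit 4) (nat_lit 352) (nat_lit 289) (nat_lit 259)) (XT.nd (nat_lit 78) (nat_lit 76) (nat_lit 0) (XT.lf (nat_lit 0) (nat_lit 2334146826) (nat_lit 228) (nat_lit 7605008117) (nat_lit 76) (nat_lit 8294785643) (nat_lit 25) (nat_lit 5) (nat_lit 28) (nat_lit 5) (nat_lit 26) (nat_lit 4) (nat_lit 353) (nat_lit 289) (nat_lit 258)) (XT.lf (nat_lit 0) (nat_lit 2075115287) (nat_lit 76) (nat_lit 5062388879) (nat_lit 152) (nat_lit 11734731771) (nat_lit 24) (nat_lit 5) (nat_lit 25) (nat_lit 5) (nat_lit 26) (nat_lit 4) (nat_lit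 354) (nat_lit 289) (nat_lit 257)))))) (XT.nd (nat_lit 468) (nat_lit 304) (nat_lit 0) (XT.nd (nat_lit 234) (nat_lit 152) (nat_lit 0) (XT.nd (nat_lit 78) (nat_lit 152) (nat_lit 0) (XT.lf (nat_lit 0) (nat_lit 12231794379) (nat_lit 152) (nat_lit 7186419049) (nat_lit 0) (nat_lit 121712012) (nat_lit 24) (nat_lit 5) (nat_lit 26) (nat_lit 4) (nat_lit 24) (nat_lit 4) (nat_lit 355) (nat_lit 289) (nat_lit 256)) (XT.nd (nat_lit 78) (nat_lit 76) (nat_lit 0) (XT.lf (nat_lit 0) (nat_lit 2766894115) (nat_lit 76) (nat_lit 14862903675) (nat_lit 76) (nat_lit 2608768490) (nat_lit 23) (nat_lit 4) (nat_lit 24) (nat_lit 5) (nat_lit 24) (nat_lit 4) (nat_lit 356) (nat_lit 289) (nat_lit 255)) (XT.lf (nat_lit 0) (nat_lit 2297854868) (nat_lit 152) (nat_lit 7680725864) (nat_lit 76) (nat_lit 10989421980) (nat_lit 22) (nat_lit 5) (nat_lit 24) (nat_lit 5) (nat_lit 23) (nat_lit 4) (nat_lit 357) (nat_lit 289) (nat_lit 254))))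 (XT.nd (nat_lit 78) (nat_lit 76) (nat_lit 0) (XT.lf (nat_lit 0) (nat_lit 2500127965) (nat_lit 76) (nat_lit 4827733723) (nat_lit 152) (nat_lit 14405639251) (nat_lit 21) (nat_lit 5) (nat_lit 22) (nat_lit 5) (nat_lit 23) (nat_lit 4) (nat_lit 358) (nat_lit 289) (nat_lit 253)) (XT.nd (nat_lit 78) (nat_lit 76) (nat_lit 0) (XT.lf (nat_lit 0) (nat_lit 12677741981) (nat_lit 152) (nat_lit 9222601216) (nat_lit 0) (nat_lit 633526041) (nat_lit 21) (nat_lit 5) (nat_lit 23) (nat_lit 4) (nat_lit 21) (nat_lit 4) (nat_lit 359) (nat_lit 289) (nat_lit 252)) (XT.lf (nat_lit 0) (nat_lit 1114459567) (nat_lit 76) (nat_lit 17207769499) (nat_lit 76) (nat_lit 5050684407) (nat_lit 20) (nat_lit 4) (nat_lit 21) (nat_lit 5) (nat_lit 21) (nat_lit 4) (nat_lit 360) (nat_lit 289) (nat_lit 251))))) (XT.nd (nat_lit 234) (nat_lit 152) (nat_lit 0) (XT.nd (nat_lit 78) (nat_lit 76) (nat_lit 0) (XT.lf (nat_lit 0) (nat_lit 84677383)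 (nat_lit 152) (nat_lit 12090990884) (nat_lit 76) (nat_lit 12073783082) (nat_lit 19) (nat_lit 5) (nat_lit 21) (nat_lit 5) (nat_lit 20) (nat_lit 4) (nat_lit 361) (nat_lit 289) (nat_lit 250)) (XT.nd (nat_lit 78) (nat_lit 76) (nat_lit 0) (XT.lf (nat_lit 0) (nat_lit 5241107391) (nat_lit 152) (nat_lit 1622685017) (nat_lit 76) (nat_lit 18305193363) (nat_lit 19) (nat_lit 5) (nat_lit 21) (nat_lit 5) (nat_lit 20) (nat_lit 4) (nat_lit 362) (nat_lit 289) (nat_lit 249)) (XT.lf (nat_lit 0) (nat_lit 9556098399) (nat_lit 76) (nat_lit 1185635350) (nat_lit 152) (nat_lit 15388455249) (nat_lit 18) (nat_lit 5) (nat_lit 19) (nat_lit 5) (nat_lit 20) (nat_lit 4) (nat_lit 363) (nat_lit 289) (nat_lit 248)))) (XT.nd (nat_lit 156) (nat_lit 76) (nat_lit 0) (XT.nd (nat_lit 78) (nat_lit 76) (nat_lit 0) (XT.lf (nat_lit 0) (nat_lit 16557378345) (nat_lit 152) (nat_lit 5982052868) (nat_lit 0) (nat_lit 4598032138) (nat_lit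 18) (nat_lit 5) (nat_lit 20) (nat_lit 4) (nat_lit 18) (nat_lit 4) (nat_lit 364) (nat_lit 289) (nat_lit 247)) (XT.lf (nat_lit 0) (nat_lit 5172258962) (nat_lit 76) (nat_lit 17532195364) (nat_lit 76) (nat_lit 5488624458) (nat_lit 17) (nat_lit 4) (nat_lit 18) (nat_lit 5) (nat_lit 18) (nat_lit 4) (nat_lit 365) (nat_lit 289) (nat_lit 246))) (XT.nd (nat_lit 78) (nat_lit 76) (nat_lit 0) (XT.lf (nat_lit 0) (nat_lit 16980363631) (nat_lit 76) (nat_lit 12221381288) (nat_lit 76) (nat_lit 97596383) (nat_lit 17) (nat_lit 4) (nat_lit 18) (nat_lit 5) (nat_lit 18) (nat_lit 4) (nat_lit 366) (nat_lit 289) (nat_lit 245)) (XT.lf (nat_lit 0) (nat_lit 5328346830) (nat_lit 152) (nat_lit 1277068186) (nat_lit 76) (nat_lit 23853997027) (nat_lit 16) (nat_lit 5) (nat_lit 18) (nat_lit 5) (nat_lit 17) (nat_lit 4) (nat_lit 367) (nat_lit 289) (nat_lit 244))))))))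
noncomputable def xc73 : XT := (XT.nd (nat_lit 1950) (nat_lit 228) (nat_lit 0) (XT.nd (nat_lit 936) (nat_lit 380) (nat_lit 0) (XT.nd (nat_lit 468) (nat_lit 76) (nat_lit 0) (XT.nd (nat_lit 234) (nat_lit 152) (nat_lit 0) (XT.nd (nat_lit 78) (nat_lit 76) (nat_lit 0) (XT.lf (nat_lit 0) (nat_lit 10549982127) (nat_lit 76) (nat_lit 583148496) (nat_lit 152) (nat_lit 20538742617) (nat_lit 15) (nat_lit 5) (nat_lit 16) (nat_lit 5) (nat_lit 17) (nat_lit 4) (nat_lit 368) (nat_lit 289) (nat_lit 243)) (XT.nd (nat_lit 78) (nat_lit 76) (nat_lit 0) (XT.lf (nat_lit 0) (nat_lit 17286092858) (nat_lit 152) (nat_lit 10124384913) (nat_lit 0) (nat_lit 5531590458) (nat_lit 15) (nat_lit 5) (nat_lit 17) (nat_lit 4) (nat_lit 15) (nat_lit 4) (nat_lit 369) (nat_lit 289) (nat_lit 242)) (XT.lf (nat_lit 0) (nat_lit 1358581758) (nat_lit 76) (nat_lit 22367783793) (nat_lit 76) (nat_lit 10550431626) (nat_lit 14) (nat_lit 4)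 (nat_lit 15) (nat_lit 5) (nat_lit 15) (nat_lit 4) (nat_lit 370) (nat_lit 289) (nat_lit 241)))) (XT.nd (nat_lit 78) (nat_lit 152) (nat_lit 0) (XT.lf (nat_lit 0) (nat_lit 13670440519) (nat_lit 76) (nat_lit 16939487166) (nat_lit 76) (nat_lit 5062278077) (nat_lit 14) (nat_lit 4) (nat_lit 15) (nat_lit 5) (nat_lit 15) (nat_lit 4) (nat_lit 371) (nat_lit 289) (nat_lit 240)) (XT.nd (nat_lit 78) (nat_lit 76) (nat_lit 0) (XT.lf (nat_lit 0) (nat_lit 629283977) (nat_lit 152) (nat_lit 10644183525) (nat_lit 76) (nat_lit 25865806222) (nat_lit 13) (nat_lit 5) (nat_lit 15) (nat_lit 5) (nat_lit 14) (nat_lit 4) (nat_lit 372) (nat_lit 289) (nat_lit 239)) (XT.lf (nat_lit 0) (nat_lit 1145664600) (nat_lit 76) (nat_lit 5261248703) (nat_lit 152) (nat_lit 32270057658) (nat_lit 12) (nat_lit 5) (nat_lit 13) (nat_lit 5) (nat_lit 14) (nat_lit 4) (nat_lit 373) (nat_lit 289) (nat_lit 238))))) (XT.nd (nat_lit 234) (nat_lit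 76) (nat_lit 0) (XT.nd (nat_lit 78) (nat_lit 0) (nat_lit 0) (XT.lf (nat_lit 0) (nat_lit 12626959276) (nat_lit 152) (nat_lit 26496834280) (nat_lit 0) (nat_lit 1160088484) (nat_lit 12) (nat_lit 5) (nat_lit 14) (nat_lit 4) (nat_lit 12) (nat_lit 4) (nat_lit 374) (nat_lit 289) (nat_lit 237)) (XT.nd (nat_lit 78) (nat_lit 0) (nat_lit 0) (XT.lf (nat_lit 0) (nat_lit 19200350384) (nat_lit 152) (nat_lit 15082096488) (nat_lit 0) (nat_lit 7686580129) (nat_lit 12) (nat_lit 5) (nat_lit 14) (nat_lit 4) (nat_lit 12) (nat_lit 4) (nat_lit 375) (nat_lit 289) (nat_lit 236)) (XT.lf (nat_lit 0) (nat_lit 26060594723) (nat_lit 152) (nat_lit 3177772199) (nat_lit 0) (nat_lit 14502158312) (nat_lit 12) (nat_lit 5) (nat_lit 14) (nat_lit 4) (nat_lit 12) (nat_lit 4) (nat_lit 376) (nat_lit 289) (nat_lit 235)))) (XT.nd (nat_lit 78) (nat_lit 0) (nat_lit 0) (XT.lf (nat_lit 0) (nat_lit 9550146545) (nat_lit 76) (nat_lit 23822984213)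 (nat_lit 76) (nat_lit 12222008606) (nat_lit 11) (nat_lit 4) (nat_lit 12) (nat_lit 5) (nat_lit 12) (nat_lit 4) (nat_lit 377) (nat_lit 289) (nat_lit 234)) (XT.nd (nat_lit 78) (nat_lit 0) (nat_lit 0) (XT.lf (nat_lit 0) (nat_lit 22948746763) (nat_lit 76) (nat_lit 18117248113) (nat_lit 76) (nat_lit 6475758985) (nat_lit 11) (nat_lit 4) (nat_lit 12) (nat_lit 5) (nat_lit 12) (nat_lit 4) (nat_lit 378) (nat_lit 289) (nat_lit 233)) (XT.lf (nat_lit 0) (nat_lit 36944858383) (nat_lit 76) (nat_lit 12161390645) (nat_lit 76) (nat_lit 481317212) (nat_lit 11) (nat_lit 4) (nat_lit 12) (nat_lit 5) (nat_lit 12) (nat_lit 4) (nat_lit 379) (nat_lit 289) (nat_lit 232)))))) (XT.nd (nat_lit 468) (nat_lit 152) (nat_lit 0) (XT.nd (nat_lit 234) (nat_lit 76) (nat_lit 0) (XT.nd (nat_lit 78) (nat_lit 76) (nat_lit 0) (XT.lf (nat_lit 0) (nat_lit 5590734269) (nat_lit 152) (nat_lit 255815137) (nat_lit 76) (nat_lit 45886389421)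 (nat_lit 10) (nat_lit 5) (nat_lit 12) (nat_lit 5) (nat_lit 11) (nat_lit 4) (nat_lit 380) (nat_lit 289) (nat_lit 231)) (XT.nd (nat_lit 78) (nat_lit 0) (nat_lit 0) (XT.lf (nat_lit 0) (nat_lit 12135527021) (nat_lit 152) (nat_lit 40897076795) (nat_lit 0) (nat_lit 943319885) (nat_lit 9) (nat_lit 5) (nat_lit 11) (nat_lit 4) (nat_lit 9) (nat_lit 4) (nat_lit 381) (nat_lit 289) (nat_lit 230)) (XT.lf (nat_lit 0) (nat_lit 19073569598) (nat_lit 152) (nat_lit 29404572353) (nat_lit 0) (nat_lit 7849619060) (nat_lit 9) (nat_lit 5) (nat_lit 11) (nat_lit 4) (nat_lit 9) (nat_lit 4) (nat_lit 382) (nat_lit 289) (nat_lit 229)))) (XT.nd (nat_lit 78) (nat_lit 76) (nat_lit 0) (XT.lf (nat_lit 0) (nat_lit 26325906439) (nat_lit 152) (nat_lit 17401193577) (nat_lit 0) (nat_lit 15071724088) (nat_lit 9) (nat_lit 5) (nat_lit 11) (nat_lit 4) (nat_lit 9) (nat_lit 4) (nat_lit 383) (nat_lit 289) (nat_lit 228)) (XT.nd (nat_lit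 78) (nat_lit 76) (nat_lit 0) (XT.lf (nat_lit 0) (nat_lit 33909805012) (nat_lit 152) (nat_lit 4858360995) (nat_lit 0) (nat_lit 22626830458) (nat_lit 9) (nat_lit 5) (nat_lit 11) (nat_lit 4) (nat_lit 9) (nat_lit 4) (nat_lit 384) (nat_lit 289) (nat_lit 227)) (XT.lf (nat_lit 0) (nat_lit 8526696828) (nat_lit 76) (nat_lit 33449751022) (nat_lit 76) (nat_lit 22139355323) (nat_lit 8) (nat_lit 4) (nat_lit 9) (nat_lit 5) (nat_lit 9) (nat_lit 4) (nat_lit 385) (nat_lit 289) (nat_lit 226))))) (XT.nd (nat_lit 234) (nat_lit 152) (nat_lit 0) (XT.nd (nat_lit 78) (nat_lit 0) (nat_lit 0) (XT.lf (nat_lit 0) (nat_lit 22692787577) (nat_lit 76) (nat_lit 27806857817) (nat_lit 76) (nat_lit 16470346742) (nat_lit 8) (nat_lit 4) (nat_lit 9) (nat_lit 5) (nat_lit 9) (nat_lit 4) (nat_lit 386) (nat_lit 289) (nat_lit 225)) (XT.nd (nat_lit 78) (nat_lit 0) (nat_lit 0) (XT.lf (nat_lit 0) (nat_lit 37513000680) (nat_lit 76) (nat_lit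 21908329627) (nat_lit 76) (nat_lit 10546946764) (nat_lit 8) (nat_lit 4) (nat_lit 9) (nat_lit 5) (nat_lit 9) (nat_lit 4) (nat_lit 387) (nat_lit 289) (nat_lit 224)) (XT.lf (nat_lit 0) (nat_lit 53022622360) (nat_lit 76) (nat_lit 15740122336) (nat_lit 76) (nat_lit 4355052057) (nat_lit 8) (nat_lit 4) (nat_lit 9) (nat_lit 5) (nat_lit 9) (nat_lit 4) (nat_lit 388) (nat_lit 289) (nat_lit 223)))) (XT.nd (nat_lit 156) (nat_lit 0) (nat_lit 0) (XT.nd (nat_lit 78) (nat_lit 76) (nat_lit 0) (XT.lf (nat_lit 0) (nat_lit 2052224185) (nat_lit 152) (nat_lit 7200570141) (nat_lit 76) (nat_lit 67171600693) (nat_lit 7) (nat_lit 5) (nat_lit 9) (nat_lit 5) (nat_lit 8) (nat_lit 4) (nat_lit 389) (nat_lit 289) (nat_lit 222)) (XT.lf (nat_lit 0) (nat_lit 6425412947) (nat_lit 76) (nat_lit 2284112835) (nat_lit 152) (nat_lit 71179429096) (nat_lit 6) (nat_lit 5) (nat_lit 7) (nat_lit 5) (nat_lit 8) (nat_lit 4) (nat_lit 390)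 (nat_lit 289) (nat_lit 221))) (XT.nd (nat_lit 78) (nat_lit 0) (nat_lit 0) (XT.lf (nat_lit 0) (nat_lit 15877984250) (nat_lit 152) (nat_lit 62666220947) (nat_lit 0) (nat_lit 4973625214) (nat_lit 6) (nat_lit 5) (nat_lit 8) (nat_lit 4) (nat_lit 6) (nat_lit 4) (nat_lit 391) (nat_lit 289) (nat_lit 220)) (XT.lf (nat_lit 0) (nat_lit 23419232280) (nat_lit 152) (nat_lit 51411887741) (nat_lit 0) (nat_lit 12496313533) (nat_lit 6) (nat_lit 5) (nat_lit 8) (nat_lit 4) (nat_lit 6) (nat_lit 4) (nat_lit 392) (nat_lit 289) (nat_lit 219))))))) (XT.nd (nat_lit 936) (nat_lit 152) (nat_lit 0) (XT.nd (nat_lit 468) (nat_lit 0) (nat_lit 0) (XT.nd (nat_lit 234) (nat_lit 76) (nat_lit 0) (XT.nd (nat_lit 78) (nat_lit 0) (nat_lit 0) (XT.lf (nat_lit 0) (nat_lit 31315563820) (nat_lit 152) (nat_lit 39638084880) (nat_lit 0) (nat_lit 20374969158) (nat_lit 6) (nat_lit 5) (nat_lit 8) (nat_lit 4) (nat_lit 6) (nat_lit 4) (nat_lit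 393) (nat_lit 289) (nat_lit 218)) (XT.nd (nat_lit 78) (nat_lit 0) (nat_lit 0) (XT.lf (nat_lit 0) (nat_lit 39585779661) (nat_lit 152) (nat_lit 27316779499) (nat_lit 0) (nat_lit 28628350795) (nat_lit 6) (nat_lit 5) (nat_lit 8) (nat_lit 4) (nat_lit 6) (nat_lit 4) (nat_lit 394) (nat_lit 289) (nat_lit 217)) (XT.lf (nat_lit 0) (nat_lit 48249570793) (nat_lit 152) (nat_lit 14418635157) (nat_lit 0) (nat_lit 37276109351) (nat_lit 6) (nat_lit 5) (nat_lit 8) (nat_lit 4) (nat_lit 6) (nat_lit 4) (nat_lit 395) (nat_lit 289) (nat_lit 216)))) (XT.nd (nat_lit 78) (nat_lit 76) (nat_lit 0) (XT.lf (nat_lit 0) (nat_lit 57327565290) (nat_lit 152) (nat_lit 912941987) (nat_lit 0) (nat_lit 46338834728) (nat_lit 6) (nat_lit 5) (nat_lit 8) (nat_lit 4) (nat_lit 6) (nat_lit 4) (nat_lit 396) (nat_lit 289) (nat_lit 215)) (XT.nd (nat_lit 78) (nat_lit 0) (nat_lit 0) (XT.lf (nat_lit 0) (nat_lit 13669981191) (nat_lit 76)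 (nat_lit 53384822948) (nat_lit 76) (nat_lit 42381550368) (nat_lit 5) (nat_lit 4) (nat_lit 6) (nat_lit 5) (nat_lit 6) (nat_lit 4) (nat_lit 397) (nat_lit 289) (nat_lit 214)) (XT.lf (nat_lit 0) (nat_lit 28978740258) (nat_lit 76) (nat_lit 48287358219) (nat_lit 76) (nat_lit 37270236097) (nat_lit 5) (nat_lit 4) (nat_lit 6) (nat_lit 5) (nat_lit 6) (nat_lit 4) (nat_lit 398) (nat_lit 289) (nat_lit 213))))) (XT.nd (nat_lit 234) (nat_lit 0) (nat_lit 0) (XT.nd (nat_lit 78) (nat_lit 0) (nat_lit 0) (XT.lf (nat_lit 0) (nat_lit 45019598653) (nat_lit 76) (nat_lit 42951437382) (nat_lit 76) (nat_lit 31921125220) (nat_lit 5) (nat_lit 4) (nat_lit 6) (nat_lit 5) (nat_lit 6) (nat_lit 4) (nat_lit 399) (nat_lit 289) (nat_lit 212)) (XT.nd (nat_lit 78) (nat_lit 0) (nat_lit 0) (XT.lf (nat_lit 0) (nat_lit 61830748896) (nat_lit 76) (nat_lit 37364355865) (nat_lit 76) (nat_lit 26321481760) (nat_lit 5) (nat_lit 4) (nat_lit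 6) (nat_lit 5) (nat_lit 6) (nat_lit 4) (nat_lit 400) (nat_lit 289) (nat_lit 211)) (XT.lf (nat_lit 0) (nat_lit 79452217535) (nat_lit 76) (nat_lit 31512811091) (nat_lit 76) (nat_lit 20457973232) (nat_lit 5) (nat_lit 4) (nat_lit 6) (nat_lit 5) (nat_lit 6) (nat_lit 4) (nat_lit 401) (nat_lit 289) (nat_lit 210)))) (XT.nd (nat_lit 78) (nat_lit 0) (nat_lit 0) (XT.lf (nat_lit 0) (nat_lit 97925960449) (nat_lit 76) (nat_lit 25382870813) (nat_lit 76) (nat_lit 14316638902) (nat_lit 5) (nat_lit 4) (nat_lit 6) (nat_lit 5) (nat_lit 6) (nat_lit 4) (nat_lit 402) (nat_lit 289) (nat_lit 209)) (XT.nd (nat_lit 78) (nat_lit 0) (nat_lit 0) (XT.lf (nat_lit 0) (nat_lit 117295962740) (nat_lit 76) (nat_lit 18959939934) (nat_lit 76) (nat_lit 7882856545) (nat_lit 5) (nat_lit 4) (nat_lit 6) (nat_lit 5) (nat_lit 6) (nat_lit 4) (nat_lit 403) (nat_lit 289) (nat_lit 208)) (XT.lf (nat_lit 0) (nat_lit 137608343459) (nat_lit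 76) (nat_lit 12228725762) (nat_lit 76) (nat_lit 1141307631) (nat_lit 5) (nat_lit 4) (nat_lit 6) (nat_lit 5) (nat_lit 6) (nat_lit 4) (nat_lit 404) (nat_lit 289) (nat_lit 207)))))) (XT.nd (nat_lit 468) (nat_lit 0) (nat_lit 0) (XT.nd (nat_lit 234) (nat_lit 0) (nat_lit 0) (XT.nd (nat_lit 78) (nat_lit 0) (nat_lit 0) (XT.lf (nat_lit 0) (nat_lit 680134951) (nat_lit 76) (nat_lit 5064936118) (nat_lit 152) (nat_lit 152410381301) (nat_lit 3) (nat_lit 5) (nat_lit 4) (nat_lit 5) (nat_lit 5) (nat_lit 4) (nat_lit 405) (nat_lit 289) (nat_lit 206)) (XT.nd (nat_lit 78) (nat_lit 0) (nat_lit 0) (XT.lf (nat_lit 0) (nat_lit 13193110091) (nat_lit 152) (nat_lit 149869189476) (nat_lit 0) (nat_lit 2615362799) (nat_lit 3) (nat_lit 5) (nat_lit 5) (nat_lit 4) (nat_lit 3) (nat_lit 4) (nat_lit 406) (nat_lit 289) (nat_lit 205)) (XT.lf (nat_lit 0) (nat_lit 21084388098) (nat_lit 152) (nat_lit 141989915515) (nat_lit 0) (nat_lit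 10498138388) (nat_lit 3) (nat_lit 5) (nat_lit 5) (nat_lit 4) (nat_lit 3) (nat_lit 4) (nat_lit 407) (nat_lit 289) (nat_lit 204)))) (XT.nd (nat_lit 78) (nat_lit 0) (nat_lit 0) (XT.lf (nat_lit 0) (nat_lit 29358616000) (nat_lit 152) (nat_lit 133739657512) (nat_lit 0) (nat_lit 18764268751) (nat_lit 3) (nat_lit 5) (nat_lit 5) (nat_lit 4) (nat_lit 3) (nat_lit 4) (nat_lit 408) (nat_lit 289) (nat_lit 203)) (XT.nd (nat_lit 78) (nat_lit 0) (nat_lit 0) (XT.lf (nat_lit 0) (nat_lit 38035494340) (nat_lit 152) (nat_lit 125098771996) (nat_lit 0) (nat_lit 27433435148) (nat_lit 3) (nat_lit 5) (nat_lit 5) (nat_lit 4) (nat_lit 3) (nat_lit 4) (nat_lit 409) (nat_lit 289) (nat_lit 202)) (XT.lf (nat_lit 0) (nat_lit 47135682353) (nat_lit 152) (nat_lit 116046685430) (nat_lit 0) (nat_lit 36526278453) (nat_lit 3) (nat_lit 5) (nat_lit 5) (nat_lit 4) (nat_lit 3) (nat_lit 4) (nat_lit 410) (nat_lit 289) (nat_lit 201)))))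 (XT.nd (nat_lit 234) (nat_lit 0) (nat_lit 0) (XT.nd (nat_lit 78) (nat_lit 0) (nat_lit 0) (XT.lf (nat_lit 0) (nat_lit 56680847152) (nat_lit 152) (nat_lit 106561845226) (nat_lit 0) (nat_lit 46064448293) (nat_lit 3) (nat_lit 5) (nat_lit 5) (nat_lit 4) (nat_lit 3) (nat_lit 4) (nat_lit 411) (nat_lit 289) (nat_lit 200)) (XT.nd (nat_lit 78) (nat_lit 0) (nat_lit 0) (XT.lf (nat_lit 0) (nat_lit 66693715321) (nat_lit 152) (nat_lit 96621668433) (nat_lit 0) (nat_lit 56070654595) (nat_lit 3) (nat_lit 5) (nat_lit 5) (nat_lit 4) (nat_lit 3) (nat_lit 4) (nat_lit 412) (nat_lit 289) (nat_lit 199)) (XT.lf (nat_lit 0) (nat_lit 77198127022) (nat_lit 152) (nat_lit 86202487962) (nat_lit 0) (nat_lit 66568721661) (nat_lit 3) (nat_lit 5) (nat_lit 5) (nat_lit 4) (nat_lit 3) (nat_lit 4) (nat_lit 413) (nat_lit 289) (nat_lit 198)))) (XT.nd (nat_lit 156) (nat_lit 0) (nat_lit 0) (XT.nd (nat_lit 78) (nat_lit 0) (nat_lit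 0) (XT.lf (nat_lit 0) (nat_lit 88219092758) (nat_lit 152) (nat_lit 75279496240) (nat_lit 0) (nat_lit 77583644888) (nat_lit 3) (nat_lit 5) (nat_lit 5) (nat_lit 4) (nat_lit 3) (nat_lit 4) (nat_lit 414) (nat_lit 289) (nat_lit 197)) (XT.lf (nat_lit 0) (nat_lit 99782852924) (nat_lit 152) (nat_lit 63826686145) (nat_lit 0) (nat_lit 89141650284) (nat_lit 3) (nat_lit 5) (nat_lit 5) (nat_lit 4) (nat_lit 3) (nat_lit 4) (nat_lit 415) (nat_lit 289) (nat_lit 196))) (XT.nd (nat_lit 78) (nat_lit 0) (nat_lit 0) (XT.lf (nat_lit 0) (nat_lit 111916940283) (nat_lit 152) (nat_lit 51816789082) (nat_lit 0) (nat_lit 101270256909) (nat_lit 3) (nat_lit 5) (nat_lit 5) (nat_lit 4) (nat_lit 3) (nat_lit 4) (nat_lit 416) (nat_lit 289) (nat_lit 195)) (XT.lf (nat_lit 0) (nat_lit 124650245519) (nat_lit 152) (nat_lit 39221210056) (nat_lit 0) (nat_lit 113998342398) (nat_lit 3) (nat_lit 5) (nat_lit 5) (nat_lit 4) (nat_lit 3)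 (nat_lit 4) (nat_lit 417) (nat_lit 289) (nat_lit 194))))))))
noncomputable def xc74 : XT := (XT.nd (nat_lit 39312) (nat_lit 0) (nat_lit 2584) (XT.nd (nat_lit 936) (nat_lit 0) (nat_lit 0) (XT.nd (nat_lit 468) (nat_lit 0) (nat_lit 0) (XT.nd (nat_lit 234) (nat_lit 0) (nat_lit 0) (XT.nd (nat_lit 78) (nat_lit 76) (nat_lit 0) (XT.lf (nat_lit 0) (nat_lit 138013086026) (nat_lit 152) (nat_lit 26009959595) (nat_lit 0) (nat_lit 127356211717) (nat_lit 3) (nat_lit 5) (nat_lit 5) (nat_lit 4) (nat_lit 3) (nat_lit 4) (nat_lit 418) (nat_lit 289) (nat_lit 193)) (XT.nd (nat_lit 78) (nat_lit 76) (nat_lit 0) (XT.lf (nat_lit 0) (nat_lit 152037278089) (nat_lit 152) (nat_lit 12151582340) (nat_lit 0) (nat_lit 141375669317) (nat_lit 3) (nat_lit 5) (nat_lit 5) (nat_lit 4) (nat_lit 3) (nat_lit 4) (nat_lit 419) (nat_lit 289) (nat_lit 192)) (XT.lf (nat_lit 0) (nat_lit 2465840128) (nat_lit 76) (nat_lit 164328871190)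 (nat_lit 76) (nat_lit 153662753404) (nat_lit 2) (nat_lit 4) (nat_lit 3) (nat_lit 5) (nat_lit 3) (nat_lit 4) (nat_lit 420) (nat_lit 289) (nat_lit 191)))) (XT.nd (nat_lit 78) (nat_lit 0) (nat_lit 0) (XT.lf (nat_lit 0) (nat_lit 18223419674) (nat_lit 76) (nat_lit 164266033749) (nat_lit 76) (nat_lit 153595621665) (nat_lit 2) (nat_lit 4) (nat_lit 3) (nat_lit 5) (nat_lit 3) (nat_lit 4) (nat_lit 421) (nat_lit 289) (nat_lit 190)) (XT.nd (nat_lit 78) (nat_lit 0) (nat_lit 0) (XT.lf (nat_lit 0) (nat_lit 34756888152) (nat_lit 76) (nat_lit 164205991420) (nat_lit 76) (nat_lit 153531489528) (nat_lit 2) (nat_lit 4) (nat_lit 3) (nat_lit 5) (nat_lit 3) (nat_lit 4) (nat_lit 422) (nat_lit 289) (nat_lit 189)) (XT.lf (nat_lit 0) (nat_lit 52105610965) (nat_lit 76) (nat_lit 164148601245) (nat_lit 76) (nat_lit 153470204298) (nat_lit 2) (nat_lit 4) (nat_lit 3) (nat_lit 5) (nat_lit 3) (nat_lit 4) (nat_lit 423) (nat_lit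 289) (nat_lit 188))))) (XT.nd (nat_lit 234) (nat_lit 0) (nat_lit 0) (XT.nd (nat_lit 78) (nat_lit 0) (nat_lit 0) (XT.lf (nat_lit 0) (nat_lit 70310894595) (nat_lit 76) (nat_lit 164093726582) (nat_lit 76) (nat_lit 153411620058) (nat_lit 2) (nat_lit 4) (nat_lit 3) (nat_lit 5) (nat_lit 3) (nat_lit 4) (nat_lit 424) (nat_lit 289) (nat_lit 187)) (XT.nd (nat_lit 78) (nat_lit 0) (nat_lit 0) (XT.lf (nat_lit 0) (nat_lit 89416084956) (nat_lit 76) (nat_lit 164041236776) (nat_lit 76) (nat_lit 153355597322) (nat_lit 2) (nat_lit 4) (nat_lit 3) (nat_lit 5) (nat_lit 3) (nat_lit 4) (nat_lit 425) (nat_lit 289) (nat_lit 186)) (XT.lf (nat_lit 0) (nat_lit 109466670595) (nat_lit 76) (nat_lit 163991006851) (nat_lit 76) (nat_lit 153302002702) (nat_lit 2) (nat_lit 4) (nat_lit 3) (nat_lit 5) (nat_lit 3) (nat_lit 4) (nat_lit 426) (nat_lit 289) (nat_lit 185)))) (XT.nd (nat_lit 78) (nat_lit 0) (nat_lit 0) (XT.lf (nat_lit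 0) (nat_lit 130510391003) (nat_lit 76) (nat_lit 163942917212) (nat_lit 76) (nat_lit 153250708592) (nat_lit 2) (nat_lit 4) (nat_lit 3) (nat_lit 5) (nat_lit 3) (nat_lit 4) (nat_lit 427) (nat_lit 289) (nat_lit 184)) (XT.nd (nat_lit 78) (nat_lit 0) (nat_lit 0) (XT.lf (nat_lit 0) (nat_lit 152597350275) (nat_lit 76) (nat_lit 163896853361) (nat_lit 76) (nat_lit 153201592863) (nat_lit 2) (nat_lit 4) (nat_lit 3) (nat_lit 5) (nat_lit 3) (nat_lit 4) (nat_lit 428) (nat_lit 289) (nat_lit 183)) (XT.lf (nat_lit 0) (nat_lit 175780136411) (nat_lit 76) (nat_lit 163852705622) (nat_lit 76) (nat_lit 153154538573) (nat_lit 2) (nat_lit 4) (nat_lit 3) (nat_lit 5) (nat_lit 3) (nat_lit 4) (nat_lit 429) (nat_lit 289) (nat_lit 182)))))) (XT.nd (nat_lit 468) (nat_lit 0) (nat_lit 0) (XT.nd (nat_lit 234) (nat_lit 0) (nat_lit 0) (XT.nd (nat_lit 78) (nat_lit 0) (nat_lit 0) (XT.lf (nat_lit 0) (nat_lit 200113946520) (nat_lit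 76) (nat_lit 163810368880) (nat_lit 76) (nat_lit 153109433688) (nat_lit 2) (nat_lit 4) (nat_lit 3) (nat_lit 5) (nat_lit 3) (nat_lit 4) (nat_lit 430) (nat_lit 289) (nat_lit 181)) (XT.nd (nat_lit 78) (nat_lit 0) (nat_lit 0) (XT.lf (nat_lit 0) (nat_lit 225656718244) (nat_lit 76) (nat_lit 163769742334) (nat_lit 76) (nat_lit 153066170815) (nat_lit 2) (nat_lit 4) (nat_lit 3) (nat_lit 5) (nat_lit 3) (nat_lit 4) (nat_lit 431) (nat_lit 289) (nat_lit 180)) (XT.lf (nat_lit 0) (nat_lit 252469267708) (nat_lit 76) (nat_lit 163730729254) (nat_lit 76) (nat_lit 153024646948) (nat_lit 2) (nat_lit 4) (nat_lit 3) (nat_lit 5) (nat_lit 3) (nat_lit 4) (nat_lit 432) (nat_lit 289) (nat_lit 179)))) (XT.nd (nat_lit 78) (nat_lit 0) (nat_lit 0) (XT.lf (nat_lit 0) (nat_lit 280615434314) (nat_lit 76) (nat_lit 163693236752) (nat_lit 76) (nat_lit 152984763220) (nat_lit 2) (nat_lit 4) (nat_lit 3) (nat_lit 5) (nat_lit 3)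 (nat_lit 4) (nat_lit 433) (nat_lit 289) (nat_lit 178)) (XT.nd (nat_lit 78) (nat_lit 0) (nat_lit 0) (XT.lf (nat_lit 0) (nat_lit 310162232745) (nat_lit 76) (nat_lit 163657175559) (nat_lit 76) (nat_lit 152946424669) (nat_lit 2) (nat_lit 4) (nat_lit 3) (nat_lit 5) (nat_lit 3) (nat_lit 4) (nat_lit 434) (nat_lit 289) (nat_lit 177)) (XT.lf (nat_lit 0) (nat_lit 341180012522) (nat_lit 76) (nat_lit 163622459817) (nat_lit 76) (nat_lit 152909540015) (nat_lit 2) (nat_lit 4) (nat_lit 3) (nat_lit 5) (nat_lit 3) (nat_lit 4) (nat_lit 435) (nat_lit 289) (nat_lit 176))))) (XT.nd (nat_lit 234) (nat_lit 0) (nat_lit 0) (XT.nd (nat_lit 78) (nat_lit 0) (nat_lit 0) (XT.lf (nat_lit 0) (nat_lit 373742625500) (nat_lit 76) (nat_lit 163589006869) (nat_lit 76) (nat_lit 152874021435) (nat_lit 2) (nat_lit 4) (nat_lit 3) (nat_lit 5) (nat_lit 3) (nat_lit 4) (nat_lit 436) (nat_lit 289) (nat_lit 175)) (XT.nd (nat_lit 78) (nat_lit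 0) (nat_lit 0) (XT.lf (nat_lit 0) (nat_lit 407927601711) (nat_lit 76) (nat_lit 163556737063) (nat_lit 76) (nat_lit 152839784362) (nat_lit 2) (nat_lit 4) (nat_lit 3) (nat_lit 5) (nat_lit 3) (nat_lit 4) (nat_lit 437) (nat_lit 289) (nat_lit 174)) (XT.lf (nat_lit 0) (nat_lit 443816333954) (nat_lit 76) (nat_lit 163525573569) (nat_lit 76) (nat_lit 152806747280) (nat_lit 2) (nat_lit 4) (nat_lit 3) (nat_lit 5) (nat_lit 3) (nat_lit 4) (nat_lit 438) (nat_lit 289) (nat_lit 173)))) (XT.nd (nat_lit 78) (nat_lit 0) (nat_lit 0) (XT.lf (nat_lit 0) (nat_lit 481494271594) (nat_lit 76) (nat_lit 163495442187) (nat_lit 76) (nat_lit 152774831527) (nat_lit 2) (nat_lit 4) (nat_lit 3) (nat_lit 5) (nat_lit 3) (nat_lit 4) (nat_lit 439) (nat_lit 289) (nat_lit 172)) (XT.nd (nat_lit 37518) (nat_lit 0) (nat_lit 7068) (XT.lf (nat_lit 0) (nat_lit 521051124004) (nat_lit 76) (nat_lit 163466271175) (nat_lit 76) (nat_lit 152743961116)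 (nat_lit 2) (nat_lit 4) (nat_lit 3) (nat_lit 5) (nat_lit 3) (nat_lit 4) (nat_lit 440) (nat_lit 289) (nat_lit 171)) (XT.lf (nat_lit 0) (nat_lit 1505166265) (nat_lit 380) (nat_lit 814190767) (nat_lit 0) (nat_lit 1505166265) (nat_lit 95) (nat_lit 5) (nat_lit 100) (nat_lit 4) (nat_lit 95) (nat_lit 4) (nat_lit 320) (nat_lit 290) (nat_lit 290))))))) (XT.nd (nat_lit 936) (nat_lit 1672) (nat_lit 0) (XT.nd (nat_lit 468) (nat_lit 1064) (nat_lit 0) (XT.nd (nat_lit 234) (nat_lit 684) (nat_lit 0) (XT.nd (nat_lit 78) (nat_lit 684) (nat_lit 0) (XT.lf (nat_lit 0) (nat_lit 4302055200) (nat_lit 380) (nat_lit 2417206485) (nat_lit 380) (nat_lit 1058175012) (nat_lit 90) (nat_lit 4) (nat_lit 95) (nat_lit 5) (nat_lit 95) (nat_lit 4) (nat_lit 321) (nat_lit 290) (nat_lit 289)) (XT.nd (nat_lit 78) (nat_lit 304) (nat_lit 0) (XT.lf (nat_lit 0) (nat_lit 2516033146) (nat_lit 304) (nat_lit 5615784) (nat_lit 380) (nat_lit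 5393296324) (nat_lit 85) (nat_lit 5) (nat_lit 89) (nat_lit 5) (nat_lit 90) (nat_lit 4) (nat_lit 322) (nat_lit 290) (nat_lit 288)) (XT.lf (nat_lit 0) (nat_lit 633064781) (nat_lit 304) (nat_lit 5564441780) (nat_lit 304) (nat_lit 1863461998) (nat_lit 81) (nat_lit 4) (nat_lit 85) (nat_lit 5) (nat_lit 85) (nat_lit 4) (nat_lit 323) (nat_lit 290) (nat_lit 287)))) (XT.nd (nat_lit 78) (nat_lit 608) (nat_lit 0) (XT.lf (nat_lit 0) (nat_lit 1722106907) (nat_lit 380) (nat_lit 1288739177) (nat_lit 76) (nat_lit 5205221187) (nat_lit 80) (nat_lit 5) (nat_lit 85) (nat_lit 5) (nat_lit 81) (nat_lit 4) (nat_lit 324) (nat_lit 290) (nat_lit 286)) (XT.nd (nat_lit 78) (nat_lit 380) (nat_lit 0) (XT.lf (nat_lit 0) (nat_lit 5096888184) (nat_lit 228) (nat_lit 259591446) (nat_lit 304) (nat_lit 3024424613) (nat_lit 77) (nat_lit 5) (nat_lit 80) (nat_lit 5) (nat_lit 81) (nat_lit 4) (nat_lit 325) (nat_lit 290) (nat_lit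 285)) (XT.lf (nat_lit 0) (nat_lit 566581342) (nat_lit 380) (nat_lit 5408056122) (nat_lit 76) (nat_lit 2580580350) (nat_lit 72) (nat_lit 5) (nat_lit 77) (nat_lit 5) (nat_lit 73) (nat_lit 4) (nat_lit 326) (nat_lit 290) (nat_lit 284))))) (XT.nd (nat_lit 234) (nat_lit 532) (nat_lit 0) (XT.nd (nat_lit 78) (nat_lit 304) (nat_lit 0) (XT.lf (nat_lit 0) (nat_lit 1059438033) (nat_lit 228) (nat_lit 3110723870) (nat_lit 304) (nat_lit 4568975029) (nat_lit 69) (nat_lit 5) (nat_lit 72) (nat_lit 5) (nat_lit 73) (nat_lit 4) (nat_lit 327) (nat_lit 290) (nat_lit 283)) (XT.nd (nat_lit 78) (nat_lit 304) (nat_lit 0) (XT.lf (nat_lit 0) (nat_lit 7843090419) (nat_lit 228) (nat_lit 63508651) (nat_lit 304) (nat_lit 1028116339) (nat_lit 69) (nat_lit 5) (nat_lit 72) (nat_lit 5) (nat_lit 73) (nat_lit 4) (nat_lit 328) (nat_lit 290) (nat_lit 282)) (XT.lf (nat_lit 0) (nat_lit 2609622173) (nat_lit 304) (nat_lit 3411955600)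 (nat_lit 76) (nat_lit 3116187177) (nat_lit 65) (nat_lit 5) (nat_lit 69) (nat_lit 5) (nat_lit 66) (nat_lit 4) (nat_lit 329) (nat_lit 290) (nat_lit 281)))) (XT.nd (nat_lit 78) (nat_lit 304) (nat_lit 0) (XT.lf (nat_lit 0) (nat_lit 3471979577) (nat_lit 228) (nat_lit 2864810769) (nat_lit 304) (nat_lit 3016313230) (nat_lit 62) (nat_lit 5) (nat_lit 65) (nat_lit 5) (nat_lit 66) (nat_lit 4) (nat_lit 330) (nat_lit 290) (nat_lit 280)) (XT.nd (nat_lit 78) (nat_lit 0) (nat_lit 0) (XT.lf (nat_lit 0) (nat_lit 601708549) (nat_lit 304) (nat_lit 8518082273) (nat_lit 76) (nat_lit 461366618) (nat_lit 58) (nat_lit 5) (nat_lit 62) (nat_lit 5) (nat_lit 59) (nat_lit 4) (nat_lit 331) (nat_lit 290) (nat_lit 279)) (XT.lf (nat_lit 0) (nat_lit 4318903410) (nat_lit 304) (nat_lit 1551550183) (nat_lit 76) (nat_lit 3946778615) (nat_lit 58) (nat_lit 5) (nat_lit 62) (nat_lit 5) (nat_lit 59) (nat_lit 4) (nat_lit 332) (nat_lit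 290) (nat_lit 278)))))) (XT.nd (nat_lit 468) (nat_lit 684) (nat_lit 0) (XT.nd (nat_lit 234) (nat_lit 380) (nat_lit 0) (XT.nd (nat_lit 78) (nat_lit 456) (nat_lit 0) (XT.lf (nat_lit 0) (nat_lit 5760504284) (nat_lit 152) (nat_lit 2428956416) (nat_lit 228) (nat_lit 1877344016) (nat_lit 56) (nat_lit 5) (nat_lit 58) (nat_lit 5) (nat_lit 59) (nat_lit 4) (nat_lit 333) (nat_lit 290) (nat_lit 277)) (XT.nd (nat_lit 78) (nat_lit 152) (nat_lit 0) (XT.lf (nat_lit 0) (nat_lit 1834967545) (nat_lit 304) (nat_lit 7305774705) (nat_lit 76) (nat_lit 1188079835) (nat_lit 52) (nat_lit 5) (nat_lit 56) (nat_lit 5) (nat_lit 53) (nat_lit 4) (nat_lit 334) (nat_lit 290) (nat_lit 276)) (XT.lf (nat_lit 0) (nat_lit 6334016) (nat_lit 152) (nat_lit 5657864565) (nat_lit 228) (nat_lit 4938542908) (nat_lit 50) (nat_lit 5) (nat_lit 52) (nat_lit 5) (nat_lit 53) (nat_lit 4) (nat_lit 335) (nat_lit 290) (nat_lit 275)))) (XT.nd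 (nat_lit 78) (nat_lit 380) (nat_lit 0) (XT.lf (nat_lit 0) (nat_lit 7750603324) (nat_lit 152) (nat_lit 1941143538) (nat_lit 228) (nat_lit 1198324094) (nat_lit 50) (nat_lit 5) (nat_lit 52) (nat_lit 5) (nat_lit 53) (nat_lit 4) (nat_lit 336) (nat_lit 290) (nat_lit 274)) (XT.nd (nat_lit 78) (nat_lit 152) (nat_lit 0) (XT.lf (nat_lit 0) (nat_lit 2631837239) (nat_lit 228) (nat_lit 6609773388) (nat_lit 76) (nat_lit 1948563888) (nat_lit 47) (nat_lit 5) (nat_lit 50) (nat_lit 5) (nat_lit 48) (nat_lit 4) (nat_lit 337) (nat_lit 290) (nat_lit 273)) (XT.lf (nat_lit 0) (nat_lit 1091691474) (nat_lit 152) (nat_lit 5512792844) (nat_lit 228) (nat_lit 4900303371) (nat_lit 45) (nat_lit 5) (nat_lit 47) (nat_lit 5) (nat_lit 48) (nat_lit 4) (nat_lit 338) (nat_lit 290) (nat_lit 272))))) (XT.nd (nat_lit 234) (nat_lit 304) (nat_lit 0) (XT.nd (nat_lit 78) (nat_lit 380) (nat_lit 0) (XT.lf (nat_lit 0) (nat_lit 9227121492)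 (nat_lit 152) (nat_lit 1551422372) (nat_lit 228) (nat_lit 1056495448) (nat_lit 45) (nat_lit 5) (nat_lit 47) (nat_lit 5) (nat_lit 48) (nat_lit 4) (nat_lit 339) (nat_lit 290) (nat_lit 271)) (XT.nd (nat_lit 78) (nat_lit 152) (nat_lit 0) (XT.lf (nat_lit 0) (nat_lit 2906780933) (nat_lit 228) (nat_lit 6679403076) (nat_lit 76) (nat_lit 2592203990) (nat_lit 42) (nat_lit 5) (nat_lit 45) (nat_lit 5) (nat_lit 43) (nat_lit 4) (nat_lit 340) (nat_lit 290) (nat_lit 270)) (XT.lf (nat_lit 0) (nat_lit 1389247233) (nat_lit 152) (nat_lit 5631028629) (nat_lit 228) (nat_lit 5518424707) (nat_lit 40) (nat_lit 5) (nat_lit 42) (nat_lit 5) (nat_lit 43) (nat_lit 4) (nat_lit 341) (nat_lit 290) (nat_lit 269)))) (XT.nd (nat_lit 156) (nat_lit 76) (nat_lit 0) (XT.nd (nat_lit 78) (nat_lit 228) (nat_lit 0) (XT.lf (nat_lit 0) (nat_lit 9919257180) (nat_lit 152) (nat_lit 1431111477) (nat_lit 228) (nat_lit 1566152453) (nat_lit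 40) (nat_lit 5) (nat_lit 42) (nat_lit 5) (nat_lit 43) (nat_lit 4) (nat_lit 342) (nat_lit 290) (nat_lit 268)) (XT.lf (nat_lit 0) (nat_lit 2535910284) (nat_lit 228) (nat_lit 7829165121) (nat_lit 76) (nat_lit 2944431600) (nat_lit 37) (nat_lit 5) (nat_lit 40) (nat_lit 5) (nat_lit 38) (nat_lit 4) (nat_lit 343) (nat_lit 290) (nat_lit 267))) (XT.nd (nat_lit 78) (nat_lit 0) (nat_lit 0) (XT.lf (nat_lit 0) (nat_lit 564320707) (nat_lit 76) (nat_lit 6212058499) (nat_lit 152) (nat_lit 6945215710) (nat_lit 36) (nat_lit 5) (nat_lit 37) (nat_lit 5) (nat_lit 38) (nat_lit 4) (nat_lit 344) (nat_lit 290) (nat_lit 266)) (XT.lf (nat_lit 0) (nat_lit 9481979087) (nat_lit 76) (nat_lit 1783606512) (nat_lit 152) (nat_lit 2886897596) (nat_lit 36) (nat_lit 5) (nat_lit 37) (nat_lit 5) (nat_lit 38) (nat_lit 4) (nat_lit 345) (nat_lit 290) (nat_lit 265))))))))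
noncomputable def xc75 : XT := (XT.nd (nat_lit 1950) (nat_lit 684) (nat_lit 0) (XT.nd (nat_lit 936) (nat_lit 608) (nat_lit 0) (XT.nd (nat_lit 468) (nat_lit 380) (nat_lit 0) (XT.nd (nat_lit 234) (nat_lit 304) (nat_lit 0) (XT.nd (nat_lit 78) (nat_lit 76) (nat_lit 0) (XT.lf (nat_lit 0) (nat_lit 1348030673) (nat_lit 228) (nat_lit 10459493752) (nat_lit 76) (nat_lit 2795463247) (nat_lit 33) (nat_lit 5) (nat_lit 36) (nat_lit 5) (nat_lit 34) (nat_lit 4) (nat_lit 346) (nat_lit 290) (nat_lit 264)) (XT.nd (nat_lit 78) (nat_lit 76) (nat_lit 0) (XT.lf (nat_lit 0) (nat_lit 5715332433) (nat_lit 228) (nat_lit 1752904346) (nat_lit 76) (nat_lit 7604559355) (nat_lit 33) (nat_lit 5) (nat_lit 36) (nat_lit 5) (nat_lit 34) (nat_lit 4) (nat_lit 347) (nat_lit 290) (nat_lit 263)) (XT.lf (nat_lit 0) (nat_lit 7472642199) (nat_lit 76) (nat_lit 2857418725) (nat_lit 152) (nat_lit 5234607070) (nat_lit 32) (nat_lit 5)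 (nat_lit 33) (nat_lit 5) (nat_lit 34) (nat_lit 4) (nat_lit 348) (nat_lit 290) (nat_lit 262)))) (XT.nd (nat_lit 78) (nat_lit 152) (nat_lit 0) (XT.lf (nat_lit 0) (nat_lit 984418328) (nat_lit 152) (nat_lit 14180750742) (nat_lit 152) (nat_lit 916507031) (nat_lit 30) (nat_lit 4) (nat_lit 32) (nat_lit 5) (nat_lit 32) (nat_lit 4) (nat_lit 349) (nat_lit 290) (nat_lit 261)) (XT.nd (nat_lit 78) (nat_lit 76) (nat_lit 0) (XT.lf (nat_lit 0) (nat_lit 3601290603) (nat_lit 228) (nat_lit 6084294754) (nat_lit 76) (nat_lit 6931169045) (nat_lit 29) (nat_lit 5) (nat_lit 32) (nat_lit 5) (nat_lit 30) (nat_lit 4) (nat_lit 350) (nat_lit 290) (nat_lit 260)) (XT.lf (nat_lit 0) (nat_lit 3321392269) (nat_lit 76) (nat_lit 4962206420) (nat_lit 152) (nat_lit 8895787070) (nat_lit 28) (nat_lit 5) (nat_lit 29) (nat_lit 5) (nat_lit 30) (nat_lit 4) (nat_lit 351) (nat_lit 290) (nat_lit 259))))) (XT.nd (nat_lit 234) (nat_lit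 152) (nat_lit 0) (XT.nd (nat_lit 78) (nat_lit 228) (nat_lit 0) (XT.lf (nat_lit 0) (nat_lit 13222878463) (nat_lit 152) (nat_lit 4507876026) (nat_lit 0) (nat_lit 38271796) (nat_lit 28) (nat_lit 5) (nat_lit 30) (nat_lit 4) (nat_lit 28) (nat_lit 4) (nat_lit 352) (nat_lit 290) (nat_lit 258)) (XT.nd (nat_lit 78) (nat_lit 0) (nat_lit 0) (XT.lf (nat_lit 0) (nat_lit 107123987) (nat_lit 228) (nat_lit 13131761634) (nat_lit 76) (nat_lit 5144924267) (nat_lit 25) (nat_lit 5) (nat_lit 28) (nat_lit 5) (nat_lit 26) (nat_lit 4) (nat_lit 353) (nat_lit 290) (nat_lit 257)) (XT.lf (nat_lit 0) (nat_lit 4840187119) (nat_lit 228) (nat_lit 3587800446) (nat_lit 76) (nat_lit 10597640987) (nat_lit 25) (nat_lit 5) (nat_lit 28) (nat_lit 5) (nat_lit 26) (nat_lit 4) (nat_lit 354) (nat_lit 290) (nat_lit 256)))) (XT.nd (nat_lit 78) (nat_lit 76) (nat_lit 0) (XT.lf (nat_lit 0) (nat_lit 6505402384) (nat_lit 76) (nat_lit 3332081461)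 (nat_lit 152) (nat_lit 9860692078) (nat_lit 24) (nat_lit 5) (nat_lit 25) (nat_lit 5) (nat_lit 26) (nat_lit 4) (nat_lit 355) (nat_lit 290) (nat_lit 255)) (XT.nd (nat_lit 78) (nat_lit 76) (nat_lit 0) (XT.lf (nat_lit 0) (nat_lit 15104404406) (nat_lit 152) (nat_lit 3342657819) (nat_lit 0) (nat_lit 1956316484) (nat_lit 24) (nat_lit 5) (nat_lit 26) (nat_lit 4) (nat_lit 24) (nat_lit 4) (nat_lit 356) (nat_lit 290) (nat_lit 254)) (XT.lf (nat_lit 0) (nat_lit 7040529355) (nat_lit 76) (nat_lit 13688674473) (nat_lit 76) (nat_lit 409926400) (nat_lit 23) (nat_lit 4) (nat_lit 24) (nat_lit 5) (nat_lit 24) (nat_lit 4) (nat_lit 357) (nat_lit 290) (nat_lit 253)))))) (XT.nd (nat_lit 468) (nat_lit 228) (nat_lit 0) (XT.nd (nat_lit 234) (nat_lit 228) (nat_lit 0) (XT.nd (nat_lit 78) (nat_lit 76) (nat_lit 0) (XT.lf (nat_lit 0) (nat_lit 4560108556) (nat_lit 152) (nat_lit 4054963772) (nat_lit 76) (nat_lit 13293537475)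 (nat_lit 22) (nat_lit 5) (nat_lit 24) (nat_lit 5) (nat_lit 23) (nat_lit 4) (nat_lit 358) (nat_lit 290) (nat_lit 252)) (XT.nd (nat_lit 78) (nat_lit 0) (nat_lit 0) (XT.lf (nat_lit 0) (nat_lit 6570258580) (nat_lit 76) (nat_lit 3230696299) (nat_lit 152) (nat_lit 12913481342) (nat_lit 21) (nat_lit 5) (nat_lit 22) (nat_lit 5) (nat_lit 23) (nat_lit 4) (nat_lit 359) (nat_lit 290) (nat_lit 251)) (XT.lf (nat_lit 0) (nat_lit 15345346279) (nat_lit 152) (nat_lit 5853101725) (nat_lit 0) (nat_lit 2360043351) (nat_lit 21) (nat_lit 5) (nat_lit 23) (nat_lit 4) (nat_lit 21) (nat_lit 4) (nat_lit 360) (nat_lit 290) (nat_lit 250)))) (XT.nd (nat_lit 78) (nat_lit 152) (nat_lit 0) (XT.lf (nat_lit 0) (nat_lit 4939027750) (nat_lit 76) (nat_lit 16295028529) (nat_lit 76) (nat_lit 3207349952) (nat_lit 20) (nat_lit 4) (nat_lit 21) (nat_lit 5) (nat_lit 21) (nat_lit 4) (nat_lit 361) (nat_lit 290) (nat_lit 249)) (XT.nd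 (nat_lit 78) (nat_lit 76) (nat_lit 0) (XT.lf (nat_lit 0) (nat_lit 2021090099) (nat_lit 152) (nat_lit 9041944489) (nat_lit 76) (nat_lit 14301947390) (nat_lit 19) (nat_lit 5) (nat_lit 21) (nat_lit 5) (nat_lit 20) (nat_lit 4) (nat_lit 362) (nat_lit 290) (nat_lit 248)) (XT.lf (nat_lit 0) (nat_lit 1834511744) (nat_lit 76) (nat_lit 5537463215) (nat_lit 152) (nat_lit 18961702350) (nat_lit 18) (nat_lit 5) (nat_lit 19) (nat_lit 5) (nat_lit 20) (nat_lit 4) (nat_lit 363) (nat_lit 290) (nat_lit 247))))) (XT.nd (nat_lit 234) (nat_lit 152) (nat_lit 0) (XT.nd (nat_lit 78) (nat_lit 76) (nat_lit 0) (XT.lf (nat_lit 0) (nat_lit 13090630963) (nat_lit 152) (nat_lit 13894518108) (nat_lit 0) (nat_lit 360656812) (nat_lit 18) (nat_lit 5) (nat_lit 20) (nat_lit 4) (nat_lit 18) (nat_lit 4) (nat_lit 364) (nat_lit 290) (nat_lit 246)) (XT.nd (nat_lit 78) (nat_lit 76) (nat_lit 0) (XT.lf (nat_lit 0) (nat_lit 19129292188)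 (nat_lit 152) (nat_lit 2958450391) (nat_lit 0) (nat_lit 6319104038) (nat_lit 18) (nat_lit 5) (nat_lit 20) (nat_lit 4) (nat_lit 18) (nat_lit 4) (nat_lit 365) (nat_lit 290) (nat_lit 245)) (XT.lf (nat_lit 0) (nat_lit 8699985012) (nat_lit 76) (nat_lit 16851727215) (nat_lit 76) (nat_lit 3965144780) (nat_lit 17) (nat_lit 4) (nat_lit 18) (nat_lit 5) (nat_lit 18) (nat_lit 4) (nat_lit 366) (nat_lit 290) (nat_lit 244)))) (XT.nd (nat_lit 156) (nat_lit 0) (nat_lit 0) (XT.nd (nat_lit 78) (nat_lit 76) (nat_lit 0) (XT.lf (nat_lit 0) (nat_lit 1558295603) (nat_lit 152) (nat_lit 9764832909) (nat_lit 76) (nat_lit 19358136769) (nat_lit 16) (nat_lit 5) (nat_lit 18) (nat_lit 5) (nat_lit 17) (nat_lit 4) (nat_lit 367) (nat_lit 290) (nat_lit 243)) (XT.lf (nat_lit 0) (nat_lit 1732130447) (nat_lit 76) (nat_lit 5468240875) (nat_lit 152) (nat_lit 24701494313) (nat_lit 15) (nat_lit 5) (nat_lit 16) (nat_lit 5) (nat_lit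 17) (nat_lit 4) (nat_lit 368) (nat_lit 290) (nat_lit 242))) (XT.nd (nat_lit 78) (nat_lit 0) (nat_lit 0) (XT.lf (nat_lit 0) (nat_lit 13252132485) (nat_lit 152) (nat_lit 19143928823) (nat_lit 0) (nat_lit 781062943) (nat_lit 15) (nat_lit 5) (nat_lit 17) (nat_lit 4) (nat_lit 15) (nat_lit 4) (nat_lit 369) (nat_lit 290) (nat_lit 241)) (XT.lf (nat_lit 0) (nat_lit 19647450017) (nat_lit 152) (nat_lit 7750130792) (nat_lit 0) (nat_lit 7116523553) (nat_lit 15) (nat_lit 5) (nat_lit 17) (nat_lit 4) (nat_lit 15) (nat_lit 4) (nat_lit 370) (nat_lit 290) (nat_lit 240))))))) (XT.nd (nat_lit 936) (nat_lit 228) (nat_lit 0) (XT.nd (nat_lit 468) (nat_lit 228) (nat_lit 0) (XT.nd (nat_lit 234) (nat_lit 76) (nat_lit 0) (XT.nd (nat_lit 78) (nat_lit 76) (nat_lit 0) (XT.lf (nat_lit 0) (nat_lit 4260524965) (nat_lit 76) (nat_lit 22122170068) (nat_lit 76) (nat_lit 9534237012) (nat_lit 14) (nat_lit 4) (nat_lit 15) (nat_lit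 5) (nat_lit 15) (nat_lit 4) (nat_lit 371) (nat_lit 290) (nat_lit 239)) (XT.nd (nat_lit 78) (nat_lit 76) (nat_lit 0) (XT.lf (nat_lit 0) (nat_lit 17053023611) (nat_lit 76) (nat_lit 16487411129) (nat_lit 76) (nat_lit 3845186081) (nat_lit 14) (nat_lit 4) (nat_lit 15) (nat_lit 5) (nat_lit 15) (nat_lit 4) (nat_lit 372) (nat_lit 290) (nat_lit 238)) (XT.lf (nat_lit 0) (nat_lit 2016129252) (nat_lit 152) (nat_lit 8560866738) (nat_lit 76) (nat_lit 28351295772) (nat_lit 13) (nat_lit 5) (nat_lit 15) (nat_lit 5) (nat_lit 14) (nat_lit 4) (nat_lit 373) (nat_lit 290) (nat_lit 237)))) (XT.nd (nat_lit 78) (nat_lit 0) (nat_lit 0) (XT.lf (nat_lit 0) (nat_lit 3776287890) (nat_lit 76) (nat_lit 4281987248) (nat_lit 152) (nat_lit 32485825377) (nat_lit 12) (nat_lit 5) (nat_lit 13) (nat_lit 5) (nat_lit 14) (nat_lit 4) (nat_lit 374) (nat_lit 290) (nat_lit 236)) (XT.nd (nat_lit 78) (nat_lit 0) (nat_lit 0) (XT.lf (nat_lit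 0) (nat_lit 14544414218) (nat_lit 152) (nat_lit 25325806569) (nat_lit 0) (nat_lit 2363389830) (nat_lit 12) (nat_lit 5) (nat_lit 14) (nat_lit 4) (nat_lit 12) (nat_lit 4) (nat_lit 375) (nat_lit 290) (nat_lit 235)) (XT.lf (nat_lit 0) (nat_lit 21385231693) (nat_lit 152) (nat_lit 13459182811) (nat_lit 0) (nat_lit 9161668108) (nat_lit 12) (nat_lit 5) (nat_lit 14) (nat_lit 4) (nat_lit 12) (nat_lit 4) (nat_lit 376) (nat_lit 290) (nat_lit 234))))) (XT.nd (nat_lit 234) (nat_lit 152) (nat_lit 0) (XT.nd (nat_lit 78) (nat_lit 76) (nat_lit 0) (XT.lf (nat_lit 0) (nat_lit 28530161401) (nat_lit 152) (nat_lit 1072833665) (nat_lit 0) (nat_lit 16266084297) (nat_lit 12) (nat_lit 5) (nat_lit 14) (nat_lit 4) (nat_lit 12) (nat_lit 4) (nat_lit 377) (nat_lit 290) (nat_lit 233)) (XT.nd (nat_lit 78) (nat_lit 0) (nat_lit 0) (XT.lf (nat_lit 0) (nat_lit 12254967675) (nat_lit 76) (nat_lit 23932581796) (nat_lit 76) (nat_lit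 11629920386) (nat_lit 11) (nat_lit 4) (nat_lit 12) (nat_lit 5) (nat_lit 12) (nat_lit 4) (nat_lit 378) (nat_lit 290) (nat_lit 232)) (XT.lf (nat_lit 0) (nat_lit 26217435342) (nat_lit 76) (nat_lit 17993061349) (nat_lit 76) (nat_lit 5653652982) (nat_lit 11) (nat_lit 4) (nat_lit 12) (nat_lit 5) (nat_lit 12) (nat_lit 4) (nat_lit 379) (nat_lit 290) (nat_lit 231)))) (XT.nd (nat_lit 78) (nat_lit 76) (nat_lit 0) (XT.lf (nat_lit 0) (nat_lit 567190617) (nat_lit 152) (nat_lit 11211664703) (nat_lit 76) (nat_lit 40235544314) (nat_lit 10) (nat_lit 5) (nat_lit 12) (nat_lit 5) (nat_lit 11) (nat_lit 4) (nat_lit 380) (nat_lit 290) (nat_lit 230)) (XT.nd (nat_lit 78) (nat_lit 0) (nat_lit 0) (XT.lf (nat_lit 0) (nat_lit 1744651074) (nat_lit 76) (nat_lit 5158952396) (nat_lit 152) (nat_lit 47364201838) (nat_lit 9) (nat_lit 5) (nat_lit 10) (nat_lit 5) (nat_lit 11) (nat_lit 4) (nat_lit 381) (nat_lit 290) (nat_lit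 229)) (XT.lf (nat_lit 0) (nat_lit 13745194068) (nat_lit 152) (nat_lit 40981202082) (nat_lit 0) (nat_lit 1898070787) (nat_lit 9) (nat_lit 5) (nat_lit 11) (nat_lit 4) (nat_lit 9) (nat_lit 4) (nat_lit 382) (nat_lit 290) (nat_lit 228)))))) (XT.nd (nat_lit 468) (nat_lit 152) (nat_lit 0) (XT.nd (nat_lit 234) (nat_lit 76) (nat_lit 0) (XT.nd (nat_lit 78) (nat_lit 0) (nat_lit 0) (XT.lf (nat_lit 0) (nat_lit 20982382075) (nat_lit 152) (nat_lit 29007440445) (nat_lit 0) (nat_lit 9106466591) (nat_lit 9) (nat_lit 5) (nat_lit 11) (nat_lit 4) (nat_lit 9) (nat_lit 4) (nat_lit 383) (nat_lit 290) (nat_lit 227)) (XT.nd (nat_lit 78) (nat_lit 0) (nat_lit 0) (XT.lf (nat_lit 0) (nat_lit 28551853186) (nat_lit 152) (nat_lit 16492814660) (nat_lit 0) (nat_lit 16648516557) (nat_lit 9) (nat_lit 5) (nat_lit 11) (nat_lit 4) (nat_lit 9) (nat_lit 4) (nat_lit 384) (nat_lit 290) (nat_lit 226)) (XT.lf (nat_lit 0) (nat_lit 36471629953)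 (nat_lit 152) (nat_lit 3407528001) (nat_lit 0) (nat_lit 24542177948) (nat_lit 9) (nat_lit 5) (nat_lit 11) (nat_lit 4) (nat_lit 9) (nat_lit 4) (nat_lit 385) (nat_lit 290) (nat_lit 225)))) (XT.nd (nat_lit 78) (nat_lit 0) (nat_lit 0) (XT.lf (nat_lit 0) (nat_lit 10619464149) (nat_lit 76) (nat_lit 34306904434) (nat_lit 76) (nat_lit 22352580641) (nat_lit 8) (nat_lit 4) (nat_lit 9) (nat_lit 5) (nat_lit 9) (nat_lit 4) (nat_lit 386) (nat_lit 290) (nat_lit 224)) (XT.nd (nat_lit 78) (nat_lit 0) (nat_lit 0) (XT.lf (nat_lit 0) (nat_lit 25414505507) (nat_lit 76) (nat_lit 28420692004) (nat_lit 76) (nat_lit 16442680795) (nat_lit 8) (nat_lit 4) (nat_lit 9) (nat_lit 5) (nat_lit 9) (nat_lit 4) (nat_lit 387) (nat_lit 290) (nat_lit 223)) (XT.lf (nat_lit 0) (nat_lit 40900154096) (nat_lit 76) (nat_lit 22264214009) (nat_lit 76) (nat_lit 10263643356) (nat_lit 8) (nat_lit 4) (nat_lit 9) (nat_lit 5) (nat_lit 9) (nat_lit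 4) (nat_lit 388) (nat_lit 290) (nat_lit 222))))) (XT.nd (nat_lit 234) (nat_lit 0) (nat_lit 0) (XT.nd (nat_lit 78) (nat_lit 152) (nat_lit 0) (XT.lf (nat_lit 0) (nat_lit 57113280509) (nat_lit 76) (nat_lit 15822812167) (nat_lit 76) (nat_lit 3800756330) (nat_lit 8) (nat_lit 4) (nat_lit 9) (nat_lit 5) (nat_lit 9) (nat_lit 4) (nat_lit 389) (nat_lit 290) (nat_lit 221)) (XT.nd (nat_lit 78) (nat_lit 76) (nat_lit 0) (XT.lf (nat_lit 0) (nat_lit 2866585835) (nat_lit 152) (nat_lit 6166016955) (nat_lit 76) (nat_lit 71177354573) (nat_lit 7) (nat_lit 5) (nat_lit 9) (nat_lit 5) (nat_lit 8) (nat_lit 4) (nat_lit 390) (nat_lit 290) (nat_lit 220)) (XT.lf (nat_lit 0) (nat_lit 8118772034) (nat_lit 76) (nat_lit 1725509745) (nat_lit 152) (nat_lit 74004090300) (nat_lit 6) (nat_lit 5) (nat_lit 7) (nat_lit 5) (nat_lit 8) (nat_lit 4) (nat_lit 391) (nat_lit 290) (nat_lit 219)))) (XT.nd (nat_lit 156) (nat_lit 0) (nat_lit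 0) (XT.nd (nat_lit 78) (nat_lit 0) (nat_lit 0) (XT.lf (nat_lit 0) (nat_lit 17347868356) (nat_lit 152) (nat_lit 64469422897) (nat_lit 0) (nat_lit 5842568047) (nat_lit 6) (nat_lit 5) (nat_lit 8) (nat_lit 4) (nat_lit 6) (nat_lit 4) (nat_lit 392) (nat_lit 290) (nat_lit 218)) (XT.lf (nat_lit 0) (nat_lit 25233989030) (nat_lit 152) (nat_lit 52715711559) (nat_lit 0) (nat_lit 13711854516) (nat_lit 6) (nat_lit 5) (nat_lit 8) (nat_lit 4) (nat_lit 6) (nat_lit 4) (nat_lit 393) (nat_lit 290) (nat_lit 217))) (XT.nd (nat_lit 78) (nat_lit 0) (nat_lit 0) (XT.lf (nat_lit 0) (nat_lit 33494480236) (nat_lit 152) (nat_lit 40413540963) (nat_lit 0) (nat_lit 21956313147) (nat_lit 6) (nat_lit 5) (nat_lit 8) (nat_lit 4) (nat_lit 6) (nat_lit 4) (nat_lit 394) (nat_lit 290) (nat_lit 216)) (XT.lf (nat_lit 0) (nat_lit 42149009811) (nat_lit 152) (nat_lit 27533620226) (nat_lit 0) (nat_lit 30595573602) (nat_lit 6) (nat_lit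 5) (nat_lit 8) (nat_lit 4) (nat_lit 6) (nat_lit 4) (nat_lit 395) (nat_lit 290) (nat_lit 215))))))))
noncomputable def xc76 : XT := (XT.nd (nat_lit 1872) (nat_lit 76) (nat_lit 0) (XT.nd (nat_lit 936) (nat_lit 0) (nat_lit 0) (XT.nd (nat_lit 468) (nat_lit 152) (nat_lit 0) (XT.nd (nat_lit 234) (nat_lit 0) (nat_lit 0) (XT.nd (nat_lit 78) (nat_lit 76) (nat_lit 0) (XT.lf (nat_lit 0) (nat_lit 51218183777) (nat_lit 152) (nat_lit 14045282869) (nat_lit 0) (nat_lit 39650205549) (nat_lit 6) (nat_lit 5) (nat_lit 8) (nat_lit 4) (nat_lit 6) (nat_lit 4) (nat_lit 396) (nat_lit 290) (nat_lit 214)) (XT.nd (nat_lit 78) (nat_lit 0) (nat_lit 0) (XT.lf (nat_lit 0) (nat_lit 86349931) (nat_lit 76) (nat_lit 60638593639) (nat_lit 76) (nat_lit 49056765869) (nat_lit 5) (nat_lit 4) (nat_lit 6) (nat_lit 5) (nat_lit 6) (nat_lit 4) (nat_lit 397) (nat_lit 290) (nat_lit 213)) (XT.lf (nat_lit 0) (nat_lit 15378846254) (nat_lit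 76) (nat_lit 55549137265) (nat_lit 76) (nat_lit 43954119455) (nat_lit 5) (nat_lit 4) (nat_lit 6) (nat_lit 5) (nat_lit 6) (nat_lit 4) (nat_lit 398) (nat_lit 290) (nat_lit 212)))) (XT.nd (nat_lit 78) (nat_lit 0) (nat_lit 0) (XT.lf (nat_lit 0) (nat_lit 31404216321) (nat_lit 76) (nat_lit 50220843433) (nat_lit 76) (nat_lit 38613263681) (nat_lit 5) (nat_lit 4) (nat_lit 6) (nat_lit 5) (nat_lit 6) (nat_lit 4) (nat_lit 399) (nat_lit 290) (nat_lit 211)) (XT.nd (nat_lit 78) (nat_lit 0) (nat_lit 0) (XT.lf (nat_lit 0) (nat_lit 48200615776) (nat_lit 76) (nat_lit 44641025731) (nat_lit 76) (nat_lit 33021482224) (nat_lit 5) (nat_lit 4) (nat_lit 6) (nat_lit 5) (nat_lit 6) (nat_lit 4) (nat_lit 400) (nat_lit 290) (nat_lit 210)) (XT.lf (nat_lit 0) (nat_lit 65808036046) (nat_lit 76) (nat_lit 38796398876) (nat_lit 76) (nat_lit 27165461317) (nat_lit 5) (nat_lit 4) (nat_lit 6) (nat_lit 5) (nat_lit 6) (nat_lit 4)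 (nat_lit 401) (nat_lit 290) (nat_lit 209))))) (XT.nd (nat_lit 234) (nat_lit 152) (nat_lit 0) (XT.nd (nat_lit 78) (nat_lit 0) (nat_lit 0) (XT.lf (nat_lit 0) (nat_lit 84268399561) (nat_lit 76) (nat_lit 32673047092) (nat_lit 76) (nat_lit 21031258055) (nat_lit 5) (nat_lit 4) (nat_lit 6) (nat_lit 5) (nat_lit 6) (nat_lit 4) (nat_lit 402) (nat_lit 290) (nat_lit 208)) (XT.nd (nat_lit 78) (nat_lit 0) (nat_lit 0) (XT.lf (nat_lit 0) (nat_lit 103625659566) (nat_lit 76) (nat_lit 26256390970) (nat_lit 76) (nat_lit 14604267191) (nat_lit 5) (nat_lit 4) (nat_lit 6) (nat_lit 5) (nat_lit 6) (nat_lit 4) (nat_lit 403) (nat_lit 290) (nat_lit 207)) (XT.lf (nat_lit 0) (nat_lit 123925904775) (nat_lit 76) (nat_lit 19531152755) (nat_lit 76) (nat_lit 7869186366) (nat_lit 5) (nat_lit 4) (nat_lit 6) (nat_lit 5) (nat_lit 6) (nat_lit 4) (nat_lit 404) (nat_lit 290) (nat_lit 206)))) (XT.nd (nat_lit 78) (nat_lit 152) (nat_lit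 0) (XT.lf (nat_lit 0) (nat_lit 145217469107) (nat_lit 76) (nat_lit 12481319978) (nat_lit 76) (nat_lit 809979673) (nat_lit 5) (nat_lit 4) (nat_lit 6) (nat_lit 5) (nat_lit 6) (nat_lit 4) (nat_lit 405) (nat_lit 290) (nat_lit 205)) (XT.nd (nat_lit 78) (nat_lit 0) (nat_lit 0) (XT.lf (nat_lit 0) (nat_lit 1443358822) (nat_lit 76) (nat_lit 4958410282) (nat_lit 152) (nat_lit 159642953170) (nat_lit 3) (nat_lit 5) (nat_lit 4) (nat_lit 5) (nat_lit 5) (nat_lit 4) (nat_lit 406) (nat_lit 290) (nat_lit 204)) (XT.lf (nat_lit 0) (nat_lit 14209967062) (nat_lit 152) (nat_lit 156655884399) (nat_lit 0) (nat_lit 3077804910) (nat_lit 3) (nat_lit 5) (nat_lit 5) (nat_lit 4) (nat_lit 3) (nat_lit 4) (nat_lit 407) (nat_lit 290) (nat_lit 203)))))) (XT.nd (nat_lit 468) (nat_lit 0) (nat_lit 0) (XT.nd (nat_lit 234) (nat_lit 0) (nat_lit 0) (XT.nd (nat_lit 78) (nat_lit 0) (nat_lit 0) (XT.lf (nat_lit 0) (nat_lit 22478799376)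 (nat_lit 152) (nat_lit 148416302195) (nat_lit 0) (nat_lit 11338925281) (nat_lit 3) (nat_lit 5) (nat_lit 5) (nat_lit 4) (nat_lit 3) (nat_lit 4) (nat_lit 408) (nat_lit 290) (nat_lit 202)) (XT.nd (nat_lit 78) (nat_lit 0) (nat_lit 0) (XT.lf (nat_lit 0) (nat_lit 31150539061) (nat_lit 152) (nat_lit 139785584106) (nat_lit 0) (nat_lit 20003320258) (nat_lit 3) (nat_lit 5) (nat_lit 5) (nat_lit 4) (nat_lit 3) (nat_lit 4) (nat_lit 409) (nat_lit 290) (nat_lit 201)) (XT.lf (nat_lit 0) (nat_lit 40245833115) (nat_lit 152) (nat_lit 130743180803) (nat_lit 0) (nat_lit 29091619353) (nat_lit 3) (nat_lit 5) (nat_lit 5) (nat_lit 4) (nat_lit 3) (nat_lit 4) (nat_lit 410) (nat_lit 290) (nat_lit 200)))) (XT.nd (nat_lit 78) (nat_lit 0) (nat_lit 0) (XT.lf (nat_lit 0) (nat_lit 49786337002) (nat_lit 152) (nat_lit 121267562756) (nat_lit 0) (nat_lit 38625461373) (nat_lit 3) (nat_lit 5) (nat_lit 5) (nat_lit 4) (nat_lit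 3) (nat_lit 4) (nat_lit 411) (nat_lit 290) (nat_lit 199)) (XT.nd (nat_lit 78) (nat_lit 0) (nat_lit 0) (XT.lf (nat_lit 0) (nat_lit 59794766206) (nat_lit 152) (nat_lit 111336168968) (nat_lit 0) (nat_lit 48627545943) (nat_lit 3) (nat_lit 5) (nat_lit 5) (nat_lit 4) (nat_lit 3) (nat_lit 4) (nat_lit 412) (nat_lit 290) (nat_lit 198)) (XT.lf (nat_lit 0) (nat_lit 70294950322) (nat_lit 152) (nat_lit 100925353265) (nat_lit 0) (nat_lit 59121687549) (nat_lit 3) (nat_lit 5) (nat_lit 5) (nat_lit 4) (nat_lit 3) (nat_lit 4) (nat_lit 413) (nat_lit 290) (nat_lit 197))))) (XT.nd (nat_lit 234) (nat_lit 0) (nat_lit 0) (XT.nd (nat_lit 78) (nat_lit 0) (nat_lit 0) (XT.lf (nat_lit 0) (nat_lit 81311889787) (nat_lit 152) (nat_lit 90010327988) (nat_lit 0) (nat_lit 70132872243) (nat_lit 3) (nat_lit 5) (nat_lit 5) (nat_lit 4) (nat_lit 3) (nat_lit 4) (nat_lit 414) (nat_lit 290) (nat_lit 196)) (XT.nd (nat_lit 78) (nat_lit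 0) (nat_lit 0) (XT.lf (nat_lit 0) (nat_lit 92871815409) (nat_lit 152) (nat_lit 78565104984) (nat_lit 0) (nat_lit 81687317132) (nat_lit 3) (nat_lit 5) (nat_lit 5) (nat_lit 4) (nat_lit 3) (nat_lit 4) (nat_lit 415) (nat_lit 290) (nat_lit 195)) (XT.lf (nat_lit 0) (nat_lit 105002250821) (nat_lit 152) (nat_lit 66562433721) (nat_lit 0) (nat_lit 93812532797) (nat_lit 3) (nat_lit 5) (nat_lit 5) (nat_lit 4) (nat_lit 3) (nat_lit 4) (nat_lit 416) (nat_lit 290) (nat_lit 194)))) (XT.nd (nat_lit 78) (nat_lit 0) (nat_lit 0) (XT.lf (nat_lit 0) (nat_lit 117732078013) (nat_lit 152) (nat_lit 53973736411) (nat_lit 0) (nat_lit 106537388802) (nat_lit 3) (nat_lit 5) (nat_lit 5) (nat_lit 4) (nat_lit 3) (nat_lit 4) (nat_lit 417) (nat_lit 290) (nat_lit 193)) (XT.nd (nat_lit 78) (nat_lit 0) (nat_lit 0) (XT.lf (nat_lit 0) (nat_lit 131091606095) (nat_lit 152) (nat_lit 40769039964) (nat_lit 0) (nat_lit 119892182420)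 (nat_lit 3) (nat_lit 5) (nat_lit 5) (nat_lit 4) (nat_lit 3) (nat_lit 4) (nat_lit 418) (nat_lit 290) (nat_lit 192)) (XT.lf (nat_lit 0) (nat_lit 145112643470) (nat_lit 152) (nat_lit 26916904627) (nat_lit 0) (nat_lit 133908710782) (nat_lit 3) (nat_lit 5) (nat_lit 5) (nat_lit 4) (nat_lit 3) (nat_lit 4) (nat_lit 419) (nat_lit 290) (nat_lit 191))))))) (XT.nd (nat_lit 936) (nat_lit 0) (nat_lit 0) (XT.nd (nat_lit 468) (nat_lit 0) (nat_lit 0) (XT.nd (nat_lit 234) (nat_lit 0) (nat_lit 0) (XT.nd (nat_lit 78) (nat_lit 76) (nat_lit 0) (XT.lf (nat_lit 0) (nat_lit 159828573558) (nat_lit 152) (nat_lit 12384349126) (nat_lit 0) (nat_lit 148620346572) (nat_lit 3) (nat_lit 5) (nat_lit 5) (nat_lit 4) (nat_lit 3) (nat_lit 4) (nat_lit 420) (nat_lit 290) (nat_lit 190)) (XT.nd (nat_lit 78) (nat_lit 0) (nat_lit 0) (XT.lf (nat_lit 0) (nat_lit 2957899105) (nat_lit 76) (nat_lit 172362716278) (nat_lit 76) (nat_lit 161150399483)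 (nat_lit 2) (nat_lit 4) (nat_lit 3) (nat_lit 5) (nat_lit 3) (nat_lit 4) (nat_lit 421) (nat_lit 290) (nat_lit 189)) (XT.lf (nat_lit 0) (nat_lit 19485797296) (nat_lit 76) (nat_lit 172305432130) (nat_lit 76) (nat_lit 161089220280) (nat_lit 2) (nat_lit 4) (nat_lit 3) (nat_lit 5) (nat_lit 3) (nat_lit 4) (nat_lit 422) (nat_lit 290) (nat_lit 188)))) (XT.nd (nat_lit 78) (nat_lit 0) (nat_lit 0) (XT.lf (nat_lit 0) (nat_lit 36829215073) (nat_lit 76) (nat_lit 172250668795) (nat_lit 76) (nat_lit 161030747368) (nat_lit 2) (nat_lit 4) (nat_lit 3) (nat_lit 5) (nat_lit 3) (nat_lit 4) (nat_lit 423) (nat_lit 290) (nat_lit 187)) (XT.nd (nat_lit 78) (nat_lit 0) (nat_lit 0) (XT.lf (nat_lit 0) (nat_lit 55029446288) (nat_lit 76) (nat_lit 172198295883) (nat_lit 76) (nat_lit 160974841526) (nat_lit 2) (nat_lit 4) (nat_lit 3) (nat_lit 5) (nat_lit 3) (nat_lit 4) (nat_lit 424) (nat_lit 290) (nat_lit 186)) (XT.lf (nat_lit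 0) (nat_lit 74129824825) (nat_lit 76) (nat_lit 172148188697) (nat_lit 76) (nat_lit 160921369645) (nat_lit 2) (nat_lit 4) (nat_lit 3) (nat_lit 5) (nat_lit 3) (nat_lit 4) (nat_lit 425) (nat_lit 290) (nat_lit 185))))) (XT.nd (nat_lit 234) (nat_lit 0) (nat_lit 0) (XT.nd (nat_lit 78) (nat_lit 0) (nat_lit 0) (XT.lf (nat_lit 0) (nat_lit 94175827775) (nat_lit 76) (nat_lit 172100227934) (nat_lit 76) (nat_lit 160870204411) (nat_lit 2) (nat_lit 4) (nat_lit 3) (nat_lit 5) (nat_lit 3) (nat_lit 4) (nat_lit 426) (nat_lit 290) (nat_lit 184)) (XT.nd (nat_lit 78) (nat_lit 0) (nat_lit 0) (XT.lf (nat_lit 0) (nat_lit 115215183716) (nat_lit 76) (nat_lit 172054299403) (nat_lit 76) (nat_lit 160821224002) (nat_lit 2) (nat_lit 4) (nat_lit 3) (nat_lit 5) (nat_lit 3) (nat_lit 4) (nat_lit 427) (nat_lit 290) (nat_lit 183)) (XT.lf (nat_lit 0) (nat_lit 137297986354) (nat_lit 76) (nat_lit 172010293749) (nat_lit 76) (nat_lit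 160774311797) (nat_lit 2) (nat_lit 4) (nat_lit 3) (nat_lit 5) (nat_lit 3) (nat_lit 4) (nat_lit 428) (nat_lit 290) (nat_lit 182)))) (XT.nd (nat_lit 78) (nat_lit 0) (nat_lit 0) (XT.lf (nat_lit 0) (nat_lit 160476813791) (nat_lit 76) (nat_lit 171968106197) (nat_lit 76) (nat_lit 160729356102) (nat_lit 2) (nat_lit 4) (nat_lit 3) (nat_lit 5) (nat_lit 3) (nat_lit 4) (nat_lit 429) (nat_lit 290) (nat_lit 181)) (XT.nd (nat_lit 78) (nat_lit 0) (nat_lit 0) (XT.lf (nat_lit 0) (nat_lit 184806853709) (nat_lit 76) (nat_lit 171927636300) (nat_lit 76) (nat_lit 160686249879) (nat_lit 2) (nat_lit 4) (nat_lit 3) (nat_lit 5) (nat_lit 3) (nat_lit 4) (nat_lit 430) (nat_lit 290) (nat_lit 180)) (XT.lf (nat_lit 0) (nat_lit 210346034777) (nat_lit 76) (nat_lit 171888787702) (nat_lit 76) (nat_lit 160644890493) (nat_lit 2) (nat_lit 4) (nat_lit 3) (nat_lit 5) (nat_lit 3) (nat_lit 4) (nat_lit 431) (nat_lit 290) (nat_lit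 179)))))) (XT.nd (nat_lit 468) (nat_lit 0) (nat_lit 0) (XT.nd (nat_lit 234) (nat_lit 0) (nat_lit 0) (XT.nd (nat_lit 78) (nat_lit 0) (nat_lit 0) (XT.lf (nat_lit 0) (nat_lit 237155164567) (nat_lit 76) (nat_lit 171851467906) (nat_lit 76) (nat_lit 160605179471) (nat_lit 2) (nat_lit 4) (nat_lit 3) (nat_lit 5) (nat_lit 3) (nat_lit 4) (nat_lit 432) (nat_lit 290) (nat_lit 178)) (XT.nd (nat_lit 78) (nat_lit 0) (nat_lit 0) (XT.lf (nat_lit 0) (nat_lit 265298074341) (nat_lit 76) (nat_lit 171815588055) (nat_lit 76) (nat_lit 160567022262) (nat_lit 2) (nat_lit 4) (nat_lit 3) (nat_lit 5) (nat_lit 3) (nat_lit 4) (nat_lit 433) (nat_lit 290) (nat_lit 177)) (XT.lf (nat_lit 0) (nat_lit 294841771028) (nat_lit 76) (nat_lit 171781062721) (nat_lit 76) (nat_lit 160530328016) (nat_lit 2) (nat_lit 4) (nat_lit 3) (nat_lit 5) (nat_lit 3) (nat_lit 4) (nat_lit 434) (nat_lit 290) (nat_lit 176)))) (XT.nd (nat_lit 78) (nat_lit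 0) (nat_lit 0) (XT.lf (nat_lit 0) (nat_lit 325856596762) (nat_lit 76) (nat_lit 171747809701) (nat_lit 76) (nat_lit 160495009365) (nat_lit 2) (nat_lit 4) (nat_lit 3) (nat_lit 5) (nat_lit 3) (nat_lit 4) (nat_lit 435) (nat_lit 290) (nat_lit 175)) (XT.nd (nat_lit 78) (nat_lit 0) (nat_lit 0) (XT.lf (nat_lit 0) (nat_lit 358416396366) (nat_lit 76) (nat_lit 171715749821) (nat_lit 76) (nat_lit 160460982218) (nat_lit 2) (nat_lit 4) (nat_lit 3) (nat_lit 5) (nat_lit 3) (nat_lit 4) (nat_lit 436) (nat_lit 290) (nat_lit 174)) (XT.lf (nat_lit 0) (nat_lit 392598693173) (nat_lit 76) (nat_lit 171684806748) (nat_lit 76) (nat_lit 160428165556) (nat_lit 2) (nat_lit 4) (nat_lit 3) (nat_lit 5) (nat_lit 3) (nat_lit 4) (nat_lit 437) (nat_lit 290) (nat_lit 173))))) (XT.nd (nat_lit 37518) (nat_lit 0) (nat_lit 6612) (XT.nd (nat_lit 78) (nat_lit 0) (nat_lit 0) (XT.lf (nat_lit 0) (nat_lit 428484873604) (nat_lit 76) (nat_lit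 171654906808) (nat_lit 76) (nat_lit 160396481247) (nat_lit 2) (nat_lit 4) (nat_lit 3) (nat_lit 5) (nat_lit 3) (nat_lit 4) (nat_lit 438) (nat_lit 290) (nat_lit 172)) (XT.nd (nat_lit 78) (nat_lit 0) (nat_lit 0) (XT.lf (nat_lit 0) (nat_lit 466160380946) (nat_lit 76) (nat_lit 171625978811) (nat_lit 76) (nat_lit 160365853850) (nat_lit 2) (nat_lit 4) (nat_lit 3) (nat_lit 5) (nat_lit 3) (nat_lit 4) (nat_lit 439) (nat_lit 290) (nat_lit 171)) (XT.lf (nat_lit 0) (nat_lit 505714918786) (nat_lit 76) (nat_lit 171597953880) (nat_lit 76) (nat_lit 160336210443) (nat_lit 2) (nat_lit 4) (nat_lit 3) (nat_lit 5) (nat_lit 3) (nat_lit 4) (nat_lit 440) (nat_lit 290) (nat_lit 170)))) (XT.nd (nat_lit 156) (nat_lit 456) (nat_lit 0) (XT.nd (nat_lit 78) (nat_lit 380) (nat_lit 0) (XT.lf (nat_lit 0) (nat_lit 1035377316) (nat_lit 380) (nat_lit 1336055522) (nat_lit 380) (nat_lit 1336055522) (nat_lit 100) (nat_lit 4) (nat_lit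 105) (nat_lit 5) (nat_lit 105) (nat_lit 4) (nat_lit 318) (nat_lit 291) (nat_lit 291)) (XT.lf (nat_lit 0) (nat_lit 190828828) (nat_lit 304) (nat_lit 633152160) (nat_lit 380) (nat_lit 6706991288) (nat_lit 95) (nat_lit 5) (nat_lit 99) (nat_lit 5) (nat_lit 100) (nat_lit 4) (nat_lit 319) (nat_lit 291) (nat_lit 290))) (XT.nd (nat_lit 78) (nat_lit 456) (nat_lit 0) (XT.lf (nat_lit 0) (nat_lit 4357989312) (nat_lit 380) (nat_lit 1723126102) (nat_lit 0) (nat_lit 1571974792) (nat_lit 95) (nat_lit 5) (nat_lit 100) (nat_lit 4) (nat_lit 95) (nat_lit 4) (nat_lit 320) (nat_lit 291) (nat_lit 289)) (XT.lf (nat_lit 0) (nat_lit 196411347) (nat_lit 456) (nat_lit 3677686947) (nat_lit 76) (nat_lit 3911223852) (nat_lit 89) (nat_lit 5) (nat_lit 95) (nat_lit 5) (nat_lit 90) (nat_lit 4) (nat_lit 321) (nat_lit 291) (nat_lit 288))))))))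
noncomputable def xc77 : XT := (XT.nd (nat_lit 1950) (nat_lit 1596) (nat_lit 0) (XT.nd (nat_lit 936) (nat_lit 1520) (nat_lit 0) (XT.nd (nat_lit 468) (nat_lit 988) (nat_lit 0) (XT.nd (nat_lit 234) (nat_lit 836) (nat_lit 0) (XT.nd (nat_lit 78) (nat_lit 380) (nat_lit 0) (XT.lf (nat_lit 0) (nat_lit 2195640883) (nat_lit 304) (nat_lit 1467116531) (nat_lit 380) (nat_lit 4263294489) (nat_lit 85) (nat_lit 5) (nat_lit 89) (nat_lit 5) (nat_lit 90) (nat_lit 4) (nat_lit 322) (nat_lit 291) (nat_lit 287)) (XT.nd (nat_lit 78) (nat_lit 76) (nat_lit 0) (XT.lf (nat_lit 0) (nat_lit 217840713) (nat_lit 304) (nat_lit 7018744691) (nat_lit 304) (nat_lit 840654880) (nat_lit 81) (nat_lit 4) (nat_lit 85) (nat_lit 5) (nat_lit 85) (nat_lit 4) (nat_lit 323) (nat_lit 291) (nat_lit 286)) (XT.lf (nat_lit 0) (nat_lit 2640262301) (nat_lit 380) (nat_lit 1830388814) (nat_lit 76) (nat_lit 3764542894) (nat_lit 80) (nat_lit 5)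 (nat_lit 85) (nat_lit 5) (nat_lit 81) (nat_lit 4) (nat_lit 324) (nat_lit 291) (nat_lit 285)))) (XT.nd (nat_lit 78) (nat_lit 608) (nat_lit 0) (XT.lf (nat_lit 0) (nat_lit 4444663318) (nat_lit 228) (nat_lit 1751297686) (nat_lit 304) (nat_lit 2208058610) (nat_lit 77) (nat_lit 5) (nat_lit 80) (nat_lit 5) (nat_lit 81) (nat_lit 4) (nat_lit 325) (nat_lit 291) (nat_lit 284)) (XT.nd (nat_lit 78) (nat_lit 228) (nat_lit 0) (XT.lf (nat_lit 0) (nat_lit 1252867555) (nat_lit 380) (nat_lit 6215331070) (nat_lit 76) (nat_lit 1114744649) (nat_lit 72) (nat_lit 5) (nat_lit 77) (nat_lit 5) (nat_lit 73) (nat_lit 4) (nat_lit 326) (nat_lit 291) (nat_lit 283)) (XT.lf (nat_lit 0) (nat_lit 130362649) (nat_lit 228) (nat_lit 4645303698) (nat_lit 304) (nat_lit 3995282587) (nat_lit 69) (nat_lit 5) (nat_lit 72) (nat_lit 5) (nat_lit 73) (nat_lit 4) (nat_lit 327) (nat_lit 291) (nat_lit 282))))) (XT.nd (nat_lit 234) (nat_lit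 456) (nat_lit 0) (XT.nd (nat_lit 78) (nat_lit 532) (nat_lit 0) (XT.lf (nat_lit 0) (nat_lit 6823435721) (nat_lit 228) (nat_lit 1624133312) (nat_lit 304) (nat_lit 522230296) (nat_lit 69) (nat_lit 5) (nat_lit 72) (nat_lit 5) (nat_lit 73) (nat_lit 4) (nat_lit 328) (nat_lit 291) (nat_lit 281)) (XT.nd (nat_lit 78) (nat_lit 228) (nat_lit 0) (XT.lf (nat_lit 0) (nat_lit 2993296993) (nat_lit 304) (nat_lit 4614863405) (nat_lit 76) (nat_lit 1569635535) (nat_lit 65) (nat_lit 5) (nat_lit 69) (nat_lit 5) (nat_lit 66) (nat_lit 4) (nat_lit 329) (nat_lit 291) (nat_lit 280)) (XT.lf (nat_lit 0) (nat_lit 2136709495) (nat_lit 228) (nat_lit 4501610086) (nat_lit 304) (nat_lit 2758961296) (nat_lit 62) (nat_lit 5) (nat_lit 65) (nat_lit 5) (nat_lit 66) (nat_lit 4) (nat_lit 330) (nat_lit 291) (nat_lit 279)))) (XT.nd (nat_lit 78) (nat_lit 380) (nat_lit 0) (XT.lf (nat_lit 0) (nat_lit 765891001) (nat_lit 304) (nat_lit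 437076379) (nat_lit 76) (nat_lit 8426448504) (nat_lit 61) (nat_lit 5) (nat_lit 65) (nat_lit 5) (nat_lit 62) (nat_lit 5) (nat_lit 331) (nat_lit 291) (nat_lit 278)) (XT.nd (nat_lit 78) (nat_lit 152) (nat_lit 0) (XT.lf (nat_lit 0) (nat_lit 4397414628) (nat_lit 304) (nat_lit 3187172647) (nat_lit 76) (nat_lit 2285220664) (nat_lit 58) (nat_lit 5) (nat_lit 62) (nat_lit 5) (nat_lit 59) (nat_lit 4) (nat_lit 332) (nat_lit 291) (nat_lit 277)) (XT.lf (nat_lit 0) (nat_lit 3980967893) (nat_lit 152) (nat_lit 4202340135) (nat_lit 228) (nat_lit 1940337732) (nat_lit 56) (nat_lit 5) (nat_lit 58) (nat_lit 5) (nat_lit 59) (nat_lit 4) (nat_lit 333) (nat_lit 291) (nat_lit 276)))))) (XT.nd (nat_lit 468) (nat_lit 684) (nat_lit 0) (XT.nd (nat_lit 234) (nat_lit 380) (nat_lit 0) (XT.nd (nat_lit 78) (nat_lit 152) (nat_lit 0) (XT.lf (nat_lit 0) (nat_lit 1056745602) (nat_lit 228) (nat_lit 610621143) (nat_lit 304) (nat_lit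 8723705856) (nat_lit 52) (nat_lit 5) (nat_lit 55) (nat_lit 5) (nat_lit 56) (nat_lit 5) (nat_lit 334) (nat_lit 291) (nat_lit 275)) (XT.nd (nat_lit 78) (nat_lit 152) (nat_lit 0) (XT.lf (nat_lit 0) (nat_lit 5431379911) (nat_lit 304) (nat_lit 2101227483) (nat_lit 76) (nat_lit 3135673251) (nat_lit 52) (nat_lit 5) (nat_lit 56) (nat_lit 5) (nat_lit 53) (nat_lit 4) (nat_lit 335) (nat_lit 291) (nat_lit 274)) (XT.lf (nat_lit 0) (nat_lit 5486650610) (nat_lit 152) (nat_lit 3884091283) (nat_lit 228) (nat_lit 1589303958) (nat_lit 50) (nat_lit 5) (nat_lit 52) (nat_lit 5) (nat_lit 53) (nat_lit 4) (nat_lit 336) (nat_lit 291) (nat_lit 273)))) (XT.nd (nat_lit 78) (nat_lit 152) (nat_lit 0) (XT.lf (nat_lit 0) (nat_lit 2121275195) (nat_lit 152) (nat_lit 9176361) (nat_lit 228) (nat_lit 9136173015) (nat_lit 47) (nat_lit 5) (nat_lit 49) (nat_lit 5) (nat_lit 50) (nat_lit 5) (nat_lit 337) (nat_lit 291) (nat_lit 272))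 (XT.nd (nat_lit 78) (nat_lit 152) (nat_lit 0) (XT.lf (nat_lit 0) (nat_lit 6034037751) (nat_lit 228) (nat_lit 1563952758) (nat_lit 76) (nat_lit 3986723108) (nat_lit 47) (nat_lit 5) (nat_lit 50) (nat_lit 5) (nat_lit 48) (nat_lit 4) (nat_lit 338) (nat_lit 291) (nat_lit 271)) (XT.lf (nat_lit 0) (nat_lit 6435870681) (nat_lit 152) (nat_lit 3696288631) (nat_lit 228) (nat_lit 1786624565) (nat_lit 45) (nat_lit 5) (nat_lit 47) (nat_lit 5) (nat_lit 48) (nat_lit 4) (nat_lit 339) (nat_lit 291) (nat_lit 270))))) (XT.nd (nat_lit 234) (nat_lit 304) (nat_lit 0) (XT.nd (nat_lit 78) (nat_lit 152) (nat_lit 0) (XT.lf (nat_lit 0) (nat_lit 2068449047) (nat_lit 228) (nat_lit 9776127948) (nat_lit 76) (nat_lit 424723830) (nat_lit 42) (nat_lit 5) (nat_lit 45) (nat_lit 5) (nat_lit 43) (nat_lit 4) (nat_lit 340) (nat_lit 291) (nat_lit 269)) (XT.nd (nat_lit 78) (nat_lit 152) (nat_lit 0) (XT.lf (nat_lit 0) (nat_lit 6111727252)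 (nat_lit 228) (nat_lit 1834087909) (nat_lit 76) (nat_lit 4687327849) (nat_lit 42) (nat_lit 5) (nat_lit 45) (nat_lit 5) (nat_lit 43) (nat_lit 4) (nat_lit 341) (nat_lit 291) (nat_lit 268)) (XT.lf (nat_lit 0) (nat_lit 6554458055) (nat_lit 152) (nat_lit 3810302202) (nat_lit 228) (nat_lit 2650074167) (nat_lit 40) (nat_lit 5) (nat_lit 42) (nat_lit 5) (nat_lit 43) (nat_lit 4) (nat_lit 342) (nat_lit 291) (nat_lit 267)))) (XT.nd (nat_lit 156) (nat_lit 76) (nat_lit 0) (XT.nd (nat_lit 78) (nat_lit 0) (nat_lit 0) (XT.lf (nat_lit 0) (nat_lit 1344993064) (nat_lit 228) (nat_lit 11535859178) (nat_lit 76) (nat_lit 534914841) (nat_lit 37) (nat_lit 5) (nat_lit 40) (nat_lit 5) (nat_lit 38) (nat_lit 4) (nat_lit 343) (nat_lit 291) (nat_lit 266)) (XT.lf (nat_lit 0) (nat_lit 5531156503) (nat_lit 228) (nat_lit 3239438855) (nat_lit 76) (nat_lit 5059990361) (nat_lit 37) (nat_lit 5) (nat_lit 40) (nat_lit 5) (nat_lit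 38) (nat_lit 4) (nat_lit 344) (nat_lit 291) (nat_lit 265))) (XT.nd (nat_lit 78) (nat_lit 0) (nat_lit 0) (XT.lf (nat_lit 0) (nat_lit 5493379580) (nat_lit 76) (nat_lit 4430192292) (nat_lit 152) (nat_lit 4342756390) (nat_lit 36) (nat_lit 5) (nat_lit 37) (nat_lit 5) (nat_lit 38) (nat_lit 4) (nat_lit 345) (nat_lit 291) (nat_lit 264)) (XT.lf (nat_lit 0) (nat_lit 14505380679) (nat_lit 152) (nat_lit 103818500) (nat_lit 0) (nat_lit 116198847) (nat_lit 36) (nat_lit 5) (nat_lit 38) (nat_lit 4) (nat_lit 36) (nat_lit 4) (nat_lit 346) (nat_lit 291) (nat_lit 263))))))) (XT.nd (nat_lit 936) (nat_lit 532) (nat_lit 0) (XT.nd (nat_lit 468) (nat_lit 456) (nat_lit 0) (XT.nd (nat_lit 234) (nat_lit 304) (nat_lit 0) (XT.nd (nat_lit 78) (nat_lit 76) (nat_lit 0) (XT.lf (nat_lit 0) (nat_lit 4109889157) (nat_lit 228) (nat_lit 6198555918) (nat_lit 76) (nat_lit 4889167737) (nat_lit 33) (nat_lit 5) (nat_lit 36) (nat_lit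 5) (nat_lit 34) (nat_lit 4) (nat_lit 347) (nat_lit 291) (nat_lit 262)) (XT.nd (nat_lit 78) (nat_lit 0) (nat_lit 0) (XT.lf (nat_lit 0) (nat_lit 2805346197) (nat_lit 76) (nat_lit 5805701651) (nat_lit 152) (nat_lit 7084127420) (nat_lit 32) (nat_lit 5) (nat_lit 33) (nat_lit 5) (nat_lit 34) (nat_lit 4) (nat_lit 348) (nat_lit 291) (nat_lit 261)) (XT.lf (nat_lit 0) (nat_lit 12328895873) (nat_lit 76) (nat_lit 1031606265) (nat_lit 152) (nat_lit 2855975458) (nat_lit 32) (nat_lit 5) (nat_lit 33) (nat_lit 5) (nat_lit 34) (nat_lit 4) (nat_lit 349) (nat_lit 291) (nat_lit 260)))) (XT.nd (nat_lit 78) (nat_lit 76) (nat_lit 0) (XT.lf (nat_lit 0) (nat_lit 1603847957) (nat_lit 228) (nat_lit 11248140536) (nat_lit 76) (nat_lit 3907094354) (nat_lit 29) (nat_lit 5) (nat_lit 32) (nat_lit 5) (nat_lit 30) (nat_lit 4) (nat_lit 350) (nat_lit 291) (nat_lit 259)) (XT.nd (nat_lit 78) (nat_lit 76) (nat_lit 0) (XT.lf (nat_lit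 0) (nat_lit 6196002461) (nat_lit 228) (nat_lit 2018075758) (nat_lit 76) (nat_lit 9112153622) (nat_lit 29) (nat_lit 5) (nat_lit 32) (nat_lit 5) (nat_lit 30) (nat_lit 4) (nat_lit 351) (nat_lit 291) (nat_lit 258)) (XT.lf (nat_lit 0) (nat_lit 7787404749) (nat_lit 76) (nat_lit 3277172155) (nat_lit 152) (nat_lit 6854840215) (nat_lit 28) (nat_lit 5) (nat_lit 29) (nat_lit 5) (nat_lit 30) (nat_lit 4) (nat_lit 352) (nat_lit 291) (nat_lit 257))))) (XT.nd (nat_lit 234) (nat_lit 152) (nat_lit 0) (XT.nd (nat_lit 78) (nat_lit 304) (nat_lit 0) (XT.lf (nat_lit 0) (nat_lit 16166860562) (nat_lit 152) (nat_lit 553556503) (nat_lit 0) (nat_lit 1822349088) (nat_lit 28) (nat_lit 5) (nat_lit 30) (nat_lit 4) (nat_lit 28) (nat_lit 4) (nat_lit 353) (nat_lit 291) (nat_lit 256)) (XT.nd (nat_lit 78) (nat_lit 76) (nat_lit 0) (XT.lf (nat_lit 0) (nat_lit 2388035379) (nat_lit 228) (nat_lit 9600294405) (nat_lit 76) (nat_lit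 7200376253) (nat_lit 25) (nat_lit 5) (nat_lit 28) (nat_lit 5) (nat_lit 26) (nat_lit 4) (nat_lit 354) (nat_lit 291) (nat_lit 255)) (XT.lf (nat_lit 0) (nat_lit 228755231) (nat_lit 76) (nat_lit 7024208174) (nat_lit 152) (nat_lit 12614916240) (nat_lit 24) (nat_lit 5) (nat_lit 25) (nat_lit 5) (nat_lit 26) (nat_lit 4) (nat_lit 355) (nat_lit 291) (nat_lit 254)))) (XT.nd (nat_lit 78) (nat_lit 152) (nat_lit 0) (XT.lf (nat_lit 0) (nat_lit 10754963961) (nat_lit 76) (nat_lit 1699658902) (nat_lit 152) (nat_lit 8121730055) (nat_lit 24) (nat_lit 5) (nat_lit 25) (nat_lit 5) (nat_lit 26) (nat_lit 4) (nat_lit 356) (nat_lit 291) (nat_lit 253)) (XT.nd (nat_lit 78) (nat_lit 76) (nat_lit 0) (XT.lf (nat_lit 0) (nat_lit 312531694) (nat_lit 76) (nat_lit 17602784497) (nat_lit 76) (nat_lit 3405000628) (nat_lit 23) (nat_lit 4) (nat_lit 24) (nat_lit 5) (nat_lit 24) (nat_lit 4) (nat_lit 357) (nat_lit 291) (nat_lit 252))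 (XT.lf (nat_lit 0) (nat_lit 1628459156) (nat_lit 152) (nat_lit 10977955208) (nat_lit 76) (nat_lit 9487348339) (nat_lit 22) (nat_lit 5) (nat_lit 24) (nat_lit 5) (nat_lit 23) (nat_lit 4) (nat_lit 358) (nat_lit 291) (nat_lit 251)))))) (XT.nd (nat_lit 468) (nat_lit 228) (nat_lit 0) (XT.nd (nat_lit 234) (nat_lit 228) (nat_lit 0) (XT.nd (nat_lit 78) (nat_lit 76) (nat_lit 0) (XT.lf (nat_lit 0) (nat_lit 6735833661) (nat_lit 152) (nat_lit 620706623) (nat_lit 76) (nat_lit 15549728540) (nat_lit 22) (nat_lit 5) (nat_lit 24) (nat_lit 5) (nat_lit 23) (nat_lit 4) (nat_lit 359) (nat_lit 291) (nat_lit 250)) (XT.nd (nat_lit 78) (nat_lit 0) (nat_lit 0) (XT.lf (nat_lit 0) (nat_lit 10477115470) (nat_lit 76) (nat_lit 1724726252) (nat_lit 152) (nat_lit 11552407227) (nat_lit 21) (nat_lit 5) (nat_lit 22) (nat_lit 5) (nat_lit 23) (nat_lit 4) (nat_lit 360) (nat_lit 291) (nat_lit 249)) (XT.lf (nat_lit 0) (nat_lit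 17957255043) (nat_lit 152) (nat_lit 2671262887) (nat_lit 0) (nat_lit 4015316273) (nat_lit 21) (nat_lit 5) (nat_lit 23) (nat_lit 4) (nat_lit 21) (nat_lit 4) (nat_lit 361) (nat_lit 291) (nat_lit 248)))) (XT.nd (nat_lit 78) (nat_lit 152) (nat_lit 0) (XT.lf (nat_lit 0) (nat_lit 8604432837) (nat_lit 76) (nat_lit 15501499280) (nat_lit 76) (nat_lit 1466702779) (nat_lit 20) (nat_lit 4) (nat_lit 21) (nat_lit 5) (nat_lit 21) (nat_lit 4) (nat_lit 362) (nat_lit 291) (nat_lit 247)) (XT.nd (nat_lit 78) (nat_lit 76) (nat_lit 0) (XT.lf (nat_lit 0) (nat_lit 3874687775) (nat_lit 152) (nat_lit 6180122494) (nat_lit 76) (nat_lit 16490491612) (nat_lit 19) (nat_lit 5) (nat_lit 21) (nat_lit 5) (nat_lit 20) (nat_lit 4) (nat_lit 363) (nat_lit 291) (nat_lit 246)) (XT.lf (nat_lit 0) (nat_lit 5186706241) (nat_lit 76) (nat_lit 4273861258) (nat_lit 152) (nat_lit 18103506332) (nat_lit 18) (nat_lit 5) (nat_lit 19) (nat_lit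 5) (nat_lit 20) (nat_lit 4) (nat_lit 364) (nat_lit 291) (nat_lit 245))))) (XT.nd (nat_lit 234) (nat_lit 152) (nat_lit 0) (XT.nd (nat_lit 78) (nat_lit 76) (nat_lit 0) (XT.lf (nat_lit 0) (nat_lit 15406157678) (nat_lit 152) (nat_lit 11424762947) (nat_lit 0) (nat_lit 1798851837) (nat_lit 18) (nat_lit 5) (nat_lit 20) (nat_lit 4) (nat_lit 18) (nat_lit 4) (nat_lit 365) (nat_lit 291) (nat_lit 244)) (XT.nd (nat_lit 78) (nat_lit 76) (nat_lit 0) (XT.lf (nat_lit 0) (nat_lit 21667656956) (nat_lit 152) (nat_lit 92581419) (nat_lit 0) (nat_lit 7987594654) (nat_lit 18) (nat_lit 5) (nat_lit 20) (nat_lit 4) (nat_lit 18) (nat_lit 4) (nat_lit 366) (nat_lit 291) (nat_lit 243)) (XT.lf (nat_lit 0) (nat_lit 12100166215) (nat_lit 76) (nat_lit 16281998004) (nat_lit 76) (nat_lit 2532643833) (nat_lit 17) (nat_lit 4) (nat_lit 18) (nat_lit 5) (nat_lit 18) (nat_lit 4) (nat_lit 367) (nat_lit 291) (nat_lit 242)))) (XT.nd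 (nat_lit 156) (nat_lit 0) (nat_lit 0) (XT.nd (nat_lit 78) (nat_lit 76) (nat_lit 0) (XT.lf (nat_lit 0) (nat_lit 3139604421) (nat_lit 152) (nat_lit 7379157362) (nat_lit 76) (nat_lit 21621171675) (nat_lit 16) (nat_lit 5) (nat_lit 18) (nat_lit 5) (nat_lit 17) (nat_lit 4) (nat_lit 368) (nat_lit 291) (nat_lit 241)) (XT.lf (nat_lit 0) (nat_lit 4646300659) (nat_lit 76) (nat_lit 4390039268) (nat_lit 152) (nat_lit 24386606835) (nat_lit 15) (nat_lit 5) (nat_lit 16) (nat_lit 5) (nat_lit 17) (nat_lit 4) (nat_lit 369) (nat_lit 291) (nat_lit 240))) (XT.nd (nat_lit 78) (nat_lit 0) (nat_lit 0) (XT.lf (nat_lit 0) (nat_lit 15340503411) (nat_lit 152) (nat_lit 17357817296) (nat_lit 0) (nat_lit 2066167111) (nat_lit 15) (nat_lit 5) (nat_lit 17) (nat_lit 4) (nat_lit 15) (nat_lit 4) (nat_lit 370) (nat_lit 291) (nat_lit 239)) (XT.lf (nat_lit 0) (nat_lit 21987693281) (nat_lit 152) (nat_lit 5524963076) (nat_lit 0)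 (nat_lit 8659064989) (nat_lit 15) (nat_lit 5) (nat_lit 17) (nat_lit 4) (nat_lit 15) (nat_lit 4) (nat_lit 371) (nat_lit 291) (nat_lit 238))))))))
noncomputable def xc78 : XT := (XT.nd (nat_lit 1872) (nat_lit 228) (nat_lit 0) (XT.nd (nat_lit 936) (nat_lit 228) (nat_lit 0) (XT.nd (nat_lit 468) (nat_lit 228) (nat_lit 0) (XT.nd (nat_lit 234) (nat_lit 76) (nat_lit 0) (XT.nd (nat_lit 78) (nat_lit 76) (nat_lit 0) (XT.lf (nat_lit 0) (nat_lit 7044085562) (nat_lit 76) (nat_lit 21991087718) (nat_lit 76) (nat_lit 8610752768) (nat_lit 14) (nat_lit 4) (nat_lit 15) (nat_lit 5) (nat_lit 15) (nat_lit 4) (nat_lit 372) (nat_lit 291) (nat_lit 237)) (XT.nd (nat_lit 78) (nat_lit 76) (nat_lit 0) (XT.lf (nat_lit 0) (nat_lit 20353802742) (nat_lit 76) (nat_lit 16133504683) (nat_lit 76) (nat_lit 2703925295) (nat_lit 14) (nat_lit 4) (nat_lit 15) (nat_lit 5) (nat_lit 15) (nat_lit 4) (nat_lit 373) (nat_lit 291) (nat_lit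 236)) (XT.lf (nat_lit 0) (nat_lit 3346306305) (nat_lit 152) (nat_lit 6616550925) (nat_lit 76) (nat_lit 30850220414) (nat_lit 13) (nat_lit 5) (nat_lit 15) (nat_lit 5) (nat_lit 14) (nat_lit 4) (nat_lit 374) (nat_lit 291) (nat_lit 235)))) (XT.nd (nat_lit 78) (nat_lit 0) (nat_lit 0) (XT.lf (nat_lit 0) (nat_lit 6299197577) (nat_lit 76) (nat_lit 3369262220) (nat_lit 152) (nat_lit 32842329648) (nat_lit 12) (nat_lit 5) (nat_lit 13) (nat_lit 5) (nat_lit 14) (nat_lit 4) (nat_lit 375) (nat_lit 291) (nat_lit 234)) (XT.nd (nat_lit 78) (nat_lit 0) (nat_lit 0) (XT.lf (nat_lit 0) (nat_lit 16438171871) (nat_lit 152) (nat_lit 24328269754) (nat_lit 0) (nat_lit 3520377391) (nat_lit 12) (nat_lit 5) (nat_lit 14) (nat_lit 4) (nat_lit 12) (nat_lit 4) (nat_lit 376) (nat_lit 291) (nat_lit 233)) (XT.lf (nat_lit 0) (nat_lit 23565480841) (nat_lit 152) (nat_lit 11976116101) (nat_lit 0) (nat_lit 10609102056) (nat_lit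 12) (nat_lit 5) (nat_lit 14) (nat_lit 4) (nat_lit 12) (nat_lit 4) (nat_lit 377) (nat_lit 291) (nat_lit 232))))) (XT.nd (nat_lit 234) (nat_lit 152) (nat_lit 0) (XT.nd (nat_lit 78) (nat_lit 0) (nat_lit 0) (XT.lf (nat_lit 0) (nat_lit 957529528) (nat_lit 76) (nat_lit 30072173056) (nat_lit 76) (nat_lit 17079047314) (nat_lit 11) (nat_lit 4) (nat_lit 12) (nat_lit 5) (nat_lit 12) (nat_lit 4) (nat_lit 378) (nat_lit 291) (nat_lit 231)) (XT.nd (nat_lit 78) (nat_lit 0) (nat_lit 0) (XT.lf (nat_lit 0) (nat_lit 14887955335) (nat_lit 76) (nat_lit 24148211676) (nat_lit 76) (nat_lit 11120088832) (nat_lit 11) (nat_lit 4) (nat_lit 12) (nat_lit 5) (nat_lit 12) (nat_lit 4) (nat_lit 379) (nat_lit 291) (nat_lit 230)) (XT.lf (nat_lit 0) (nat_lit 29452344515) (nat_lit 76) (nat_lit 17958429455) (nat_lit 76) (nat_lit 4896976037) (nat_lit 11) (nat_lit 4) (nat_lit 12) (nat_lit 5) (nat_lit 12) (nat_lit 4) (nat_lit 380)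 (nat_lit 291) (nat_lit 229)))) (XT.nd (nat_lit 78) (nat_lit 76) (nat_lit 0) (XT.lf (nat_lit 0) (nat_lit 1553734525) (nat_lit 152) (nat_lit 9908041044) (nat_lit 76) (nat_lit 43105326414) (nat_lit 10) (nat_lit 5) (nat_lit 12) (nat_lit 5) (nat_lit 11) (nat_lit 4) (nat_lit 381) (nat_lit 291) (nat_lit 228)) (XT.nd (nat_lit 78) (nat_lit 0) (nat_lit 0) (XT.lf (nat_lit 0) (nat_lit 3666022669) (nat_lit 76) (nat_lit 4523953575) (nat_lit 152) (nat_lit 48744056448) (nat_lit 9) (nat_lit 5) (nat_lit 10) (nat_lit 5) (nat_lit 11) (nat_lit 4) (nat_lit 382) (nat_lit 291) (nat_lit 227)) (XT.lf (nat_lit 0) (nat_lit 15342105197) (nat_lit 152) (nat_lit 41251823590) (nat_lit 0) (nat_lit 2816180591) (nat_lit 9) (nat_lit 5) (nat_lit 11) (nat_lit 4) (nat_lit 9) (nat_lit 4) (nat_lit 383) (nat_lit 291) (nat_lit 226)))))) (XT.nd (nat_lit 468) (nat_lit 152) (nat_lit 0) (XT.nd (nat_lit 234) (nat_lit 76) (nat_lit 0) (XT.nd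 (nat_lit 78) (nat_lit 0) (nat_lit 0) (XT.lf (nat_lit 0) (nat_lit 22897835869) (nat_lit 152) (nat_lit 28764061423) (nat_lit 0) (nat_lit 10345795887) (nat_lit 9) (nat_lit 5) (nat_lit 11) (nat_lit 4) (nat_lit 9) (nat_lit 4) (nat_lit 384) (nat_lit 291) (nat_lit 225)) (XT.nd (nat_lit 78) (nat_lit 0) (nat_lit 0) (XT.lf (nat_lit 0) (nat_lit 30804526504) (nat_lit 152) (nat_lit 15704359161) (nat_lit 0) (nat_lit 18227614734) (nat_lit 9) (nat_lit 5) (nat_lit 11) (nat_lit 4) (nat_lit 9) (nat_lit 4) (nat_lit 385) (nat_lit 291) (nat_lit 224)) (XT.lf (nat_lit 0) (nat_lit 39081002554) (nat_lit 152) (nat_lit 2041622275) (nat_lit 0) (nat_lit 26480403368) (nat_lit 9) (nat_lit 5) (nat_lit 11) (nat_lit 4) (nat_lit 9) (nat_lit 4) (nat_lit 386) (nat_lit 291) (nat_lit 223)))) (XT.nd (nat_lit 78) (nat_lit 0) (nat_lit 0) (XT.lf (nat_lit 0) (nat_lit 12661940738) (nat_lit 76) (nat_lit 35282717556) (nat_lit 76) (nat_lit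 22659558926) (nat_lit 8) (nat_lit 4) (nat_lit 9) (nat_lit 5) (nat_lit 9) (nat_lit 4) (nat_lit 387) (nat_lit 291) (nat_lit 222)) (XT.nd (nat_lit 78) (nat_lit 0) (nat_lit 0) (XT.lf (nat_lit 0) (nat_lit 28124757813) (nat_lit 76) (nat_lit 29137410319) (nat_lit 76) (nat_lit 16492766504) (nat_lit 8) (nat_lit 4) (nat_lit 9) (nat_lit 5) (nat_lit 9) (nat_lit 4) (nat_lit 388) (nat_lit 291) (nat_lit 221)) (XT.lf (nat_lit 0) (nat_lit 44316139925) (nat_lit 76) (nat_lit 22706647294) (nat_lit 76) (nat_lit 10041541399) (nat_lit 8) (nat_lit 4) (nat_lit 9) (nat_lit 5) (nat_lit 9) (nat_lit 4) (nat_lit 389) (nat_lit 291) (nat_lit 220))))) (XT.nd (nat_lit 234) (nat_lit 0) (nat_lit 0) (XT.nd (nat_lit 78) (nat_lit 152) (nat_lit 0) (XT.lf (nat_lit 0) (nat_lit 61274637986) (nat_lit 76) (nat_lit 15975117143) (nat_lit 76) (nat_lit 3290523552) (nat_lit 8) (nat_lit 4) (nat_lit 9) (nat_lit 5) (nat_lit 9) (nat_lit 4)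 (nat_lit 390) (nat_lit 291) (nat_lit 219)) (XT.nd (nat_lit 78) (nat_lit 76) (nat_lit 0) (XT.lf (nat_lit 0) (nat_lit 3655493757) (nat_lit 152) (nat_lit 5209391097) (nat_lit 76) (nat_lit 75323228058) (nat_lit 7) (nat_lit 5) (nat_lit 9) (nat_lit 5) (nat_lit 8) (nat_lit 4) (nat_lit 391) (nat_lit 291) (nat_lit 218)) (XT.lf (nat_lit 0) (nat_lit 9769235298) (nat_lit 76) (nat_lit 1201527879) (nat_lit 152) (nat_lit 77038253772) (nat_lit 6) (nat_lit 5) (nat_lit 7) (nat_lit 5) (nat_lit 8) (nat_lit 4) (nat_lit 392) (nat_lit 291) (nat_lit 217)))) (XT.nd (nat_lit 78) (nat_lit 0) (nat_lit 0) (XT.lf (nat_lit 0) (nat_lit 18828399999) (nat_lit 152) (nat_lit 66486445881) (nat_lit 0) (nat_lit 6697291979) (nat_lit 6) (nat_lit 5) (nat_lit 8) (nat_lit 4) (nat_lit 6) (nat_lit 4) (nat_lit 393) (nat_lit 291) (nat_lit 216)) (XT.nd (nat_lit 78) (nat_lit 0) (nat_lit 0) (XT.lf (nat_lit 0) (nat_lit 27079629648) (nat_lit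 152) (nat_lit 54202498889) (nat_lit 0) (nat_lit 14933252509) (nat_lit 6) (nat_lit 5) (nat_lit 8) (nat_lit 4) (nat_lit 6) (nat_lit 4) (nat_lit 394) (nat_lit 291) (nat_lit 215)) (XT.lf (nat_lit 0) (nat_lit 35725338693) (nat_lit 152) (nat_lit 41339933965) (nat_lit 0) (nat_lit 23564419534) (nat_lit 6) (nat_lit 5) (nat_lit 8) (nat_lit 4) (nat_lit 6) (nat_lit 4) (nat_lit 395) (nat_lit 291) (nat_lit 214))))))) (XT.nd (nat_lit 936) (nat_lit 0) (nat_lit 0) (XT.nd (nat_lit 468) (nat_lit 152) (nat_lit 0) (XT.nd (nat_lit 234) (nat_lit 0) (nat_lit 0) (XT.nd (nat_lit 78) (nat_lit 76) (nat_lit 0) (XT.lf (nat_lit 0) (nat_lit 44786112154) (nat_lit 152) (nat_lit 27868125955) (nat_lit 0) (nat_lit 32611343454) (nat_lit 6) (nat_lit 5) (nat_lit 8) (nat_lit 4) (nat_lit 6) (nat_lit 4) (nat_lit 396) (nat_lit 291) (nat_lit 213)) (XT.nd (nat_lit 78) (nat_lit 76) (nat_lit 0) (XT.lf (nat_lit 0) (nat_lit 54283523301)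 (nat_lit 152) (nat_lit 13754999125) (nat_lit 0) (nat_lit 42095564562) (nat_lit 6) (nat_lit 5) (nat_lit 8) (nat_lit 4) (nat_lit 6) (nat_lit 4) (nat_lit 397) (nat_lit 291) (nat_lit 212)) (XT.lf (nat_lit 0) (nat_lit 1067206479) (nat_lit 76) (nat_lit 63189640624) (nat_lit 76) (nat_lit 50989119942) (nat_lit 5) (nat_lit 4) (nat_lit 6) (nat_lit 5) (nat_lit 6) (nat_lit 4) (nat_lit 398) (nat_lit 291) (nat_lit 211)))) (XT.nd (nat_lit 78) (nat_lit 0) (nat_lit 0) (XT.lf (nat_lit 0) (nat_lit 17077825758) (nat_lit 76) (nat_lit 57868610608) (nat_lit 76) (nat_lit 45656126170) (nat_lit 5) (nat_lit 4) (nat_lit 6) (nat_lit 5) (nat_lit 6) (nat_lit 4) (nat_lit 399) (nat_lit 291) (nat_lit 210)) (XT.nd (nat_lit 78) (nat_lit 0) (nat_lit 0) (XT.lf (nat_lit 0) (nat_lit 33860176843) (nat_lit 76) (nat_lit 52295710824) (nat_lit 76) (nat_lit 40071832334) (nat_lit 5) (nat_lit 4) (nat_lit 6) (nat_lit 5) (nat_lit 6) (nat_lit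 4) (nat_lit 400) (nat_lit 291) (nat_lit 209)) (XT.lf (nat_lit 0) (nat_lit 51454217714) (nat_lit 76) (nat_lit 46457672464) (nat_lit 76) (nat_lit 34222942496) (nat_lit 5) (nat_lit 4) (nat_lit 6) (nat_lit 5) (nat_lit 6) (nat_lit 4) (nat_lit 401) (nat_lit 291) (nat_lit 208))))) (XT.nd (nat_lit 234) (nat_lit 152) (nat_lit 0) (XT.nd (nat_lit 78) (nat_lit 0) (nat_lit 0) (XT.lf (nat_lit 0) (nat_lit 69901838943) (nat_lit 76) (nat_lit 40340595436) (nat_lit 76) (nat_lit 28095530727) (nat_lit 5) (nat_lit 4) (nat_lit 6) (nat_lit 5) (nat_lit 6) (nat_lit 4) (nat_lit 402) (nat_lit 291) (nat_lit 207)) (XT.nd (nat_lit 78) (nat_lit 0) (nat_lit 0) (XT.lf (nat_lit 0) (nat_lit 89246963438) (nat_lit 76) (nat_lit 33929915271) (nat_lit 76) (nat_lit 21675007952) (nat_lit 5) (nat_lit 4) (nat_lit 6) (nat_lit 5) (nat_lit 6) (nat_lit 4) (nat_lit 403) (nat_lit 291) (nat_lit 206)) (XT.lf (nat_lit 0) (nat_lit 109535651019)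 (nat_lit 76) (nat_lit 27210368446) (nat_lit 76) (nat_lit 14946087212) (nat_lit 5) (nat_lit 4) (nat_lit 6) (nat_lit 5) (nat_lit 6) (nat_lit 4) (nat_lit 404) (nat_lit 291) (nat_lit 205)))) (XT.nd (nat_lit 78) (nat_lit 152) (nat_lit 0) (XT.lf (nat_lit 0) (nat_lit 130816208086) (nat_lit 76) (nat_lit 20165956039) (nat_lit 76) (nat_lit 7892747266) (nat_lit 5) (nat_lit 4) (nat_lit 6) (nat_lit 5) (nat_lit 6) (nat_lit 4) (nat_lit 405) (nat_lit 291) (nat_lit 204)) (XT.nd (nat_lit 78) (nat_lit 152) (nat_lit 0) (XT.lf (nat_lit 0) (nat_lit 153139302631) (nat_lit 76) (nat_lit 12779905639) (nat_lit 76) (nat_lit 498194449) (nat_lit 5) (nat_lit 4) (nat_lit 6) (nat_lit 5) (nat_lit 6) (nat_lit 4) (nat_lit 406) (nat_lit 291) (nat_lit 203)) (XT.lf (nat_lit 0) (nat_lit 2176948190) (nat_lit 76) (nat_lit 4880006404) (nat_lit 152) (nat_lit 167273221285) (nat_lit 3) (nat_lit 5) (nat_lit 4) (nat_lit 5) (nat_lit 5)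 (nat_lit 4) (nat_lit 407) (nat_lit 291) (nat_lit 202)))))) (XT.nd (nat_lit 468) (nat_lit 0) (nat_lit 0) (XT.nd (nat_lit 234) (nat_lit 0) (nat_lit 0) (XT.nd (nat_lit 78) (nat_lit 0) (nat_lit 0) (XT.lf (nat_lit 0) (nat_lit 15244457676) (nat_lit 152) (nat_lit 163847622337) (nat_lit 0) (nat_lit 3532533226) (nat_lit 3) (nat_lit 5) (nat_lit 5) (nat_lit 4) (nat_lit 3) (nat_lit 4) (nat_lit 408) (nat_lit 291) (nat_lit 201)) (XT.nd (nat_lit 78) (nat_lit 0) (nat_lit 0) (XT.lf (nat_lit 0) (nat_lit 23911303403) (nat_lit 152) (nat_lit 155226587512) (nat_lit 0) (nat_lit 12192383992) (nat_lit 3) (nat_lit 5) (nat_lit 5) (nat_lit 4) (nat_lit 3) (nat_lit 4) (nat_lit 409) (nat_lit 291) (nat_lit 200)) (XT.lf (nat_lit 0) (nat_lit 33001936545) (nat_lit 152) (nat_lit 146193406366) (nat_lit 0) (nat_lit 21276355268) (nat_lit 3) (nat_lit 5) (nat_lit 5) (nat_lit 4) (nat_lit 3) (nat_lit 4) (nat_lit 410) (nat_lit 291)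 (nat_lit 199)))) (XT.nd (nat_lit 78) (nat_lit 0) (nat_lit 0) (XT.lf (nat_lit 0) (nat_lit 42538001467) (nat_lit 152) (nat_lit 136726571324) (nat_lit 0) (nat_lit 30806075556) (nat_lit 3) (nat_lit 5) (nat_lit 5) (nat_lit 4) (nat_lit 3) (nat_lit 4) (nat_lit 411) (nat_lit 291) (nat_lit 198)) (XT.nd (nat_lit 78) (nat_lit 0) (nat_lit 0) (XT.lf (nat_lit 0) (nat_lit 52542203087) (nat_lit 152) (nat_lit 126803542304) (nat_lit 0) (nat_lit 40804234666) (nat_lit 3) (nat_lit 5) (nat_lit 5) (nat_lit 4) (nat_lit 3) (nat_lit 4) (nat_lit 412) (nat_lit 291) (nat_lit 197)) (XT.lf (nat_lit 0) (nat_lit 63038360931) (nat_lit 152) (nat_lit 116400693045) (nat_lit 0) (nat_lit 51294637740) (nat_lit 3) (nat_lit 5) (nat_lit 5) (nat_lit 4) (nat_lit 3) (nat_lit 4) (nat_lit 413) (nat_lit 291) (nat_lit 196))))) (XT.nd (nat_lit 234) (nat_lit 0) (nat_lit 0) (XT.nd (nat_lit 78) (nat_lit 0) (nat_lit 0) (XT.lf (nat_lit 0) (nat_lit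 74051465851) (nat_lit 152) (nat_lit 105493254860) (nat_lit 0) (nat_lit 62302261926) (nat_lit 3) (nat_lit 5) (nat_lit 5) (nat_lit 4) (nat_lit 3) (nat_lit 4) (nat_lit 414) (nat_lit 291) (nat_lit 195)) (XT.nd (nat_lit 78) (nat_lit 0) (nat_lit 0) (XT.lf (nat_lit 0) (nat_lit 85607739527) (nat_lit 152) (nat_lit 94055257656) (nat_lit 0) (nat_lit 73853315855) (nat_lit 3) (nat_lit 5) (nat_lit 5) (nat_lit 4) (nat_lit 3) (nat_lit 4) (nat_lit 415) (nat_lit 291) (nat_lit 194)) (XT.lf (nat_lit 0) (nat_lit 97734696894) (nat_lit 152) (nat_lit 82059468108) (nat_lit 0) (nat_lit 85975302036) (nat_lit 3) (nat_lit 5) (nat_lit 5) (nat_lit 4) (nat_lit 3) (nat_lit 4) (nat_lit 416) (nat_lit 291) (nat_lit 193)))) (XT.nd (nat_lit 156) (nat_lit 0) (nat_lit 0) (XT.nd (nat_lit 78) (nat_lit 0) (nat_lit 0) (XT.lf (nat_lit 0) (nat_lit 110461211662) (nat_lit 152) (nat_lit 69477324812) (nat_lit 0) (nat_lit 98697082339) (nat_lit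 3) (nat_lit 5) (nat_lit 5) (nat_lit 4) (nat_lit 3) (nat_lit 4) (nat_lit 417) (nat_lit 291) (nat_lit 192)) (XT.lf (nat_lit 0) (nat_lit 123817585056) (nat_lit 152) (nat_lit 56278870283) (nat_lit 0) (nat_lit 112048946720) (nat_lit 3) (nat_lit 5) (nat_lit 5) (nat_lit 4) (nat_lit 3) (nat_lit 4) (nat_lit 418) (nat_lit 291) (nat_lit 191))) (XT.nd (nat_lit 78) (nat_lit 0) (nat_lit 0) (XT.lf (nat_lit 0) (nat_lit 137835617965) (nat_lit 152) (nat_lit 42432679631) (nat_lit 0) (nat_lit 126062685330) (nat_lit 3) (nat_lit 5) (nat_lit 5) (nat_lit 4) (nat_lit 3) (nat_lit 4) (nat_lit 419) (nat_lit 291) (nat_lit 190)) (XT.lf (nat_lit 0) (nat_lit 152548686657) (nat_lit 152) (nat_lit 27905785733) (nat_lit 0) (nat_lit 140771664215) (nat_lit 3) (nat_lit 5) (nat_lit 5) (nat_lit 4) (nat_lit 3) (nat_lit 4) (nat_lit 420) (nat_lit 291) (nat_lit 189))))))))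
noncomputable def xc79 : XT := (XT.nd (nat_lit 39078) (nat_lit 0) (nat_lit 2584) (XT.nd (nat_lit 936) (nat_lit 0) (nat_lit 0) (XT.nd (nat_lit 468) (nat_lit 0) (nat_lit 0) (XT.nd (nat_lit 234) (nat_lit 0) (nat_lit 0) (XT.nd (nat_lit 78) (nat_lit 76) (nat_lit 0) (XT.lf (nat_lit 0) (nat_lit 167991822250) (nat_lit 152) (nat_lit 12663600749) (nat_lit 0) (nat_lit 156210904752) (nat_lit 3) (nat_lit 5) (nat_lit 5) (nat_lit 4) (nat_lit 3) (nat_lit 4) (nat_lit 421) (nat_lit 291) (nat_lit 188)) (XT.nd (nat_lit 78) (nat_lit 0) (nat_lit 0) (XT.lf (nat_lit 0) (nat_lit 3440276574) (nat_lit 76) (nat_lit 180815229896) (nat_lit 76) (nat_lit 169030602821) (nat_lit 2) (nat_lit 4) (nat_lit 3) (nat_lit 5) (nat_lit 3) (nat_lit 4) (nat_lit 422) (nat_lit 291) (nat_lit 187)) (XT.lf (nat_lit 0) (nat_lit 20778641936) (nat_lit 76) (nat_lit 180762968312) (nat_lit 76) (nat_lit 168974808307) (nat_lit 2) (nat_lit 4) (nat_lit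 3) (nat_lit 5) (nat_lit 3) (nat_lit 4) (nat_lit 423) (nat_lit 291) (nat_lit 186)))) (XT.nd (nat_lit 78) (nat_lit 0) (nat_lit 0) (XT.lf (nat_lit 0) (nat_lit 38974061327) (nat_lit 76) (nat_lit 180712978020) (nat_lit 76) (nat_lit 168921453320) (nat_lit 2) (nat_lit 4) (nat_lit 3) (nat_lit 5) (nat_lit 3) (nat_lit 4) (nat_lit 424) (nat_lit 291) (nat_lit 185)) (XT.nd (nat_lit 78) (nat_lit 0) (nat_lit 0) (XT.lf (nat_lit 0) (nat_lit 58069857174) (nat_lit 76) (nat_lit 180665139996) (nat_lit 76) (nat_lit 168870410825) (nat_lit 2) (nat_lit 4) (nat_lit 3) (nat_lit 5) (nat_lit 3) (nat_lit 4) (nat_lit 425) (nat_lit 291) (nat_lit 184)) (XT.lf (nat_lit 0) (nat_lit 78111495658) (nat_lit 76) (nat_lit 180619340341) (nat_lit 76) (nat_lit 168821559292) (nat_lit 2) (nat_lit 4) (nat_lit 3) (nat_lit 5) (nat_lit 3) (nat_lit 4) (nat_lit 426) (nat_lit 291) (nat_lit 183))))) (XT.nd (nat_lit 234) (nat_lit 0) (nat_lit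 0) (XT.nd (nat_lit 78) (nat_lit 0) (nat_lit 0) (XT.lf (nat_lit 0) (nat_lit 99146694965) (nat_lit 76) (nat_lit 180575470006) (nat_lit 76) (nat_lit 168774782407) (nat_lit 2) (nat_lit 4) (nat_lit 3) (nat_lit 5) (nat_lit 3) (nat_lit 4) (nat_lit 427) (nat_lit 291) (nat_lit 182)) (XT.nd (nat_lit 78) (nat_lit 0) (nat_lit 0) (XT.lf (nat_lit 0) (nat_lit 121225538904) (nat_lit 76) (nat_lit 180533424540) (nat_lit 76) (nat_lit 168729968798) (nat_lit 2) (nat_lit 4) (nat_lit 3) (nat_lit 5) (nat_lit 3) (nat_lit 4) (nat_lit 428) (nat_lit 291) (nat_lit 181)) (XT.lf (nat_lit 0) (nat_lit 144400596150) (nat_lit 76) (nat_lit 180493103833) (nat_lit 76) (nat_lit 168687011764) (nat_lit 2) (nat_lit 4) (nat_lit 3) (nat_lit 5) (nat_lit 3) (nat_lit 4) (nat_lit 429) (nat_lit 291) (nat_lit 180)))) (XT.nd (nat_lit 78) (nat_lit 0) (nat_lit 0) (XT.lf (nat_lit 0) (nat_lit 168727045411) (nat_lit 76) (nat_lit 180454411885)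 (nat_lit 76) (nat_lit 168645809028) (nat_lit 2) (nat_lit 4) (nat_lit 3) (nat_lit 5) (nat_lit 3) (nat_lit 4) (nat_lit 430) (nat_lit 291) (nat_lit 179)) (XT.nd (nat_lit 78) (nat_lit 0) (nat_lit 0) (XT.lf (nat_lit 0) (nat_lit 194262806805) (nat_lit 76) (nat_lit 180417256571) (nat_lit 76) (nat_lit 168606262488) (nat_lit 2) (nat_lit 4) (nat_lit 3) (nat_lit 5) (nat_lit 3) (nat_lit 4) (nat_lit 431) (nat_lit 291) (nat_lit 178)) (XT.lf (nat_lit 0) (nat_lit 221068679764) (nat_lit 76) (nat_lit 180381549426) (nat_lit 76) (nat_lit 168568277985) (nat_lit 2) (nat_lit 4) (nat_lit 3) (nat_lit 5) (nat_lit 3) (nat_lit 4) (nat_lit 432) (nat_lit 291) (nat_lit 177)))))) (XT.nd (nat_lit 468) (nat_lit 0) (nat_lit 0) (XT.nd (nat_lit 234) (nat_lit 0) (nat_lit 0) (XT.nd (nat_lit 78) (nat_lit 0) (nat_lit 0) (XT.lf (nat_lit 0) (nat_lit 249208487793) (nat_lit 76) (nat_lit 180347205433) (nat_lit 76) (nat_lit 168531765080)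 (nat_lit 2) (nat_lit 4) (nat_lit 3) (nat_lit 5) (nat_lit 3) (nat_lit 4) (nat_lit 433) (nat_lit 291) (nat_lit 176)) (XT.nd (nat_lit 78) (nat_lit 0) (nat_lit 0) (XT.lf (nat_lit 0) (nat_lit 278749230438) (nat_lit 76) (nat_lit 180314142822) (nat_lit 76) (nat_lit 168496636838) (nat_lit 2) (nat_lit 4) (nat_lit 3) (nat_lit 5) (nat_lit 3) (nat_lit 4) (nat_lit 434) (nat_lit 291) (nat_lit 175)) (XT.lf (nat_lit 0) (nat_lit 309761242798) (nat_lit 76) (nat_lit 180282282870) (nat_lit 76) (nat_lit 168462809619) (nat_lit 2) (nat_lit 4) (nat_lit 3) (nat_lit 5) (nat_lit 3) (nat_lit 4) (nat_lit 435) (nat_lit 291) (nat_lit 174)))) (XT.nd (nat_lit 78) (nat_lit 0) (nat_lit 0) (XT.lf (nat_lit 0) (nat_lit 342318362998) (nat_lit 76) (nat_lit 180251549723) (nat_lit 76) (nat_lit 168430202883) (nat_lit 2) (nat_lit 4) (nat_lit 3) (nat_lit 5) (nat_lit 3) (nat_lit 4) (nat_lit 436) (nat_lit 291) (nat_lit 173)) (XT.nd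 (nat_lit 78) (nat_lit 0) (nat_lit 0) (XT.lf (nat_lit 0) (nat_lit 376498107993) (nat_lit 76) (nat_lit 180221870204) (nat_lit 76) (nat_lit 168398738995) (nat_lit 2) (nat_lit 4) (nat_lit 3) (nat_lit 5) (nat_lit 3) (nat_lit 4) (nat_lit 437) (nat_lit 291) (nat_lit 172)) (XT.lf (nat_lit 0) (nat_lit 412381858125) (nat_lit 76) (nat_lit 180193173649) (nat_lit 76) (nat_lit 168368343040) (nat_lit 2) (nat_lit 4) (nat_lit 3) (nat_lit 5) (nat_lit 3) (nat_lit 4) (nat_lit 438) (nat_lit 291) (nat_lit 171))))) (XT.nd (nat_lit 37362) (nat_lit 0) (nat_lit 7068) (XT.nd (nat_lit 78) (nat_lit 0) (nat_lit 0) (XT.lf (nat_lit 0) (nat_lit 450055050897) (nat_lit 76) (nat_lit 180165391733) (nat_lit 76) (nat_lit 168338942648) (nat_lit 2) (nat_lit 4) (nat_lit 3) (nat_lit 5) (nat_lit 3) (nat_lit 4) (nat_lit 439) (nat_lit 291) (nat_lit 170)) (XT.nd (nat_lit 37206) (nat_lit 0) (nat_lit 8664) (XT.lf (nat_lit 0) (nat_lit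 489607384386) (nat_lit 76) (nat_lit 180138458308) (nat_lit 76) (nat_lit 168310467817) (nat_lit 2) (nat_lit 4) (nat_lit 3) (nat_lit 5) (nat_lit 3) (nat_lit 4) (nat_lit 440) (nat_lit 291) (nat_lit 169)) (XT.lf (nat_lit 0) (nat_lit 2921417058) (nat_lit 684) (nat_lit 341384985) (nat_lit 684) (nat_lit 341384985) (nat_lit 116) (nat_lit 4) (nat_lit 125) (nat_lit 5) (nat_lit 125) (nat_lit 4) (nat_lit 316) (nat_lit 292) (nat_lit 292)))) (XT.nd (nat_lit 156) (nat_lit 380) (nat_lit 0) (XT.nd (nat_lit 78) (nat_lit 380) (nat_lit 0) (XT.lf (nat_lit 0) (nat_lit 2750184034) (nat_lit 836) (nat_lit 3381882382) (nat_lit 0) (nat_lit 1176935225) (nat_lit 105) (nat_lit 5) (nat_lit 116) (nat_lit 4) (nat_lit 105) (nat_lit 4) (nat_lit 317) (nat_lit 292) (nat_lit 291)) (XT.lf (nat_lit 0) (nat_lit 1981150536) (nat_lit 380) (nat_lit 4254751519) (nat_lit 380) (nat_lit 1183170510) (nat_lit 100) (nat_lit 4) (nat_lit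 105) (nat_lit 5) (nat_lit 105) (nat_lit 4) (nat_lit 318) (nat_lit 292) (nat_lit 290))) (XT.nd (nat_lit 78) (nat_lit 304) (nat_lit 0) (XT.lf (nat_lit 0) (nat_lit 2184563056) (nat_lit 456) (nat_lit 20209789) (nat_lit 76) (nat_lit 5333245397) (nat_lit 99) (nat_lit 5) (nat_lit 105) (nat_lit 5) (nat_lit 100) (nat_lit 4) (nat_lit 319) (nat_lit 292) (nat_lit 289)) (XT.lf (nat_lit 0) (nat_lit 5618153844) (nat_lit 380) (nat_lit 2007585386) (nat_lit 0) (nat_lit 39491435) (nat_lit 95) (nat_lit 5) (nat_lit 100) (nat_lit 4) (nat_lit 95) (nat_lit 4) (nat_lit 320) (nat_lit 292) (nat_lit 288))))))) (XT.nd (nat_lit 936) (nat_lit 1672) (nat_lit 0) (XT.nd (nat_lit 468) (nat_lit 1064) (nat_lit 0) (XT.nd (nat_lit 234) (nat_lit 912) (nat_lit 0) (XT.nd (nat_lit 78) (nat_lit 380) (nat_lit 0) (XT.lf (nat_lit 0) (nat_lit 1325220142) (nat_lit 456) (nat_lit 4094642725) (nat_lit 76) (nat_lit 2380655789) (nat_lit 89)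 (nat_lit 5) (nat_lit 95) (nat_lit 5) (nat_lit 90) (nat_lit 4) (nat_lit 321) (nat_lit 292) (nat_lit 287)) (XT.nd (nat_lit 78) (nat_lit 76) (nat_lit 0) (XT.lf (nat_lit 0) (nat_lit 1675060241) (nat_lit 304) (nat_lit 3037323535) (nat_lit 380) (nat_lit 3232887353) (nat_lit 85) (nat_lit 5) (nat_lit 89) (nat_lit 5) (nat_lit 90) (nat_lit 4) (nat_lit 322) (nat_lit 292) (nat_lit 286)) (XT.lf (nat_lit 0) (nat_lit 92728630) (nat_lit 380) (nat_lit 402480703) (nat_lit 76) (nat_lit 7605707247) (nat_lit 84) (nat_lit 5) (nat_lit 89) (nat_lit 5) (nat_lit 85) (nat_lit 5) (nat_lit 323) (nat_lit 292) (nat_lit 285)))) (XT.nd (nat_lit 78) (nat_lit 608) (nat_lit 0) (XT.lf (nat_lit 0) (nat_lit 3463918994) (nat_lit 380) (nat_lit 2583005850) (nat_lit 76) (nat_lit 2215485176) (nat_lit 80) (nat_lit 5) (nat_lit 85) (nat_lit 5) (nat_lit 81) (nat_lit 4) (nat_lit 324) (nat_lit 292) (nat_lit 284)) (XT.nd (nat_lit 78) (nat_lit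 380) (nat_lit 0) (XT.lf (nat_lit 0) (nat_lit 3578908177) (nat_lit 228) (nat_lit 3361963169) (nat_lit 304) (nat_lit 1494353915) (nat_lit 77) (nat_lit 5) (nat_lit 80) (nat_lit 5) (nat_lit 81) (nat_lit 4) (nat_lit 325) (nat_lit 292) (nat_lit 283)) (XT.lf (nat_lit 0) (nat_lit 1359278457) (nat_lit 304) (nat_lit 485909620) (nat_lit 380) (nat_lit 6773378209) (nat_lit 72) (nat_lit 5) (nat_lit 76) (nat_lit 5) (nat_lit 77) (nat_lit 5) (nat_lit 326) (nat_lit 292) (nat_lit 282))))) (XT.nd (nat_lit 234) (nat_lit 532) (nat_lit 0) (XT.nd (nat_lit 78) (nat_lit 532) (nat_lit 0) (XT.lf (nat_lit 0) (nat_lit 5295244849) (nat_lit 380) (nat_lit 997860328) (nat_lit 76) (nat_lit 2517149064) (nat_lit 72) (nat_lit 5) (nat_lit 77) (nat_lit 5) (nat_lit 73) (nat_lit 4) (nat_lit 327) (nat_lit 292) (nat_lit 281)) (XT.nd (nat_lit 78) (nat_lit 304) (nat_lit 0) (XT.lf (nat_lit 0) (nat_lit 5575952959) (nat_lit 228) (nat_lit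 3313638643) (nat_lit 304) (nat_lit 123433873) (nat_lit 69) (nat_lit 5) (nat_lit 72) (nat_lit 5) (nat_lit 73) (nat_lit 4) (nat_lit 328) (nat_lit 292) (nat_lit 280)) (XT.lf (nat_lit 0) (nat_lit 3162748786) (nat_lit 228) (nat_lit 109454188) (nat_lit 304) (nat_lit 5953903152) (nat_lit 65) (nat_lit 5) (nat_lit 68) (nat_lit 5) (nat_lit 69) (nat_lit 5) (nat_lit 329) (nat_lit 292) (nat_lit 279)))) (XT.nd (nat_lit 78) (nat_lit 304) (nat_lit 0) (XT.lf (nat_lit 0) (nat_lit 553907472) (nat_lit 228) (nat_lit 6278517919) (nat_lit 304) (nat_lit 2617442871) (nat_lit 62) (nat_lit 5) (nat_lit 65) (nat_lit 5) (nat_lit 66) (nat_lit 4) (nat_lit 330) (nat_lit 292) (nat_lit 278)) (XT.nd (nat_lit 78) (nat_lit 228) (nat_lit 0) (XT.lf (nat_lit 0) (nat_lit 845002200) (nat_lit 304) (nat_lit 2160603401) (nat_lit 76) (nat_lit 6679214806) (nat_lit 61) (nat_lit 5) (nat_lit 65) (nat_lit 5) (nat_lit 62) (nat_lit 5) (nat_lit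 331) (nat_lit 292) (nat_lit 277)) (XT.lf (nat_lit 0) (nat_lit 4363246712) (nat_lit 304) (nat_lit 5082839414) (nat_lit 76) (nat_lit 484822410) (nat_lit 58) (nat_lit 5) (nat_lit 62) (nat_lit 5) (nat_lit 59) (nat_lit 4) (nat_lit 332) (nat_lit 292) (nat_lit 276)))))) (XT.nd (nat_lit 468) (nat_lit 836) (nat_lit 0) (XT.nd (nat_lit 234) (nat_lit 380) (nat_lit 0) (XT.nd (nat_lit 78) (nat_lit 304) (nat_lit 0) (XT.lf (nat_lit 0) (nat_lit 1937066716) (nat_lit 152) (nat_lit 6125990619) (nat_lit 228) (nat_lit 2126023750) (nat_lit 56) (nat_lit 5) (nat_lit 58) (nat_lit 5) (nat_lit 59) (nat_lit 4) (nat_lit 333) (nat_lit 292) (nat_lit 275)) (XT.nd (nat_lit 78) (nat_lit 228) (nat_lit 0) (XT.lf (nat_lit 0) (nat_lit 1417365960) (nat_lit 228) (nat_lit 1166800596) (nat_lit 76) (nat_lit 7876026962) (nat_lit 55) (nat_lit 5) (nat_lit 58) (nat_lit 5) (nat_lit 56) (nat_lit 5) (nat_lit 334) (nat_lit 292) (nat_lit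 274)) (XT.lf (nat_lit 0) (nat_lit 5078500128) (nat_lit 304) (nat_lit 4486427493) (nat_lit 76) (nat_lit 1177644315) (nat_lit 52) (nat_lit 5) (nat_lit 56) (nat_lit 5) (nat_lit 53) (nat_lit 4) (nat_lit 335) (nat_lit 292) (nat_lit 273)))) (XT.nd (nat_lit 78) (nat_lit 228) (nat_lit 0) (XT.lf (nat_lit 0) (nat_lit 2939808786) (nat_lit 152) (nat_lit 5987872323) (nat_lit 228) (nat_lit 2111190249) (nat_lit 50) (nat_lit 5) (nat_lit 52) (nat_lit 5) (nat_lit 53) (nat_lit 4) (nat_lit 336) (nat_lit 292) (nat_lit 272)) (XT.nd (nat_lit 78) (nat_lit 152) (nat_lit 0) (XT.lf (nat_lit 0) (nat_lit 1542071648) (nat_lit 228) (nat_lit 644651317) (nat_lit 76) (nat_lit 9163317207) (nat_lit 49) (nat_lit 5) (nat_lit 52) (nat_lit 5) (nat_lit 50) (nat_lit 5) (nat_lit 337) (nat_lit 292) (nat_lit 271)) (XT.lf (nat_lit 0) (nat_lit 5351689084) (nat_lit 228) (nat_lit 4482171843) (nat_lit 76) (nat_lit 1838988468) (nat_lit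 47) (nat_lit 5) (nat_lit 50) (nat_lit 5) (nat_lit 48) (nat_lit 4) (nat_lit 338) (nat_lit 292) (nat_lit 270))))) (XT.nd (nat_lit 234) (nat_lit 456) (nat_lit 0) (XT.nd (nat_lit 78) (nat_lit 228) (nat_lit 0) (XT.lf (nat_lit 0) (nat_lit 3341261869) (nat_lit 152) (nat_lit 6013182689) (nat_lit 228) (nat_lit 2657264105) (nat_lit 45) (nat_lit 5) (nat_lit 47) (nat_lit 5) (nat_lit 48) (nat_lit 4) (nat_lit 339) (nat_lit 292) (nat_lit 269)) (XT.nd (nat_lit 78) (nat_lit 152) (nat_lit 0) (XT.lf (nat_lit 0) (nat_lit 1133016023) (nat_lit 228) (nat_lit 831262714) (nat_lit 76) (nat_lit 10403278278) (nat_lit 44) (nat_lit 5) (nat_lit 47) (nat_lit 5) (nat_lit 45) (nat_lit 5) (nat_lit 340) (nat_lit 292) (nat_lit 268)) (XT.lf (nat_lit 0) (nat_lit 5085783188) (nat_lit 228) (nat_lit 5332281659) (nat_lit 76) (nat_lit 2317877792) (nat_lit 42) (nat_lit 5) (nat_lit 45) (nat_lit 5) (nat_lit 43) (nat_lit 4) (nat_lit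 341) (nat_lit 292) (nat_lit 267)))) (XT.nd (nat_lit 156) (nat_lit 228) (nat_lit 0) (XT.nd (nat_lit 78) (nat_lit 76) (nat_lit 0) (XT.lf (nat_lit 0) (nat_lit 2863626076) (nat_lit 152) (nat_lit 6373550755) (nat_lit 228) (nat_lit 3885556222) (nat_lit 40) (nat_lit 5) (nat_lit 42) (nat_lit 5) (nat_lit 43) (nat_lit 4) (nat_lit 342) (nat_lit 292) (nat_lit 266)) (XT.lf (nat_lit 0) (nat_lit 67149062) (nat_lit 228) (nat_lit 2025703059) (nat_lit 76) (nat_lit 11435888763) (nat_lit 39) (nat_lit 5) (nat_lit 42) (nat_lit 5) (nat_lit 40) (nat_lit 5) (nat_lit 343) (nat_lit 292) (nat_lit 265))) (XT.nd (nat_lit 78) (nat_lit 76) (nat_lit 0) (XT.lf (nat_lit 0) (nat_lit 4144100532) (nat_lit 228) (nat_lit 7368666877) (nat_lit 76) (nat_lit 2436267422) (nat_lit 37) (nat_lit 5) (nat_lit 40) (nat_lit 5) (nat_lit 38) (nat_lit 4) (nat_lit 344) (nat_lit 292) (nat_lit 264)) (XT.lf (nat_lit 0) (nat_lit 1153592568) (nat_lit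 76) (nat_lit 7273901920) (nat_lit 152) (nat_lit 5962747971) (nat_lit 36) (nat_lit 5) (nat_lit 37) (nat_lit 5) (nat_lit 38) (nat_lit 4) (nat_lit 345) (nat_lit 292) (nat_lit 263))))))))
noncomputable def xc80 : XT := (XT.nd (nat_lit 1872) (nat_lit 760) (nat_lit 0) (XT.nd (nat_lit 936) (nat_lit 608) (nat_lit 0) (XT.nd (nat_lit 468) (nat_lit 380) (nat_lit 0) (XT.nd (nat_lit 234) (nat_lit 304) (nat_lit 0) (XT.nd (nat_lit 78) (nat_lit 228) (nat_lit 0) (XT.lf (nat_lit 0) (nat_lit 10213257481) (nat_lit 76) (nat_lit 2753770722) (nat_lit 152) (nat_lit 1884411120) (nat_lit 36) (nat_lit 5) (nat_lit 37) (nat_lit 5) (nat_lit 38) (nat_lit 4) (nat_lit 346) (nat_lit 292) (nat_lit 262)) (XT.nd (nat_lit 78) (nat_lit 0) (nat_lit 0) (XT.lf (nat_lit 0) (nat_lit 2340738247) (nat_lit 228) (nat_lit 11014626781) (nat_lit 76) (nat_lit 1977501887) (nat_lit 33) (nat_lit 5) (nat_lit 36) (nat_lit 5) (nat_lit 34) (nat_lit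 4) (nat_lit 347) (nat_lit 292) (nat_lit 261)) (XT.lf (nat_lit 0) (nat_lit 6759335498) (nat_lit 228) (nat_lit 2169334035) (nat_lit 76) (nat_lit 6905899437) (nat_lit 33) (nat_lit 5) (nat_lit 36) (nat_lit 5) (nat_lit 34) (nat_lit 4) (nat_lit 348) (nat_lit 292) (nat_lit 260)))) (XT.nd (nat_lit 78) (nat_lit 228) (nat_lit 0) (XT.lf (nat_lit 0) (nat_lit 7214776901) (nat_lit 76) (nat_lit 4221050166) (nat_lit 152) (nat_lit 4923703348) (nat_lit 32) (nat_lit 5) (nat_lit 33) (nat_lit 5) (nat_lit 34) (nat_lit 4) (nat_lit 349) (nat_lit 292) (nat_lit 259)) (XT.nd (nat_lit 78) (nat_lit 76) (nat_lit 0) (XT.lf (nat_lit 0) (nat_lit 90508555) (nat_lit 152) (nat_lit 16230615291) (nat_lit 152) (nat_lit 590888490) (nat_lit 30) (nat_lit 4) (nat_lit 32) (nat_lit 5) (nat_lit 32) (nat_lit 4) (nat_lit 350) (nat_lit 292) (nat_lit 258)) (XT.lf (nat_lit 0) (nat_lit 3983704477) (nat_lit 228) (nat_lit 7648229721) (nat_lit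 76) (nat_lit 5849521571) (nat_lit 29) (nat_lit 5) (nat_lit 32) (nat_lit 5) (nat_lit 30) (nat_lit 4) (nat_lit 351) (nat_lit 292) (nat_lit 257))))) (XT.nd (nat_lit 234) (nat_lit 152) (nat_lit 0) (XT.nd (nat_lit 78) (nat_lit 152) (nat_lit 0) (XT.lf (nat_lit 0) (nat_lit 1906141102) (nat_lit 76) (nat_lit 6819577992) (nat_lit 152) (nat_lit 9355258977) (nat_lit 28) (nat_lit 5) (nat_lit 29) (nat_lit 5) (nat_lit 30) (nat_lit 4) (nat_lit 352) (nat_lit 292) (nat_lit 256)) (XT.nd (nat_lit 78) (nat_lit 152) (nat_lit 0) (XT.lf (nat_lit 0) (nat_lit 12076949923) (nat_lit 76) (nat_lit 1687611636) (nat_lit 152) (nat_lit 4942946209) (nat_lit 28) (nat_lit 5) (nat_lit 29) (nat_lit 5) (nat_lit 30) (nat_lit 4) (nat_lit 353) (nat_lit 292) (nat_lit 255)) (XT.lf (nat_lit 0) (nat_lit 3316022289) (nat_lit 152) (nat_lit 15781555223) (nat_lit 152) (nat_lit 265691667) (nat_lit 26) (nat_lit 4) (nat_lit 28) (nat_lit 5)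 (nat_lit 28) (nat_lit 4) (nat_lit 354) (nat_lit 292) (nat_lit 254)))) (XT.nd (nat_lit 78) (nat_lit 76) (nat_lit 0) (XT.lf (nat_lit 0) (nat_lit 4571432787) (nat_lit 228) (nat_lit 6281619501) (nat_lit 76) (nat_lit 9191420709) (nat_lit 25) (nat_lit 5) (nat_lit 28) (nat_lit 5) (nat_lit 26) (nat_lit 4) (nat_lit 355) (nat_lit 292) (nat_lit 253)) (XT.nd (nat_lit 78) (nat_lit 0) (nat_lit 0) (XT.lf (nat_lit 0) (nat_lit 3977613430) (nat_lit 76) (nat_lit 5662059885) (nat_lit 152) (nat_lit 11119950979) (nat_lit 24) (nat_lit 5) (nat_lit 25) (nat_lit 5) (nat_lit 26) (nat_lit 4) (nat_lit 356) (nat_lit 292) (nat_lit 252)) (XT.lf (nat_lit 0) (nat_lit 14852160194) (nat_lit 76) (nat_lit 152871660) (nat_lit 152) (nat_lit 6503329822) (nat_lit 24) (nat_lit 5) (nat_lit 25) (nat_lit 5) (nat_lit 26) (nat_lit 4) (nat_lit 357) (nat_lit 292) (nat_lit 251)))))) (XT.nd (nat_lit 468) (nat_lit 228) (nat_lit 0) (XT.nd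 (nat_lit 234) (nat_lit 152) (nat_lit 0) (XT.nd (nat_lit 78) (nat_lit 152) (nat_lit 0) (XT.lf (nat_lit 0) (nat_lit 3900377723) (nat_lit 76) (nat_lit 16826623637) (nat_lit 76) (nat_lit 1563130573) (nat_lit 23) (nat_lit 4) (nat_lit 24) (nat_lit 5) (nat_lit 24) (nat_lit 4) (nat_lit 358) (nat_lit 292) (nat_lit 250)) (XT.nd (nat_lit 78) (nat_lit 76) (nat_lit 0) (XT.lf (nat_lit 0) (nat_lit 3564853235) (nat_lit 152) (nat_lit 8063038361) (nat_lit 76) (nat_lit 11477443557) (nat_lit 22) (nat_lit 5) (nat_lit 24) (nat_lit 5) (nat_lit 23) (nat_lit 4) (nat_lit 359) (nat_lit 292) (nat_lit 249)) (XT.lf (nat_lit 0) (nat_lit 2734655142) (nat_lit 76) (nat_lit 6147304996) (nat_lit 152) (nat_lit 15078805742) (nat_lit 21) (nat_lit 5) (nat_lit 22) (nat_lit 5) (nat_lit 23) (nat_lit 4) (nat_lit 360) (nat_lit 292) (nat_lit 248)))) (XT.nd (nat_lit 78) (nat_lit 152) (nat_lit 0) (XT.lf (nat_lit 0) (nat_lit 14246634700)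 (nat_lit 76) (nat_lit 298486499) (nat_lit 152) (nat_lit 10309847831) (nat_lit 21) (nat_lit 5) (nat_lit 22) (nat_lit 5) (nat_lit 23) (nat_lit 4) (nat_lit 361) (nat_lit 292) (nat_lit 247)) (XT.nd (nat_lit 78) (nat_lit 76) (nat_lit 0) (XT.lf (nat_lit 0) (nat_lit 358103942) (nat_lit 76) (nat_lit 20175749032) (nat_lit 76) (nat_lit 5257919042) (nat_lit 20) (nat_lit 4) (nat_lit 21) (nat_lit 5) (nat_lit 21) (nat_lit 4) (nat_lit 362) (nat_lit 292) (nat_lit 246)) (XT.lf (nat_lit 0) (nat_lit 178341647) (nat_lit 152) (nat_lit 14636454311) (nat_lit 76) (nat_lit 11953930805) (nat_lit 19) (nat_lit 5) (nat_lit 21) (nat_lit 5) (nat_lit 20) (nat_lit 4) (nat_lit 363) (nat_lit 292) (nat_lit 245))))) (XT.nd (nat_lit 234) (nat_lit 152) (nat_lit 0) (XT.nd (nat_lit 78) (nat_lit 76) (nat_lit 0) (XT.lf (nat_lit 0) (nat_lit 5658030483) (nat_lit 152) (nat_lit 3483306198) (nat_lit 76) (nat_lit 18651475923) (nat_lit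 19) (nat_lit 5) (nat_lit 21) (nat_lit 5) (nat_lit 20) (nat_lit 4) (nat_lit 364) (nat_lit 292) (nat_lit 244)) (XT.nd (nat_lit 78) (nat_lit 0) (nat_lit 0) (XT.lf (nat_lit 0) (nat_lit 8403382968) (nat_lit 76) (nat_lit 3090297978) (nat_lit 152) (nat_lit 17370331412) (nat_lit 18) (nat_lit 5) (nat_lit 19) (nat_lit 5) (nat_lit 20) (nat_lit 4) (nat_lit 365) (nat_lit 292) (nat_lit 243)) (XT.lf (nat_lit 0) (nat_lit 17683037142) (nat_lit 152) (nat_lit 9125723483) (nat_lit 0) (nat_lit 3176923395) (nat_lit 18) (nat_lit 5) (nat_lit 20) (nat_lit 4) (nat_lit 18) (nat_lit 4) (nat_lit 366) (nat_lit 292) (nat_lit 242)))) (XT.nd (nat_lit 78) (nat_lit 76) (nat_lit 0) (XT.lf (nat_lit 0) (nat_lit 2723558103) (nat_lit 76) (nat_lit 21504834152) (nat_lit 76) (nat_lit 6932728149) (nat_lit 17) (nat_lit 4) (nat_lit 18) (nat_lit 5) (nat_lit 18) (nat_lit 4) (nat_lit 367) (nat_lit 292) (nat_lit 241)) (XT.nd (nat_lit 78)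 (nat_lit 76) (nat_lit 0) (XT.lf (nat_lit 0) (nat_lit 15394681965) (nat_lit 76) (nat_lit 15815086048) (nat_lit 76) (nat_lit 1180130278) (nat_lit 17) (nat_lit 4) (nat_lit 18) (nat_lit 5) (nat_lit 18) (nat_lit 4) (nat_lit 368) (nat_lit 292) (nat_lit 240)) (XT.lf (nat_lit 0) (nat_lit 4660207352) (nat_lit 152) (nat_lit 5141387617) (nat_lit 76) (nat_lit 23876949595) (nat_lit 16) (nat_lit 5) (nat_lit 18) (nat_lit 5) (nat_lit 17) (nat_lit 4) (nat_lit 369) (nat_lit 292) (nat_lit 239))))))) (XT.nd (nat_lit 936) (nat_lit 380) (nat_lit 0) (XT.nd (nat_lit 468) (nat_lit 152) (nat_lit 0) (XT.nd (nat_lit 234) (nat_lit 152) (nat_lit 0) (XT.nd (nat_lit 78) (nat_lit 0) (nat_lit 0) (XT.lf (nat_lit 0) (nat_lit 7443299311) (nat_lit 76) (nat_lit 3383587807) (nat_lit 152) (nat_lit 24200075776) (nat_lit 15) (nat_lit 5) (nat_lit 16) (nat_lit 5) (nat_lit 17) (nat_lit 4) (nat_lit 370) (nat_lit 292) (nat_lit 238))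 (XT.nd (nat_lit 78) (nat_lit 0) (nat_lit 0) (XT.lf (nat_lit 0) (nat_lit 17400738832) (nat_lit 152) (nat_lit 15737446964) (nat_lit 0) (nat_lit 3299680475) (nat_lit 15) (nat_lit 5) (nat_lit 17) (nat_lit 4) (nat_lit 15) (nat_lit 4) (nat_lit 371) (nat_lit 292) (nat_lit 237)) (XT.lf (nat_lit 0) (nat_lit 24318706755) (nat_lit 152) (nat_lit 3431438662) (nat_lit 0) (nat_lit 10168403961) (nat_lit 15) (nat_lit 5) (nat_lit 17) (nat_lit 4) (nat_lit 15) (nat_lit 4) (nat_lit 372) (nat_lit 292) (nat_lit 236)))) (XT.nd (nat_lit 78) (nat_lit 76) (nat_lit 0) (XT.lf (nat_lit 0) (nat_lit 9727840270) (nat_lit 76) (nat_lit 21968473530) (nat_lit 76) (nat_lit 7771271272) (nat_lit 14) (nat_lit 4) (nat_lit 15) (nat_lit 5) (nat_lit 15) (nat_lit 4) (nat_lit 373) (nat_lit 292) (nat_lit 235)) (XT.nd (nat_lit 78) (nat_lit 76) (nat_lit 0) (XT.lf (nat_lit 0) (nat_lit 23592017098) (nat_lit 76) (nat_lit 15871447942) (nat_lit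 76) (nat_lit 1629579527) (nat_lit 14) (nat_lit 4) (nat_lit 15) (nat_lit 5) (nat_lit 15) (nat_lit 4) (nat_lit 374) (nat_lit 292) (nat_lit 234)) (XT.lf (nat_lit 0) (nat_lit 4628696985) (nat_lit 152) (nat_lit 4795578789) (nat_lit 76) (nat_lit 33373556698) (nat_lit 13) (nat_lit 5) (nat_lit 15) (nat_lit 5) (nat_lit 14) (nat_lit 4) (nat_lit 375) (nat_lit 292) (nat_lit 233))))) (XT.nd (nat_lit 234) (nat_lit 76) (nat_lit 0) (XT.nd (nat_lit 78) (nat_lit 0) (nat_lit 0) (XT.lf (nat_lit 0) (nat_lit 8731250692) (nat_lit 76) (nat_lit 2515662392) (nat_lit 152) (nat_lit 33334525952) (nat_lit 12) (nat_lit 5) (nat_lit 13) (nat_lit 5) (nat_lit 14) (nat_lit 4) (nat_lit 376) (nat_lit 292) (nat_lit 232)) (XT.nd (nat_lit 78) (nat_lit 0) (nat_lit 0) (XT.lf (nat_lit 0) (nat_lit 18318163858) (nat_lit 152) (nat_lit 23491325288) (nat_lit 0) (nat_lit 4638634872) (nat_lit 12) (nat_lit 5) (nat_lit 14) (nat_lit 4) (nat_lit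 12) (nat_lit 4) (nat_lit 377) (nat_lit 292) (nat_lit 231)) (XT.lf (nat_lit 0) (nat_lit 25751453354) (nat_lit 152) (nat_lit 10619342903) (nat_lit 0) (nat_lit 12036927265) (nat_lit 12) (nat_lit 5) (nat_lit 14) (nat_lit 4) (nat_lit 12) (nat_lit 4) (nat_lit 378) (nat_lit 292) (nat_lit 230)))) (XT.nd (nat_lit 78) (nat_lit 0) (nat_lit 0) (XT.lf (nat_lit 0) (nat_lit 2929443411) (nat_lit 76) (nat_lit 30641496748) (nat_lit 76) (nat_lit 16893640085) (nat_lit 11) (nat_lit 4) (nat_lit 12) (nat_lit 5) (nat_lit 12) (nat_lit 4) (nat_lit 379) (nat_lit 292) (nat_lit 229)) (XT.nd (nat_lit 78) (nat_lit 0) (nat_lit 0) (XT.lf (nat_lit 0) (nat_lit 17464769679) (nat_lit 76) (nat_lit 24465827059) (nat_lit 76) (nat_lit 10686226994) (nat_lit 11) (nat_lit 4) (nat_lit 12) (nat_lit 5) (nat_lit 12) (nat_lit 4) (nat_lit 380) (nat_lit 292) (nat_lit 228)) (XT.lf (nat_lit 0) (nat_lit 32670120386) (nat_lit 76) (nat_lit 18008926927)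 (nat_lit 76) (nat_lit 4199095049) (nat_lit 11) (nat_lit 4) (nat_lit 12) (nat_lit 5) (nat_lit 12) (nat_lit 4) (nat_lit 381) (nat_lit 292) (nat_lit 227)))))) (XT.nd (nat_lit 468) (nat_lit 228) (nat_lit 0) (XT.nd (nat_lit 234) (nat_lit 0) (nat_lit 0) (XT.nd (nat_lit 78) (nat_lit 76) (nat_lit 0) (XT.lf (nat_lit 0) (nat_lit 2500522727) (nat_lit 152) (nat_lit 8712552489) (nat_lit 76) (nat_lit 46038828458) (nat_lit 10) (nat_lit 5) (nat_lit 12) (nat_lit 5) (nat_lit 11) (nat_lit 4) (nat_lit 382) (nat_lit 292) (nat_lit 226)) (XT.nd (nat_lit 78) (nat_lit 0) (nat_lit 0) (XT.lf (nat_lit 0) (nat_lit 5512941981) (nat_lit 76) (nat_lit 3940222510) (nat_lit 152) (nat_lit 50284791714) (nat_lit 9) (nat_lit 5) (nat_lit 10) (nat_lit 5) (nat_lit 11) (nat_lit 4) (nat_lit 383) (nat_lit 292) (nat_lit 225)) (XT.lf (nat_lit 0) (nat_lit 16934291115) (nat_lit 152) (nat_lit 41701318537) (nat_lit 0) (nat_lit 3703661970)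 (nat_lit 9) (nat_lit 5) (nat_lit 11) (nat_lit 4) (nat_lit 9) (nat_lit 4) (nat_lit 384) (nat_lit 292) (nat_lit 224)))) (XT.nd (nat_lit 78) (nat_lit 0) (nat_lit 0) (XT.lf (nat_lit 0) (nat_lit 24828518766) (nat_lit 152) (nat_lit 28665982368) (nat_lit 0) (nat_lit 11574202204) (nat_lit 9) (nat_lit 5) (nat_lit 11) (nat_lit 4) (nat_lit 9) (nat_lit 4) (nat_lit 385) (nat_lit 292) (nat_lit 223)) (XT.nd (nat_lit 78) (nat_lit 0) (nat_lit 0) (XT.lf (nat_lit 0) (nat_lit 33093125308) (nat_lit 152) (nat_lit 15026451284) (nat_lit 0) (nat_lit 19816249302) (nat_lit 9) (nat_lit 5) (nat_lit 11) (nat_lit 4) (nat_lit 9) (nat_lit 4) (nat_lit 386) (nat_lit 292) (nat_lit 222)) (XT.lf (nat_lit 0) (nat_lit 41747788375) (nat_lit 152) (nat_lit 750250213) (nat_lit 0) (nat_lit 28449427186) (nat_lit 9) (nat_lit 5) (nat_lit 11) (nat_lit 4) (nat_lit 9) (nat_lit 4) (nat_lit 387) (nat_lit 292) (nat_lit 221))))) (XT.nd (nat_lit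 234) (nat_lit 152) (nat_lit 0) (XT.nd (nat_lit 78) (nat_lit 0) (nat_lit 0) (XT.lf (nat_lit 0) (nat_lit 14666015900) (nat_lit 76) (nat_lit 36376076019) (nat_lit 76) (nat_lit 23057252748) (nat_lit 8) (nat_lit 4) (nat_lit 9) (nat_lit 5) (nat_lit 9) (nat_lit 4) (nat_lit 388) (nat_lit 292) (nat_lit 220)) (XT.nd (nat_lit 78) (nat_lit 0) (nat_lit 0) (XT.lf (nat_lit 0) (nat_lit 30836689155) (nat_lit 76) (nat_lit 29955445202) (nat_lit 76) (nat_lit 16617134235) (nat_lit 8) (nat_lit 4) (nat_lit 9) (nat_lit 5) (nat_lit 9) (nat_lit 4) (nat_lit 389) (nat_lit 292) (nat_lit 219)) (XT.lf (nat_lit 0) (nat_lit 47775464495) (nat_lit 76) (nat_lit 23233564771) (nat_lit 76) (nat_lit 9876694093) (nat_lit 8) (nat_lit 4) (nat_lit 9) (nat_lit 5) (nat_lit 9) (nat_lit 4) (nat_lit 390) (nat_lit 292) (nat_lit 218)))) (XT.nd (nat_lit 156) (nat_lit 76) (nat_lit 0) (XT.nd (nat_lit 78) (nat_lit 76) (nat_lit 0) (XT.lf (nat_lit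 0) (nat_lit 65522672336) (nat_lit 76) (nat_lit 16194430249) (nat_lit 76) (nat_lit 2819883657) (nat_lit 8) (nat_lit 4) (nat_lit 9) (nat_lit 5) (nat_lit 9) (nat_lit 4) (nat_lit 391) (nat_lit 292) (nat_lit 217)) (XT.lf (nat_lit 0) (nat_lit 4423827294) (nat_lit 152) (nat_lit 4322534842) (nat_lit 76) (nat_lit 79621820986) (nat_lit 7) (nat_lit 5) (nat_lit 9) (nat_lit 5) (nat_lit 8) (nat_lit 4) (nat_lit 392) (nat_lit 292) (nat_lit 216))) (XT.nd (nat_lit 78) (nat_lit 0) (nat_lit 0) (XT.lf (nat_lit 0) (nat_lit 11386517618) (nat_lit 76) (nat_lit 708082864) (nat_lit 152) (nat_lit 80286047600) (nat_lit 6) (nat_lit 5) (nat_lit 7) (nat_lit 5) (nat_lit 8) (nat_lit 4) (nat_lit 393) (nat_lit 292) (nat_lit 215)) (XT.lf (nat_lit 0) (nat_lit 20325954443) (nat_lit 152) (nat_lit 68716484129) (nat_lit 0) (nat_lit 7542447308) (nat_lit 6) (nat_lit 5) (nat_lit 8) (nat_lit 4) (nat_lit 6) (nat_lit 4) (nat_lit 394)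 (nat_lit 292) (nat_lit 214))))))))
noncomputable def xc81 : XT := (XT.nd (nat_lit 1950) (nat_lit 76) (nat_lit 0) (XT.nd (nat_lit 936) (nat_lit 152) (nat_lit 0) (XT.nd (nat_lit 468) (nat_lit 0) (nat_lit 0) (XT.nd (nat_lit 234) (nat_lit 76) (nat_lit 0) (XT.nd (nat_lit 78) (nat_lit 0) (nat_lit 0) (XT.lf (nat_lit 0) (nat_lit 28963262983) (nat_lit 152) (nat_lit 55870448551) (nat_lit 0) (nat_lit 16165906306) (nat_lit 6) (nat_lit 5) (nat_lit 8) (nat_lit 4) (nat_lit 6) (nat_lit 4) (nat_lit 395) (nat_lit 292) (nat_lit 213)) (XT.nd (nat_lit 78) (nat_lit 0) (nat_lit 0) (XT.lf (nat_lit 0) (nat_lit 38016035963) (nat_lit 152) (nat_lit 42414382776) (nat_lit 0) (nat_lit 25205489246) (nat_lit 6) (nat_lit 5) (nat_lit 8) (nat_lit 4) (nat_lit 6) (nat_lit 4) (nat_lit 396) (nat_lit 292) (nat_lit 212)) (XT.lf (nat_lit 0) (nat_lit 47505827604) (nat_lit 152) (nat_lit 28316248550) (nat_lit 0) (nat_lit 34682718945)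 (nat_lit 6) (nat_lit 5) (nat_lit 8) (nat_lit 4) (nat_lit 6) (nat_lit 4) (nat_lit 397) (nat_lit 292) (nat_lit 211)))) (XT.nd (nat_lit 78) (nat_lit 76) (nat_lit 0) (XT.lf (nat_lit 0) (nat_lit 57455232650) (nat_lit 152) (nat_lit 13542478888) (nat_lit 0) (nat_lit 44620160236) (nat_lit 6) (nat_lit 5) (nat_lit 8) (nat_lit 4) (nat_lit 6) (nat_lit 4) (nat_lit 398) (nat_lit 292) (nat_lit 210)) (XT.nd (nat_lit 78) (nat_lit 0) (nat_lit 0) (XT.lf (nat_lit 0) (nat_lit 2006316509) (nat_lit 76) (nat_lit 65912947874) (nat_lit 76) (nat_lit 53066481408) (nat_lit 5) (nat_lit 4) (nat_lit 6) (nat_lit 5) (nat_lit 6) (nat_lit 4) (nat_lit 399) (nat_lit 292) (nat_lit 209)) (XT.lf (nat_lit 0) (nat_lit 18775288194) (nat_lit 76) (nat_lit 60346636584) (nat_lit 76) (nat_lit 47489318640) (nat_lit 5) (nat_lit 4) (nat_lit 6) (nat_lit 5) (nat_lit 6) (nat_lit 4) (nat_lit 400) (nat_lit 292) (nat_lit 208))))) (XT.nd (nat_lit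 234) (nat_lit 0) (nat_lit 0) (XT.nd (nat_lit 78) (nat_lit 0) (nat_lit 0) (XT.lf (nat_lit 0) (nat_lit 36356586779) (nat_lit 76) (nat_lit 54514872981) (nat_lit 76) (nat_lit 41647220295) (nat_lit 5) (nat_lit 4) (nat_lit 6) (nat_lit 5) (nat_lit 6) (nat_lit 4) (nat_lit 401) (nat_lit 292) (nat_lit 207)) (XT.nd (nat_lit 78) (nat_lit 0) (nat_lit 0) (XT.lf (nat_lit 0) (nat_lit 54792072498) (nat_lit 76) (nat_lit 48403771911) (nat_lit 76) (nat_lit 35526276615) (nat_lit 5) (nat_lit 4) (nat_lit 6) (nat_lit 5) (nat_lit 6) (nat_lit 4) (nat_lit 402) (nat_lit 292) (nat_lit 206)) (XT.lf (nat_lit 0) (nat_lit 74125639365) (nat_lit 76) (nat_lit 41998783136) (nat_lit 76) (nat_lit 29111913924) (nat_lit 5) (nat_lit 4) (nat_lit 6) (nat_lit 5) (nat_lit 6) (nat_lit 4) (nat_lit 403) (nat_lit 292) (nat_lit 205)))) (XT.nd (nat_lit 78) (nat_lit 0) (nat_lit 0) (XT.lf (nat_lit 0) (nat_lit 94403319681) (nat_lit 76) (nat_lit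 35284656681) (nat_lit 76) (nat_lit 22388859931) (nat_lit 5) (nat_lit 4) (nat_lit 6) (nat_lit 5) (nat_lit 6) (nat_lit 4) (nat_lit 404) (nat_lit 292) (nat_lit 204)) (XT.nd (nat_lit 78) (nat_lit 0) (nat_lit 0) (XT.lf (nat_lit 0) (nat_lit 115673393638) (nat_lit 76) (nat_lit 28245406531) (nat_lit 76) (nat_lit 15341107364) (nat_lit 5) (nat_lit 4) (nat_lit 6) (nat_lit 5) (nat_lit 6) (nat_lit 4) (nat_lit 405) (nat_lit 292) (nat_lit 203)) (XT.lf (nat_lit 0) (nat_lit 137986504269) (nat_lit 76) (nat_lit 20864272567) (nat_lit 76) (nat_lit 7951875860) (nat_lit 5) (nat_lit 4) (nat_lit 6) (nat_lit 5) (nat_lit 6) (nat_lit 4) (nat_lit 406) (nat_lit 292) (nat_lit 202)))))) (XT.nd (nat_lit 468) (nat_lit 0) (nat_lit 0) (XT.nd (nat_lit 234) (nat_lit 0) (nat_lit 0) (XT.nd (nat_lit 78) (nat_lit 152) (nat_lit 0) (XT.lf (nat_lit 0) (nat_lit 161395778028) (nat_lit 76) (nat_lit 13123680660) (nat_lit 76) (nat_lit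 203572011) (nat_lit 5) (nat_lit 4) (nat_lit 6) (nat_lit 5) (nat_lit 6) (nat_lit 4) (nat_lit 407) (nat_lit 292) (nat_lit 201)) (XT.nd (nat_lit 78) (nat_lit 0) (nat_lit 0) (XT.lf (nat_lit 0) (nat_lit 2885724331) (nat_lit 76) (nat_lit 4828020882) (nat_lit 152) (nat_lit 175317717231) (nat_lit 3) (nat_lit 5) (nat_lit 4) (nat_lit 5) (nat_lit 5) (nat_lit 4) (nat_lit 408) (nat_lit 292) (nat_lit 200)) (XT.lf (nat_lit 0) (nat_lit 16300551091) (nat_lit 152) (nat_lit 171458546508) (nat_lit 0) (nat_lit 3982028885) (nat_lit 3) (nat_lit 5) (nat_lit 5) (nat_lit 4) (nat_lit 3) (nat_lit 4) (nat_lit 409) (nat_lit 292) (nat_lit 199)))) (XT.nd (nat_lit 78) (nat_lit 0) (nat_lit 0) (XT.lf (nat_lit 0) (nat_lit 25386745269) (nat_lit 152) (nat_lit 162434148368) (nat_lit 0) (nat_lit 13061878428) (nat_lit 3) (nat_lit 5) (nat_lit 5) (nat_lit 4) (nat_lit 3) (nat_lit 4) (nat_lit 410) (nat_lit 292) (nat_lit 198)) (XT.nd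 (nat_lit 78) (nat_lit 0) (nat_lit 0) (XT.lf (nat_lit 0) (nat_lit 34918582607) (nat_lit 152) (nat_lit 152975678094) (nat_lit 0) (nat_lit 22587673256) (nat_lit 3) (nat_lit 5) (nat_lit 5) (nat_lit 4) (nat_lit 3) (nat_lit 4) (nat_lit 411) (nat_lit 292) (nat_lit 197)) (XT.lf (nat_lit 0) (nat_lit 44918757955) (nat_lit 152) (nat_lit 143060615519) (nat_lit 0) (nat_lit 32582093834) (nat_lit 3) (nat_lit 5) (nat_lit 5) (nat_lit 4) (nat_lit 3) (nat_lit 4) (nat_lit 412) (nat_lit 292) (nat_lit 196))))) (XT.nd (nat_lit 234) (nat_lit 0) (nat_lit 0) (XT.nd (nat_lit 78) (nat_lit 0) (nat_lit 0) (XT.lf (nat_lit 0) (nat_lit 55411081254) (nat_lit 152) (nat_lit 132665353351) (nat_lit 0) (nat_lit 43068936399) (nat_lit 3) (nat_lit 5) (nat_lit 5) (nat_lit 4) (nat_lit 3) (nat_lit 4) (nat_lit 413) (nat_lit 292) (nat_lit 195)) (XT.nd (nat_lit 78) (nat_lit 0) (nat_lit 0) (XT.lf (nat_lit 0) (nat_lit 66420534228) (nat_lit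 152) (nat_lit 121765140966) (nat_lit 0) (nat_lit 54073169626) (nat_lit 3) (nat_lit 5) (nat_lit 5) (nat_lit 4) (nat_lit 3) (nat_lit 4) (nat_lit 414) (nat_lit 292) (nat_lit 194)) (XT.lf (nat_lit 0) (nat_lit 77973329859) (nat_lit 152) (nat_lit 110334025478) (nat_lit 0) (nat_lit 65620994070) (nat_lit 3) (nat_lit 5) (nat_lit 5) (nat_lit 4) (nat_lit 3) (nat_lit 4) (nat_lit 415) (nat_lit 292) (nat_lit 193)))) (XT.nd (nat_lit 156) (nat_lit 0) (nat_lit 0) (XT.nd (nat_lit 78) (nat_lit 0) (nat_lit 0) (XT.lf (nat_lit 0) (nat_lit 90096974803) (nat_lit 152) (nat_lit 98344789944) (nat_lit 0) (nat_lit 77739904550) (nat_lit 3) (nat_lit 5) (nat_lit 5) (nat_lit 4) (nat_lit 3) (nat_lit 4) (nat_lit 416) (nat_lit 292) (nat_lit 192)) (XT.lf (nat_lit 0) (nat_lit 102820334882) (nat_lit 152) (nat_lit 85768888566) (nat_lit 0) (nat_lit 90458755616) (nat_lit 3) (nat_lit 5) (nat_lit 5) (nat_lit 4) (nat_lit 3) (nat_lit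 4) (nat_lit 417) (nat_lit 292) (nat_lit 191))) (XT.nd (nat_lit 78) (nat_lit 0) (nat_lit 0) (XT.lf (nat_lit 0) (nat_lit 116173703810) (nat_lit 152) (nat_lit 72576378721) (nat_lit 0) (nat_lit 103807830245) (nat_lit 3) (nat_lit 5) (nat_lit 5) (nat_lit 4) (nat_lit 3) (nat_lit 4) (nat_lit 418) (nat_lit 292) (nat_lit 190)) (XT.lf (nat_lit 0) (nat_lit 130188875323) (nat_lit 152) (nat_lit 58735849673) (nat_lit 0) (nat_lit 117818911950) (nat_lit 3) (nat_lit 5) (nat_lit 5) (nat_lit 4) (nat_lit 3) (nat_lit 4) (nat_lit 419) (nat_lit 292) (nat_lit 189))))))) (XT.nd (nat_lit 936) (nat_lit 0) (nat_lit 0) (XT.nd (nat_lit 468) (nat_lit 0) (nat_lit 0) (XT.nd (nat_lit 234) (nat_lit 76) (nat_lit 0) (XT.nd (nat_lit 78) (nat_lit 0) (nat_lit 0) (XT.lf (nat_lit 0) (nat_lit 144899218876) (nat_lit 152) (nat_lit 44214347779) (nat_lit 0) (nat_lit 132525360448) (nat_lit 3) (nat_lit 5) (nat_lit 5) (nat_lit 4) (nat_lit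 3) (nat_lit 4) (nat_lit 420) (nat_lit 292) (nat_lit 188)) (XT.nd (nat_lit 78) (nat_lit 0) (nat_lit 0) (XT.lf (nat_lit 0) (nat_lit 160339759098) (nat_lit 152) (nat_lit 28977298036) (nat_lit 0) (nat_lit 147962191094) (nat_lit 3) (nat_lit 5) (nat_lit 5) (nat_lit 4) (nat_lit 3) (nat_lit 4) (nat_lit 421) (nat_lit 292) (nat_lit 187)) (XT.lf (nat_lit 0) (nat_lit 176547259179) (nat_lit 152) (nat_lit 12988421754) (nat_lit 0) (nat_lit 164166158245) (nat_lit 3) (nat_lit 5) (nat_lit 5) (nat_lit 4) (nat_lit 3) (nat_lit 4) (nat_lit 422) (nat_lit 292) (nat_lit 186)))) (XT.nd (nat_lit 78) (nat_lit 0) (nat_lit 0) (XT.lf (nat_lit 0) (nat_lit 3915675903) (nat_lit 76) (nat_lit 189705767176) (nat_lit 76) (nat_lit 177321301547) (nat_lit 2) (nat_lit 4) (nat_lit 3) (nat_lit 5) (nat_lit 3) (nat_lit 4) (nat_lit 423) (nat_lit 292) (nat_lit 185)) (XT.nd (nat_lit 78) (nat_lit 0) (nat_lit 0) (XT.lf (nat_lit 0) (nat_lit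 22106512604) (nat_lit 76) (nat_lit 189658046047) (nat_lit 76) (nat_lit 177270375946) (nat_lit 2) (nat_lit 4) (nat_lit 3) (nat_lit 5) (nat_lit 3) (nat_lit 4) (nat_lit 424) (nat_lit 292) (nat_lit 184)) (XT.lf (nat_lit 0) (nat_lit 41197943985) (nat_lit 76) (nat_lit 189612369130) (nat_lit 76) (nat_lit 177221647151) (nat_lit 2) (nat_lit 4) (nat_lit 3) (nat_lit 5) (nat_lit 3) (nat_lit 4) (nat_lit 425) (nat_lit 292) (nat_lit 183))))) (XT.nd (nat_lit 234) (nat_lit 0) (nat_lit 0) (XT.nd (nat_lit 78) (nat_lit 0) (nat_lit 0) (XT.lf (nat_lit 0) (nat_lit 61235425834) (nat_lit 76) (nat_lit 189568627672) (nat_lit 76) (nat_lit 177174999142) (nat_lit 2) (nat_lit 4) (nat_lit 3) (nat_lit 5) (nat_lit 3) (nat_lit 4) (nat_lit 426) (nat_lit 292) (nat_lit 182)) (XT.nd (nat_lit 78) (nat_lit 0) (nat_lit 0) (XT.lf (nat_lit 0) (nat_lit 82266666442) (nat_lit 76) (nat_lit 189526717525) (nat_lit 76) (nat_lit 177130320853)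 (nat_lit 2) (nat_lit 4) (nat_lit 3) (nat_lit 5) (nat_lit 3) (nat_lit 4) (nat_lit 427) (nat_lit 292) (nat_lit 181)) (XT.lf (nat_lit 0) (nat_lit 104341740191) (nat_lit 76) (nat_lit 189486538904) (nat_lit 76) (nat_lit 177087505905) (nat_lit 2) (nat_lit 4) (nat_lit 3) (nat_lit 5) (nat_lit 3) (nat_lit 4) (nat_lit 428) (nat_lit 292) (nat_lit 180)))) (XT.nd (nat_lit 78) (nat_lit 0) (nat_lit 0) (XT.lf (nat_lit 0) (nat_lit 127513206780) (nat_lit 76) (nat_lit 189447996145) (nat_lit 76) (nat_lit 177046452359) (nat_lit 2) (nat_lit 4) (nat_lit 3) (nat_lit 5) (nat_lit 3) (nat_lit 4) (nat_lit 429) (nat_lit 292) (nat_lit 179)) (XT.nd (nat_lit 78) (nat_lit 0) (nat_lit 0) (XT.lf (nat_lit 0) (nat_lit 151836236368) (nat_lit 76) (nat_lit 189410997481) (nat_lit 76) (nat_lit 177007062468) (nat_lit 2) (nat_lit 4) (nat_lit 3) (nat_lit 5) (nat_lit 3) (nat_lit 4) (nat_lit 430) (nat_lit 292) (nat_lit 178)) (XT.lf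 (nat_lit 0) (nat_lit 177368740930) (nat_lit 76) (nat_lit 189375454818) (nat_lit 76) (nat_lit 176969242447) (nat_lit 2) (nat_lit 4) (nat_lit 3) (nat_lit 5) (nat_lit 3) (nat_lit 4) (nat_lit 431) (nat_lit 292) (nat_lit 177)))))) (XT.nd (nat_lit 468) (nat_lit 0) (nat_lit 0) (XT.nd (nat_lit 234) (nat_lit 0) (nat_lit 0) (XT.nd (nat_lit 78) (nat_lit 0) (nat_lit 0) (XT.lf (nat_lit 0) (nat_lit 204171512144) (nat_lit 76) (nat_lit 189341283531) (nat_lit 76) (nat_lit 176932902248) (nat_lit 2) (nat_lit 4) (nat_lit 3) (nat_lit 5) (nat_lit 3) (nat_lit 4) (nat_lit 432) (nat_lit 292) (nat_lit 176)) (XT.nd (nat_lit 78) (nat_lit 0) (nat_lit 0) (XT.lf (nat_lit 0) (nat_lit 232308366131) (nat_lit 76) (nat_lit 189308402261) (nat_lit 76) (nat_lit 176897955347) (nat_lit 2) (nat_lit 4) (nat_lit 3) (nat_lit 5) (nat_lit 3) (nat_lit 4) (nat_lit 433) (nat_lit 292) (nat_lit 175)) (XT.lf (nat_lit 0) (nat_lit 261846295402)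 (nat_lit 76) (nat_lit 189276732718) (nat_lit 76) (nat_lit 176864318536) (nat_lit 2) (nat_lit 4) (nat_lit 3) (nat_lit 5) (nat_lit 3) (nat_lit 4) (nat_lit 434) (nat_lit 292) (nat_lit 174)))) (XT.nd (nat_lit 78) (nat_lit 0) (nat_lit 0) (XT.lf (nat_lit 0) (nat_lit 292855628358) (nat_lit 76) (nat_lit 189246199499) (nat_lit 76) (nat_lit 176831911729) (nat_lit 2) (nat_lit 4) (nat_lit 3) (nat_lit 5) (nat_lit 3) (nat_lit 4) (nat_lit 435) (nat_lit 292) (nat_lit 173)) (XT.nd (nat_lit 78) (nat_lit 0) (nat_lit 0) (XT.lf (nat_lit 0) (nat_lit 325410196746) (nat_lit 76) (nat_lit 189216729906) (nat_lit 76) (nat_lit 176800657766) (nat_lit 2) (nat_lit 4) (nat_lit 3) (nat_lit 5) (nat_lit 3) (nat_lit 4) (nat_lit 436) (nat_lit 292) (nat_lit 172)) (XT.lf (nat_lit 0) (nat_lit 359587511442) (nat_lit 76) (nat_lit 189188253773) (nat_lit 76) (nat_lit 176770482233) (nat_lit 2) (nat_lit 4) (nat_lit 3) (nat_lit 5) (nat_lit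 3) (nat_lit 4) (nat_lit 437) (nat_lit 292) (nat_lit 171))))) (XT.nd (nat_lit 37284) (nat_lit 0) (nat_lit 7372) (XT.nd (nat_lit 78) (nat_lit 0) (nat_lit 0) (XT.lf (nat_lit 0) (nat_lit 395468947005) (nat_lit 76) (nat_lit 189160703299) (nat_lit 76) (nat_lit 176741313283) (nat_lit 2) (nat_lit 4) (nat_lit 3) (nat_lit 5) (nat_lit 3) (nat_lit 4) (nat_lit 438) (nat_lit 292) (nat_lit 170)) (XT.nd (nat_lit 37128) (nat_lit 0) (nat_lit 9348) (XT.lf (nat_lit 0) (nat_lit 433139935425) (nat_lit 76) (nat_lit 189134012889) (nat_lit 76) (nat_lit 176713081468) (nat_lit 2) (nat_lit 4) (nat_lit 3) (nat_lit 5) (nat_lit 3) (nat_lit 4) (nat_lit 439) (nat_lit 292) (nat_lit 169)) (XT.lf (nat_lit 0) (nat_lit 674592226) (nat_lit 684) (nat_lit 2163796184) (nat_lit 0) (nat_lit 674592226) (nat_lit 125) (nat_lit 5) (nat_lit 134) (nat_lit 4) (nat_lit 125) (nat_lit 4) (nat_lit 314) (nat_lit 293) (nat_lit 293)))) (XT.nd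 (nat_lit 156) (nat_lit 1216) (nat_lit 0) (XT.nd (nat_lit 78) (nat_lit 76) (nat_lit 0) (XT.lf (nat_lit 0) (nat_lit 601970861) (nat_lit 684) (nat_lit 4123585761) (nat_lit 684) (nat_lit 2389078948) (nat_lit 116) (nat_lit 4) (nat_lit 125) (nat_lit 5) (nat_lit 125) (nat_lit 4) (nat_lit 315) (nat_lit 293) (nat_lit 292)) (XT.lf (nat_lit 0) (nat_lit 936743542) (nat_lit 760) (nat_lit 1466093800) (nat_lit 76) (nat_lit 4808871728) (nat_lit 115) (nat_lit 5) (nat_lit 125) (nat_lit 5) (nat_lit 116) (nat_lit 4) (nat_lit 316) (nat_lit 293) (nat_lit 291))) (XT.nd (nat_lit 78) (nat_lit 456) (nat_lit 0) (XT.lf (nat_lit 0) (nat_lit 3749383879) (nat_lit 760) (nat_lit 498933560) (nat_lit 836) (nat_lit 3068547797) (nat_lit 105) (nat_lit 5) (nat_lit 115) (nat_lit 5) (nat_lit 116) (nat_lit 4) (nat_lit 317) (nat_lit 293) (nat_lit 290)) (XT.lf (nat_lit 0) (nat_lit 208714148) (nat_lit 456) (nat_lit 5722611301) (nat_lit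 76) (nat_lit 1499876076) (nat_lit 99) (nat_lit 5) (nat_lit 105) (nat_lit 5) (nat_lit 100) (nat_lit 4) (nat_lit 318) (nat_lit 293) (nat_lit 289))))))))
noncomputable def xc82 : XT := (XT.nd (nat_lit 1872) (nat_lit 1824) (nat_lit 0) (XT.nd (nat_lit 936) (nat_lit 1748) (nat_lit 0) (XT.nd (nat_lit 468) (nat_lit 1140) (nat_lit 0) (XT.nd (nat_lit 234) (nat_lit 684) (nat_lit 0) (XT.nd (nat_lit 78) (nat_lit 760) (nat_lit 0) (XT.lf (nat_lit 0) (nat_lit 3464556299) (nat_lit 456) (nat_lit 407166364) (nat_lit 76) (nat_lit 3681275655) (nat_lit 99) (nat_lit 5) (nat_lit 105) (nat_lit 5) (nat_lit 100) (nat_lit 4) (nat_lit 319) (nat_lit 293) (nat_lit 288)) (XT.nd (nat_lit 78) (nat_lit 456) (nat_lit 0) (XT.lf (nat_lit 0) (nat_lit 5176119812) (nat_lit 304) (nat_lit 1643364226) (nat_lit 380) (nat_lit 864729967) (nat_lit 95) (nat_lit 5) (nat_lit 99) (nat_lit 5) (nat_lit 100) (nat_lit 4) (nat_lit 320) (nat_lit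 293) (nat_lit 287)) (XT.lf (nat_lit 0) (nat_lit 2364807220) (nat_lit 456) (nat_lit 4710720508) (nat_lit 76) (nat_lit 748360738) (nat_lit 89) (nat_lit 5) (nat_lit 95) (nat_lit 5) (nat_lit 90) (nat_lit 4) (nat_lit 321) (nat_lit 293) (nat_lit 286)))) (XT.nd (nat_lit 78) (nat_lit 380) (nat_lit 0) (XT.lf (nat_lit 0) (nat_lit 953051743) (nat_lit 304) (nat_lit 4719975383) (nat_lit 380) (nat_lit 2299621563) (nat_lit 85) (nat_lit 5) (nat_lit 89) (nat_lit 5) (nat_lit 90) (nat_lit 4) (nat_lit 322) (nat_lit 293) (nat_lit 285)) (XT.nd (nat_lit 78) (nat_lit 304) (nat_lit 0) (XT.lf (nat_lit 0) (nat_lit 929269916) (nat_lit 380) (nat_lit 1250189188) (nat_lit 76) (nat_lit 5951504134) (nat_lit 84) (nat_lit 5) (nat_lit 89) (nat_lit 5) (nat_lit 85) (nat_lit 5) (nat_lit 323) (nat_lit 293) (nat_lit 284)) (XT.lf (nat_lit 0) (nat_lit 4195038073) (nat_lit 380) (nat_lit 3548382232) (nat_lit 76) (nat_lit 554359801)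 (nat_lit 80) (nat_lit 5) (nat_lit 85) (nat_lit 5) (nat_lit 81) (nat_lit 4) (nat_lit 324) (nat_lit 293) (nat_lit 283))))) (XT.nd (nat_lit 234) (nat_lit 532) (nat_lit 0) (XT.nd (nat_lit 78) (nat_lit 380) (nat_lit 0) (XT.lf (nat_lit 0) (nat_lit 2497561440) (nat_lit 228) (nat_lit 5095422812) (nat_lit 304) (nat_lit 881611231) (nat_lit 77) (nat_lit 5) (nat_lit 80) (nat_lit 5) (nat_lit 81) (nat_lit 4) (nat_lit 325) (nat_lit 293) (nat_lit 282)) (XT.nd (nat_lit 78) (nat_lit 0) (nat_lit 0) (XT.lf (nat_lit 0) (nat_lit 106781864) (nat_lit 304) (nat_lit 2250531135) (nat_lit 380) (nat_lit 6304240679) (nat_lit 72) (nat_lit 5) (nat_lit 76) (nat_lit 5) (nat_lit 77) (nat_lit 5) (nat_lit 326) (nat_lit 293) (nat_lit 281)) (XT.lf (nat_lit 0) (nat_lit 5719704528) (nat_lit 380) (nat_lit 2349298590) (nat_lit 76) (nat_lit 788664822) (nat_lit 72) (nat_lit 5) (nat_lit 77) (nat_lit 5) (nat_lit 73) (nat_lit 4) (nat_lit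 327) (nat_lit 293) (nat_lit 280)))) (XT.nd (nat_lit 78) (nat_lit 228) (nat_lit 0) (XT.lf (nat_lit 0) (nat_lit 163806268) (nat_lit 304) (nat_lit 4969466868) (nat_lit 76) (nat_lit 3931091530) (nat_lit 68) (nat_lit 5) (nat_lit 72) (nat_lit 5) (nat_lit 69) (nat_lit 5) (nat_lit 328) (nat_lit 293) (nat_lit 279)) (XT.nd (nat_lit 78) (nat_lit 0) (nat_lit 0) (XT.lf (nat_lit 0) (nat_lit 1494887587) (nat_lit 228) (nat_lit 1977865895) (nat_lit 304) (nat_lit 5808769609) (nat_lit 65) (nat_lit 5) (nat_lit 68) (nat_lit 5) (nat_lit 69) (nat_lit 5) (nat_lit 329) (nat_lit 293) (nat_lit 278)) (XT.lf (nat_lit 0) (nat_lit 6939557365) (nat_lit 304) (nat_lit 1239220829) (nat_lit 76) (nat_lit 1331213369) (nat_lit 65) (nat_lit 5) (nat_lit 69) (nat_lit 5) (nat_lit 66) (nat_lit 4) (nat_lit 330) (nat_lit 293) (nat_lit 277)))))) (XT.nd (nat_lit 468) (nat_lit 608) (nat_lit 0) (XT.nd (nat_lit 234) (nat_lit 608) (nat_lit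 0) (XT.nd (nat_lit 78) (nat_lit 228) (nat_lit 0) (XT.lf (nat_lit 0) (nat_lit 815069535) (nat_lit 304) (nat_lit 4138071189) (nat_lit 76) (nat_lit 4795570245) (nat_lit 61) (nat_lit 5) (nat_lit 65) (nat_lit 5) (nat_lit 62) (nat_lit 5) (nat_lit 331) (nat_lit 293) (nat_lit 276)) (XT.nd (nat_lit 78) (nat_lit 0) (nat_lit 0) (XT.lf (nat_lit 0) (nat_lit 2732911660) (nat_lit 228) (nat_lit 1506934113) (nat_lit 304) (nat_lit 5759657327) (nat_lit 58) (nat_lit 5) (nat_lit 61) (nat_lit 5) (nat_lit 62) (nat_lit 5) (nat_lit 332) (nat_lit 293) (nat_lit 275)) (XT.lf (nat_lit 0) (nat_lit 7834293748) (nat_lit 304) (nat_lit 364029229) (nat_lit 76) (nat_lit 2064649938) (nat_lit 58) (nat_lit 5) (nat_lit 62) (nat_lit 5) (nat_lit 59) (nat_lit 4) (nat_lit 333) (nat_lit 293) (nat_lit 274)))) (XT.nd (nat_lit 78) (nat_lit 380) (nat_lit 0) (XT.lf (nat_lit 0) (nat_lit 1067230552) (nat_lit 228) (nat_lit 3628617145) (nat_lit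 76) (nat_lit 5841358684) (nat_lit 55) (nat_lit 5) (nat_lit 58) (nat_lit 5) (nat_lit 56) (nat_lit 5) (nat_lit 334) (nat_lit 293) (nat_lit 273)) (XT.nd (nat_lit 78) (nat_lit 152) (nat_lit 0) (XT.lf (nat_lit 0) (nat_lit 3654832155) (nat_lit 228) (nat_lit 964852038) (nat_lit 304) (nat_lit 6205359797) (nat_lit 52) (nat_lit 5) (nat_lit 55) (nat_lit 5) (nat_lit 56) (nat_lit 5) (nat_lit 335) (nat_lit 293) (nat_lit 272)) (XT.lf (nat_lit 0) (nat_lit 104013944) (nat_lit 152) (nat_lit 8257495662) (nat_lit 228) (nat_lit 2765225552) (nat_lit 50) (nat_lit 5) (nat_lit 52) (nat_lit 5) (nat_lit 53) (nat_lit 4) (nat_lit 336) (nat_lit 293) (nat_lit 271))))) (XT.nd (nat_lit 234) (nat_lit 380) (nat_lit 0) (XT.nd (nat_lit 78) (nat_lit 152) (nat_lit 0) (XT.lf (nat_lit 0) (nat_lit 861276046) (nat_lit 228) (nat_lit 3634777907) (nat_lit 76) (nat_lit 6944767000) (nat_lit 49) (nat_lit 5) (nat_lit 52) (nat_lit 5) (nat_lit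 50) (nat_lit 5) (nat_lit 337) (nat_lit 293) (nat_lit 270)) (XT.nd (nat_lit 78) (nat_lit 0) (nat_lit 0) (XT.lf (nat_lit 0) (nat_lit 4057385523) (nat_lit 152) (nat_lit 489018744) (nat_lit 228) (nat_lit 7223471074) (nat_lit 47) (nat_lit 5) (nat_lit 49) (nat_lit 5) (nat_lit 50) (nat_lit 5) (nat_lit 338) (nat_lit 293) (nat_lit 269)) (XT.lf (nat_lit 0) (nat_lit 8444548261) (nat_lit 228) (nat_lit 62022321) (nat_lit 76) (nat_lit 3607414320) (nat_lit 47) (nat_lit 5) (nat_lit 50) (nat_lit 5) (nat_lit 48) (nat_lit 4) (nat_lit 339) (nat_lit 293) (nat_lit 268)))) (XT.nd (nat_lit 78) (nat_lit 152) (nat_lit 0) (XT.lf (nat_lit 0) (nat_lit 107678489) (nat_lit 228) (nat_lit 4397067224) (nat_lit 76) (nat_lit 7968173611) (nat_lit 44) (nat_lit 5) (nat_lit 47) (nat_lit 5) (nat_lit 45) (nat_lit 5) (nat_lit 340) (nat_lit 293) (nat_lit 267)) (XT.nd (nat_lit 78) (nat_lit 0) (nat_lit 0) (XT.lf (nat_lit 0) (nat_lit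 3686439624) (nat_lit 152) (nat_lit 235548855) (nat_lit 228) (nat_lit 8926256359) (nat_lit 42) (nat_lit 5) (nat_lit 44) (nat_lit 5) (nat_lit 45) (nat_lit 5) (nat_lit 341) (nat_lit 293) (nat_lit 266)) (XT.lf (nat_lit 0) (nat_lit 7983076146) (nat_lit 228) (nat_lit 1124834348) (nat_lit 76) (nat_lit 4131656280) (nat_lit 42) (nat_lit 5) (nat_lit 45) (nat_lit 5) (nat_lit 43) (nat_lit 4) (nat_lit 342) (nat_lit 293) (nat_lit 265))))))) (XT.nd (nat_lit 936) (nat_lit 760) (nat_lit 0) (XT.nd (nat_lit 468) (nat_lit 380) (nat_lit 0) (XT.nd (nat_lit 234) (nat_lit 304) (nat_lit 0) (XT.nd (nat_lit 78) (nat_lit 228) (nat_lit 0) (XT.lf (nat_lit 0) (nat_lit 7408706493) (nat_lit 152) (nat_lit 4876201636) (nat_lit 228) (nat_lit 1363693853) (nat_lit 40) (nat_lit 5) (nat_lit 42) (nat_lit 5) (nat_lit 43) (nat_lit 4) (nat_lit 343) (nat_lit 293) (nat_lit 264)) (XT.nd (nat_lit 78) (nat_lit 0) (nat_lit 0) (XT.lf (nat_lit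 0) (nat_lit 2220028740) (nat_lit 152) (nat_lit 389145056) (nat_lit 228) (nat_lit 11468187229) (nat_lit 37) (nat_lit 5) (nat_lit 39) (nat_lit 5) (nat_lit 40) (nat_lit 5) (nat_lit 344) (nat_lit 293) (nat_lit 263)) (XT.lf (nat_lit 0) (nat_lit 6829181127) (nat_lit 228) (nat_lit 3434165745) (nat_lit 76) (nat_lit 4258404457) (nat_lit 37) (nat_lit 5) (nat_lit 40) (nat_lit 5) (nat_lit 38) (nat_lit 4) (nat_lit 345) (nat_lit 293) (nat_lit 262)))) (XT.nd (nat_lit 78) (nat_lit 228) (nat_lit 0) (XT.lf (nat_lit 0) (nat_lit 5444804503) (nat_lit 76) (nat_lit 5830043506) (nat_lit 152) (nat_lit 3712806237) (nat_lit 36) (nat_lit 5) (nat_lit 37) (nat_lit 5) (nat_lit 38) (nat_lit 4) (nat_lit 346) (nat_lit 293) (nat_lit 261)) (XT.nd (nat_lit 78) (nat_lit 152) (nat_lit 0) (XT.lf (nat_lit 0) (nat_lit 433768024) (nat_lit 152) (nat_lit 728865629) (nat_lit 76) (nat_lit 14314741790) (nat_lit 35) (nat_lit 5) (nat_lit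 37) (nat_lit 5) (nat_lit 36) (nat_lit 5) (nat_lit 347) (nat_lit 293) (nat_lit 260)) (XT.lf (nat_lit 0) (nat_lit 4785348381) (nat_lit 228) (nat_lit 7432834616) (nat_lit 76) (nat_lit 3764256327) (nat_lit 33) (nat_lit 5) (nat_lit 36) (nat_lit 5) (nat_lit 34) (nat_lit 4) (nat_lit 348) (nat_lit 293) (nat_lit 259))))) (XT.nd (nat_lit 234) (nat_lit 76) (nat_lit 0) (XT.nd (nat_lit 78) (nat_lit 228) (nat_lit 0) (XT.lf (nat_lit 0) (nat_lit 1712754782) (nat_lit 76) (nat_lit 7628024794) (nat_lit 152) (nat_lit 7172684667) (nat_lit 32) (nat_lit 5) (nat_lit 33) (nat_lit 5) (nat_lit 34) (nat_lit 4) (nat_lit 349) (nat_lit 293) (nat_lit 258)) (XT.nd (nat_lit 78) (nat_lit 228) (nat_lit 0) (XT.lf (nat_lit 0) (nat_lit 11447772793) (nat_lit 76) (nat_lit 2731479937) (nat_lit 152) (nat_lit 2889044575) (nat_lit 32) (nat_lit 5) (nat_lit 33) (nat_lit 5) (nat_lit 34) (nat_lit 4) (nat_lit 350) (nat_lit 293) (nat_lit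 257)) (XT.lf (nat_lit 0) (nat_lit 1589581119) (nat_lit 228) (nat_lit 13688780044) (nat_lit 76) (nat_lit 2369658773) (nat_lit 29) (nat_lit 5) (nat_lit 32) (nat_lit 5) (nat_lit 30) (nat_lit 4) (nat_lit 351) (nat_lit 293) (nat_lit 256)))) (XT.nd (nat_lit 78) (nat_lit 76) (nat_lit 0) (XT.lf (nat_lit 0) (nat_lit 6268752850) (nat_lit 228) (nat_lit 4255296226) (nat_lit 76) (nat_lit 7726643909) (nat_lit 29) (nat_lit 5) (nat_lit 32) (nat_lit 5) (nat_lit 30) (nat_lit 4) (nat_lit 352) (nat_lit 293) (nat_lit 255)) (XT.nd (nat_lit 78) (nat_lit 0) (nat_lit 0) (XT.lf (nat_lit 0) (nat_lit 5715900478) (nat_lit 76) (nat_lit 5490633915) (nat_lit 152) (nat_lit 7675749529) (nat_lit 28) (nat_lit 5) (nat_lit 29) (nat_lit 5) (nat_lit 30) (nat_lit 4) (nat_lit 353) (nat_lit 293) (nat_lit 254)) (XT.lf (nat_lit 0) (nat_lit 16218371057) (nat_lit 76) (nat_lit 181589383) (nat_lit 152) (nat_lit 3145072190) (nat_lit 28)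 (nat_lit 5) (nat_lit 29) (nat_lit 5) (nat_lit 30) (nat_lit 4) (nat_lit 354) (nat_lit 293) (nat_lit 253)))))) (XT.nd (nat_lit 468) (nat_lit 304) (nat_lit 0) (XT.nd (nat_lit 234) (nat_lit 152) (nat_lit 0) (XT.nd (nat_lit 78) (nat_lit 76) (nat_lit 0) (XT.lf (nat_lit 0) (nat_lit 1695662863) (nat_lit 228) (nat_lit 13227453992) (nat_lit 76) (nat_lit 5309801809) (nat_lit 25) (nat_lit 5) (nat_lit 28) (nat_lit 5) (nat_lit 26) (nat_lit 4) (nat_lit 355) (nat_lit 293) (nat_lit 252)) (XT.nd (nat_lit 78) (nat_lit 76) (nat_lit 0) (XT.lf (nat_lit 0) (nat_lit 6672109314) (nat_lit 228) (nat_lit 3150177008) (nat_lit 76) (nat_lit 11130380084) (nat_lit 25) (nat_lit 5) (nat_lit 28) (nat_lit 5) (nat_lit 26) (nat_lit 4) (nat_lit 356) (nat_lit 293) (nat_lit 251)) (XT.lf (nat_lit 0) (nat_lit 7566444610) (nat_lit 76) (nat_lit 4391096034) (nat_lit 152) (nat_lit 9747865922) (nat_lit 24) (nat_lit 5) (nat_lit 25) (nat_lit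 5) (nat_lit 26) (nat_lit 4) (nat_lit 357) (nat_lit 293) (nat_lit 250)))) (XT.nd (nat_lit 78) (nat_lit 152) (nat_lit 0) (XT.lf (nat_lit 0) (nat_lit 17524345928) (nat_lit 152) (nat_lit 3693280593) (nat_lit 0) (nat_lit 1277314629) (nat_lit 24) (nat_lit 5) (nat_lit 26) (nat_lit 4) (nat_lit 24) (nat_lit 4) (nat_lit 358) (nat_lit 293) (nat_lit 249)) (XT.nd (nat_lit 78) (nat_lit 0) (nat_lit 0) (XT.lf (nat_lit 0) (nat_lit 177883497) (nat_lit 152) (nat_lit 15984745776) (nat_lit 76) (nat_lit 7154608907) (nat_lit 22) (nat_lit 5) (nat_lit 24) (nat_lit 5) (nat_lit 23) (nat_lit 4) (nat_lit 359) (nat_lit 293) (nat_lit 248)) (XT.lf (nat_lit 0) (nat_lit 5425609386) (nat_lit 152) (nat_lit 5324408322) (nat_lit 76) (nat_lit 13426125532) (nat_lit 22) (nat_lit 5) (nat_lit 24) (nat_lit 5) (nat_lit 23) (nat_lit 4) (nat_lit 360) (nat_lit 293) (nat_lit 247))))) (XT.nd (nat_lit 234) (nat_lit 152) (nat_lit 0) (XT.nd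 (nat_lit 78) (nat_lit 76) (nat_lit 0) (XT.lf (nat_lit 0) (nat_lit 5962495953) (nat_lit 76) (nat_lit 5014216850) (nat_lit 152) (nat_lit 14099241499) (nat_lit 21) (nat_lit 5) (nat_lit 22) (nat_lit 5) (nat_lit 23) (nat_lit 4) (nat_lit 361) (nat_lit 293) (nat_lit 246)) (XT.nd (nat_lit 78) (nat_lit 76) (nat_lit 0) (XT.lf (nat_lit 0) (nat_lit 16860954679) (nat_lit 152) (nat_lit 8132459338) (nat_lit 0) (nat_lit 1024572556) (nat_lit 21) (nat_lit 5) (nat_lit 23) (nat_lit 4) (nat_lit 21) (nat_lit 4) (nat_lit 362) (nat_lit 293) (nat_lit 245)) (XT.lf (nat_lit 0) (nat_lit 3328997974) (nat_lit 76) (nat_lit 19795243167) (nat_lit 76) (nat_lit 3878647045) (nat_lit 20) (nat_lit 4) (nat_lit 21) (nat_lit 5) (nat_lit 21) (nat_lit 4) (nat_lit 363) (nat_lit 293) (nat_lit 244)))) (XT.nd (nat_lit 156) (nat_lit 76) (nat_lit 0) (XT.nd (nat_lit 78) (nat_lit 0) (nat_lit 0) (XT.lf (nat_lit 0) (nat_lit 1701171414) (nat_lit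 152) (nat_lit 12505589007) (nat_lit 76) (nat_lit 13824446136) (nat_lit 19) (nat_lit 5) (nat_lit 21) (nat_lit 5) (nat_lit 20) (nat_lit 4) (nat_lit 364) (nat_lit 293) (nat_lit 243)) (XT.lf (nat_lit 0) (nat_lit 7382753611) (nat_lit 152) (nat_lit 931101964) (nat_lit 76) (nat_lit 20796258090) (nat_lit 19) (nat_lit 5) (nat_lit 21) (nat_lit 5) (nat_lit 20) (nat_lit 4) (nat_lit 365) (nat_lit 293) (nat_lit 242))) (XT.nd (nat_lit 78) (nat_lit 0) (nat_lit 0) (XT.lf (nat_lit 0) (nat_lit 11505947957) (nat_lit 76) (nat_lit 1977460186) (nat_lit 152) (nat_lit 16752816022) (nat_lit 18) (nat_lit 5) (nat_lit 19) (nat_lit 5) (nat_lit 20) (nat_lit 4) (nat_lit 366) (nat_lit 293) (nat_lit 241)) (XT.lf (nat_lit 0) (nat_lit 19933693834) (nat_lit 152) (nat_lit 6978583252) (nat_lit 0) (nat_lit 4504140508) (nat_lit 18) (nat_lit 5) (nat_lit 20) (nat_lit 4) (nat_lit 18) (nat_lit 4) (nat_lit 367) (nat_lit 293) (nat_lit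 240))))))))
noncomputable def xc83 : XT := (XT.nd (nat_lit 1950) (nat_lit 380) (nat_lit 0) (XT.nd (nat_lit 936) (nat_lit 304) (nat_lit 0) (XT.nd (nat_lit 468) (nat_lit 228) (nat_lit 0) (XT.nd (nat_lit 234) (nat_lit 76) (nat_lit 0) (XT.nd (nat_lit 78) (nat_lit 76) (nat_lit 0) (XT.lf (nat_lit 0) (nat_lit 5421171664) (nat_lit 76) (nat_lit 21360064568) (nat_lit 76) (nat_lit 5870654321) (nat_lit 17) (nat_lit 4) (nat_lit 18) (nat_lit 5) (nat_lit 18) (nat_lit 4) (nat_lit 368) (nat_lit 293) (nat_lit 239)) (XT.nd (nat_lit 78) (nat_lit 0) (nat_lit 0) (XT.lf (nat_lit 0) (nat_lit 99211619) (nat_lit 152) (nat_lit 15343033018) (nat_lit 76) (nat_lit 18502986777) (nat_lit 16) (nat_lit 5) (nat_lit 18) (nat_lit 5) (nat_lit 17) (nat_lit 4) (nat_lit 369) (nat_lit 293) (nat_lit 238)) (XT.lf (nat_lit 0) (nat_lit 6130063716) (nat_lit 152) (nat_lit 3034078212) (nat_lit 76) (nat_lit 26136302141) (nat_lit 16) (nat_lit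 5) (nat_lit 18) (nat_lit 5) (nat_lit 17) (nat_lit 4) (nat_lit 370) (nat_lit 293) (nat_lit 237)))) (XT.nd (nat_lit 78) (nat_lit 0) (nat_lit 0) (XT.lf (nat_lit 0) (nat_lit 10141707921) (nat_lit 76) (nat_lit 2440791303) (nat_lit 152) (nat_lit 24134921833) (nat_lit 15) (nat_lit 5) (nat_lit 16) (nat_lit 5) (nat_lit 17) (nat_lit 4) (nat_lit 371) (nat_lit 293) (nat_lit 236)) (XT.nd (nat_lit 78) (nat_lit 0) (nat_lit 0) (XT.lf (nat_lit 0) (nat_lit 19443755593) (nat_lit 152) (nat_lit 14267393058) (nat_lit 0) (nat_lit 4489793758) (nat_lit 15) (nat_lit 5) (nat_lit 17) (nat_lit 4) (nat_lit 15) (nat_lit 4) (nat_lit 372) (nat_lit 293) (nat_lit 235)) (XT.lf (nat_lit 0) (nat_lit 26651765730) (nat_lit 152) (nat_lit 1453557019) (nat_lit 0) (nat_lit 11653137739) (nat_lit 15) (nat_lit 5) (nat_lit 17) (nat_lit 4) (nat_lit 15) (nat_lit 4) (nat_lit 373) (nat_lit 293) (nat_lit 234))))) (XT.nd (nat_lit 234) (nat_lit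 76) (nat_lit 0) (XT.nd (nat_lit 78) (nat_lit 76) (nat_lit 0) (XT.lf (nat_lit 0) (nat_lit 12329017253) (nat_lit 76) (nat_lit 22049057231) (nat_lit 76) (nat_lit 7007890043) (nat_lit 14) (nat_lit 4) (nat_lit 15) (nat_lit 5) (nat_lit 15) (nat_lit 4) (nat_lit 374) (nat_lit 293) (nat_lit 233)) (XT.nd (nat_lit 78) (nat_lit 76) (nat_lit 0) (XT.lf (nat_lit 0) (nat_lit 26785698877) (nat_lit 76) (nat_lit 15695648933) (nat_lit 76) (nat_lit 613968225) (nat_lit 14) (nat_lit 4) (nat_lit 15) (nat_lit 5) (nat_lit 15) (nat_lit 4) (nat_lit 375) (nat_lit 293) (nat_lit 232)) (XT.lf (nat_lit 0) (nat_lit 5871538062) (nat_lit 152) (nat_lit 3083611985) (nat_lit 76) (nat_lit 35931871961) (nat_lit 13) (nat_lit 5) (nat_lit 15) (nat_lit 5) (nat_lit 14) (nat_lit 4) (nat_lit 376) (nat_lit 293) (nat_lit 231)))) (XT.nd (nat_lit 78) (nat_lit 0) (nat_lit 0) (XT.lf (nat_lit 0) (nat_lit 11088079200) (nat_lit 76) (nat_lit 1714404297)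 (nat_lit 152) (nat_lit 33958240750) (nat_lit 12) (nat_lit 5) (nat_lit 13) (nat_lit 5) (nat_lit 14) (nat_lit 4) (nat_lit 377) (nat_lit 293) (nat_lit 230)) (XT.nd (nat_lit 78) (nat_lit 0) (nat_lit 0) (XT.lf (nat_lit 0) (nat_lit 20193784880) (nat_lit 152) (nat_lit 22803435359) (nat_lit 0) (nat_lit 5725204812) (nat_lit 12) (nat_lit 5) (nat_lit 14) (nat_lit 4) (nat_lit 12) (nat_lit 4) (nat_lit 378) (nat_lit 293) (nat_lit 229)) (XT.lf (nat_lit 0) (nat_lit 27953038239) (nat_lit 152) (nat_lit 9376542245) (nat_lit 0) (nat_lit 13452714767) (nat_lit 12) (nat_lit 5) (nat_lit 14) (nat_lit 4) (nat_lit 12) (nat_lit 4) (nat_lit 379) (nat_lit 293) (nat_lit 228)))))) (XT.nd (nat_lit 468) (nat_lit 76) (nat_lit 0) (XT.nd (nat_lit 234) (nat_lit 152) (nat_lit 0) (XT.nd (nat_lit 78) (nat_lit 0) (nat_lit 0) (XT.lf (nat_lit 0) (nat_lit 4821074227) (nat_lit 76) (nat_lit 31326147584) (nat_lit 76) (nat_lit 16795592299)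 (nat_lit 11) (nat_lit 4) (nat_lit 12) (nat_lit 5) (nat_lit 12) (nat_lit 4) (nat_lit 380) (nat_lit 293) (nat_lit 227)) (XT.nd (nat_lit 78) (nat_lit 0) (nat_lit 0) (XT.lf (nat_lit 0) (nat_lit 20000064016) (nat_lit 76) (nat_lit 24882047935) (nat_lit 76) (nat_lit 10322700448) (nat_lit 11) (nat_lit 4) (nat_lit 12) (nat_lit 5) (nat_lit 12) (nat_lit 4) (nat_lit 381) (nat_lit 293) (nat_lit 226)) (XT.lf (nat_lit 0) (nat_lit 35886536741) (nat_lit 76) (nat_lit 18140734724) (nat_lit 76) (nat_lit 3553966091) (nat_lit 11) (nat_lit 4) (nat_lit 12) (nat_lit 5) (nat_lit 12) (nat_lit 4) (nat_lit 382) (nat_lit 293) (nat_lit 225)))) (XT.nd (nat_lit 78) (nat_lit 76) (nat_lit 0) (XT.lf (nat_lit 0) (nat_lit 3413849521) (nat_lit 152) (nat_lit 7614492489) (nat_lit 76) (nat_lit 49046652622) (nat_lit 10) (nat_lit 5) (nat_lit 12) (nat_lit 5) (nat_lit 11) (nat_lit 4) (nat_lit 383) (nat_lit 293) (nat_lit 224)) (XT.nd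 (nat_lit 78) (nat_lit 0) (nat_lit 0) (XT.lf (nat_lit 0) (nat_lit 7297539808) (nat_lit 76) (nat_lit 3402604388) (nat_lit 152) (nat_lit 51985908799) (nat_lit 9) (nat_lit 5) (nat_lit 10) (nat_lit 5) (nat_lit 11) (nat_lit 4) (nat_lit 384) (nat_lit 293) (nat_lit 223)) (XT.lf (nat_lit 0) (nat_lit 18529378149) (nat_lit 152) (nat_lit 42323258630) (nat_lit 0) (nat_lit 4566098900) (nat_lit 9) (nat_lit 5) (nat_lit 11) (nat_lit 4) (nat_lit 9) (nat_lit 4) (nat_lit 385) (nat_lit 293) (nat_lit 222))))) (XT.nd (nat_lit 234) (nat_lit 0) (nat_lit 0) (XT.nd (nat_lit 78) (nat_lit 76) (nat_lit 0) (XT.lf (nat_lit 0) (nat_lit 26782680398) (nat_lit 152) (nat_lit 28705828310) (nat_lit 0) (nat_lit 12797915964) (nat_lit 9) (nat_lit 5) (nat_lit 11) (nat_lit 4) (nat_lit 9) (nat_lit 4) (nat_lit 386) (nat_lit 293) (nat_lit 221)) (XT.nd (nat_lit 78) (nat_lit 76) (nat_lit 0) (XT.lf (nat_lit 0) (nat_lit 35426577472) (nat_lit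 152) (nat_lit 14450675586) (nat_lit 0) (nat_lit 21421350957) (nat_lit 9) (nat_lit 5) (nat_lit 11) (nat_lit 4) (nat_lit 9) (nat_lit 4) (nat_lit 387) (nat_lit 293) (nat_lit 220)) (XT.lf (nat_lit 0) (nat_lit 491883734) (nat_lit 76) (nat_lit 43997446028) (nat_lit 76) (nat_lit 29972731817) (nat_lit 8) (nat_lit 4) (nat_lit 9) (nat_lit 5) (nat_lit 9) (nat_lit 4) (nat_lit 388) (nat_lit 293) (nat_lit 219)))) (XT.nd (nat_lit 156) (nat_lit 0) (nat_lit 0) (XT.nd (nat_lit 78) (nat_lit 0) (nat_lit 0) (XT.lf (nat_lit 0) (nat_lit 16642834268) (nat_lit 76) (nat_lit 37586464932) (nat_lit 76) (nat_lit 23543191010) (nat_lit 8) (nat_lit 4) (nat_lit 9) (nat_lit 5) (nat_lit 9) (nat_lit 4) (nat_lit 389) (nat_lit 293) (nat_lit 218)) (XT.lf (nat_lit 0) (nat_lit 33562826064) (nat_lit 76) (nat_lit 30873774711) (nat_lit 76) (nat_lit 16812824875) (nat_lit 8) (nat_lit 4) (nat_lit 9) (nat_lit 5) (nat_lit 9) (nat_lit 4)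 (nat_lit 390) (nat_lit 293) (nat_lit 217))) (XT.nd (nat_lit 78) (nat_lit 0) (nat_lit 0) (XT.lf (nat_lit 0) (nat_lit 51292144815) (nat_lit 76) (nat_lit 23843392770) (nat_lit 76) (nat_lit 9765608730) (nat_lit 8) (nat_lit 4) (nat_lit 9) (nat_lit 5) (nat_lit 9) (nat_lit 4) (nat_lit 391) (nat_lit 293) (nat_lit 216)) (XT.lf (nat_lit 0) (nat_lit 69873003187) (nat_lit 76) (nat_lit 16478580105) (nat_lit 76) (nat_lit 2384763489) (nat_lit 8) (nat_lit 4) (nat_lit 9) (nat_lit 5) (nat_lit 9) (nat_lit 4) (nat_lit 392) (nat_lit 293) (nat_lit 215))))))) (XT.nd (nat_lit 936) (nat_lit 152) (nat_lit 0) (XT.nd (nat_lit 468) (nat_lit 76) (nat_lit 0) (XT.nd (nat_lit 234) (nat_lit 0) (nat_lit 0) (XT.nd (nat_lit 78) (nat_lit 76) (nat_lit 0) (XT.lf (nat_lit 0) (nat_lit 5176137796) (nat_lit 152) (nat_lit 3498003253) (nat_lit 76) (nat_lit 84085843123) (nat_lit 7) (nat_lit 5) (nat_lit 9) (nat_lit 5) (nat_lit 8) (nat_lit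 4) (nat_lit 393) (nat_lit 293) (nat_lit 214)) (XT.nd (nat_lit 78) (nat_lit 0) (nat_lit 0) (XT.lf (nat_lit 0) (nat_lit 12979717018) (nat_lit 76) (nat_lit 241426773) (nat_lit 152) (nat_lit 83752396366) (nat_lit 6) (nat_lit 5) (nat_lit 7) (nat_lit 5) (nat_lit 8) (nat_lit 4) (nat_lit 394) (nat_lit 293) (nat_lit 213)) (XT.lf (nat_lit 0) (nat_lit 21846682501) (nat_lit 152) (nat_lit 71159760448) (nat_lit 0) (nat_lit 8382418409) (nat_lit 6) (nat_lit 5) (nat_lit 8) (nat_lit 4) (nat_lit 6) (nat_lit 4) (nat_lit 395) (nat_lit 293) (nat_lit 212)))) (XT.nd (nat_lit 78) (nat_lit 0) (nat_lit 0) (XT.lf (nat_lit 0) (nat_lit 30891835975) (nat_lit 152) (nat_lit 57718687276) (nat_lit 0) (nat_lit 17415009940) (nat_lit 6) (nat_lit 5) (nat_lit 8) (nat_lit 4) (nat_lit 6) (nat_lit 4) (nat_lit 396) (nat_lit 293) (nat_lit 211)) (XT.nd (nat_lit 78) (nat_lit 0) (nat_lit 0) (XT.lf (nat_lit 0) (nat_lit 40374370945) (nat_lit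 152) (nat_lit 43634831722) (nat_lit 0) (nat_lit 26885581155) (nat_lit 6) (nat_lit 5) (nat_lit 8) (nat_lit 4) (nat_lit 6) (nat_lit 4) (nat_lit 397) (nat_lit 293) (nat_lit 210)) (XT.lf (nat_lit 0) (nat_lit 50316864874) (nat_lit 152) (nat_lit 28874660794) (nat_lit 0) (nat_lit 36816681032) (nat_lit 6) (nat_lit 5) (nat_lit 8) (nat_lit 4) (nat_lit 6) (nat_lit 4) (nat_lit 398) (nat_lit 293) (nat_lit 209))))) (XT.nd (nat_lit 234) (nat_lit 0) (nat_lit 0) (XT.nd (nat_lit 78) (nat_lit 76) (nat_lit 0) (XT.lf (nat_lit 0) (nat_lit 60742990368) (nat_lit 152) (nat_lit 13403031229) (nat_lit 0) (nat_lit 47231955048) (nat_lit 6) (nat_lit 5) (nat_lit 8) (nat_lit 4) (nat_lit 6) (nat_lit 4) (nat_lit 399) (nat_lit 293) (nat_lit 208)) (XT.nd (nat_lit 78) (nat_lit 0) (nat_lit 0) (XT.lf (nat_lit 0) (nat_lit 2910033428) (nat_lit 76) (nat_lit 68812971883) (nat_lit 76) (nat_lit 55291601822) (nat_lit 5) (nat_lit 4)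 (nat_lit 6) (nat_lit 5) (nat_lit 6) (nat_lit 4) (nat_lit 400) (nat_lit 293) (nat_lit 207)) (XT.lf (nat_lit 0) (nat_lit 20479196503) (nat_lit 76) (nat_lit 62987184238) (nat_lit 76) (nat_lit 49455971566) (nat_lit 5) (nat_lit 4) (nat_lit 6) (nat_lit 5) (nat_lit 6) (nat_lit 4) (nat_lit 401) (nat_lit 293) (nat_lit 206)))) (XT.nd (nat_lit 78) (nat_lit 0) (nat_lit 0) (XT.lf (nat_lit 0) (nat_lit 38903124593) (nat_lit 76) (nat_lit 56881774558) (nat_lit 76) (nat_lit 43341187971) (nat_lit 5) (nat_lit 4) (nat_lit 6) (nat_lit 5) (nat_lit 6) (nat_lit 4) (nat_lit 402) (nat_lit 293) (nat_lit 205)) (XT.nd (nat_lit 78) (nat_lit 0) (nat_lit 0) (XT.lf (nat_lit 0) (nat_lit 58225684195) (nat_lit 76) (nat_lit 50482206152) (nat_lit 76) (nat_lit 36932692028) (nat_lit 5) (nat_lit 4) (nat_lit 6) (nat_lit 5) (nat_lit 6) (nat_lit 4) (nat_lit 403) (nat_lit 293) (nat_lit 204)) (XT.lf (nat_lit 0) (nat_lit 78492881401)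 (nat_lit 76) (nat_lit 43773241955) (nat_lit 76) (nat_lit 30215225413) (nat_lit 5) (nat_lit 4) (nat_lit 6) (nat_lit 5) (nat_lit 6) (nat_lit 4) (nat_lit 404) (nat_lit 293) (nat_lit 203)))))) (XT.nd (nat_lit 468) (nat_lit 0) (nat_lit 0) (XT.nd (nat_lit 234) (nat_lit 152) (nat_lit 0) (XT.nd (nat_lit 78) (nat_lit 0) (nat_lit 0) (XT.lf (nat_lit 0) (nat_lit 99752971444) (nat_lit 76) (nat_lit 36738908241) (nat_lit 76) (nat_lit 23172794159) (nat_lit 5) (nat_lit 4) (nat_lit 6) (nat_lit 5) (nat_lit 6) (nat_lit 4) (nat_lit 405) (nat_lit 293) (nat_lit 202)) (XT.nd (nat_lit 78) (nat_lit 0) (nat_lit 0) (XT.lf (nat_lit 0) (nat_lit 122056573586) (nat_lit 76) (nat_lit 29362456597) (nat_lit 76) (nat_lit 15788630572) (nat_lit 5) (nat_lit 4) (nat_lit 6) (nat_lit 5) (nat_lit 6) (nat_lit 4) (nat_lit 406) (nat_lit 293) (nat_lit 201)) (XT.lf (nat_lit 0) (nat_lit 145456791641) (nat_lit 76) (nat_lit 21626324042)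 (nat_lit 76) (nat_lit 8045153309) (nat_lit 5) (nat_lit 4) (nat_lit 6) (nat_lit 5) (nat_lit 6) (nat_lit 4) (nat_lit 407) (nat_lit 293) (nat_lit 200)))) (XT.nd (nat_lit 78) (nat_lit 76) (nat_lit 0) (XT.lf (nat_lit 0) (nat_lit 73639619) (nat_lit 152) (nat_lit 13437204472) (nat_lit 76) (nat_lit 169934453672) (nat_lit 4) (nat_lit 5) (nat_lit 6) (nat_lit 5) (nat_lit 5) (nat_lit 4) (nat_lit 408) (nat_lit 293) (nat_lit 199)) (XT.nd (nat_lit 78) (nat_lit 0) (nat_lit 0) (XT.lf (nat_lit 0) (nat_lit 3574163593) (nat_lit 76) (nat_lit 4800954041) (nat_lit 152) (nat_lit 183794110922) (nat_lit 3) (nat_lit 5) (nat_lit 4) (nat_lit 5) (nat_lit 5) (nat_lit 4) (nat_lit 409) (nat_lit 293) (nat_lit 198)) (XT.lf (nat_lit 0) (nat_lit 17382127881) (nat_lit 152) (nat_lit 179504075244) (nat_lit 0) (nat_lit 4428630553) (nat_lit 3) (nat_lit 5) (nat_lit 5) (nat_lit 4) (nat_lit 3) (nat_lit 4) (nat_lit 410) (nat_lit 293)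 (nat_lit 197))))) (XT.nd (nat_lit 234) (nat_lit 0) (nat_lit 0) (XT.nd (nat_lit 78) (nat_lit 0) (nat_lit 0) (XT.lf (nat_lit 0) (nat_lit 26909938947) (nat_lit 152) (nat_lit 170053571415) (nat_lit 0) (nat_lit 13950686849) (nat_lit 3) (nat_lit 5) (nat_lit 5) (nat_lit 4) (nat_lit 3) (nat_lit 4) (nat_lit 411) (nat_lit 293) (nat_lit 196)) (XT.nd (nat_lit 78) (nat_lit 0) (nat_lit 0) (XT.lf (nat_lit 0) (nat_lit 36906279750) (nat_lit 152) (nat_lit 160146095931) (nat_lit 0) (nat_lit 23941546919) (nat_lit 3) (nat_lit 5) (nat_lit 5) (nat_lit 4) (nat_lit 3) (nat_lit 4) (nat_lit 412) (nat_lit 293) (nat_lit 195)) (XT.lf (nat_lit 0) (nat_lit 47394951103) (nat_lit 152) (nat_lit 149758059564) (nat_lit 0) (nat_lit 34424998525) (nat_lit 3) (nat_lit 5) (nat_lit 5) (nat_lit 4) (nat_lit 3) (nat_lit 4) (nat_lit 413) (nat_lit 293) (nat_lit 194)))) (XT.nd (nat_lit 156) (nat_lit 0) (nat_lit 0) (XT.nd (nat_lit 78)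 (nat_lit 0) (nat_lit 0) (XT.lf (nat_lit 0) (nat_lit 58400926032) (nat_lit 152) (nat_lit 138864728894) (nat_lit 0) (nat_lit 45426002267) (nat_lit 3) (nat_lit 5) (nat_lit 5) (nat_lit 4) (nat_lit 3) (nat_lit 4) (nat_lit 414) (nat_lit 293) (nat_lit 193)) (XT.lf (nat_lit 0) (nat_lit 69950409240) (nat_lit 152) (nat_lit 127440167419) (nat_lit 0) (nat_lit 56970751010) (nat_lit 3) (nat_lit 5) (nat_lit 5) (nat_lit 4) (nat_lit 3) (nat_lit 4) (nat_lit 415) (nat_lit 293) (nat_lit 192))) (XT.nd (nat_lit 78) (nat_lit 0) (nat_lit 0) (XT.lf (nat_lit 0) (nat_lit 82070899495) (nat_lit 152) (nat_lit 115457173804) (nat_lit 0) (nat_lit 69086732252) (nat_lit 3) (nat_lit 5) (nat_lit 5) (nat_lit 4) (nat_lit 3) (nat_lit 4) (nat_lit 416) (nat_lit 293) (nat_lit 191)) (XT.lf (nat_lit 0) (nat_lit 94791255108) (nat_lit 152) (nat_lit 102887217110) (nat_lit 0) (nat_lit 81802793566) (nat_lit 3) (nat_lit 5) (nat_lit 5) (nat_lit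 4) (nat_lit 3) (nat_lit 4) (nat_lit 417) (nat_lit 293) (nat_lit 190))))))))
noncomputable def xc84 : XT := (XT.nd (nat_lit 38766) (nat_lit 0) (nat_lit 3420) (XT.nd (nat_lit 936) (nat_lit 0) (nat_lit 0) (XT.nd (nat_lit 468) (nat_lit 76) (nat_lit 0) (XT.nd (nat_lit 234) (nat_lit 0) (nat_lit 0) (XT.nd (nat_lit 78) (nat_lit 0) (nat_lit 0) (XT.lf (nat_lit 0) (nat_lit 108141762640) (nat_lit 152) (nat_lit 89700368869) (nat_lit 0) (nat_lit 95149211290) (nat_lit 3) (nat_lit 5) (nat_lit 5) (nat_lit 4) (nat_lit 3) (nat_lit 4) (nat_lit 418) (nat_lit 293) (nat_lit 189)) (XT.nd (nat_lit 78) (nat_lit 0) (nat_lit 0) (XT.lf (nat_lit 0) (nat_lit 122154209014) (nat_lit 152) (nat_lit 75865231824) (nat_lit 0) (nat_lit 109157762609) (nat_lit 3) (nat_lit 5) (nat_lit 5) (nat_lit 4) (nat_lit 3) (nat_lit 4) (nat_lit 419) (nat_lit 293) (nat_lit 188)) (XT.lf (nat_lit 0) (nat_lit 136861957197) (nat_lit 152) (nat_lit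 61348865172) (nat_lit 0) (nat_lit 123861801216) (nat_lit 3) (nat_lit 5) (nat_lit 5) (nat_lit 4) (nat_lit 3) (nat_lit 4) (nat_lit 420) (nat_lit 293) (nat_lit 187)))) (XT.nd (nat_lit 78) (nat_lit 0) (nat_lit 0) (XT.lf (nat_lit 0) (nat_lit 152300025637) (nat_lit 152) (nat_lit 46116706135) (nat_lit 0) (nat_lit 139296336726) (nat_lit 3) (nat_lit 5) (nat_lit 5) (nat_lit 4) (nat_lit 3) (nat_lit 4) (nat_lit 421) (nat_lit 293) (nat_lit 186)) (XT.nd (nat_lit 78) (nat_lit 0) (nat_lit 0) (XT.lf (nat_lit 0) (nat_lit 168505171641) (nat_lit 152) (nat_lit 30132487668) (nat_lit 0) (nat_lit 155498118034) (nat_lit 3) (nat_lit 5) (nat_lit 5) (nat_lit 4) (nat_lit 3) (nat_lit 4) (nat_lit 422) (nat_lit 293) (nat_lit 185)) (XT.lf (nat_lit 0) (nat_lit 185515978888) (nat_lit 152) (nat_lit 13358152109) (nat_lit 0) (nat_lit 172505720810) (nat_lit 3) (nat_lit 5) (nat_lit 5) (nat_lit 4) (nat_lit 3) (nat_lit 4) (nat_lit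 423) (nat_lit 293) (nat_lit 184))))) (XT.nd (nat_lit 234) (nat_lit 0) (nat_lit 0) (XT.nd (nat_lit 78) (nat_lit 0) (nat_lit 0) (XT.lf (nat_lit 0) (nat_lit 4386639290) (nat_lit 76) (nat_lit 199054797745) (nat_lit 76) (nat_lit 186041487789) (nat_lit 2) (nat_lit 4) (nat_lit 3) (nat_lit 5) (nat_lit 3) (nat_lit 4) (nat_lit 424) (nat_lit 293) (nat_lit 183)) (XT.nd (nat_lit 78) (nat_lit 0) (nat_lit 0) (XT.lf (nat_lit 0) (nat_lit 23473914036) (nat_lit 76) (nat_lit 199011179025) (nat_lit 76) (nat_lit 185994962519) (nat_lit 2) (nat_lit 4) (nat_lit 3) (nat_lit 5) (nat_lit 3) (nat_lit 4) (nat_lit 425) (nat_lit 293) (nat_lit 182)) (XT.lf (nat_lit 0) (nat_lit 43507437186) (nat_lit 76) (nat_lit 198969397754) (nat_lit 76) (nat_lit 185950413105) (nat_lit 2) (nat_lit 4) (nat_lit 3) (nat_lit 5) (nat_lit 3) (nat_lit 4) (nat_lit 426) (nat_lit 293) (nat_lit 181)))) (XT.nd (nat_lit 78) (nat_lit 0) (nat_lit 0)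 (XT.lf (nat_lit 0) (nat_lit 64534907604) (nat_lit 76) (nat_lit 198929354453) (nat_lit 76) (nat_lit 185907733477) (nat_lit 2) (nat_lit 4) (nat_lit 3) (nat_lit 5) (nat_lit 3) (nat_lit 4) (nat_lit 427) (nat_lit 293) (nat_lit 180)) (XT.nd (nat_lit 78) (nat_lit 0) (nat_lit 0) (XT.lf (nat_lit 0) (nat_lit 86606390695) (nat_lit 76) (nat_lit 198890953780) (nat_lit 76) (nat_lit 185866822016) (nat_lit 2) (nat_lit 4) (nat_lit 3) (nat_lit 5) (nat_lit 3) (nat_lit 4) (nat_lit 428) (nat_lit 293) (nat_lit 179)) (XT.lf (nat_lit 0) (nat_lit 109774437611) (nat_lit 76) (nat_lit 198854104305) (nat_lit 76) (nat_lit 185827581316) (nat_lit 2) (nat_lit 4) (nat_lit 3) (nat_lit 5) (nat_lit 3) (nat_lit 4) (nat_lit 429) (nat_lit 293) (nat_lit 178)))))) (XT.nd (nat_lit 468) (nat_lit 0) (nat_lit 0) (XT.nd (nat_lit 234) (nat_lit 0) (nat_lit 0) (XT.nd (nat_lit 78) (nat_lit 0) (nat_lit 0) (XT.lf (nat_lit 0) (nat_lit 134094210367)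 (nat_lit 76) (nat_lit 198818718291) (nat_lit 76) (nat_lit 185789917944) (nat_lit 2) (nat_lit 4) (nat_lit 3) (nat_lit 5) (nat_lit 3) (nat_lit 4) (nat_lit 430) (nat_lit 293) (nat_lit 177)) (XT.nd (nat_lit 78) (nat_lit 0) (nat_lit 0) (XT.lf (nat_lit 0) (nat_lit 159623613185) (nat_lit 76) (nat_lit 198784711487) (nat_lit 76) (nat_lit 185753742227) (nat_lit 2) (nat_lit 4) (nat_lit 3) (nat_lit 5) (nat_lit 3) (nat_lit 4) (nat_lit 431) (nat_lit 293) (nat_lit 176)) (XT.lf (nat_lit 0) (nat_lit 186423430356) (nat_lit 76) (nat_lit 198752002922) (nat_lit 76) (nat_lit 185718968031) (nat_lit 2) (nat_lit 4) (nat_lit 3) (nat_lit 5) (nat_lit 3) (nat_lit 4) (nat_lit 432) (nat_lit 293) (nat_lit 175)))) (XT.nd (nat_lit 78) (nat_lit 0) (nat_lit 0) (XT.lf (nat_lit 0) (nat_lit 214557470969) (nat_lit 76) (nat_lit 198720514721) (nat_lit 76) (nat_lit 185685512562) (nat_lit 2) (nat_lit 4) (nat_lit 3) (nat_lit 5) (nat_lit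 3) (nat_lit 4) (nat_lit 433) (nat_lit 293) (nat_lit 174)) (XT.nd (nat_lit 78) (nat_lit 0) (nat_lit 0) (XT.lf (nat_lit 0) (nat_lit 244092720836) (nat_lit 76) (nat_lit 198690171910) (nat_lit 76) (nat_lit 185653296164) (nat_lit 2) (nat_lit 4) (nat_lit 3) (nat_lit 5) (nat_lit 3) (nat_lit 4) (nat_lit 434) (nat_lit 293) (nat_lit 173)) (XT.lf (nat_lit 0) (nat_lit 275099501980) (nat_lit 76) (nat_lit 198660902246) (nat_lit 76) (nat_lit 185622242129) (nat_lit 2) (nat_lit 4) (nat_lit 3) (nat_lit 5) (nat_lit 3) (nat_lit 4) (nat_lit 435) (nat_lit 293) (nat_lit 172))))) (XT.nd (nat_lit 234) (nat_lit 0) (nat_lit 0) (XT.nd (nat_lit 78) (nat_lit 0) (nat_lit 0) (XT.lf (nat_lit 0) (nat_lit 307651640069) (nat_lit 76) (nat_lit 198632636038) (nat_lit 76) (nat_lit 185592276522) (nat_lit 2) (nat_lit 4) (nat_lit 3) (nat_lit 5) (nat_lit 3) (nat_lit 4) (nat_lit 436) (nat_lit 293) (nat_lit 171)) (XT.nd (nat_lit 78)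 (nat_lit 0) (nat_lit 0) (XT.lf (nat_lit 0) (nat_lit 341826640196) (nat_lit 76) (nat_lit 198605305986) (nat_lit 76) (nat_lit 185563327993) (nat_lit 2) (nat_lit 4) (nat_lit 3) (nat_lit 5) (nat_lit 3) (nat_lit 4) (nat_lit 437) (nat_lit 293) (nat_lit 170)) (XT.lf (nat_lit 0) (nat_lit 377705871407) (nat_lit 76) (nat_lit 198578847018) (nat_lit 76) (nat_lit 185535327620) (nat_lit 2) (nat_lit 4) (nat_lit 3) (nat_lit 5) (nat_lit 3) (nat_lit 4) (nat_lit 438) (nat_lit 293) (nat_lit 169)))) (XT.nd (nat_lit 36972) (nat_lit 0) (nat_lit 10032) (XT.lf (nat_lit 0) (nat_lit 415374760444) (nat_lit 76) (nat_lit 198553196137) (nat_lit 76) (nat_lit 185508208734) (nat_lit 2) (nat_lit 4) (nat_lit 3) (nat_lit 5) (nat_lit 3) (nat_lit 4) (nat_lit 439) (nat_lit 293) (nat_lit 168)) (XT.nd (nat_lit 78) (nat_lit 0) (nat_lit 0) (XT.lf (nat_lit 0) (nat_lit 3447597) (nat_lit 532) (nat_lit 1715668402) (nat_lit 532) (nat_lit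 1715668402) (nat_lit 134) (nat_lit 4) (nat_lit 141) (nat_lit 5) (nat_lit 141) (nat_lit 4) (nat_lit 312) (nat_lit 294) (nat_lit 294)) (XT.lf (nat_lit 0) (nat_lit 4765385819) (nat_lit 532) (nat_lit 2046367900) (nat_lit 532) (nat_lit 134074140) (nat_lit 134) (nat_lit 4) (nat_lit 141) (nat_lit 5) (nat_lit 141) (nat_lit 4) (nat_lit 313) (nat_lit 294) (nat_lit 293))))))) (XT.nd (nat_lit 936) (nat_lit 2280) (nat_lit 0) (XT.nd (nat_lit 468) (nat_lit 1672) (nat_lit 0) (XT.nd (nat_lit 234) (nat_lit 1216) (nat_lit 0) (XT.nd (nat_lit 78) (nat_lit 760) (nat_lit 0) (XT.lf (nat_lit 0) (nat_lit 2611984503) (nat_lit 608) (nat_lit 483386431) (nat_lit 684) (nat_lit 3934441277) (nat_lit 125) (nat_lit 5) (nat_lit 133) (nat_lit 5) (nat_lit 134) (nat_lit 4) (nat_lit 314) (nat_lit 294) (nat_lit 292)) (XT.nd (nat_lit 78) (nat_lit 76) (nat_lit 0) (XT.lf (nat_lit 0) (nat_lit 435193848) (nat_lit 684) (nat_lit 5947738679)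 (nat_lit 684) (nat_lit 740088464) (nat_lit 116) (nat_lit 4) (nat_lit 125) (nat_lit 5) (nat_lit 125) (nat_lit 4) (nat_lit 315) (nat_lit 294) (nat_lit 291)) (XT.lf (nat_lit 0) (nat_lit 2455497794) (nat_lit 760) (nat_lit 1747128546) (nat_lit 76) (nat_lit 3020139016) (nat_lit 115) (nat_lit 5) (nat_lit 125) (nat_lit 5) (nat_lit 116) (nat_lit 4) (nat_lit 316) (nat_lit 294) (nat_lit 290)))) (XT.nd (nat_lit 78) (nat_lit 456) (nat_lit 0) (XT.lf (nat_lit 0) (nat_lit 3380222275) (nat_lit 760) (nat_lit 2307316016) (nat_lit 836) (nat_lit 1644441062) (nat_lit 105) (nat_lit 5) (nat_lit 115) (nat_lit 5) (nat_lit 116) (nat_lit 4) (nat_lit 317) (nat_lit 294) (nat_lit 289)) (XT.nd (nat_lit 78) (nat_lit 0) (nat_lit 0) (XT.lf (nat_lit 0) (nat_lit 1233918757) (nat_lit 380) (nat_lit 248647815) (nat_lit 456) (nat_lit 5967944673) (nat_lit 99) (nat_lit 5) (nat_lit 104) (nat_lit 5) (nat_lit 105) (nat_lit 5) (nat_lit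 318) (nat_lit 294) (nat_lit 288)) (XT.lf (nat_lit 0) (nat_lit 4664028949) (nat_lit 456) (nat_lit 977069934) (nat_lit 76) (nat_lit 1934998256) (nat_lit 99) (nat_lit 5) (nat_lit 105) (nat_lit 5) (nat_lit 100) (nat_lit 4) (nat_lit 319) (nat_lit 294) (nat_lit 287))))) (XT.nd (nat_lit 234) (nat_lit 608) (nat_lit 0) (XT.nd (nat_lit 78) (nat_lit 684) (nat_lit 0) (XT.lf (nat_lit 0) (nat_lit 222774704) (nat_lit 380) (nat_lit 3205995311) (nat_lit 76) (nat_lit 4282307852) (nat_lit 94) (nat_lit 5) (nat_lit 99) (nat_lit 5) (nat_lit 95) (nat_lit 5) (nat_lit 320) (nat_lit 294) (nat_lit 286)) (XT.nd (nat_lit 78) (nat_lit 304) (nat_lit 0) (XT.lf (nat_lit 0) (nat_lit 2311341601) (nat_lit 380) (nat_lit 1022266635) (nat_lit 456) (nat_lit 4521080957) (nat_lit 89) (nat_lit 5) (nat_lit 94) (nat_lit 5) (nat_lit 95) (nat_lit 5) (nat_lit 321) (nat_lit 294) (nat_lit 285)) (XT.lf (nat_lit 0) (nat_lit 27896320) (nat_lit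 304) (nat_lit 6519078390) (nat_lit 380) (nat_lit 1461275059) (nat_lit 85) (nat_lit 5) (nat_lit 89) (nat_lit 5) (nat_lit 90) (nat_lit 4) (nat_lit 322) (nat_lit 294) (nat_lit 284)))) (XT.nd (nat_lit 78) (nat_lit 532) (nat_lit 0) (XT.lf (nat_lit 0) (nat_lit 1677113458) (nat_lit 380) (nat_lit 2303797993) (nat_lit 76) (nat_lit 4188234270) (nat_lit 84) (nat_lit 5) (nat_lit 89) (nat_lit 5) (nat_lit 85) (nat_lit 5) (nat_lit 323) (nat_lit 294) (nat_lit 283)) (XT.nd (nat_lit 78) (nat_lit 228) (nat_lit 0) (XT.lf (nat_lit 0) (nat_lit 3591863498) (nat_lit 304) (nat_lit 1263219192) (nat_lit 380) (nat_lit 3485319672) (nat_lit 80) (nat_lit 5) (nat_lit 84) (nat_lit 5) (nat_lit 85) (nat_lit 5) (nat_lit 324) (nat_lit 294) (nat_lit 282)) (XT.lf (nat_lit 0) (nat_lit 1198048470) (nat_lit 228) (nat_lit 6955803902) (nat_lit 304) (nat_lit 368371646) (nat_lit 77) (nat_lit 5) (nat_lit 80) (nat_lit 5) (nat_lit 81)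 (nat_lit 4) (nat_lit 325) (nat_lit 294) (nat_lit 281)))))) (XT.nd (nat_lit 468) (nat_lit 1064) (nat_lit 0) (XT.nd (nat_lit 234) (nat_lit 532) (nat_lit 0) (XT.nd (nat_lit 78) (nat_lit 608) (nat_lit 0) (XT.lf (nat_lit 0) (nat_lit 2793933608) (nat_lit 304) (nat_lit 1330004996) (nat_lit 76) (nat_lit 4587895602) (nat_lit 76) (nat_lit 5) (nat_lit 80) (nat_lit 5) (nat_lit 77) (nat_lit 5) (nat_lit 326) (nat_lit 294) (nat_lit 280)) (XT.nd (nat_lit 78) (nat_lit 304) (nat_lit 0) (XT.lf (nat_lit 0) (nat_lit 4964009901) (nat_lit 304) (nat_lit 1101203649) (nat_lit 380) (nat_lit 2847331488) (nat_lit 72) (nat_lit 5) (nat_lit 76) (nat_lit 5) (nat_lit 77) (nat_lit 5) (nat_lit 327) (nat_lit 294) (nat_lit 279)) (XT.lf (nat_lit 0) (nat_lit 345027296) (nat_lit 304) (nat_lit 6744827778) (nat_lit 76) (nat_lit 2034202438) (nat_lit 68) (nat_lit 5) (nat_lit 72) (nat_lit 5) (nat_lit 69) (nat_lit 5) (nat_lit 328) (nat_lit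 294) (nat_lit 278)))) (XT.nd (nat_lit 78) (nat_lit 532) (nat_lit 0) (XT.lf (nat_lit 0) (nat_lit 3576636084) (nat_lit 304) (nat_lit 404659749) (nat_lit 76) (nat_lit 5363822434) (nat_lit 68) (nat_lit 5) (nat_lit 72) (nat_lit 5) (nat_lit 69) (nat_lit 5) (nat_lit 329) (nat_lit 294) (nat_lit 277)) (XT.nd (nat_lit 78) (nat_lit 304) (nat_lit 0) (XT.lf (nat_lit 0) (nat_lit 6305278873) (nat_lit 228) (nat_lit 657562814) (nat_lit 304) (nat_lit 2614808691) (nat_lit 65) (nat_lit 5) (nat_lit 68) (nat_lit 5) (nat_lit 69) (nat_lit 5) (nat_lit 330) (nat_lit 294) (nat_lit 276)) (XT.lf (nat_lit 0) (nat_lit 676021737) (nat_lit 304) (nat_lit 6374188001) (nat_lit 76) (nat_lit 2771029954) (nat_lit 61) (nat_lit 5) (nat_lit 65) (nat_lit 5) (nat_lit 62) (nat_lit 5) (nat_lit 331) (nat_lit 294) (nat_lit 275))))) (XT.nd (nat_lit 234) (nat_lit 608) (nat_lit 0) (XT.nd (nat_lit 78) (nat_lit 228) (nat_lit 0) (XT.lf (nat_lit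 0) (nat_lit 346176480) (nat_lit 228) (nat_lit 3667360891) (nat_lit 304) (nat_lit 6062886616) (nat_lit 58) (nat_lit 5) (nat_lit 61) (nat_lit 5) (nat_lit 62) (nat_lit 5) (nat_lit 332) (nat_lit 294) (nat_lit 274)) (XT.nd (nat_lit 78) (nat_lit 228) (nat_lit 0) (XT.lf (nat_lit 0) (nat_lit 7474143640) (nat_lit 228) (nat_lit 51784515) (nat_lit 304) (nat_lit 2818096251) (nat_lit 58) (nat_lit 5) (nat_lit 61) (nat_lit 5) (nat_lit 62) (nat_lit 5) (nat_lit 333) (nat_lit 294) (nat_lit 273)) (XT.lf (nat_lit 0) (nat_lit 599628105) (nat_lit 228) (nat_lit 6368387969) (nat_lit 76) (nat_lit 3655103415) (nat_lit 55) (nat_lit 5) (nat_lit 58) (nat_lit 5) (nat_lit 56) (nat_lit 5) (nat_lit 334) (nat_lit 294) (nat_lit 272)))) (XT.nd (nat_lit 156) (nat_lit 380) (nat_lit 0) (XT.nd (nat_lit 78) (nat_lit 0) (nat_lit 0) (XT.lf (nat_lit 0) (nat_lit 750147426) (nat_lit 228) (nat_lit 3310144902) (nat_lit 304) (nat_lit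 6855278208) (nat_lit 52) (nat_lit 5) (nat_lit 55) (nat_lit 5) (nat_lit 56) (nat_lit 5) (nat_lit 335) (nat_lit 294) (nat_lit 271)) (XT.lf (nat_lit 0) (nat_lit 7718146894) (nat_lit 304) (nat_lit 2930587355) (nat_lit 76) (nat_lit 572748826) (nat_lit 52) (nat_lit 5) (nat_lit 56) (nat_lit 5) (nat_lit 53) (nat_lit 4) (nat_lit 336) (nat_lit 294) (nat_lit 270))) (XT.nd (nat_lit 78) (nat_lit 152) (nat_lit 0) (XT.lf (nat_lit 0) (nat_lit 53324758) (nat_lit 228) (nat_lit 6924117978) (nat_lit 76) (nat_lit 4563396276) (nat_lit 49) (nat_lit 5) (nat_lit 52) (nat_lit 5) (nat_lit 50) (nat_lit 5) (nat_lit 337) (nat_lit 294) (nat_lit 269)) (XT.lf (nat_lit 0) (nat_lit 587435005) (nat_lit 152) (nat_lit 3053582900) (nat_lit 228) (nat_lit 8233766966) (nat_lit 47) (nat_lit 5) (nat_lit 49) (nat_lit 5) (nat_lit 50) (nat_lit 5) (nat_lit 338) (nat_lit 294) (nat_lit 268))))))))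
noncomputable def xc85 : XT := (XT.nd (nat_lit 1950) (nat_lit 912) (nat_lit 0) (XT.nd (nat_lit 936) (nat_lit 836) (nat_lit 0) (XT.nd (nat_lit 468) (nat_lit 532) (nat_lit 0) (XT.nd (nat_lit 234) (nat_lit 380) (nat_lit 0) (XT.nd (nat_lit 78) (nat_lit 228) (nat_lit 0) (XT.lf (nat_lit 0) (nat_lit 7456445611) (nat_lit 228) (nat_lit 3666994643) (nat_lit 76) (nat_lit 1099608772) (nat_lit 47) (nat_lit 5) (nat_lit 50) (nat_lit 5) (nat_lit 48) (nat_lit 4) (nat_lit 339) (nat_lit 294) (nat_lit 267)) (XT.nd (nat_lit 78) (nat_lit 76) (nat_lit 0) (XT.lf (nat_lit 0) (nat_lit 4284485882) (nat_lit 152) (nat_lit 7211790081) (nat_lit 228) (nat_lit 1090805526) (nat_lit 45) (nat_lit 5) (nat_lit 47) (nat_lit 5) (nat_lit 48) (nat_lit 4) (nat_lit 340) (nat_lit 294) (nat_lit 266)) (XT.lf (nat_lit 0) (nat_lit 2660458605) (nat_lit 228) (nat_lit 387133551) (nat_lit 76) (nat_lit 9920580518) (nat_lit 44) (nat_lit 5)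 (nat_lit 47) (nat_lit 5) (nat_lit 45) (nat_lit 5) (nat_lit 341) (nat_lit 294) (nat_lit 265)))) (XT.nd (nat_lit 78) (nat_lit 228) (nat_lit 0) (XT.lf (nat_lit 0) (nat_lit 6631372922) (nat_lit 228) (nat_lit 5355023167) (nat_lit 76) (nat_lit 1377622639) (nat_lit 42) (nat_lit 5) (nat_lit 45) (nat_lit 5) (nat_lit 43) (nat_lit 4) (nat_lit 342) (nat_lit 294) (nat_lit 264)) (XT.nd (nat_lit 78) (nat_lit 76) (nat_lit 0) (XT.lf (nat_lit 0) (nat_lit 2972157094) (nat_lit 152) (nat_lit 7853758917) (nat_lit 228) (nat_lit 2952517084) (nat_lit 40) (nat_lit 5) (nat_lit 42) (nat_lit 5) (nat_lit 43) (nat_lit 4) (nat_lit 343) (nat_lit 294) (nat_lit 263)) (XT.lf (nat_lit 0) (nat_lit 998718519) (nat_lit 228) (nat_lit 2457189706) (nat_lit 76) (nat_lit 10756161773) (nat_lit 39) (nat_lit 5) (nat_lit 42) (nat_lit 5) (nat_lit 40) (nat_lit 5) (nat_lit 344) (nat_lit 294) (nat_lit 262))))) (XT.nd (nat_lit 234) (nat_lit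 304) (nat_lit 0) (XT.nd (nat_lit 78) (nat_lit 76) (nat_lit 0) (XT.lf (nat_lit 0) (nat_lit 5093134553) (nat_lit 228) (nat_lit 8345786639) (nat_lit 76) (nat_lit 1223831386) (nat_lit 37) (nat_lit 5) (nat_lit 40) (nat_lit 5) (nat_lit 38) (nat_lit 4) (nat_lit 345) (nat_lit 294) (nat_lit 261)) (XT.nd (nat_lit 78) (nat_lit 0) (nat_lit 0) (XT.lf (nat_lit 0) (nat_lit 306835017) (nat_lit 76) (nat_lit 9116101905) (nat_lit 152) (nat_lit 5711523904) (nat_lit 36) (nat_lit 5) (nat_lit 37) (nat_lit 5) (nat_lit 38) (nat_lit 4) (nat_lit 346) (nat_lit 294) (nat_lit 260)) (XT.lf (nat_lit 0) (nat_lit 9556983329) (nat_lit 76) (nat_lit 4482041365) (nat_lit 152) (nat_lit 1587263662) (nat_lit 36) (nat_lit 5) (nat_lit 37) (nat_lit 5) (nat_lit 38) (nat_lit 4) (nat_lit 347) (nat_lit 294) (nat_lit 259)))) (XT.nd (nat_lit 78) (nat_lit 76) (nat_lit 0) (XT.lf (nat_lit 0) (nat_lit 2640587211) (nat_lit 228) (nat_lit 13087476287)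 (nat_lit 76) (nat_lit 413264868) (nat_lit 33) (nat_lit 5) (nat_lit 36) (nat_lit 5) (nat_lit 34) (nat_lit 4) (nat_lit 348) (nat_lit 294) (nat_lit 258)) (XT.nd (nat_lit 78) (nat_lit 76) (nat_lit 0) (XT.lf (nat_lit 0) (nat_lit 7135793325) (nat_lit 228) (nat_lit 4056155708) (nat_lit 76) (nat_lit 5483425466) (nat_lit 33) (nat_lit 5) (nat_lit 36) (nat_lit 5) (nat_lit 34) (nat_lit 4) (nat_lit 349) (nat_lit 294) (nat_lit 257)) (XT.lf (nat_lit 0) (nat_lit 5486256376) (nat_lit 76) (nat_lit 6389785332) (nat_lit 152) (nat_lit 5359086577) (nat_lit 32) (nat_lit 5) (nat_lit 33) (nat_lit 5) (nat_lit 34) (nat_lit 4) (nat_lit 350) (nat_lit 294) (nat_lit 256)))))) (XT.nd (nat_lit 468) (nat_lit 304) (nat_lit 0) (XT.nd (nat_lit 234) (nat_lit 304) (nat_lit 0) (XT.nd (nat_lit 78) (nat_lit 228) (nat_lit 0) (XT.lf (nat_lit 0) (nat_lit 15532412722) (nat_lit 76) (nat_lit 1325538980) (nat_lit 152) (nat_lit 964704115)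 (nat_lit 32) (nat_lit 5) (nat_lit 33) (nat_lit 5) (nat_lit 34) (nat_lit 4) (nat_lit 351) (nat_lit 294) (nat_lit 255)) (XT.nd (nat_lit 78) (nat_lit 0) (nat_lit 0) (XT.lf (nat_lit 0) (nat_lit 3655596507) (nat_lit 228) (nat_lit 10777652397) (nat_lit 76) (nat_lit 3997328625) (nat_lit 29) (nat_lit 5) (nat_lit 32) (nat_lit 5) (nat_lit 30) (nat_lit 4) (nat_lit 352) (nat_lit 294) (nat_lit 254)) (XT.lf (nat_lit 0) (nat_lit 8474129857) (nat_lit 228) (nat_lit 1043711849) (nat_lit 76) (nat_lit 9550296974) (nat_lit 29) (nat_lit 5) (nat_lit 32) (nat_lit 5) (nat_lit 30) (nat_lit 4) (nat_lit 353) (nat_lit 294) (nat_lit 253)))) (XT.nd (nat_lit 78) (nat_lit 228) (nat_lit 0) (XT.lf (nat_lit 0) (nat_lit 9370813252) (nat_lit 76) (nat_lit 4250496244) (nat_lit 152) (nat_lit 6111897643) (nat_lit 28) (nat_lit 5) (nat_lit 29) (nat_lit 5) (nat_lit 30) (nat_lit 4) (nat_lit 354) (nat_lit 294) (nat_lit 252)) (XT.nd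 (nat_lit 78) (nat_lit 228) (nat_lit 0) (XT.lf (nat_lit 0) (nat_lit 19005645032) (nat_lit 152) (nat_lit 215103019) (nat_lit 0) (nat_lit 1211805634) (nat_lit 28) (nat_lit 5) (nat_lit 30) (nat_lit 4) (nat_lit 28) (nat_lit 4) (nat_lit 355) (nat_lit 294) (nat_lit 251)) (XT.lf (nat_lit 0) (nat_lit 3563403043) (nat_lit 228) (nat_lit 10607375769) (nat_lit 76) (nat_lit 6984233175) (nat_lit 25) (nat_lit 5) (nat_lit 28) (nat_lit 5) (nat_lit 26) (nat_lit 4) (nat_lit 356) (nat_lit 294) (nat_lit 250))))) (XT.nd (nat_lit 234) (nat_lit 228) (nat_lit 0) (XT.nd (nat_lit 78) (nat_lit 76) (nat_lit 0) (XT.lf (nat_lit 0) (nat_lit 8703769100) (nat_lit 228) (nat_lit 182494504) (nat_lit 76) (nat_lit 13028747922) (nat_lit 25) (nat_lit 5) (nat_lit 28) (nat_lit 5) (nat_lit 26) (nat_lit 4) (nat_lit 357) (nat_lit 294) (nat_lit 249)) (XT.nd (nat_lit 78) (nat_lit 0) (nat_lit 0) (XT.lf (nat_lit 0) (nat_lit 11019551883)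 (nat_lit 76) (nat_lit 3201066396) (nat_lit 152) (nat_lit 8486431458) (nat_lit 24) (nat_lit 5) (nat_lit 25) (nat_lit 5) (nat_lit 26) (nat_lit 4) (nat_lit 358) (nat_lit 294) (nat_lit 248)) (XT.lf (nat_lit 0) (nat_lit 20007428144) (nat_lit 152) (nat_lit 890892587) (nat_lit 0) (nat_lit 2640674584) (nat_lit 24) (nat_lit 5) (nat_lit 26) (nat_lit 4) (nat_lit 24) (nat_lit 4) (nat_lit 359) (nat_lit 294) (nat_lit 247)))) (XT.nd (nat_lit 156) (nat_lit 76) (nat_lit 0) (XT.nd (nat_lit 78) (nat_lit 0) (nat_lit 0) (XT.lf (nat_lit 0) (nat_lit 1789171471) (nat_lit 152) (nat_lit 13791809773) (nat_lit 76) (nat_lit 8821682016) (nat_lit 22) (nat_lit 5) (nat_lit 24) (nat_lit 5) (nat_lit 23) (nat_lit 4) (nat_lit 360) (nat_lit 294) (nat_lit 246)) (XT.lf (nat_lit 0) (nat_lit 7222979187) (nat_lit 152) (nat_lit 2740939889) (nat_lit 76) (nat_lit 15344424822) (nat_lit 22) (nat_lit 5) (nat_lit 24) (nat_lit 5) (nat_lit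 23) (nat_lit 4) (nat_lit 361) (nat_lit 294) (nat_lit 245))) (XT.nd (nat_lit 78) (nat_lit 0) (nat_lit 0) (XT.lf (nat_lit 0) (nat_lit 9064346877) (nat_lit 76) (nat_lit 3958394001) (nat_lit 152) (nat_lit 13231863863) (nat_lit 21) (nat_lit 5) (nat_lit 22) (nat_lit 5) (nat_lit 23) (nat_lit 4) (nat_lit 362) (nat_lit 294) (nat_lit 244)) (XT.lf (nat_lit 0) (nat_lit 19149327258) (nat_lit 152) (nat_lit 5816725400) (nat_lit 0) (nat_lit 2280293045) (nat_lit 21) (nat_lit 5) (nat_lit 23) (nat_lit 4) (nat_lit 21) (nat_lit 4) (nat_lit 363) (nat_lit 294) (nat_lit 243))))))) (XT.nd (nat_lit 936) (nat_lit 380) (nat_lit 0) (XT.nd (nat_lit 468) (nat_lit 228) (nat_lit 0) (XT.nd (nat_lit 234) (nat_lit 76) (nat_lit 0) (XT.nd (nat_lit 78) (nat_lit 152) (nat_lit 0) (XT.lf (nat_lit 0) (nat_lit 6173895795) (nat_lit 76) (nat_lit 19524875333) (nat_lit 76) (nat_lit 2583084660) (nat_lit 20) (nat_lit 4) (nat_lit 21) (nat_lit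 5) (nat_lit 21) (nat_lit 4) (nat_lit 364) (nat_lit 294) (nat_lit 242)) (XT.nd (nat_lit 78) (nat_lit 76) (nat_lit 0) (XT.lf (nat_lit 0) (nat_lit 3159393417) (nat_lit 152) (nat_lit 10534326035) (nat_lit 76) (nat_lit 15670152606) (nat_lit 19) (nat_lit 5) (nat_lit 21) (nat_lit 5) (nat_lit 20) (nat_lit 4) (nat_lit 365) (nat_lit 294) (nat_lit 241)) (XT.lf (nat_lit 0) (nat_lit 1544679884) (nat_lit 76) (nat_lit 7539102887) (nat_lit 152) (nat_lit 21415016619) (nat_lit 18) (nat_lit 5) (nat_lit 19) (nat_lit 5) (nat_lit 20) (nat_lit 4) (nat_lit 366) (nat_lit 294) (nat_lit 240)))) (XT.nd (nat_lit 78) (nat_lit 76) (nat_lit 0) (XT.lf (nat_lit 0) (nat_lit 14514257455) (nat_lit 76) (nat_lit 926806944) (nat_lit 152) (nat_lit 16242582029) (nat_lit 18) (nat_lit 5) (nat_lit 19) (nat_lit 5) (nat_lit 20) (nat_lit 4) (nat_lit 367) (nat_lit 294) (nat_lit 239)) (XT.nd (nat_lit 78) (nat_lit 76) (nat_lit 0) (XT.lf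 (nat_lit 0) (nat_lit 22169838693) (nat_lit 152) (nat_lit 4966127920) (nat_lit 0) (nat_lit 5789094421) (nat_lit 18) (nat_lit 5) (nat_lit 20) (nat_lit 4) (nat_lit 18) (nat_lit 4) (nat_lit 368) (nat_lit 294) (nat_lit 238)) (XT.lf (nat_lit 0) (nat_lit 8015527895) (nat_lit 76) (nat_lit 21321481591) (nat_lit 76) (nat_lit 4886445327) (nat_lit 17) (nat_lit 4) (nat_lit 18) (nat_lit 5) (nat_lit 18) (nat_lit 4) (nat_lit 369) (nat_lit 294) (nat_lit 237))))) (XT.nd (nat_lit 234) (nat_lit 76) (nat_lit 0) (XT.nd (nat_lit 78) (nat_lit 76) (nat_lit 0) (XT.lf (nat_lit 0) (nat_lit 1282120767) (nat_lit 152) (nat_lit 13858395349) (nat_lit 76) (nat_lit 20442902846) (nat_lit 16) (nat_lit 5) (nat_lit 18) (nat_lit 5) (nat_lit 17) (nat_lit 4) (nat_lit 370) (nat_lit 294) (nat_lit 236)) (XT.nd (nat_lit 78) (nat_lit 76) (nat_lit 0) (XT.lf (nat_lit 0) (nat_lit 7558422680) (nat_lit 152) (nat_lit 1041220864) (nat_lit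 76) (nat_lit 28409561753) (nat_lit 16) (nat_lit 5) (nat_lit 18) (nat_lit 5) (nat_lit 17) (nat_lit 4) (nat_lit 371) (nat_lit 294) (nat_lit 235)) (XT.lf (nat_lit 0) (nat_lit 12758764878) (nat_lit 76) (nat_lit 1554235952) (nat_lit 152) (nat_lit 24185062271) (nat_lit 15) (nat_lit 5) (nat_lit 16) (nat_lit 5) (nat_lit 17) (nat_lit 4) (nat_lit 372) (nat_lit 294) (nat_lit 234)))) (XT.nd (nat_lit 78) (nat_lit 76) (nat_lit 0) (XT.lf (nat_lit 0) (nat_lit 21479870646) (nat_lit 152) (nat_lit 12933664067) (nat_lit 0) (nat_lit 5644105903) (nat_lit 15) (nat_lit 5) (nat_lit 17) (nat_lit 4) (nat_lit 15) (nat_lit 4) (nat_lit 373) (nat_lit 294) (nat_lit 233)) (XT.nd (nat_lit 78) (nat_lit 0) (nat_lit 0) (XT.lf (nat_lit 0) (nat_lit 437381835) (nat_lit 76) (nat_lit 28567065008) (nat_lit 76) (nat_lit 12690786744) (nat_lit 14) (nat_lit 4) (nat_lit 15) (nat_lit 5) (nat_lit 15) (nat_lit 4) (nat_lit 374) (nat_lit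 294) (nat_lit 232)) (XT.lf (nat_lit 0) (nat_lit 14863640424) (nat_lit 76) (nat_lit 22228299229) (nat_lit 76) (nat_lit 6313436661) (nat_lit 14) (nat_lit 4) (nat_lit 15) (nat_lit 5) (nat_lit 15) (nat_lit 4) (nat_lit 375) (nat_lit 294) (nat_lit 231)))))) (XT.nd (nat_lit 468) (nat_lit 152) (nat_lit 0) (XT.nd (nat_lit 234) (nat_lit 76) (nat_lit 0) (XT.nd (nat_lit 78) (nat_lit 76) (nat_lit 0) (XT.lf (nat_lit 0) (nat_lit 339210747) (nat_lit 152) (nat_lit 15256227493) (nat_lit 76) (nat_lit 29606859145) (nat_lit 13) (nat_lit 5) (nat_lit 15) (nat_lit 5) (nat_lit 14) (nat_lit 4) (nat_lit 376) (nat_lit 294) (nat_lit 230)) (XT.nd (nat_lit 78) (nat_lit 76) (nat_lit 0) (XT.lf (nat_lit 0) (nat_lit 7082490228) (nat_lit 152) (nat_lit 1467501660) (nat_lit 76) (nat_lit 38535392930) (nat_lit 13) (nat_lit 5) (nat_lit 15) (nat_lit 5) (nat_lit 14) (nat_lit 4) (nat_lit 377) (nat_lit 294) (nat_lit 229)) (XT.lf (nat_lit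 0) (nat_lit 13384221005) (nat_lit 76) (nat_lit 959270802) (nat_lit 152) (nat_lit 34710110611) (nat_lit 12) (nat_lit 5) (nat_lit 13) (nat_lit 5) (nat_lit 14) (nat_lit 4) (nat_lit 378) (nat_lit 294) (nat_lit 228)))) (XT.nd (nat_lit 78) (nat_lit 76) (nat_lit 0) (XT.lf (nat_lit 0) (nat_lit 22073961951) (nat_lit 152) (nat_lit 22254304457) (nat_lit 0) (nat_lit 6786647090) (nat_lit 12) (nat_lit 5) (nat_lit 14) (nat_lit 4) (nat_lit 12) (nat_lit 4) (nat_lit 379) (nat_lit 294) (nat_lit 227)) (XT.nd (nat_lit 78) (nat_lit 76) (nat_lit 0) (XT.lf (nat_lit 0) (nat_lit 30179726177) (nat_lit 152) (nat_lit 8236509672) (nat_lit 0) (nat_lit 14863619113) (nat_lit 12) (nat_lit 5) (nat_lit 14) (nat_lit 4) (nat_lit 12) (nat_lit 4) (nat_lit 380) (nat_lit 294) (nat_lit 226)) (XT.lf (nat_lit 0) (nat_lit 6645038274) (nat_lit 76) (nat_lit 32123816414) (nat_lit 76) (nat_lit 16780288204) (nat_lit 11) (nat_lit 4) (nat_lit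 12) (nat_lit 5) (nat_lit 12) (nat_lit 4) (nat_lit 381) (nat_lit 294) (nat_lit 225))))) (XT.nd (nat_lit 234) (nat_lit 76) (nat_lit 0) (XT.nd (nat_lit 78) (nat_lit 76) (nat_lit 0) (XT.lf (nat_lit 0) (nat_lit 22507600870) (nat_lit 76) (nat_lit 25394113618) (nat_lit 76) (nat_lit 10024470032) (nat_lit 11) (nat_lit 4) (nat_lit 12) (nat_lit 5) (nat_lit 12) (nat_lit 4) (nat_lit 382) (nat_lit 294) (nat_lit 224)) (XT.nd (nat_lit 78) (nat_lit 76) (nat_lit 0) (XT.lf (nat_lit 0) (nat_lit 39116609915) (nat_lit 76) (nat_lit 18350593637) (nat_lit 76) (nat_lit 2956078264) (nat_lit 11) (nat_lit 4) (nat_lit 12) (nat_lit 5) (nat_lit 12) (nat_lit 4) (nat_lit 383) (nat_lit 294) (nat_lit 223)) (XT.lf (nat_lit 0) (nat_lit 4299553932) (nat_lit 152) (nat_lit 6604117226) (nat_lit 76) (nat_lit 52139241709) (nat_lit 10) (nat_lit 5) (nat_lit 12) (nat_lit 5) (nat_lit 11) (nat_lit 4) (nat_lit 384) (nat_lit 294) (nat_lit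 222)))) (XT.nd (nat_lit 156) (nat_lit 0) (nat_lit 0) (XT.nd (nat_lit 78) (nat_lit 0) (nat_lit 0) (XT.lf (nat_lit 0) (nat_lit 9031079590) (nat_lit 76) (nat_lit 2906404225) (nat_lit 152) (nat_lit 53847678161) (nat_lit 9) (nat_lit 5) (nat_lit 10) (nat_lit 5) (nat_lit 11) (nat_lit 4) (nat_lit 385) (nat_lit 294) (nat_lit 221)) (XT.lf (nat_lit 0) (nat_lit 20134642956) (nat_lit 152) (nat_lit 43112323299) (nat_lit 0) (nat_lit 5408693034) (nat_lit 9) (nat_lit 5) (nat_lit 11) (nat_lit 4) (nat_lit 9) (nat_lit 4) (nat_lit 386) (nat_lit 294) (nat_lit 220))) (XT.nd (nat_lit 78) (nat_lit 0) (nat_lit 0) (XT.lf (nat_lit 0) (nat_lit 28768286703) (nat_lit 152) (nat_lit 28877216619) (nat_lit 0) (nat_lit 14022849085) (nat_lit 9) (nat_lit 5) (nat_lit 11) (nat_lit 4) (nat_lit 9) (nat_lit 4) (nat_lit 387) (nat_lit 294) (nat_lit 219)) (XT.lf (nat_lit 0) (nat_lit 37813594236) (nat_lit 152) (nat_lit 13969492120)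 (nat_lit 0) (nat_lit 23049596908) (nat_lit 9) (nat_lit 5) (nat_lit 11) (nat_lit 4) (nat_lit 9) (nat_lit 4) (nat_lit 388) (nat_lit 294) (nat_lit 218))))))))
noncomputable def xc86 : XT := (XT.nd (nat_lit 1872) (nat_lit 76) (nat_lit 0) (XT.nd (nat_lit 936) (nat_lit 228) (nat_lit 0) (XT.nd (nat_lit 468) (nat_lit 76) (nat_lit 0) (XT.nd (nat_lit 234) (nat_lit 76) (nat_lit 0) (XT.nd (nat_lit 78) (nat_lit 0) (nat_lit 0) (XT.lf (nat_lit 0) (nat_lit 1700780371) (nat_lit 76) (nat_lit 45617875579) (nat_lit 76) (nat_lit 30836202336) (nat_lit 8) (nat_lit 4) (nat_lit 9) (nat_lit 5) (nat_lit 9) (nat_lit 4) (nat_lit 389) (nat_lit 294) (nat_lit 217)) (XT.nd (nat_lit 78) (nat_lit 0) (nat_lit 0) (XT.lf (nat_lit 0) (nat_lit 18602883077) (nat_lit 76) (nat_lit 38913937939) (nat_lit 76) (nat_lit 24115430492) (nat_lit 8) (nat_lit 4) (nat_lit 9) (nat_lit 5) (nat_lit 9) (nat_lit 4) (nat_lit 390) (nat_lit 294) (nat_lit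 216)) (XT.lf (nat_lit 0) (nat_lit 36315164601) (nat_lit 76) (nat_lit 31891891790) (nat_lit 76) (nat_lit 17077351767) (nat_lit 8) (nat_lit 4) (nat_lit 9) (nat_lit 5) (nat_lit 9) (nat_lit 4) (nat_lit 391) (nat_lit 294) (nat_lit 215)))) (XT.nd (nat_lit 78) (nat_lit 76) (nat_lit 0) (XT.lf (nat_lit 0) (nat_lit 54879797041) (nat_lit 76) (nat_lit 24535017974) (nat_lit 76) (nat_lit 9705208832) (nat_lit 8) (nat_lit 4) (nat_lit 9) (nat_lit 5) (nat_lit 9) (nat_lit 4) (nat_lit 392) (nat_lit 294) (nat_lit 214)) (XT.nd (nat_lit 78) (nat_lit 76) (nat_lit 0) (XT.lf (nat_lit 0) (nat_lit 74340981904) (nat_lit 76) (nat_lit 16825800125) (nat_lit 76) (nat_lit 1981448964) (nat_lit 8) (nat_lit 4) (nat_lit 9) (nat_lit 5) (nat_lit 9) (nat_lit 4) (nat_lit 393) (nat_lit 294) (nat_lit 213)) (XT.lf (nat_lit 0) (nat_lit 5916685400) (nat_lit 152) (nat_lit 2728995632) (nat_lit 76) (nat_lit 88728168013) (nat_lit 7) (nat_lit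 5) (nat_lit 9) (nat_lit 5) (nat_lit 8) (nat_lit 4) (nat_lit 394) (nat_lit 294) (nat_lit 212))))) (XT.nd (nat_lit 234) (nat_lit 0) (nat_lit 0) (XT.nd (nat_lit 78) (nat_lit 0) (nat_lit 0) (XT.lf (nat_lit 0) (nat_lit 14358653008) (nat_lit 152) (nat_lit 87244272778) (nat_lit 0) (nat_lit 195423729) (nat_lit 6) (nat_lit 5) (nat_lit 8) (nat_lit 4) (nat_lit 6) (nat_lit 4) (nat_lit 395) (nat_lit 294) (nat_lit 211)) (XT.nd (nat_lit 78) (nat_lit 0) (nat_lit 0) (XT.lf (nat_lit 0) (nat_lit 23396549810) (nat_lit 152) (nat_lit 73817478277) (nat_lit 0) (nat_lit 9221356776) (nat_lit 6) (nat_lit 5) (nat_lit 8) (nat_lit 4) (nat_lit 6) (nat_lit 4) (nat_lit 396) (nat_lit 294) (nat_lit 210)) (XT.lf (nat_lit 0) (nat_lit 32872173663) (nat_lit 152) (nat_lit 59747221456) (nat_lit 0) (nat_lit 18685586577) (nat_lit 6) (nat_lit 5) (nat_lit 8) (nat_lit 4) (nat_lit 6) (nat_lit 4) (nat_lit 397) (nat_lit 294) (nat_lit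 209)))) (XT.nd (nat_lit 78) (nat_lit 0) (nat_lit 0) (XT.lf (nat_lit 0) (nat_lit 42808085577) (nat_lit 152) (nat_lit 45000001704) (nat_lit 0) (nat_lit 28610647013) (nat_lit 6) (nat_lit 5) (nat_lit 8) (nat_lit 4) (nat_lit 6) (nat_lit 4) (nat_lit 398) (nat_lit 294) (nat_lit 208)) (XT.nd (nat_lit 78) (nat_lit 0) (nat_lit 0) (XT.lf (nat_lit 0) (nat_lit 53227942485) (nat_lit 152) (nat_lit 29540706592) (nat_lit 0) (nat_lit 39020169179) (nat_lit 6) (nat_lit 5) (nat_lit 8) (nat_lit 4) (nat_lit 6) (nat_lit 4) (nat_lit 399) (nat_lit 294) (nat_lit 207)) (XT.lf (nat_lit 0) (nat_lit 64156553569) (nat_lit 152) (nat_lit 13332528275) (nat_lit 0) (nat_lit 49938937653) (nat_lit 6) (nat_lit 5) (nat_lit 8) (nat_lit 4) (nat_lit 6) (nat_lit 4) (nat_lit 400) (nat_lit 294) (nat_lit 206)))))) (XT.nd (nat_lit 468) (nat_lit 152) (nat_lit 0) (XT.nd (nat_lit 234) (nat_lit 0) (nat_lit 0) (XT.nd (nat_lit 78) (nat_lit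 0) (nat_lit 0) (XT.lf (nat_lit 0) (nat_lit 3784243574) (nat_lit 76) (nat_lit 71894778406) (nat_lit 76) (nat_lit 57667788574) (nat_lit 5) (nat_lit 4) (nat_lit 6) (nat_lit 5) (nat_lit 6) (nat_lit 4) (nat_lit 401) (nat_lit 294) (nat_lit 205)) (XT.nd (nat_lit 78) (nat_lit 0) (nat_lit 0) (XT.lf (nat_lit 0) (nat_lit 22197164400) (nat_lit 76) (nat_lit 65794789096) (nat_lit 76) (nat_lit 51558871726) (nat_lit 5) (nat_lit 4) (nat_lit 6) (nat_lit 5) (nat_lit 6) (nat_lit 4) (nat_lit 402) (nat_lit 294) (nat_lit 204)) (XT.lf (nat_lit 0) (nat_lit 41509240891) (nat_lit 76) (nat_lit 59400382948) (nat_lit 76) (nat_lit 45155963162) (nat_lit 5) (nat_lit 4) (nat_lit 6) (nat_lit 5) (nat_lit 6) (nat_lit 4) (nat_lit 403) (nat_lit 294) (nat_lit 203)))) (XT.nd (nat_lit 78) (nat_lit 0) (nat_lit 0) (XT.lf (nat_lit 0) (nat_lit 61766454184) (nat_lit 76) (nat_lit 52696335186) (nat_lit 76) (nat_lit 38443817860) (nat_lit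 5) (nat_lit 4) (nat_lit 6) (nat_lit 5) (nat_lit 6) (nat_lit 4) (nat_lit 404) (nat_lit 294) (nat_lit 202)) (XT.nd (nat_lit 78) (nat_lit 0) (nat_lit 0) (XT.lf (nat_lit 0) (nat_lit 83017035737) (nat_lit 76) (nat_lit 45666683792) (nat_lit 76) (nat_lit 31406454523) (nat_lit 5) (nat_lit 4) (nat_lit 6) (nat_lit 5) (nat_lit 6) (nat_lit 4) (nat_lit 405) (nat_lit 294) (nat_lit 201)) (XT.lf (nat_lit 0) (nat_lit 105311582175) (nat_lit 76) (nat_lit 38294691500) (nat_lit 76) (nat_lit 24027117523) (nat_lit 5) (nat_lit 4) (nat_lit 6) (nat_lit 5) (nat_lit 6) (nat_lit 4) (nat_lit 406) (nat_lit 294) (nat_lit 200))))) (XT.nd (nat_lit 234) (nat_lit 76) (nat_lit 0) (XT.nd (nat_lit 78) (nat_lit 76) (nat_lit 0) (XT.lf (nat_lit 0) (nat_lit 128703175749) (nat_lit 76) (nat_lit 30562805948) (nat_lit 76) (nat_lit 16288237011) (nat_lit 5) (nat_lit 4) (nat_lit 6) (nat_lit 5) (nat_lit 6) (nat_lit 4) (nat_lit 407) (nat_lit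 294) (nat_lit 199)) (XT.nd (nat_lit 78) (nat_lit 76) (nat_lit 0) (XT.lf (nat_lit 0) (nat_lit 153247510731) (nat_lit 76) (nat_lit 22452617883) (nat_lit 76) (nat_lit 8171387080) (nat_lit 5) (nat_lit 4) (nat_lit 6) (nat_lit 5) (nat_lit 6) (nat_lit 4) (nat_lit 408) (nat_lit 294) (nat_lit 198)) (XT.lf (nat_lit 0) (nat_lit 331787701) (nat_lit 152) (nat_lit 13607410649) (nat_lit 76) (nat_lit 178665619327) (nat_lit 4) (nat_lit 5) (nat_lit 6) (nat_lit 5) (nat_lit 5) (nat_lit 4) (nat_lit 409) (nat_lit 294) (nat_lit 197)))) (XT.nd (nat_lit 78) (nat_lit 0) (nat_lit 0) (XT.lf (nat_lit 0) (nat_lit 4246434625) (nat_lit 76) (nat_lit 4797493458) (nat_lit 152) (nat_lit 192721238536) (nat_lit 3) (nat_lit 5) (nat_lit 4) (nat_lit 5) (nat_lit 5) (nat_lit 4) (nat_lit 410) (nat_lit 294) (nat_lit 196)) (XT.nd (nat_lit 78) (nat_lit 0) (nat_lit 0) (XT.lf (nat_lit 0) (nat_lit 18493002288) (nat_lit 152) (nat_lit 188000912938)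 (nat_lit 0) (nat_lit 4874552081) (nat_lit 3) (nat_lit 5) (nat_lit 5) (nat_lit 4) (nat_lit 3) (nat_lit 4) (nat_lit 411) (nat_lit 294) (nat_lit 195)) (XT.lf (nat_lit 0) (nat_lit 28485691145) (nat_lit 152) (nat_lit 178100663255) (nat_lit 0) (nat_lit 14862021191) (nat_lit 3) (nat_lit 5) (nat_lit 5) (nat_lit 4) (nat_lit 3) (nat_lit 4) (nat_lit 412) (nat_lit 294) (nat_lit 194))))))) (XT.nd (nat_lit 936) (nat_lit 76) (nat_lit 0) (XT.nd (nat_lit 468) (nat_lit 0) (nat_lit 0) (XT.nd (nat_lit 234) (nat_lit 0) (nat_lit 0) (XT.nd (nat_lit 78) (nat_lit 0) (nat_lit 0) (XT.lf (nat_lit 0) (nat_lit 38970884453) (nat_lit 152) (nat_lit 167719508602) (nat_lit 0) (nat_lit 25342243312) (nat_lit 3) (nat_lit 5) (nat_lit 5) (nat_lit 4) (nat_lit 3) (nat_lit 4) (nat_lit 413) (nat_lit 294) (nat_lit 193)) (XT.nd (nat_lit 78) (nat_lit 0) (nat_lit 0) (XT.lf (nat_lit 0) (nat_lit 49973546958) (nat_lit 152) (nat_lit 156832731947)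 (nat_lit 0) (nat_lit 36340171353) (nat_lit 3) (nat_lit 5) (nat_lit 5) (nat_lit 4) (nat_lit 3) (nat_lit 4) (nat_lit 414) (nat_lit 294) (nat_lit 192)) (XT.lf (nat_lit 0) (nat_lit 61519875477) (nat_lit 152) (nat_lit 145414412390) (nat_lit 0) (nat_lit 47881990858) (nat_lit 3) (nat_lit 5) (nat_lit 5) (nat_lit 4) (nat_lit 3) (nat_lit 4) (nat_lit 415) (nat_lit 294) (nat_lit 191)))) (XT.nd (nat_lit 78) (nat_lit 0) (nat_lit 0) (XT.lf (nat_lit 0) (nat_lit 73637361266) (nat_lit 152) (nat_lit 133437363459) (nat_lit 0) (nat_lit 59995182349) (nat_lit 3) (nat_lit 5) (nat_lit 5) (nat_lit 4) (nat_lit 3) (nat_lit 4) (nat_lit 416) (nat_lit 294) (nat_lit 190)) (XT.nd (nat_lit 78) (nat_lit 0) (nat_lit 0) (XT.lf (nat_lit 0) (nat_lit 86354855483) (nat_lit 152) (nat_lit 120873068369) (nat_lit 0) (nat_lit 72708586758) (nat_lit 3) (nat_lit 5) (nat_lit 5) (nat_lit 4) (nat_lit 3) (nat_lit 4) (nat_lit 417) (nat_lit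 294) (nat_lit 189)) (XT.lf (nat_lit 0) (nat_lit 99702637877) (nat_lit 152) (nat_lit 107691612132) (nat_lit 0) (nat_lit 86052474096) (nat_lit 3) (nat_lit 5) (nat_lit 5) (nat_lit 4) (nat_lit 3) (nat_lit 4) (nat_lit 418) (nat_lit 294) (nat_lit 188))))) (XT.nd (nat_lit 234) (nat_lit 0) (nat_lit 0) (XT.nd (nat_lit 78) (nat_lit 0) (nat_lit 0) (XT.lf (nat_lit 0) (nat_lit 113712488880) (nat_lit 152) (nat_lit 93861610328) (nat_lit 0) (nat_lit 100058615523) (nat_lit 3) (nat_lit 5) (nat_lit 5) (nat_lit 4) (nat_lit 3) (nat_lit 4) (nat_lit 419) (nat_lit 294) (nat_lit 187)) (XT.nd (nat_lit 78) (nat_lit 0) (nat_lit 0) (XT.lf (nat_lit 0) (nat_lit 128417765282) (nat_lit 152) (nat_lit 79350134383) (nat_lit 0) (nat_lit 114760358995) (nat_lit 3) (nat_lit 5) (nat_lit 5) (nat_lit 4) (nat_lit 3) (nat_lit 4) (nat_lit 420) (nat_lit 294) (nat_lit 186)) (XT.lf (nat_lit 0) (nat_lit 143853479644) (nat_lit 152) (nat_lit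 64122633161) (nat_lit 0) (nat_lit 130192708662) (nat_lit 3) (nat_lit 5) (nat_lit 5) (nat_lit 4) (nat_lit 3) (nat_lit 4) (nat_lit 421) (nat_lit 294) (nat_lit 185)))) (XT.nd (nat_lit 78) (nat_lit 0) (nat_lit 0) (XT.lf (nat_lit 0) (nat_lit 160056383669) (nat_lit 152) (nat_lit 48142850709) (nat_lit 0) (nat_lit 146392408216) (nat_lit 3) (nat_lit 5) (nat_lit 5) (nat_lit 4) (nat_lit 3) (nat_lit 4) (nat_lit 422) (nat_lit 294) (nat_lit 184)) (XT.nd (nat_lit 78) (nat_lit 0) (nat_lit 0) (XT.lf (nat_lit 0) (nat_lit 177065055699) (nat_lit 152) (nat_lit 31372739926) (nat_lit 0) (nat_lit 163398028368) (nat_lit 3) (nat_lit 5) (nat_lit 5) (nat_lit 4) (nat_lit 3) (nat_lit 4) (nat_lit 423) (nat_lit 294) (nat_lit 183)) (XT.lf (nat_lit 0) (nat_lit 194919992572) (nat_lit 152) (nat_lit 13772371975) (nat_lit 0) (nat_lit 181250058690) (nat_lit 3) (nat_lit 5) (nat_lit 5) (nat_lit 4) (nat_lit 3) (nat_lit 4) (nat_lit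 424) (nat_lit 294) (nat_lit 182)))))) (XT.nd (nat_lit 468) (nat_lit 0) (nat_lit 0) (XT.nd (nat_lit 234) (nat_lit 0) (nat_lit 0) (XT.nd (nat_lit 78) (nat_lit 0) (nat_lit 0) (XT.lf (nat_lit 0) (nat_lit 4855567256) (nat_lit 76) (nat_lit 208883947799) (nat_lit 76) (nat_lit 195211245774) (nat_lit 2) (nat_lit 4) (nat_lit 3) (nat_lit 5) (nat_lit 3) (nat_lit 4) (nat_lit 425) (nat_lit 294) (nat_lit 181)) (XT.nd (nat_lit 78) (nat_lit 0) (nat_lit 0) (XT.lf (nat_lit 0) (nat_lit 24885320215) (nat_lit 76) (nat_lit 208844033373) (nat_lit 76) (nat_lit 195168695022) (nat_lit 2) (nat_lit 4) (nat_lit 3) (nat_lit 5) (nat_lit 3) (nat_lit 4) (nat_lit 426) (nat_lit 294) (nat_lit 180)) (XT.lf (nat_lit 0) (nat_lit 45909199976) (nat_lit 76) (nat_lit 208805768020) (nat_lit 76) (nat_lit 195127918881) (nat_lit 2) (nat_lit 4) (nat_lit 3) (nat_lit 5) (nat_lit 3) (nat_lit 4) (nat_lit 427) (nat_lit 294) (nat_lit 179))))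 (XT.nd (nat_lit 78) (nat_lit 0) (nat_lit 0) (XT.lf (nat_lit 0) (nat_lit 67977263394) (nat_lit 76) (nat_lit 208769060631) (nat_lit 76) (nat_lit 195088820266) (nat_lit 2) (nat_lit 4) (nat_lit 3) (nat_lit 5) (nat_lit 3) (nat_lit 4) (nat_lit 428) (nat_lit 294) (nat_lit 178)) (XT.nd (nat_lit 78) (nat_lit 0) (nat_lit 0) (XT.lf (nat_lit 0) (nat_lit 91142053478) (nat_lit 76) (nat_lit 208733823807) (nat_lit 76) (nat_lit 195051306084) (nat_lit 2) (nat_lit 4) (nat_lit 3) (nat_lit 5) (nat_lit 3) (nat_lit 4) (nat_lit 429) (nat_lit 294) (nat_lit 177)) (XT.lf (nat_lit 0) (nat_lit 115458724490) (nat_lit 76) (nat_lit 208699973652) (nat_lit 76) (nat_lit 195015287017) (nat_lit 2) (nat_lit 4) (nat_lit 3) (nat_lit 5) (nat_lit 3) (nat_lit 4) (nat_lit 430) (nat_lit 294) (nat_lit 176))))) (XT.nd (nat_lit 234) (nat_lit 0) (nat_lit 0) (XT.nd (nat_lit 78) (nat_lit 0) (nat_lit 0) (XT.lf (nat_lit 0) (nat_lit 140985173265)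 (nat_lit 76) (nat_lit 208667429570) (nat_lit 76) (nat_lit 194980677303) (nat_lit 2) (nat_lit 4) (nat_lit 3) (nat_lit 5) (nat_lit 3) (nat_lit 4) (nat_lit 431) (nat_lit 294) (nat_lit 175)) (XT.nd (nat_lit 78) (nat_lit 0) (nat_lit 0) (XT.lf (nat_lit 0) (nat_lit 167782177062) (nat_lit 76) (nat_lit 208636114074) (nat_lit 76) (nat_lit 194947394540) (nat_lit 2) (nat_lit 4) (nat_lit 3) (nat_lit 5) (nat_lit 3) (nat_lit 4) (nat_lit 432) (nat_lit 294) (nat_lit 174)) (XT.lf (nat_lit 0) (nat_lit 195913538272) (nat_lit 76) (nat_lit 208605952605) (nat_lit 76) (nat_lit 194915359483) (nat_lit 2) (nat_lit 4) (nat_lit 3) (nat_lit 5) (nat_lit 3) (nat_lit 4) (nat_lit 433) (nat_lit 294) (nat_lit 173)))) (XT.nd (nat_lit 156) (nat_lit 0) (nat_lit 0) (XT.nd (nat_lit 78) (nat_lit 0) (nat_lit 0) (XT.lf (nat_lit 0) (nat_lit 225446236326) (nat_lit 76) (nat_lit 208576873349) (nat_lit 76) (nat_lit 194884495857) (nat_lit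 2) (nat_lit 4) (nat_lit 3) (nat_lit 5) (nat_lit 3) (nat_lit 4) (nat_lit 434) (nat_lit 294) (nat_lit 172)) (XT.lf (nat_lit 0) (nat_lit 256450587171) (nat_lit 76) (nat_lit 208548807069) (nat_lit 76) (nat_lit 194854730178) (nat_lit 2) (nat_lit 4) (nat_lit 3) (nat_lit 5) (nat_lit 3) (nat_lit 4) (nat_lit 435) (nat_lit 294) (nat_lit 171))) (XT.nd (nat_lit 78) (nat_lit 0) (nat_lit 0) (XT.lf (nat_lit 0) (nat_lit 289000410691) (nat_lit 76) (nat_lit 208521686942) (nat_lit 76) (nat_lit 194825991575) (nat_lit 2) (nat_lit 4) (nat_lit 3) (nat_lit 5) (nat_lit 3) (nat_lit 4) (nat_lit 436) (nat_lit 294) (nat_lit 170)) (XT.lf (nat_lit 0) (nat_lit 323173206466) (nat_lit 76) (nat_lit 208495448396) (nat_lit 76) (nat_lit 194798211623) (nat_lit 2) (nat_lit 4) (nat_lit 3) (nat_lit 5) (nat_lit 3) (nat_lit 4) (nat_lit 437) (nat_lit 294) (nat_lit 169))))))))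
noncomputable def xc87 : XT := (XT.nd (nat_lit 38688) (nat_lit 0) (nat_lit 1748) (XT.nd (nat_lit 37674) (nat_lit 0) (nat_lit 4484) (XT.nd (nat_lit 37206) (nat_lit 0) (nat_lit 7372) (XT.nd (nat_lit 36972) (nat_lit 0) (nat_lit 9956) (XT.nd (nat_lit 78) (nat_lit 0) (nat_lit 0) (XT.lf (nat_lit 0) (nat_lit 359050338294) (nat_lit 76) (nat_lit 208470028958) (nat_lit 76) (nat_lit 194771324179) (nat_lit 2) (nat_lit 4) (nat_lit 3) (nat_lit 5) (nat_lit 3) (nat_lit 4) (nat_lit 438) (nat_lit 294) (nat_lit 168)) (XT.nd (nat_lit 36816) (nat_lit 0) (nat_lit 11096) (XT.lf (nat_lit 0) (nat_lit 396717227919) (nat_lit 76) (nat_lit 208445368105) (nat_lit 76) (nat_lit 194745265226) (nat_lit 2) (nat_lit 4) (nat_lit 3) (nat_lit 5) (nat_lit 3) (nat_lit 4) (nat_lit 439) (nat_lit 294) (nat_lit 167)) (XT.lf (nat_lit 0) (nat_lit 2299353337) (nat_lit 380) (nat_lit 534797665) (nat_lit 380) (nat_lit 534797665) (nat_lit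 148) (nat_lit 4) (nat_lit 153) (nat_lit 5) (nat_lit 153) (nat_lit 4) (nat_lit 310) (nat_lit 295) (nat_lit 295)))) (XT.nd (nat_lit 78) (nat_lit 608) (nat_lit 0) (XT.lf (nat_lit 0) (nat_lit 2142202070) (nat_lit 532) (nat_lit 4525210818) (nat_lit 0) (nat_lit 134293622) (nat_lit 141) (nat_lit 5) (nat_lit 148) (nat_lit 4) (nat_lit 141) (nat_lit 4) (nat_lit 311) (nat_lit 295) (nat_lit 294)) (XT.nd (nat_lit 78) (nat_lit 608) (nat_lit 0) (XT.lf (nat_lit 0) (nat_lit 5363206495) (nat_lit 532) (nat_lit 67613486) (nat_lit 0) (nat_lit 1443004286) (nat_lit 141) (nat_lit 5) (nat_lit 148) (nat_lit 4) (nat_lit 141) (nat_lit 4) (nat_lit 312) (nat_lit 295) (nat_lit 293)) (XT.lf (nat_lit 0) (nat_lit 1646917224) (nat_lit 608) (nat_lit 2365254051) (nat_lit 76) (nat_lit 2940743168) (nat_lit 133) (nat_lit 5) (nat_lit 141) (nat_lit 5) (nat_lit 134) (nat_lit 4) (nat_lit 313) (nat_lit 295) (nat_lit 292))))) (XT.nd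 (nat_lit 234) (nat_lit 1216) (nat_lit 0) (XT.nd (nat_lit 78) (nat_lit 760) (nat_lit 0) (XT.lf (nat_lit 0) (nat_lit 2344242100) (nat_lit 608) (nat_lit 2446091204) (nat_lit 684) (nat_lit 2250641672) (nat_lit 125) (nat_lit 5) (nat_lit 133) (nat_lit 5) (nat_lit 134) (nat_lit 4) (nat_lit 314) (nat_lit 295) (nat_lit 291)) (XT.nd (nat_lit 78) (nat_lit 0) (nat_lit 0) (XT.lf (nat_lit 0) (nat_lit 75602663) (nat_lit 684) (nat_lit 736732508) (nat_lit 760) (nat_lit 6326255672) (nat_lit 115) (nat_lit 5) (nat_lit 124) (nat_lit 5) (nat_lit 125) (nat_lit 5) (nat_lit 315) (nat_lit 295) (nat_lit 290)) (XT.lf (nat_lit 0) (nat_lit 3898961767) (nat_lit 760) (nat_lit 2198653360) (nat_lit 76) (nat_lit 1144487111) (nat_lit 115) (nat_lit 5) (nat_lit 125) (nat_lit 5) (nat_lit 116) (nat_lit 4) (nat_lit 316) (nat_lit 295) (nat_lit 289)))) (XT.nd (nat_lit 78) (nat_lit 456) (nat_lit 0) (XT.lf (nat_lit 0) (nat_lit 2838687460)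 (nat_lit 760) (nat_lit 4213603023) (nat_lit 836) (nat_lit 303038640) (nat_lit 105) (nat_lit 5) (nat_lit 115) (nat_lit 5) (nat_lit 116) (nat_lit 4) (nat_lit 317) (nat_lit 295) (nat_lit 288)) (XT.nd (nat_lit 78) (nat_lit 0) (nat_lit 0) (XT.lf (nat_lit 0) (nat_lit 552414806) (nat_lit 380) (nat_lit 2148766540) (nat_lit 456) (nat_lit 4775695346) (nat_lit 99) (nat_lit 5) (nat_lit 104) (nat_lit 5) (nat_lit 105) (nat_lit 5) (nat_lit 318) (nat_lit 295) (nat_lit 287)) (XT.lf (nat_lit 0) (nat_lit 5785836892) (nat_lit 456) (nat_lit 1731277412) (nat_lit 76) (nat_lit 90255396) (nat_lit 99) (nat_lit 5) (nat_lit 105) (nat_lit 5) (nat_lit 100) (nat_lit 4) (nat_lit 319) (nat_lit 295) (nat_lit 286)))))) (XT.nd (nat_lit 468) (nat_lit 1368) (nat_lit 0) (XT.nd (nat_lit 234) (nat_lit 760) (nat_lit 0) (XT.nd (nat_lit 78) (nat_lit 380) (nat_lit 0) (XT.lf (nat_lit 0) (nat_lit 1199802155) (nat_lit 380) (nat_lit 4110877121)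 (nat_lit 76) (nat_lit 2434810600) (nat_lit 94) (nat_lit 5) (nat_lit 99) (nat_lit 5) (nat_lit 95) (nat_lit 5) (nat_lit 320) (nat_lit 295) (nat_lit 285)) (XT.nd (nat_lit 78) (nat_lit 0) (nat_lit 0) (XT.lf (nat_lit 0) (nat_lit 1300753578) (nat_lit 380) (nat_lit 2931018351) (nat_lit 456) (nat_lit 3661330143) (nat_lit 89) (nat_lit 5) (nat_lit 94) (nat_lit 5) (nat_lit 95) (nat_lit 5) (nat_lit 321) (nat_lit 295) (nat_lit 284)) (XT.lf (nat_lit 0) (nat_lit 6977721608) (nat_lit 380) (nat_lit 381760919) (nat_lit 456) (nat_lit 691517848) (nat_lit 89) (nat_lit 5) (nat_lit 94) (nat_lit 5) (nat_lit 95) (nat_lit 5) (nat_lit 322) (nat_lit 295) (nat_lit 283)))) (XT.nd (nat_lit 78) (nat_lit 380) (nat_lit 0) (XT.lf (nat_lit 0) (nat_lit 2338039836) (nat_lit 380) (nat_lit 3565815710) (nat_lit 76) (nat_lit 2311699394) (nat_lit 84) (nat_lit 5) (nat_lit 89) (nat_lit 5) (nat_lit 85) (nat_lit 5) (nat_lit 323) (nat_lit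 295) (nat_lit 282)) (XT.nd (nat_lit 78) (nat_lit 76) (nat_lit 0) (XT.lf (nat_lit 0) (nat_lit 2213377911) (nat_lit 304) (nat_lit 3223357989) (nat_lit 380) (nat_lit 2954086795) (nat_lit 80) (nat_lit 5) (nat_lit 84) (nat_lit 5) (nat_lit 85) (nat_lit 5) (nat_lit 324) (nat_lit 295) (nat_lit 281)) (XT.lf (nat_lit 0) (nat_lit 56188694) (nat_lit 380) (nat_lit 319177241) (nat_lit 76) (nat_lit 8202267319) (nat_lit 79) (nat_lit 5) (nat_lit 84) (nat_lit 5) (nat_lit 80) (nat_lit 5) (nat_lit 325) (nat_lit 295) (nat_lit 280))))) (XT.nd (nat_lit 234) (nat_lit 532) (nat_lit 0) (XT.nd (nat_lit 78) (nat_lit 608) (nat_lit 0) (XT.lf (nat_lit 0) (nat_lit 3139872790) (nat_lit 304) (nat_lit 2987747250) (nat_lit 76) (nat_lit 2642718377) (nat_lit 76) (nat_lit 5) (nat_lit 80) (nat_lit 5) (nat_lit 77) (nat_lit 5) (nat_lit 326) (nat_lit 295) (nat_lit 279)) (XT.nd (nat_lit 78) (nat_lit 304) (nat_lit 0) (XT.lf (nat_lit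 0) (nat_lit 3178166596) (nat_lit 304) (nat_lit 3152020272) (nat_lit 380) (nat_lit 2644949715) (nat_lit 72) (nat_lit 5) (nat_lit 76) (nat_lit 5) (nat_lit 77) (nat_lit 5) (nat_lit 327) (nat_lit 295) (nat_lit 278)) (XT.lf (nat_lit 0) (nat_lit 424611341) (nat_lit 304) (nat_lit 8765455146) (nat_lit 76) (nat_lit 2276005) (nat_lit 68) (nat_lit 5) (nat_lit 72) (nat_lit 5) (nat_lit 69) (nat_lit 5) (nat_lit 328) (nat_lit 295) (nat_lit 277)))) (XT.nd (nat_lit 156) (nat_lit 304) (nat_lit 0) (XT.nd (nat_lit 78) (nat_lit 228) (nat_lit 0) (XT.lf (nat_lit 0) (nat_lit 3604792472) (nat_lit 304) (nat_lit 2497992535) (nat_lit 76) (nat_lit 3313223348) (nat_lit 68) (nat_lit 5) (nat_lit 72) (nat_lit 5) (nat_lit 69) (nat_lit 5) (nat_lit 329) (nat_lit 295) (nat_lit 276)) (XT.lf (nat_lit 0) (nat_lit 4071198301) (nat_lit 228) (nat_lit 2835940795) (nat_lit 304) (nat_lit 2745626439) (nat_lit 65) (nat_lit 5) (nat_lit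 68) (nat_lit 5) (nat_lit 69) (nat_lit 5) (nat_lit 330) (nat_lit 295) (nat_lit 275))) (XT.nd (nat_lit 78) (nat_lit 0) (nat_lit 0) (XT.lf (nat_lit 0) (nat_lit 427527742) (nat_lit 304) (nat_lit 8874277924) (nat_lit 76) (nat_lit 600773598) (nat_lit 61) (nat_lit 5) (nat_lit 65) (nat_lit 5) (nat_lit 62) (nat_lit 5) (nat_lit 331) (nat_lit 295) (nat_lit 274)) (XT.lf (nat_lit 0) (nat_lit 3712022419) (nat_lit 304) (nat_lit 2235686525) (nat_lit 76) (nat_lit 4212733408) (nat_lit 61) (nat_lit 5) (nat_lit 65) (nat_lit 5) (nat_lit 62) (nat_lit 5) (nat_lit 332) (nat_lit 295) (nat_lit 273))))))) (XT.nd (nat_lit 936) (nat_lit 1140) (nat_lit 0) (XT.nd (nat_lit 468) (nat_lit 684) (nat_lit 0) (XT.nd (nat_lit 234) (nat_lit 456) (nat_lit 0) (XT.nd (nat_lit 78) (nat_lit 228) (nat_lit 0) (XT.lf (nat_lit 0) (nat_lit 4748805682) (nat_lit 228) (nat_lit 2393113408) (nat_lit 304) (nat_lit 3290274811) (nat_lit 58) (nat_lit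 5) (nat_lit 61) (nat_lit 5) (nat_lit 62) (nat_lit 5) (nat_lit 333) (nat_lit 295) (nat_lit 272)) (XT.nd (nat_lit 78) (nat_lit 0) (nat_lit 0) (XT.lf (nat_lit 0) (nat_lit 13445281) (nat_lit 228) (nat_lit 9392636333) (nat_lit 76) (nat_lit 1312055786) (nat_lit 55) (nat_lit 5) (nat_lit 58) (nat_lit 5) (nat_lit 56) (nat_lit 5) (nat_lit 334) (nat_lit 295) (nat_lit 271)) (XT.lf (nat_lit 0) (nat_lit 3418169840) (nat_lit 228) (nat_lit 2366630199) (nat_lit 76) (nat_lit 5228608218) (nat_lit 55) (nat_lit 5) (nat_lit 58) (nat_lit 5) (nat_lit 56) (nat_lit 5) (nat_lit 335) (nat_lit 295) (nat_lit 270)))) (XT.nd (nat_lit 78) (nat_lit 228) (nat_lit 0) (XT.lf (nat_lit 0) (nat_lit 5038151689) (nat_lit 228) (nat_lit 1947289166) (nat_lit 304) (nat_lit 4338430855) (nat_lit 52) (nat_lit 5) (nat_lit 55) (nat_lit 5) (nat_lit 56) (nat_lit 5) (nat_lit 336) (nat_lit 295) (nat_lit 269)) (XT.nd (nat_lit 78) (nat_lit 76)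 (nat_lit 0) (XT.lf (nat_lit 0) (nat_lit 1114863210) (nat_lit 152) (nat_lit 9621831396) (nat_lit 228) (nat_lit 912925216) (nat_lit 50) (nat_lit 5) (nat_lit 52) (nat_lit 5) (nat_lit 53) (nat_lit 4) (nat_lit 337) (nat_lit 295) (nat_lit 268)) (XT.lf (nat_lit 0) (nat_lit 2653616283) (nat_lit 228) (nat_lit 3093990334) (nat_lit 76) (nat_lit 6239209057) (nat_lit 49) (nat_lit 5) (nat_lit 52) (nat_lit 5) (nat_lit 50) (nat_lit 5) (nat_lit 338) (nat_lit 295) (nat_lit 267))))) (XT.nd (nat_lit 234) (nat_lit 304) (nat_lit 0) (XT.nd (nat_lit 78) (nat_lit 228) (nat_lit 0) (XT.lf (nat_lit 0) (nat_lit 4725780080) (nat_lit 152) (nat_lit 1635370154) (nat_lit 228) (nat_lit 5979342166) (nat_lit 47) (nat_lit 5) (nat_lit 49) (nat_lit 5) (nat_lit 50) (nat_lit 5) (nat_lit 339) (nat_lit 295) (nat_lit 266)) (XT.nd (nat_lit 78) (nat_lit 76) (nat_lit 0) (XT.lf (nat_lit 0) (nat_lit 166881655) (nat_lit 152) (nat_lit 10105570258)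 (nat_lit 228) (nat_lit 2438516417) (nat_lit 45) (nat_lit 5) (nat_lit 47) (nat_lit 5) (nat_lit 48) (nat_lit 4) (nat_lit 340) (nat_lit 295) (nat_lit 265)) (XT.lf (nat_lit 0) (nat_lit 1317404027) (nat_lit 228) (nat_lit 4671474727) (nat_lit 76) (nat_lit 7106172231) (nat_lit 44) (nat_lit 5) (nat_lit 47) (nat_lit 5) (nat_lit 45) (nat_lit 5) (nat_lit 341) (nat_lit 295) (nat_lit 264)))) (XT.nd (nat_lit 78) (nat_lit 152) (nat_lit 0) (XT.lf (nat_lit 0) (nat_lit 3543464283) (nat_lit 152) (nat_lit 1615904098) (nat_lit 228) (nat_lit 8337990869) (nat_lit 42) (nat_lit 5) (nat_lit 44) (nat_lit 5) (nat_lit 45) (nat_lit 5) (nat_lit 342) (nat_lit 295) (nat_lit 263)) (XT.nd (nat_lit 78) (nat_lit 152) (nat_lit 0) (XT.lf (nat_lit 0) (nat_lit 9246067622) (nat_lit 228) (nat_lit 1757911876) (nat_lit 76) (nat_lit 2913200326) (nat_lit 42) (nat_lit 5) (nat_lit 45) (nat_lit 5) (nat_lit 43) (nat_lit 4) (nat_lit 343)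 (nat_lit 295) (nat_lit 262)) (XT.lf (nat_lit 0) (nat_lit 6923290908) (nat_lit 152) (nat_lit 6677694757) (nat_lit 228) (nat_lit 753838927) (nat_lit 40) (nat_lit 5) (nat_lit 42) (nat_lit 5) (nat_lit 43) (nat_lit 4) (nat_lit 344) (nat_lit 295) (nat_lit 261)))))) (XT.nd (nat_lit 468) (nat_lit 608) (nat_lit 0) (XT.nd (nat_lit 234) (nat_lit 228) (nat_lit 0) (XT.nd (nat_lit 78) (nat_lit 76) (nat_lit 0) (XT.lf (nat_lit 0) (nat_lit 1150511244) (nat_lit 152) (nat_lit 2079160791) (nat_lit 228) (nat_lit 11583187350) (nat_lit 37) (nat_lit 5) (nat_lit 39) (nat_lit 5) (nat_lit 40) (nat_lit 5) (nat_lit 345) (nat_lit 295) (nat_lit 260)) (XT.nd (nat_lit 78) (nat_lit 76) (nat_lit 0) (XT.lf (nat_lit 0) (nat_lit 7488273361) (nat_lit 228) (nat_lit 5046039387) (nat_lit 76) (nat_lit 2753826466) (nat_lit 37) (nat_lit 5) (nat_lit 40) (nat_lit 5) (nat_lit 38) (nat_lit 4) (nat_lit 346) (nat_lit 295) (nat_lit 259))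 (XT.lf (nat_lit 0) (nat_lit 3979261149) (nat_lit 76) (nat_lit 8010474317) (nat_lit 152) (nat_lit 3795973540) (nat_lit 36) (nat_lit 5) (nat_lit 37) (nat_lit 5) (nat_lit 38) (nat_lit 4) (nat_lit 347) (nat_lit 295) (nat_lit 258)))) (XT.nd (nat_lit 78) (nat_lit 152) (nat_lit 0) (XT.lf (nat_lit 0) (nat_lit 415931585) (nat_lit 152) (nat_lit 2796089099) (nat_lit 76) (nat_lit 13094794413) (nat_lit 35) (nat_lit 5) (nat_lit 37) (nat_lit 5) (nat_lit 36) (nat_lit 5) (nat_lit 348) (nat_lit 295) (nat_lit 257)) (XT.nd (nat_lit 78) (nat_lit 0) (nat_lit 0) (XT.lf (nat_lit 0) (nat_lit 4783261834) (nat_lit 228) (nat_lit 10172020922) (nat_lit 76) (nat_lit 1891981752) (nat_lit 33) (nat_lit 5) (nat_lit 36) (nat_lit 5) (nat_lit 34) (nat_lit 4) (nat_lit 349) (nat_lit 295) (nat_lit 256)) (XT.lf (nat_lit 0) (nat_lit 9407483241) (nat_lit 228) (nat_lit 859126179) (nat_lit 76) (nat_lit 7146219255) (nat_lit 33) (nat_lit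 5) (nat_lit 36) (nat_lit 5) (nat_lit 34) (nat_lit 4) (nat_lit 350) (nat_lit 295) (nat_lit 255))))) (XT.nd (nat_lit 234) (nat_lit 304) (nat_lit 0) (XT.nd (nat_lit 78) (nat_lit 228) (nat_lit 0) (XT.lf (nat_lit 0) (nat_lit 9105570423) (nat_lit 76) (nat_lit 5240212737) (nat_lit 152) (nat_lit 3656762155) (nat_lit 32) (nat_lit 5) (nat_lit 33) (nat_lit 5) (nat_lit 34) (nat_lit 4) (nat_lit 351) (nat_lit 295) (nat_lit 254)) (XT.nd (nat_lit 78) (nat_lit 0) (nat_lit 0) (XT.lf (nat_lit 0) (nat_lit 850268062) (nat_lit 228) (nat_lit 17737465248) (nat_lit 76) (nat_lit 34814702) (nat_lit 29) (nat_lit 5) (nat_lit 32) (nat_lit 5) (nat_lit 30) (nat_lit 4) (nat_lit 352) (nat_lit 295) (nat_lit 253)) (XT.lf (nat_lit 0) (nat_lit 5640223346) (nat_lit 228) (nat_lit 8055250075) (nat_lit 76) (nat_lit 5566072075) (nat_lit 29) (nat_lit 5) (nat_lit 32) (nat_lit 5) (nat_lit 30) (nat_lit 4) (nat_lit 353) (nat_lit 295)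 (nat_lit 252)))) (XT.nd (nat_lit 156) (nat_lit 228) (nat_lit 0) (XT.nd (nat_lit 78) (nat_lit 0) (nat_lit 0) (XT.lf (nat_lit 0) (nat_lit 2076550811) (nat_lit 76) (nat_lit 8569751090) (nat_lit 152) (nat_lit 9287374187) (nat_lit 28) (nat_lit 5) (nat_lit 29) (nat_lit 5) (nat_lit 30) (nat_lit 4) (nat_lit 354) (nat_lit 295) (nat_lit 251)) (XT.lf (nat_lit 0) (nat_lit 12895243031) (nat_lit 76) (nat_lit 3089171290) (nat_lit 152) (nat_lit 4650926211) (nat_lit 28) (nat_lit 5) (nat_lit 29) (nat_lit 5) (nat_lit 30) (nat_lit 4) (nat_lit 355) (nat_lit 295) (nat_lit 250))) (XT.nd (nat_lit 78) (nat_lit 0) (nat_lit 0) (XT.lf (nat_lit 0) (nat_lit 244051127) (nat_lit 228) (nat_lit 18539046558) (nat_lit 76) (nat_lit 2587150212) (nat_lit 25) (nat_lit 5) (nat_lit 28) (nat_lit 5) (nat_lit 26) (nat_lit 4) (nat_lit 356) (nat_lit 295) (nat_lit 249)) (XT.lf (nat_lit 0) (nat_lit 5358767785) (nat_lit 228) (nat_lit 8161371839)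 (nat_lit 76) (nat_lit 8611396104) (nat_lit 25) (nat_lit 5) (nat_lit 28) (nat_lit 5) (nat_lit 26) (nat_lit 4) (nat_lit 357) (nat_lit 295) (nat_lit 248))))))))
noncomputable def xc88 : XT := (XT.nd (nat_lit 1872) (nat_lit 532) (nat_lit 0) (XT.nd (nat_lit 936) (nat_lit 456) (nat_lit 0) (XT.nd (nat_lit 468) (nat_lit 228) (nat_lit 0) (XT.nd (nat_lit 234) (nat_lit 152) (nat_lit 0) (XT.nd (nat_lit 78) (nat_lit 76) (nat_lit 0) (XT.lf (nat_lit 0) (nat_lit 2730411680) (nat_lit 76) (nat_lit 7991360577) (nat_lit 152) (nat_lit 12209499463) (nat_lit 24) (nat_lit 5) (nat_lit 25) (nat_lit 5) (nat_lit 26) (nat_lit 4) (nat_lit 358) (nat_lit 295) (nat_lit 247)) (XT.nd (nat_lit 78) (nat_lit 76) (nat_lit 0) (XT.lf (nat_lit 0) (nat_lit 14359450151) (nat_lit 76) (nat_lit 2082585076) (nat_lit 152) (nat_lit 7324514699) (nat_lit 24) (nat_lit 5) (nat_lit 25) (nat_lit 5) (nat_lit 26) (nat_lit 4) (nat_lit 359) (nat_lit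 295) (nat_lit 246)) (XT.lf (nat_lit 0) (nat_lit 1832560410) (nat_lit 76) (nat_lit 20661324395) (nat_lit 76) (nat_lit 2147438875) (nat_lit 23) (nat_lit 4) (nat_lit 24) (nat_lit 5) (nat_lit 24) (nat_lit 4) (nat_lit 360) (nat_lit 295) (nat_lit 245)))) (XT.nd (nat_lit 78) (nat_lit 76) (nat_lit 0) (XT.lf (nat_lit 0) (nat_lit 3332048457) (nat_lit 152) (nat_lit 11767410881) (nat_lit 76) (nat_lit 10450378511) (nat_lit 22) (nat_lit 5) (nat_lit 24) (nat_lit 5) (nat_lit 23) (nat_lit 4) (nat_lit 361) (nat_lit 295) (nat_lit 244)) (XT.nd (nat_lit 78) (nat_lit 76) (nat_lit 0) (XT.lf (nat_lit 0) (nat_lit 8968336158) (nat_lit 152) (nat_lit 293235093) (nat_lit 76) (nat_lit 17242705485) (nat_lit 22) (nat_lit 5) (nat_lit 24) (nat_lit 5) (nat_lit 23) (nat_lit 4) (nat_lit 362) (nat_lit 295) (nat_lit 243)) (XT.lf (nat_lit 0) (nat_lit 12060626467) (nat_lit 76) (nat_lit 2971249127) (nat_lit 152) (nat_lit 12467298589)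 (nat_lit 21) (nat_lit 5) (nat_lit 22) (nat_lit 5) (nat_lit 23) (nat_lit 4) (nat_lit 363) (nat_lit 295) (nat_lit 242))))) (XT.nd (nat_lit 234) (nat_lit 76) (nat_lit 0) (XT.nd (nat_lit 78) (nat_lit 152) (nat_lit 0) (XT.lf (nat_lit 0) (nat_lit 21417745860) (nat_lit 152) (nat_lit 3638303706) (nat_lit 0) (nat_lit 3486817323) (nat_lit 21) (nat_lit 5) (nat_lit 23) (nat_lit 4) (nat_lit 21) (nat_lit 4) (nat_lit 364) (nat_lit 295) (nat_lit 241)) (XT.nd (nat_lit 78) (nat_lit 76) (nat_lit 0) (XT.lf (nat_lit 0) (nat_lit 8912021807) (nat_lit 76) (nat_lit 19358144050) (nat_lit 76) (nat_lit 1361223257) (nat_lit 20) (nat_lit 4) (nat_lit 21) (nat_lit 5) (nat_lit 21) (nat_lit 4) (nat_lit 365) (nat_lit 295) (nat_lit 240)) (XT.lf (nat_lit 0) (nat_lit 4562862800) (nat_lit 152) (nat_lit 8705901818) (nat_lit 76) (nat_lit 17500811405) (nat_lit 19) (nat_lit 5) (nat_lit 21) (nat_lit 5) (nat_lit 20) (nat_lit 4) (nat_lit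 366) (nat_lit 295) (nat_lit 239)))) (XT.nd (nat_lit 78) (nat_lit 0) (nat_lit 0) (XT.lf (nat_lit 0) (nat_lit 3939068260) (nat_lit 76) (nat_lit 6821271125) (nat_lit 152) (nat_lit 21202077170) (nat_lit 18) (nat_lit 5) (nat_lit 19) (nat_lit 5) (nat_lit 20) (nat_lit 4) (nat_lit 367) (nat_lit 295) (nat_lit 238)) (XT.nd (nat_lit 78) (nat_lit 0) (nat_lit 0) (XT.lf (nat_lit 0) (nat_lit 17378362318) (nat_lit 152) (nat_lit 15763727252) (nat_lit 0) (nat_lit 67282249) (nat_lit 18) (nat_lit 5) (nat_lit 20) (nat_lit 4) (nat_lit 18) (nat_lit 4) (nat_lit 368) (nat_lit 295) (nat_lit 237)) (XT.lf (nat_lit 0) (nat_lit 24402557537) (nat_lit 152) (nat_lit 3072588970) (nat_lit 0) (nat_lit 7039770809) (nat_lit 18) (nat_lit 5) (nat_lit 20) (nat_lit 4) (nat_lit 18) (nat_lit 4) (nat_lit 369) (nat_lit 295) (nat_lit 236)))))) (XT.nd (nat_lit 468) (nat_lit 152) (nat_lit 0) (XT.nd (nat_lit 234) (nat_lit 76) (nat_lit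 0) (XT.nd (nat_lit 78) (nat_lit 152) (nat_lit 0) (XT.lf (nat_lit 0) (nat_lit 10523603744) (nat_lit 76) (nat_lit 21383849362) (nat_lit 76) (nat_lit 3971818196) (nat_lit 17) (nat_lit 4) (nat_lit 18) (nat_lit 5) (nat_lit 18) (nat_lit 4) (nat_lit 370) (nat_lit 295) (nat_lit 235)) (XT.nd (nat_lit 78) (nat_lit 76) (nat_lit 0) (XT.lf (nat_lit 0) (nat_lit 2414660880) (nat_lit 152) (nat_lit 12508875823) (nat_lit 76) (nat_lit 22385471326) (nat_lit 16) (nat_lit 5) (nat_lit 18) (nat_lit 5) (nat_lit 17) (nat_lit 4) (nat_lit 371) (nat_lit 295) (nat_lit 234)) (XT.lf (nat_lit 0) (nat_lit 880065978) (nat_lit 76) (nat_lit 8087574394) (nat_lit 152) (nat_lit 29840307813) (nat_lit 15) (nat_lit 5) (nat_lit 16) (nat_lit 5) (nat_lit 17) (nat_lit 4) (nat_lit 372) (nat_lit 295) (nat_lit 233)))) (XT.nd (nat_lit 78) (nat_lit 76) (nat_lit 0) (XT.lf (nat_lit 0) (nat_lit 15310509525) (nat_lit 76) (nat_lit 717122429)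 (nat_lit 152) (nat_lit 24345239962) (nat_lit 15) (nat_lit 5) (nat_lit 16) (nat_lit 5) (nat_lit 17) (nat_lit 4) (nat_lit 373) (nat_lit 295) (nat_lit 232)) (XT.nd (nat_lit 78) (nat_lit 76) (nat_lit 0) (XT.lf (nat_lit 0) (nat_lit 23518877578) (nat_lit 152) (nat_lit 11723568455) (nat_lit 0) (nat_lit 6769687576) (nat_lit 15) (nat_lit 5) (nat_lit 17) (nat_lit 4) (nat_lit 15) (nat_lit 4) (nat_lit 374) (nat_lit 295) (nat_lit 231)) (XT.lf (nat_lit 0) (nat_lit 2286081696) (nat_lit 76) (nat_lit 29116169817) (nat_lit 76) (nat_lit 12330232858) (nat_lit 14) (nat_lit 4) (nat_lit 15) (nat_lit 5) (nat_lit 15) (nat_lit 4) (nat_lit 375) (nat_lit 295) (nat_lit 230))))) (XT.nd (nat_lit 234) (nat_lit 0) (nat_lit 0) (XT.nd (nat_lit 78) (nat_lit 152) (nat_lit 0) (XT.lf (nat_lit 0) (nat_lit 17346661274) (nat_lit 76) (nat_lit 22502334723) (nat_lit 76) (nat_lit 5681400662) (nat_lit 14) (nat_lit 4) (nat_lit 15) (nat_lit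 5) (nat_lit 15) (nat_lit 4) (nat_lit 376) (nat_lit 295) (nat_lit 229)) (XT.nd (nat_lit 78) (nat_lit 76) (nat_lit 0) (XT.lf (nat_lit 0) (nat_lit 1229862011) (nat_lit 152) (nat_lit 14333047511) (nat_lit 76) (nat_lit 31855704361) (nat_lit 13) (nat_lit 5) (nat_lit 15) (nat_lit 5) (nat_lit 14) (nat_lit 4) (nat_lit 377) (nat_lit 295) (nat_lit 228)) (XT.lf (nat_lit 0) (nat_lit 66972859) (nat_lit 76) (nat_lit 8202773919) (nat_lit 152) (nat_lit 41128142264) (nat_lit 12) (nat_lit 5) (nat_lit 13) (nat_lit 5) (nat_lit 14) (nat_lit 4) (nat_lit 378) (nat_lit 295) (nat_lit 227)))) (XT.nd (nat_lit 78) (nat_lit 0) (nat_lit 0) (XT.lf (nat_lit 0) (nat_lit 15633239624) (nat_lit 76) (nat_lit 244555241) (nat_lit 152) (nat_lit 35587527999) (nat_lit 12) (nat_lit 5) (nat_lit 13) (nat_lit 5) (nat_lit 14) (nat_lit 4) (nat_lit 379) (nat_lit 295) (nat_lit 226)) (XT.nd (nat_lit 78) (nat_lit 0) (nat_lit 0) (XT.lf (nat_lit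 0) (nat_lit 23967218168) (nat_lit 152) (nat_lit 21834772361) (nat_lit 0) (nat_lit 7829092404) (nat_lit 12) (nat_lit 5) (nat_lit 14) (nat_lit 4) (nat_lit 12) (nat_lit 4) (nat_lit 380) (nat_lit 295) (nat_lit 225)) (XT.lf (nat_lit 0) (nat_lit 32440672600) (nat_lit 152) (nat_lit 7189051994) (nat_lit 0) (nat_lit 16276431459) (nat_lit 12) (nat_lit 5) (nat_lit 14) (nat_lit 4) (nat_lit 12) (nat_lit 4) (nat_lit 381) (nat_lit 295) (nat_lit 224))))))) (XT.nd (nat_lit 936) (nat_lit 228) (nat_lit 0) (XT.nd (nat_lit 468) (nat_lit 76) (nat_lit 0) (XT.nd (nat_lit 234) (nat_lit 152) (nat_lit 0) (XT.nd (nat_lit 78) (nat_lit 0) (nat_lit 0) (XT.lf (nat_lit 0) (nat_lit 8413036524) (nat_lit 76) (nat_lit 33032829411) (nat_lit 76) (nat_lit 16843716483) (nat_lit 11) (nat_lit 4) (nat_lit 12) (nat_lit 5) (nat_lit 12) (nat_lit 4) (nat_lit 382) (nat_lit 295) (nat_lit 223)) (XT.nd (nat_lit 78) (nat_lit 0) (nat_lit 0)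 (XT.lf (nat_lit 0) (nat_lit 25000358376) (nat_lit 76) (nat_lit 25999840420) (nat_lit 76) (nat_lit 9787040075) (nat_lit 11) (nat_lit 4) (nat_lit 12) (nat_lit 5) (nat_lit 12) (nat_lit 4) (nat_lit 383) (nat_lit 295) (nat_lit 222)) (XT.lf (nat_lit 0) (nat_lit 42374704661) (nat_lit 76) (nat_lit 18635762482) (nat_lit 76) (nat_lit 2400402693) (nat_lit 11) (nat_lit 4) (nat_lit 12) (nat_lit 5) (nat_lit 12) (nat_lit 4) (nat_lit 384) (nat_lit 295) (nat_lit 221)))) (XT.nd (nat_lit 78) (nat_lit 76) (nat_lit 0) (XT.lf (nat_lit 0) (nat_lit 5163068531) (nat_lit 152) (nat_lit 5672554482) (nat_lit 76) (nat_lit 55326935273) (nat_lit 10) (nat_lit 5) (nat_lit 12) (nat_lit 5) (nat_lit 11) (nat_lit 4) (nat_lit 385) (nat_lit 295) (nat_lit 220)) (XT.nd (nat_lit 78) (nat_lit 0) (nat_lit 0) (XT.lf (nat_lit 0) (nat_lit 10724051068) (nat_lit 76) (nat_lit 2447343137) (nat_lit 152) (nat_lit 55871104175) (nat_lit 9) (nat_lit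 5) (nat_lit 10) (nat_lit 5) (nat_lit 11) (nat_lit 4) (nat_lit 386) (nat_lit 295) (nat_lit 219)) (XT.lf (nat_lit 0) (nat_lit 21757062994) (nat_lit 152) (nat_lit 44064222219) (nat_lit 0) (nat_lit 6236306089) (nat_lit 9) (nat_lit 5) (nat_lit 11) (nat_lit 4) (nat_lit 9) (nat_lit 4) (nat_lit 387) (nat_lit 295) (nat_lit 218))))) (XT.nd (nat_lit 234) (nat_lit 0) (nat_lit 0) (XT.nd (nat_lit 78) (nat_lit 76) (nat_lit 0) (XT.lf (nat_lit 0) (nat_lit 30793070457) (nat_lit 152) (nat_lit 29174680074) (nat_lit 0) (nat_lit 15254637638) (nat_lit 9) (nat_lit 5) (nat_lit 11) (nat_lit 4) (nat_lit 9) (nat_lit 4) (nat_lit 388) (nat_lit 295) (nat_lit 217)) (XT.nd (nat_lit 78) (nat_lit 76) (nat_lit 0) (XT.lf (nat_lit 0) (nat_lit 40262721014) (nat_lit 152) (nat_lit 13576159702) (nat_lit 0) (nat_lit 24707453990) (nat_lit 9) (nat_lit 5) (nat_lit 11) (nat_lit 4) (nat_lit 9) (nat_lit 4) (nat_lit 389) (nat_lit 295)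 (nat_lit 216)) (XT.lf (nat_lit 0) (nat_lit 2860016624) (nat_lit 76) (nat_lit 47373197702) (nat_lit 76) (nat_lit 31801898102) (nat_lit 8) (nat_lit 4) (nat_lit 9) (nat_lit 5) (nat_lit 9) (nat_lit 4) (nat_lit 390) (nat_lit 295) (nat_lit 215)))) (XT.nd (nat_lit 78) (nat_lit 0) (nat_lit 0) (XT.lf (nat_lit 0) (nat_lit 20556072216) (nat_lit 76) (nat_lit 40359090402) (nat_lit 76) (nat_lit 24772521682) (nat_lit 8) (nat_lit 4) (nat_lit 9) (nat_lit 5) (nat_lit 9) (nat_lit 4) (nat_lit 391) (nat_lit 295) (nat_lit 214)) (XT.nd (nat_lit 78) (nat_lit 0) (nat_lit 0) (XT.lf (nat_lit 0) (nat_lit 39105251388) (nat_lit 76) (nat_lit 33009777394) (nat_lit 76) (nat_lit 17408666656) (nat_lit 8) (nat_lit 4) (nat_lit 9) (nat_lit 5) (nat_lit 9) (nat_lit 4) (nat_lit 392) (nat_lit 295) (nat_lit 213)) (XT.lf (nat_lit 0) (nat_lit 58551718852) (nat_lit 76) (nat_lit 25307760316) (nat_lit 76) (nat_lit 9692800036) (nat_lit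 8) (nat_lit 4) (nat_lit 9) (nat_lit 5) (nat_lit 9) (nat_lit 4) (nat_lit 393) (nat_lit 295) (nat_lit 212)))))) (XT.nd (nat_lit 468) (nat_lit 76) (nat_lit 0) (XT.nd (nat_lit 234) (nat_lit 0) (nat_lit 0) (XT.nd (nat_lit 78) (nat_lit 152) (nat_lit 0) (XT.lf (nat_lit 0) (nat_lit 78941775722) (nat_lit 76) (nat_lit 17234701029) (nat_lit 76) (nat_lit 1606550710) (nat_lit 8) (nat_lit 4) (nat_lit 9) (nat_lit 5) (nat_lit 9) (nat_lit 4) (nat_lit 394) (nat_lit 295) (nat_lit 211)) (XT.nd (nat_lit 78) (nat_lit 76) (nat_lit 0) (XT.lf (nat_lit 0) (nat_lit 6649472698) (nat_lit 152) (nat_lit 2009293230) (nat_lit 76) (nat_lit 93561885015) (nat_lit 7) (nat_lit 5) (nat_lit 9) (nat_lit 5) (nat_lit 8) (nat_lit 4) (nat_lit 395) (nat_lit 295) (nat_lit 210)) (XT.lf (nat_lit 0) (nat_lit 15512331548) (nat_lit 152) (nat_lit 90749086233) (nat_lit 0) (nat_lit 605021055) (nat_lit 6) (nat_lit 5) (nat_lit 8) (nat_lit 4)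 (nat_lit 6) (nat_lit 4) (nat_lit 396) (nat_lit 295) (nat_lit 209)))) (XT.nd (nat_lit 78) (nat_lit 0) (nat_lit 0) (XT.lf (nat_lit 0) (nat_lit 24981373385) (nat_lit 152) (nat_lit 76691780587) (nat_lit 0) (nat_lit 10063211415) (nat_lit 6) (nat_lit 5) (nat_lit 8) (nat_lit 4) (nat_lit 6) (nat_lit 4) (nat_lit 397) (nat_lit 295) (nat_lit 208)) (XT.nd (nat_lit 78) (nat_lit 0) (nat_lit 0) (XT.lf (nat_lit 0) (nat_lit 34911016713) (nat_lit 152) (nat_lit 61956895288) (nat_lit 0) (nat_lit 19982520001) (nat_lit 6) (nat_lit 5) (nat_lit 8) (nat_lit 4) (nat_lit 6) (nat_lit 4) (nat_lit 398) (nat_lit 295) (nat_lit 207)) (XT.lf (nat_lit 0) (nat_lit 45324903538) (nat_lit 152) (nat_lit 46509347274) (nat_lit 0) (nat_lit 30386564216) (nat_lit 6) (nat_lit 5) (nat_lit 8) (nat_lit 4) (nat_lit 6) (nat_lit 4) (nat_lit 399) (nat_lit 295) (nat_lit 206))))) (XT.nd (nat_lit 234) (nat_lit 0) (nat_lit 0) (XT.nd (nat_lit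 78) (nat_lit 76) (nat_lit 0) (XT.lf (nat_lit 0) (nat_lit 56247828830) (nat_lit 152) (nat_lit 30312356669) (nat_lit 0) (nat_lit 41300115593) (nat_lit 6) (nat_lit 5) (nat_lit 8) (nat_lit 4) (nat_lit 6) (nat_lit 4) (nat_lit 400) (nat_lit 295) (nat_lit 205)) (XT.nd (nat_lit 78) (nat_lit 76) (nat_lit 0) (XT.lf (nat_lit 0) (nat_lit 67705799554) (nat_lit 152) (nat_lit 13327359210) (nat_lit 0) (nat_lit 52749158778) (nat_lit 6) (nat_lit 5) (nat_lit 8) (nat_lit 4) (nat_lit 6) (nat_lit 4) (nat_lit 401) (nat_lit 295) (nat_lit 204)) (XT.lf (nat_lit 0) (nat_lit 4634415821) (nat_lit 76) (nat_lit 75164036988) (nat_lit 76) (nat_lit 60198893796) (nat_lit 5) (nat_lit 4) (nat_lit 6) (nat_lit 5) (nat_lit 6) (nat_lit 4) (nat_lit 402) (nat_lit 295) (nat_lit 203)))) (XT.nd (nat_lit 156) (nat_lit 0) (nat_lit 0) (XT.nd (nat_lit 78) (nat_lit 0) (nat_lit 0) (XT.lf (nat_lit 0) (nat_lit 23936508399) (nat_lit 76) (nat_lit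 68774547277) (nat_lit 76) (nat_lit 53801306544) (nat_lit 5) (nat_lit 4) (nat_lit 6) (nat_lit 5) (nat_lit 6) (nat_lit 4) (nat_lit 403) (nat_lit 295) (nat_lit 202)) (XT.lf (nat_lit 0) (nat_lit 44184213202) (nat_lit 76) (nat_lit 62075181835) (nat_lit 76) (nat_lit 47094229159) (nat_lit 5) (nat_lit 4) (nat_lit 6) (nat_lit 5) (nat_lit 6) (nat_lit 4) (nat_lit 404) (nat_lit 295) (nat_lit 201))) (XT.nd (nat_lit 78) (nat_lit 0) (nat_lit 0) (XT.lf (nat_lit 0) (nat_lit 65425739051) (nat_lit 76) (nat_lit 55049989793) (nat_lit 76) (nat_lit 40061692409) (nat_lit 5) (nat_lit 4) (nat_lit 6) (nat_lit 5) (nat_lit 6) (nat_lit 4) (nat_lit 405) (nat_lit 295) (nat_lit 200)) (XT.lf (nat_lit 0) (nat_lit 87711661008) (nat_lit 76) (nat_lit 47682244503) (nat_lit 76) (nat_lit 32686952159) (nat_lit 5) (nat_lit 4) (nat_lit 6) (nat_lit 5) (nat_lit 6) (nat_lit 4) (nat_lit 406) (nat_lit 295) (nat_lit 199))))))))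
noncomputable def xc89 : XT := (XT.nd (nat_lit 1950) (nat_lit 0) (nat_lit 0) (XT.nd (nat_lit 936) (nat_lit 76) (nat_lit 0) (XT.nd (nat_lit 468) (nat_lit 0) (nat_lit 0) (XT.nd (nat_lit 234) (nat_lit 152) (nat_lit 0) (XT.nd (nat_lit 78) (nat_lit 0) (nat_lit 0) (XT.lf (nat_lit 0) (nat_lit 111095040792) (nat_lit 76) (nat_lit 39954403714) (nat_lit 76) (nat_lit 24952449504) (nat_lit 5) (nat_lit 4) (nat_lit 6) (nat_lit 5) (nat_lit 6) (nat_lit 4) (nat_lit 407) (nat_lit 295) (nat_lit 198)) (XT.nd (nat_lit 78) (nat_lit 0) (nat_lit 0) (XT.lf (nat_lit 0) (nat_lit 135631553116) (nat_lit 76) (nat_lit 31848067806) (nat_lit 76) (nat_lit 16839768962) (nat_lit 5) (nat_lit 4) (nat_lit 6) (nat_lit 5) (nat_lit 6) (nat_lit 4) (nat_lit 408) (nat_lit 295) (nat_lit 197)) (XT.lf (nat_lit 0) (nat_lit 161379618248) (nat_lit 76) (nat_lit 23343935979) (nat_lit 76) (nat_lit 8329594625) (nat_lit 5) (nat_lit 4) (nat_lit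 6) (nat_lit 5) (nat_lit 6) (nat_lit 4) (nat_lit 409) (nat_lit 295) (nat_lit 196)))) (XT.nd (nat_lit 78) (nat_lit 76) (nat_lit 0) (XT.lf (nat_lit 0) (nat_lit 579185341) (nat_lit 152) (nat_lit 13832766173) (nat_lit 76) (nat_lit 187811546980) (nat_lit 4) (nat_lit 5) (nat_lit 6) (nat_lit 5) (nat_lit 5) (nat_lit 4) (nat_lit 410) (nat_lit 295) (nat_lit 195)) (XT.nd (nat_lit 78) (nat_lit 0) (nat_lit 0) (XT.lf (nat_lit 0) (nat_lit 4906432413) (nat_lit 76) (nat_lit 4816498938) (nat_lit 152) (nat_lit 202119134537) (nat_lit 3) (nat_lit 5) (nat_lit 4) (nat_lit 5) (nat_lit 5) (nat_lit 4) (nat_lit 411) (nat_lit 295) (nat_lit 194)) (XT.lf (nat_lit 0) (nat_lit 19636943117) (nat_lit 152) (nat_lit 196967066460) (nat_lit 0) (nat_lit 5321898732) (nat_lit 3) (nat_lit 5) (nat_lit 5) (nat_lit 4) (nat_lit 3) (nat_lit 4) (nat_lit 412) (nat_lit 295) (nat_lit 193))))) (XT.nd (nat_lit 234) (nat_lit 0) (nat_lit 0)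 (XT.nd (nat_lit 78) (nat_lit 0) (nat_lit 0) (XT.lf (nat_lit 0) (nat_lit 30118824002) (nat_lit 152) (nat_lit 186592465822) (nat_lit 0) (nat_lit 15799045152) (nat_lit 3) (nat_lit 5) (nat_lit 5) (nat_lit 4) (nat_lit 3) (nat_lit 4) (nat_lit 413) (nat_lit 295) (nat_lit 192)) (XT.nd (nat_lit 78) (nat_lit 0) (nat_lit 0) (XT.lf (nat_lit 0) (nat_lit 41118331818) (nat_lit 152) (nat_lit 175711931084) (nat_lit 0) (nat_lit 26794043956) (nat_lit 3) (nat_lit 5) (nat_lit 5) (nat_lit 4) (nat_lit 3) (nat_lit 4) (nat_lit 414) (nat_lit 295) (nat_lit 191)) (XT.lf (nat_lit 0) (nat_lit 52661655871) (nat_lit 152) (nat_lit 164299556213) (nat_lit 0) (nat_lit 38333073710) (nat_lit 3) (nat_lit 5) (nat_lit 5) (nat_lit 4) (nat_lit 3) (nat_lit 4) (nat_lit 415) (nat_lit 295) (nat_lit 190)))) (XT.nd (nat_lit 78) (nat_lit 0) (nat_lit 0) (XT.lf (nat_lit 0) (nat_lit 64776280265) (nat_lit 152) (nat_lit 152328168885) (nat_lit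 0) (nat_lit 50443608295) (nat_lit 3) (nat_lit 5) (nat_lit 5) (nat_lit 4) (nat_lit 3) (nat_lit 4) (nat_lit 416) (nat_lit 295) (nat_lit 189)) (XT.nd (nat_lit 78) (nat_lit 0) (nat_lit 0) (XT.lf (nat_lit 0) (nat_lit 77491049343) (nat_lit 152) (nat_lit 139769265799) (nat_lit 0) (nat_lit 63154482318) (nat_lit 3) (nat_lit 5) (nat_lit 5) (nat_lit 4) (nat_lit 3) (nat_lit 4) (nat_lit 417) (nat_lit 295) (nat_lit 188)) (XT.lf (nat_lit 0) (nat_lit 90836236365) (nat_lit 152) (nat_lit 126592944803) (nat_lit 0) (nat_lit 76495959764) (nat_lit 3) (nat_lit 5) (nat_lit 5) (nat_lit 4) (nat_lit 3) (nat_lit 4) (nat_lit 418) (nat_lit 295) (nat_lit 187)))))) (XT.nd (nat_lit 468) (nat_lit 76) (nat_lit 0) (XT.nd (nat_lit 234) (nat_lit 0) (nat_lit 0) (XT.nd (nat_lit 78) (nat_lit 0) (nat_lit 0) (XT.lf (nat_lit 0) (nat_lit 104843615587) (nat_lit 152) (nat_lit 112767833706) (nat_lit 0) (nat_lit 90499806056) (nat_lit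 3) (nat_lit 5) (nat_lit 5) (nat_lit 4) (nat_lit 3) (nat_lit 4) (nat_lit 419) (nat_lit 295) (nat_lit 186)) (XT.nd (nat_lit 78) (nat_lit 0) (nat_lit 0) (XT.lf (nat_lit 0) (nat_lit 119546537912) (nat_lit 152) (nat_lit 98261015576) (nat_lit 0) (nat_lit 105199363685) (nat_lit 3) (nat_lit 5) (nat_lit 5) (nat_lit 4) (nat_lit 3) (nat_lit 4) (nat_lit 420) (nat_lit 295) (nat_lit 185)) (XT.lf (nat_lit 0) (nat_lit 134980010296) (nat_lit 152) (nat_lit 83037950369) (nat_lit 0) (nat_lit 120629631598) (nat_lit 3) (nat_lit 5) (nat_lit 5) (nat_lit 4) (nat_lit 3) (nat_lit 4) (nat_lit 421) (nat_lit 295) (nat_lit 184)))) (XT.nd (nat_lit 78) (nat_lit 0) (nat_lit 0) (XT.lf (nat_lit 0) (nat_lit 151180779103) (nat_lit 152) (nat_lit 67062392693) (nat_lit 0) (nat_lit 136827348527) (nat_lit 3) (nat_lit 5) (nat_lit 5) (nat_lit 4) (nat_lit 3) (nat_lit 4) (nat_lit 422) (nat_lit 295) (nat_lit 183)) (XT.nd (nat_lit 78)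 (nat_lit 0) (nat_lit 0) (XT.lf (nat_lit 0) (nat_lit 168187417592) (nat_lit 152) (nat_lit 50296305506) (nat_lit 0) (nat_lit 153831080466) (nat_lit 3) (nat_lit 5) (nat_lit 5) (nat_lit 4) (nat_lit 3) (nat_lit 4) (nat_lit 423) (nat_lit 295) (nat_lit 182)) (XT.lf (nat_lit 0) (nat_lit 186040417760) (nat_lit 152) (nat_lit 32699769551) (nat_lit 0) (nat_lit 171681312491) (nat_lit 3) (nat_lit 5) (nat_lit 5) (nat_lit 4) (nat_lit 3) (nat_lit 4) (nat_lit 424) (nat_lit 295) (nat_lit 181))))) (XT.nd (nat_lit 234) (nat_lit 0) (nat_lit 0) (XT.nd (nat_lit 78) (nat_lit 76) (nat_lit 0) (XT.lf (nat_lit 0) (nat_lit 204782286749) (nat_lit 152) (nat_lit 14230888316) (nat_lit 0) (nat_lit 190420545153) (nat_lit 3) (nat_lit 5) (nat_lit 5) (nat_lit 4) (nat_lit 3) (nat_lit 4) (nat_lit 425) (nat_lit 295) (nat_lit 180)) (XT.nd (nat_lit 78) (nat_lit 0) (nat_lit 0) (XT.lf (nat_lit 0) (nat_lit 5324736550) (nat_lit 76) (nat_lit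 219216045567) (nat_lit 76) (nat_lit 204851793184) (nat_lit 2) (nat_lit 4) (nat_lit 3) (nat_lit 5) (nat_lit 3) (nat_lit 4) (nat_lit 426) (nat_lit 295) (nat_lit 179)) (XT.lf (nat_lit 0) (nat_lit 26345196637) (nat_lit 76) (nat_lit 219179473498) (nat_lit 76) (nat_lit 204812829889) (nat_lit 2) (nat_lit 4) (nat_lit 3) (nat_lit 5) (nat_lit 3) (nat_lit 4) (nat_lit 427) (nat_lit 295) (nat_lit 178)))) (XT.nd (nat_lit 156) (nat_lit 0) (nat_lit 0) (XT.nd (nat_lit 78) (nat_lit 0) (nat_lit 0) (XT.lf (nat_lit 0) (nat_lit 48410003223) (nat_lit 76) (nat_lit 219144378760) (nat_lit 76) (nat_lit 204775457792) (nat_lit 2) (nat_lit 4) (nat_lit 3) (nat_lit 5) (nat_lit 3) (nat_lit 4) (nat_lit 428) (nat_lit 295) (nat_lit 177)) (XT.lf (nat_lit 0) (nat_lit 71571691562) (nat_lit 76) (nat_lit 219110677795) (nat_lit 76) (nat_lit 204739587915) (nat_lit 2) (nat_lit 4) (nat_lit 3) (nat_lit 5) (nat_lit 3) (nat_lit 4) (nat_lit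 429) (nat_lit 295) (nat_lit 176))) (XT.nd (nat_lit 78) (nat_lit 0) (nat_lit 0) (XT.lf (nat_lit 0) (nat_lit 95885408531) (nat_lit 76) (nat_lit 219078290362) (nat_lit 76) (nat_lit 204705134851) (nat_lit 2) (nat_lit 4) (nat_lit 3) (nat_lit 5) (nat_lit 3) (nat_lit 4) (nat_lit 430) (nat_lit 295) (nat_lit 175)) (XT.lf (nat_lit 0) (nat_lit 121409043933) (nat_lit 76) (nat_lit 219047139348) (nat_lit 76) (nat_lit 204672016570) (nat_lit 2) (nat_lit 4) (nat_lit 3) (nat_lit 5) (nat_lit 3) (nat_lit 4) (nat_lit 431) (nat_lit 295) (nat_lit 174))))))) (XT.nd (nat_lit 37518) (nat_lit 0) (nat_lit 5928) (XT.nd (nat_lit 468) (nat_lit 0) (nat_lit 0) (XT.nd (nat_lit 234) (nat_lit 0) (nat_lit 0) (XT.nd (nat_lit 78) (nat_lit 0) (nat_lit 0) (XT.lf (nat_lit 0) (nat_lit 148203368326) (nat_lit 76) (nat_lit 219017150585) (nat_lit 76) (nat_lit 204640154218) (nat_lit 2) (nat_lit 4) (nat_lit 3) (nat_lit 5) (nat_lit 3)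 (nat_lit 4) (nat_lit 432) (nat_lit 295) (nat_lit 173)) (XT.nd (nat_lit 78) (nat_lit 0) (nat_lit 0) (XT.lf (nat_lit 0) (nat_lit 176332177723) (nat_lit 76) (nat_lit 218988252670) (nat_lit 76) (nat_lit 204609471933) (nat_lit 2) (nat_lit 4) (nat_lit 3) (nat_lit 5) (nat_lit 3) (nat_lit 4) (nat_lit 433) (nat_lit 295) (nat_lit 172)) (XT.lf (nat_lit 0) (nat_lit 205862445479) (nat_lit 76) (nat_lit 218960376799) (nat_lit 76) (nat_lit 204579896663) (nat_lit 2) (nat_lit 4) (nat_lit 3) (nat_lit 5) (nat_lit 3) (nat_lit 4) (nat_lit 434) (nat_lit 295) (nat_lit 171)))) (XT.nd (nat_lit 78) (nat_lit 0) (nat_lit 0) (XT.lf (nat_lit 0) (nat_lit 236864481755) (nat_lit 76) (nat_lit 218933456601) (nat_lit 76) (nat_lit 204551357989) (nat_lit 2) (nat_lit 4) (nat_lit 3) (nat_lit 5) (nat_lit 3) (nat_lit 4) (nat_lit 435) (nat_lit 295) (nat_lit 170)) (XT.nd (nat_lit 78) (nat_lit 0) (nat_lit 0) (XT.lf (nat_lit 0) (nat_lit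 269412100923) (nat_lit 76) (nat_lit 218907427979) (nat_lit 76) (nat_lit 204523787962) (nat_lit 2) (nat_lit 4) (nat_lit 3) (nat_lit 5) (nat_lit 3) (nat_lit 4) (nat_lit 436) (nat_lit 295) (nat_lit 169)) (XT.lf (nat_lit 0) (nat_lit 303582797315) (nat_lit 76) (nat_lit 218882228963) (nat_lit 76) (nat_lit 204497120940) (nat_lit 2) (nat_lit 4) (nat_lit 3) (nat_lit 5) (nat_lit 3) (nat_lit 4) (nat_lit 437) (nat_lit 295) (nat_lit 168))))) (XT.nd (nat_lit 36816) (nat_lit 0) (nat_lit 10564) (XT.nd (nat_lit 78) (nat_lit 0) (nat_lit 0) (XT.lf (nat_lit 0) (nat_lit 339457929731) (nat_lit 76) (nat_lit 218857799552) (nat_lit 76) (nat_lit 204471293429) (nat_lit 2) (nat_lit 4) (nat_lit 3) (nat_lit 5) (nat_lit 3) (nat_lit 4) (nat_lit 438) (nat_lit 295) (nat_lit 167)) (XT.nd (nat_lit 36660) (nat_lit 0) (nat_lit 11476) (XT.lf (nat_lit 0) (nat_lit 377122915153) (nat_lit 76) (nat_lit 218834081583) (nat_lit 76)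 (nat_lit 204446243935) (nat_lit 2) (nat_lit 4) (nat_lit 3) (nat_lit 5) (nat_lit 3) (nat_lit 4) (nat_lit 439) (nat_lit 295) (nat_lit 166)) (XT.lf (nat_lit 0) (nat_lit 690535595) (nat_lit 380) (nat_lit 1934119535) (nat_lit 0) (nat_lit 690535595) (nat_lit 153) (nat_lit 5) (nat_lit 158) (nat_lit 4) (nat_lit 153) (nat_lit 4) (nat_lit 308) (nat_lit 296) (nat_lit 296)))) (XT.nd (nat_lit 78) (nat_lit 532) (nat_lit 0) (XT.lf (nat_lit 0) (nat_lit 231300660) (nat_lit 380) (nat_lit 4332309019) (nat_lit 380) (nat_lit 2118589954) (nat_lit 148) (nat_lit 4) (nat_lit 153) (nat_lit 5) (nat_lit 153) (nat_lit 4) (nat_lit 309) (nat_lit 296) (nat_lit 295)) (XT.nd (nat_lit 78) (nat_lit 456) (nat_lit 0) (XT.lf (nat_lit 0) (nat_lit 1021465049) (nat_lit 456) (nat_lit 2228019585) (nat_lit 76) (nat_lit 3491935736) (nat_lit 147) (nat_lit 5) (nat_lit 153) (nat_lit 5) (nat_lit 148) (nat_lit 4) (nat_lit 310) (nat_lit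 296) (nat_lit 294)) (XT.lf (nat_lit 0) (nat_lit 2099931140) (nat_lit 456) (nat_lit 2012196920) (nat_lit 532) (nat_lit 2696720313) (nat_lit 141) (nat_lit 5) (nat_lit 147) (nat_lit 5) (nat_lit 148) (nat_lit 4) (nat_lit 311) (nat_lit 296) (nat_lit 293)))))) (XT.nd (nat_lit 468) (nat_lit 1824) (nat_lit 0) (XT.nd (nat_lit 234) (nat_lit 1596) (nat_lit 0) (XT.nd (nat_lit 78) (nat_lit 1140) (nat_lit 0) (XT.lf (nat_lit 0) (nat_lit 335764659) (nat_lit 532) (nat_lit 306181250) (nat_lit 76) (nat_lit 6243862372) (nat_lit 140) (nat_lit 5) (nat_lit 147) (nat_lit 5) (nat_lit 141) (nat_lit 5) (nat_lit 312) (nat_lit 296) (nat_lit 292)) (XT.nd (nat_lit 78) (nat_lit 608) (nat_lit 0) (XT.lf (nat_lit 0) (nat_lit 3353459356) (nat_lit 608) (nat_lit 2709653365) (nat_lit 76) (nat_lit 905274999) (nat_lit 133) (nat_lit 5) (nat_lit 141) (nat_lit 5) (nat_lit 134) (nat_lit 4) (nat_lit 313) (nat_lit 296) (nat_lit 291))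 (XT.lf (nat_lit 0) (nat_lit 1917353306) (nat_lit 608) (nat_lit 4498992840) (nat_lit 684) (nat_lit 644218052) (nat_lit 125) (nat_lit 5) (nat_lit 133) (nat_lit 5) (nat_lit 134) (nat_lit 4) (nat_lit 314) (nat_lit 296) (nat_lit 290)))) (XT.nd (nat_lit 78) (nat_lit 1520) (nat_lit 0) (XT.lf (nat_lit 0) (nat_lit 2293505531) (nat_lit 684) (nat_lit 468575694) (nat_lit 76) (nat_lit 4398617848) (nat_lit 124) (nat_lit 5) (nat_lit 133) (nat_lit 5) (nat_lit 125) (nat_lit 5) (nat_lit 315) (nat_lit 296) (nat_lit 289)) (XT.nd (nat_lit 78) (nat_lit 836) (nat_lit 0) (XT.lf (nat_lit 0) (nat_lit 4434092179) (nat_lit 684) (nat_lit 849747035) (nat_lit 760) (nat_lit 1985263197) (nat_lit 115) (nat_lit 5) (nat_lit 124) (nat_lit 5) (nat_lit 125) (nat_lit 5) (nat_lit 316) (nat_lit 296) (nat_lit 288)) (XT.lf (nat_lit 0) (nat_lit 928163990) (nat_lit 836) (nat_lit 5278450461) (nat_lit 76) (nat_lit 1179607168) (nat_lit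 104) (nat_lit 5) (nat_lit 115) (nat_lit 5) (nat_lit 105) (nat_lit 5) (nat_lit 317) (nat_lit 296) (nat_lit 287))))) (XT.nd (nat_lit 234) (nat_lit 1064) (nat_lit 0) (XT.nd (nat_lit 78) (nat_lit 760) (nat_lit 0) (XT.lf (nat_lit 0) (nat_lit 3848141814) (nat_lit 836) (nat_lit 302152599) (nat_lit 76) (nat_lit 3361032135) (nat_lit 104) (nat_lit 5) (nat_lit 115) (nat_lit 5) (nat_lit 105) (nat_lit 5) (nat_lit 318) (nat_lit 296) (nat_lit 286)) (XT.nd (nat_lit 78) (nat_lit 380) (nat_lit 0) (XT.lf (nat_lit 0) (nat_lit 4943850891) (nat_lit 380) (nat_lit 1918757388) (nat_lit 456) (nat_lit 782784324) (nat_lit 99) (nat_lit 5) (nat_lit 104) (nat_lit 5) (nat_lit 105) (nat_lit 5) (nat_lit 319) (nat_lit 296) (nat_lit 285)) (XT.lf (nat_lit 0) (nat_lit 2096355402) (nat_lit 380) (nat_lit 5211393246) (nat_lit 76) (nat_lit 480458363) (nat_lit 94) (nat_lit 5) (nat_lit 99) (nat_lit 5) (nat_lit 95) (nat_lit 5) (nat_lit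 320) (nat_lit 296) (nat_lit 284)))) (XT.nd (nat_lit 156) (nat_lit 608) (nat_lit 0) (XT.nd (nat_lit 78) (nat_lit 76) (nat_lit 0) (XT.lf (nat_lit 0) (nat_lit 91671578) (nat_lit 380) (nat_lit 4957694870) (nat_lit 456) (nat_lit 2890455629) (nat_lit 89) (nat_lit 5) (nat_lit 94) (nat_lit 5) (nat_lit 95) (nat_lit 5) (nat_lit 321) (nat_lit 296) (nat_lit 283)) (XT.lf (nat_lit 0) (nat_lit 17516698) (nat_lit 456) (nat_lit 2401071109) (nat_lit 76) (nat_lit 5682085454) (nat_lit 88) (nat_lit 5) (nat_lit 94) (nat_lit 5) (nat_lit 89) (nat_lit 5) (nat_lit 322) (nat_lit 296) (nat_lit 282))) (XT.nd (nat_lit 78) (nat_lit 304) (nat_lit 0) (XT.lf (nat_lit 0) (nat_lit 2913622684) (nat_lit 380) (nat_lit 5039247144) (nat_lit 76) (nat_lit 317431565) (nat_lit 84) (nat_lit 5) (nat_lit 89) (nat_lit 5) (nat_lit 85) (nat_lit 5) (nat_lit 323) (nat_lit 296) (nat_lit 281)) (XT.lf (nat_lit 0) (nat_lit 620047356) (nat_lit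 304) (nat_lit 5312393945) (nat_lit 380) (nat_lit 2517166913) (nat_lit 80) (nat_lit 5) (nat_lit 84) (nat_lit 5) (nat_lit 85) (nat_lit 5) (nat_lit 324) (nat_lit 296) (nat_lit 280))))))))
noncomputable def xc90 : XT := (XT.nd (nat_lit 1872) (nat_lit 1596) (nat_lit 0) (XT.nd (nat_lit 936) (nat_lit 1216) (nat_lit 0) (XT.nd (nat_lit 468) (nat_lit 988) (nat_lit 0) (XT.nd (nat_lit 234) (nat_lit 532) (nat_lit 0) (XT.nd (nat_lit 78) (nat_lit 532) (nat_lit 0) (XT.lf (nat_lit 0) (nat_lit 424766271) (nat_lit 380) (nat_lit 2047744438) (nat_lit 76) (nat_lit 6166325887) (nat_lit 79) (nat_lit 5) (nat_lit 84) (nat_lit 5) (nat_lit 80) (nat_lit 5) (nat_lit 325) (nat_lit 296) (nat_lit 279)) (XT.nd (nat_lit 78) (nat_lit 304) (nat_lit 0) (XT.lf (nat_lit 0) (nat_lit 3394287047) (nat_lit 304) (nat_lit 4873809588) (nat_lit 76) (nat_lit 569192331) (nat_lit 76) (nat_lit 5) (nat_lit 80) (nat_lit 5) (nat_lit 77) (nat_lit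 5) (nat_lit 326) (nat_lit 296) (nat_lit 278)) (XT.lf (nat_lit 0) (nat_lit 1159943847) (nat_lit 304) (nat_lit 5342591121) (nat_lit 380) (nat_lit 2543692654) (nat_lit 72) (nat_lit 5) (nat_lit 76) (nat_lit 5) (nat_lit 77) (nat_lit 5) (nat_lit 327) (nat_lit 296) (nat_lit 277)))) (XT.nd (nat_lit 78) (nat_lit 456) (nat_lit 0) (XT.lf (nat_lit 0) (nat_lit 465898239) (nat_lit 380) (nat_lit 1745795868) (nat_lit 76) (nat_lit 7054530568) (nat_lit 71) (nat_lit 5) (nat_lit 76) (nat_lit 5) (nat_lit 72) (nat_lit 5) (nat_lit 328) (nat_lit 296) (nat_lit 276)) (XT.nd (nat_lit 78) (nat_lit 228) (nat_lit 0) (XT.lf (nat_lit 0) (nat_lit 3533950301) (nat_lit 304) (nat_lit 4837940635) (nat_lit 76) (nat_lit 1123638175) (nat_lit 68) (nat_lit 5) (nat_lit 72) (nat_lit 5) (nat_lit 69) (nat_lit 5) (nat_lit 329) (nat_lit 296) (nat_lit 275)) (XT.lf (nat_lit 0) (nat_lit 1585754521) (nat_lit 228) (nat_lit 5165091259) (nat_lit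 304) (nat_lit 2985743657) (nat_lit 65) (nat_lit 5) (nat_lit 68) (nat_lit 5) (nat_lit 69) (nat_lit 5) (nat_lit 330) (nat_lit 296) (nat_lit 274))))) (XT.nd (nat_lit 234) (nat_lit 456) (nat_lit 0) (XT.nd (nat_lit 78) (nat_lit 456) (nat_lit 0) (XT.lf (nat_lit 0) (nat_lit 122981135) (nat_lit 304) (nat_lit 1626718766) (nat_lit 76) (nat_lit 8240524187) (nat_lit 64) (nat_lit 5) (nat_lit 68) (nat_lit 5) (nat_lit 65) (nat_lit 5) (nat_lit 331) (nat_lit 296) (nat_lit 273)) (XT.nd (nat_lit 78) (nat_lit 228) (nat_lit 0) (XT.lf (nat_lit 0) (nat_lit 3308141838) (nat_lit 304) (nat_lit 5073029081) (nat_lit 76) (nat_lit 1871909379) (nat_lit 61) (nat_lit 5) (nat_lit 65) (nat_lit 5) (nat_lit 62) (nat_lit 5) (nat_lit 332) (nat_lit 296) (nat_lit 272)) (XT.lf (nat_lit 0) (nat_lit 1751406759) (nat_lit 228) (nat_lit 4896644682) (nat_lit 304) (nat_lit 3881304926) (nat_lit 58) (nat_lit 5) (nat_lit 61) (nat_lit 5)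 (nat_lit 62) (nat_lit 5) (nat_lit 333) (nat_lit 296) (nat_lit 271)))) (XT.nd (nat_lit 78) (nat_lit 456) (nat_lit 0) (XT.lf (nat_lit 0) (nat_lit 8963860822) (nat_lit 228) (nat_lit 1190668826) (nat_lit 304) (nat_lit 664987067) (nat_lit 58) (nat_lit 5) (nat_lit 61) (nat_lit 5) (nat_lit 62) (nat_lit 5) (nat_lit 334) (nat_lit 296) (nat_lit 270)) (XT.nd (nat_lit 78) (nat_lit 228) (nat_lit 0) (XT.lf (nat_lit 0) (nat_lit 2669889287) (nat_lit 228) (nat_lit 5747813703) (nat_lit 76) (nat_lit 2702182034) (nat_lit 55) (nat_lit 5) (nat_lit 58) (nat_lit 5) (nat_lit 56) (nat_lit 5) (nat_lit 335) (nat_lit 296) (nat_lit 269)) (XT.lf (nat_lit 0) (nat_lit 1480966511) (nat_lit 228) (nat_lit 4660540279) (nat_lit 304) (nat_lit 5293645068) (nat_lit 52) (nat_lit 5) (nat_lit 55) (nat_lit 5) (nat_lit 56) (nat_lit 5) (nat_lit 336) (nat_lit 296) (nat_lit 268)))))) (XT.nd (nat_lit 468) (nat_lit 608) (nat_lit 0) (XT.nd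 (nat_lit 234) (nat_lit 228) (nat_lit 0) (XT.nd (nat_lit 78) (nat_lit 380) (nat_lit 0) (XT.lf (nat_lit 0) (nat_lit 9145385252) (nat_lit 228) (nat_lit 658383347) (nat_lit 304) (nat_lit 1961600685) (nat_lit 52) (nat_lit 5) (nat_lit 55) (nat_lit 5) (nat_lit 56) (nat_lit 5) (nat_lit 337) (nat_lit 296) (nat_lit 267)) (XT.nd (nat_lit 78) (nat_lit 152) (nat_lit 0) (XT.lf (nat_lit 0) (nat_lit 1546037640) (nat_lit 228) (nat_lit 7069067938) (nat_lit 76) (nat_lit 3492919448) (nat_lit 49) (nat_lit 5) (nat_lit 52) (nat_lit 5) (nat_lit 50) (nat_lit 5) (nat_lit 338) (nat_lit 296) (nat_lit 266)) (XT.lf (nat_lit 0) (nat_lit 557201718) (nat_lit 152) (nat_lit 4593917567) (nat_lit 228) (nat_lit 7315722116) (nat_lit 47) (nat_lit 5) (nat_lit 49) (nat_lit 5) (nat_lit 50) (nat_lit 5) (nat_lit 339) (nat_lit 296) (nat_lit 265)))) (XT.nd (nat_lit 78) (nat_lit 228) (nat_lit 0) (XT.lf (nat_lit 0) (nat_lit 8689029015)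 (nat_lit 152) (nat_lit 292293409) (nat_lit 228) (nat_lit 3860066056) (nat_lit 47) (nat_lit 5) (nat_lit 49) (nat_lit 5) (nat_lit 50) (nat_lit 5) (nat_lit 340) (nat_lit 296) (nat_lit 264)) (XT.nd (nat_lit 78) (nat_lit 76) (nat_lit 0) (XT.lf (nat_lit 0) (nat_lit 3934441887) (nat_lit 152) (nat_lit 9124001193) (nat_lit 228) (nat_lit 173481137) (nat_lit 45) (nat_lit 5) (nat_lit 47) (nat_lit 5) (nat_lit 48) (nat_lit 4) (nat_lit 341) (nat_lit 296) (nat_lit 263)) (XT.lf (nat_lit 0) (nat_lit 3583810837) (nat_lit 228) (nat_lit 1251199390) (nat_lit 76) (nat_lit 8803882939) (nat_lit 44) (nat_lit 5) (nat_lit 47) (nat_lit 5) (nat_lit 45) (nat_lit 5) (nat_lit 342) (nat_lit 296) (nat_lit 262))))) (XT.nd (nat_lit 234) (nat_lit 228) (nat_lit 0) (XT.nd (nat_lit 78) (nat_lit 228) (nat_lit 0) (XT.lf (nat_lit 0) (nat_lit 7315553521) (nat_lit 152) (nat_lit 253659145) (nat_lit 228) (nat_lit 6494579289) (nat_lit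 42) (nat_lit 5) (nat_lit 44) (nat_lit 5) (nat_lit 45) (nat_lit 5) (nat_lit 343) (nat_lit 296) (nat_lit 261)) (XT.nd (nat_lit 78) (nat_lit 76) (nat_lit 0) (XT.lf (nat_lit 0) (nat_lit 1714615093) (nat_lit 152) (nat_lit 10091388491) (nat_lit 228) (nat_lit 2701352206) (nat_lit 40) (nat_lit 5) (nat_lit 42) (nat_lit 5) (nat_lit 43) (nat_lit 4) (nat_lit 344) (nat_lit 296) (nat_lit 260)) (XT.lf (nat_lit 0) (nat_lit 1293855328) (nat_lit 228) (nat_lit 4272907696) (nat_lit 76) (nat_lit 9402691197) (nat_lit 39) (nat_lit 5) (nat_lit 42) (nat_lit 5) (nat_lit 40) (nat_lit 5) (nat_lit 345) (nat_lit 296) (nat_lit 259)))) (XT.nd (nat_lit 78) (nat_lit 76) (nat_lit 0) (XT.lf (nat_lit 0) (nat_lit 4669142034) (nat_lit 152) (nat_lit 738005699) (nat_lit 228) (nat_lit 10044862741) (nat_lit 37) (nat_lit 5) (nat_lit 39) (nat_lit 5) (nat_lit 40) (nat_lit 5) (nat_lit 346) (nat_lit 296) (nat_lit 258)) (XT.nd (nat_lit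 78) (nat_lit 76) (nat_lit 0) (XT.lf (nat_lit 0) (nat_lit 9804167374) (nat_lit 228) (nat_lit 1926879602) (nat_lit 76) (nat_lit 4223765872) (nat_lit 37) (nat_lit 5) (nat_lit 40) (nat_lit 5) (nat_lit 38) (nat_lit 4) (nat_lit 347) (nat_lit 296) (nat_lit 257)) (XT.lf (nat_lit 0) (nat_lit 7495307546) (nat_lit 76) (nat_lit 6994732561) (nat_lit 152) (nat_lit 1989285543) (nat_lit 36) (nat_lit 5) (nat_lit 37) (nat_lit 5) (nat_lit 38) (nat_lit 4) (nat_lit 348) (nat_lit 296) (nat_lit 256))))))) (XT.nd (nat_lit 936) (nat_lit 684) (nat_lit 0) (XT.nd (nat_lit 468) (nat_lit 380) (nat_lit 0) (XT.nd (nat_lit 234) (nat_lit 228) (nat_lit 0) (XT.nd (nat_lit 78) (nat_lit 76) (nat_lit 0) (XT.lf (nat_lit 0) (nat_lit 294072304) (nat_lit 152) (nat_lit 1987805850) (nat_lit 228) (nat_lit 14747450661) (nat_lit 33) (nat_lit 5) (nat_lit 35) (nat_lit 5) (nat_lit 36) (nat_lit 5) (nat_lit 349) (nat_lit 296) (nat_lit 255))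 (XT.nd (nat_lit 78) (nat_lit 76) (nat_lit 0) (XT.lf (nat_lit 0) (nat_lit 6846139449) (nat_lit 228) (nat_lit 7442681669) (nat_lit 76) (nat_lit 3309078473) (nat_lit 33) (nat_lit 5) (nat_lit 36) (nat_lit 5) (nat_lit 34) (nat_lit 4) (nat_lit 350) (nat_lit 296) (nat_lit 254)) (XT.lf (nat_lit 0) (nat_lit 2253806045) (nat_lit 76) (nat_lit 9396110561) (nat_lit 152) (nat_lit 6544433956) (nat_lit 32) (nat_lit 5) (nat_lit 33) (nat_lit 5) (nat_lit 34) (nat_lit 4) (nat_lit 351) (nat_lit 296) (nat_lit 253)))) (XT.nd (nat_lit 78) (nat_lit 228) (nat_lit 0) (XT.lf (nat_lit 0) (nat_lit 12594863663) (nat_lit 76) (nat_lit 4169740961) (nat_lit 152) (nat_lit 2052499354) (nat_lit 32) (nat_lit 5) (nat_lit 33) (nat_lit 5) (nat_lit 34) (nat_lit 4) (nat_lit 352) (nat_lit 296) (nat_lit 252)) (XT.nd (nat_lit 78) (nat_lit 0) (nat_lit 0) (XT.lf (nat_lit 0) (nat_lit 2608826240) (nat_lit 228) (nat_lit 15518352852) (nat_lit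 76) (nat_lit 1340247836) (nat_lit 29) (nat_lit 5) (nat_lit 32) (nat_lit 5) (nat_lit 30) (nat_lit 4) (nat_lit 353) (nat_lit 296) (nat_lit 251)) (XT.lf (nat_lit 0) (nat_lit 7556562870) (nat_lit 228) (nat_lit 5499930999) (nat_lit 76) (nat_lit 7085987487) (nat_lit 29) (nat_lit 5) (nat_lit 32) (nat_lit 5) (nat_lit 30) (nat_lit 4) (nat_lit 354) (nat_lit 296) (nat_lit 250))))) (XT.nd (nat_lit 234) (nat_lit 76) (nat_lit 0) (XT.nd (nat_lit 78) (nat_lit 228) (nat_lit 0) (XT.lf (nat_lit 0) (nat_lit 5090748939) (nat_lit 76) (nat_lit 7689810296) (nat_lit 152) (nat_lit 8069298787) (nat_lit 28) (nat_lit 5) (nat_lit 29) (nat_lit 5) (nat_lit 30) (nat_lit 4) (nat_lit 355) (nat_lit 296) (nat_lit 249)) (XT.nd (nat_lit 78) (nat_lit 228) (nat_lit 0) (XT.lf (nat_lit 0) (nat_lit 16311786694) (nat_lit 76) (nat_lit 1997507618) (nat_lit 152) (nat_lit 3281144798) (nat_lit 28) (nat_lit 5) (nat_lit 29) (nat_lit 5) (nat_lit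 30) (nat_lit 4) (nat_lit 356) (nat_lit 296) (nat_lit 248)) (XT.lf (nat_lit 0) (nat_lit 1796439007) (nat_lit 228) (nat_lit 16631358202) (nat_lit 76) (nat_lit 3933604170) (nat_lit 25) (nat_lit 5) (nat_lit 28) (nat_lit 5) (nat_lit 26) (nat_lit 4) (nat_lit 357) (nat_lit 296) (nat_lit 247)))) (XT.nd (nat_lit 78) (nat_lit 76) (nat_lit 0) (XT.lf (nat_lit 0) (nat_lit 7093549341) (nat_lit 228) (nat_lit 5869782636) (nat_lit 76) (nat_lit 10201105383) (nat_lit 25) (nat_lit 5) (nat_lit 28) (nat_lit 5) (nat_lit 26) (nat_lit 4) (nat_lit 358) (nat_lit 296) (nat_lit 246)) (XT.nd (nat_lit 78) (nat_lit 0) (nat_lit 0) (XT.lf (nat_lit 0) (nat_lit 5523047191) (nat_lit 76) (nat_lit 7173276568) (nat_lit 152) (nat_lit 11309271264) (nat_lit 24) (nat_lit 5) (nat_lit 25) (nat_lit 5) (nat_lit 26) (nat_lit 4) (nat_lit 359) (nat_lit 296) (nat_lit 245)) (XT.lf (nat_lit 0) (nat_lit 17607055923) (nat_lit 76) (nat_lit 1027045722)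 (nat_lit 152) (nat_lit 6251975507) (nat_lit 24) (nat_lit 5) (nat_lit 25) (nat_lit 5) (nat_lit 26) (nat_lit 4) (nat_lit 360) (nat_lit 296) (nat_lit 244)))))) (XT.nd (nat_lit 468) (nat_lit 380) (nat_lit 0) (XT.nd (nat_lit 234) (nat_lit 76) (nat_lit 0) (XT.nd (nat_lit 78) (nat_lit 152) (nat_lit 0) (XT.lf (nat_lit 0) (nat_lit 4462898096) (nat_lit 76) (nat_lit 20517289067) (nat_lit 76) (nat_lit 824834639) (nat_lit 23) (nat_lit 4) (nat_lit 24) (nat_lit 5) (nat_lit 24) (nat_lit 4) (nat_lit 361) (nat_lit 296) (nat_lit 243)) (XT.nd (nat_lit 78) (nat_lit 76) (nat_lit 0) (XT.lf (nat_lit 0) (nat_lit 4816944223) (nat_lit 152) (nat_lit 9894113053) (nat_lit 76) (nat_lit 12050096886) (nat_lit 22) (nat_lit 5) (nat_lit 24) (nat_lit 5) (nat_lit 23) (nat_lit 4) (nat_lit 362) (nat_lit 296) (nat_lit 242)) (XT.lf (nat_lit 0) (nat_lit 2103886735) (nat_lit 76) (nat_lit 8601231269) (nat_lit 152) (nat_lit 17059705830)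 (nat_lit 21) (nat_lit 5) (nat_lit 22) (nat_lit 5) (nat_lit 23) (nat_lit 4) (nat_lit 363) (nat_lit 296) (nat_lit 241)))) (XT.nd (nat_lit 78) (nat_lit 76) (nat_lit 0) (XT.lf (nat_lit 0) (nat_lit 14970290212) (nat_lit 76) (nat_lit 2044923082) (nat_lit 152) (nat_lit 11797095748) (nat_lit 21) (nat_lit 5) (nat_lit 22) (nat_lit 5) (nat_lit 23) (nat_lit 4) (nat_lit 364) (nat_lit 296) (nat_lit 240)) (XT.nd (nat_lit 78) (nat_lit 76) (nat_lit 0) (XT.lf (nat_lit 0) (nat_lit 23677705479) (nat_lit 152) (nat_lit 1580529129) (nat_lit 0) (nat_lit 4652096624) (nat_lit 21) (nat_lit 5) (nat_lit 23) (nat_lit 4) (nat_lit 21) (nat_lit 4) (nat_lit 365) (nat_lit 296) (nat_lit 239)) (XT.lf (nat_lit 0) (nat_lit 11561188631) (nat_lit 76) (nat_lit 19289339190) (nat_lit 76) (nat_lit 203873413) (nat_lit 20) (nat_lit 4) (nat_lit 21) (nat_lit 5) (nat_lit 21) (nat_lit 4) (nat_lit 366) (nat_lit 296) (nat_lit 238))))) (XT.nd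 (nat_lit 234) (nat_lit 228) (nat_lit 0) (XT.nd (nat_lit 78) (nat_lit 76) (nat_lit 0) (XT.lf (nat_lit 0) (nat_lit 5920710895) (nat_lit 152) (nat_lit 7005015033) (nat_lit 76) (nat_lit 19325648954) (nat_lit 19) (nat_lit 5) (nat_lit 21) (nat_lit 5) (nat_lit 20) (nat_lit 4) (nat_lit 367) (nat_lit 296) (nat_lit 237)) (XT.nd (nat_lit 78) (nat_lit 0) (nat_lit 0) (XT.lf (nat_lit 0) (nat_lit 6237749003) (nat_lit 76) (nat_lit 6169330685) (nat_lit 152) (nat_lit 21097836103) (nat_lit 18) (nat_lit 5) (nat_lit 19) (nat_lit 5) (nat_lit 20) (nat_lit 4) (nat_lit 368) (nat_lit 296) (nat_lit 236)) (XT.lf (nat_lit 0) (nat_lit 19317972728) (nat_lit 152) (nat_lit 14512060904) (nat_lit 0) (nat_lit 986095568) (nat_lit 18) (nat_lit 5) (nat_lit 20) (nat_lit 4) (nat_lit 18) (nat_lit 4) (nat_lit 369) (nat_lit 296) (nat_lit 235)))) (XT.nd (nat_lit 156) (nat_lit 152) (nat_lit 0) (XT.nd (nat_lit 78) (nat_lit 76) (nat_lit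 0) (XT.lf (nat_lit 0) (nat_lit 26642392361) (nat_lit 152) (nat_lit 1283501551) (nat_lit 0) (nat_lit 8263615736) (nat_lit 18) (nat_lit 5) (nat_lit 20) (nat_lit 4) (nat_lit 18) (nat_lit 4) (nat_lit 370) (nat_lit 296) (nat_lit 234)) (XT.lf (nat_lit 0) (nat_lit 12961166655) (nat_lit 76) (nat_lit 21542650620) (nat_lit 76) (nat_lit 3119207839) (nat_lit 17) (nat_lit 4) (nat_lit 18) (nat_lit 5) (nat_lit 18) (nat_lit 4) (nat_lit 371) (nat_lit 296) (nat_lit 233))) (XT.nd (nat_lit 78) (nat_lit 76) (nat_lit 0) (XT.lf (nat_lit 0) (nat_lit 3504495126) (nat_lit 152) (nat_lit 11281766967) (nat_lit 76) (nat_lit 24339595992) (nat_lit 16) (nat_lit 5) (nat_lit 18) (nat_lit 5) (nat_lit 17) (nat_lit 4) (nat_lit 372) (nat_lit 296) (nat_lit 232)) (XT.lf (nat_lit 0) (nat_lit 2746742043) (nat_lit 76) (nat_lit 7620690903) (nat_lit 152) (nat_lit 30333203754) (nat_lit 15) (nat_lit 5) (nat_lit 16) (nat_lit 5) (nat_lit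 17) (nat_lit 4) (nat_lit 373) (nat_lit 296) (nat_lit 231))))))))
noncomputable def xc91 : XT := (XT.nd (nat_lit 1950) (nat_lit 228) (nat_lit 0) (XT.nd (nat_lit 936) (nat_lit 380) (nat_lit 0) (XT.nd (nat_lit 468) (nat_lit 76) (nat_lit 0) (XT.nd (nat_lit 234) (nat_lit 152) (nat_lit 0) (XT.nd (nat_lit 78) (nat_lit 76) (nat_lit 0) (XT.lf (nat_lit 0) (nat_lit 17736317828) (nat_lit 152) (nat_lit 24535363629) (nat_lit 0) (nat_lit 74337063) (nat_lit 15) (nat_lit 5) (nat_lit 17) (nat_lit 4) (nat_lit 15) (nat_lit 4) (nat_lit 374) (nat_lit 296) (nat_lit 230)) (XT.nd (nat_lit 78) (nat_lit 76) (nat_lit 0) (XT.lf (nat_lit 0) (nat_lit 25570117058) (nat_lit 152) (nat_lit 10625593758) (nat_lit 0) (nat_lit 7873139192) (nat_lit 15) (nat_lit 5) (nat_lit 17) (nat_lit 4) (nat_lit 15) (nat_lit 4) (nat_lit 375) (nat_lit 296) (nat_lit 229)) (XT.lf (nat_lit 0) (nat_lit 4057375142) (nat_lit 76) (nat_lit 29774474053)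 (nat_lit 76) (nat_lit 12044165613) (nat_lit 14) (nat_lit 4) (nat_lit 15) (nat_lit 5) (nat_lit 15) (nat_lit 4) (nat_lit 376) (nat_lit 296) (nat_lit 228)))) (XT.nd (nat_lit 78) (nat_lit 152) (nat_lit 0) (XT.lf (nat_lit 0) (nat_lit 19792079443) (nat_lit 76) (nat_lit 22867923598) (nat_lit 76) (nat_lit 5105871755) (nat_lit 14) (nat_lit 4) (nat_lit 15) (nat_lit 5) (nat_lit 15) (nat_lit 4) (nat_lit 377) (nat_lit 296) (nat_lit 227)) (XT.nd (nat_lit 78) (nat_lit 76) (nat_lit 0) (XT.lf (nat_lit 0) (nat_lit 2083818355) (nat_lit 152) (nat_lit 13520456026) (nat_lit 76) (nat_lit 34145543782) (nat_lit 13) (nat_lit 5) (nat_lit 15) (nat_lit 5) (nat_lit 14) (nat_lit 4) (nat_lit 378) (nat_lit 296) (nat_lit 226)) (XT.lf (nat_lit 0) (nat_lit 1574900139) (nat_lit 76) (nat_lit 7886551566) (nat_lit 152) (nat_lit 42367322575) (nat_lit 12) (nat_lit 5) (nat_lit 13) (nat_lit 5) (nat_lit 14) (nat_lit 4) (nat_lit 379)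 (nat_lit 296) (nat_lit 225))))) (XT.nd (nat_lit 234) (nat_lit 76) (nat_lit 0) (XT.nd (nat_lit 78) (nat_lit 0) (nat_lit 0) (XT.lf (nat_lit 0) (nat_lit 17419635620) (nat_lit 152) (nat_lit 36160395139) (nat_lit 0) (nat_lit 421067046) (nat_lit 12) (nat_lit 5) (nat_lit 14) (nat_lit 4) (nat_lit 12) (nat_lit 4) (nat_lit 380) (nat_lit 296) (nat_lit 224)) (XT.nd (nat_lit 78) (nat_lit 0) (nat_lit 0) (XT.lf (nat_lit 0) (nat_lit 25881731566) (nat_lit 152) (nat_lit 21536717492) (nat_lit 0) (nat_lit 8858291205) (nat_lit 12) (nat_lit 5) (nat_lit 14) (nat_lit 4) (nat_lit 12) (nat_lit 4) (nat_lit 381) (nat_lit 296) (nat_lit 223)) (XT.lf (nat_lit 0) (nat_lit 34744756220) (nat_lit 152) (nat_lit 6224891749) (nat_lit 0) (nat_lit 17697628442) (nat_lit 12) (nat_lit 5) (nat_lit 14) (nat_lit 4) (nat_lit 12) (nat_lit 4) (nat_lit 382) (nat_lit 296) (nat_lit 222)))) (XT.nd (nat_lit 78) (nat_lit 0) (nat_lit 0) (XT.lf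 (nat_lit 0) (nat_lit 10135952600) (nat_lit 76) (nat_lit 34052110045) (nat_lit 76) (nat_lit 16982422823) (nat_lit 11) (nat_lit 4) (nat_lit 12) (nat_lit 5) (nat_lit 12) (nat_lit 4) (nat_lit 383) (nat_lit 296) (nat_lit 221)) (XT.nd (nat_lit 78) (nat_lit 0) (nat_lit 0) (XT.lf (nat_lit 0) (nat_lit 27490627962) (nat_lit 76) (nat_lit 26697584025) (nat_lit 76) (nat_lit 9606411618) (nat_lit 11) (nat_lit 4) (nat_lit 12) (nat_lit 5) (nat_lit 12) (nat_lit 4) (nat_lit 384) (nat_lit 296) (nat_lit 220)) (XT.lf (nat_lit 0) (nat_lit 45674631958) (nat_lit 76) (nat_lit 18993980686) (nat_lit 76) (nat_lit 1882346198) (nat_lit 11) (nat_lit 4) (nat_lit 12) (nat_lit 5) (nat_lit 12) (nat_lit 4) (nat_lit 385) (nat_lit 296) (nat_lit 219)))))) (XT.nd (nat_lit 468) (nat_lit 152) (nat_lit 0) (XT.nd (nat_lit 234) (nat_lit 76) (nat_lit 0) (XT.nd (nat_lit 78) (nat_lit 76) (nat_lit 0) (XT.lf (nat_lit 0) (nat_lit 6009464046)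 (nat_lit 152) (nat_lit 4811720887) (nat_lit 76) (nat_lit 58620022606) (nat_lit 10) (nat_lit 5) (nat_lit 12) (nat_lit 5) (nat_lit 11) (nat_lit 4) (nat_lit 386) (nat_lit 296) (nat_lit 218)) (XT.nd (nat_lit 78) (nat_lit 0) (nat_lit 0) (XT.lf (nat_lit 0) (nat_lit 12386255888) (nat_lit 76) (nat_lit 2021518639) (nat_lit 152) (nat_lit 58057894855) (nat_lit 9) (nat_lit 5) (nat_lit 10) (nat_lit 5) (nat_lit 11) (nat_lit 4) (nat_lit 387) (nat_lit 296) (nat_lit 217)) (XT.lf (nat_lit 0) (nat_lit 23403363210) (nat_lit 152) (nat_lit 45175626305) (nat_lit 0) (nat_lit 7053498630) (nat_lit 9) (nat_lit 5) (nat_lit 11) (nat_lit 4) (nat_lit 9) (nat_lit 4) (nat_lit 388) (nat_lit 296) (nat_lit 216)))) (XT.nd (nat_lit 78) (nat_lit 76) (nat_lit 0) (XT.lf (nat_lit 0) (nat_lit 32864578329) (nat_lit 152) (nat_lit 29593597863) (nat_lit 0) (nat_lit 16498681174) (nat_lit 9) (nat_lit 5) (nat_lit 11) (nat_lit 4) (nat_lit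 9) (nat_lit 4) (nat_lit 389) (nat_lit 296) (nat_lit 215)) (XT.nd (nat_lit 78) (nat_lit 76) (nat_lit 0) (XT.lf (nat_lit 0) (nat_lit 42782385016) (nat_lit 152) (nat_lit 13264666530) (nat_lit 0) (nat_lit 26401218741) (nat_lit 9) (nat_lit 5) (nat_lit 11) (nat_lit 4) (nat_lit 9) (nat_lit 4) (nat_lit 390) (nat_lit 296) (nat_lit 214)) (XT.lf (nat_lit 0) (nat_lit 3977346012) (nat_lit 76) (nat_lit 49265148602) (nat_lit 76) (nat_lit 32869440308) (nat_lit 8) (nat_lit 4) (nat_lit 9) (nat_lit 5) (nat_lit 9) (nat_lit 4) (nat_lit 391) (nat_lit 296) (nat_lit 213))))) (XT.nd (nat_lit 234) (nat_lit 152) (nat_lit 0) (XT.nd (nat_lit 78) (nat_lit 0) (nat_lit 0) (XT.lf (nat_lit 0) (nat_lit 22511807786) (nat_lit 76) (nat_lit 41923036364) (nat_lit 76) (nat_lit 25513478529) (nat_lit 8) (nat_lit 4) (nat_lit 9) (nat_lit 5) (nat_lit 9) (nat_lit 4) (nat_lit 392) (nat_lit 296) (nat_lit 212)) (XT.nd (nat_lit 78) (nat_lit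 0) (nat_lit 0) (XT.lf (nat_lit 0) (nat_lit 41944258680) (nat_lit 76) (nat_lit 34227877162) (nat_lit 76) (nat_lit 17805129287) (nat_lit 8) (nat_lit 4) (nat_lit 9) (nat_lit 5) (nat_lit 9) (nat_lit 4) (nat_lit 393) (nat_lit 296) (nat_lit 211)) (XT.lf (nat_lit 0) (nat_lit 62320966436) (nat_lit 76) (nat_lit 26161349186) (nat_lit 76) (nat_lit 9726039369) (nat_lit 8) (nat_lit 4) (nat_lit 9) (nat_lit 5) (nat_lit 9) (nat_lit 4) (nat_lit 394) (nat_lit 296) (nat_lit 210)))) (XT.nd (nat_lit 156) (nat_lit 76) (nat_lit 0) (XT.nd (nat_lit 78) (nat_lit 76) (nat_lit 0) (XT.lf (nat_lit 0) (nat_lit 83690447023) (nat_lit 76) (nat_lit 17704246419) (nat_lit 76) (nat_lit 1256972846) (nat_lit 8) (nat_lit 4) (nat_lit 9) (nat_lit 5) (nat_lit 9) (nat_lit 4) (nat_lit 395) (nat_lit 296) (nat_lit 209)) (XT.lf (nat_lit 0) (nat_lit 7378275611) (nat_lit 152) (nat_lit 1333202622) (nat_lit 76) (nat_lit 98600349879) (nat_lit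 7) (nat_lit 5) (nat_lit 9) (nat_lit 5) (nat_lit 8) (nat_lit 4) (nat_lit 396) (nat_lit 296) (nat_lit 208))) (XT.nd (nat_lit 78) (nat_lit 0) (nat_lit 0) (XT.lf (nat_lit 0) (nat_lit 16683182492) (nat_lit 152) (nat_lit 94508853303) (nat_lit 0) (nat_lit 997926203) (nat_lit 6) (nat_lit 5) (nat_lit 8) (nat_lit 4) (nat_lit 6) (nat_lit 4) (nat_lit 397) (nat_lit 296) (nat_lit 207)) (XT.lf (nat_lit 0) (nat_lit 26606855737) (nat_lit 152) (nat_lit 79785715101) (nat_lit 0) (nat_lit 10911756838) (nat_lit 6) (nat_lit 5) (nat_lit 8) (nat_lit 4) (nat_lit 6) (nat_lit 4) (nat_lit 398) (nat_lit 296) (nat_lit 206))))))) (XT.nd (nat_lit 936) (nat_lit 152) (nat_lit 0) (XT.nd (nat_lit 468) (nat_lit 0) (nat_lit 0) (XT.nd (nat_lit 234) (nat_lit 76) (nat_lit 0) (XT.nd (nat_lit 78) (nat_lit 0) (nat_lit 0) (XT.lf (nat_lit 0) (nat_lit 37015056770) (nat_lit 152) (nat_lit 64349354799) (nat_lit 0) (nat_lit 21310583956)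 (nat_lit 6) (nat_lit 5) (nat_lit 8) (nat_lit 4) (nat_lit 6) (nat_lit 4) (nat_lit 399) (nat_lit 296) (nat_lit 205)) (XT.nd (nat_lit 78) (nat_lit 0) (nat_lit 0) (XT.lf (nat_lit 0) (nat_lit 47932567022) (nat_lit 152) (nat_lit 48163019158) (nat_lit 0) (nat_lit 32219166669) (nat_lit 6) (nat_lit 5) (nat_lit 8) (nat_lit 4) (nat_lit 6) (nat_lit 4) (nat_lit 400) (nat_lit 296) (nat_lit 204)) (XT.lf (nat_lit 0) (nat_lit 59385380564) (nat_lit 152) (nat_lit 31188169284) (nat_lit 0) (nat_lit 43663477794) (nat_lit 6) (nat_lit 5) (nat_lit 8) (nat_lit 4) (nat_lit 6) (nat_lit 4) (nat_lit 401) (nat_lit 296) (nat_lit 203)))) (XT.nd (nat_lit 78) (nat_lit 76) (nat_lit 0) (XT.lf (nat_lit 0) (nat_lit 71400766000) (nat_lit 152) (nat_lit 13384388867) (nat_lit 0) (nat_lit 55670765690) (nat_lit 6) (nat_lit 5) (nat_lit 8) (nat_lit 4) (nat_lit 6) (nat_lit 4) (nat_lit 402) (nat_lit 296) (nat_lit 202)) (XT.nd (nat_lit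 78) (nat_lit 0) (nat_lit 0) (XT.lf (nat_lit 0) (nat_lit 5465646878) (nat_lit 76) (nat_lit 78627018577) (nat_lit 76) (nat_lit 62889306324) (nat_lit 5) (nat_lit 4) (nat_lit 6) (nat_lit 5) (nat_lit 6) (nat_lit 4) (nat_lit 403) (nat_lit 296) (nat_lit 201)) (XT.lf (nat_lit 0) (nat_lit 25704295977) (nat_lit 76) (nat_lit 71932112487) (nat_lit 76) (nat_lit 56187055527) (nat_lit 5) (nat_lit 4) (nat_lit 6) (nat_lit 5) (nat_lit 6) (nat_lit 4) (nat_lit 404) (nat_lit 296) (nat_lit 200))))) (XT.nd (nat_lit 234) (nat_lit 0) (nat_lit 0) (XT.nd (nat_lit 78) (nat_lit 0) (nat_lit 0) (XT.lf (nat_lit 0) (nat_lit 46937197346) (nat_lit 76) (nat_lit 64911167447) (nat_lit 76) (nat_lit 49159115527) (nat_lit 5) (nat_lit 4) (nat_lit 6) (nat_lit 5) (nat_lit 6) (nat_lit 4) (nat_lit 405) (nat_lit 296) (nat_lit 199)) (XT.nd (nat_lit 78) (nat_lit 0) (nat_lit 0) (XT.lf (nat_lit 0) (nat_lit 69214905512) (nat_lit 76) (nat_lit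 57547466921) (nat_lit 76) (nat_lit 41788753135) (nat_lit 5) (nat_lit 4) (nat_lit 6) (nat_lit 5) (nat_lit 6) (nat_lit 4) (nat_lit 406) (nat_lit 296) (nat_lit 198)) (XT.lf (nat_lit 0) (nat_lit 92590462638) (nat_lit 76) (nat_lit 49823478289) (nat_lit 76) (nat_lit 34058419867) (nat_lit 5) (nat_lit 4) (nat_lit 6) (nat_lit 5) (nat_lit 6) (nat_lit 4) (nat_lit 407) (nat_lit 296) (nat_lit 197)))) (XT.nd (nat_lit 78) (nat_lit 0) (nat_lit 0) (XT.lf (nat_lit 0) (nat_lit 117119524812) (nat_lit 76) (nat_lit 41720811101) (nat_lit 76) (nat_lit 25949710170) (nat_lit 5) (nat_lit 4) (nat_lit 6) (nat_lit 5) (nat_lit 6) (nat_lit 4) (nat_lit 408) (nat_lit 296) (nat_lit 196)) (XT.nd (nat_lit 78) (nat_lit 0) (nat_lit 0) (XT.lf (nat_lit 0) (nat_lit 142860494563) (nat_lit 76) (nat_lit 33220173292) (nat_lit 76) (nat_lit 17443317591) (nat_lit 5) (nat_lit 4) (nat_lit 6) (nat_lit 5) (nat_lit 6) (nat_lit 4) (nat_lit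 409) (nat_lit 296) (nat_lit 195)) (XT.lf (nat_lit 0) (nat_lit 169874659914) (nat_lit 76) (nat_lit 24301325250) (nat_lit 76) (nat_lit 8518988815) (nat_lit 5) (nat_lit 4) (nat_lit 6) (nat_lit 5) (nat_lit 6) (nat_lit 4) (nat_lit 410) (nat_lit 296) (nat_lit 194)))))) (XT.nd (nat_lit 468) (nat_lit 0) (nat_lit 0) (XT.nd (nat_lit 234) (nat_lit 0) (nat_lit 0) (XT.nd (nat_lit 78) (nat_lit 76) (nat_lit 0) (XT.lf (nat_lit 0) (nat_lit 817494500) (nat_lit 152) (nat_lit 14111692456) (nat_lit 76) (nat_lit 197395001142) (nat_lit 4) (nat_lit 5) (nat_lit 6) (nat_lit 5) (nat_lit 5) (nat_lit 4) (nat_lit 411) (nat_lit 296) (nat_lit 193)) (XT.nd (nat_lit 78) (nat_lit 0) (nat_lit 0) (XT.lf (nat_lit 0) (nat_lit 5557809414) (nat_lit 76) (nat_lit 4856989016) (nat_lit 152) (nat_lit 212009067749) (nat_lit 3) (nat_lit 5) (nat_lit 4) (nat_lit 5) (nat_lit 5) (nat_lit 4) (nat_lit 412) (nat_lit 296) (nat_lit 192)) (XT.lf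 (nat_lit 0) (nat_lit 20817693416) (nat_lit 152) (nat_lit 206421866835) (nat_lit 0) (nat_lit 5772682147) (nat_lit 3) (nat_lit 5) (nat_lit 5) (nat_lit 4) (nat_lit 3) (nat_lit 4) (nat_lit 413) (nat_lit 296) (nat_lit 191)))) (XT.nd (nat_lit 78) (nat_lit 0) (nat_lit 0) (XT.lf (nat_lit 0) (nat_lit 31814196767) (nat_lit 152) (nat_lit 195547276782) (nat_lit 0) (nat_lit 16764891199) (nat_lit 3) (nat_lit 5) (nat_lit 5) (nat_lit 4) (nat_lit 3) (nat_lit 4) (nat_lit 414) (nat_lit 296) (nat_lit 190)) (XT.nd (nat_lit 78) (nat_lit 0) (nat_lit 0) (XT.lf (nat_lit 0) (nat_lit 43354659423) (nat_lit 152) (nat_lit 184140563514) (nat_lit 0) (nat_lit 28301264047) (nat_lit 3) (nat_lit 5) (nat_lit 5) (nat_lit 4) (nat_lit 3) (nat_lit 4) (nat_lit 415) (nat_lit 296) (nat_lit 189)) (XT.lf (nat_lit 0) (nat_lit 55466558678) (nat_lit 152) (nat_lit 172174568190) (nat_lit 0) (nat_lit 40409268247) (nat_lit 3) (nat_lit 5)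 (nat_lit 5) (nat_lit 4) (nat_lit 3) (nat_lit 4) (nat_lit 416) (nat_lit 296) (nat_lit 188))))) (XT.nd (nat_lit 234) (nat_lit 0) (nat_lit 0) (XT.nd (nat_lit 78) (nat_lit 0) (nat_lit 0) (XT.lf (nat_lit 0) (nat_lit 68178732386) (nat_lit 152) (nat_lit 159620800345) (nat_lit 0) (nat_lit 53117732378) (nat_lit 3) (nat_lit 5) (nat_lit 5) (nat_lit 4) (nat_lit 3) (nat_lit 4) (nat_lit 417) (nat_lit 296) (nat_lit 187)) (XT.nd (nat_lit 78) (nat_lit 0) (nat_lit 0) (XT.lf (nat_lit 0) (nat_lit 81521447627) (nat_lit 152) (nat_lit 146449370056) (nat_lit 0) (nat_lit 66456914689) (nat_lit 3) (nat_lit 5) (nat_lit 5) (nat_lit 4) (nat_lit 3) (nat_lit 4) (nat_lit 418) (nat_lit 296) (nat_lit 186)) (XT.lf (nat_lit 0) (nat_lit 95526472771) (nat_lit 152) (nat_lit 132628916774) (nat_lit 0) (nat_lit 80458575139) (nat_lit 3) (nat_lit 5) (nat_lit 5) (nat_lit 4) (nat_lit 3) (nat_lit 4) (nat_lit 419) (nat_lit 296) (nat_lit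 185)))) (XT.nd (nat_lit 156) (nat_lit 0) (nat_lit 0) (XT.nd (nat_lit 78) (nat_lit 0) (nat_lit 0) (XT.lf (nat_lit 0) (nat_lit 110227153117) (nat_lit 152) (nat_lit 118126534659) (nat_lit 0) (nat_lit 95156051012) (nat_lit 3) (nat_lit 5) (nat_lit 5) (nat_lit 4) (nat_lit 3) (nat_lit 4) (nat_lit 420) (nat_lit 296) (nat_lit 184)) (XT.lf (nat_lit 0) (nat_lit 125658490283) (nat_lit 152) (nat_lit 102907694228) (nat_lit 0) (nat_lit 110584336301) (nat_lit 3) (nat_lit 5) (nat_lit 5) (nat_lit 4) (nat_lit 3) (nat_lit 4) (nat_lit 421) (nat_lit 296) (nat_lit 183))) (XT.nd (nat_lit 78) (nat_lit 0) (nat_lit 0) (XT.lf (nat_lit 0) (nat_lit 141857225550) (nat_lit 152) (nat_lit 86936160149) (nat_lit 0) (nat_lit 126780165018) (nat_lit 3) (nat_lit 5) (nat_lit 5) (nat_lit 4) (nat_lit 3) (nat_lit 4) (nat_lit 422) (nat_lit 296) (nat_lit 182)) (XT.lf (nat_lit 0) (nat_lit 158861927334) (nat_lit 152) (nat_lit 70173904957)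 (nat_lit 0) (nat_lit 143782098658) (nat_lit 3) (nat_lit 5) (nat_lit 5) (nat_lit 4) (nat_lit 3) (nat_lit 4) (nat_lit 423) (nat_lit 296) (nat_lit 181))))))))
noncomputable def xc92 : XT := (XT.nd (nat_lit 38298) (nat_lit 0) (nat_lit 3572) (XT.nd (nat_lit 936) (nat_lit 0) (nat_lit 0) (XT.nd (nat_lit 468) (nat_lit 0) (nat_lit 0) (XT.nd (nat_lit 234) (nat_lit 76) (nat_lit 0) (XT.nd (nat_lit 78) (nat_lit 0) (nat_lit 0) (XT.lf (nat_lit 0) (nat_lit 176713083020) (nat_lit 152) (nat_lit 52581018523) (nat_lit 0) (nat_lit 161630618018) (nat_lit 3) (nat_lit 5) (nat_lit 5) (nat_lit 4) (nat_lit 3) (nat_lit 4) (nat_lit 424) (nat_lit 296) (nat_lit 180)) (XT.nd (nat_lit 78) (nat_lit 0) (nat_lit 0) (XT.lf (nat_lit 0) (nat_lit 195453195360) (nat_lit 152) (nat_lit 34115613021) (nat_lit 0) (nat_lit 180368219571) (nat_lit 3) (nat_lit 5) (nat_lit 5) (nat_lit 4) (nat_lit 3) (nat_lit 4) (nat_lit 425) (nat_lit 296)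 (nat_lit 179)) (XT.lf (nat_lit 0) (nat_lit 215126883670) (nat_lit 152) (nat_lit 14733723201) (nat_lit 0) (nat_lit 200039516654) (nat_lit 3) (nat_lit 5) (nat_lit 5) (nat_lit 4) (nat_lit 3) (nat_lit 4) (nat_lit 426) (nat_lit 296) (nat_lit 178)))) (XT.nd (nat_lit 78) (nat_lit 0) (nat_lit 0) (XT.lf (nat_lit 0) (nat_lit 5796316625) (nat_lit 76) (nat_lit 230075170184) (nat_lit 76) (nat_lit 214985525810) (nat_lit 2) (nat_lit 4) (nat_lit 3) (nat_lit 5) (nat_lit 3) (nat_lit 4) (nat_lit 427) (nat_lit 296) (nat_lit 177)) (XT.nd (nat_lit 78) (nat_lit 0) (nat_lit 0) (XT.lf (nat_lit 0) (nat_lit 27858021467) (nat_lit 76) (nat_lit 230041611305) (nat_lit 76) (nat_lit 214949798018) (nat_lit 2) (nat_lit 4) (nat_lit 3) (nat_lit 5) (nat_lit 3) (nat_lit 4) (nat_lit 428) (nat_lit 296) (nat_lit 176)) (XT.lf (nat_lit 0) (nat_lit 51016755764) (nat_lit 76) (nat_lit 230009373062) (nat_lit 76) (nat_lit 214915494144)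 (nat_lit 2) (nat_lit 4) (nat_lit 3) (nat_lit 5) (nat_lit 3) (nat_lit 4) (nat_lit 429) (nat_lit 296) (nat_lit 175))))) (XT.nd (nat_lit 234) (nat_lit 0) (nat_lit 0) (XT.nd (nat_lit 78) (nat_lit 0) (nat_lit 0) (XT.lf (nat_lit 0) (nat_lit 75327659359) (nat_lit 76) (nat_lit 229978378697) (nat_lit 76) (nat_lit 214882532513) (nat_lit 2) (nat_lit 4) (nat_lit 3) (nat_lit 5) (nat_lit 3) (nat_lit 4) (nat_lit 430) (nat_lit 296) (nat_lit 174)) (XT.nd (nat_lit 78) (nat_lit 0) (nat_lit 0) (XT.lf (nat_lit 0) (nat_lit 100848615356) (nat_lit 76) (nat_lit 229948554416) (nat_lit 76) (nat_lit 214850834643) (nat_lit 2) (nat_lit 4) (nat_lit 3) (nat_lit 5) (nat_lit 3) (nat_lit 4) (nat_lit 431) (nat_lit 296) (nat_lit 173)) (XT.lf (nat_lit 0) (nat_lit 127640387937) (nat_lit 76) (nat_lit 229919829207) (nat_lit 76) (nat_lit 214820325064) (nat_lit 2) (nat_lit 4) (nat_lit 3) (nat_lit 5) (nat_lit 3) (nat_lit 4) (nat_lit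 432) (nat_lit 296) (nat_lit 172)))) (XT.nd (nat_lit 78) (nat_lit 0) (nat_lit 0) (XT.lf (nat_lit 0) (nat_lit 155766767036) (nat_lit 76) (nat_lit 229892134677) (nat_lit 76) (nat_lit 214790931135) (nat_lit 2) (nat_lit 4) (nat_lit 3) (nat_lit 5) (nat_lit 3) (nat_lit 4) (nat_lit 433) (nat_lit 296) (nat_lit 171)) (XT.nd (nat_lit 78) (nat_lit 0) (nat_lit 0) (XT.lf (nat_lit 0) (nat_lit 185294720222) (nat_lit 76) (nat_lit 229865404888) (nat_lit 76) (nat_lit 214762582869) (nat_lit 2) (nat_lit 4) (nat_lit 3) (nat_lit 5) (nat_lit 3) (nat_lit 4) (nat_lit 434) (nat_lit 296) (nat_lit 170)) (XT.lf (nat_lit 0) (nat_lit 216294552146) (nat_lit 76) (nat_lit 229839576195) (nat_lit 76) (nat_lit 214735212771) (nat_lit 2) (nat_lit 4) (nat_lit 3) (nat_lit 5) (nat_lit 3) (nat_lit 4) (nat_lit 435) (nat_lit 296) (nat_lit 169)))))) (XT.nd (nat_lit 36894) (nat_lit 0) (nat_lit 9956) (XT.nd (nat_lit 234) (nat_lit 0) (nat_lit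 0) (XT.nd (nat_lit 78) (nat_lit 0) (nat_lit 0) (XT.lf (nat_lit 0) (nat_lit 248840071931) (nat_lit 76) (nat_lit 229814587104) (nat_lit 76) (nat_lit 214708755674) (nat_lit 2) (nat_lit 4) (nat_lit 3) (nat_lit 5) (nat_lit 3) (nat_lit 4) (nat_lit 436) (nat_lit 296) (nat_lit 168)) (XT.nd (nat_lit 78) (nat_lit 0) (nat_lit 0) (XT.lf (nat_lit 0) (nat_lit 283008768911) (nat_lit 76) (nat_lit 229790378115) (nat_lit 76) (nat_lit 214683148585) (nat_lit 2) (nat_lit 4) (nat_lit 3) (nat_lit 5) (nat_lit 3) (nat_lit 4) (nat_lit 437) (nat_lit 296) (nat_lit 167)) (XT.lf (nat_lit 0) (nat_lit 318881997125) (nat_lit 76) (nat_lit 229766891588) (nat_lit 76) (nat_lit 214658330534) (nat_lit 2) (nat_lit 4) (nat_lit 3) (nat_lit 5) (nat_lit 3) (nat_lit 4) (nat_lit 438) (nat_lit 296) (nat_lit 166)))) (XT.nd (nat_lit 36504) (nat_lit 0) (nat_lit 11780) (XT.lf (nat_lit 0) (nat_lit 356545169021) (nat_lit 76) (nat_lit 229744071603)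 (nat_lit 76) (nat_lit 214634242431) (nat_lit 2) (nat_lit 4) (nat_lit 3) (nat_lit 5) (nat_lit 3) (nat_lit 4) (nat_lit 439) (nat_lit 296) (nat_lit 165)) (XT.nd (nat_lit 78) (nat_lit 76) (nat_lit 0) (XT.lf (nat_lit 0) (nat_lit 688725580) (nat_lit 228) (nat_lit 1292415912) (nat_lit 228) (nat_lit 1292415912) (nat_lit 158) (nat_lit 4) (nat_lit 161) (nat_lit 5) (nat_lit 161) (nat_lit 4) (nat_lit 306) (nat_lit 297) (nat_lit 297)) (XT.lf (nat_lit 0) (nat_lit 557063037) (nat_lit 304) (nat_lit 1298646041) (nat_lit 76) (nat_lit 4731438753) (nat_lit 157) (nat_lit 5) (nat_lit 161) (nat_lit 5) (nat_lit 158) (nat_lit 4) (nat_lit 307) (nat_lit 297) (nat_lit 296))))) (XT.nd (nat_lit 234) (nat_lit 1064) (nat_lit 0) (XT.nd (nat_lit 78) (nat_lit 456) (nat_lit 0) (XT.lf (nat_lit 0) (nat_lit 2681943338) (nat_lit 304) (nat_lit 950726722) (nat_lit 380) (nat_lit 3001477608) (nat_lit 153) (nat_lit 5) (nat_lit 157)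 (nat_lit 5) (nat_lit 158) (nat_lit 4) (nat_lit 308) (nat_lit 297) (nat_lit 295)) (XT.nd (nat_lit 78) (nat_lit 0) (nat_lit 0) (XT.lf (nat_lit 0) (nat_lit 22846556) (nat_lit 456) (nat_lit 6599592512) (nat_lit 76) (nat_lit 68653072) (nat_lit 147) (nat_lit 5) (nat_lit 153) (nat_lit 5) (nat_lit 148) (nat_lit 4) (nat_lit 309) (nat_lit 297) (nat_lit 294)) (XT.lf (nat_lit 0) (nat_lit 3013150993) (nat_lit 456) (nat_lit 2477376865) (nat_lit 76) (nat_lit 1262337050) (nat_lit 147) (nat_lit 5) (nat_lit 153) (nat_lit 5) (nat_lit 148) (nat_lit 4) (nat_lit 310) (nat_lit 297) (nat_lit 293)))) (XT.nd (nat_lit 78) (nat_lit 608) (nat_lit 0) (XT.lf (nat_lit 0) (nat_lit 1775832474) (nat_lit 456) (nat_lit 4244881007) (nat_lit 532) (nat_lit 803838044) (nat_lit 141) (nat_lit 5) (nat_lit 147) (nat_lit 5) (nat_lit 148) (nat_lit 4) (nat_lit 311) (nat_lit 297) (nat_lit 292)) (XT.nd (nat_lit 78) (nat_lit 532) (nat_lit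 0) (XT.lf (nat_lit 0) (nat_lit 2091419757) (nat_lit 532) (nat_lit 741494396) (nat_lit 76) (nat_lit 4071045732) (nat_lit 140) (nat_lit 5) (nat_lit 147) (nat_lit 5) (nat_lit 141) (nat_lit 5) (nat_lit 312) (nat_lit 297) (nat_lit 291)) (XT.lf (nat_lit 0) (nat_lit 3759464771) (nat_lit 532) (nat_lit 1254020665) (nat_lit 608) (nat_lit 1977924819) (nat_lit 133) (nat_lit 5) (nat_lit 140) (nat_lit 5) (nat_lit 141) (nat_lit 5) (nat_lit 313) (nat_lit 297) (nat_lit 290))))))) (XT.nd (nat_lit 936) (nat_lit 2280) (nat_lit 0) (XT.nd (nat_lit 468) (nat_lit 1444) (nat_lit 0) (XT.nd (nat_lit 234) (nat_lit 1292) (nat_lit 0) (XT.nd (nat_lit 78) (nat_lit 684) (nat_lit 0) (XT.lf (nat_lit 0) (nat_lit 860211910) (nat_lit 684) (nat_lit 5772199185) (nat_lit 76) (nat_lit 455521705) (nat_lit 124) (nat_lit 5) (nat_lit 133) (nat_lit 5) (nat_lit 125) (nat_lit 5) (nat_lit 314) (nat_lit 297) (nat_lit 289)) (XT.nd (nat_lit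 78) (nat_lit 684) (nat_lit 0) (XT.lf (nat_lit 0) (nat_lit 3708119062) (nat_lit 684) (nat_lit 1174478999) (nat_lit 76) (nat_lit 2308503882) (nat_lit 124) (nat_lit 5) (nat_lit 133) (nat_lit 5) (nat_lit 125) (nat_lit 5) (nat_lit 315) (nat_lit 297) (nat_lit 288)) (XT.lf (nat_lit 0) (nat_lit 3639069899) (nat_lit 684) (nat_lit 2981068004) (nat_lit 760) (nat_lit 683356736) (nat_lit 115) (nat_lit 5) (nat_lit 124) (nat_lit 5) (nat_lit 125) (nat_lit 5) (nat_lit 316) (nat_lit 297) (nat_lit 287)))) (XT.nd (nat_lit 78) (nat_lit 456) (nat_lit 0) (XT.lf (nat_lit 0) (nat_lit 1182909226) (nat_lit 760) (nat_lit 906859563) (nat_lit 836) (nat_lit 5334827136) (nat_lit 104) (nat_lit 5) (nat_lit 114) (nat_lit 5) (nat_lit 115) (nat_lit 5) (nat_lit 317) (nat_lit 297) (nat_lit 286)) (XT.nd (nat_lit 78) (nat_lit 456) (nat_lit 0) (XT.lf (nat_lit 0) (nat_lit 4932808668) (nat_lit 836) (nat_lit 1318226983) (nat_lit 76)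 (nat_lit 1302575694) (nat_lit 104) (nat_lit 5) (nat_lit 115) (nat_lit 5) (nat_lit 105) (nat_lit 5) (nat_lit 318) (nat_lit 297) (nat_lit 285)) (XT.lf (nat_lit 0) (nat_lit 172757399) (nat_lit 456) (nat_lit 3866120409) (nat_lit 76) (nat_lit 3652581199) (nat_lit 98) (nat_lit 5) (nat_lit 104) (nat_lit 5) (nat_lit 99) (nat_lit 5) (nat_lit 319) (nat_lit 297) (nat_lit 284))))) (XT.nd (nat_lit 234) (nat_lit 684) (nat_lit 0) (XT.nd (nat_lit 78) (nat_lit 456) (nat_lit 0) (XT.lf (nat_lit 0) (nat_lit 1302317465) (nat_lit 304) (nat_lit 1637822630) (nat_lit 380) (nat_lit 4897912333) (nat_lit 94) (nat_lit 5) (nat_lit 98) (nat_lit 5) (nat_lit 99) (nat_lit 5) (nat_lit 320) (nat_lit 297) (nat_lit 283)) (XT.nd (nat_lit 78) (nat_lit 456) (nat_lit 0) (XT.lf (nat_lit 0) (nat_lit 5808928348) (nat_lit 380) (nat_lit 1276573868) (nat_lit 76) (nat_lit 908428736) (nat_lit 94) (nat_lit 5) (nat_lit 99) (nat_lit 5) (nat_lit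 95) (nat_lit 5) (nat_lit 321) (nat_lit 297) (nat_lit 282)) (XT.lf (nat_lit 0) (nat_lit 622987135) (nat_lit 456) (nat_lit 3944723026) (nat_lit 76) (nat_lit 3590438909) (nat_lit 88) (nat_lit 5) (nat_lit 94) (nat_lit 5) (nat_lit 89) (nat_lit 5) (nat_lit 322) (nat_lit 297) (nat_lit 281)))) (XT.nd (nat_lit 78) (nat_lit 380) (nat_lit 0) (XT.lf (nat_lit 0) (nat_lit 1575442653) (nat_lit 304) (nat_lit 1858811033) (nat_lit 380) (nat_lit 4897810681) (nat_lit 84) (nat_lit 5) (nat_lit 88) (nat_lit 5) (nat_lit 89) (nat_lit 5) (nat_lit 323) (nat_lit 297) (nat_lit 280)) (XT.nd (nat_lit 78) (nat_lit 380) (nat_lit 0) (XT.lf (nat_lit 0) (nat_lit 6361988387) (nat_lit 380) (nat_lit 1153772868) (nat_lit 76) (nat_lit 1000207171) (nat_lit 84) (nat_lit 5) (nat_lit 89) (nat_lit 5) (nat_lit 85) (nat_lit 5) (nat_lit 324) (nat_lit 297) (nat_lit 279)) (XT.lf (nat_lit 0) (nat_lit 705644930) (nat_lit 380) (nat_lit 3998683459)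 (nat_lit 76) (nat_lit 4004158140) (nat_lit 79) (nat_lit 5) (nat_lit 84) (nat_lit 5) (nat_lit 80) (nat_lit 5) (nat_lit 325) (nat_lit 297) (nat_lit 278)))))) (XT.nd (nat_lit 468) (nat_lit 1216) (nat_lit 0) (XT.nd (nat_lit 234) (nat_lit 456) (nat_lit 0) (XT.nd (nat_lit 78) (nat_lit 380) (nat_lit 0) (XT.lf (nat_lit 0) (nat_lit 1892428745) (nat_lit 228) (nat_lit 1691766598) (nat_lit 304) (nat_lit 5327329254) (nat_lit 76) (nat_lit 5) (nat_lit 79) (nat_lit 5) (nat_lit 80) (nat_lit 5) (nat_lit 326) (nat_lit 297) (nat_lit 277)) (XT.nd (nat_lit 78) (nat_lit 380) (nat_lit 0) (XT.lf (nat_lit 0) (nat_lit 6599771460) (nat_lit 304) (nat_lit 1060401960) (nat_lit 76) (nat_lit 1464958834) (nat_lit 76) (nat_lit 5) (nat_lit 80) (nat_lit 5) (nat_lit 77) (nat_lit 5) (nat_lit 327) (nat_lit 297) (nat_lit 276)) (XT.lf (nat_lit 0) (nat_lit 418614881) (nat_lit 380) (nat_lit 4145885906) (nat_lit 76) (nat_lit 4783897753)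 (nat_lit 71) (nat_lit 5) (nat_lit 76) (nat_lit 5) (nat_lit 72) (nat_lit 5) (nat_lit 328) (nat_lit 297) (nat_lit 275)))) (XT.nd (nat_lit 78) (nat_lit 228) (nat_lit 0) (XT.lf (nat_lit 0) (nat_lit 2133300100) (nat_lit 228) (nat_lit 1250159287) (nat_lit 304) (nat_lit 6199434556) (nat_lit 68) (nat_lit 5) (nat_lit 71) (nat_lit 5) (nat_lit 72) (nat_lit 5) (nat_lit 329) (nat_lit 297) (nat_lit 274)) (XT.nd (nat_lit 78) (nat_lit 228) (nat_lit 0) (XT.lf (nat_lit 0) (nat_lit 6511653160) (nat_lit 304) (nat_lit 1119939918) (nat_lit 76) (nat_lit 2196825408) (nat_lit 68) (nat_lit 5) (nat_lit 72) (nat_lit 5) (nat_lit 69) (nat_lit 5) (nat_lit 330) (nat_lit 297) (nat_lit 273)) (XT.lf (nat_lit 0) (nat_lit 5561070677) (nat_lit 228) (nat_lit 4255769452) (nat_lit 304) (nat_lit 268406831) (nat_lit 65) (nat_lit 5) (nat_lit 68) (nat_lit 5) (nat_lit 69) (nat_lit 5) (nat_lit 331) (nat_lit 297) (nat_lit 272))))) (XT.nd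 (nat_lit 234) (nat_lit 684) (nat_lit 0) (XT.nd (nat_lit 78) (nat_lit 228) (nat_lit 0) (XT.lf (nat_lit 0) (nat_lit 2160567760) (nat_lit 228) (nat_lit 645032223) (nat_lit 304) (nat_lit 7548725112) (nat_lit 61) (nat_lit 5) (nat_lit 64) (nat_lit 5) (nat_lit 65) (nat_lit 5) (nat_lit 332) (nat_lit 297) (nat_lit 271)) (XT.nd (nat_lit 78) (nat_lit 228) (nat_lit 0) (XT.lf (nat_lit 0) (nat_lit 6066961818) (nat_lit 304) (nat_lit 1476374196) (nat_lit 76) (nat_lit 3091216505) (nat_lit 61) (nat_lit 5) (nat_lit 65) (nat_lit 5) (nat_lit 62) (nat_lit 5) (nat_lit 333) (nat_lit 297) (nat_lit 270)) (XT.lf (nat_lit 0) (nat_lit 5627181721) (nat_lit 228) (nat_lit 3882333819) (nat_lit 304) (nat_lit 1418416378) (nat_lit 58) (nat_lit 5) (nat_lit 61) (nat_lit 5) (nat_lit 62) (nat_lit 5) (nat_lit 334) (nat_lit 297) (nat_lit 269)))) (XT.nd (nat_lit 156) (nat_lit 456) (nat_lit 0) (XT.nd (nat_lit 78) (nat_lit 0) (nat_lit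 0) (XT.lf (nat_lit 0) (nat_lit 1801957146) (nat_lit 228) (nat_lit 9425462925) (nat_lit 76) (nat_lit 8419880) (nat_lit 55) (nat_lit 5) (nat_lit 58) (nat_lit 5) (nat_lit 56) (nat_lit 5) (nat_lit 335) (nat_lit 297) (nat_lit 268)) (XT.lf (nat_lit 0) (nat_lit 5212247009) (nat_lit 228) (nat_lit 2303272918) (nat_lit 76) (nat_lit 4038672958) (nat_lit 55) (nat_lit 5) (nat_lit 58) (nat_lit 5) (nat_lit 56) (nat_lit 5) (nat_lit 336) (nat_lit 297) (nat_lit 267))) (XT.nd (nat_lit 78) (nat_lit 228) (nat_lit 0) (XT.lf (nat_lit 0) (nat_lit 5226753864) (nat_lit 228) (nat_lit 3573309886) (nat_lit 304) (nat_lit 3088087595) (nat_lit 52) (nat_lit 5) (nat_lit 55) (nat_lit 5) (nat_lit 56) (nat_lit 5) (nat_lit 337) (nat_lit 297) (nat_lit 266)) (XT.lf (nat_lit 0) (nat_lit 306473379) (nat_lit 228) (nat_lit 11366063866) (nat_lit 76) (nat_lit 566622853) (nat_lit 49) (nat_lit 5) (nat_lit 52) (nat_lit 5) (nat_lit 50)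 (nat_lit 5) (nat_lit 338) (nat_lit 297) (nat_lit 265))))))))
noncomputable def xc93 : XT := (XT.nd (nat_lit 1950) (nat_lit 988) (nat_lit 0) (XT.nd (nat_lit 936) (nat_lit 836) (nat_lit 0) (XT.nd (nat_lit 468) (nat_lit 684) (nat_lit 0) (XT.nd (nat_lit 234) (nat_lit 380) (nat_lit 0) (XT.nd (nat_lit 78) (nat_lit 152) (nat_lit 0) (XT.lf (nat_lit 0) (nat_lit 3867265911) (nat_lit 228) (nat_lit 3814847397) (nat_lit 76) (nat_lit 4918093844) (nat_lit 49) (nat_lit 5) (nat_lit 52) (nat_lit 5) (nat_lit 50) (nat_lit 5) (nat_lit 339) (nat_lit 297) (nat_lit 264)) (XT.nd (nat_lit 78) (nat_lit 0) (nat_lit 0) (XT.lf (nat_lit 0) (nat_lit 4134547453) (nat_lit 152) (nat_lit 3466617966) (nat_lit 228) (nat_lit 5378419442) (nat_lit 47) (nat_lit 5) (nat_lit 49) (nat_lit 5) (nat_lit 50) (nat_lit 5) (nat_lit 340) (nat_lit 297) (nat_lit 263)) (XT.lf (nat_lit 0) (nat_lit 11533860348) (nat_lit 228) (nat_lit 889568833)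 (nat_lit 76) (nat_lit 953927418) (nat_lit 47) (nat_lit 5) (nat_lit 50) (nat_lit 5) (nat_lit 48) (nat_lit 4) (nat_lit 341) (nat_lit 297) (nat_lit 262)))) (XT.nd (nat_lit 78) (nat_lit 152) (nat_lit 0) (XT.lf (nat_lit 0) (nat_lit 1919424060) (nat_lit 228) (nat_lit 6279656233) (nat_lit 76) (nat_lit 5588953409) (nat_lit 44) (nat_lit 5) (nat_lit 47) (nat_lit 5) (nat_lit 45) (nat_lit 5) (nat_lit 342) (nat_lit 297) (nat_lit 261)) (XT.nd (nat_lit 78) (nat_lit 0) (nat_lit 0) (XT.lf (nat_lit 0) (nat_lit 2066531368) (nat_lit 152) (nat_lit 3724685928) (nat_lit 228) (nat_lit 8427408336) (nat_lit 42) (nat_lit 5) (nat_lit 44) (nat_lit 5) (nat_lit 45) (nat_lit 5) (nat_lit 343) (nat_lit 297) (nat_lit 260)) (XT.lf (nat_lit 0) (nat_lit 9915765081) (nat_lit 228) (nat_lit 3742878512) (nat_lit 76) (nat_lit 1009170137) (nat_lit 42) (nat_lit 5) (nat_lit 45) (nat_lit 5) (nat_lit 43) (nat_lit 4) (nat_lit 344) (nat_lit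 297) (nat_lit 259))))) (XT.nd (nat_lit 234) (nat_lit 304) (nat_lit 0) (XT.nd (nat_lit 78) (nat_lit 228) (nat_lit 0) (XT.lf (nat_lit 0) (nat_lit 5085110740) (nat_lit 152) (nat_lit 9240810863) (nat_lit 228) (nat_lit 809594195) (nat_lit 40) (nat_lit 5) (nat_lit 42) (nat_lit 5) (nat_lit 43) (nat_lit 4) (nat_lit 345) (nat_lit 297) (nat_lit 258)) (XT.nd (nat_lit 78) (nat_lit 152) (nat_lit 0) (XT.lf (nat_lit 0) (nat_lit 3227076231) (nat_lit 228) (nat_lit 1295764275) (nat_lit 76) (nat_lit 11101000708) (nat_lit 39) (nat_lit 5) (nat_lit 42) (nat_lit 5) (nat_lit 40) (nat_lit 5) (nat_lit 346) (nat_lit 297) (nat_lit 257)) (XT.lf (nat_lit 0) (nat_lit 7514435566) (nat_lit 228) (nat_lit 8098997452) (nat_lit 76) (nat_lit 518703543) (nat_lit 37) (nat_lit 5) (nat_lit 40) (nat_lit 5) (nat_lit 38) (nat_lit 4) (nat_lit 347) (nat_lit 297) (nat_lit 256)))) (XT.nd (nat_lit 78) (nat_lit 228) (nat_lit 0) (XT.lf (nat_lit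 0) (nat_lit 1069006498) (nat_lit 76) (nat_lit 11003039337) (nat_lit 152) (nat_lit 4591026137) (nat_lit 36) (nat_lit 5) (nat_lit 37) (nat_lit 5) (nat_lit 38) (nat_lit 4) (nat_lit 348) (nat_lit 297) (nat_lit 255)) (XT.nd (nat_lit 78) (nat_lit 228) (nat_lit 0) (XT.lf (nat_lit 0) (nat_lit 10878765294) (nat_lit 76) (nat_lit 6059874657) (nat_lit 152) (nat_lit 277877553) (nat_lit 36) (nat_lit 5) (nat_lit 37) (nat_lit 5) (nat_lit 38) (nat_lit 4) (nat_lit 349) (nat_lit 297) (nat_lit 254)) (XT.lf (nat_lit 0) (nat_lit 3326499057) (nat_lit 152) (nat_lit 786029117) (nat_lit 228) (nat_lit 13681922691) (nat_lit 33) (nat_lit 5) (nat_lit 35) (nat_lit 5) (nat_lit 36) (nat_lit 5) (nat_lit 350) (nat_lit 297) (nat_lit 253)))))) (XT.nd (nat_lit 468) (nat_lit 456) (nat_lit 0) (XT.nd (nat_lit 234) (nat_lit 304) (nat_lit 0) (XT.nd (nat_lit 78) (nat_lit 76) (nat_lit 0) (XT.lf (nat_lit 0) (nat_lit 8842609255) (nat_lit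 228) (nat_lit 4877908452) (nat_lit 76) (nat_lit 4674076736) (nat_lit 33) (nat_lit 5) (nat_lit 36) (nat_lit 5) (nat_lit 34) (nat_lit 4) (nat_lit 351) (nat_lit 297) (nat_lit 252)) (XT.nd (nat_lit 78) (nat_lit 0) (nat_lit 0) (XT.lf (nat_lit 0) (nat_lit 5256034176) (nat_lit 76) (nat_lit 8596885219) (nat_lit 152) (nat_lit 5169654789) (nat_lit 32) (nat_lit 5) (nat_lit 33) (nat_lit 5) (nat_lit 34) (nat_lit 4) (nat_lit 352) (nat_lit 297) (nat_lit 251)) (XT.lf (nat_lit 0) (nat_lit 15976547635) (nat_lit 76) (nat_lit 3169627180) (nat_lit 152) (nat_lit 534171117) (nat_lit 32) (nat_lit 5) (nat_lit 33) (nat_lit 5) (nat_lit 34) (nat_lit 4) (nat_lit 353) (nat_lit 297) (nat_lit 250)))) (XT.nd (nat_lit 78) (nat_lit 76) (nat_lit 0) (XT.lf (nat_lit 0) (nat_lit 4295770749) (nat_lit 228) (nat_lit 13477049942) (nat_lit 76) (nat_lit 2589747664) (nat_lit 29) (nat_lit 5) (nat_lit 32) (nat_lit 5) (nat_lit 30) (nat_lit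 4) (nat_lit 354) (nat_lit 297) (nat_lit 249)) (XT.nd (nat_lit 78) (nat_lit 76) (nat_lit 0) (XT.lf (nat_lit 0) (nat_lit 9416775011) (nat_lit 228) (nat_lit 3091860356) (nat_lit 76) (nat_lit 8566465372) (nat_lit 29) (nat_lit 5) (nat_lit 32) (nat_lit 5) (nat_lit 30) (nat_lit 4) (nat_lit 355) (nat_lit 297) (nat_lit 248)) (XT.lf (nat_lit 0) (nat_lit 7985078301) (nat_lit 76) (nat_lit 6887517728) (nat_lit 152) (nat_lit 6946737324) (nat_lit 28) (nat_lit 5) (nat_lit 29) (nat_lit 5) (nat_lit 30) (nat_lit 4) (nat_lit 356) (nat_lit 297) (nat_lit 247))))) (XT.nd (nat_lit 234) (nat_lit 228) (nat_lit 0) (XT.nd (nat_lit 78) (nat_lit 228) (nat_lit 0) (XT.lf (nat_lit 0) (nat_lit 19641463567) (nat_lit 76) (nat_lit 967113396) (nat_lit 152) (nat_lit 1991843559) (nat_lit 28) (nat_lit 5) (nat_lit 29) (nat_lit 5) (nat_lit 30) (nat_lit 4) (nat_lit 357) (nat_lit 297) (nat_lit 246)) (XT.nd (nat_lit 78) (nat_lit 0)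 (nat_lit 0) (XT.lf (nat_lit 0) (nat_lit 3283254449) (nat_lit 228) (nat_lit 14891823450) (nat_lit 76) (nat_lit 5234226735) (nat_lit 25) (nat_lit 5) (nat_lit 28) (nat_lit 5) (nat_lit 26) (nat_lit 4) (nat_lit 358) (nat_lit 297) (nat_lit 245)) (XT.lf (nat_lit 0) (nat_lit 8778696799) (nat_lit 228) (nat_lit 3714602566) (nat_lit 76) (nat_lit 11762534325) (nat_lit 25) (nat_lit 5) (nat_lit 28) (nat_lit 5) (nat_lit 26) (nat_lit 4) (nat_lit 359) (nat_lit 297) (nat_lit 244)))) (XT.nd (nat_lit 156) (nat_lit 152) (nat_lit 0) (XT.nd (nat_lit 78) (nat_lit 0) (nat_lit 0) (XT.lf (nat_lit 0) (nat_lit 8208374088) (nat_lit 76) (nat_lit 6427494103) (nat_lit 152) (nat_lit 10504482516) (nat_lit 24) (nat_lit 5) (nat_lit 25) (nat_lit 5) (nat_lit 26) (nat_lit 4) (nat_lit 360) (nat_lit 297) (nat_lit 243)) (XT.lf (nat_lit 0) (nat_lit 20781860659) (nat_lit 76) (nat_lit 26544396) (nat_lit 152) (nat_lit 5259572082) (nat_lit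 24) (nat_lit 5) (nat_lit 25) (nat_lit 5) (nat_lit 26) (nat_lit 4) (nat_lit 361) (nat_lit 297) (nat_lit 242))) (XT.nd (nat_lit 78) (nat_lit 0) (nat_lit 0) (XT.lf (nat_lit 0) (nat_lit 417160951) (nat_lit 152) (nat_lit 20051261944) (nat_lit 76) (nat_lit 6564501732) (nat_lit 22) (nat_lit 5) (nat_lit 24) (nat_lit 5) (nat_lit 23) (nat_lit 4) (nat_lit 362) (nat_lit 297) (nat_lit 241)) (XT.lf (nat_lit 0) (nat_lit 6253522359) (nat_lit 152) (nat_lit 8156012926) (nat_lit 76) (nat_lit 13629653386) (nat_lit 22) (nat_lit 5) (nat_lit 24) (nat_lit 5) (nat_lit 23) (nat_lit 4) (nat_lit 363) (nat_lit 297) (nat_lit 240))))))) (XT.nd (nat_lit 936) (nat_lit 456) (nat_lit 0) (XT.nd (nat_lit 468) (nat_lit 228) (nat_lit 0) (XT.nd (nat_lit 234) (nat_lit 152) (nat_lit 0) (XT.nd (nat_lit 78) (nat_lit 76) (nat_lit 0) (XT.lf (nat_lit 0) (nat_lit 4405873855) (nat_lit 76) (nat_lit 8007589497) (nat_lit 152) (nat_lit 16680721816)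 (nat_lit 21) (nat_lit 5) (nat_lit 22) (nat_lit 5) (nat_lit 23) (nat_lit 4) (nat_lit 364) (nat_lit 297) (nat_lit 239)) (XT.nd (nat_lit 78) (nat_lit 76) (nat_lit 0) (XT.lf (nat_lit 0) (nat_lit 17810988326) (nat_lit 76) (nat_lit 1172213679) (nat_lit 152) (nat_lit 11213646434) (nat_lit 21) (nat_lit 5) (nat_lit 22) (nat_lit 5) (nat_lit 23) (nat_lit 4) (nat_lit 365) (nat_lit 297) (nat_lit 238)) (XT.lf (nat_lit 0) (nat_lit 384206044) (nat_lit 76) (nat_lit 25561906894) (nat_lit 76) (nat_lit 5405304316) (nat_lit 20) (nat_lit 4) (nat_lit 21) (nat_lit 5) (nat_lit 21) (nat_lit 4) (nat_lit 366) (nat_lit 297) (nat_lit 237)))) (XT.nd (nat_lit 78) (nat_lit 76) (nat_lit 0) (XT.lf (nat_lit 0) (nat_lit 868693879) (nat_lit 152) (nat_lit 18430072116) (nat_lit 76) (nat_lit 13254541511) (nat_lit 19) (nat_lit 5) (nat_lit 21) (nat_lit 5) (nat_lit 20) (nat_lit 4) (nat_lit 367) (nat_lit 297) (nat_lit 236)) (XT.nd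 (nat_lit 78) (nat_lit 76) (nat_lit 0) (XT.lf (nat_lit 0) (nat_lit 7241422135) (nat_lit 152) (nat_lit 5417685851) (nat_lit 76) (nat_lit 21153425259) (nat_lit 19) (nat_lit 5) (nat_lit 21) (nat_lit 5) (nat_lit 20) (nat_lit 4) (nat_lit 368) (nat_lit 297) (nat_lit 235)) (XT.lf (nat_lit 0) (nat_lit 8455965097) (nat_lit 76) (nat_lit 5577113323) (nat_lit 152) (nat_lit 21096632738) (nat_lit 18) (nat_lit 5) (nat_lit 19) (nat_lit 5) (nat_lit 20) (nat_lit 4) (nat_lit 369) (nat_lit 297) (nat_lit 234))))) (XT.nd (nat_lit 234) (nat_lit 152) (nat_lit 0) (XT.nd (nat_lit 78) (nat_lit 76) (nat_lit 0) (XT.lf (nat_lit 0) (nat_lit 21255020838) (nat_lit 152) (nat_lit 13387457408) (nat_lit 0) (nat_lit 1865739762) (nat_lit 18) (nat_lit 5) (nat_lit 20) (nat_lit 4) (nat_lit 18) (nat_lit 4) (nat_lit 370) (nat_lit 297) (nat_lit 233)) (XT.nd (nat_lit 78) (nat_lit 0) (nat_lit 0) (XT.lf (nat_lit 0) (nat_lit 428127594)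 (nat_lit 76) (nat_lit 28477972917) (nat_lit 76) (nat_lit 9046152645) (nat_lit 17) (nat_lit 4) (nat_lit 18) (nat_lit 5) (nat_lit 18) (nat_lit 4) (nat_lit 371) (nat_lit 297) (nat_lit 232)) (XT.lf (nat_lit 0) (nat_lit 15342905464) (nat_lit 76) (nat_lit 21794031487) (nat_lit 76) (nat_lit 2321697694) (nat_lit 17) (nat_lit 4) (nat_lit 18) (nat_lit 5) (nat_lit 18) (nat_lit 4) (nat_lit 372) (nat_lit 297) (nat_lit 231)))) (XT.nd (nat_lit 78) (nat_lit 76) (nat_lit 0) (XT.lf (nat_lit 0) (nat_lit 4558723240) (nat_lit 152) (nat_lit 10165535454) (nat_lit 76) (nat_lit 26313810350) (nat_lit 16) (nat_lit 5) (nat_lit 18) (nat_lit 5) (nat_lit 17) (nat_lit 4) (nat_lit 373) (nat_lit 297) (nat_lit 230)) (XT.nd (nat_lit 78) (nat_lit 0) (nat_lit 0) (XT.lf (nat_lit 0) (nat_lit 4537297073) (nat_lit 76) (nat_lit 7211464940) (nat_lit 152) (nat_lit 30943633148) (nat_lit 15) (nat_lit 5) (nat_lit 16) (nat_lit 5) (nat_lit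 17) (nat_lit 4) (nat_lit 374) (nat_lit 297) (nat_lit 229)) (XT.lf (nat_lit 0) (nat_lit 19456748577) (nat_lit 152) (nat_lit 24158176458) (nat_lit 0) (nat_lit 806594142) (nat_lit 15) (nat_lit 5) (nat_lit 17) (nat_lit 4) (nat_lit 15) (nat_lit 4) (nat_lit 375) (nat_lit 297) (nat_lit 228)))))) (XT.nd (nat_lit 468) (nat_lit 228) (nat_lit 0) (XT.nd (nat_lit 234) (nat_lit 152) (nat_lit 0) (XT.nd (nat_lit 78) (nat_lit 76) (nat_lit 0) (XT.lf (nat_lit 0) (nat_lit 27642541824) (nat_lit 152) (nat_lit 9629296919) (nat_lit 0) (nat_lit 8960643985) (nat_lit 15) (nat_lit 5) (nat_lit 17) (nat_lit 4) (nat_lit 15) (nat_lit 4) (nat_lit 376) (nat_lit 297) (nat_lit 227)) (XT.nd (nat_lit 78) (nat_lit 0) (nat_lit 0) (XT.lf (nat_lit 0) (nat_lit 5763182094) (nat_lit 76) (nat_lit 30539837888) (nat_lit 76) (nat_lit 11827708237) (nat_lit 14) (nat_lit 4) (nat_lit 15) (nat_lit 5) (nat_lit 15) (nat_lit 4) (nat_lit 377)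 (nat_lit 297) (nat_lit 226)) (XT.lf (nat_lit 0) (nat_lit 22213053125) (nat_lit 76) (nat_lit 23322405617) (nat_lit 76) (nat_lit 4581483764) (nat_lit 14) (nat_lit 4) (nat_lit 15) (nat_lit 5) (nat_lit 15) (nat_lit 4) (nat_lit 378) (nat_lit 297) (nat_lit 225)))) (XT.nd (nat_lit 78) (nat_lit 76) (nat_lit 0) (XT.lf (nat_lit 0) (nat_lit 2906796796) (nat_lit 152) (nat_lit 12809409566) (nat_lit 76) (nat_lit 36485069681) (nat_lit 13) (nat_lit 5) (nat_lit 15) (nat_lit 5) (nat_lit 14) (nat_lit 4) (nat_lit 379) (nat_lit 297) (nat_lit 224)) (XT.nd (nat_lit 78) (nat_lit 0) (nat_lit 0) (XT.lf (nat_lit 0) (nat_lit 3018342323) (nat_lit 76) (nat_lit 7622048261) (nat_lit 152) (nat_lit 43744439904) (nat_lit 12) (nat_lit 5) (nat_lit 13) (nat_lit 5) (nat_lit 14) (nat_lit 4) (nat_lit 380) (nat_lit 297) (nat_lit 223)) (XT.lf (nat_lit 0) (nat_lit 18972667391) (nat_lit 152) (nat_lit 36644802051) (nat_lit 0) (nat_lit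 1049495808) (nat_lit 12) (nat_lit 5) (nat_lit 14) (nat_lit 4) (nat_lit 12) (nat_lit 4) (nat_lit 381) (nat_lit 297) (nat_lit 222))))) (XT.nd (nat_lit 234) (nat_lit 152) (nat_lit 0) (XT.nd (nat_lit 78) (nat_lit 76) (nat_lit 0) (XT.lf (nat_lit 0) (nat_lit 27825389564) (nat_lit 152) (nat_lit 21352969705) (nat_lit 0) (nat_lit 9879658536) (nat_lit 12) (nat_lit 5) (nat_lit 14) (nat_lit 4) (nat_lit 12) (nat_lit 4) (nat_lit 382) (nat_lit 297) (nat_lit 221)) (XT.nd (nat_lit 78) (nat_lit 76) (nat_lit 0) (XT.lf (nat_lit 0) (nat_lit 37100633477) (nat_lit 152) (nat_lit 5335580468) (nat_lit 0) (nat_lit 19133417265) (nat_lit 12) (nat_lit 5) (nat_lit 14) (nat_lit 4) (nat_lit 12) (nat_lit 4) (nat_lit 383) (nat_lit 297) (nat_lit 220)) (XT.lf (nat_lit 0) (nat_lit 11823942295) (nat_lit 76) (nat_lit 35181145627) (nat_lit 76) (nat_lit 17193467334) (nat_lit 11) (nat_lit 4) (nat_lit 12) (nat_lit 5) (nat_lit 12)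 (nat_lit 4) (nat_lit 384) (nat_lit 297) (nat_lit 219)))) (XT.nd (nat_lit 156) (nat_lit 152) (nat_lit 0) (XT.nd (nat_lit 78) (nat_lit 0) (nat_lit 0) (XT.lf (nat_lit 0) (nat_lit 29990104183) (nat_lit 76) (nat_lit 27486206159) (nat_lit 76) (nat_lit 9479040170) (nat_lit 11) (nat_lit 4) (nat_lit 12) (nat_lit 5) (nat_lit 12) (nat_lit 4) (nat_lit 385) (nat_lit 297) (nat_lit 218)) (XT.lf (nat_lit 0) (nat_lit 49029739578) (nat_lit 76) (nat_lit 19423434894) (nat_lit 76) (nat_lit 1397709195) (nat_lit 11) (nat_lit 4) (nat_lit 12) (nat_lit 5) (nat_lit 12) (nat_lit 4) (nat_lit 386) (nat_lit 297) (nat_lit 217))) (XT.nd (nat_lit 78) (nat_lit 76) (nat_lit 0) (XT.lf (nat_lit 0) (nat_lit 6843490163) (nat_lit 152) (nat_lit 4014246777) (nat_lit 76) (nat_lit 62028792961) (nat_lit 10) (nat_lit 5) (nat_lit 12) (nat_lit 5) (nat_lit 11) (nat_lit 4) (nat_lit 387) (nat_lit 297) (nat_lit 216)) (XT.lf (nat_lit 0) (nat_lit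 14026885931) (nat_lit 76) (nat_lit 1625368580) (nat_lit 152) (nat_lit 60410436283) (nat_lit 9) (nat_lit 5) (nat_lit 10) (nat_lit 5) (nat_lit 11) (nat_lit 4) (nat_lit 388) (nat_lit 297) (nat_lit 215))))))))
noncomputable def xc94 : XT := (XT.nd (nat_lit 1872) (nat_lit 152) (nat_lit 0) (XT.nd (nat_lit 936) (nat_lit 152) (nat_lit 0) (XT.nd (nat_lit 468) (nat_lit 152) (nat_lit 0) (XT.nd (nat_lit 234) (nat_lit 76) (nat_lit 0) (XT.nd (nat_lit 78) (nat_lit 0) (nat_lit 0) (XT.lf (nat_lit 0) (nat_lit 25080059322) (nat_lit 152) (nat_lit 46444106464) (nat_lit 0) (nat_lit 7864565613) (nat_lit 9) (nat_lit 5) (nat_lit 11) (nat_lit 4) (nat_lit 9) (nat_lit 4) (nat_lit 389) (nat_lit 297) (nat_lit 214)) (XT.nd (nat_lit 78) (nat_lit 0) (nat_lit 0) (XT.lf (nat_lit 0) (nat_lit 34990214818) (nat_lit 152) (nat_lit 30130133798) (nat_lit 0) (nat_lit 17760179091) (nat_lit 9) (nat_lit 5) (nat_lit 11) (nat_lit 4)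 (nat_lit 9) (nat_lit 4) (nat_lit 390) (nat_lit 297) (nat_lit 213)) (XT.lf (nat_lit 0) (nat_lit 45380940050) (nat_lit 152) (nat_lit 13029667515) (nat_lit 0) (nat_lit 28137054781) (nat_lit 9) (nat_lit 5) (nat_lit 11) (nat_lit 4) (nat_lit 9) (nat_lit 4) (nat_lit 391) (nat_lit 297) (nat_lit 212)))) (XT.nd (nat_lit 78) (nat_lit 0) (nat_lit 0) (XT.lf (nat_lit 0) (nat_lit 5059958036) (nat_lit 76) (nat_lit 51296016929) (nat_lit 76) (nat_lit 34038941621) (nat_lit 8) (nat_lit 4) (nat_lit 9) (nat_lit 5) (nat_lit 9) (nat_lit 4) (nat_lit 392) (nat_lit 297) (nat_lit 211)) (XT.nd (nat_lit 78) (nat_lit 0) (nat_lit 0) (XT.lf (nat_lit 0) (nat_lit 24479059816) (nat_lit 76) (nat_lit 43607389038) (nat_lit 76) (nat_lit 26337751786) (nat_lit 8) (nat_lit 4) (nat_lit 9) (nat_lit 5) (nat_lit 9) (nat_lit 4) (nat_lit 393) (nat_lit 297) (nat_lit 210)) (XT.lf (nat_lit 0) (nat_lit 44843054130) (nat_lit 76) (nat_lit 35547081358)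 (nat_lit 76) (nat_lit 18265480352) (nat_lit 8) (nat_lit 4) (nat_lit 9) (nat_lit 5) (nat_lit 9) (nat_lit 4) (nat_lit 394) (nat_lit 297) (nat_lit 209))))) (XT.nd (nat_lit 234) (nat_lit 76) (nat_lit 0) (XT.nd (nat_lit 78) (nat_lit 76) (nat_lit 0) (XT.lf (nat_lit 0) (nat_lit 66200426677) (nat_lit 76) (nat_lit 27095902682) (nat_lit 76) (nat_lit 9802907624) (nat_lit 8) (nat_lit 4) (nat_lit 9) (nat_lit 5) (nat_lit 9) (nat_lit 4) (nat_lit 395) (nat_lit 297) (nat_lit 208)) (XT.nd (nat_lit 78) (nat_lit 76) (nat_lit 0) (XT.lf (nat_lit 0) (nat_lit 88602028345) (nat_lit 76) (nat_lit 18233731155) (nat_lit 76) (nat_lit 929884619) (nat_lit 8) (nat_lit 4) (nat_lit 9) (nat_lit 5) (nat_lit 9) (nat_lit 4) (nat_lit 396) (nat_lit 297) (nat_lit 207)) (XT.lf (nat_lit 0) (nat_lit 8106671729) (nat_lit 152) (nat_lit 695504232) (nat_lit 76) (nat_lit 103857234143) (nat_lit 7) (nat_lit 5) (nat_lit 9) (nat_lit 5) (nat_lit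 8) (nat_lit 4) (nat_lit 397) (nat_lit 297) (nat_lit 206)))) (XT.nd (nat_lit 78) (nat_lit 0) (nat_lit 0) (XT.lf (nat_lit 0) (nat_lit 17875830838) (nat_lit 152) (nat_lit 98528910715) (nat_lit 0) (nat_lit 1376760468) (nat_lit 6) (nat_lit 5) (nat_lit 8) (nat_lit 4) (nat_lit 6) (nat_lit 4) (nat_lit 398) (nat_lit 297) (nat_lit 205)) (XT.nd (nat_lit 78) (nat_lit 0) (nat_lit 0) (XT.lf (nat_lit 0) (nat_lit 28278616831) (nat_lit 152) (nat_lit 83103205377) (nat_lit 0) (nat_lit 11770618922) (nat_lit 6) (nat_lit 5) (nat_lit 8) (nat_lit 4) (nat_lit 6) (nat_lit 4) (nat_lit 399) (nat_lit 297) (nat_lit 204)) (XT.lf (nat_lit 0) (nat_lit 39190969900) (nat_lit 152) (nat_lit 66927017321) (nat_lit 0) (nat_lit 22674469575) (nat_lit 6) (nat_lit 5) (nat_lit 8) (nat_lit 4) (nat_lit 6) (nat_lit 4) (nat_lit 400) (nat_lit 297) (nat_lit 203)))))) (XT.nd (nat_lit 468) (nat_lit 76) (nat_lit 0) (XT.nd (nat_lit 234) (nat_lit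 76) (nat_lit 0) (XT.nd (nat_lit 78) (nat_lit 0) (nat_lit 0) (XT.lf (nat_lit 0) (nat_lit 50638871841) (nat_lit 152) (nat_lit 49961831813) (nat_lit 0) (nat_lit 34114273975) (nat_lit 6) (nat_lit 5) (nat_lit 8) (nat_lit 4) (nat_lit 6) (nat_lit 4) (nat_lit 401) (nat_lit 297) (nat_lit 202)) (XT.nd (nat_lit 78) (nat_lit 0) (nat_lit 0) (XT.lf (nat_lit 0) (nat_lit 62649579562) (nat_lit 152) (nat_lit 32167255555) (nat_lit 0) (nat_lit 46117269753) (nat_lit 6) (nat_lit 5) (nat_lit 8) (nat_lit 4) (nat_lit 6) (nat_lit 4) (nat_lit 402) (nat_lit 297) (nat_lit 201)) (XT.lf (nat_lit 0) (nat_lit 75251689985) (nat_lit 152) (nat_lit 13500920507) (nat_lit 0) (nat_lit 58712035469) (nat_lit 6) (nat_lit 5) (nat_lit 8) (nat_lit 4) (nat_lit 6) (nat_lit 4) (nat_lit 403) (nat_lit 297) (nat_lit 200)))) (XT.nd (nat_lit 78) (nat_lit 0) (nat_lit 0) (XT.lf (nat_lit 0) (nat_lit 6282702706) (nat_lit 76) (nat_lit 82290596027)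 (nat_lit 76) (nat_lit 65743946551) (nat_lit 5) (nat_lit 4) (nat_lit 6) (nat_lit 5) (nat_lit 6) (nat_lit 4) (nat_lit 404) (nat_lit 297) (nat_lit 199)) (XT.nd (nat_lit 78) (nat_lit 0) (nat_lit 0) (XT.lf (nat_lit 0) (nat_lit 27507390284) (nat_lit 76) (nat_lit 75273695751) (nat_lit 76) (nat_lit 58720384408) (nat_lit 5) (nat_lit 4) (nat_lit 6) (nat_lit 5) (nat_lit 6) (nat_lit 4) (nat_lit 405) (nat_lit 297) (nat_lit 198)) (XT.lf (nat_lit 0) (nat_lit 49777275792) (nat_lit 76) (nat_lit 67913847381) (nat_lit 76) (nat_lit 51354191404) (nat_lit 5) (nat_lit 4) (nat_lit 6) (nat_lit 5) (nat_lit 6) (nat_lit 4) (nat_lit 406) (nat_lit 297) (nat_lit 197))))) (XT.nd (nat_lit 234) (nat_lit 76) (nat_lit 0) (XT.nd (nat_lit 78) (nat_lit 0) (nat_lit 0) (XT.lf (nat_lit 0) (nat_lit 73145382768) (nat_lit 76) (nat_lit 60193527468) (nat_lit 76) (nat_lit 43627828982) (nat_lit 5) (nat_lit 4) (nat_lit 6) (nat_lit 5) (nat_lit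 6) (nat_lit 4) (nat_lit 407) (nat_lit 297) (nat_lit 196)) (XT.nd (nat_lit 78) (nat_lit 0) (nat_lit 0) (XT.lf (nat_lit 0) (nat_lit 97667349560) (nat_lit 76) (nat_lit 52094354299) (nat_lit 76) (nat_lit 35522901042) (nat_lit 5) (nat_lit 4) (nat_lit 6) (nat_lit 5) (nat_lit 6) (nat_lit 4) (nat_lit 408) (nat_lit 297) (nat_lit 195)) (XT.lf (nat_lit 0) (nat_lit 123401561805) (nat_lit 76) (nat_lit 43597044128) (nat_lit 76) (nat_lit 27020110137) (nat_lit 5) (nat_lit 4) (nat_lit 6) (nat_lit 5) (nat_lit 6) (nat_lit 4) (nat_lit 409) (nat_lit 297) (nat_lit 194)))) (XT.nd (nat_lit 78) (nat_lit 76) (nat_lit 0) (XT.lf (nat_lit 0) (nat_lit 150409291437) (nat_lit 76) (nat_lit 34681365264) (nat_lit 76) (nat_lit 18099211527) (nat_lit 5) (nat_lit 4) (nat_lit 6) (nat_lit 5) (nat_lit 6) (nat_lit 4) (nat_lit 410) (nat_lit 297) (nat_lit 193)) (XT.nd (nat_lit 78) (nat_lit 76) (nat_lit 0) (XT.lf (nat_lit 0) (nat_lit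 178754842572) (nat_lit 76) (nat_lit 25326089900) (nat_lit 76) (nat_lit 8738964976) (nat_lit 5) (nat_lit 4) (nat_lit 6) (nat_lit 5) (nat_lit 6) (nat_lit 4) (nat_lit 411) (nat_lit 297) (nat_lit 192)) (XT.lf (nat_lit 0) (nat_lit 1048255747) (nat_lit 152) (nat_lit 14442935105) (nat_lit 76) (nat_lit 207439696154) (nat_lit 4) (nat_lit 5) (nat_lit 6) (nat_lit 5) (nat_lit 5) (nat_lit 4) (nat_lit 412) (nat_lit 297) (nat_lit 191))))))) (XT.nd (nat_lit 936) (nat_lit 76) (nat_lit 0) (XT.nd (nat_lit 468) (nat_lit 0) (nat_lit 0) (XT.nd (nat_lit 234) (nat_lit 0) (nat_lit 0) (XT.nd (nat_lit 78) (nat_lit 0) (nat_lit 0) (XT.lf (nat_lit 0) (nat_lit 6204004085) (nat_lit 76) (nat_lit 4918128835) (nat_lit 152) (nat_lit 222413581440) (nat_lit 3) (nat_lit 5) (nat_lit 4) (nat_lit 5) (nat_lit 5) (nat_lit 4) (nat_lit 413) (nat_lit 297) (nat_lit 190)) (XT.nd (nat_lit 78) (nat_lit 0) (nat_lit 0) (XT.lf (nat_lit 0)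 (nat_lit 22038989101) (nat_lit 152) (nat_lit 216385996052) (nat_lit 0) (nat_lit 6228834148) (nat_lit 3) (nat_lit 5) (nat_lit 5) (nat_lit 4) (nat_lit 3) (nat_lit 4) (nat_lit 414) (nat_lit 297) (nat_lit 189)) (XT.lf (nat_lit 0) (nat_lit 33576726618) (nat_lit 152) (nat_lit 204984674787) (nat_lit 0) (nat_lit 17762676610) (nat_lit 3) (nat_lit 5) (nat_lit 5) (nat_lit 4) (nat_lit 3) (nat_lit 4) (nat_lit 415) (nat_lit 297) (nat_lit 188)))) (XT.nd (nat_lit 78) (nat_lit 0) (nat_lit 0) (XT.lf (nat_lit 0) (nat_lit 45686030502) (nat_lit 152) (nat_lit 193023814705) (nat_lit 0) (nat_lit 29868270918) (nat_lit 3) (nat_lit 5) (nat_lit 5) (nat_lit 4) (nat_lit 3) (nat_lit 4) (nat_lit 416) (nat_lit 297) (nat_lit 187)) (XT.nd (nat_lit 78) (nat_lit 0) (nat_lit 0) (XT.lf (nat_lit 0) (nat_lit 58395732429) (nat_lit 152) (nat_lit 180474937567) (nat_lit 0) (nat_lit 42574439914) (nat_lit 3) (nat_lit 5) (nat_lit 5)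 (nat_lit 4) (nat_lit 3) (nat_lit 4) (nat_lit 417) (nat_lit 297) (nat_lit 186)) (XT.lf (nat_lit 0) (nat_lit 71736093593) (nat_lit 152) (nat_lit 167308165093) (nat_lit 0) (nat_lit 55911436383) (nat_lit 3) (nat_lit 5) (nat_lit 5) (nat_lit 4) (nat_lit 3) (nat_lit 4) (nat_lit 418) (nat_lit 297) (nat_lit 185))))) (XT.nd (nat_lit 234) (nat_lit 0) (nat_lit 0) (XT.nd (nat_lit 78) (nat_lit 0) (nat_lit 0) (XT.lf (nat_lit 0) (nat_lit 85738876758) (nat_lit 152) (nat_lit 153492147826) (nat_lit 0) (nat_lit 69911015077) (nat_lit 3) (nat_lit 5) (nat_lit 5) (nat_lit 4) (nat_lit 3) (nat_lit 4) (nat_lit 419) (nat_lit 297) (nat_lit 184)) (XT.nd (nat_lit 78) (nat_lit 0) (nat_lit 0) (XT.lf (nat_lit 0) (nat_lit 100437421886) (nat_lit 152) (nat_lit 138993990487) (nat_lit 0) (nat_lit 84606508327) (nat_lit 3) (nat_lit 5) (nat_lit 5) (nat_lit 4) (nat_lit 3) (nat_lit 4) (nat_lit 420) (nat_lit 297) (nat_lit 183)) (XT.lf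 (nat_lit 0) (nat_lit 115866725512) (nat_lit 152) (nat_lit 123779173653) (nat_lit 0) (nat_lit 100032905403) (nat_lit 3) (nat_lit 5) (nat_lit 5) (nat_lit 4) (nat_lit 3) (nat_lit 4) (nat_lit 421) (nat_lit 297) (nat_lit 182)))) (XT.nd (nat_lit 78) (nat_lit 0) (nat_lit 0) (XT.lf (nat_lit 0) (nat_lit 132063524073) (nat_lit 152) (nat_lit 107811471569) (nat_lit 0) (nat_lit 116226935821) (nat_lit 3) (nat_lit 5) (nat_lit 5) (nat_lit 4) (nat_lit 3) (nat_lit 4) (nat_lit 422) (nat_lit 297) (nat_lit 181)) (XT.nd (nat_lit 78) (nat_lit 0) (nat_lit 0) (XT.lf (nat_lit 0) (nat_lit 149066381376) (nat_lit 152) (nat_lit 91052865898) (nat_lit 0) (nat_lit 133227156797) (nat_lit 3) (nat_lit 5) (nat_lit 5) (nat_lit 4) (nat_lit 3) (nat_lit 4) (nat_lit 423) (nat_lit 297) (nat_lit 180)) (XT.lf (nat_lit 0) (nat_lit 166915780413) (nat_lit 152) (nat_lit 73463455198) (nat_lit 0) (nat_lit 151074045047) (nat_lit 3) (nat_lit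 5) (nat_lit 5) (nat_lit 4) (nat_lit 3) (nat_lit 4) (nat_lit 424) (nat_lit 297) (nat_lit 179)))))) (XT.nd (nat_lit 468) (nat_lit 0) (nat_lit 0) (XT.nd (nat_lit 234) (nat_lit 76) (nat_lit 0) (XT.nd (nat_lit 78) (nat_lit 0) (nat_lit 0) (XT.lf (nat_lit 0) (nat_lit 185654219754) (nat_lit 152) (nat_lit 55001359919) (nat_lit 0) (nat_lit 169810093162) (nat_lit 3) (nat_lit 5) (nat_lit 5) (nat_lit 4) (nat_lit 3) (nat_lit 4) (nat_lit 425) (nat_lit 297) (nat_lit 178)) (XT.nd (nat_lit 78) (nat_lit 0) (nat_lit 0) (XT.lf (nat_lit 0) (nat_lit 205326314731) (nat_lit 152) (nat_lit 35622622691) (nat_lit 0) (nat_lit 189479910781) (nat_lit 3) (nat_lit 5) (nat_lit 5) (nat_lit 4) (nat_lit 3) (nat_lit 4) (nat_lit 426) (nat_lit 297) (nat_lit 177)) (XT.lf (nat_lit 0) (nat_lit 225978903666) (nat_lit 152) (nat_lit 15281103664) (nat_lit 0) (nat_lit 210130330803) (nat_lit 3) (nat_lit 5) (nat_lit 5) (nat_lit 4) (nat_lit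 3) (nat_lit 4) (nat_lit 427) (nat_lit 297) (nat_lit 176)))) (XT.nd (nat_lit 78) (nat_lit 0) (nat_lit 0) (XT.lf (nat_lit 0) (nat_lit 6272384836) (nat_lit 76) (nat_lit 241486704057) (nat_lit 76) (nat_lit 225636065563) (nat_lit 2) (nat_lit 4) (nat_lit 3) (nat_lit 5) (nat_lit 3) (nat_lit 4) (nat_lit 428) (nat_lit 297) (nat_lit 175)) (XT.nd (nat_lit 78) (nat_lit 0) (nat_lit 0) (XT.lf (nat_lit 0) (nat_lit 29428305759) (nat_lit 76) (nat_lit 241455858883) (nat_lit 76) (nat_lit 225603253121) (nat_lit 2) (nat_lit 4) (nat_lit 3) (nat_lit 5) (nat_lit 3) (nat_lit 4) (nat_lit 429) (nat_lit 297) (nat_lit 174)) (XT.lf (nat_lit 0) (nat_lit 53736529950) (nat_lit 76) (nat_lit 241426191251) (nat_lit 76) (nat_lit 225571711901) (nat_lit 2) (nat_lit 4) (nat_lit 3) (nat_lit 5) (nat_lit 3) (nat_lit 4) (nat_lit 430) (nat_lit 297) (nat_lit 173))))) (XT.nd (nat_lit 234) (nat_lit 0) (nat_lit 0) (XT.nd (nat_lit 78)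 (nat_lit 0) (nat_lit 0) (XT.lf (nat_lit 0) (nat_lit 79254934135) (nat_lit 76) (nat_lit 241397630524) (nat_lit 76) (nat_lit 225541366805) (nat_lit 2) (nat_lit 4) (nat_lit 3) (nat_lit 5) (nat_lit 3) (nat_lit 4) (nat_lit 431) (nat_lit 297) (nat_lit 172)) (XT.nd (nat_lit 78) (nat_lit 0) (nat_lit 0) (XT.lf (nat_lit 0) (nat_lit 106044276418) (nat_lit 76) (nat_lit 241370108700) (nat_lit 76) (nat_lit 225512145581) (nat_lit 2) (nat_lit 4) (nat_lit 3) (nat_lit 5) (nat_lit 3) (nat_lit 4) (nat_lit 432) (nat_lit 297) (nat_lit 171)) (XT.lf (nat_lit 0) (nat_lit 134168340947) (nat_lit 76) (nat_lit 241343560252) (nat_lit 76) (nat_lit 225483978657) (nat_lit 2) (nat_lit 4) (nat_lit 3) (nat_lit 5) (nat_lit 3) (nat_lit 4) (nat_lit 433) (nat_lit 297) (nat_lit 170)))) (XT.nd (nat_lit 156) (nat_lit 0) (nat_lit 0) (XT.nd (nat_lit 78) (nat_lit 0) (nat_lit 0) (XT.lf (nat_lit 0) (nat_lit 163694089781) (nat_lit 76)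 (nat_lit 241317921968) (nat_lit 76) (nat_lit 225456798967) (nat_lit 2) (nat_lit 4) (nat_lit 3) (nat_lit 5) (nat_lit 3) (nat_lit 4) (nat_lit 434) (nat_lit 297) (nat_lit 169)) (XT.lf (nat_lit 0) (nat_lit 194691822322) (nat_lit 76) (nat_lit 241293132805) (nat_lit 76) (nat_lit 225430541799) (nat_lit 2) (nat_lit 4) (nat_lit 3) (nat_lit 5) (nat_lit 3) (nat_lit 4) (nat_lit 435) (nat_lit 297) (nat_lit 168))) (XT.nd (nat_lit 78) (nat_lit 0) (nat_lit 0) (XT.lf (nat_lit 0) (nat_lit 227235342695) (nat_lit 76) (nat_lit 241269133741) (nat_lit 76) (nat_lit 225405144635) (nat_lit 2) (nat_lit 4) (nat_lit 3) (nat_lit 5) (nat_lit 3) (nat_lit 4) (nat_lit 436) (nat_lit 297) (nat_lit 167)) (XT.lf (nat_lit 0) (nat_lit 261402135472) (nat_lit 76) (nat_lit 241245867636) (nat_lit 76) (nat_lit 225380547005) (nat_lit 2) (nat_lit 4) (nat_lit 3) (nat_lit 5) (nat_lit 3) (nat_lit 4) (nat_lit 437) (nat_lit 297) (nat_lit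 166))))))))
noncomputable def xc95 : XT := (XT.nd (nat_lit 38220) (nat_lit 0) (nat_lit 2356) (XT.nd (nat_lit 37206) (nat_lit 0) (nat_lit 5852) (XT.nd (nat_lit 36738) (nat_lit 0) (nat_lit 9956) (XT.nd (nat_lit 36504) (nat_lit 0) (nat_lit 11780) (XT.nd (nat_lit 78) (nat_lit 0) (nat_lit 0) (XT.lf (nat_lit 0) (nat_lit 297273550160) (nat_lit 76) (nat_lit 241223279094) (nat_lit 76) (nat_lit 225356690345) (nat_lit 2) (nat_lit 4) (nat_lit 3) (nat_lit 5) (nat_lit 3) (nat_lit 4) (nat_lit 438) (nat_lit 297) (nat_lit 165)) (XT.nd (nat_lit 36348) (nat_lit 0) (nat_lit 12084) (XT.lf (nat_lit 0) (nat_lit 334934994890) (nat_lit 76) (nat_lit 241201314333) (nat_lit 76) (nat_lit 225333517852) (nat_lit 2) (nat_lit 4) (nat_lit 3) (nat_lit 5) (nat_lit 3) (nat_lit 4) (nat_lit 439) (nat_lit 297) (nat_lit 164)) (XT.lf (nat_lit 0) (nat_lit 119198804) (nat_lit 228) (nat_lit 3006230901) (nat_lit 0) (nat_lit 119198804)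 (nat_lit 161) (nat_lit 5) (nat_lit 164) (nat_lit 4) (nat_lit 161) (nat_lit 4) (nat_lit 304) (nat_lit 298) (nat_lit 298)))) (XT.nd (nat_lit 78) (nat_lit 304) (nat_lit 0) (XT.lf (nat_lit 0) (nat_lit 3339992405) (nat_lit 228) (nat_lit 2398331506) (nat_lit 0) (nat_lit 777335872) (nat_lit 161) (nat_lit 5) (nat_lit 164) (nat_lit 4) (nat_lit 161) (nat_lit 4) (nat_lit 305) (nat_lit 298) (nat_lit 297)) (XT.nd (nat_lit 78) (nat_lit 76) (nat_lit 0) (XT.lf (nat_lit 0) (nat_lit 1315328384) (nat_lit 228) (nat_lit 5119847609) (nat_lit 228) (nat_lit 116565808) (nat_lit 158) (nat_lit 4) (nat_lit 161) (nat_lit 5) (nat_lit 161) (nat_lit 4) (nat_lit 306) (nat_lit 298) (nat_lit 296)) (XT.lf (nat_lit 0) (nat_lit 2859310621) (nat_lit 304) (nat_lit 1466100044) (nat_lit 76) (nat_lit 2268914165) (nat_lit 157) (nat_lit 5) (nat_lit 161) (nat_lit 5) (nat_lit 158) (nat_lit 4) (nat_lit 307) (nat_lit 298) (nat_lit 295)))))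 (XT.nd (nat_lit 234) (nat_lit 1064) (nat_lit 0) (XT.nd (nat_lit 78) (nat_lit 456) (nat_lit 0) (XT.lf (nat_lit 0) (nat_lit 2447787569) (nat_lit 304) (nat_lit 3400599480) (nat_lit 380) (nat_lit 797384061) (nat_lit 153) (nat_lit 5) (nat_lit 157) (nat_lit 5) (nat_lit 158) (nat_lit 4) (nat_lit 308) (nat_lit 298) (nat_lit 294)) (XT.nd (nat_lit 78) (nat_lit 380) (nat_lit 0) (XT.lf (nat_lit 0) (nat_lit 2072584122) (nat_lit 380) (nat_lit 251542615) (nat_lit 76) (nat_lit 4381167569) (nat_lit 152) (nat_lit 5) (nat_lit 157) (nat_lit 5) (nat_lit 153) (nat_lit 5) (nat_lit 309) (nat_lit 298) (nat_lit 293)) (XT.lf (nat_lit 0) (nat_lit 3884281066) (nat_lit 380) (nat_lit 1076971824) (nat_lit 456) (nat_lit 1810999553) (nat_lit 147) (nat_lit 5) (nat_lit 152) (nat_lit 5) (nat_lit 153) (nat_lit 5) (nat_lit 310) (nat_lit 298) (nat_lit 292)))) (XT.nd (nat_lit 78) (nat_lit 532) (nat_lit 0) (XT.lf (nat_lit 0) (nat_lit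 988684526) (nat_lit 532) (nat_lit 5559205821) (nat_lit 76) (nat_lit 300273980) (nat_lit 140) (nat_lit 5) (nat_lit 147) (nat_lit 5) (nat_lit 141) (nat_lit 5) (nat_lit 311) (nat_lit 298) (nat_lit 291)) (XT.nd (nat_lit 78) (nat_lit 532) (nat_lit 0) (XT.lf (nat_lit 0) (nat_lit 3785221045) (nat_lit 532) (nat_lit 1327348598) (nat_lit 76) (nat_lit 1818114690) (nat_lit 140) (nat_lit 5) (nat_lit 147) (nat_lit 5) (nat_lit 141) (nat_lit 5) (nat_lit 312) (nat_lit 298) (nat_lit 290)) (XT.lf (nat_lit 0) (nat_lit 3092435497) (nat_lit 532) (nat_lit 3534919463) (nat_lit 608) (nat_lit 394861552) (nat_lit 133) (nat_lit 5) (nat_lit 140) (nat_lit 5) (nat_lit 141) (nat_lit 5) (nat_lit 313) (nat_lit 298) (nat_lit 289)))))) (XT.nd (nat_lit 468) (nat_lit 1444) (nat_lit 0) (XT.nd (nat_lit 234) (nat_lit 1216) (nat_lit 0) (XT.nd (nat_lit 78) (nat_lit 760) (nat_lit 0) (XT.lf (nat_lit 0) (nat_lit 513785440) (nat_lit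 608) (nat_lit 1790528411) (nat_lit 684) (nat_lit 4817681373) (nat_lit 124) (nat_lit 5) (nat_lit 132) (nat_lit 5) (nat_lit 133) (nat_lit 5) (nat_lit 314) (nat_lit 298) (nat_lit 288)) (XT.nd (nat_lit 78) (nat_lit 760) (nat_lit 0) (XT.lf (nat_lit 0) (nat_lit 5058363521) (nat_lit 684) (nat_lit 2046207729) (nat_lit 76) (nat_lit 125359606) (nat_lit 124) (nat_lit 5) (nat_lit 133) (nat_lit 5) (nat_lit 125) (nat_lit 5) (nat_lit 315) (nat_lit 298) (nat_lit 287)) (XT.lf (nat_lit 0) (nat_lit 528811353) (nat_lit 760) (nat_lit 4678941425) (nat_lit 76) (nat_lit 2138104541) (nat_lit 114) (nat_lit 5) (nat_lit 124) (nat_lit 5) (nat_lit 115) (nat_lit 5) (nat_lit 316) (nat_lit 298) (nat_lit 286)))) (XT.nd (nat_lit 78) (nat_lit 456) (nat_lit 0) (XT.lf (nat_lit 0) (nat_lit 60014762) (nat_lit 760) (nat_lit 3140752222) (nat_lit 836) (nat_lit 4269686669) (nat_lit 104) (nat_lit 5) (nat_lit 114) (nat_lit 5) (nat_lit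 115) (nat_lit 5) (nat_lit 317) (nat_lit 298) (nat_lit 285)) (XT.nd (nat_lit 78) (nat_lit 456) (nat_lit 0) (XT.lf (nat_lit 0) (nat_lit 5073776893) (nat_lit 760) (nat_lit 889246440) (nat_lit 836) (nat_lit 1640545481) (nat_lit 104) (nat_lit 5) (nat_lit 114) (nat_lit 5) (nat_lit 115) (nat_lit 5) (nat_lit 318) (nat_lit 298) (nat_lit 284)) (XT.lf (nat_lit 0) (nat_lit 1028966676) (nat_lit 456) (nat_lit 5234560950) (nat_lit 76) (nat_lit 1481812234) (nat_lit 98) (nat_lit 5) (nat_lit 104) (nat_lit 5) (nat_lit 99) (nat_lit 5) (nat_lit 319) (nat_lit 298) (nat_lit 283))))) (XT.nd (nat_lit 234) (nat_lit 684) (nat_lit 0) (XT.nd (nat_lit 78) (nat_lit 760) (nat_lit 0) (XT.lf (nat_lit 0) (nat_lit 3719894435) (nat_lit 456) (nat_lit 169501247) (nat_lit 76) (nat_lit 4006412665) (nat_lit 98) (nat_lit 5) (nat_lit 104) (nat_lit 5) (nat_lit 99) (nat_lit 5) (nat_lit 320) (nat_lit 298) (nat_lit 282)) (XT.nd (nat_lit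 78) (nat_lit 456) (nat_lit 0) (XT.lf (nat_lit 0) (nat_lit 5194617791) (nat_lit 304) (nat_lit 1322281589) (nat_lit 380) (nat_lit 1538426482) (nat_lit 94) (nat_lit 5) (nat_lit 98) (nat_lit 5) (nat_lit 99) (nat_lit 5) (nat_lit 321) (nat_lit 298) (nat_lit 281)) (XT.lf (nat_lit 0) (nat_lit 1148467947) (nat_lit 456) (nat_lit 5697113347) (nat_lit 76) (nat_lit 1378523178) (nat_lit 88) (nat_lit 5) (nat_lit 94) (nat_lit 5) (nat_lit 89) (nat_lit 5) (nat_lit 322) (nat_lit 298) (nat_lit 280)))) (XT.nd (nat_lit 156) (nat_lit 380) (nat_lit 0) (XT.nd (nat_lit 78) (nat_lit 304) (nat_lit 0) (XT.lf (nat_lit 0) (nat_lit 3883911805) (nat_lit 456) (nat_lit 288489353) (nat_lit 76) (nat_lit 4229452790) (nat_lit 88) (nat_lit 5) (nat_lit 94) (nat_lit 5) (nat_lit 89) (nat_lit 5) (nat_lit 323) (nat_lit 298) (nat_lit 279)) (XT.lf (nat_lit 0) (nat_lit 5445531870) (nat_lit 304) (nat_lit 1295604074) (nat_lit 380) (nat_lit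 1848188583) (nat_lit 84) (nat_lit 5) (nat_lit 88) (nat_lit 5) (nat_lit 89) (nat_lit 5) (nat_lit 324) (nat_lit 298) (nat_lit 278))) (XT.nd (nat_lit 78) (nat_lit 0) (nat_lit 0) (XT.lf (nat_lit 0) (nat_lit 899493430) (nat_lit 380) (nat_lit 6176639395) (nat_lit 76) (nat_lit 1710616060) (nat_lit 79) (nat_lit 5) (nat_lit 84) (nat_lit 5) (nat_lit 80) (nat_lit 5) (nat_lit 325) (nat_lit 298) (nat_lit 277)) (XT.lf (nat_lit 0) (nat_lit 3701541122) (nat_lit 380) (nat_lit 406245376) (nat_lit 76) (nat_lit 4885861002) (nat_lit 79) (nat_lit 5) (nat_lit 84) (nat_lit 5) (nat_lit 80) (nat_lit 5) (nat_lit 326) (nat_lit 298) (nat_lit 276))))))) (XT.nd (nat_lit 936) (nat_lit 1444) (nat_lit 0) (XT.nd (nat_lit 468) (nat_lit 912) (nat_lit 0) (XT.nd (nat_lit 234) (nat_lit 532) (nat_lit 0) (XT.nd (nat_lit 78) (nat_lit 380) (nat_lit 0) (XT.lf (nat_lit 0) (nat_lit 5718255144) (nat_lit 228) (nat_lit 923036863) (nat_lit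 304) (nat_lit 2569788137) (nat_lit 76) (nat_lit 5) (nat_lit 79) (nat_lit 5) (nat_lit 80) (nat_lit 5) (nat_lit 327) (nat_lit 298) (nat_lit 275)) (XT.nd (nat_lit 78) (nat_lit 0) (nat_lit 0) (XT.lf (nat_lit 0) (nat_lit 275946470) (nat_lit 380) (nat_lit 6792723015) (nat_lit 76) (nat_lit 2370725366) (nat_lit 71) (nat_lit 5) (nat_lit 76) (nat_lit 5) (nat_lit 72) (nat_lit 5) (nat_lit 328) (nat_lit 298) (nat_lit 274)) (XT.lf (nat_lit 0) (nat_lit 3164268905) (nat_lit 380) (nat_lit 640697499) (nat_lit 76) (nat_lit 5872779086) (nat_lit 71) (nat_lit 5) (nat_lit 76) (nat_lit 5) (nat_lit 72) (nat_lit 5) (nat_lit 329) (nat_lit 298) (nat_lit 273)))) (XT.nd (nat_lit 78) (nat_lit 304) (nat_lit 0) (XT.lf (nat_lit 0) (nat_lit 5892569054) (nat_lit 228) (nat_lit 312065239) (nat_lit 304) (nat_lit 3723054906) (nat_lit 68) (nat_lit 5) (nat_lit 71) (nat_lit 5) (nat_lit 72) (nat_lit 5) (nat_lit 330) (nat_lit 298)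 (nat_lit 272)) (XT.nd (nat_lit 78) (nat_lit 76) (nat_lit 0) (XT.lf (nat_lit 0) (nat_lit 2495684566) (nat_lit 228) (nat_lit 6921110299) (nat_lit 304) (nat_lit 772400551) (nat_lit 65) (nat_lit 5) (nat_lit 68) (nat_lit 5) (nat_lit 69) (nat_lit 5) (nat_lit 331) (nat_lit 298) (nat_lit 271)) (XT.lf (nat_lit 0) (nat_lit 2244085698) (nat_lit 304) (nat_lit 1127441364) (nat_lit 76) (nat_lit 7090846470) (nat_lit 64) (nat_lit 5) (nat_lit 68) (nat_lit 5) (nat_lit 65) (nat_lit 5) (nat_lit 332) (nat_lit 298) (nat_lit 270))))) (XT.nd (nat_lit 234) (nat_lit 380) (nat_lit 0) (XT.nd (nat_lit 78) (nat_lit 304) (nat_lit 0) (XT.lf (nat_lit 0) (nat_lit 5405222720) (nat_lit 304) (nat_lit 4925912485) (nat_lit 76) (nat_lit 416499817) (nat_lit 61) (nat_lit 5) (nat_lit 65) (nat_lit 5) (nat_lit 62) (nat_lit 5) (nat_lit 333) (nat_lit 298) (nat_lit 269)) (XT.nd (nat_lit 78) (nat_lit 76) (nat_lit 0) (XT.lf (nat_lit 0)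 (nat_lit 2006364643) (nat_lit 228) (nat_lit 6747572180) (nat_lit 304) (nat_lit 2291791318) (nat_lit 58) (nat_lit 5) (nat_lit 61) (nat_lit 5) (nat_lit 62) (nat_lit 5) (nat_lit 334) (nat_lit 298) (nat_lit 268)) (XT.lf (nat_lit 0) (nat_lit 891133324) (nat_lit 304) (nat_lit 2028145505) (nat_lit 76) (nat_lit 8438328973) (nat_lit 57) (nat_lit 5) (nat_lit 61) (nat_lit 5) (nat_lit 58) (nat_lit 5) (nat_lit 335) (nat_lit 298) (nat_lit 267)))) (XT.nd (nat_lit 78) (nat_lit 228) (nat_lit 0) (XT.lf (nat_lit 0) (nat_lit 4186210488) (nat_lit 228) (nat_lit 6342515624) (nat_lit 76) (nat_lit 1153014038) (nat_lit 55) (nat_lit 5) (nat_lit 58) (nat_lit 5) (nat_lit 56) (nat_lit 5) (nat_lit 336) (nat_lit 298) (nat_lit 266)) (XT.nd (nat_lit 78) (nat_lit 0) (nat_lit 0) (XT.lf (nat_lit 0) (nat_lit 998493312) (nat_lit 228) (nat_lit 6674865311) (nat_lit 304) (nat_lit 4347391300) (nat_lit 52) (nat_lit 5) (nat_lit 55)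 (nat_lit 5) (nat_lit 56) (nat_lit 5) (nat_lit 337) (nat_lit 298) (nat_lit 265)) (XT.lf (nat_lit 0) (nat_lit 8818467092) (nat_lit 228) (nat_lit 2554462992) (nat_lit 304) (nat_lit 1001911723) (nat_lit 52) (nat_lit 5) (nat_lit 55) (nat_lit 5) (nat_lit 56) (nat_lit 5) (nat_lit 338) (nat_lit 298) (nat_lit 264)))))) (XT.nd (nat_lit 468) (nat_lit 684) (nat_lit 0) (XT.nd (nat_lit 234) (nat_lit 380) (nat_lit 0) (XT.nd (nat_lit 78) (nat_lit 152) (nat_lit 0) (XT.lf (nat_lit 0) (nat_lit 2458869800) (nat_lit 228) (nat_lit 8498487118) (nat_lit 76) (nat_lit 1785933447) (nat_lit 49) (nat_lit 5) (nat_lit 52) (nat_lit 5) (nat_lit 50) (nat_lit 5) (nat_lit 339) (nat_lit 298) (nat_lit 263)) (XT.nd (nat_lit 78) (nat_lit 152) (nat_lit 0) (XT.lf (nat_lit 0) (nat_lit 6095936589) (nat_lit 228) (nat_lit 733323156) (nat_lit 76) (nat_lit 6298264680) (nat_lit 49) (nat_lit 5) (nat_lit 52) (nat_lit 5) (nat_lit 50) (nat_lit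 5) (nat_lit 340) (nat_lit 298) (nat_lit 262)) (XT.lf (nat_lit 0) (nat_lit 7560762943) (nat_lit 152) (nat_lit 2409113963) (nat_lit 228) (nat_lit 3558371000) (nat_lit 47) (nat_lit 5) (nat_lit 49) (nat_lit 5) (nat_lit 50) (nat_lit 5) (nat_lit 341) (nat_lit 298) (nat_lit 261)))) (XT.nd (nat_lit 78) (nat_lit 152) (nat_lit 0) (XT.lf (nat_lit 0) (nat_lit 106921820) (nat_lit 228) (nat_lit 11667291749) (nat_lit 76) (nat_lit 2173688562) (nat_lit 44) (nat_lit 5) (nat_lit 47) (nat_lit 5) (nat_lit 45) (nat_lit 5) (nat_lit 342) (nat_lit 298) (nat_lit 260)) (XT.nd (nat_lit 78) (nat_lit 152) (nat_lit 0) (XT.lf (nat_lit 0) (nat_lit 3916301523) (nat_lit 228) (nat_lit 3437306836) (nat_lit 76) (nat_lit 7028018482) (nat_lit 44) (nat_lit 5) (nat_lit 47) (nat_lit 5) (nat_lit 45) (nat_lit 5) (nat_lit 343) (nat_lit 298) (nat_lit 259)) (XT.lf (nat_lit 0) (nat_lit 5275281562) (nat_lit 152) (nat_lit 2664367879) (nat_lit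 228) (nat_lit 6896237020) (nat_lit 42) (nat_lit 5) (nat_lit 44) (nat_lit 5) (nat_lit 45) (nat_lit 5) (nat_lit 344) (nat_lit 298) (nat_lit 258))))) (XT.nd (nat_lit 234) (nat_lit 304) (nat_lit 0) (XT.nd (nat_lit 78) (nat_lit 380) (nat_lit 0) (XT.lf (nat_lit 0) (nat_lit 12200442340) (nat_lit 228) (nat_lit 901801578) (nat_lit 76) (nat_lit 2208823773) (nat_lit 42) (nat_lit 5) (nat_lit 45) (nat_lit 5) (nat_lit 43) (nat_lit 4) (nat_lit 345) (nat_lit 298) (nat_lit 257)) (XT.nd (nat_lit 78) (nat_lit 152) (nat_lit 0) (XT.lf (nat_lit 0) (nat_lit 956684375) (nat_lit 228) (nat_lit 7500806795) (nat_lit 76) (nat_lit 7345858576) (nat_lit 39) (nat_lit 5) (nat_lit 42) (nat_lit 5) (nat_lit 40) (nat_lit 5) (nat_lit 346) (nat_lit 298) (nat_lit 256)) (XT.lf (nat_lit 0) (nat_lit 1584294329) (nat_lit 152) (nat_lit 3523681090) (nat_lit 228) (nat_lit 11210482574) (nat_lit 37) (nat_lit 5) (nat_lit 39) (nat_lit 5)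 (nat_lit 40) (nat_lit 5) (nat_lit 347) (nat_lit 298) (nat_lit 255)))) (XT.nd (nat_lit 156) (nat_lit 228) (nat_lit 0) (XT.nd (nat_lit 78) (nat_lit 76) (nat_lit 0) (XT.lf (nat_lit 0) (nat_lit 9567281063) (nat_lit 228) (nat_lit 5591551899) (nat_lit 76) (nat_lit 1695484705) (nat_lit 37) (nat_lit 5) (nat_lit 40) (nat_lit 5) (nat_lit 38) (nat_lit 4) (nat_lit 348) (nat_lit 298) (nat_lit 254)) (XT.lf (nat_lit 0) (nat_lit 3987878129) (nat_lit 76) (nat_lit 10329767939) (nat_lit 152) (nat_lit 3095937190) (nat_lit 36) (nat_lit 5) (nat_lit 37) (nat_lit 5) (nat_lit 38) (nat_lit 4) (nat_lit 349) (nat_lit 298) (nat_lit 253))) (XT.nd (nat_lit 78) (nat_lit 152) (nat_lit 0) (XT.lf (nat_lit 0) (nat_lit 1307510882) (nat_lit 152) (nat_lit 3868049069) (nat_lit 76) (nat_lit 12822022019) (nat_lit 35) (nat_lit 5) (nat_lit 37) (nat_lit 5) (nat_lit 36) (nat_lit 5) (nat_lit 350) (nat_lit 298) (nat_lit 252)) (XT.lf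 (nat_lit 0) (nat_lit 5880662034) (nat_lit 228) (nat_lit 12381409103) (nat_lit 76) (nat_lit 343508339) (nat_lit 33) (nat_lit 5) (nat_lit 36) (nat_lit 5) (nat_lit 34) (nat_lit 4) (nat_lit 351) (nat_lit 298) (nat_lit 251))))))))
noncomputable def xc96 : XT := (XT.nd (nat_lit 1872) (nat_lit 684) (nat_lit 0) (XT.nd (nat_lit 936) (nat_lit 532) (nat_lit 0) (XT.nd (nat_lit 468) (nat_lit 456) (nat_lit 0) (XT.nd (nat_lit 234) (nat_lit 228) (nat_lit 0) (XT.nd (nat_lit 78) (nat_lit 152) (nat_lit 0) (XT.lf (nat_lit 0) (nat_lit 10785114170) (nat_lit 228) (nat_lit 2457942377) (nat_lit 76) (nat_lit 5995802648) (nat_lit 33) (nat_lit 5) (nat_lit 36) (nat_lit 5) (nat_lit 34) (nat_lit 4) (nat_lit 352) (nat_lit 298) (nat_lit 250)) (XT.nd (nat_lit 78) (nat_lit 76) (nat_lit 0) (XT.lf (nat_lit 0) (nat_lit 8139731874) (nat_lit 76) (nat_lit 7875681072) (nat_lit 152) (nat_lit 3884372571) (nat_lit 32) (nat_lit 5)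 (nat_lit 33) (nat_lit 5) (nat_lit 34) (nat_lit 4) (nat_lit 353) (nat_lit 298) (nat_lit 249)) (XT.lf (nat_lit 0) (nat_lit 880267062) (nat_lit 152) (nat_lit 1336697149) (nat_lit 76) (nat_lit 18376291625) (nat_lit 31) (nat_lit 5) (nat_lit 33) (nat_lit 5) (nat_lit 32) (nat_lit 5) (nat_lit 354) (nat_lit 298) (nat_lit 248)))) (XT.nd (nat_lit 78) (nat_lit 76) (nat_lit 0) (XT.lf (nat_lit 0) (nat_lit 5922353570) (nat_lit 228) (nat_lit 11595600351) (nat_lit 76) (nat_lit 3791786010) (nat_lit 29) (nat_lit 5) (nat_lit 32) (nat_lit 5) (nat_lit 30) (nat_lit 4) (nat_lit 355) (nat_lit 298) (nat_lit 247)) (XT.nd (nat_lit 78) (nat_lit 76) (nat_lit 0) (XT.lf (nat_lit 0) (nat_lit 11232179746) (nat_lit 228) (nat_lit 812832338) (nat_lit 76) (nat_lit 10016265748) (nat_lit 29) (nat_lit 5) (nat_lit 32) (nat_lit 5) (nat_lit 30) (nat_lit 4) (nat_lit 356) (nat_lit 298) (nat_lit 246)) (XT.lf (nat_lit 0) (nat_lit 10778701300)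 (nat_lit 76) (nat_lit 6155446374) (nat_lit 152) (nat_lit 5909923258) (nat_lit 28) (nat_lit 5) (nat_lit 29) (nat_lit 5) (nat_lit 30) (nat_lit 4) (nat_lit 357) (nat_lit 298) (nat_lit 245))))) (XT.nd (nat_lit 234) (nat_lit 228) (nat_lit 0) (XT.nd (nat_lit 78) (nat_lit 228) (nat_lit 0) (XT.lf (nat_lit 0) (nat_lit 22894321210) (nat_lit 152) (nat_lit 763629710) (nat_lit 0) (nat_lit 9407719) (nat_lit 28) (nat_lit 5) (nat_lit 30) (nat_lit 4) (nat_lit 28) (nat_lit 4) (nat_lit 358) (nat_lit 298) (nat_lit 244)) (XT.nd (nat_lit 78) (nat_lit 0) (nat_lit 0) (XT.lf (nat_lit 0) (nat_lit 4714531450) (nat_lit 228) (nat_lit 13304348716) (nat_lit 76) (nat_lit 6497246331) (nat_lit 25) (nat_lit 5) (nat_lit 28) (nat_lit 5) (nat_lit 26) (nat_lit 4) (nat_lit 359) (nat_lit 298) (nat_lit 243)) (XT.lf (nat_lit 0) (nat_lit 10424407142) (nat_lit 228) (nat_lit 1679317546) (nat_lit 76) (nat_lit 13304287956) (nat_lit 25)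 (nat_lit 5) (nat_lit 28) (nat_lit 5) (nat_lit 26) (nat_lit 4) (nat_lit 360) (nat_lit 298) (nat_lit 242)))) (XT.nd (nat_lit 78) (nat_lit 152) (nat_lit 0) (XT.lf (nat_lit 0) (nat_lit 10803985116) (nat_lit 76) (nat_lit 5747103464) (nat_lit 152) (nat_lit 9786847402) (nat_lit 24) (nat_lit 5) (nat_lit 25) (nat_lit 5) (nat_lit 26) (nat_lit 4) (nat_lit 361) (nat_lit 298) (nat_lit 241)) (XT.nd (nat_lit 78) (nat_lit 152) (nat_lit 0) (XT.lf (nat_lit 0) (nat_lit 22990359052) (nat_lit 152) (nat_lit 3427145034) (nat_lit 0) (nat_lit 896546733) (nat_lit 24) (nat_lit 5) (nat_lit 26) (nat_lit 4) (nat_lit 24) (nat_lit 4) (nat_lit 362) (nat_lit 298) (nat_lit 240)) (XT.lf (nat_lit 0) (nat_lit 1576810355) (nat_lit 152) (nat_lit 18927343346) (nat_lit 76) (nat_lit 7823252204) (nat_lit 22) (nat_lit 5) (nat_lit 24) (nat_lit 5) (nat_lit 23) (nat_lit 4) (nat_lit 363) (nat_lit 298) (nat_lit 239)))))) (XT.nd (nat_lit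 468) (nat_lit 304) (nat_lit 0) (XT.nd (nat_lit 234) (nat_lit 152) (nat_lit 0) (XT.nd (nat_lit 78) (nat_lit 76) (nat_lit 0) (XT.lf (nat_lit 0) (nat_lit 7650761673) (nat_lit 152) (nat_lit 6538592910) (nat_lit 76) (nat_lit 15197350708) (nat_lit 22) (nat_lit 5) (nat_lit 24) (nat_lit 5) (nat_lit 23) (nat_lit 4) (nat_lit 364) (nat_lit 298) (nat_lit 238)) (XT.nd (nat_lit 78) (nat_lit 0) (nat_lit 0) (XT.lf (nat_lit 0) (nat_lit 6618723361) (nat_lit 76) (nat_lit 7479439870) (nat_lit 152) (nat_lit 16397325430) (nat_lit 21) (nat_lit 5) (nat_lit 22) (nat_lit 5) (nat_lit 23) (nat_lit 4) (nat_lit 365) (nat_lit 298) (nat_lit 237)) (XT.lf (nat_lit 0) (nat_lit 20599209945) (nat_lit 76) (nat_lit 346510932) (nat_lit 152) (nat_lit 10710107350) (nat_lit 21) (nat_lit 5) (nat_lit 22) (nat_lit 5) (nat_lit 23) (nat_lit 4) (nat_lit 366) (nat_lit 298) (nat_lit 236)))) (XT.nd (nat_lit 78) (nat_lit 76) (nat_lit 0) (XT.lf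 (nat_lit 0) (nat_lit 2306939278) (nat_lit 76) (nat_lit 25944451380) (nat_lit 76) (nat_lit 4617013430) (nat_lit 20) (nat_lit 4) (nat_lit 21) (nat_lit 5) (nat_lit 21) (nat_lit 4) (nat_lit 367) (nat_lit 298) (nat_lit 235)) (XT.nd (nat_lit 78) (nat_lit 0) (nat_lit 0) (XT.lf (nat_lit 0) (nat_lit 1888010188) (nat_lit 152) (nat_lit 17506261500) (nat_lit 76) (nat_lit 14737738928) (nat_lit 19) (nat_lit 5) (nat_lit 21) (nat_lit 5) (nat_lit 20) (nat_lit 4) (nat_lit 368) (nat_lit 298) (nat_lit 234)) (XT.lf (nat_lit 0) (nat_lit 8532904303) (nat_lit 152) (nat_lit 3931128027) (nat_lit 76) (nat_lit 22992496847) (nat_lit 19) (nat_lit 5) (nat_lit 21) (nat_lit 5) (nat_lit 20) (nat_lit 4) (nat_lit 369) (nat_lit 298) (nat_lit 233))))) (XT.nd (nat_lit 234) (nat_lit 152) (nat_lit 0) (XT.nd (nat_lit 78) (nat_lit 76) (nat_lit 0) (XT.lf (nat_lit 0) (nat_lit 10607859628) (nat_lit 76) (nat_lit 5039022144) (nat_lit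 152) (nat_lit 21193554923) (nat_lit 18) (nat_lit 5) (nat_lit 19) (nat_lit 5) (nat_lit 20) (nat_lit 4) (nat_lit 370) (nat_lit 298) (nat_lit 232)) (XT.nd (nat_lit 78) (nat_lit 76) (nat_lit 0) (XT.lf (nat_lit 0) (nat_lit 23198633081) (nat_lit 152) (nat_lit 12378638406) (nat_lit 0) (nat_lit 2712169078) (nat_lit 18) (nat_lit 5) (nat_lit 20) (nat_lit 4) (nat_lit 18) (nat_lit 4) (nat_lit 371) (nat_lit 298) (nat_lit 231)) (XT.lf (nat_lit 0) (nat_lit 2100658236) (nat_lit 76) (nat_lit 29115441406) (nat_lit 76) (nat_lit 8590393099) (nat_lit 17) (nat_lit 4) (nat_lit 18) (nat_lit 5) (nat_lit 18) (nat_lit 4) (nat_lit 372) (nat_lit 298) (nat_lit 230)))) (XT.nd (nat_lit 78) (nat_lit 152) (nat_lit 0) (XT.lf (nat_lit 0) (nat_lit 17682550034) (nat_lit 76) (nat_lit 22134751960) (nat_lit 76) (nat_lit 1572956695) (nat_lit 17) (nat_lit 4) (nat_lit 18) (nat_lit 5) (nat_lit 18) (nat_lit 4) (nat_lit 373) (nat_lit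 298) (nat_lit 229)) (XT.nd (nat_lit 78) (nat_lit 76) (nat_lit 0) (XT.lf (nat_lit 0) (nat_lit 5583941359) (nat_lit 152) (nat_lit 9149712580) (nat_lit 76) (nat_lit 28316334933) (nat_lit 16) (nat_lit 5) (nat_lit 18) (nat_lit 5) (nat_lit 17) (nat_lit 4) (nat_lit 374) (nat_lit 298) (nat_lit 228)) (XT.lf (nat_lit 0) (nat_lit 6263679321) (nat_lit 76) (nat_lit 6855248611) (nat_lit 152) (nat_lit 31668836762) (nat_lit 15) (nat_lit 5) (nat_lit 16) (nat_lit 5) (nat_lit 17) (nat_lit 4) (nat_lit 375) (nat_lit 298) (nat_lit 227))))))) (XT.nd (nat_lit 936) (nat_lit 380) (nat_lit 0) (XT.nd (nat_lit 468) (nat_lit 76) (nat_lit 0) (XT.nd (nat_lit 234) (nat_lit 152) (nat_lit 0) (XT.nd (nat_lit 78) (nat_lit 76) (nat_lit 0) (XT.lf (nat_lit 0) (nat_lit 21185699256) (nat_lit 152) (nat_lit 23911250494) (nat_lit 0) (nat_lit 1507731310) (nat_lit 15) (nat_lit 5) (nat_lit 17) (nat_lit 4) (nat_lit 15) (nat_lit 4) (nat_lit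 376) (nat_lit 298) (nat_lit 226)) (XT.nd (nat_lit 78) (nat_lit 76) (nat_lit 0) (XT.lf (nat_lit 0) (nat_lit 29744776772) (nat_lit 152) (nat_lit 8725204825) (nat_lit 0) (nat_lit 10038016623) (nat_lit 15) (nat_lit 5) (nat_lit 17) (nat_lit 4) (nat_lit 15) (nat_lit 4) (nat_lit 377) (nat_lit 298) (nat_lit 225)) (XT.lf (nat_lit 0) (nat_lit 7414550446) (nat_lit 76) (nat_lit 31410721058) (nat_lit 76) (nat_lit 11676539764) (nat_lit 14) (nat_lit 4) (nat_lit 15) (nat_lit 5) (nat_lit 15) (nat_lit 4) (nat_lit 378) (nat_lit 298) (nat_lit 224)))) (XT.nd (nat_lit 78) (nat_lit 152) (nat_lit 0) (XT.lf (nat_lit 0) (nat_lit 24622000302) (nat_lit 76) (nat_lit 23863660447) (nat_lit 76) (nat_lit 4103363776) (nat_lit 14) (nat_lit 4) (nat_lit 15) (nat_lit 5) (nat_lit 15) (nat_lit 4) (nat_lit 379) (nat_lit 298) (nat_lit 223)) (XT.nd (nat_lit 78) (nat_lit 76) (nat_lit 0) (XT.lf (nat_lit 0) (nat_lit 3704098107) (nat_lit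 152) (nat_lit 12191767336) (nat_lit 76) (nat_lit 38882791383) (nat_lit 13) (nat_lit 5) (nat_lit 15) (nat_lit 5) (nat_lit 14) (nat_lit 4) (nat_lit 380) (nat_lit 298) (nat_lit 222)) (XT.lf (nat_lit 0) (nat_lit 4407080007) (nat_lit 76) (nat_lit 7405571641) (nat_lit 152) (nat_lit 45259327387) (nat_lit 12) (nat_lit 5) (nat_lit 13) (nat_lit 5) (nat_lit 14) (nat_lit 4) (nat_lit 381) (nat_lit 298) (nat_lit 221))))) (XT.nd (nat_lit 234) (nat_lit 76) (nat_lit 0) (XT.nd (nat_lit 78) (nat_lit 0) (nat_lit 0) (XT.lf (nat_lit 0) (nat_lit 20539940207) (nat_lit 152) (nat_lit 37276486285) (nat_lit 0) (nat_lit 1652878000) (nat_lit 12) (nat_lit 5) (nat_lit 14) (nat_lit 4) (nat_lit 12) (nat_lit 4) (nat_lit 382) (nat_lit 298) (nat_lit 220)) (XT.nd (nat_lit 78) (nat_lit 0) (nat_lit 0) (XT.lf (nat_lit 0) (nat_lit 29805839467) (nat_lit 152) (nat_lit 21277231649) (nat_lit 0) (nat_lit 10898315179) (nat_lit 12) (nat_lit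 5) (nat_lit 14) (nat_lit 4) (nat_lit 12) (nat_lit 4) (nat_lit 383) (nat_lit 298) (nat_lit 219)) (XT.lf (nat_lit 0) (nat_lit 39516789366) (nat_lit 152) (nat_lit 4513419928) (nat_lit 0) (nat_lit 20589777382) (nat_lit 12) (nat_lit 5) (nat_lit 14) (nat_lit 4) (nat_lit 12) (nat_lit 4) (nat_lit 384) (nat_lit 298) (nat_lit 218)))) (XT.nd (nat_lit 78) (nat_lit 0) (nat_lit 0) (XT.lf (nat_lit 0) (nat_lit 13486515431) (nat_lit 76) (nat_lit 36419958083) (nat_lit 76) (nat_lit 17474386388) (nat_lit 11) (nat_lit 4) (nat_lit 12) (nat_lit 5) (nat_lit 12) (nat_lit 4) (nat_lit 385) (nat_lit 298) (nat_lit 217)) (XT.nd (nat_lit 78) (nat_lit 0) (nat_lit 0) (XT.lf (nat_lit 0) (nat_lit 32509967509) (nat_lit 76) (nat_lit 28365045204) (nat_lit 76) (nat_lit 9401797595) (nat_lit 11) (nat_lit 4) (nat_lit 12) (nat_lit 5) (nat_lit 12) (nat_lit 4) (nat_lit 386) (nat_lit 298) (nat_lit 216)) (XT.lf (nat_lit 0) (nat_lit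 52452996191) (nat_lit 76) (nat_lit 19922729246) (nat_lit 76) (nat_lit 942647432) (nat_lit 11) (nat_lit 4) (nat_lit 12) (nat_lit 5) (nat_lit 12) (nat_lit 4) (nat_lit 387) (nat_lit 298) (nat_lit 215)))))) (XT.nd (nat_lit 468) (nat_lit 152) (nat_lit 0) (XT.nd (nat_lit 234) (nat_lit 76) (nat_lit 0) (XT.nd (nat_lit 78) (nat_lit 76) (nat_lit 0) (XT.lf (nat_lit 0) (nat_lit 7669612894) (nat_lit 152) (nat_lit 3273407956) (nat_lit 76) (nat_lit 65563583380) (nat_lit 10) (nat_lit 5) (nat_lit 12) (nat_lit 5) (nat_lit 11) (nat_lit 4) (nat_lit 388) (nat_lit 298) (nat_lit 214)) (XT.nd (nat_lit 78) (nat_lit 0) (nat_lit 0) (XT.lf (nat_lit 0) (nat_lit 15654595078) (nat_lit 76) (nat_lit 1255638378) (nat_lit 152) (nat_lit 62931771417) (nat_lit 9) (nat_lit 5) (nat_lit 10) (nat_lit 5) (nat_lit 11) (nat_lit 4) (nat_lit 389) (nat_lit 298) (nat_lit 213)) (XT.lf (nat_lit 0) (nat_lit 26793498071) (nat_lit 152) (nat_lit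 47868079446) (nat_lit 0) (nat_lit 8673568997) (nat_lit 9) (nat_lit 5) (nat_lit 11) (nat_lit 4) (nat_lit 9) (nat_lit 4) (nat_lit 390) (nat_lit 298) (nat_lit 212)))) (XT.nd (nat_lit 78) (nat_lit 76) (nat_lit 0) (XT.lf (nat_lit 0) (nat_lit 37177283448) (nat_lit 152) (nat_lit 30781181115) (nat_lit 0) (nat_lit 19044164334) (nat_lit 9) (nat_lit 5) (nat_lit 11) (nat_lit 4) (nat_lit 9) (nat_lit 4) (nat_lit 391) (nat_lit 298) (nat_lit 211)) (XT.nd (nat_lit 78) (nat_lit 76) (nat_lit 0) (XT.lf (nat_lit 0) (nat_lit 48066708852) (nat_lit 152) (nat_lit 12866427679) (nat_lit 0) (nat_lit 29921027795) (nat_lit 9) (nat_lit 5) (nat_lit 11) (nat_lit 4) (nat_lit 9) (nat_lit 4) (nat_lit 392) (nat_lit 298) (nat_lit 210)) (XT.lf (nat_lit 0) (nat_lit 6114538453) (nat_lit 76) (nat_lit 53468628114) (nat_lit 76) (nat_lit 35310983303) (nat_lit 8) (nat_lit 4) (nat_lit 9) (nat_lit 5) (nat_lit 9) (nat_lit 4) (nat_lit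 393) (nat_lit 298) (nat_lit 209))))) (XT.nd (nat_lit 234) (nat_lit 152) (nat_lit 0) (XT.nd (nat_lit 78) (nat_lit 0) (nat_lit 0) (XT.lf (nat_lit 0) (nat_lit 26466424726) (nat_lit 76) (nat_lit 45414244526) (nat_lit 76) (nat_lit 27245205662) (nat_lit 8) (nat_lit 4) (nat_lit 9) (nat_lit 5) (nat_lit 9) (nat_lit 4) (nat_lit 394) (nat_lit 298) (nat_lit 208)) (XT.nd (nat_lit 78) (nat_lit 0) (nat_lit 0) (XT.lf (nat_lit 0) (nat_lit 47812265807) (nat_lit 76) (nat_lit 36968707842) (nat_lit 76) (nat_lit 18788817500) (nat_lit 8) (nat_lit 4) (nat_lit 9) (nat_lit 5) (nat_lit 9) (nat_lit 4) (nat_lit 395) (nat_lit 298) (nat_lit 207)) (XT.lf (nat_lit 0) (nat_lit 70202885126) (nat_lit 76) (nat_lit 28111909640) (nat_lit 76) (nat_lit 9921684557) (nat_lit 8) (nat_lit 4) (nat_lit 9) (nat_lit 5) (nat_lit 9) (nat_lit 4) (nat_lit 396) (nat_lit 298) (nat_lit 206)))) (XT.nd (nat_lit 156) (nat_lit 76) (nat_lit 0) (XT.nd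 (nat_lit 78) (nat_lit 76) (nat_lit 0) (XT.lf (nat_lit 0) (nat_lit 93691593681) (nat_lit 76) (nat_lit 18822762308) (nat_lit 76) (nat_lit 622694614) (nat_lit 8) (nat_lit 4) (nat_lit 9) (nat_lit 5) (nat_lit 9) (nat_lit 4) (nat_lit 397) (nat_lit 298) (nat_lit 205)) (XT.lf (nat_lit 0) (nat_lit 8838066393) (nat_lit 152) (nat_lit 91405502) (nat_lit 76) (nat_lit 109346573645) (nat_lit 7) (nat_lit 5) (nat_lit 9) (nat_lit 5) (nat_lit 8) (nat_lit 4) (nat_lit 398) (nat_lit 298) (nat_lit 204))) (XT.nd (nat_lit 78) (nat_lit 0) (nat_lit 0) (XT.lf (nat_lit 0) (nat_lit 19094782672) (nat_lit 152) (nat_lit 102815551033) (nat_lit 0) (nat_lit 1743954913) (nat_lit 6) (nat_lit 5) (nat_lit 8) (nat_lit 4) (nat_lit 6) (nat_lit 4) (nat_lit 399) (nat_lit 298) (nat_lit 203)) (XT.lf (nat_lit 0) (nat_lit 30002224140) (nat_lit 152) (nat_lit 86649027343) (nat_lit 0) (nat_lit 12643298841) (nat_lit 6) (nat_lit 5) (nat_lit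 8) (nat_lit 4) (nat_lit 6) (nat_lit 4) (nat_lit 400) (nat_lit 298) (nat_lit 202))))))))
noncomputable def xc97 : XT := (XT.nd (nat_lit 1950) (nat_lit 76) (nat_lit 0) (XT.nd (nat_lit 936) (nat_lit 152) (nat_lit 0) (XT.nd (nat_lit 468) (nat_lit 0) (nat_lit 0) (XT.nd (nat_lit 234) (nat_lit 76) (nat_lit 0) (XT.nd (nat_lit 78) (nat_lit 0) (nat_lit 0) (XT.lf (nat_lit 0) (nat_lit 41445448365) (nat_lit 152) (nat_lit 69693045994) (nat_lit 0) (nat_lit 24078811123) (nat_lit 6) (nat_lit 5) (nat_lit 8) (nat_lit 4) (nat_lit 6) (nat_lit 4) (nat_lit 401) (nat_lit 298) (nat_lit 201)) (XT.nd (nat_lit 78) (nat_lit 0) (nat_lit 0) (XT.lf (nat_lit 0) (nat_lit 53451701119) (nat_lit 152) (nat_lit 51907235601) (nat_lit 0) (nat_lit 36077719169) (nat_lit 6) (nat_lit 5) (nat_lit 8) (nat_lit 4) (nat_lit 6) (nat_lit 4) (nat_lit 402) (nat_lit 298) (nat_lit 200)) (XT.lf (nat_lit 0) (nat_lit 66049568716) (nat_lit 152)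 (nat_lit 33249248996) (nat_lit 0) (nat_lit 48668591807) (nat_lit 6) (nat_lit 5) (nat_lit 8) (nat_lit 4) (nat_lit 6) (nat_lit 4) (nat_lit 403) (nat_lit 298) (nat_lit 199)))) (XT.nd (nat_lit 78) (nat_lit 76) (nat_lit 0) (XT.lf (nat_lit 0) (nat_lit 79269046081) (nat_lit 152) (nat_lit 13674662403) (nat_lit 0) (nat_lit 61881407306) (nat_lit 6) (nat_lit 5) (nat_lit 8) (nat_lit 4) (nat_lit 6) (nat_lit 4) (nat_lit 404) (nat_lit 298) (nat_lit 198)) (XT.nd (nat_lit 78) (nat_lit 0) (nat_lit 0) (XT.lf (nat_lit 0) (nat_lit 7090056421) (nat_lit 76) (nat_lit 86162247389) (nat_lit 76) (nat_lit 68768263979) (nat_lit 5) (nat_lit 4) (nat_lit 6) (nat_lit 5) (nat_lit 6) (nat_lit 4) (nat_lit 405) (nat_lit 298) (nat_lit 197)) (XT.lf (nat_lit 0) (nat_lit 29352491779) (nat_lit 76) (nat_lit 78806067739) (nat_lit 76) (nat_lit 61406041820) (nat_lit 5) (nat_lit 4) (nat_lit 6) (nat_lit 5) (nat_lit 6) (nat_lit 4) (nat_lit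 406) (nat_lit 298) (nat_lit 196))))) (XT.nd (nat_lit 234) (nat_lit 0) (nat_lit 0) (XT.nd (nat_lit 78) (nat_lit 0) (nat_lit 0) (XT.lf (nat_lit 0) (nat_lit 52713503373) (nat_lit 76) (nat_lit 71089241846) (nat_lit 76) (nat_lit 53683461156) (nat_lit 5) (nat_lit 4) (nat_lit 6) (nat_lit 5) (nat_lit 6) (nat_lit 4) (nat_lit 407) (nat_lit 298) (nat_lit 195)) (XT.nd (nat_lit 78) (nat_lit 0) (nat_lit 0) (XT.lf (nat_lit 0) (nat_lit 77228712659) (nat_lit 76) (nat_lit 62993396314) (nat_lit 76) (nat_lit 45582134890) (nat_lit 5) (nat_lit 4) (nat_lit 6) (nat_lit 5) (nat_lit 6) (nat_lit 4) (nat_lit 408) (nat_lit 298) (nat_lit 194)) (XT.lf (nat_lit 0) (nat_lit 102956489184) (nat_lit 76) (nat_lit 54499255321) (nat_lit 76) (nat_lit 37082774151) (nat_lit 5) (nat_lit 4) (nat_lit 6) (nat_lit 5) (nat_lit 6) (nat_lit 4) (nat_lit 409) (nat_lit 298) (nat_lit 193)))) (XT.nd (nat_lit 78) (nat_lit 0) (nat_lit 0) (XT.lf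 (nat_lit 0) (nat_lit 129958089558) (nat_lit 76) (nat_lit 45586594722) (nat_lit 76) (nat_lit 28165142364) (nat_lit 5) (nat_lit 4) (nat_lit 6) (nat_lit 5) (nat_lit 6) (nat_lit 4) (nat_lit 410) (nat_lit 298) (nat_lit 192)) (XT.nd (nat_lit 78) (nat_lit 0) (nat_lit 0) (XT.lf (nat_lit 0) (nat_lit 158297803306) (nat_lit 76) (nat_lit 36234193897) (nat_lit 76) (nat_lit 18808007074) (nat_lit 5) (nat_lit 4) (nat_lit 6) (nat_lit 5) (nat_lit 6) (nat_lit 4) (nat_lit 411) (nat_lit 298) (nat_lit 191)) (XT.lf (nat_lit 0) (nat_lit 188043105937) (nat_lit 76) (nat_lit 26419785223) (nat_lit 76) (nat_lit 8989089388) (nat_lit 5) (nat_lit 4) (nat_lit 6) (nat_lit 5) (nat_lit 6) (nat_lit 4) (nat_lit 412) (nat_lit 298) (nat_lit 190)))))) (XT.nd (nat_lit 468) (nat_lit 0) (nat_lit 0) (XT.nd (nat_lit 234) (nat_lit 0) (nat_lit 0) (XT.nd (nat_lit 78) (nat_lit 76) (nat_lit 0) (XT.lf (nat_lit 0) (nat_lit 1272901208) (nat_lit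 152) (nat_lit 14825542655) (nat_lit 76) (nat_lit 217970361193) (nat_lit 4) (nat_lit 5) (nat_lit 6) (nat_lit 5) (nat_lit 5) (nat_lit 4) (nat_lit 413) (nat_lit 298) (nat_lit 189)) (XT.nd (nat_lit 78) (nat_lit 0) (nat_lit 0) (XT.lf (nat_lit 0) (nat_lit 6848267055) (nat_lit 76) (nat_lit 4999219284) (nat_lit 152) (nat_lit 233356537432) (nat_lit 3) (nat_lit 5) (nat_lit 4) (nat_lit 5) (nat_lit 5) (nat_lit 4) (nat_lit 414) (nat_lit 298) (nat_lit 188)) (XT.lf (nat_lit 0) (nat_lit 23304576664) (nat_lit 152) (nat_lit 226881518870) (nat_lit 0) (nat_lit 6692219524) (nat_lit 3) (nat_lit 5) (nat_lit 5) (nat_lit 4) (nat_lit 3) (nat_lit 4) (nat_lit 415) (nat_lit 298) (nat_lit 187)))) (XT.nd (nat_lit 78) (nat_lit 0) (nat_lit 0) (XT.lf (nat_lit 0) (nat_lit 35411408766) (nat_lit 152) (nat_lit 214925549494) (nat_lit 0) (nat_lit 18795518696) (nat_lit 3) (nat_lit 5) (nat_lit 5) (nat_lit 4) (nat_lit 3) (nat_lit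 4) (nat_lit 416) (nat_lit 298) (nat_lit 186)) (XT.nd (nat_lit 78) (nat_lit 0) (nat_lit 0) (XT.lf (nat_lit 0) (nat_lit 48118756615) (nat_lit 152) (nat_lit 202381330171) (nat_lit 0) (nat_lit 31499501850) (nat_lit 3) (nat_lit 5) (nat_lit 5) (nat_lit 4) (nat_lit 3) (nat_lit 4) (nat_lit 417) (nat_lit 298) (nat_lit 185)) (XT.lf (nat_lit 0) (nat_lit 61456875800) (nat_lit 152) (nat_lit 189218993713) (nat_lit 0) (nat_lit 44834416563) (nat_lit 3) (nat_lit 5) (nat_lit 5) (nat_lit 4) (nat_lit 3) (nat_lit 4) (nat_lit 418) (nat_lit 298) (nat_lit 184))))) (XT.nd (nat_lit 234) (nat_lit 0) (nat_lit 0) (XT.nd (nat_lit 78) (nat_lit 0) (nat_lit 0) (XT.lf (nat_lit 0) (nat_lit 75457523749) (nat_lit 152) (nat_lit 175407201222) (nat_lit 0) (nat_lit 58832012634) (nat_lit 3) (nat_lit 5) (nat_lit 5) (nat_lit 4) (nat_lit 3) (nat_lit 4) (nat_lit 419) (nat_lit 298) (nat_lit 183)) (XT.nd (nat_lit 78) (nat_lit 0) (nat_lit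 0) (XT.lf (nat_lit 0) (nat_lit 90154035336) (nat_lit 152) (nat_lit 160913067478) (nat_lit 0) (nat_lit 73525617671) (nat_lit 3) (nat_lit 5) (nat_lit 5) (nat_lit 4) (nat_lit 3) (nat_lit 4) (nat_lit 420) (nat_lit 298) (nat_lit 182)) (XT.lf (nat_lit 0) (nat_lit 105581402256) (nat_lit 152) (nat_lit 145702082640) (nat_lit 0) (nat_lit 88950216448) (nat_lit 3) (nat_lit 5) (nat_lit 5) (nat_lit 4) (nat_lit 3) (nat_lit 4) (nat_lit 421) (nat_lit 298) (nat_lit 181)))) (XT.nd (nat_lit 156) (nat_lit 0) (nat_lit 0) (XT.nd (nat_lit 78) (nat_lit 0) (nat_lit 0) (XT.lf (nat_lit 0) (nat_lit 121776356336) (nat_lit 152) (nat_lit 129738030077) (nat_lit 0) (nat_lit 105142534201) (nat_lit 3) (nat_lit 5) (nat_lit 5) (nat_lit 4) (nat_lit 3) (nat_lit 4) (nat_lit 422) (nat_lit 298) (nat_lit 180)) (XT.lf (nat_lit 0) (nat_lit 138777456989) (nat_lit 152) (nat_lit 112982900140) (nat_lit 0) (nat_lit 122141124067) (nat_lit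 3) (nat_lit 5) (nat_lit 5) (nat_lit 4) (nat_lit 3) (nat_lit 4) (nat_lit 423) (nat_lit 298) (nat_lit 179))) (XT.nd (nat_lit 78) (nat_lit 0) (nat_lit 0) (XT.lf (nat_lit 0) (nat_lit 156625183028) (nat_lit 152) (nat_lit 95396799662) (nat_lit 0) (nat_lit 139986458880) (nat_lit 3) (nat_lit 5) (nat_lit 5) (nat_lit 4) (nat_lit 3) (nat_lit 4) (nat_lit 424) (nat_lit 298) (nat_lit 178)) (XT.lf (nat_lit 0) (nat_lit 175362029037) (nat_lit 152) (nat_lit 76937856976) (nat_lit 0) (nat_lit 158721027531) (nat_lit 3) (nat_lit 5) (nat_lit 5) (nat_lit 4) (nat_lit 3) (nat_lit 4) (nat_lit 425) (nat_lit 298) (nat_lit 177))))))) (XT.nd (nat_lit 936) (nat_lit 0) (nat_lit 0) (XT.nd (nat_lit 468) (nat_lit 0) (nat_lit 0) (XT.nd (nat_lit 234) (nat_lit 76) (nat_lit 0) (XT.nd (nat_lit 78) (nat_lit 0) (nat_lit 0) (XT.lf (nat_lit 0) (nat_lit 195032606555) (nat_lit 152) (nat_lit 57562122218) (nat_lit 0) (nat_lit 178389436136)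 (nat_lit 3) (nat_lit 5) (nat_lit 5) (nat_lit 4) (nat_lit 3) (nat_lit 4) (nat_lit 426) (nat_lit 298) (nat_lit 176)) (XT.nd (nat_lit 78) (nat_lit 0) (nat_lit 0) (XT.lf (nat_lit 0) (nat_lit 215683750289) (nat_lit 152) (nat_lit 37223462685) (nat_lit 0) (nat_lit 199038514240) (nat_lit 3) (nat_lit 5) (nat_lit 5) (nat_lit 4) (nat_lit 3) (nat_lit 4) (nat_lit 427) (nat_lit 298) (nat_lit 175)) (XT.lf (nat_lit 0) (nat_lit 237364629631) (nat_lit 152) (nat_lit 15873453000) (nat_lit 0) (nat_lit 220717426314) (nat_lit 3) (nat_lit 5) (nat_lit 5) (nat_lit 4) (nat_lit 3) (nat_lit 4) (nat_lit 428) (nat_lit 298) (nat_lit 174)))) (XT.nd (nat_lit 78) (nat_lit 0) (nat_lit 0) (XT.lf (nat_lit 0) (nat_lit 6754940476) (nat_lit 76) (nat_lit 253477388797) (nat_lit 76) (nat_lit 236828311891) (nat_lit 2) (nat_lit 4) (nat_lit 3) (nat_lit 5) (nat_lit 3) (nat_lit 4) (nat_lit 429) (nat_lit 298) (nat_lit 173)) (XT.nd (nat_lit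 78) (nat_lit 0) (nat_lit 0) (XT.lf (nat_lit 0) (nat_lit 31060612855) (nat_lit 76) (nat_lit 253448984719) (nat_lit 76) (nat_lit 236798123444) (nat_lit 2) (nat_lit 4) (nat_lit 3) (nat_lit 5) (nat_lit 3) (nat_lit 4) (nat_lit 430) (nat_lit 298) (nat_lit 172)) (XT.lf (nat_lit 0) (nat_lit 56576586741) (nat_lit 76) (nat_lit 253421627377) (nat_lit 76) (nat_lit 236769066702) (nat_lit 2) (nat_lit 4) (nat_lit 3) (nat_lit 5) (nat_lit 3) (nat_lit 4) (nat_lit 431) (nat_lit 298) (nat_lit 171))))) (XT.nd (nat_lit 234) (nat_lit 0) (nat_lit 0) (XT.nd (nat_lit 78) (nat_lit 0) (nat_lit 0) (XT.lf (nat_lit 0) (nat_lit 83363614454) (nat_lit 76) (nat_lit 253395251635) (nat_lit 76) (nat_lit 236741072484) (nat_lit 2) (nat_lit 4) (nat_lit 3) (nat_lit 5) (nat_lit 3) (nat_lit 4) (nat_lit 432) (nat_lit 298) (nat_lit 170)) (XT.nd (nat_lit 78) (nat_lit 0) (nat_lit 0) (XT.lf (nat_lit 0) (nat_lit 111485474632) (nat_lit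 76) (nat_lit 253369794692) (nat_lit 76) (nat_lit 236714074135) (nat_lit 2) (nat_lit 4) (nat_lit 3) (nat_lit 5) (nat_lit 3) (nat_lit 4) (nat_lit 433) (nat_lit 298) (nat_lit 169)) (XT.lf (nat_lit 0) (nat_lit 141009124083) (nat_lit 76) (nat_lit 253345195937) (nat_lit 76) (nat_lit 236688007375) (nat_lit 2) (nat_lit 4) (nat_lit 3) (nat_lit 5) (nat_lit 3) (nat_lit 4) (nat_lit 434) (nat_lit 298) (nat_lit 168)))) (XT.nd (nat_lit 78) (nat_lit 0) (nat_lit 0) (XT.lf (nat_lit 0) (nat_lit 172004857212) (nat_lit 76) (nat_lit 253321396802) (nat_lit 76) (nat_lit 236662810140) (nat_lit 2) (nat_lit 4) (nat_lit 3) (nat_lit 5) (nat_lit 3) (nat_lit 4) (nat_lit 435) (nat_lit 298) (nat_lit 167)) (XT.nd (nat_lit 78) (nat_lit 0) (nat_lit 0) (XT.lf (nat_lit 0) (nat_lit 204546473383) (nat_lit 76) (nat_lit 253298340622) (nat_lit 76) (nat_lit 236638422436) (nat_lit 2) (nat_lit 4) (nat_lit 3) (nat_lit 5) (nat_lit 3)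 (nat_lit 4) (nat_lit 436) (nat_lit 298) (nat_lit 166)) (XT.lf (nat_lit 0) (nat_lit 238711452634) (nat_lit 76) (nat_lit 253275972502) (nat_lit 76) (nat_lit 236614786197) (nat_lit 2) (nat_lit 4) (nat_lit 3) (nat_lit 5) (nat_lit 3) (nat_lit 4) (nat_lit 437) (nat_lit 298) (nat_lit 165)))))) (XT.nd (nat_lit 36582) (nat_lit 0) (nat_lit 10488) (XT.nd (nat_lit 36348) (nat_lit 0) (nat_lit 12084) (XT.nd (nat_lit 78) (nat_lit 0) (nat_lit 0) (XT.lf (nat_lit 0) (nat_lit 274581140155) (nat_lit 76) (nat_lit 253254239183) (nat_lit 76) (nat_lit 236591845147) (nat_lit 2) (nat_lit 4) (nat_lit 3) (nat_lit 5) (nat_lit 3) (nat_lit 4) (nat_lit 438) (nat_lit 298) (nat_lit 164)) (XT.nd (nat_lit 36192) (nat_lit 0) (nat_lit 12388) (XT.lf (nat_lit 0) (nat_lit 312240939962) (nat_lit 76) (nat_lit 253233088920) (nat_lit 76) (nat_lit 236569544663) (nat_lit 2) (nat_lit 4) (nat_lit 3) (nat_lit 5) (nat_lit 3) (nat_lit 4)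 (nat_lit 439) (nat_lit 298) (nat_lit 163)) (XT.lf (nat_lit 0) (nat_lit 1609803469) (nat_lit 76) (nat_lit 6860701) (nat_lit 0) (nat_lit 1609803469) (nat_lit 165) (nat_lit 5) (nat_lit 166) (nat_lit 0) (nat_lit 165) (nat_lit 4) (nat_lit 302) (nat_lit 299) (nat_lit 299)))) (XT.nd (nat_lit 78) (nat_lit 228) (nat_lit 0) (XT.lf (nat_lit 0) (nat_lit 3414409780) (nat_lit 76) (nat_lit 2939764412) (nat_lit 76) (nat_lit 114435585) (nat_lit 164) (nat_lit 4) (nat_lit 165) (nat_lit 5) (nat_lit 165) (nat_lit 4) (nat_lit 303) (nat_lit 299) (nat_lit 298)) (XT.nd (nat_lit 78) (nat_lit 0) (nat_lit 0) (XT.lf (nat_lit 0) (nat_lit 377520055) (nat_lit 152) (nat_lit 2497425427) (nat_lit 228) (nat_lit 3617169369) (nat_lit 161) (nat_lit 5) (nat_lit 163) (nat_lit 5) (nat_lit 164) (nat_lit 4) (nat_lit 304) (nat_lit 299) (nat_lit 297)) (XT.lf (nat_lit 0) (nat_lit 3972187226) (nat_lit 152) (nat_lit 1906330795) (nat_lit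 228) (nat_lit 645039521) (nat_lit 161) (nat_lit 5) (nat_lit 163) (nat_lit 5) (nat_lit 164) (nat_lit 4) (nat_lit 305) (nat_lit 299) (nat_lit 296))))) (XT.nd (nat_lit 234) (nat_lit 912) (nat_lit 0) (XT.nd (nat_lit 78) (nat_lit 380) (nat_lit 0) (XT.lf (nat_lit 0) (nat_lit 1072184025) (nat_lit 228) (nat_lit 1163487762) (nat_lit 304) (nat_lit 4327265429) (nat_lit 157) (nat_lit 5) (nat_lit 160) (nat_lit 5) (nat_lit 161) (nat_lit 5) (nat_lit 306) (nat_lit 299) (nat_lit 295)) (XT.nd (nat_lit 78) (nat_lit 380) (nat_lit 0) (XT.lf (nat_lit 0) (nat_lit 4842905033) (nat_lit 228) (nat_lit 268057407) (nat_lit 304) (nat_lit 1499429470) (nat_lit 157) (nat_lit 5) (nat_lit 160) (nat_lit 5) (nat_lit 161) (nat_lit 5) (nat_lit 307) (nat_lit 299) (nat_lit 294)) (XT.lf (nat_lit 0) (nat_lit 1301786182) (nat_lit 380) (nat_lit 4604883101) (nat_lit 76) (nat_lit 758674110) (nat_lit 152) (nat_lit 5) (nat_lit 157) (nat_lit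 5) (nat_lit 153) (nat_lit 5) (nat_lit 308) (nat_lit 299) (nat_lit 293)))) (XT.nd (nat_lit 156) (nat_lit 456) (nat_lit 0) (XT.nd (nat_lit 78) (nat_lit 456) (nat_lit 0) (XT.lf (nat_lit 0) (nat_lit 4068845289) (nat_lit 380) (nat_lit 729032390) (nat_lit 76) (nat_lit 1930339415) (nat_lit 152) (nat_lit 5) (nat_lit 157) (nat_lit 5) (nat_lit 153) (nat_lit 5) (nat_lit 309) (nat_lit 299) (nat_lit 292)) (XT.lf (nat_lit 0) (nat_lit 73401116) (nat_lit 456) (nat_lit 3466772374) (nat_lit 76) (nat_lit 3259156061) (nat_lit 146) (nat_lit 5) (nat_lit 152) (nat_lit 5) (nat_lit 147) (nat_lit 5) (nat_lit 310) (nat_lit 299) (nat_lit 291))) (XT.nd (nat_lit 78) (nat_lit 0) (nat_lit 0) (XT.lf (nat_lit 0) (nat_lit 608052899) (nat_lit 456) (nat_lit 2119216441) (nat_lit 532) (nat_lit 4151040467) (nat_lit 140) (nat_lit 5) (nat_lit 146) (nat_lit 5) (nat_lit 147) (nat_lit 5) (nat_lit 311) (nat_lit 299) (nat_lit 290))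 (XT.lf (nat_lit 0) (nat_lit 4892095065) (nat_lit 456) (nat_lit 537498171) (nat_lit 532) (nat_lit 1536032428) (nat_lit 140) (nat_lit 5) (nat_lit 146) (nat_lit 5) (nat_lit 147) (nat_lit 5) (nat_lit 312) (nat_lit 299) (nat_lit 289))))))))
noncomputable def xc98 : XT := (XT.nd (nat_lit 1872) (nat_lit 2356) (nat_lit 0) (XT.nd (nat_lit 936) (nat_lit 2204) (nat_lit 0) (XT.nd (nat_lit 468) (nat_lit 1520) (nat_lit 0) (XT.nd (nat_lit 234) (nat_lit 1520) (nat_lit 0) (XT.nd (nat_lit 78) (nat_lit 608) (nat_lit 0) (XT.lf (nat_lit 0) (nat_lit 1086765973) (nat_lit 608) (nat_lit 4807748745) (nat_lit 76) (nat_lit 1166218758) (nat_lit 132) (nat_lit 5) (nat_lit 140) (nat_lit 5) (nat_lit 133) (nat_lit 5) (nat_lit 313) (nat_lit 299) (nat_lit 288)) (XT.nd (nat_lit 78) (nat_lit 608) (nat_lit 0) (XT.lf (nat_lit 0) (nat_lit 3700229152) (nat_lit 608) (nat_lit 445074203) (nat_lit 76) (nat_lit 3018627914) (nat_lit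 132) (nat_lit 5) (nat_lit 140) (nat_lit 5) (nat_lit 133) (nat_lit 5) (nat_lit 314) (nat_lit 299) (nat_lit 287)) (XT.lf (nat_lit 0) (nat_lit 4154927714) (nat_lit 608) (nat_lit 2227300465) (nat_lit 684) (nat_lit 893311366) (nat_lit 124) (nat_lit 5) (nat_lit 132) (nat_lit 5) (nat_lit 133) (nat_lit 5) (nat_lit 315) (nat_lit 299) (nat_lit 286)))) (XT.nd (nat_lit 78) (nat_lit 760) (nat_lit 0) (XT.lf (nat_lit 0) (nat_lit 1511893155) (nat_lit 684) (nat_lit 142329896) (nat_lit 760) (nat_lit 5741905297) (nat_lit 114) (nat_lit 5) (nat_lit 123) (nat_lit 5) (nat_lit 124) (nat_lit 5) (nat_lit 316) (nat_lit 299) (nat_lit 285)) (XT.nd (nat_lit 78) (nat_lit 760) (nat_lit 0) (XT.lf (nat_lit 0) (nat_lit 4264194105) (nat_lit 760) (nat_lit 1203805331) (nat_lit 76) (nat_lit 2055885040) (nat_lit 114) (nat_lit 5) (nat_lit 124) (nat_lit 5) (nat_lit 115) (nat_lit 5) (nat_lit 317) (nat_lit 299) (nat_lit 284)) (XT.lf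 (nat_lit 0) (nat_lit 3712274744) (nat_lit 760) (nat_lit 3237831642) (nat_lit 836) (nat_lit 710768134) (nat_lit 104) (nat_lit 5) (nat_lit 114) (nat_lit 5) (nat_lit 115) (nat_lit 5) (nat_lit 318) (nat_lit 299) (nat_lit 283))))) (XT.nd (nat_lit 234) (nat_lit 760) (nat_lit 0) (XT.nd (nat_lit 78) (nat_lit 304) (nat_lit 0) (XT.lf (nat_lit 0) (nat_lit 996274218) (nat_lit 380) (nat_lit 829614476) (nat_lit 456) (nat_lit 5981238201) (nat_lit 98) (nat_lit 5) (nat_lit 103) (nat_lit 5) (nat_lit 104) (nat_lit 5) (nat_lit 319) (nat_lit 299) (nat_lit 282)) (XT.nd (nat_lit 78) (nat_lit 304) (nat_lit 0) (XT.lf (nat_lit 0) (nat_lit 4450414215) (nat_lit 456) (nat_lit 1791598348) (nat_lit 76) (nat_lit 1718952757) (nat_lit 98) (nat_lit 5) (nat_lit 104) (nat_lit 5) (nat_lit 99) (nat_lit 5) (nat_lit 320) (nat_lit 299) (nat_lit 281)) (XT.lf (nat_lit 0) (nat_lit 3461076564) (nat_lit 304) (nat_lit 3708372750) (nat_lit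 380) (nat_lit 954979468) (nat_lit 94) (nat_lit 5) (nat_lit 98) (nat_lit 5) (nat_lit 99) (nat_lit 5) (nat_lit 321) (nat_lit 299) (nat_lit 280)))) (XT.nd (nat_lit 78) (nat_lit 304) (nat_lit 0) (XT.lf (nat_lit 0) (nat_lit 620042163) (nat_lit 380) (nat_lit 990634700) (nat_lit 456) (nat_lit 6687246316) (nat_lit 88) (nat_lit 5) (nat_lit 93) (nat_lit 5) (nat_lit 94) (nat_lit 5) (nat_lit 322) (nat_lit 299) (nat_lit 279)) (XT.nd (nat_lit 78) (nat_lit 304) (nat_lit 0) (XT.lf (nat_lit 0) (nat_lit 4281867834) (nat_lit 456) (nat_lit 2311997754) (nat_lit 76) (nat_lit 1885060704) (nat_lit 88) (nat_lit 5) (nat_lit 94) (nat_lit 5) (nat_lit 89) (nat_lit 5) (nat_lit 323) (nat_lit 299) (nat_lit 278)) (XT.lf (nat_lit 0) (nat_lit 3297848655) (nat_lit 304) (nat_lit 3761248817) (nat_lit 380) (nat_lit 1611338164) (nat_lit 84) (nat_lit 5) (nat_lit 88) (nat_lit 5) (nat_lit 89) (nat_lit 5) (nat_lit 324) (nat_lit 299)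 (nat_lit 277)))))) (XT.nd (nat_lit 468) (nat_lit 988) (nat_lit 0) (XT.nd (nat_lit 234) (nat_lit 608) (nat_lit 0) (XT.nd (nat_lit 78) (nat_lit 228) (nat_lit 0) (XT.lf (nat_lit 0) (nat_lit 274822643) (nat_lit 304) (nat_lit 743559722) (nat_lit 380) (nat_lit 7854847184) (nat_lit 79) (nat_lit 5) (nat_lit 83) (nat_lit 5) (nat_lit 84) (nat_lit 5) (nat_lit 325) (nat_lit 299) (nat_lit 276)) (XT.nd (nat_lit 78) (nat_lit 228) (nat_lit 0) (XT.lf (nat_lit 0) (nat_lit 3764100431) (nat_lit 380) (nat_lit 2873688264) (nat_lit 76) (nat_lit 2445189677) (nat_lit 79) (nat_lit 5) (nat_lit 84) (nat_lit 5) (nat_lit 80) (nat_lit 5) (nat_lit 326) (nat_lit 299) (nat_lit 275)) (XT.lf (nat_lit 0) (nat_lit 3112866966) (nat_lit 228) (nat_lit 3507715912) (nat_lit 304) (nat_lit 2684023676) (nat_lit 76) (nat_lit 5) (nat_lit 79) (nat_lit 5) (nat_lit 80) (nat_lit 5) (nat_lit 327) (nat_lit 299) (nat_lit 274)))) (XT.nd (nat_lit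 78) (nat_lit 532) (nat_lit 0) (XT.lf (nat_lit 0) (nat_lit 43071628) (nat_lit 304) (nat_lit 151402998) (nat_lit 76) (nat_lit 9344679723) (nat_lit 75) (nat_lit 5) (nat_lit 79) (nat_lit 5) (nat_lit 76) (nat_lit 5) (nat_lit 328) (nat_lit 299) (nat_lit 273)) (XT.nd (nat_lit 78) (nat_lit 228) (nat_lit 0) (XT.lf (nat_lit 0) (nat_lit 2884718346) (nat_lit 380) (nat_lit 3596661354) (nat_lit 76) (nat_lit 3298486821) (nat_lit 71) (nat_lit 5) (nat_lit 76) (nat_lit 5) (nat_lit 72) (nat_lit 5) (nat_lit 329) (nat_lit 299) (nat_lit 272)) (XT.lf (nat_lit 0) (nat_lit 2783694482) (nat_lit 228) (nat_lit 3053653476) (nat_lit 304) (nat_lit 4196875484) (nat_lit 68) (nat_lit 5) (nat_lit 71) (nat_lit 5) (nat_lit 72) (nat_lit 5) (nat_lit 330) (nat_lit 299) (nat_lit 271))))) (XT.nd (nat_lit 234) (nat_lit 456) (nat_lit 0) (XT.nd (nat_lit 78) (nat_lit 532) (nat_lit 0) (XT.lf (nat_lit 0) (nat_lit 8929363914) (nat_lit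 304) (nat_lit 811051767) (nat_lit 76) (nat_lit 561346374) (nat_lit 68) (nat_lit 5) (nat_lit 72) (nat_lit 5) (nat_lit 69) (nat_lit 5) (nat_lit 331) (nat_lit 299) (nat_lit 270)) (XT.nd (nat_lit 78) (nat_lit 228) (nat_lit 0) (XT.lf (nat_lit 0) (nat_lit 1611977756) (nat_lit 304) (nat_lit 4619292067) (nat_lit 76) (nat_lit 4346727258) (nat_lit 64) (nat_lit 5) (nat_lit 68) (nat_lit 5) (nat_lit 65) (nat_lit 5) (nat_lit 332) (nat_lit 299) (nat_lit 269)) (XT.lf (nat_lit 0) (nat_lit 2167691983) (nat_lit 228) (nat_lit 2505337566) (nat_lit 304) (nat_lit 6195255023) (nat_lit 61) (nat_lit 5) (nat_lit 64) (nat_lit 5) (nat_lit 65) (nat_lit 5) (nat_lit 333) (nat_lit 299) (nat_lit 268)))) (XT.nd (nat_lit 78) (nat_lit 456) (nat_lit 0) (XT.lf (nat_lit 0) (nat_lit 7915771418) (nat_lit 304) (nat_lit 1846168727) (nat_lit 76) (nat_lit 1409756862) (nat_lit 61) (nat_lit 5) (nat_lit 65) (nat_lit 5) (nat_lit 62) (nat_lit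 5) (nat_lit 334) (nat_lit 299) (nat_lit 267)) (XT.nd (nat_lit 78) (nat_lit 228) (nat_lit 0) (XT.lf (nat_lit 0) (nat_lit 5379076461) (nat_lit 228) (nat_lit 5997255640) (nat_lit 304) (nat_lit 111204299) (nat_lit 58) (nat_lit 5) (nat_lit 61) (nat_lit 5) (nat_lit 62) (nat_lit 5) (nat_lit 335) (nat_lit 299) (nat_lit 266)) (XT.lf (nat_lit 0) (nat_lit 1093087705) (nat_lit 152) (nat_lit 1975589019) (nat_lit 228) (nat_lit 8749034488) (nat_lit 55) (nat_lit 5) (nat_lit 57) (nat_lit 5) (nat_lit 58) (nat_lit 5) (nat_lit 336) (nat_lit 299) (nat_lit 265))))))) (XT.nd (nat_lit 936) (nat_lit 988) (nat_lit 0) (XT.nd (nat_lit 468) (nat_lit 760) (nat_lit 0) (XT.nd (nat_lit 234) (nat_lit 304) (nat_lit 0) (XT.nd (nat_lit 78) (nat_lit 304) (nat_lit 0) (XT.lf (nat_lit 0) (nat_lit 6476387664) (nat_lit 228) (nat_lit 3435858686) (nat_lit 76) (nat_lit 2248463529) (nat_lit 55) (nat_lit 5) (nat_lit 58) (nat_lit 5) (nat_lit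 56) (nat_lit 5) (nat_lit 337) (nat_lit 299) (nat_lit 264)) (XT.nd (nat_lit 78) (nat_lit 76) (nat_lit 0) (XT.lf (nat_lit 0) (nat_lit 4220204201) (nat_lit 228) (nat_lit 5868120589) (nat_lit 304) (nat_lit 2430874912) (nat_lit 52) (nat_lit 5) (nat_lit 55) (nat_lit 5) (nat_lit 56) (nat_lit 5) (nat_lit 338) (nat_lit 299) (nat_lit 263)) (XT.lf (nat_lit 0) (nat_lit 948890423) (nat_lit 304) (nat_lit 631046764) (nat_lit 76) (nat_lit 11315178889) (nat_lit 51) (nat_lit 5) (nat_lit 55) (nat_lit 5) (nat_lit 52) (nat_lit 5) (nat_lit 339) (nat_lit 299) (nat_lit 262)))) (XT.nd (nat_lit 78) (nat_lit 152) (nat_lit 0) (XT.lf (nat_lit 0) (nat_lit 4520201273) (nat_lit 228) (nat_lit 5806967083) (nat_lit 76) (nat_lit 2955483590) (nat_lit 49) (nat_lit 5) (nat_lit 52) (nat_lit 5) (nat_lit 50) (nat_lit 5) (nat_lit 340) (nat_lit 299) (nat_lit 261)) (XT.nd (nat_lit 78) (nat_lit 0) (nat_lit 0) (XT.lf (nat_lit 0) (nat_lit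 2270730520) (nat_lit 152) (nat_lit 6011539159) (nat_lit 228) (nat_lit 5406712690) (nat_lit 47) (nat_lit 5) (nat_lit 49) (nat_lit 5) (nat_lit 50) (nat_lit 5) (nat_lit 341) (nat_lit 299) (nat_lit 260)) (XT.lf (nat_lit 0) (nat_lit 10858971718) (nat_lit 152) (nat_lit 1413166122) (nat_lit 228) (nat_lit 1841532712) (nat_lit 47) (nat_lit 5) (nat_lit 49) (nat_lit 5) (nat_lit 50) (nat_lit 5) (nat_lit 342) (nat_lit 299) (nat_lit 259))))) (XT.nd (nat_lit 234) (nat_lit 380) (nat_lit 0) (XT.nd (nat_lit 78) (nat_lit 152) (nat_lit 0) (XT.lf (nat_lit 0) (nat_lit 1922654824) (nat_lit 228) (nat_lit 9244625662) (nat_lit 76) (nat_lit 3386770516) (nat_lit 44) (nat_lit 5) (nat_lit 47) (nat_lit 5) (nat_lit 45) (nat_lit 5) (nat_lit 343) (nat_lit 299) (nat_lit 258)) (XT.nd (nat_lit 78) (nat_lit 152) (nat_lit 0) (XT.lf (nat_lit 0) (nat_lit 5836294612) (nat_lit 228) (nat_lit 746285821) (nat_lit 76) (nat_lit 8431226575)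 (nat_lit 44) (nat_lit 5) (nat_lit 47) (nat_lit 5) (nat_lit 45) (nat_lit 5) (nat_lit 344) (nat_lit 299) (nat_lit 257)) (XT.lf (nat_lit 0) (nat_lit 8355756411) (nat_lit 152) (nat_lit 1666926550) (nat_lit 228) (nat_lit 5470035962) (nat_lit 42) (nat_lit 5) (nat_lit 44) (nat_lit 5) (nat_lit 45) (nat_lit 5) (nat_lit 345) (nat_lit 299) (nat_lit 256)))) (XT.nd (nat_lit 78) (nat_lit 228) (nat_lit 0) (XT.lf (nat_lit 0) (nat_lit 1859303244) (nat_lit 152) (nat_lit 12602765208) (nat_lit 228) (nat_lit 1531344510) (nat_lit 40) (nat_lit 5) (nat_lit 42) (nat_lit 5) (nat_lit 43) (nat_lit 4) (nat_lit 346) (nat_lit 299) (nat_lit 255)) (XT.nd (nat_lit 78) (nat_lit 152) (nat_lit 0) (XT.lf (nat_lit 0) (nat_lit 2618623453) (nat_lit 228) (nat_lit 5119523795) (nat_lit 76) (nat_lit 8774095206) (nat_lit 39) (nat_lit 5) (nat_lit 42) (nat_lit 5) (nat_lit 40) (nat_lit 5) (nat_lit 347) (nat_lit 299) (nat_lit 254)) (XT.lf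 (nat_lit 0) (nat_lit 4375375556) (nat_lit 152) (nat_lit 2567581192) (nat_lit 228) (nat_lit 10111902600) (nat_lit 37) (nat_lit 5) (nat_lit 39) (nat_lit 5) (nat_lit 40) (nat_lit 5) (nat_lit 348) (nat_lit 299) (nat_lit 253)))))) (XT.nd (nat_lit 468) (nat_lit 608) (nat_lit 0) (XT.nd (nat_lit 234) (nat_lit 228) (nat_lit 0) (XT.nd (nat_lit 78) (nat_lit 152) (nat_lit 0) (XT.lf (nat_lit 0) (nat_lit 11566845769) (nat_lit 228) (nat_lit 3229500990) (nat_lit 76) (nat_lit 2824110173) (nat_lit 37) (nat_lit 5) (nat_lit 40) (nat_lit 5) (nat_lit 38) (nat_lit 4) (nat_lit 349) (nat_lit 299) (nat_lit 252)) (XT.nd (nat_lit 78) (nat_lit 76) (nat_lit 0) (XT.lf (nat_lit 0) (nat_lit 6786293628) (nat_lit 76) (nat_lit 9736575280) (nat_lit 152) (nat_lit 1686434499) (nat_lit 36) (nat_lit 5) (nat_lit 37) (nat_lit 5) (nat_lit 38) (nat_lit 4) (nat_lit 350) (nat_lit 299) (nat_lit 251)) (XT.lf (nat_lit 0) (nat_lit 2815012327)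 (nat_lit 152) (nat_lit 1538063421) (nat_lit 76) (nat_lit 14471832778) (nat_lit 35) (nat_lit 5) (nat_lit 37) (nat_lit 5) (nat_lit 36) (nat_lit 5) (nat_lit 351) (nat_lit 299) (nat_lit 250)))) (XT.nd (nat_lit 78) (nat_lit 76) (nat_lit 0) (XT.lf (nat_lit 0) (nat_lit 7603623185) (nat_lit 228) (nat_lit 10463468608) (nat_lit 76) (nat_lit 1396895257) (nat_lit 33) (nat_lit 5) (nat_lit 36) (nat_lit 5) (nat_lit 34) (nat_lit 4) (nat_lit 352) (nat_lit 299) (nat_lit 249)) (XT.nd (nat_lit 78) (nat_lit 76) (nat_lit 0) (XT.lf (nat_lit 0) (nat_lit 12685253735) (nat_lit 228) (nat_lit 164638591) (nat_lit 76) (nat_lit 7282460877) (nat_lit 33) (nat_lit 5) (nat_lit 36) (nat_lit 5) (nat_lit 34) (nat_lit 4) (nat_lit 353) (nat_lit 299) (nat_lit 248)) (XT.lf (nat_lit 0) (nat_lit 10923948390) (nat_lit 76) (nat_lit 7225430288) (nat_lit 152) (nat_lit 2678350876) (nat_lit 32) (nat_lit 5) (nat_lit 33) (nat_lit 5) (nat_lit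 34) (nat_lit 4) (nat_lit 354) (nat_lit 299) (nat_lit 247))))) (XT.nd (nat_lit 234) (nat_lit 304) (nat_lit 0) (XT.nd (nat_lit 78) (nat_lit 76) (nat_lit 0) (XT.lf (nat_lit 0) (nat_lit 933403186) (nat_lit 152) (nat_lit 1296330162) (nat_lit 228) (nat_lit 19327562986) (nat_lit 29) (nat_lit 5) (nat_lit 31) (nat_lit 5) (nat_lit 32) (nat_lit 5) (nat_lit 355) (nat_lit 299) (nat_lit 246)) (XT.nd (nat_lit 78) (nat_lit 76) (nat_lit 0) (XT.lf (nat_lit 0) (nat_lit 7499010280) (nat_lit 228) (nat_lit 9857646048) (nat_lit 76) (nat_lit 4954210651) (nat_lit 29) (nat_lit 5) (nat_lit 32) (nat_lit 5) (nat_lit 30) (nat_lit 4) (nat_lit 356) (nat_lit 299) (nat_lit 245)) (XT.lf (nat_lit 0) (nat_lit 1398657850) (nat_lit 76) (nat_lit 11636528834) (nat_lit 152) (nat_lit 10066768002) (nat_lit 28) (nat_lit 5) (nat_lit 29) (nat_lit 5) (nat_lit 30) (nat_lit 4) (nat_lit 357) (nat_lit 299) (nat_lit 244)))) (XT.nd (nat_lit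 156) (nat_lit 76) (nat_lit 0) (XT.nd (nat_lit 78) (nat_lit 228) (nat_lit 0) (XT.lf (nat_lit 0) (nat_lit 13489399707) (nat_lit 76) (nat_lit 5486849314) (nat_lit 152) (nat_lit 4949953722) (nat_lit 28) (nat_lit 5) (nat_lit 29) (nat_lit 5) (nat_lit 30) (nat_lit 4) (nat_lit 358) (nat_lit 299) (nat_lit 243)) (XT.lf (nat_lit 0) (nat_lit 407920881) (nat_lit 228) (nat_lit 23445795989) (nat_lit 76) (nat_lit 937687829) (nat_lit 25) (nat_lit 5) (nat_lit 28) (nat_lit 5) (nat_lit 26) (nat_lit 4) (nat_lit 359) (nat_lit 299) (nat_lit 242))) (XT.nd (nat_lit 78) (nat_lit 76) (nat_lit 0) (XT.lf (nat_lit 0) (nat_lit 6099568025) (nat_lit 228) (nat_lit 11854313629) (nat_lit 76) (nat_lit 7730324756) (nat_lit 25) (nat_lit 5) (nat_lit 28) (nat_lit 5) (nat_lit 26) (nat_lit 4) (nat_lit 360) (nat_lit 299) (nat_lit 241)) (XT.lf (nat_lit 0) (nat_lit 259550009) (nat_lit 76) (nat_lit 11784710748) (nat_lit 152) (nat_lit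 14578972369) (nat_lit 24) (nat_lit 5) (nat_lit 25) (nat_lit 5) (nat_lit 26) (nat_lit 4) (nat_lit 361) (nat_lit 299) (nat_lit 240))))))))
noncomputable def xc99 : XT := (XT.nd (nat_lit 1950) (nat_lit 456) (nat_lit 0) (XT.nd (nat_lit 936) (nat_lit 456) (nat_lit 0) (XT.nd (nat_lit 468) (nat_lit 304) (nat_lit 0) (XT.nd (nat_lit 234) (nat_lit 76) (nat_lit 0) (XT.nd (nat_lit 78) (nat_lit 152) (nat_lit 0) (XT.lf (nat_lit 0) (nat_lit 13326218226) (nat_lit 76) (nat_lit 5125827938) (nat_lit 152) (nat_lit 9148879805) (nat_lit 24) (nat_lit 5) (nat_lit 25) (nat_lit 5) (nat_lit 26) (nat_lit 4) (nat_lit 362) (nat_lit 299) (nat_lit 239)) (XT.nd (nat_lit 78) (nat_lit 152) (nat_lit 0) (XT.lf (nat_lit 0) (nat_lit 25175676459) (nat_lit 152) (nat_lit 1673021910) (nat_lit 0) (nat_lit 1779039633) (nat_lit 24) (nat_lit 5) (nat_lit 26) (nat_lit 4) (nat_lit 24) (nat_lit 4) (nat_lit 363) (nat_lit 299) (nat_lit 238))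 (XT.lf (nat_lit 0) (nat_lit 2688568202) (nat_lit 152) (nat_lit 17944928931) (nat_lit 76) (nat_lit 9058428770) (nat_lit 22) (nat_lit 5) (nat_lit 24) (nat_lit 5) (nat_lit 23) (nat_lit 4) (nat_lit 364) (nat_lit 299) (nat_lit 237)))) (XT.nd (nat_lit 78) (nat_lit 76) (nat_lit 0) (XT.lf (nat_lit 0) (nat_lit 9017030548) (nat_lit 152) (nat_lit 5028587715) (nat_lit 76) (nat_lit 16761041058) (nat_lit 22) (nat_lit 5) (nat_lit 24) (nat_lit 5) (nat_lit 23) (nat_lit 4) (nat_lit 365) (nat_lit 299) (nat_lit 236)) (XT.nd (nat_lit 78) (nat_lit 0) (nat_lit 0) (XT.lf (nat_lit 0) (nat_lit 8756966388) (nat_lit 76) (nat_lit 7011208596) (nat_lit 152) (nat_lit 16203647505) (nat_lit 21) (nat_lit 5) (nat_lit 22) (nat_lit 5) (nat_lit 23) (nat_lit 4) (nat_lit 366) (nat_lit 299) (nat_lit 235)) (XT.lf (nat_lit 0) (nat_lit 22918995696) (nat_lit 152) (nat_lit 9848913155) (nat_lit 0) (nat_lit 424234753) (nat_lit 21) (nat_lit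 5) (nat_lit 23) (nat_lit 4) (nat_lit 21) (nat_lit 4) (nat_lit 367) (nat_lit 299) (nat_lit 234))))) (XT.nd (nat_lit 234) (nat_lit 152) (nat_lit 0) (XT.nd (nat_lit 78) (nat_lit 76) (nat_lit 0) (XT.lf (nat_lit 0) (nat_lit 4148837655) (nat_lit 76) (nat_lit 26429382920) (nat_lit 76) (nat_lit 3887722513) (nat_lit 20) (nat_lit 4) (nat_lit 21) (nat_lit 5) (nat_lit 21) (nat_lit 4) (nat_lit 368) (nat_lit 299) (nat_lit 233)) (XT.nd (nat_lit 78) (nat_lit 0) (nat_lit 0) (XT.lf (nat_lit 0) (nat_lit 2867564089) (nat_lit 152) (nat_lit 16707820179) (nat_lit 76) (nat_lit 16218816660) (nat_lit 19) (nat_lit 5) (nat_lit 21) (nat_lit 5) (nat_lit 20) (nat_lit 4) (nat_lit 369) (nat_lit 299) (nat_lit 232)) (XT.lf (nat_lit 0) (nat_lit 9802552749) (nat_lit 152) (nat_lit 2533632622) (nat_lit 76) (nat_lit 24850874819) (nat_lit 19) (nat_lit 5) (nat_lit 21) (nat_lit 5) (nat_lit 20) (nat_lit 4) (nat_lit 370) (nat_lit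 299) (nat_lit 231)))) (XT.nd (nat_lit 78) (nat_lit 76) (nat_lit 0) (XT.lf (nat_lit 0) (nat_lit 12706593903) (nat_lit 76) (nat_lit 4549978381) (nat_lit 152) (nat_lit 21384380559) (nat_lit 18) (nat_lit 5) (nat_lit 19) (nat_lit 5) (nat_lit 20) (nat_lit 4) (nat_lit 371) (nat_lit 299) (nat_lit 230)) (XT.nd (nat_lit 78) (nat_lit 76) (nat_lit 0) (XT.lf (nat_lit 0) (nat_lit 25157531810) (nat_lit 152) (nat_lit 11475400826) (nat_lit 0) (nat_lit 3530899825) (nat_lit 18) (nat_lit 5) (nat_lit 20) (nat_lit 4) (nat_lit 18) (nat_lit 4) (nat_lit 372) (nat_lit 299) (nat_lit 229)) (XT.lf (nat_lit 0) (nat_lit 3703309527) (nat_lit 76) (nat_lit 29857898142) (nat_lit 76) (nat_lit 8196269055) (nat_lit 17) (nat_lit 4) (nat_lit 18) (nat_lit 5) (nat_lit 18) (nat_lit 4) (nat_lit 373) (nat_lit 299) (nat_lit 228)))))) (XT.nd (nat_lit 468) (nat_lit 228) (nat_lit 0) (XT.nd (nat_lit 234) (nat_lit 76) (nat_lit 0) (XT.nd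 (nat_lit 78) (nat_lit 152) (nat_lit 0) (XT.lf (nat_lit 0) (nat_lit 19992980754) (nat_lit 76) (nat_lit 22562141620) (nat_lit 76) (nat_lit 867181959) (nat_lit 17) (nat_lit 4) (nat_lit 18) (nat_lit 5) (nat_lit 18) (nat_lit 4) (nat_lit 374) (nat_lit 299) (nat_lit 227)) (XT.nd (nat_lit 78) (nat_lit 76) (nat_lit 0) (XT.lf (nat_lit 0) (nat_lit 6586296664) (nat_lit 152) (nat_lit 8224794901) (nat_lit 76) (nat_lit 30355130425) (nat_lit 16) (nat_lit 5) (nat_lit 18) (nat_lit 5) (nat_lit 17) (nat_lit 4) (nat_lit 375) (nat_lit 299) (nat_lit 226)) (XT.lf (nat_lit 0) (nat_lit 7936969768) (nat_lit 76) (nat_lit 6547861765) (nat_lit 152) (nat_lit 32506720283) (nat_lit 15) (nat_lit 5) (nat_lit 16) (nat_lit 5) (nat_lit 17) (nat_lit 4) (nat_lit 376) (nat_lit 299) (nat_lit 225)))) (XT.nd (nat_lit 78) (nat_lit 76) (nat_lit 0) (XT.lf (nat_lit 0) (nat_lit 22930801226) (nat_lit 152) (nat_lit 23787234980) (nat_lit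 0) (nat_lit 2182489722) (nat_lit 15) (nat_lit 5) (nat_lit 17) (nat_lit 4) (nat_lit 15) (nat_lit 4) (nat_lit 377) (nat_lit 299) (nat_lit 224)) (XT.nd (nat_lit 78) (nat_lit 76) (nat_lit 0) (XT.lf (nat_lit 0) (nat_lit 31885174665) (nat_lit 152) (nat_lit 7904724077) (nat_lit 0) (nat_lit 11110747784) (nat_lit 15) (nat_lit 5) (nat_lit 17) (nat_lit 4) (nat_lit 15) (nat_lit 4) (nat_lit 378) (nat_lit 299) (nat_lit 223)) (XT.lf (nat_lit 0) (nat_lit 9021748942) (nat_lit 76) (nat_lit 32386147157) (nat_lit 76) (nat_lit 11586848490) (nat_lit 14) (nat_lit 4) (nat_lit 15) (nat_lit 5) (nat_lit 15) (nat_lit 4) (nat_lit 379) (nat_lit 299) (nat_lit 222))))) (XT.nd (nat_lit 234) (nat_lit 76) (nat_lit 0) (XT.nd (nat_lit 78) (nat_lit 152) (nat_lit 0) (XT.lf (nat_lit 0) (nat_lit 27030691720) (nat_lit 76) (nat_lit 24490072085) (nat_lit 76) (nat_lit 3667086001) (nat_lit 14) (nat_lit 4) (nat_lit 15) (nat_lit 5) (nat_lit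 15) (nat_lit 4) (nat_lit 380) (nat_lit 299) (nat_lit 221)) (XT.nd (nat_lit 78) (nat_lit 76) (nat_lit 0) (XT.lf (nat_lit 0) (nat_lit 4480651286) (nat_lit 152) (nat_lit 11660210389) (nat_lit 76) (nat_lit 41347083531) (nat_lit 13) (nat_lit 5) (nat_lit 15) (nat_lit 5) (nat_lit 14) (nat_lit 4) (nat_lit 381) (nat_lit 299) (nat_lit 220)) (XT.lf (nat_lit 0) (nat_lit 5750173752) (nat_lit 76) (nat_lit 7233828425) (nat_lit 152) (nat_lit 46912466534) (nat_lit 12) (nat_lit 5) (nat_lit 13) (nat_lit 5) (nat_lit 14) (nat_lit 4) (nat_lit 382) (nat_lit 299) (nat_lit 219)))) (XT.nd (nat_lit 156) (nat_lit 76) (nat_lit 0) (XT.nd (nat_lit 78) (nat_lit 0) (nat_lit 0) (XT.lf (nat_lit 0) (nat_lit 22128061432) (nat_lit 152) (nat_lit 38051371036) (nat_lit 0) (nat_lit 2235211153) (nat_lit 12) (nat_lit 5) (nat_lit 14) (nat_lit 4) (nat_lit 12) (nat_lit 4) (nat_lit 383) (nat_lit 299) (nat_lit 218)) (XT.lf (nat_lit 0)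 (nat_lit 31830535455) (nat_lit 152) (nat_lit 21304007933) (nat_lit 0) (nat_lit 11919125465) (nat_lit 12) (nat_lit 5) (nat_lit 14) (nat_lit 4) (nat_lit 12) (nat_lit 4) (nat_lit 384) (nat_lit 299) (nat_lit 217))) (XT.nd (nat_lit 78) (nat_lit 76) (nat_lit 0) (XT.lf (nat_lit 0) (nat_lit 42001585038) (nat_lit 152) (nat_lit 3751390641) (nat_lit 0) (nat_lit 22072499133) (nat_lit 12) (nat_lit 5) (nat_lit 14) (nat_lit 4) (nat_lit 12) (nat_lit 4) (nat_lit 385) (nat_lit 299) (nat_lit 216)) (XT.lf (nat_lit 0) (nat_lit 15132610837) (nat_lit 76) (nat_lit 37769078594) (nat_lit 76) (nat_lit 17823158485) (nat_lit 11) (nat_lit 4) (nat_lit 12) (nat_lit 5) (nat_lit 12) (nat_lit 4) (nat_lit 386) (nat_lit 299) (nat_lit 215))))))) (XT.nd (nat_lit 936) (nat_lit 228) (nat_lit 0) (XT.nd (nat_lit 468) (nat_lit 76) (nat_lit 0) (XT.nd (nat_lit 234) (nat_lit 76) (nat_lit 0) (XT.nd (nat_lit 78) (nat_lit 76) (nat_lit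 0) (XT.lf (nat_lit 0) (nat_lit 35060960774) (nat_lit 76) (nat_lit 29333890424) (nat_lit 76) (nat_lit 9371937739) (nat_lit 11) (nat_lit 4) (nat_lit 12) (nat_lit 5) (nat_lit 12) (nat_lit 4) (nat_lit 387) (nat_lit 299) (nat_lit 214)) (XT.nd (nat_lit 78) (nat_lit 76) (nat_lit 0) (XT.lf (nat_lit 0) (nat_lit 55957069705) (nat_lit 76) (nat_lit 20490859003) (nat_lit 76) (nat_lit 513637199) (nat_lit 11) (nat_lit 4) (nat_lit 12) (nat_lit 5) (nat_lit 12) (nat_lit 4) (nat_lit 388) (nat_lit 299) (nat_lit 213)) (XT.lf (nat_lit 0) (nat_lit 8492048842) (nat_lit 152) (nat_lit 2583063696) (nat_lit 76) (nat_lit 69234824472) (nat_lit 10) (nat_lit 5) (nat_lit 12) (nat_lit 5) (nat_lit 11) (nat_lit 4) (nat_lit 389) (nat_lit 299) (nat_lit 212)))) (XT.nd (nat_lit 78) (nat_lit 0) (nat_lit 0) (XT.lf (nat_lit 0) (nat_lit 17277565060) (nat_lit 76) (nat_lit 909351244) (nat_lit 152) (nat_lit 65625582954) (nat_lit 9)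 (nat_lit 5) (nat_lit 10) (nat_lit 5) (nat_lit 11) (nat_lit 4) (nat_lit 390) (nat_lit 299) (nat_lit 211)) (XT.nd (nat_lit 78) (nat_lit 0) (nat_lit 0) (XT.lf (nat_lit 0) (nat_lit 28549894774) (nat_lit 152) (nat_lit 49446760206) (nat_lit 0) (nat_lit 9484367722) (nat_lit 9) (nat_lit 5) (nat_lit 11) (nat_lit 4) (nat_lit 9) (nat_lit 4) (nat_lit 391) (nat_lit 299) (nat_lit 210)) (XT.lf (nat_lit 0) (nat_lit 39433025524) (nat_lit 152) (nat_lit 31544313302) (nat_lit 0) (nat_lit 20355534717) (nat_lit 9) (nat_lit 5) (nat_lit 11) (nat_lit 4) (nat_lit 9) (nat_lit 4) (nat_lit 392) (nat_lit 299) (nat_lit 209))))) (XT.nd (nat_lit 234) (nat_lit 0) (nat_lit 0) (XT.nd (nat_lit 78) (nat_lit 76) (nat_lit 0) (XT.lf (nat_lit 0) (nat_lit 50848023250) (nat_lit 152) (nat_lit 12770771093) (nat_lit 0) (nat_lit 31759138391) (nat_lit 9) (nat_lit 5) (nat_lit 11) (nat_lit 4) (nat_lit 9) (nat_lit 4) (nat_lit 393) (nat_lit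 299) (nat_lit 208)) (XT.nd (nat_lit 78) (nat_lit 0) (nat_lit 0) (XT.lf (nat_lit 0) (nat_lit 7147324346) (nat_lit 76) (nat_lit 55786331935) (nat_lit 76) (nat_lit 36686595598) (nat_lit 8) (nat_lit 4) (nat_lit 9) (nat_lit 5) (nat_lit 9) (nat_lit 4) (nat_lit 394) (nat_lit 299) (nat_lit 207)) (XT.lf (nat_lit 0) (nat_lit 28482183078) (nat_lit 76) (nat_lit 47346168576) (nat_lit 76) (nat_lit 28236097498) (nat_lit 8) (nat_lit 4) (nat_lit 9) (nat_lit 5) (nat_lit 9) (nat_lit 4) (nat_lit 395) (nat_lit 299) (nat_lit 206)))) (XT.nd (nat_lit 78) (nat_lit 0) (nat_lit 0) (XT.lf (nat_lit 0) (nat_lit 50862343016) (nat_lit 76) (nat_lit 38494487828) (nat_lit 76) (nat_lit 19374574139) (nat_lit 8) (nat_lit 4) (nat_lit 9) (nat_lit 5) (nat_lit 9) (nat_lit 4) (nat_lit 396) (nat_lit 299) (nat_lit 205)) (XT.nd (nat_lit 78) (nat_lit 0) (nat_lit 0) (XT.lf (nat_lit 0) (nat_lit 74341090257) (nat_lit 76) (nat_lit 29210214260)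 (nat_lit 76) (nat_lit 10080926656) (nat_lit 8) (nat_lit 4) (nat_lit 9) (nat_lit 5) (nat_lit 9) (nat_lit 4) (nat_lit 397) (nat_lit 299) (nat_lit 204)) (XT.lf (nat_lit 0) (nat_lit 98974326580) (nat_lit 76) (nat_lit 19471242459) (nat_lit 76) (nat_lit 333027317) (nat_lit 8) (nat_lit 4) (nat_lit 9) (nat_lit 5) (nat_lit 9) (nat_lit 4) (nat_lit 398) (nat_lit 299) (nat_lit 203)))))) (XT.nd (nat_lit 468) (nat_lit 76) (nat_lit 0) (XT.nd (nat_lit 234) (nat_lit 0) (nat_lit 0) (XT.nd (nat_lit 78) (nat_lit 0) (nat_lit 0) (XT.lf (nat_lit 0) (nat_lit 499488471) (nat_lit 76) (nat_lit 9084026665) (nat_lit 152) (nat_lit 114591126371) (nat_lit 6) (nat_lit 5) (nat_lit 7) (nat_lit 5) (nat_lit 8) (nat_lit 4) (nat_lit 399) (nat_lit 299) (nat_lit 202)) (XT.nd (nat_lit 78) (nat_lit 0) (nat_lit 0) (XT.lf (nat_lit 0) (nat_lit 20344451775) (nat_lit 152) (nat_lit 107376006391) (nat_lit 0) (nat_lit 2101770728) (nat_lit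 6) (nat_lit 5) (nat_lit 8) (nat_lit 4) (nat_lit 6) (nat_lit 4) (nat_lit 400) (nat_lit 299) (nat_lit 201)) (XT.lf (nat_lit 0) (nat_lit 31783221033) (nat_lit 152) (nat_lit 90428790907) (nat_lit 0) (nat_lit 13533195278) (nat_lit 6) (nat_lit 5) (nat_lit 8) (nat_lit 4) (nat_lit 6) (nat_lit 4) (nat_lit 401) (nat_lit 299) (nat_lit 200)))) (XT.nd (nat_lit 78) (nat_lit 0) (nat_lit 0) (XT.lf (nat_lit 0) (nat_lit 43785230960) (nat_lit 152) (nat_lit 72651328957) (nat_lit 0) (nat_lit 25528210246) (nat_lit 6) (nat_lit 5) (nat_lit 8) (nat_lit 4) (nat_lit 6) (nat_lit 4) (nat_lit 402) (nat_lit 299) (nat_lit 199)) (XT.nd (nat_lit 78) (nat_lit 0) (nat_lit 0) (XT.lf (nat_lit 0) (nat_lit 56379057771) (nat_lit 152) (nat_lit 54001293251) (nat_lit 0) (nat_lit 38115375190) (nat_lit 6) (nat_lit 5) (nat_lit 8) (nat_lit 4) (nat_lit 6) (nat_lit 4) (nat_lit 403) (nat_lit 299) (nat_lit 198)) (XT.lf (nat_lit 0) (nat_lit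 69594686768) (nat_lit 152) (nat_lit 34434278942) (nat_lit 0) (nat_lit 51324659553) (nat_lit 6) (nat_lit 5) (nat_lit 8) (nat_lit 4) (nat_lit 6) (nat_lit 4) (nat_lit 404) (nat_lit 299) (nat_lit 197))))) (XT.nd (nat_lit 234) (nat_lit 0) (nat_lit 0) (XT.nd (nat_lit 78) (nat_lit 76) (nat_lit 0) (XT.lf (nat_lit 0) (nat_lit 83463583734) (nat_lit 152) (nat_lit 13903697900) (nat_lit 0) (nat_lit 65187514009) (nat_lit 6) (nat_lit 5) (nat_lit 8) (nat_lit 4) (nat_lit 6) (nat_lit 4) (nat_lit 405) (nat_lit 299) (nat_lit 196)) (XT.nd (nat_lit 78) (nat_lit 0) (nat_lit 0) (XT.lf (nat_lit 0) (nat_lit 7891923033) (nat_lit 76) (nat_lit 90250061855) (nat_lit 76) (nat_lit 71968237359) (nat_lit 5) (nat_lit 4) (nat_lit 6) (nat_lit 5) (nat_lit 6) (nat_lit 4) (nat_lit 406) (nat_lit 299) (nat_lit 195)) (XT.lf (nat_lit 0) (nat_lit 31246177121) (nat_lit 76) (nat_lit 82536563599) (nat_lit 76) (nat_lit 64249258369) (nat_lit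 5) (nat_lit 4) (nat_lit 6) (nat_lit 5) (nat_lit 6) (nat_lit 4) (nat_lit 407) (nat_lit 299) (nat_lit 194)))) (XT.nd (nat_lit 156) (nat_lit 0) (nat_lit 0) (XT.nd (nat_lit 78) (nat_lit 0) (nat_lit 0) (XT.lf (nat_lit 0) (nat_lit 55754950687) (nat_lit 76) (nat_lit 74443887245) (nat_lit 76) (nat_lit 56151362269) (nat_lit 5) (nat_lit 4) (nat_lit 6) (nat_lit 5) (nat_lit 6) (nat_lit 4) (nat_lit 408) (nat_lit 299) (nat_lit 193)) (XT.lf (nat_lit 0) (nat_lit 81476597955) (nat_lit 76) (nat_lit 65952764517) (nat_lit 76) (nat_lit 47655268354) (nat_lit 5) (nat_lit 4) (nat_lit 6) (nat_lit 5) (nat_lit 6) (nat_lit 4) (nat_lit 409) (nat_lit 299) (nat_lit 192))) (XT.nd (nat_lit 78) (nat_lit 0) (nat_lit 0) (XT.lf (nat_lit 0) (nat_lit 108472360941) (nat_lit 76) (nat_lit 57042978457) (nat_lit 76) (nat_lit 38740747829) (nat_lit 5) (nat_lit 4) (nat_lit 6) (nat_lit 5) (nat_lit 6) (nat_lit 4) (nat_lit 410) (nat_lit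 299) (nat_lit 191)) (XT.lf (nat_lit 0) (nat_lit 136806515272) (nat_lit 76) (nat_lit 47693315286) (nat_lit 76) (nat_lit 29386575646) (nat_lit 5) (nat_lit 4) (nat_lit 6) (nat_lit 5) (nat_lit 6) (nat_lit 4) (nat_lit 411) (nat_lit 299) (nat_lit 190))))))))
noncomputable def xc100 : XT := (XT.nd (nat_lit 1872) (nat_lit 0) (nat_lit 0) (XT.nd (nat_lit 936) (nat_lit 76) (nat_lit 0) (XT.nd (nat_lit 468) (nat_lit 0) (nat_lit 0) (XT.nd (nat_lit 234) (nat_lit 76) (nat_lit 0) (XT.nd (nat_lit 78) (nat_lit 76) (nat_lit 0) (XT.lf (nat_lit 0) (nat_lit 166546523220) (nat_lit 76) (nat_lit 37881513904) (nat_lit 76) (nat_lit 19570479965) (nat_lit 5) (nat_lit 4) (nat_lit 6) (nat_lit 5) (nat_lit 6) (nat_lit 4) (nat_lit 412) (nat_lit 299) (nat_lit 189)) (XT.nd (nat_lit 78) (nat_lit 76) (nat_lit 0) (XT.lf (nat_lit 0) (nat_lit 197763194328) (nat_lit 76) (nat_lit 27584212877) (nat_lit 76) (nat_lit 9269089130) (nat_lit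 5) (nat_lit 4) (nat_lit 6) (nat_lit 5) (nat_lit 6) (nat_lit 4) (nat_lit 413) (nat_lit 299) (nat_lit 188)) (XT.lf (nat_lit 0) (nat_lit 1492766381) (nat_lit 152) (nat_lit 15258847720) (nat_lit 76) (nat_lit 229012806900) (nat_lit 4) (nat_lit 5) (nat_lit 6) (nat_lit 5) (nat_lit 5) (nat_lit 4) (nat_lit 414) (nat_lit 299) (nat_lit 187)))) (XT.nd (nat_lit 78) (nat_lit 0) (nat_lit 0) (XT.lf (nat_lit 0) (nat_lit 7493685185) (nat_lit 76) (nat_lit 5099687284) (nat_lit 152) (nat_lit 244863164230) (nat_lit 3) (nat_lit 5) (nat_lit 4) (nat_lit 5) (nat_lit 5) (nat_lit 4) (nat_lit 415) (nat_lit 299) (nat_lit 186)) (XT.nd (nat_lit 78) (nat_lit 0) (nat_lit 0) (XT.lf (nat_lit 0) (nat_lit 24618230085) (nat_lit 152) (nat_lit 237931919545) (nat_lit 0) (nat_lit 7164647886) (nat_lit 3) (nat_lit 5) (nat_lit 5) (nat_lit 4) (nat_lit 3) (nat_lit 4) (nat_lit 416) (nat_lit 299) (nat_lit 185)) (XT.lf (nat_lit 0) (nat_lit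 37323335955) (nat_lit 152) (nat_lit 225392136236) (nat_lit 0) (nat_lit 19866549284) (nat_lit 3) (nat_lit 5) (nat_lit 5) (nat_lit 4) (nat_lit 3) (nat_lit 4) (nat_lit 417) (nat_lit 299) (nat_lit 184))))) (XT.nd (nat_lit 234) (nat_lit 0) (nat_lit 0) (XT.nd (nat_lit 78) (nat_lit 0) (nat_lit 0) (XT.lf (nat_lit 0) (nat_lit 50659319922) (nat_lit 152) (nat_lit 212234024554) (nat_lit 0) (nat_lit 33199481374) (nat_lit 3) (nat_lit 5) (nat_lit 5) (nat_lit 4) (nat_lit 3) (nat_lit 4) (nat_lit 418) (nat_lit 299) (nat_lit 183)) (XT.nd (nat_lit 78) (nat_lit 0) (nat_lit 0) (XT.lf (nat_lit 0) (nat_lit 64657934330) (nat_lit 152) (nat_lit 198426255659) (nat_lit 0) (nat_lit 47195189231) (nat_lit 3) (nat_lit 5) (nat_lit 5) (nat_lit 4) (nat_lit 3) (nat_lit 4) (nat_lit 419) (nat_lit 299) (nat_lit 182)) (XT.lf (nat_lit 0) (nat_lit 79352509212) (nat_lit 152) (nat_lit 183935953912) (nat_lit 0) (nat_lit 61886995970)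 (nat_lit 3) (nat_lit 5) (nat_lit 5) (nat_lit 4) (nat_lit 3) (nat_lit 4) (nat_lit 420) (nat_lit 299) (nat_lit 181)))) (XT.nd (nat_lit 78) (nat_lit 0) (nat_lit 0) (XT.lf (nat_lit 0) (nat_lit 94778031651) (nat_lit 152) (nat_lit 168728618594) (nat_lit 0) (nat_lit 77309882082) (nat_lit 3) (nat_lit 5) (nat_lit 5) (nat_lit 4) (nat_lit 3) (nat_lit 4) (nat_lit 421) (nat_lit 299) (nat_lit 180)) (XT.nd (nat_lit 78) (nat_lit 0) (nat_lit 0) (XT.lf (nat_lit 0) (nat_lit 110971229082) (nat_lit 152) (nat_lit 152768041765) (nat_lit 0) (nat_lit 93500568726) (nat_lit 3) (nat_lit 5) (nat_lit 5) (nat_lit 4) (nat_lit 3) (nat_lit 4) (nat_lit 422) (nat_lit 299) (nat_lit 179)) (XT.lf (nat_lit 0) (nat_lit 127970656736) (nat_lit 152) (nat_lit 136016222050) (nat_lit 0) (nat_lit 110497605155) (nat_lit 3) (nat_lit 5) (nat_lit 5) (nat_lit 4) (nat_lit 3) (nat_lit 4) (nat_lit 423) (nat_lit 299) (nat_lit 178)))))) (XT.nd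 (nat_lit 468) (nat_lit 76) (nat_lit 0) (XT.nd (nat_lit 234) (nat_lit 0) (nat_lit 0) (XT.nd (nat_lit 78) (nat_lit 0) (nat_lit 0) (XT.lf (nat_lit 0) (nat_lit 145816789442) (nat_lit 152) (nat_lit 118433274165) (nat_lit 0) (nat_lit 128341460502) (nat_lit 3) (nat_lit 5) (nat_lit 5) (nat_lit 4) (nat_lit 3) (nat_lit 4) (nat_lit 424) (nat_lit 299) (nat_lit 177)) (XT.nd (nat_lit 78) (nat_lit 0) (nat_lit 0) (XT.lf (nat_lit 0) (nat_lit 164552117992) (nat_lit 152) (nat_lit 99977333948) (nat_lit 0) (nat_lit 147074620139) (nat_lit 3) (nat_lit 5) (nat_lit 5) (nat_lit 4) (nat_lit 3) (nat_lit 4) (nat_lit 425) (nat_lit 299) (nat_lit 176)) (XT.lf (nat_lit 0) (nat_lit 184221250310) (nat_lit 152) (nat_lit 80604458685) (nat_lit 0) (nat_lit 166741686827) (nat_lit 3) (nat_lit 5) (nat_lit 5) (nat_lit 4) (nat_lit 3) (nat_lit 4) (nat_lit 426) (nat_lit 299) (nat_lit 175)))) (XT.nd (nat_lit 78) (nat_lit 0) (nat_lit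 0) (XT.lf (nat_lit 0) (nat_lit 204871017665) (nat_lit 152) (nat_lit 60268522481) (nat_lit 0) (nat_lit 187389486914) (nat_lit 3) (nat_lit 5) (nat_lit 5) (nat_lit 4) (nat_lit 3) (nat_lit 4) (nat_lit 427) (nat_lit 299) (nat_lit 174)) (XT.nd (nat_lit 78) (nat_lit 0) (nat_lit 0) (XT.lf (nat_lit 0) (nat_lit 226550586168) (nat_lit 152) (nat_lit 38921106441) (nat_lit 0) (nat_lit 209067181829) (nat_lit 3) (nat_lit 5) (nat_lit 5) (nat_lit 4) (nat_lit 3) (nat_lit 4) (nat_lit 428) (nat_lit 299) (nat_lit 173)) (XT.lf (nat_lit 0) (nat_lit 249311573841) (nat_lit 152) (nat_lit 16511383384) (nat_lit 0) (nat_lit 231826385132) (nat_lit 3) (nat_lit 5) (nat_lit 5) (nat_lit 4) (nat_lit 3) (nat_lit 4) (nat_lit 429) (nat_lit 299) (nat_lit 172))))) (XT.nd (nat_lit 234) (nat_lit 0) (nat_lit 0) (XT.nd (nat_lit 78) (nat_lit 0) (nat_lit 0) (XT.lf (nat_lit 0) (nat_lit 7245917793) (nat_lit 76) (nat_lit 266075384800)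 (nat_lit 76) (nat_lit 248588496692) (nat_lit 2) (nat_lit 4) (nat_lit 3) (nat_lit 5) (nat_lit 3) (nat_lit 4) (nat_lit 430) (nat_lit 299) (nat_lit 171)) (XT.nd (nat_lit 78) (nat_lit 0) (nat_lit 0) (XT.lf (nat_lit 0) (nat_lit 32759577110) (nat_lit 76) (nat_lit 266049173539) (nat_lit 76) (nat_lit 248560666955) (nat_lit 2) (nat_lit 4) (nat_lit 3) (nat_lit 5) (nat_lit 3) (nat_lit 4) (nat_lit 431) (nat_lit 299) (nat_lit 170)) (XT.lf (nat_lit 0) (nat_lit 59544400471) (nat_lit 76) (nat_lit 266023889303) (nat_lit 76) (nat_lit 248533841313) (nat_lit 2) (nat_lit 4) (nat_lit 3) (nat_lit 5) (nat_lit 3) (nat_lit 4) (nat_lit 432) (nat_lit 299) (nat_lit 169)))) (XT.nd (nat_lit 78) (nat_lit 0) (nat_lit 0) (XT.lf (nat_lit 0) (nat_lit 87664161266) (nat_lit 76) (nat_lit 265999471889) (nat_lit 76) (nat_lit 248507955894) (nat_lit 2) (nat_lit 4) (nat_lit 3) (nat_lit 5) (nat_lit 3) (nat_lit 4) (nat_lit 433) (nat_lit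 299) (nat_lit 168)) (XT.nd (nat_lit 78) (nat_lit 0) (nat_lit 0) (XT.lf (nat_lit 0) (nat_lit 117185811305) (nat_lit 76) (nat_lit 265975863163) (nat_lit 76) (nat_lit 248482949067) (nat_lit 2) (nat_lit 4) (nat_lit 3) (nat_lit 5) (nat_lit 3) (nat_lit 4) (nat_lit 434) (nat_lit 299) (nat_lit 167)) (XT.lf (nat_lit 0) (nat_lit 148179640231) (nat_lit 76) (nat_lit 265953006912) (nat_lit 76) (nat_lit 248458761292) (nat_lit 2) (nat_lit 4) (nat_lit 3) (nat_lit 5) (nat_lit 3) (nat_lit 4) (nat_lit 435) (nat_lit 299) (nat_lit 166))))))) (XT.nd (nat_lit 36972) (nat_lit 0) (nat_lit 6992) (XT.nd (nat_lit 36504) (nat_lit 0) (nat_lit 11400) (XT.nd (nat_lit 36270) (nat_lit 0) (nat_lit 12388) (XT.nd (nat_lit 78) (nat_lit 0) (nat_lit 0) (XT.lf (nat_lit 0) (nat_lit 180719442876) (nat_lit 76) (nat_lit 265930848716) (nat_lit 76) (nat_lit 248435334978) (nat_lit 2) (nat_lit 4) (nat_lit 3) (nat_lit 5) (nat_lit 3) (nat_lit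 4) (nat_lit 436) (nat_lit 299) (nat_lit 165)) (XT.nd (nat_lit 78) (nat_lit 0) (nat_lit 0) (XT.lf (nat_lit 0) (nat_lit 214882694960) (nat_lit 76) (nat_lit 265909335819) (nat_lit 76) (nat_lit 248412614349) (nat_lit 2) (nat_lit 4) (nat_lit 3) (nat_lit 5) (nat_lit 3) (nat_lit 4) (nat_lit 437) (nat_lit 299) (nat_lit 164)) (XT.lf (nat_lit 0) (nat_lit 250750737560) (nat_lit 76) (nat_lit 265888416999) (nat_lit 76) (nat_lit 248390545308) (nat_lit 2) (nat_lit 4) (nat_lit 3) (nat_lit 5) (nat_lit 3) (nat_lit 4) (nat_lit 438) (nat_lit 299) (nat_lit 163)))) (XT.nd (nat_lit 78) (nat_lit 76) (nat_lit 0) (XT.lf (nat_lit 0) (nat_lit 1073741823) (nat_lit 0) (nat_lit 0) (nat_lit 0) (nat_lit 0) (nat_lit 166) (nat_lit 0) (nat_lit 1) (nat_lit 0) (nat_lit 1) (nat_lit 0) (nat_lit 300) (nat_lit 300) (nat_lit 300)) (XT.nd (nat_lit 78) (nat_lit 0) (nat_lit 0) (XT.lf (nat_lit 0) (nat_lit 3066292322) (nat_lit 76) (nat_lit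 3279061934) (nat_lit 0) (nat_lit 99697054) (nat_lit 165) (nat_lit 5) (nat_lit 166) (nat_lit 0) (nat_lit 165) (nat_lit 4) (nat_lit 301) (nat_lit 300) (nat_lit 299)) (XT.lf (nat_lit 0) (nat_lit 6091252630) (nat_lit 76) (nat_lit 67262286) (nat_lit 0) (nat_lit 299328536) (nat_lit 165) (nat_lit 5) (nat_lit 166) (nat_lit 0) (nat_lit 165) (nat_lit 4) (nat_lit 302) (nat_lit 300) (nat_lit 298))))) (XT.nd (nat_lit 234) (nat_lit 608) (nat_lit 0) (XT.nd (nat_lit 78) (nat_lit 228) (nat_lit 0) (XT.lf (nat_lit 0) (nat_lit 2570438697) (nat_lit 152) (nat_lit 3213314122) (nat_lit 76) (nat_lit 692450950) (nat_lit 163) (nat_lit 5) (nat_lit 165) (nat_lit 5) (nat_lit 164) (nat_lit 4) (nat_lit 303) (nat_lit 300) (nat_lit 297)) (XT.nd (nat_lit 78) (nat_lit 76) (nat_lit 0) (XT.lf (nat_lit 0) (nat_lit 156306095) (nat_lit 152) (nat_lit 5307926139) (nat_lit 228) (nat_lit 1040122337) (nat_lit 161) (nat_lit 5) (nat_lit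 163) (nat_lit 5) (nat_lit 164) (nat_lit 4) (nat_lit 304) (nat_lit 300) (nat_lit 296)) (XT.lf (nat_lit 0) (nat_lit 1783572634) (nat_lit 228) (nat_lit 2870351648) (nat_lit 76) (nat_lit 1884820614) (nat_lit 160) (nat_lit 5) (nat_lit 163) (nat_lit 5) (nat_lit 161) (nat_lit 5) (nat_lit 305) (nat_lit 300) (nat_lit 295)))) (XT.nd (nat_lit 78) (nat_lit 380) (nat_lit 0) (XT.lf (nat_lit 0) (nat_lit 677781226) (nat_lit 228) (nat_lit 3877224861) (nat_lit 304) (nat_lit 2027166481) (nat_lit 157) (nat_lit 5) (nat_lit 160) (nat_lit 5) (nat_lit 161) (nat_lit 5) (nat_lit 306) (nat_lit 300) (nat_lit 294)) (XT.nd (nat_lit 78) (nat_lit 304) (nat_lit 0) (XT.lf (nat_lit 0) (nat_lit 694274165) (nat_lit 304) (nat_lit 2248281872) (nat_lit 76) (nat_lit 3690593400) (nat_lit 156) (nat_lit 5) (nat_lit 160) (nat_lit 5) (nat_lit 157) (nat_lit 5) (nat_lit 307) (nat_lit 300) (nat_lit 293)) (XT.lf (nat_lit 0) (nat_lit 1498657612)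 (nat_lit 304) (nat_lit 1850709753) (nat_lit 380) (nat_lit 3342573193) (nat_lit 152) (nat_lit 5) (nat_lit 156) (nat_lit 5) (nat_lit 157) (nat_lit 5) (nat_lit 308) (nat_lit 300) (nat_lit 292)))))) (XT.nd (nat_lit 468) (nat_lit 2888) (nat_lit 0) (XT.nd (nat_lit 234) (nat_lit 1064) (nat_lit 0) (XT.nd (nat_lit 78) (nat_lit 456) (nat_lit 0) (XT.lf (nat_lit 0) (nat_lit 5406010840) (nat_lit 304) (nat_lit 617458450) (nat_lit 380) (nat_lit 736091483) (nat_lit 152) (nat_lit 5) (nat_lit 156) (nat_lit 5) (nat_lit 157) (nat_lit 5) (nat_lit 309) (nat_lit 300) (nat_lit 291)) (XT.nd (nat_lit 78) (nat_lit 0) (nat_lit 0) (XT.lf (nat_lit 0) (nat_lit 1842947018) (nat_lit 456) (nat_lit 4220968145) (nat_lit 76) (nat_lit 769955032) (nat_lit 146) (nat_lit 5) (nat_lit 152) (nat_lit 5) (nat_lit 147) (nat_lit 5) (nat_lit 310) (nat_lit 300) (nat_lit 290)) (XT.lf (nat_lit 0) (nat_lit 4418465460) (nat_lit 456) (nat_lit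 219851147) (nat_lit 76) (nat_lit 2278536553) (nat_lit 146) (nat_lit 5) (nat_lit 152) (nat_lit 5) (nat_lit 147) (nat_lit 5) (nat_lit 311) (nat_lit 300) (nat_lit 289)))) (XT.nd (nat_lit 78) (nat_lit 532) (nat_lit 0) (XT.lf (nat_lit 0) (nat_lit 41705594) (nat_lit 532) (nat_lit 3004870780) (nat_lit 76) (nat_lit 3961138010) (nat_lit 139) (nat_lit 5) (nat_lit 146) (nat_lit 5) (nat_lit 140) (nat_lit 5) (nat_lit 312) (nat_lit 300) (nat_lit 288)) (XT.nd (nat_lit 78) (nat_lit 0) (nat_lit 0) (XT.lf (nat_lit 0) (nat_lit 1231040553) (nat_lit 532) (nat_lit 1284867013) (nat_lit 608) (nat_lit 4590760847) (nat_lit 132) (nat_lit 5) (nat_lit 139) (nat_lit 5) (nat_lit 140) (nat_lit 5) (nat_lit 313) (nat_lit 300) (nat_lit 287)) (XT.lf (nat_lit 0) (nat_lit 5047355553) (nat_lit 608) (nat_lit 1548400255) (nat_lit 76) (nat_lit 618281269) (nat_lit 132) (nat_lit 5) (nat_lit 140) (nat_lit 5) (nat_lit 133) (nat_lit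 5) (nat_lit 314) (nat_lit 300) (nat_lit 286))))) (XT.nd (nat_lit 234) (nat_lit 1520) (nat_lit 0) (XT.nd (nat_lit 78) (nat_lit 684) (nat_lit 0) (XT.lf (nat_lit 0) (nat_lit 311797560) (nat_lit 684) (nat_lit 4374115072) (nat_lit 76) (nat_lit 2643430685) (nat_lit 123) (nat_lit 5) (nat_lit 132) (nat_lit 5) (nat_lit 124) (nat_lit 5) (nat_lit 315) (nat_lit 300) (nat_lit 285)) (XT.nd (nat_lit 78) (nat_lit 0) (nat_lit 0) (XT.lf (nat_lit 0) (nat_lit 146760177) (nat_lit 684) (nat_lit 2604663719) (nat_lit 760) (nat_lit 4701837261) (nat_lit 114) (nat_lit 5) (nat_lit 123) (nat_lit 5) (nat_lit 124) (nat_lit 5) (nat_lit 316) (nat_lit 300) (nat_lit 284)) (XT.lf (nat_lit 0) (nat_lit 4936644515) (nat_lit 684) (nat_lit 335520720) (nat_lit 760) (nat_lit 2313371216) (nat_lit 114) (nat_lit 5) (nat_lit 123) (nat_lit 5) (nat_lit 124) (nat_lit 5) (nat_lit 317) (nat_lit 300) (nat_lit 283)))) (XT.nd (nat_lit 156)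 (nat_lit 684) (nat_lit 0) (XT.nd (nat_lit 78) (nat_lit 0) (nat_lit 0) (XT.lf (nat_lit 0) (nat_lit 143924573) (nat_lit 836) (nat_lit 5559340740) (nat_lit 76) (nat_lit 2023333988) (nat_lit 103) (nat_lit 5) (nat_lit 114) (nat_lit 5) (nat_lit 104) (nat_lit 5) (nat_lit 318) (nat_lit 300) (nat_lit 282)) (XT.lf (nat_lit 0) (nat_lit 2589745387) (nat_lit 836) (nat_lit 711735399) (nat_lit 76) (nat_lit 4574270211) (nat_lit 103) (nat_lit 5) (nat_lit 114) (nat_lit 5) (nat_lit 104) (nat_lit 5) (nat_lit 319) (nat_lit 300) (nat_lit 281))) (XT.nd (nat_lit 78) (nat_lit 304) (nat_lit 0) (XT.lf (nat_lit 0) (nat_lit 4413526448) (nat_lit 380) (nat_lit 710675126) (nat_lit 456) (nat_lit 2909938769) (nat_lit 98) (nat_lit 5) (nat_lit 103) (nat_lit 5) (nat_lit 104) (nat_lit 5) (nat_lit 320) (nat_lit 300) (nat_lit 280)) (XT.lf (nat_lit 0) (nat_lit 1527990603) (nat_lit 304) (nat_lit 6225489160) (nat_lit 380) (nat_lit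 448657082) (nat_lit 94) (nat_lit 5) (nat_lit 98) (nat_lit 5) (nat_lit 99) (nat_lit 5) (nat_lit 321) (nat_lit 300) (nat_lit 279))))))))
noncomputable def xc101 : XT := (XT.nd (nat_lit 1950) (nat_lit 1748) (nat_lit 0) (XT.nd (nat_lit 936) (nat_lit 1672) (nat_lit 0) (XT.nd (nat_lit 468) (nat_lit 912) (nat_lit 0) (XT.nd (nat_lit 234) (nat_lit 608) (nat_lit 0) (XT.nd (nat_lit 78) (nat_lit 684) (nat_lit 0) (XT.lf (nat_lit 0) (nat_lit 2043310709) (nat_lit 380) (nat_lit 1472559369) (nat_lit 76) (nat_lit 4862281054) (nat_lit 93) (nat_lit 5) (nat_lit 98) (nat_lit 5) (nat_lit 94) (nat_lit 5) (nat_lit 322) (nat_lit 300) (nat_lit 278)) (XT.nd (nat_lit 78) (nat_lit 304) (nat_lit 0) (XT.lf (nat_lit 0) (nat_lit 4004376669) (nat_lit 380) (nat_lit 609613316) (nat_lit 456) (nat_lit 3950228886) (nat_lit 88) (nat_lit 5) (nat_lit 93) (nat_lit 5) (nat_lit 94) (nat_lit 5) (nat_lit 323) (nat_lit 300) (nat_lit 277))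 (XT.lf (nat_lit 0) (nat_lit 930971374) (nat_lit 304) (nat_lit 6369526274) (nat_lit 380) (nat_lit 1459803848) (nat_lit 84) (nat_lit 5) (nat_lit 88) (nat_lit 5) (nat_lit 89) (nat_lit 5) (nat_lit 324) (nat_lit 300) (nat_lit 276)))) (XT.nd (nat_lit 78) (nat_lit 532) (nat_lit 0) (XT.lf (nat_lit 0) (nat_lit 1117082998) (nat_lit 380) (nat_lit 2246505028) (nat_lit 76) (nat_lit 5601821994) (nat_lit 83) (nat_lit 5) (nat_lit 88) (nat_lit 5) (nat_lit 84) (nat_lit 5) (nat_lit 325) (nat_lit 300) (nat_lit 275)) (XT.nd (nat_lit 78) (nat_lit 228) (nat_lit 0) (XT.lf (nat_lit 0) (nat_lit 3602532344) (nat_lit 304) (nat_lit 142163326) (nat_lit 380) (nat_lit 5436400561) (nat_lit 79) (nat_lit 5) (nat_lit 83) (nat_lit 5) (nat_lit 84) (nat_lit 5) (nat_lit 326) (nat_lit 300) (nat_lit 274)) (XT.lf (nat_lit 0) (nat_lit 267172244) (nat_lit 228) (nat_lit 6246794156) (nat_lit 304) (nat_lit 2893149189) (nat_lit 76) (nat_lit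 5) (nat_lit 79) (nat_lit 5) (nat_lit 80) (nat_lit 5) (nat_lit 327) (nat_lit 300) (nat_lit 273))))) (XT.nd (nat_lit 234) (nat_lit 532) (nat_lit 0) (XT.nd (nat_lit 78) (nat_lit 380) (nat_lit 0) (XT.lf (nat_lit 0) (nat_lit 6491665448) (nat_lit 228) (nat_lit 2945973479) (nat_lit 304) (nat_lit 206059798) (nat_lit 76) (nat_lit 5) (nat_lit 79) (nat_lit 5) (nat_lit 80) (nat_lit 5) (nat_lit 328) (nat_lit 300) (nat_lit 272)) (XT.nd (nat_lit 78) (nat_lit 0) (nat_lit 0) (XT.lf (nat_lit 0) (nat_lit 2510835319) (nat_lit 380) (nat_lit 6809908399) (nat_lit 76) (nat_lit 570421800) (nat_lit 71) (nat_lit 5) (nat_lit 76) (nat_lit 5) (nat_lit 72) (nat_lit 5) (nat_lit 329) (nat_lit 300) (nat_lit 271)) (XT.lf (nat_lit 0) (nat_lit 5382672677) (nat_lit 380) (nat_lit 569512280) (nat_lit 76) (nat_lit 4197402260) (nat_lit 71) (nat_lit 5) (nat_lit 76) (nat_lit 5) (nat_lit 72) (nat_lit 5) (nat_lit 330) (nat_lit 300)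 (nat_lit 270)))) (XT.nd (nat_lit 78) (nat_lit 304) (nat_lit 0) (XT.lf (nat_lit 0) (nat_lit 6078135829) (nat_lit 228) (nat_lit 2341978510) (nat_lit 304) (nat_lit 1999764175) (nat_lit 68) (nat_lit 5) (nat_lit 71) (nat_lit 5) (nat_lit 72) (nat_lit 5) (nat_lit 331) (nat_lit 300) (nat_lit 269)) (XT.nd (nat_lit 78) (nat_lit 0) (nat_lit 0) (XT.lf (nat_lit 0) (nat_lit 874038621) (nat_lit 304) (nat_lit 8392449941) (nat_lit 76) (nat_lit 1436669101) (nat_lit 64) (nat_lit 5) (nat_lit 68) (nat_lit 5) (nat_lit 65) (nat_lit 5) (nat_lit 332) (nat_lit 300) (nat_lit 268)) (XT.lf (nat_lit 0) (nat_lit 3866763139) (nat_lit 304) (nat_lit 1724422637) (nat_lit 76) (nat_lit 5405696445) (nat_lit 64) (nat_lit 5) (nat_lit 68) (nat_lit 5) (nat_lit 65) (nat_lit 5) (nat_lit 333) (nat_lit 300) (nat_lit 267)))))) (XT.nd (nat_lit 468) (nat_lit 760) (nat_lit 0) (XT.nd (nat_lit 234) (nat_lit 380) (nat_lit 0) (XT.nd (nat_lit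 78) (nat_lit 304) (nat_lit 0) (XT.lf (nat_lit 0) (nat_lit 5351493937) (nat_lit 228) (nat_lit 1673856778) (nat_lit 304) (nat_lit 4279171373) (nat_lit 61) (nat_lit 5) (nat_lit 64) (nat_lit 5) (nat_lit 65) (nat_lit 5) (nat_lit 334) (nat_lit 300) (nat_lit 266)) (XT.nd (nat_lit 78) (nat_lit 76) (nat_lit 0) (XT.lf (nat_lit 0) (nat_lit 1113993346) (nat_lit 228) (nat_lit 9246966059) (nat_lit 304) (nat_lit 1265668456) (nat_lit 58) (nat_lit 5) (nat_lit 61) (nat_lit 5) (nat_lit 62) (nat_lit 5) (nat_lit 335) (nat_lit 300) (nat_lit 265)) (XT.lf (nat_lit 0) (nat_lit 1902135128) (nat_lit 304) (nat_lit 3376198150) (nat_lit 76) (nat_lit 6681839024) (nat_lit 57) (nat_lit 5) (nat_lit 61) (nat_lit 5) (nat_lit 58) (nat_lit 5) (nat_lit 336) (nat_lit 300) (nat_lit 264)))) (XT.nd (nat_lit 78) (nat_lit 228) (nat_lit 0) (XT.lf (nat_lit 0) (nat_lit 4134638343) (nat_lit 152) (nat_lit 1053308371) (nat_lit 228) (nat_lit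 7121335444) (nat_lit 55) (nat_lit 5) (nat_lit 57) (nat_lit 5) (nat_lit 58) (nat_lit 5) (nat_lit 337) (nat_lit 300) (nat_lit 263)) (XT.nd (nat_lit 78) (nat_lit 228) (nat_lit 0) (XT.lf (nat_lit 0) (nat_lit 8687614441) (nat_lit 228) (nat_lit 683585661) (nat_lit 76) (nat_lit 3302200799) (nat_lit 55) (nat_lit 5) (nat_lit 58) (nat_lit 5) (nat_lit 56) (nat_lit 5) (nat_lit 338) (nat_lit 300) (nat_lit 262)) (XT.lf (nat_lit 0) (nat_lit 7308118015) (nat_lit 228) (nat_lit 5127070393) (nat_lit 304) (nat_lit 616921194) (nat_lit 52) (nat_lit 5) (nat_lit 55) (nat_lit 5) (nat_lit 56) (nat_lit 5) (nat_lit 339) (nat_lit 300) (nat_lit 261))))) (XT.nd (nat_lit 234) (nat_lit 380) (nat_lit 0) (XT.nd (nat_lit 78) (nat_lit 152) (nat_lit 0) (XT.lf (nat_lit 0) (nat_lit 2207812444) (nat_lit 152) (nat_lit 607325456) (nat_lit 228) (nat_lit 10632952367) (nat_lit 49) (nat_lit 5) (nat_lit 51) (nat_lit 5) (nat_lit 52) (nat_lit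 5) (nat_lit 340) (nat_lit 300) (nat_lit 260)) (XT.nd (nat_lit 78) (nat_lit 152) (nat_lit 0) (XT.lf (nat_lit 0) (nat_lit 6504386378) (nat_lit 228) (nat_lit 3270608506) (nat_lit 76) (nat_lit 4083079511) (nat_lit 49) (nat_lit 5) (nat_lit 52) (nat_lit 5) (nat_lit 50) (nat_lit 5) (nat_lit 341) (nat_lit 300) (nat_lit 259)) (XT.lf (nat_lit 0) (nat_lit 5165381930) (nat_lit 152) (nat_lit 5248874651) (nat_lit 228) (nat_lit 3872518002) (nat_lit 47) (nat_lit 5) (nat_lit 49) (nat_lit 5) (nat_lit 50) (nat_lit 5) (nat_lit 342) (nat_lit 300) (nat_lit 258)))) (XT.nd (nat_lit 156) (nat_lit 152) (nat_lit 0) (XT.nd (nat_lit 78) (nat_lit 228) (nat_lit 0) (XT.lf (nat_lit 0) (nat_lit 14050601145) (nat_lit 152) (nat_lit 471213509) (nat_lit 228) (nat_lit 215009040) (nat_lit 47) (nat_lit 5) (nat_lit 49) (nat_lit 5) (nat_lit 50) (nat_lit 5) (nat_lit 343) (nat_lit 300) (nat_lit 257)) (XT.lf (nat_lit 0) (nat_lit 3660861864)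 (nat_lit 228) (nat_lit 6980298509) (nat_lit 76) (nat_lit 4557830154) (nat_lit 44) (nat_lit 5) (nat_lit 47) (nat_lit 5) (nat_lit 45) (nat_lit 5) (nat_lit 344) (nat_lit 300) (nat_lit 256))) (XT.nd (nat_lit 78) (nat_lit 0) (nat_lit 0) (XT.lf (nat_lit 0) (nat_lit 1873072215) (nat_lit 152) (nat_lit 5848161318) (nat_lit 228) (nat_lit 7962979702) (nat_lit 42) (nat_lit 5) (nat_lit 44) (nat_lit 5) (nat_lit 45) (nat_lit 5) (nat_lit 345) (nat_lit 300) (nat_lit 255)) (XT.lf (nat_lit 0) (nat_lit 11328383933) (nat_lit 152) (nat_lit 724731178) (nat_lit 228) (nat_lit 4137176844) (nat_lit 42) (nat_lit 5) (nat_lit 44) (nat_lit 5) (nat_lit 45) (nat_lit 5) (nat_lit 346) (nat_lit 300) (nat_lit 254))))))) (XT.nd (nat_lit 936) (nat_lit 684) (nat_lit 0) (XT.nd (nat_lit 468) (nat_lit 380) (nat_lit 0) (XT.nd (nat_lit 234) (nat_lit 304) (nat_lit 0) (XT.nd (nat_lit 78) (nat_lit 228) (nat_lit 0) (XT.lf (nat_lit 0)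 (nat_lit 4525967651) (nat_lit 152) (nat_lit 12171110294) (nat_lit 228) (nat_lit 19840826) (nat_lit 40) (nat_lit 5) (nat_lit 42) (nat_lit 5) (nat_lit 43) (nat_lit 4) (nat_lit 347) (nat_lit 300) (nat_lit 253)) (XT.nd (nat_lit 78) (nat_lit 152) (nat_lit 0) (XT.lf (nat_lit 0) (nat_lit 4213595314) (nat_lit 228) (nat_lit 2875433464) (nat_lit 76) (nat_lit 10175107178) (nat_lit 39) (nat_lit 5) (nat_lit 42) (nat_lit 5) (nat_lit 40) (nat_lit 5) (nat_lit 348) (nat_lit 300) (nat_lit 252)) (XT.lf (nat_lit 0) (nat_lit 7053887201) (nat_lit 152) (nat_lit 1668945330) (nat_lit 228) (nat_lit 9112641401) (nat_lit 37) (nat_lit 5) (nat_lit 39) (nat_lit 5) (nat_lit 40) (nat_lit 5) (nat_lit 349) (nat_lit 300) (nat_lit 251)))) (XT.nd (nat_lit 78) (nat_lit 304) (nat_lit 0) (XT.lf (nat_lit 0) (nat_lit 13524961891) (nat_lit 228) (nat_lit 994941116) (nat_lit 76) (nat_lit 3912119520) (nat_lit 37) (nat_lit 5) (nat_lit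 40) (nat_lit 5) (nat_lit 38) (nat_lit 4) (nat_lit 350) (nat_lit 300) (nat_lit 250)) (XT.nd (nat_lit 78) (nat_lit 228) (nat_lit 0) (XT.lf (nat_lit 0) (nat_lit 9482997509) (nat_lit 76) (nat_lit 9216890615) (nat_lit 152) (nat_lit 351890418) (nat_lit 36) (nat_lit 5) (nat_lit 37) (nat_lit 5) (nat_lit 38) (nat_lit 4) (nat_lit 351) (nat_lit 300) (nat_lit 249)) (XT.lf (nat_lit 0) (nat_lit 696100359) (nat_lit 152) (nat_lit 3578581365) (nat_lit 228) (nat_lit 15425121531) (nat_lit 33) (nat_lit 5) (nat_lit 35) (nat_lit 5) (nat_lit 36) (nat_lit 5) (nat_lit 352) (nat_lit 300) (nat_lit 248))))) (XT.nd (nat_lit 234) (nat_lit 304) (nat_lit 0) (XT.nd (nat_lit 78) (nat_lit 76) (nat_lit 0) (XT.lf (nat_lit 0) (nat_lit 9279884208) (nat_lit 228) (nat_lit 8685498320) (nat_lit 76) (nat_lit 2406614397) (nat_lit 33) (nat_lit 5) (nat_lit 36) (nat_lit 5) (nat_lit 34) (nat_lit 4) (nat_lit 353) (nat_lit 300) (nat_lit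 247)) (XT.nd (nat_lit 78) (nat_lit 0) (nat_lit 0) (XT.lf (nat_lit 0) (nat_lit 2085442095) (nat_lit 76) (nat_lit 12500995696) (nat_lit 152) (nat_lit 6488819875) (nat_lit 32) (nat_lit 5) (nat_lit 33) (nat_lit 5) (nat_lit 34) (nat_lit 4) (nat_lit 354) (nat_lit 300) (nat_lit 246)) (XT.lf (nat_lit 0) (nat_lit 13626363426) (nat_lit 76) (nat_lit 6639731429) (nat_lit 152) (nat_lit 1542209169) (nat_lit 32) (nat_lit 5) (nat_lit 33) (nat_lit 5) (nat_lit 34) (nat_lit 4) (nat_lit 355) (nat_lit 300) (nat_lit 245)))) (XT.nd (nat_lit 78) (nat_lit 76) (nat_lit 0) (XT.lf (nat_lit 0) (nat_lit 3141835069) (nat_lit 152) (nat_lit 404002222) (nat_lit 228) (nat_lit 19028775857) (nat_lit 29) (nat_lit 5) (nat_lit 31) (nat_lit 5) (nat_lit 32) (nat_lit 5) (nat_lit 356) (nat_lit 300) (nat_lit 244)) (XT.nd (nat_lit 78) (nat_lit 76) (nat_lit 0) (XT.lf (nat_lit 0) (nat_lit 9035447445) (nat_lit 228) (nat_lit 8248274998)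 (nat_lit 76) (nat_lit 6084311515) (nat_lit 29) (nat_lit 5) (nat_lit 32) (nat_lit 5) (nat_lit 30) (nat_lit 4) (nat_lit 357) (nat_lit 300) (nat_lit 243)) (XT.lf (nat_lit 0) (nat_lit 3536936783) (nat_lit 76) (nat_lit 11288479677) (nat_lit 152) (nat_lit 9374424785) (nat_lit 28) (nat_lit 5) (nat_lit 29) (nat_lit 5) (nat_lit 30) (nat_lit 4) (nat_lit 358) (nat_lit 300) (nat_lit 242)))))) (XT.nd (nat_lit 468) (nat_lit 380) (nat_lit 0) (XT.nd (nat_lit 234) (nat_lit 76) (nat_lit 0) (XT.nd (nat_lit 78) (nat_lit 228) (nat_lit 0) (XT.lf (nat_lit 0) (nat_lit 16133723064) (nat_lit 76) (nat_lit 4875595971) (nat_lit 152) (nat_lit 4058707011) (nat_lit 28) (nat_lit 5) (nat_lit 29) (nat_lit 5) (nat_lit 30) (nat_lit 4) (nat_lit 359) (nat_lit 300) (nat_lit 241)) (XT.nd (nat_lit 78) (nat_lit 0) (nat_lit 0) (XT.lf (nat_lit 0) (nat_lit 1522897880) (nat_lit 228) (nat_lit 22603559576) (nat_lit 76) (nat_lit 1849539943)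 (nat_lit 25) (nat_lit 5) (nat_lit 28) (nat_lit 5) (nat_lit 26) (nat_lit 4) (nat_lit 360) (nat_lit 300) (nat_lit 240)) (XT.lf (nat_lit 0) (nat_lit 7447004479) (nat_lit 228) (nat_lit 10528432918) (nat_lit 76) (nat_lit 8940619778) (nat_lit 25) (nat_lit 5) (nat_lit 28) (nat_lit 5) (nat_lit 26) (nat_lit 4) (nat_lit 361) (nat_lit 300) (nat_lit 239)))) (XT.nd (nat_lit 78) (nat_lit 0) (nat_lit 0) (XT.lf (nat_lit 0) (nat_lit 2160178799) (nat_lit 76) (nat_lit 11508583715) (nat_lit 152) (nat_lit 14234292447) (nat_lit 24) (nat_lit 5) (nat_lit 25) (nat_lit 5) (nat_lit 26) (nat_lit 4) (nat_lit 362) (nat_lit 300) (nat_lit 238)) (XT.nd (nat_lit 78) (nat_lit 0) (nat_lit 0) (XT.lf (nat_lit 0) (nat_lit 15790292270) (nat_lit 76) (nat_lit 4557964507) (nat_lit 152) (nat_lit 8583820424) (nat_lit 24) (nat_lit 5) (nat_lit 25) (nat_lit 5) (nat_lit 26) (nat_lit 4) (nat_lit 363) (nat_lit 300) (nat_lit 237)) (XT.lf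 (nat_lit 0) (nat_lit 27373960921) (nat_lit 152) (nat_lit 10205545) (nat_lit 0) (nat_lit 2627778974) (nat_lit 24) (nat_lit 5) (nat_lit 26) (nat_lit 4) (nat_lit 24) (nat_lit 4) (nat_lit 364) (nat_lit 300) (nat_lit 236))))) (XT.nd (nat_lit 234) (nat_lit 152) (nat_lit 0) (XT.nd (nat_lit 78) (nat_lit 76) (nat_lit 0) (XT.lf (nat_lit 0) (nat_lit 3759883080) (nat_lit 152) (nat_lit 17092713624) (nat_lit 76) (nat_lit 10276895746) (nat_lit 22) (nat_lit 5) (nat_lit 24) (nat_lit 5) (nat_lit 23) (nat_lit 4) (nat_lit 365) (nat_lit 300) (nat_lit 235)) (XT.nd (nat_lit 78) (nat_lit 76) (nat_lit 0) (XT.lf (nat_lit 0) (nat_lit 10360154901) (nat_lit 152) (nat_lit 3613863050) (nat_lit 76) (nat_lit 18328184100) (nat_lit 22) (nat_lit 5) (nat_lit 24) (nat_lit 5) (nat_lit 23) (nat_lit 4) (nat_lit 366) (nat_lit 300) (nat_lit 234)) (XT.lf (nat_lit 0) (nat_lit 10834095306) (nat_lit 76) (nat_lit 6597865835) (nat_lit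 152) (nat_lit 16094515416) (nat_lit 21) (nat_lit 5) (nat_lit 22) (nat_lit 5) (nat_lit 23) (nat_lit 4) (nat_lit 367) (nat_lit 300) (nat_lit 233)))) (XT.nd (nat_lit 156) (nat_lit 76) (nat_lit 0) (XT.nd (nat_lit 78) (nat_lit 76) (nat_lit 0) (XT.lf (nat_lit 0) (nat_lit 24909996983) (nat_lit 152) (nat_lit 8749653113) (nat_lit 0) (nat_lit 1149687936) (nat_lit 21) (nat_lit 5) (nat_lit 23) (nat_lit 4) (nat_lit 21) (nat_lit 4) (nat_lit 368) (nat_lit 300) (nat_lit 232)) (XT.lf (nat_lit 0) (nat_lit 5922312565) (nat_lit 76) (nat_lit 27014080158) (nat_lit 76) (nat_lit 3211231915) (nat_lit 20) (nat_lit 4) (nat_lit 21) (nat_lit 5) (nat_lit 21) (nat_lit 4) (nat_lit 369) (nat_lit 300) (nat_lit 231))) (XT.nd (nat_lit 78) (nat_lit 0) (nat_lit 0) (XT.lf (nat_lit 0) (nat_lit 3813802513) (nat_lit 152) (nat_lit 16025066610) (nat_lit 76) (nat_lit 17704760473) (nat_lit 19) (nat_lit 5) (nat_lit 21) (nat_lit 5) (nat_lit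 20) (nat_lit 4) (nat_lit 370) (nat_lit 300) (nat_lit 230)) (XT.lf (nat_lit 0) (nat_lit 11057309167) (nat_lit 152) (nat_lit 1214462275) (nat_lit 76) (nat_lit 26736278540) (nat_lit 19) (nat_lit 5) (nat_lit 21) (nat_lit 5) (nat_lit 20) (nat_lit 4) (nat_lit 371) (nat_lit 300) (nat_lit 229))))))))
noncomputable def xc102 : XT := (XT.nd (nat_lit 1872) (nat_lit 380) (nat_lit 0) (XT.nd (nat_lit 936) (nat_lit 304) (nat_lit 0) (XT.nd (nat_lit 468) (nat_lit 228) (nat_lit 0) (XT.nd (nat_lit 234) (nat_lit 152) (nat_lit 0) (XT.nd (nat_lit 78) (nat_lit 76) (nat_lit 0) (XT.lf (nat_lit 0) (nat_lit 14764455383) (nat_lit 76) (nat_lit 4105373108) (nat_lit 152) (nat_lit 21665525110) (nat_lit 18) (nat_lit 5) (nat_lit 19) (nat_lit 5) (nat_lit 20) (nat_lit 4) (nat_lit 372) (nat_lit 300) (nat_lit 228)) (XT.nd (nat_lit 78) (nat_lit 76) (nat_lit 0) (XT.lf (nat_lit 0) (nat_lit 27140095090) (nat_lit 152) (nat_lit 10668518260)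 (nat_lit 0) (nat_lit 4327056873) (nat_lit 18) (nat_lit 5) (nat_lit 20) (nat_lit 4) (nat_lit 18) (nat_lit 4) (nat_lit 373) (nat_lit 300) (nat_lit 227)) (XT.lf (nat_lit 0) (nat_lit 5246859020) (nat_lit 76) (nat_lit 30703795013) (nat_lit 76) (nat_lit 7859013393) (nat_lit 17) (nat_lit 4) (nat_lit 18) (nat_lit 5) (nat_lit 18) (nat_lit 4) (nat_lit 374) (nat_lit 300) (nat_lit 226)))) (XT.nd (nat_lit 78) (nat_lit 152) (nat_lit 0) (XT.lf (nat_lit 0) (nat_lit 22286328855) (nat_lit 76) (nat_lit 23074060095) (nat_lit 76) (nat_lit 199046662) (nat_lit 17) (nat_lit 4) (nat_lit 18) (nat_lit 5) (nat_lit 18) (nat_lit 4) (nat_lit 375) (nat_lit 300) (nat_lit 225)) (XT.nd (nat_lit 78) (nat_lit 76) (nat_lit 0) (XT.lf (nat_lit 0) (nat_lit 7571537337) (nat_lit 152) (nat_lit 7382154094) (nat_lit 76) (nat_lit 32437947032) (nat_lit 16) (nat_lit 5) (nat_lit 18) (nat_lit 5) (nat_lit 17) (nat_lit 4) (nat_lit 376) (nat_lit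 300) (nat_lit 224)) (XT.lf (nat_lit 0) (nat_lit 9567474928) (nat_lit 76) (nat_lit 6285550295) (nat_lit 152) (nat_lit 33455812926) (nat_lit 15) (nat_lit 5) (nat_lit 16) (nat_lit 5) (nat_lit 17) (nat_lit 4) (nat_lit 377) (nat_lit 300) (nat_lit 223))))) (XT.nd (nat_lit 234) (nat_lit 152) (nat_lit 0) (XT.nd (nat_lit 78) (nat_lit 76) (nat_lit 0) (XT.lf (nat_lit 0) (nat_lit 24699397529) (nat_lit 152) (nat_lit 23779700550) (nat_lit 0) (nat_lit 2835262141) (nat_lit 15) (nat_lit 5) (nat_lit 17) (nat_lit 4) (nat_lit 15) (nat_lit 4) (nat_lit 378) (nat_lit 300) (nat_lit 222)) (XT.nd (nat_lit 78) (nat_lit 76) (nat_lit 0) (XT.lf (nat_lit 0) (nat_lit 34071867914) (nat_lit 152) (nat_lit 7160059158) (nat_lit 0) (nat_lit 12184045110) (nat_lit 15) (nat_lit 5) (nat_lit 17) (nat_lit 4) (nat_lit 15) (nat_lit 4) (nat_lit 379) (nat_lit 300) (nat_lit 221)) (XT.lf (nat_lit 0) (nat_lit 10594352010) (nat_lit 76) (nat_lit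 33465672244) (nat_lit 76) (nat_lit 11555289996) (nat_lit 14) (nat_lit 4) (nat_lit 15) (nat_lit 5) (nat_lit 15) (nat_lit 4) (nat_lit 380) (nat_lit 300) (nat_lit 220)))) (XT.nd (nat_lit 78) (nat_lit 152) (nat_lit 0) (XT.lf (nat_lit 0) (nat_lit 29450336422) (nat_lit 76) (nat_lit 25200497336) (nat_lit 76) (nat_lit 3268629903) (nat_lit 14) (nat_lit 4) (nat_lit 15) (nat_lit 5) (nat_lit 15) (nat_lit 4) (nat_lit 381) (nat_lit 300) (nat_lit 219)) (XT.nd (nat_lit 78) (nat_lit 76) (nat_lit 0) (XT.lf (nat_lit 0) (nat_lit 5241054167) (nat_lit 152) (nat_lit 11208168469) (nat_lit 76) (nat_lit 43886231430) (nat_lit 13) (nat_lit 5) (nat_lit 15) (nat_lit 5) (nat_lit 14) (nat_lit 4) (nat_lit 382) (nat_lit 300) (nat_lit 218)) (XT.lf (nat_lit 0) (nat_lit 7056040484) (nat_lit 76) (nat_lit 7103890097) (nat_lit 152) (nat_lit 48704958593) (nat_lit 12) (nat_lit 5) (nat_lit 13) (nat_lit 5) (nat_lit 14) (nat_lit 4)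 (nat_lit 383) (nat_lit 300) (nat_lit 217)))))) (XT.nd (nat_lit 468) (nat_lit 228) (nat_lit 0) (XT.nd (nat_lit 234) (nat_lit 76) (nat_lit 0) (XT.nd (nat_lit 78) (nat_lit 0) (nat_lit 0) (XT.lf (nat_lit 0) (nat_lit 23743420708) (nat_lit 152) (nat_lit 38966239304) (nat_lit 0) (nat_lit 2800204593) (nat_lit 12) (nat_lit 5) (nat_lit 14) (nat_lit 4) (nat_lit 12) (nat_lit 4) (nat_lit 384) (nat_lit 300) (nat_lit 216)) (XT.nd (nat_lit 78) (nat_lit 0) (nat_lit 0) (XT.lf (nat_lit 0) (nat_lit 33906782421) (nat_lit 152) (nat_lit 21428541392) (nat_lit 0) (nat_lit 12946732102) (nat_lit 12) (nat_lit 5) (nat_lit 14) (nat_lit 4) (nat_lit 12) (nat_lit 4) (nat_lit 385) (nat_lit 300) (nat_lit 215)) (XT.lf (nat_lit 0) (nat_lit 44563302570) (nat_lit 152) (nat_lit 3043086899) (nat_lit 0) (nat_lit 23587219675) (nat_lit 12) (nat_lit 5) (nat_lit 14) (nat_lit 4) (nat_lit 12) (nat_lit 4) (nat_lit 386) (nat_lit 300) (nat_lit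 214)))) (XT.nd (nat_lit 78) (nat_lit 0) (nat_lit 0) (XT.lf (nat_lit 0) (nat_lit 16770665083) (nat_lit 76) (nat_lit 39229525818) (nat_lit 76) (nat_lit 18238173804) (nat_lit 11) (nat_lit 4) (nat_lit 12) (nat_lit 5) (nat_lit 12) (nat_lit 4) (nat_lit 387) (nat_lit 300) (nat_lit 213)) (XT.nd (nat_lit 78) (nat_lit 0) (nat_lit 0) (XT.lf (nat_lit 0) (nat_lit 37653459960) (nat_lit 76) (nat_lit 30392959511) (nat_lit 76) (nat_lit 9387065478) (nat_lit 11) (nat_lit 4) (nat_lit 12) (nat_lit 5) (nat_lit 12) (nat_lit 4) (nat_lit 388) (nat_lit 300) (nat_lit 212)) (XT.lf (nat_lit 0) (nat_lit 59554400473) (nat_lit 76) (nat_lit 21127187254) (nat_lit 76) (nat_lit 107443680) (nat_lit 11) (nat_lit 4) (nat_lit 12) (nat_lit 5) (nat_lit 12) (nat_lit 4) (nat_lit 389) (nat_lit 300) (nat_lit 211))))) (XT.nd (nat_lit 234) (nat_lit 76) (nat_lit 0) (XT.nd (nat_lit 78) (nat_lit 76) (nat_lit 0) (XT.lf (nat_lit 0) (nat_lit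 9314796683) (nat_lit 152) (nat_lit 1937600412) (nat_lit 76) (nat_lit 73053084447) (nat_lit 10) (nat_lit 5) (nat_lit 12) (nat_lit 5) (nat_lit 11) (nat_lit 4) (nat_lit 390) (nat_lit 300) (nat_lit 210)) (XT.nd (nat_lit 78) (nat_lit 0) (nat_lit 0) (XT.lf (nat_lit 0) (nat_lit 18903565968) (nat_lit 76) (nat_lit 583781117) (nat_lit 152) (nat_lit 68496179985) (nat_lit 9) (nat_lit 5) (nat_lit 10) (nat_lit 5) (nat_lit 11) (nat_lit 4) (nat_lit 391) (nat_lit 300) (nat_lit 209)) (XT.lf (nat_lit 0) (nat_lit 30355368468) (nat_lit 152) (nat_lit 51180120246) (nat_lit 0) (nat_lit 10300645314) (nat_lit 9) (nat_lit 5) (nat_lit 11) (nat_lit 4) (nat_lit 9) (nat_lit 4) (nat_lit 392) (nat_lit 300) (nat_lit 208)))) (XT.nd (nat_lit 78) (nat_lit 76) (nat_lit 0) (XT.lf (nat_lit 0) (nat_lit 41764656758) (nat_lit 152) (nat_lit 32417740424) (nat_lit 0) (nat_lit 21699082126) (nat_lit 9) (nat_lit 5) (nat_lit 11) (nat_lit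 4) (nat_lit 9) (nat_lit 4) (nat_lit 393) (nat_lit 300) (nat_lit 207)) (XT.nd (nat_lit 78) (nat_lit 76) (nat_lit 0) (XT.lf (nat_lit 0) (nat_lit 53733262468) (nat_lit 152) (nat_lit 12739034845) (nat_lit 0) (nat_lit 33657353094) (nat_lit 9) (nat_lit 5) (nat_lit 11) (nat_lit 4) (nat_lit 9) (nat_lit 4) (nat_lit 394) (nat_lit 300) (nat_lit 206)) (XT.lf (nat_lit 0) (nat_lit 8164154482) (nat_lit 76) (nat_lit 58252993127) (nat_lit 76) (nat_lit 38167241142) (nat_lit 8) (nat_lit 4) (nat_lit 9) (nat_lit 5) (nat_lit 9) (nat_lit 4) (nat_lit 395) (nat_lit 300) (nat_lit 205))))))) (XT.nd (nat_lit 936) (nat_lit 152) (nat_lit 0) (XT.nd (nat_lit 468) (nat_lit 76) (nat_lit 0) (XT.nd (nat_lit 234) (nat_lit 152) (nat_lit 0) (XT.nd (nat_lit 78) (nat_lit 0) (nat_lit 0) (XT.lf (nat_lit 0) (nat_lit 30534353107) (nat_lit 76) (nat_lit 49406186143) (nat_lit 76) (nat_lit 29311060244) (nat_lit 8) (nat_lit 4) (nat_lit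 9) (nat_lit 5) (nat_lit 9) (nat_lit 4) (nat_lit 396) (nat_lit 300) (nat_lit 204)) (XT.nd (nat_lit 78) (nat_lit 0) (nat_lit 0) (XT.lf (nat_lit 0) (nat_lit 54003613382) (nat_lit 76) (nat_lit 40126554256) (nat_lit 76) (nat_lit 20022500818) (nat_lit 8) (nat_lit 4) (nat_lit 9) (nat_lit 5) (nat_lit 9) (nat_lit 4) (nat_lit 397) (nat_lit 300) (nat_lit 203)) (XT.lf (nat_lit 0) (nat_lit 78627814498) (nat_lit 76) (nat_lit 30392003103) (nat_lit 76) (nat_lit 10279447248) (nat_lit 8) (nat_lit 4) (nat_lit 9) (nat_lit 5) (nat_lit 9) (nat_lit 4) (nat_lit 398) (nat_lit 300) (nat_lit 202)))) (XT.nd (nat_lit 78) (nat_lit 152) (nat_lit 0) (XT.lf (nat_lit 0) (nat_lit 104465585507) (nat_lit 76) (nat_lit 20179355181) (nat_lit 76) (nat_lit 58701787) (nat_lit 8) (nat_lit 4) (nat_lit 9) (nat_lit 5) (nat_lit 9) (nat_lit 4) (nat_lit 399) (nat_lit 300) (nat_lit 201)) (XT.nd (nat_lit 78) (nat_lit 0) (nat_lit 0) (XT.lf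 (nat_lit 0) (nat_lit 1067444882) (nat_lit 76) (nat_lit 9271974736) (nat_lit 152) (nat_lit 120030091189) (nat_lit 6) (nat_lit 5) (nat_lit 7) (nat_lit 5) (nat_lit 8) (nat_lit 4) (nat_lit 400) (nat_lit 300) (nat_lit 200)) (XT.lf (nat_lit 0) (nat_lit 21629184541) (nat_lit 152) (nat_lit 112218437374) (nat_lit 0) (nat_lit 2452317831) (nat_lit 6) (nat_lit 5) (nat_lit 8) (nat_lit 4) (nat_lit 6) (nat_lit 4) (nat_lit 401) (nat_lit 300) (nat_lit 199))))) (XT.nd (nat_lit 234) (nat_lit 76) (nat_lit 0) (XT.nd (nat_lit 78) (nat_lit 0) (nat_lit 0) (XT.lf (nat_lit 0) (nat_lit 33627153681) (nat_lit 152) (nat_lit 94448926323) (nat_lit 0) (nat_lit 14443625105) (nat_lit 6) (nat_lit 5) (nat_lit 8) (nat_lit 4) (nat_lit 6) (nat_lit 4) (nat_lit 402) (nat_lit 300) (nat_lit 198)) (XT.nd (nat_lit 78) (nat_lit 0) (nat_lit 0) (XT.lf (nat_lit 0) (nat_lit 46217132124) (nat_lit 152) (nat_lit 75806462900) (nat_lit 0) (nat_lit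 27027258913) (nat_lit 6) (nat_lit 5) (nat_lit 8) (nat_lit 4) (nat_lit 6) (nat_lit 4) (nat_lit 403) (nat_lit 300) (nat_lit 197)) (XT.lf (nat_lit 0) (nat_lit 59429096009) (nat_lit 152) (nat_lit 56246660290) (nat_lit 0) (nat_lit 40233180288) (nat_lit 6) (nat_lit 5) (nat_lit 8) (nat_lit 4) (nat_lit 6) (nat_lit 4) (nat_lit 404) (nat_lit 300) (nat_lit 196)))) (XT.nd (nat_lit 78) (nat_lit 76) (nat_lit 0) (XT.lf (nat_lit 0) (nat_lit 73294502391) (nat_lit 152) (nat_lit 35722947533) (nat_lit 0) (nat_lit 54092831900) (nat_lit 6) (nat_lit 5) (nat_lit 8) (nat_lit 4) (nat_lit 6) (nat_lit 4) (nat_lit 405) (nat_lit 300) (nat_lit 195)) (XT.nd (nat_lit 78) (nat_lit 76) (nat_lit 0) (XT.lf (nat_lit 0) (nat_lit 87846364144) (nat_lit 152) (nat_lit 14186458646) (nat_lit 0) (nat_lit 68639212919) (nat_lit 6) (nat_lit 5) (nat_lit 8) (nat_lit 4) (nat_lit 6) (nat_lit 4) (nat_lit 406) (nat_lit 300) (nat_lit 194)) (XT.lf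 (nat_lit 0) (nat_lit 8692291330) (nat_lit 76) (nat_lit 94562748255) (nat_lit 76) (nat_lit 75350377283) (nat_lit 5) (nat_lit 4) (nat_lit 6) (nat_lit 5) (nat_lit 6) (nat_lit 4) (nat_lit 407) (nat_lit 300) (nat_lit 193)))))) (XT.nd (nat_lit 468) (nat_lit 152) (nat_lit 0) (XT.nd (nat_lit 234) (nat_lit 0) (nat_lit 0) (XT.nd (nat_lit 78) (nat_lit 0) (nat_lit 0) (XT.lf (nat_lit 0) (nat_lit 33194935640) (nat_lit 76) (nat_lit 86473090166) (nat_lit 76) (nat_lit 67255748008) (nat_lit 5) (nat_lit 4) (nat_lit 6) (nat_lit 5) (nat_lit 6) (nat_lit 4) (nat_lit 408) (nat_lit 300) (nat_lit 192)) (XT.nd (nat_lit 78) (nat_lit 0) (nat_lit 0) (XT.lf (nat_lit 0) (nat_lit 58910745520) (nat_lit 76) (nat_lit 77984841977) (nat_lit 76) (nat_lit 58762765354) (nat_lit 5) (nat_lit 4) (nat_lit 6) (nat_lit 5) (nat_lit 6) (nat_lit 4) (nat_lit 409) (nat_lit 300) (nat_lit 191)) (XT.lf (nat_lit 0) (nat_lit 85900949089) (nat_lit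 76) (nat_lit 69077793571) (nat_lit 76) (nat_lit 49851207935) (nat_lit 5) (nat_lit 4) (nat_lit 6) (nat_lit 5) (nat_lit 6) (nat_lit 4) (nat_lit 410) (nat_lit 300) (nat_lit 190)))) (XT.nd (nat_lit 78) (nat_lit 0) (nat_lit 0) (XT.lf (nat_lit 0) (nat_lit 114229808737) (nat_lit 76) (nat_lit 59730737692) (nat_lit 76) (nat_lit 40499857757) (nat_lit 5) (nat_lit 4) (nat_lit 6) (nat_lit 5) (nat_lit 6) (nat_lit 4) (nat_lit 411) (nat_lit 300) (nat_lit 189)) (XT.nd (nat_lit 78) (nat_lit 0) (nat_lit 0) (XT.lf (nat_lit 0) (nat_lit 143964774130) (nat_lit 76) (nat_lit 49921419443) (nat_lit 76) (nat_lit 30686449701) (nat_lit 5) (nat_lit 4) (nat_lit 6) (nat_lit 5) (nat_lit 6) (nat_lit 4) (nat_lit 412) (nat_lit 300) (nat_lit 188)) (XT.lf (nat_lit 0) (nat_lit 175176642804) (nat_lit 76) (nat_lit 39626483306) (nat_lit 76) (nat_lit 20387618508) (nat_lit 5) (nat_lit 4) (nat_lit 6) (nat_lit 5) (nat_lit 6) (nat_lit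 4) (nat_lit 413) (nat_lit 300) (nat_lit 187))))) (XT.nd (nat_lit 234) (nat_lit 0) (nat_lit 0) (XT.nd (nat_lit 78) (nat_lit 152) (nat_lit 0) (XT.lf (nat_lit 0) (nat_lit 207939728732) (nat_lit 76) (nat_lit 28821417528) (nat_lit 76) (nat_lit 9578843153) (nat_lit 5) (nat_lit 4) (nat_lit 6) (nat_lit 5) (nat_lit 6) (nat_lit 4) (nat_lit 414) (nat_lit 300) (nat_lit 186)) (XT.nd (nat_lit 78) (nat_lit 76) (nat_lit 0) (XT.lf (nat_lit 0) (nat_lit 1709100947) (nat_lit 152) (nat_lit 15742450362) (nat_lit 76) (nat_lit 240593993864) (nat_lit 4) (nat_lit 5) (nat_lit 6) (nat_lit 5) (nat_lit 5) (nat_lit 4) (nat_lit 415) (nat_lit 300) (nat_lit 185)) (XT.lf (nat_lit 0) (nat_lit 8143203709) (nat_lit 76) (nat_lit 5219077124) (nat_lit 152) (nat_lit 256960109224) (nat_lit 3) (nat_lit 5) (nat_lit 4) (nat_lit 5) (nat_lit 5) (nat_lit 4) (nat_lit 416) (nat_lit 300) (nat_lit 184)))) (XT.nd (nat_lit 156) (nat_lit 0)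 (nat_lit 0) (XT.nd (nat_lit 78) (nat_lit 0) (nat_lit 0) (XT.lf (nat_lit 0) (nat_lit 25983767065) (nat_lit 152) (nat_lit 249562143396) (nat_lit 0) (nat_lit 7647884712) (nat_lit 3) (nat_lit 5) (nat_lit 5) (nat_lit 4) (nat_lit 3) (nat_lit 4) (nat_lit 417) (nat_lit 300) (nat_lit 183)) (XT.lf (nat_lit 0) (nat_lit 39317717492) (nat_lit 152) (nat_lit 236408055309) (nat_lit 0) (nat_lit 20978928588) (nat_lit 3) (nat_lit 5) (nat_lit 5) (nat_lit 4) (nat_lit 3) (nat_lit 4) (nat_lit 418) (nat_lit 300) (nat_lit 182))) (XT.nd (nat_lit 78) (nat_lit 0) (nat_lit 0) (XT.lf (nat_lit 0) (nat_lit 53314395194) (nat_lit 152) (nat_lit 222604118411) (nat_lit 0) (nat_lit 34972838147) (nat_lit 3) (nat_lit 5) (nat_lit 5) (nat_lit 4) (nat_lit 3) (nat_lit 4) (nat_lit 419) (nat_lit 300) (nat_lit 181)) (XT.lf (nat_lit 0) (nat_lit 68007125594) (nat_lit 152) (nat_lit 208117466184) (nat_lit 0) (nat_lit 49662932221) (nat_lit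 3) (nat_lit 5) (nat_lit 5) (nat_lit 4) (nat_lit 3) (nat_lit 4) (nat_lit 420) (nat_lit 300) (nat_lit 180))))))))
noncomputable def xc103 : XT := (XT.nd (nat_lit 38064) (nat_lit 0) (nat_lit 4940) (XT.nd (nat_lit 936) (nat_lit 0) (nat_lit 0) (XT.nd (nat_lit 468) (nat_lit 76) (nat_lit 0) (XT.nd (nat_lit 234) (nat_lit 0) (nat_lit 0) (XT.nd (nat_lit 78) (nat_lit 0) (nat_lit 0) (XT.lf (nat_lit 0) (nat_lit 83430891385) (nat_lit 152) (nat_lit 192913606600) (nat_lit 0) (nat_lit 65084187224) (nat_lit 3) (nat_lit 5) (nat_lit 5) (nat_lit 4) (nat_lit 3) (nat_lit 4) (nat_lit 421) (nat_lit 300) (nat_lit 179)) (XT.nd (nat_lit 78) (nat_lit 0) (nat_lit 0) (XT.lf (nat_lit 0) (nat_lit 99622415817) (nat_lit 152) (nat_lit 176956339993) (nat_lit 0) (nat_lit 81273320430) (nat_lit 3) (nat_lit 5) (nat_lit 5) (nat_lit 4) (nat_lit 3) (nat_lit 4) (nat_lit 422) (nat_lit 300) (nat_lit 178)) (XT.lf (nat_lit 0) (nat_lit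 116620250139) (nat_lit 152) (nat_lit 160207672872) (nat_lit 0) (nat_lit 98268877394) (nat_lit 3) (nat_lit 5) (nat_lit 5) (nat_lit 4) (nat_lit 3) (nat_lit 4) (nat_lit 423) (nat_lit 300) (nat_lit 177)))) (XT.nd (nat_lit 78) (nat_lit 0) (nat_lit 0) (XT.lf (nat_lit 0) (nat_lit 134464865386) (nat_lit 152) (nat_lit 142627727456) (nat_lit 0) (nat_lit 116111323728) (nat_lit 3) (nat_lit 5) (nat_lit 5) (nat_lit 4) (nat_lit 3) (nat_lit 4) (nat_lit 424) (nat_lit 300) (nat_lit 176)) (XT.nd (nat_lit 78) (nat_lit 0) (nat_lit 0) (XT.lf (nat_lit 0) (nat_lit 153198748736) (nat_lit 152) (nat_lit 124174646734) (nat_lit 0) (nat_lit 134843141447) (nat_lit 3) (nat_lit 5) (nat_lit 5) (nat_lit 4) (nat_lit 3) (nat_lit 4) (nat_lit 425) (nat_lit 300) (nat_lit 175)) (XT.lf (nat_lit 0) (nat_lit 172866504674) (nat_lit 152) (nat_lit 104804494798) (nat_lit 0) (nat_lit 154508930118) (nat_lit 3) (nat_lit 5) (nat_lit 5) (nat_lit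 4) (nat_lit 3) (nat_lit 4) (nat_lit 426) (nat_lit 300) (nat_lit 174))))) (XT.nd (nat_lit 234) (nat_lit 76) (nat_lit 0) (XT.nd (nat_lit 78) (nat_lit 0) (nat_lit 0) (XT.lf (nat_lit 0) (nat_lit 193514961190) (nat_lit 152) (nat_lit 84471152240) (nat_lit 0) (nat_lit 175155513046) (nat_lit 3) (nat_lit 5) (nat_lit 5) (nat_lit 4) (nat_lit 3) (nat_lit 4) (nat_lit 427) (nat_lit 300) (nat_lit 173)) (XT.nd (nat_lit 78) (nat_lit 0) (nat_lit 0) (XT.lf (nat_lit 0) (nat_lit 215193281276) (nat_lit 152) (nat_lit 63126206340) (nat_lit 0) (nat_lit 196832048762) (nat_lit 3) (nat_lit 5) (nat_lit 5) (nat_lit 4) (nat_lit 3) (nat_lit 4) (nat_lit 428) (nat_lit 300) (nat_lit 172)) (XT.lf (nat_lit 0) (nat_lit 237953079979) (nat_lit 152) (nat_lit 40718835796) (nat_lit 0) (nat_lit 219590148066) (nat_lit 3) (nat_lit 5) (nat_lit 5) (nat_lit 4) (nat_lit 3) (nat_lit 4) (nat_lit 429) (nat_lit 300) (nat_lit 171)))) (XT.nd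 (nat_lit 78) (nat_lit 76) (nat_lit 0) (XT.lf (nat_lit 0) (nat_lit 261848547297) (nat_lit 152) (nat_lit 17195689728) (nat_lit 0) (nat_lit 243483996908) (nat_lit 3) (nat_lit 5) (nat_lit 5) (nat_lit 4) (nat_lit 3) (nat_lit 4) (nat_lit 430) (nat_lit 300) (nat_lit 170)) (XT.nd (nat_lit 78) (nat_lit 0) (nat_lit 0) (XT.lf (nat_lit 0) (nat_lit 7747198076) (nat_lit 76) (nat_lit 279310334597) (nat_lit 76) (nat_lit 260944242801) (nat_lit 2) (nat_lit 4) (nat_lit 3) (nat_lit 5) (nat_lit 3) (nat_lit 4) (nat_lit 431) (nat_lit 300) (nat_lit 169)) (XT.lf (nat_lit 0) (nat_lit 34529922054) (nat_lit 76) (nat_lit 279286089889) (nat_lit 76) (nat_lit 260918530089) (nat_lit 2) (nat_lit 4) (nat_lit 3) (nat_lit 5) (nat_lit 3) (nat_lit 4) (nat_lit 432) (nat_lit 300) (nat_lit 168)))))) (XT.nd (nat_lit 36582) (nat_lit 0) (nat_lit 11628) (XT.nd (nat_lit 234) (nat_lit 0) (nat_lit 0) (XT.nd (nat_lit 78) (nat_lit 0) (nat_lit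 0) (XT.lf (nat_lit 0) (nat_lit 62647683436) (nat_lit 76) (nat_lit 279262662504) (nat_lit 76) (nat_lit 260893704603) (nat_lit 2) (nat_lit 4) (nat_lit 3) (nat_lit 5) (nat_lit 3) (nat_lit 4) (nat_lit 433) (nat_lit 300) (nat_lit 167)) (XT.nd (nat_lit 78) (nat_lit 0) (nat_lit 0) (XT.lf (nat_lit 0) (nat_lit 92167429273) (nat_lit 76) (nat_lit 279239996661) (nat_lit 76) (nat_lit 260869707236) (nat_lit 2) (nat_lit 4) (nat_lit 3) (nat_lit 5) (nat_lit 3) (nat_lit 4) (nat_lit 434) (nat_lit 300) (nat_lit 166)) (XT.lf (nat_lit 0) (nat_lit 123159444674) (nat_lit 76) (nat_lit 279218038395) (nat_lit 76) (nat_lit 260846480851) (nat_lit 2) (nat_lit 4) (nat_lit 3) (nat_lit 5) (nat_lit 3) (nat_lit 4) (nat_lit 435) (nat_lit 300) (nat_lit 165)))) (XT.nd (nat_lit 78) (nat_lit 0) (nat_lit 0) (XT.lf (nat_lit 0) (nat_lit 155697520152) (nat_lit 76) (nat_lit 279196735422) (nat_lit 76) (nat_lit 260823970148) (nat_lit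 2) (nat_lit 4) (nat_lit 3) (nat_lit 5) (nat_lit 3) (nat_lit 4) (nat_lit 436) (nat_lit 300) (nat_lit 164)) (XT.nd (nat_lit 78) (nat_lit 0) (nat_lit 0) (XT.lf (nat_lit 0) (nat_lit 189859127314) (nat_lit 76) (nat_lit 279176037024) (nat_lit 76) (nat_lit 260802121528) (nat_lit 2) (nat_lit 4) (nat_lit 3) (nat_lit 5) (nat_lit 3) (nat_lit 4) (nat_lit 437) (nat_lit 300) (nat_lit 163)) (XT.lf (nat_lit 0) (nat_lit 225725603322) (nat_lit 76) (nat_lit 279155893916) (nat_lit 76) (nat_lit 260780882972) (nat_lit 2) (nat_lit 4) (nat_lit 3) (nat_lit 5) (nat_lit 3) (nat_lit 4) (nat_lit 438) (nat_lit 300) (nat_lit 162))))) (XT.nd (nat_lit 234) (nat_lit 532) (nat_lit 0) (XT.nd (nat_lit 78) (nat_lit 228) (nat_lit 0) (XT.lf (nat_lit 0) (nat_lit 1508417997) (nat_lit 0) (nat_lit 1508417997) (nat_lit 76) (nat_lit 209543008) (nat_lit 165) (nat_lit 5) (nat_lit 165) (nat_lit 3) (nat_lit 166) (nat_lit 0) (nat_lit 301)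 (nat_lit 301) (nat_lit 298)) (XT.nd (nat_lit 78) (nat_lit 0) (nat_lit 0) (XT.lf (nat_lit 0) (nat_lit 2414032801) (nat_lit 228) (nat_lit 310118359) (nat_lit 228) (nat_lit 3744323206) (nat_lit 162) (nat_lit 3) (nat_lit 165) (nat_lit 3) (nat_lit 165) (nat_lit 5) (nat_lit 302) (nat_lit 301) (nat_lit 297)) (XT.lf (nat_lit 76) (nat_lit 2964752084) (nat_lit 0) (nat_lit 2275113955) (nat_lit 228) (nat_lit 1251794438) (nat_lit 163) (nat_lit 5) (nat_lit 162) (nat_lit 3) (nat_lit 165) (nat_lit 5) (nat_lit 303) (nat_lit 301) (nat_lit 296)))) (XT.nd (nat_lit 156) (nat_lit 304) (nat_lit 0) (XT.nd (nat_lit 78) (nat_lit 0) (nat_lit 0) (XT.lf (nat_lit 0) (nat_lit 1465103918) (nat_lit 228) (nat_lit 227919017) (nat_lit 304) (nat_lit 4830508976) (nat_lit 159) (nat_lit 5) (nat_lit 162) (nat_lit 3) (nat_lit 163) (nat_lit 5) (nat_lit 304) (nat_lit 301) (nat_lit 295)) (XT.lf (nat_lit 76) (nat_lit 3223606266) (nat_lit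 0) (nat_lit 933838002) (nat_lit 304) (nat_lit 2404689131) (nat_lit 160) (nat_lit 5) (nat_lit 159) (nat_lit 5) (nat_lit 163) (nat_lit 5) (nat_lit 305) (nat_lit 301) (nat_lit 294))) (XT.nd (nat_lit 78) (nat_lit 0) (nat_lit 76) (XT.lf (nat_lit 76) (nat_lit 152803738) (nat_lit 0) (nat_lit 58047317) (nat_lit 380) (nat_lit 6399672261) (nat_lit 156) (nat_lit 5) (nat_lit 155) (nat_lit 5) (nat_lit 160) (nat_lit 5) (nat_lit 306) (nat_lit 301) (nat_lit 293)) (XT.lf (nat_lit 0) (nat_lit 2789580683) (nat_lit 304) (nat_lit 2884407052) (nat_lit 76) (nat_lit 989924999) (nat_lit 156) (nat_lit 5) (nat_lit 160) (nat_lit 5) (nat_lit 157) (nat_lit 5) (nat_lit 307) (nat_lit 301) (nat_lit 292))))))) (XT.nd (nat_lit 936) (nat_lit 2736) (nat_lit 0) (XT.nd (nat_lit 468) (nat_lit 2204) (nat_lit 0) (XT.nd (nat_lit 234) (nat_lit 1064) (nat_lit 0) (XT.nd (nat_lit 78) (nat_lit 456) (nat_lit 0) (XT.lf (nat_lit 0) (nat_lit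 790285358) (nat_lit 304) (nat_lit 4570069087) (nat_lit 380) (nat_lit 1366664036) (nat_lit 152) (nat_lit 5) (nat_lit 156) (nat_lit 5) (nat_lit 157) (nat_lit 5) (nat_lit 308) (nat_lit 301) (nat_lit 291)) (XT.nd (nat_lit 78) (nat_lit 380) (nat_lit 0) (XT.lf (nat_lit 0) (nat_lit 1128355824) (nat_lit 380) (nat_lit 2167595135) (nat_lit 76) (nat_lit 3501398364) (nat_lit 151) (nat_lit 5) (nat_lit 156) (nat_lit 5) (nat_lit 152) (nat_lit 5) (nat_lit 309) (nat_lit 301) (nat_lit 290)) (XT.lf (nat_lit 0) (nat_lit 1722696378) (nat_lit 380) (nat_lit 1866255754) (nat_lit 456) (nat_lit 3286961343) (nat_lit 146) (nat_lit 5) (nat_lit 151) (nat_lit 5) (nat_lit 152) (nat_lit 5) (nat_lit 310) (nat_lit 301) (nat_lit 289)))) (XT.nd (nat_lit 78) (nat_lit 1064) (nat_lit 0) (XT.lf (nat_lit 0) (nat_lit 5784333873) (nat_lit 380) (nat_lit 289948632) (nat_lit 456) (nat_lit 889204501) (nat_lit 146) (nat_lit 5) (nat_lit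 151) (nat_lit 5) (nat_lit 152) (nat_lit 5) (nat_lit 311) (nat_lit 301) (nat_lit 288)) (XT.nd (nat_lit 78) (nat_lit 532) (nat_lit 0) (XT.lf (nat_lit 0) (nat_lit 1514771663) (nat_lit 532) (nat_lit 4116674371) (nat_lit 76) (nat_lit 1425950281) (nat_lit 139) (nat_lit 5) (nat_lit 146) (nat_lit 5) (nat_lit 140) (nat_lit 5) (nat_lit 312) (nat_lit 301) (nat_lit 287)) (XT.lf (nat_lit 0) (nat_lit 30299096) (nat_lit 532) (nat_lit 3878632319) (nat_lit 608) (nat_lit 3251491153) (nat_lit 132) (nat_lit 5) (nat_lit 139) (nat_lit 5) (nat_lit 140) (nat_lit 5) (nat_lit 313) (nat_lit 301) (nat_lit 286))))) (XT.nd (nat_lit 234) (nat_lit 1520) (nat_lit 0) (XT.nd (nat_lit 78) (nat_lit 684) (nat_lit 0) (XT.lf (nat_lit 0) (nat_lit 4425674241) (nat_lit 532) (nat_lit 1945580591) (nat_lit 608) (nat_lit 900059400) (nat_lit 132) (nat_lit 5) (nat_lit 139) (nat_lit 5) (nat_lit 140) (nat_lit 5) (nat_lit 314) (nat_lit 301)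 (nat_lit 285)) (XT.nd (nat_lit 78) (nat_lit 0) (nat_lit 0) (XT.lf (nat_lit 0) (nat_lit 1428234688) (nat_lit 684) (nat_lit 5815617143) (nat_lit 76) (nat_lit 147322688) (nat_lit 123) (nat_lit 5) (nat_lit 132) (nat_lit 5) (nat_lit 124) (nat_lit 5) (nat_lit 315) (nat_lit 301) (nat_lit 284)) (XT.lf (nat_lit 0) (nat_lit 3810328746) (nat_lit 684) (nat_lit 1350858054) (nat_lit 76) (nat_lit 2356839854) (nat_lit 123) (nat_lit 5) (nat_lit 132) (nat_lit 5) (nat_lit 124) (nat_lit 5) (nat_lit 316) (nat_lit 301) (nat_lit 283)))) (XT.nd (nat_lit 78) (nat_lit 836) (nat_lit 0) (XT.lf (nat_lit 0) (nat_lit 3343771235) (nat_lit 684) (nat_lit 2912110552) (nat_lit 760) (nat_lit 1398234510) (nat_lit 114) (nat_lit 5) (nat_lit 123) (nat_lit 5) (nat_lit 124) (nat_lit 5) (nat_lit 317) (nat_lit 301) (nat_lit 282)) (XT.nd (nat_lit 78) (nat_lit 0) (nat_lit 0) (XT.lf (nat_lit 0) (nat_lit 418783685) (nat_lit 760) (nat_lit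 498777735) (nat_lit 836) (nat_lit 6882563648) (nat_lit 103) (nat_lit 5) (nat_lit 113) (nat_lit 5) (nat_lit 114) (nat_lit 5) (nat_lit 318) (nat_lit 301) (nat_lit 281)) (XT.lf (nat_lit 0) (nat_lit 3305564095) (nat_lit 836) (nat_lit 2577648320) (nat_lit 76) (nat_lit 2069002711) (nat_lit 103) (nat_lit 5) (nat_lit 114) (nat_lit 5) (nat_lit 104) (nat_lit 5) (nat_lit 319) (nat_lit 301) (nat_lit 280)))))) (XT.nd (nat_lit 468) (nat_lit 1216) (nat_lit 0) (XT.nd (nat_lit 234) (nat_lit 760) (nat_lit 0) (XT.nd (nat_lit 78) (nat_lit 380) (nat_lit 0) (XT.lf (nat_lit 0) (nat_lit 2435052289) (nat_lit 380) (nat_lit 3326430066) (nat_lit 456) (nat_lit 2353094208) (nat_lit 98) (nat_lit 5) (nat_lit 103) (nat_lit 5) (nat_lit 104) (nat_lit 5) (nat_lit 320) (nat_lit 301) (nat_lit 279)) (XT.nd (nat_lit 78) (nat_lit 304) (nat_lit 0) (XT.lf (nat_lit 0) (nat_lit 1530769) (nat_lit 456) (nat_lit 599146454) (nat_lit 76)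 (nat_lit 7687012082) (nat_lit 97) (nat_lit 5) (nat_lit 103) (nat_lit 5) (nat_lit 98) (nat_lit 5) (nat_lit 321) (nat_lit 301) (nat_lit 278)) (XT.lf (nat_lit 0) (nat_lit 2414412244) (nat_lit 380) (nat_lit 3754493702) (nat_lit 76) (nat_lit 2297722771) (nat_lit 93) (nat_lit 5) (nat_lit 98) (nat_lit 5) (nat_lit 94) (nat_lit 5) (nat_lit 322) (nat_lit 301) (nat_lit 277)))) (XT.nd (nat_lit 78) (nat_lit 380) (nat_lit 0) (XT.lf (nat_lit 0) (nat_lit 1596338627) (nat_lit 380) (nat_lit 3307798423) (nat_lit 456) (nat_lit 3752644309) (nat_lit 88) (nat_lit 5) (nat_lit 93) (nat_lit 5) (nat_lit 94) (nat_lit 5) (nat_lit 323) (nat_lit 301) (nat_lit 276)) (XT.nd (nat_lit 78) (nat_lit 380) (nat_lit 0) (XT.lf (nat_lit 0) (nat_lit 7246166837) (nat_lit 380) (nat_lit 249569610) (nat_lit 456) (nat_lit 1361908361) (nat_lit 88) (nat_lit 5) (nat_lit 93) (nat_lit 5) (nat_lit 94) (nat_lit 5) (nat_lit 324) (nat_lit 301)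 (nat_lit 275)) (XT.lf (nat_lit 0) (nat_lit 1139918791) (nat_lit 380) (nat_lit 4988964538) (nat_lit 76) (nat_lit 2937422023) (nat_lit 83) (nat_lit 5) (nat_lit 88) (nat_lit 5) (nat_lit 84) (nat_lit 5) (nat_lit 325) (nat_lit 301) (nat_lit 274))))) (XT.nd (nat_lit 234) (nat_lit 684) (nat_lit 0) (XT.nd (nat_lit 78) (nat_lit 228) (nat_lit 0) (XT.lf (nat_lit 0) (nat_lit 719336680) (nat_lit 304) (nat_lit 2963549283) (nat_lit 380) (nat_lit 5603368465) (nat_lit 79) (nat_lit 5) (nat_lit 83) (nat_lit 5) (nat_lit 84) (nat_lit 5) (nat_lit 326) (nat_lit 301) (nat_lit 273)) (XT.nd (nat_lit 78) (nat_lit 228) (nat_lit 0) (XT.lf (nat_lit 0) (nat_lit 6365304328) (nat_lit 380) (nat_lit 2735167496) (nat_lit 76) (nat_lit 416173713) (nat_lit 79) (nat_lit 5) (nat_lit 84) (nat_lit 5) (nat_lit 80) (nat_lit 5) (nat_lit 327) (nat_lit 301) (nat_lit 272)) (XT.lf (nat_lit 0) (nat_lit 3350202412) (nat_lit 228) (nat_lit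 5857106980) (nat_lit 304) (nat_lit 550030399) (nat_lit 76) (nat_lit 5) (nat_lit 79) (nat_lit 5) (nat_lit 80) (nat_lit 5) (nat_lit 328) (nat_lit 301) (nat_lit 271)))) (XT.nd (nat_lit 156) (nat_lit 304) (nat_lit 0) (XT.nd (nat_lit 78) (nat_lit 304) (nat_lit 0) (XT.lf (nat_lit 0) (nat_lit 2084040147) (nat_lit 304) (nat_lit 305340745) (nat_lit 76) (nat_lit 7620411064) (nat_lit 75) (nat_lit 5) (nat_lit 79) (nat_lit 5) (nat_lit 76) (nat_lit 5) (nat_lit 329) (nat_lit 301) (nat_lit 270)) (XT.lf (nat_lit 0) (nat_lit 4878013671) (nat_lit 380) (nat_lit 4096135113) (nat_lit 76) (nat_lit 1297982032) (nat_lit 71) (nat_lit 5) (nat_lit 76) (nat_lit 5) (nat_lit 72) (nat_lit 5) (nat_lit 330) (nat_lit 301) (nat_lit 269))) (XT.nd (nat_lit 78) (nat_lit 76) (nat_lit 0) (XT.lf (nat_lit 0) (nat_lit 2387246232) (nat_lit 228) (nat_lit 5436723668) (nat_lit 304) (nat_lit 2723049308) (nat_lit 68) (nat_lit 5) (nat_lit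 71) (nat_lit 5) (nat_lit 72) (nat_lit 5) (nat_lit 331) (nat_lit 301) (nat_lit 268)) (XT.lf (nat_lit 0) (nat_lit 80756649) (nat_lit 304) (nat_lit 1592955274) (nat_lit 76) (nat_lit 9161829087) (nat_lit 67) (nat_lit 5) (nat_lit 71) (nat_lit 5) (nat_lit 68) (nat_lit 5) (nat_lit 332) (nat_lit 301) (nat_lit 267))))))))
noncomputable def xc104 : XT := (XT.nd (nat_lit 1872) (nat_lit 1368) (nat_lit 0) (XT.nd (nat_lit 936) (nat_lit 912) (nat_lit 0) (XT.nd (nat_lit 468) (nat_lit 836) (nat_lit 0) (XT.nd (nat_lit 234) (nat_lit 456) (nat_lit 0) (XT.nd (nat_lit 78) (nat_lit 228) (nat_lit 0) (XT.lf (nat_lit 0) (nat_lit 2988394357) (nat_lit 304) (nat_lit 5835087645) (nat_lit 76) (nat_lit 2310057627) (nat_lit 64) (nat_lit 5) (nat_lit 68) (nat_lit 5) (nat_lit 65) (nat_lit 5) (nat_lit 333) (nat_lit 301) (nat_lit 266)) (XT.nd (nat_lit 78) (nat_lit 0) (nat_lit 0) (XT.lf (nat_lit 0) (nat_lit 1058457079) (nat_lit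 228) (nat_lit 4990220941) (nat_lit 304) (nat_lit 5397435451) (nat_lit 61) (nat_lit 5) (nat_lit 64) (nat_lit 5) (nat_lit 65) (nat_lit 5) (nat_lit 334) (nat_lit 301) (nat_lit 265)) (XT.lf (nat_lit 0) (nat_lit 8408562834) (nat_lit 228) (nat_lit 889751281) (nat_lit 304) (nat_lit 2474221642) (nat_lit 61) (nat_lit 5) (nat_lit 64) (nat_lit 5) (nat_lit 65) (nat_lit 5) (nat_lit 335) (nat_lit 301) (nat_lit 264)))) (XT.nd (nat_lit 78) (nat_lit 152) (nat_lit 0) (XT.lf (nat_lit 0) (nat_lit 632785213) (nat_lit 304) (nat_lit 8126220659) (nat_lit 76) (nat_lit 3353007892) (nat_lit 57) (nat_lit 5) (nat_lit 61) (nat_lit 5) (nat_lit 58) (nat_lit 5) (nat_lit 336) (nat_lit 301) (nat_lit 263)) (XT.nd (nat_lit 78) (nat_lit 152) (nat_lit 0) (XT.lf (nat_lit 0) (nat_lit 3825053630) (nat_lit 304) (nat_lit 791391945) (nat_lit 76) (nat_lit 7849370654) (nat_lit 57) (nat_lit 5) (nat_lit 61) (nat_lit 5) (nat_lit 58) (nat_lit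 5) (nat_lit 337) (nat_lit 301) (nat_lit 262)) (XT.lf (nat_lit 0) (nat_lit 7050573210) (nat_lit 152) (nat_lit 179842182) (nat_lit 228) (nat_lit 5604249592) (nat_lit 55) (nat_lit 5) (nat_lit 57) (nat_lit 5) (nat_lit 58) (nat_lit 5) (nat_lit 338) (nat_lit 301) (nat_lit 261))))) (XT.nd (nat_lit 234) (nat_lit 380) (nat_lit 0) (XT.nd (nat_lit 78) (nat_lit 228) (nat_lit 0) (XT.lf (nat_lit 0) (nat_lit 1998410699) (nat_lit 228) (nat_lit 8866719400) (nat_lit 304) (nat_lit 2353900563) (nat_lit 52) (nat_lit 5) (nat_lit 55) (nat_lit 5) (nat_lit 56) (nat_lit 5) (nat_lit 339) (nat_lit 301) (nat_lit 260)) (XT.nd (nat_lit 78) (nat_lit 152) (nat_lit 0) (XT.lf (nat_lit 0) (nat_lit 1072329930) (nat_lit 304) (nat_lit 3354651266) (nat_lit 76) (nat_lit 9192469936) (nat_lit 51) (nat_lit 5) (nat_lit 55) (nat_lit 5) (nat_lit 52) (nat_lit 5) (nat_lit 340) (nat_lit 301) (nat_lit 259)) (XT.lf (nat_lit 0) (nat_lit 4620391061)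 (nat_lit 228) (nat_lit 9100233720) (nat_lit 76) (nat_lit 315881952) (nat_lit 49) (nat_lit 5) (nat_lit 52) (nat_lit 5) (nat_lit 50) (nat_lit 5) (nat_lit 341) (nat_lit 301) (nat_lit 258)))) (XT.nd (nat_lit 78) (nat_lit 380) (nat_lit 0) (XT.lf (nat_lit 0) (nat_lit 8424322288) (nat_lit 228) (nat_lit 870232419) (nat_lit 76) (nat_lit 5175960691) (nat_lit 49) (nat_lit 5) (nat_lit 52) (nat_lit 5) (nat_lit 50) (nat_lit 5) (nat_lit 342) (nat_lit 301) (nat_lit 257)) (XT.nd (nat_lit 78) (nat_lit 228) (nat_lit 0) (XT.lf (nat_lit 0) (nat_lit 7946204209) (nat_lit 152) (nat_lit 4546927032) (nat_lit 228) (nat_lit 2429381705) (nat_lit 47) (nat_lit 5) (nat_lit 49) (nat_lit 5) (nat_lit 50) (nat_lit 5) (nat_lit 343) (nat_lit 301) (nat_lit 256)) (XT.lf (nat_lit 0) (nat_lit 1325809665) (nat_lit 228) (nat_lit 13610441344) (nat_lit 76) (nat_lit 459745020) (nat_lit 44) (nat_lit 5) (nat_lit 47) (nat_lit 5) (nat_lit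 45) (nat_lit 5) (nat_lit 344) (nat_lit 301) (nat_lit 255)))))) (XT.nd (nat_lit 468) (nat_lit 380) (nat_lit 0) (XT.nd (nat_lit 234) (nat_lit 380) (nat_lit 0) (XT.nd (nat_lit 78) (nat_lit 152) (nat_lit 0) (XT.lf (nat_lit 0) (nat_lit 5333314751) (nat_lit 228) (nat_lit 4856244559) (nat_lit 76) (nat_lit 5694312240) (nat_lit 44) (nat_lit 5) (nat_lit 47) (nat_lit 5) (nat_lit 45) (nat_lit 5) (nat_lit 345) (nat_lit 301) (nat_lit 254)) (XT.nd (nat_lit 78) (nat_lit 0) (nat_lit 0) (XT.lf (nat_lit 0) (nat_lit 4399906494) (nat_lit 152) (nat_lit 5163863004) (nat_lit 228) (nat_lit 6831261148) (nat_lit 42) (nat_lit 5) (nat_lit 44) (nat_lit 5) (nat_lit 45) (nat_lit 5) (nat_lit 346) (nat_lit 301) (nat_lit 253)) (XT.lf (nat_lit 0) (nat_lit 14045531372) (nat_lit 228) (nat_lit 2720432304) (nat_lit 76) (nat_lit 163812436) (nat_lit 42) (nat_lit 5) (nat_lit 45) (nat_lit 5) (nat_lit 43) (nat_lit 4) (nat_lit 347)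 (nat_lit 301) (nat_lit 252)))) (XT.nd (nat_lit 78) (nat_lit 152) (nat_lit 0) (XT.lf (nat_lit 0) (nat_lit 1374158379) (nat_lit 228) (nat_lit 10419157682) (nat_lit 76) (nat_lit 5689256700) (nat_lit 39) (nat_lit 5) (nat_lit 42) (nat_lit 5) (nat_lit 40) (nat_lit 5) (nat_lit 348) (nat_lit 301) (nat_lit 251)) (XT.nd (nat_lit 78) (nat_lit 152) (nat_lit 0) (XT.lf (nat_lit 0) (nat_lit 5752203141) (nat_lit 228) (nat_lit 751571105) (nat_lit 76) (nat_lit 11556703545) (nat_lit 39) (nat_lit 5) (nat_lit 42) (nat_lit 5) (nat_lit 40) (nat_lit 5) (nat_lit 349) (nat_lit 301) (nat_lit 250)) (XT.lf (nat_lit 0) (nat_lit 9637640851) (nat_lit 152) (nat_lit 820859787) (nat_lit 228) (nat_lit 8203324420) (nat_lit 37) (nat_lit 5) (nat_lit 39) (nat_lit 5) (nat_lit 40) (nat_lit 5) (nat_lit 350) (nat_lit 301) (nat_lit 249))))) (XT.nd (nat_lit 234) (nat_lit 76) (nat_lit 0) (XT.nd (nat_lit 78) (nat_lit 228) (nat_lit 0)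 (XT.lf (nat_lit 0) (nat_lit 1165902290) (nat_lit 76) (nat_lit 14305006239) (nat_lit 152) (nat_lit 3818805201) (nat_lit 36) (nat_lit 5) (nat_lit 37) (nat_lit 5) (nat_lit 38) (nat_lit 4) (nat_lit 351) (nat_lit 301) (nat_lit 248)) (XT.nd (nat_lit 78) (nat_lit 152) (nat_lit 0) (XT.lf (nat_lit 0) (nat_lit 888103460) (nat_lit 152) (nat_lit 7861653872) (nat_lit 76) (nat_lit 11192224958) (nat_lit 35) (nat_lit 5) (nat_lit 37) (nat_lit 5) (nat_lit 36) (nat_lit 5) (nat_lit 352) (nat_lit 301) (nat_lit 247)) (XT.lf (nat_lit 0) (nat_lit 2875544870) (nat_lit 152) (nat_lit 2832795320) (nat_lit 228) (nat_lit 14915089880) (nat_lit 33) (nat_lit 5) (nat_lit 35) (nat_lit 5) (nat_lit 36) (nat_lit 5) (nat_lit 353) (nat_lit 301) (nat_lit 246)))) (XT.nd (nat_lit 78) (nat_lit 76) (nat_lit 0) (XT.lf (nat_lit 0) (nat_lit 10919461061) (nat_lit 228) (nat_lit 7032568049) (nat_lit 76) (nat_lit 3379438883) (nat_lit 33)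 (nat_lit 5) (nat_lit 36) (nat_lit 5) (nat_lit 34) (nat_lit 4) (nat_lit 354) (nat_lit 301) (nat_lit 245)) (XT.nd (nat_lit 78) (nat_lit 0) (nat_lit 0) (XT.lf (nat_lit 0) (nat_lit 4243254787) (nat_lit 76) (nat_lit 12224168934) (nat_lit 152) (nat_lit 5603680630) (nat_lit 32) (nat_lit 5) (nat_lit 33) (nat_lit 5) (nat_lit 34) (nat_lit 4) (nat_lit 355) (nat_lit 301) (nat_lit 244)) (XT.lf (nat_lit 0) (nat_lit 16263434537) (nat_lit 76) (nat_lit 6112787955) (nat_lit 152) (nat_lit 467338448) (nat_lit 32) (nat_lit 5) (nat_lit 33) (nat_lit 5) (nat_lit 34) (nat_lit 4) (nat_lit 356) (nat_lit 301) (nat_lit 243))))))) (XT.nd (nat_lit 936) (nat_lit 532) (nat_lit 0) (XT.nd (nat_lit 468) (nat_lit 304) (nat_lit 0) (XT.nd (nat_lit 234) (nat_lit 228) (nat_lit 0) (XT.nd (nat_lit 78) (nat_lit 76) (nat_lit 0) (XT.lf (nat_lit 0) (nat_lit 4822683932) (nat_lit 228) (nat_lit 18395647946) (nat_lit 76) (nat_lit 429746534)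 (nat_lit 29) (nat_lit 5) (nat_lit 32) (nat_lit 5) (nat_lit 30) (nat_lit 4) (nat_lit 357) (nat_lit 301) (nat_lit 242)) (XT.nd (nat_lit 78) (nat_lit 76) (nat_lit 0) (XT.lf (nat_lit 0) (nat_lit 10540722448) (nat_lit 228) (nat_lit 6753882987) (nat_lit 76) (nat_lit 7188881133) (nat_lit 29) (nat_lit 5) (nat_lit 32) (nat_lit 5) (nat_lit 30) (nat_lit 4) (nat_lit 358) (nat_lit 301) (nat_lit 241)) (XT.lf (nat_lit 0) (nat_lit 5589834451) (nat_lit 76) (nat_lit 11009479081) (nat_lit 152) (nat_lit 8758627550) (nat_lit 28) (nat_lit 5) (nat_lit 29) (nat_lit 5) (nat_lit 30) (nat_lit 4) (nat_lit 359) (nat_lit 301) (nat_lit 240)))) (XT.nd (nat_lit 78) (nat_lit 228) (nat_lit 0) (XT.lf (nat_lit 0) (nat_lit 18727124293) (nat_lit 76) (nat_lit 4316114265) (nat_lit 152) (nat_lit 3228767624) (nat_lit 28) (nat_lit 5) (nat_lit 29) (nat_lit 5) (nat_lit 30) (nat_lit 4) (nat_lit 360) (nat_lit 301) (nat_lit 239)) (XT.nd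 (nat_lit 78) (nat_lit 0) (nat_lit 0) (XT.lf (nat_lit 0) (nat_lit 2591859967) (nat_lit 228) (nat_lit 21906502896) (nat_lit 76) (nat_lit 2726568162) (nat_lit 25) (nat_lit 5) (nat_lit 28) (nat_lit 5) (nat_lit 26) (nat_lit 4) (nat_lit 361) (nat_lit 301) (nat_lit 238)) (XT.lf (nat_lit 0) (nat_lit 8764894886) (nat_lit 228) (nat_lit 9314631079) (nat_lit 76) (nat_lit 10134842407) (nat_lit 25) (nat_lit 5) (nat_lit 28) (nat_lit 5) (nat_lit 26) (nat_lit 4) (nat_lit 362) (nat_lit 301) (nat_lit 237))))) (XT.nd (nat_lit 234) (nat_lit 152) (nat_lit 0) (XT.nd (nat_lit 78) (nat_lit 76) (nat_lit 0) (XT.lf (nat_lit 0) (nat_lit 3980343104) (nat_lit 76) (nat_lit 11299103540) (nat_lit 152) (nat_lit 13972194334) (nat_lit 24) (nat_lit 5) (nat_lit 25) (nat_lit 5) (nat_lit 26) (nat_lit 4) (nat_lit 363) (nat_lit 301) (nat_lit 236)) (XT.nd (nat_lit 78) (nat_lit 76) (nat_lit 0) (XT.lf (nat_lit 0) (nat_lit 18210431040)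 (nat_lit 76) (nat_lit 4038330008) (nat_lit 152) (nat_lit 8085570745) (nat_lit 24) (nat_lit 5) (nat_lit 25) (nat_lit 5) (nat_lit 26) (nat_lit 4) (nat_lit 364) (nat_lit 301) (nat_lit 235)) (XT.lf (nat_lit 0) (nat_lit 1625404750) (nat_lit 76) (nat_lit 27994786115) (nat_lit 76) (nat_lit 1848289827) (nat_lit 23) (nat_lit 4) (nat_lit 24) (nat_lit 5) (nat_lit 24) (nat_lit 4) (nat_lit 365) (nat_lit 301) (nat_lit 234)))) (XT.nd (nat_lit 78) (nat_lit 76) (nat_lit 0) (XT.lf (nat_lit 0) (nat_lit 4797660878) (nat_lit 152) (nat_lit 16360535924) (nat_lit 76) (nat_lit 11485112904) (nat_lit 22) (nat_lit 5) (nat_lit 24) (nat_lit 5) (nat_lit 23) (nat_lit 4) (nat_lit 366) (nat_lit 301) (nat_lit 233)) (XT.nd (nat_lit 78) (nat_lit 76) (nat_lit 0) (XT.lf (nat_lit 0) (nat_lit 11687480402) (nat_lit 152) (nat_lit 2283305363) (nat_lit 76) (nat_lit 19905900324) (nat_lit 22) (nat_lit 5) (nat_lit 24) (nat_lit 5) (nat_lit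 23) (nat_lit 4) (nat_lit 367) (nat_lit 301) (nat_lit 232)) (XT.lf (nat_lit 0) (nat_lit 12862675897) (nat_lit 76) (nat_lit 6234876415) (nat_lit 152) (nat_lit 16065395868) (nat_lit 21) (nat_lit 5) (nat_lit 22) (nat_lit 5) (nat_lit 23) (nat_lit 4) (nat_lit 368) (nat_lit 301) (nat_lit 231)))))) (XT.nd (nat_lit 468) (nat_lit 304) (nat_lit 0) (XT.nd (nat_lit 234) (nat_lit 76) (nat_lit 0) (XT.nd (nat_lit 78) (nat_lit 152) (nat_lit 0) (XT.lf (nat_lit 0) (nat_lit 26921983456) (nat_lit 152) (nat_lit 7743411778) (nat_lit 0) (nat_lit 1845940084) (nat_lit 21) (nat_lit 5) (nat_lit 23) (nat_lit 4) (nat_lit 21) (nat_lit 4) (nat_lit 369) (nat_lit 301) (nat_lit 230)) (XT.nd (nat_lit 78) (nat_lit 76) (nat_lit 0) (XT.lf (nat_lit 0) (nat_lit 7638866313) (nat_lit 76) (nat_lit 27696510326) (nat_lit 76) (nat_lit 2581882649) (nat_lit 20) (nat_lit 4) (nat_lit 21) (nat_lit 5) (nat_lit 21) (nat_lit 4) (nat_lit 370)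 (nat_lit 301) (nat_lit 229)) (XT.lf (nat_lit 0) (nat_lit 4732710525) (nat_lit 152) (nat_lit 15449318056) (nat_lit 76) (nat_lit 19202246097) (nat_lit 19) (nat_lit 5) (nat_lit 21) (nat_lit 5) (nat_lit 20) (nat_lit 4) (nat_lit 371) (nat_lit 301) (nat_lit 228)))) (XT.nd (nat_lit 78) (nat_lit 0) (nat_lit 0) (XT.lf (nat_lit 0) (nat_lit 37443399) (nat_lit 76) (nat_lit 12266856666) (nat_lit 152) (nat_lit 28619326618) (nat_lit 18) (nat_lit 5) (nat_lit 19) (nat_lit 5) (nat_lit 20) (nat_lit 4) (nat_lit 372) (nat_lit 301) (nat_lit 227)) (XT.nd (nat_lit 78) (nat_lit 0) (nat_lit 0) (XT.lf (nat_lit 0) (nat_lit 16792956415) (nat_lit 76) (nat_lit 3701023450) (nat_lit 152) (nat_lit 22033994584) (nat_lit 18) (nat_lit 5) (nat_lit 19) (nat_lit 5) (nat_lit 20) (nat_lit 4) (nat_lit 373) (nat_lit 301) (nat_lit 226)) (XT.lf (nat_lit 0) (nat_lit 29154412035) (nat_lit 152) (nat_lit 9949651559) (nat_lit 0) (nat_lit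 5105416117) (nat_lit 18) (nat_lit 5) (nat_lit 20) (nat_lit 4) (nat_lit 18) (nat_lit 4) (nat_lit 374) (nat_lit 301) (nat_lit 225))))) (XT.nd (nat_lit 234) (nat_lit 152) (nat_lit 0) (XT.nd (nat_lit 78) (nat_lit 76) (nat_lit 0) (XT.lf (nat_lit 0) (nat_lit 6741296317) (nat_lit 76) (nat_lit 31652138473) (nat_lit 76) (nat_lit 7574350353) (nat_lit 17) (nat_lit 4) (nat_lit 18) (nat_lit 5) (nat_lit 18) (nat_lit 4) (nat_lit 375) (nat_lit 301) (nat_lit 224)) (XT.nd (nat_lit 78) (nat_lit 0) (nat_lit 0) (XT.lf (nat_lit 0) (nat_lit 422381552) (nat_lit 152) (nat_lit 23239327081) (nat_lit 76) (nat_lit 24144533697) (nat_lit 16) (nat_lit 5) (nat_lit 18) (nat_lit 5) (nat_lit 17) (nat_lit 4) (nat_lit 376) (nat_lit 301) (nat_lit 223)) (XT.lf (nat_lit 0) (nat_lit 8545058275) (nat_lit 152) (nat_lit 6613955176) (nat_lit 76) (nat_lit 34572370539) (nat_lit 16) (nat_lit 5) (nat_lit 18) (nat_lit 5) (nat_lit 17) (nat_lit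 4) (nat_lit 377) (nat_lit 301) (nat_lit 222)))) (XT.nd (nat_lit 156) (nat_lit 76) (nat_lit 0) (XT.nd (nat_lit 78) (nat_lit 0) (nat_lit 0) (XT.lf (nat_lit 0) (nat_lit 11164811642) (nat_lit 76) (nat_lit 6064948392) (nat_lit 152) (nat_lit 34515230901) (nat_lit 15) (nat_lit 5) (nat_lit 16) (nat_lit 5) (nat_lit 17) (nat_lit 4) (nat_lit 378) (nat_lit 301) (nat_lit 221)) (XT.lf (nat_lit 0) (nat_lit 26498590754) (nat_lit 152) (nat_lit 23883065459) (nat_lit 0) (nat_lit 3470129949) (nat_lit 15) (nat_lit 5) (nat_lit 17) (nat_lit 4) (nat_lit 15) (nat_lit 4) (nat_lit 379) (nat_lit 301) (nat_lit 220))) (XT.nd (nat_lit 78) (nat_lit 76) (nat_lit 0) (XT.lf (nat_lit 0) (nat_lit 36312816880) (nat_lit 152) (nat_lit 6484138194) (nat_lit 0) (nat_lit 13262870891) (nat_lit 15) (nat_lit 5) (nat_lit 17) (nat_lit 4) (nat_lit 15) (nat_lit 4) (nat_lit 380) (nat_lit 301) (nat_lit 219)) (XT.lf (nat_lit 0) (nat_lit 12141317340)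 (nat_lit 76) (nat_lit 34649357425) (nat_lit 76) (nat_lit 11578949354) (nat_lit 14) (nat_lit 4) (nat_lit 15) (nat_lit 5) (nat_lit 15) (nat_lit 4) (nat_lit 381) (nat_lit 301) (nat_lit 218))))))))
noncomputable def xc105 : XT := (XT.nd (nat_lit 1950) (nat_lit 228) (nat_lit 0) (XT.nd (nat_lit 936) (nat_lit 228) (nat_lit 0) (XT.nd (nat_lit 468) (nat_lit 228) (nat_lit 0) (XT.nd (nat_lit 234) (nat_lit 0) (nat_lit 0) (XT.nd (nat_lit 78) (nat_lit 152) (nat_lit 0) (XT.lf (nat_lit 0) (nat_lit 31891660604) (nat_lit 76) (nat_lit 25994237982) (nat_lit 76) (nat_lit 2904342216) (nat_lit 14) (nat_lit 4) (nat_lit 15) (nat_lit 5) (nat_lit 15) (nat_lit 4) (nat_lit 382) (nat_lit 301) (nat_lit 217)) (XT.nd (nat_lit 78) (nat_lit 76) (nat_lit 0) (XT.lf (nat_lit 0) (nat_lit 5989610564) (nat_lit 152) (nat_lit 10829753819) (nat_lit 76) (nat_lit 46508473815) (nat_lit 13) (nat_lit 5) (nat_lit 15) (nat_lit 5) (nat_lit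 14) (nat_lit 4) (nat_lit 383) (nat_lit 301) (nat_lit 216)) (XT.lf (nat_lit 0) (nat_lit 8332523275) (nat_lit 76) (nat_lit 7013161927) (nat_lit 152) (nat_lit 50638500158) (nat_lit 12) (nat_lit 5) (nat_lit 13) (nat_lit 5) (nat_lit 14) (nat_lit 4) (nat_lit 384) (nat_lit 301) (nat_lit 215)))) (XT.nd (nat_lit 78) (nat_lit 0) (nat_lit 0) (XT.lf (nat_lit 0) (nat_lit 25392230023) (nat_lit 152) (nat_lit 40018677996) (nat_lit 0) (nat_lit 3351310408) (nat_lit 12) (nat_lit 5) (nat_lit 14) (nat_lit 4) (nat_lit 12) (nat_lit 4) (nat_lit 385) (nat_lit 301) (nat_lit 214)) (XT.nd (nat_lit 78) (nat_lit 0) (nat_lit 0) (XT.lf (nat_lit 0) (nat_lit 36041777047) (nat_lit 152) (nat_lit 21646755821) (nat_lit 0) (nat_lit 13985588313) (nat_lit 12) (nat_lit 5) (nat_lit 14) (nat_lit 4) (nat_lit 12) (nat_lit 4) (nat_lit 386) (nat_lit 301) (nat_lit 213)) (XT.lf (nat_lit 0) (nat_lit 47210187227) (nat_lit 152) (nat_lit 2382657776)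 (nat_lit 0) (nat_lit 25139456473) (nat_lit 12) (nat_lit 5) (nat_lit 14) (nat_lit 4) (nat_lit 12) (nat_lit 4) (nat_lit 387) (nat_lit 301) (nat_lit 212))))) (XT.nd (nat_lit 234) (nat_lit 76) (nat_lit 0) (XT.nd (nat_lit 78) (nat_lit 76) (nat_lit 0) (XT.lf (nat_lit 0) (nat_lit 18408675621) (nat_lit 76) (nat_lit 40802787410) (nat_lit 76) (nat_lit 18718207115) (nat_lit 11) (nat_lit 4) (nat_lit 12) (nat_lit 5) (nat_lit 12) (nat_lit 4) (nat_lit 388) (nat_lit 301) (nat_lit 211)) (XT.nd (nat_lit 78) (nat_lit 76) (nat_lit 0) (XT.lf (nat_lit 0) (nat_lit 40297539894) (nat_lit 76) (nat_lit 31542879202) (nat_lit 76) (nat_lit 9445108867) (nat_lit 11) (nat_lit 4) (nat_lit 12) (nat_lit 5) (nat_lit 12) (nat_lit 4) (nat_lit 389) (nat_lit 301) (nat_lit 210)) (XT.lf (nat_lit 0) (nat_lit 269981043) (nat_lit 152) (nat_lit 21556871138) (nat_lit 76) (nat_lit 62982716657) (nat_lit 10) (nat_lit 5) (nat_lit 12) (nat_lit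 5) (nat_lit 11) (nat_lit 4) (nat_lit 390) (nat_lit 301) (nat_lit 209)))) (XT.nd (nat_lit 78) (nat_lit 76) (nat_lit 0) (XT.lf (nat_lit 0) (nat_lit 10141666132) (nat_lit 152) (nat_lit 1331880460) (nat_lit 76) (nat_lit 77029111687) (nat_lit 10) (nat_lit 5) (nat_lit 12) (nat_lit 5) (nat_lit 11) (nat_lit 4) (nat_lit 391) (nat_lit 301) (nat_lit 208)) (XT.nd (nat_lit 78) (nat_lit 0) (nat_lit 0) (XT.lf (nat_lit 0) (nat_lit 20540011981) (nat_lit 76) (nat_lit 276428050) (nat_lit 152) (nat_lit 71548488198) (nat_lit 9) (nat_lit 5) (nat_lit 10) (nat_lit 5) (nat_lit 11) (nat_lit 4) (nat_lit 392) (nat_lit 301) (nat_lit 207)) (XT.lf (nat_lit 0) (nat_lit 32215974947) (nat_lit 152) (nat_lit 53068851455) (nat_lit 0) (nat_lit 11125935363) (nat_lit 9) (nat_lit 5) (nat_lit 11) (nat_lit 4) (nat_lit 9) (nat_lit 4) (nat_lit 393) (nat_lit 301) (nat_lit 206)))))) (XT.nd (nat_lit 468) (nat_lit 152) (nat_lit 0) (XT.nd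 (nat_lit 234) (nat_lit 0) (nat_lit 0) (XT.nd (nat_lit 78) (nat_lit 76) (nat_lit 0) (XT.lf (nat_lit 0) (nat_lit 44179402030) (nat_lit 152) (nat_lit 33400270490) (nat_lit 0) (nat_lit 23079519835) (nat_lit 9) (nat_lit 5) (nat_lit 11) (nat_lit 4) (nat_lit 9) (nat_lit 4) (nat_lit 394) (nat_lit 301) (nat_lit 205)) (XT.nd (nat_lit 78) (nat_lit 76) (nat_lit 0) (XT.lf (nat_lit 0) (nat_lit 56730889814) (nat_lit 152) (nat_lit 12768027582) (nat_lit 0) (nat_lit 35621633705) (nat_lit 9) (nat_lit 5) (nat_lit 11) (nat_lit 4) (nat_lit 9) (nat_lit 4) (nat_lit 395) (nat_lit 301) (nat_lit 204)) (XT.lf (nat_lit 0) (nat_lit 9170515421) (nat_lit 76) (nat_lit 60872984819) (nat_lit 76) (nat_lit 39754801171) (nat_lit 8) (nat_lit 4) (nat_lit 9) (nat_lit 5) (nat_lit 9) (nat_lit 4) (nat_lit 396) (nat_lit 301) (nat_lit 203)))) (XT.nd (nat_lit 78) (nat_lit 0) (nat_lit 0) (XT.lf (nat_lit 0) (nat_lit 32630740490) (nat_lit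 76) (nat_lit 51597773580) (nat_lit 76) (nat_lit 30471087515) (nat_lit 8) (nat_lit 4) (nat_lit 9) (nat_lit 5) (nat_lit 9) (nat_lit 4) (nat_lit 397) (nat_lit 301) (nat_lit 202)) (XT.nd (nat_lit 78) (nat_lit 0) (nat_lit 0) (XT.lf (nat_lit 0) (nat_lit 57246336649) (nat_lit 76) (nat_lit 41867432568) (nat_lit 76) (nat_lit 20732648963) (nat_lit 8) (nat_lit 4) (nat_lit 9) (nat_lit 5) (nat_lit 9) (nat_lit 4) (nat_lit 398) (nat_lit 301) (nat_lit 201)) (XT.lf (nat_lit 0) (nat_lit 83075912459) (nat_lit 76) (nat_lit 31658794305) (nat_lit 76) (nat_lit 10516298757) (nat_lit 8) (nat_lit 4) (nat_lit 9) (nat_lit 5) (nat_lit 9) (nat_lit 4) (nat_lit 399) (nat_lit 301) (nat_lit 200))))) (XT.nd (nat_lit 234) (nat_lit 0) (nat_lit 0) (XT.nd (nat_lit 78) (nat_lit 76) (nat_lit 0) (XT.lf (nat_lit 0) (nat_lit 195813274) (nat_lit 152) (nat_lit 20748423042) (nat_lit 76) (nat_lit 109981837445) (nat_lit 7) (nat_lit 5)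 (nat_lit 9) (nat_lit 5) (nat_lit 8) (nat_lit 4) (nat_lit 400) (nat_lit 301) (nat_lit 199)) (XT.nd (nat_lit 78) (nat_lit 0) (nat_lit 0) (XT.lf (nat_lit 0) (nat_lit 1613317796) (nat_lit 76) (nat_lit 9494073916) (nat_lit 152) (nat_lit 125768020691) (nat_lit 6) (nat_lit 5) (nat_lit 7) (nat_lit 5) (nat_lit 8) (nat_lit 4) (nat_lit 401) (nat_lit 301) (nat_lit 198)) (XT.lf (nat_lit 0) (nat_lit 22953283384) (nat_lit 152) (nat_lit 117351926738) (nat_lit 0) (nat_lit 2797571878) (nat_lit 6) (nat_lit 5) (nat_lit 8) (nat_lit 4) (nat_lit 6) (nat_lit 4) (nat_lit 402) (nat_lit 301) (nat_lit 197)))) (XT.nd (nat_lit 156) (nat_lit 0) (nat_lit 0) (XT.nd (nat_lit 78) (nat_lit 0) (nat_lit 0) (XT.lf (nat_lit 0) (nat_lit 35539596714) (nat_lit 152) (nat_lit 98716675015) (nat_lit 0) (nat_lit 15377842699) (nat_lit 6) (nat_lit 5) (nat_lit 8) (nat_lit 4) (nat_lit 6) (nat_lit 4) (nat_lit 403) (nat_lit 301) (nat_lit 196))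 (XT.lf (nat_lit 0) (nat_lit 48748070015) (nat_lit 152) (nat_lit 79163740690) (nat_lit 0) (nat_lit 28580561229) (nat_lit 6) (nat_lit 5) (nat_lit 8) (nat_lit 4) (nat_lit 6) (nat_lit 4) (nat_lit 404) (nat_lit 301) (nat_lit 195))) (XT.nd (nat_lit 78) (nat_lit 0) (nat_lit 0) (XT.lf (nat_lit 0) (nat_lit 62610152032) (nat_lit 152) (nat_lit 58646569156) (nat_lit 0) (nat_lit 42437162512) (nat_lit 6) (nat_lit 5) (nat_lit 8) (nat_lit 4) (nat_lit 6) (nat_lit 4) (nat_lit 405) (nat_lit 301) (nat_lit 194)) (XT.lf (nat_lit 0) (nat_lit 77158847723) (nat_lit 152) (nat_lit 37116310006) (nat_lit 0) (nat_lit 56980638457) (nat_lit 6) (nat_lit 5) (nat_lit 8) (nat_lit 4) (nat_lit 6) (nat_lit 4) (nat_lit 406) (nat_lit 301) (nat_lit 193))))))) (XT.nd (nat_lit 936) (nat_lit 0) (nat_lit 0) (XT.nd (nat_lit 468) (nat_lit 152) (nat_lit 0) (XT.nd (nat_lit 234) (nat_lit 0) (nat_lit 0) (XT.nd (nat_lit 78) (nat_lit 76) (nat_lit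 0) (XT.lf (nat_lit 0) (nat_lit 92428796839) (nat_lit 152) (nat_lit 14521700719) (nat_lit 0) (nat_lit 72245616386) (nat_lit 6) (nat_lit 5) (nat_lit 8) (nat_lit 4) (nat_lit 6) (nat_lit 4) (nat_lit 407) (nat_lit 301) (nat_lit 192)) (XT.nd (nat_lit 78) (nat_lit 0) (nat_lit 0) (XT.lf (nat_lit 0) (nat_lit 9494953194) (nat_lit 76) (nat_lit 99109646037) (nat_lit 76) (nat_lit 78921731119) (nat_lit 5) (nat_lit 4) (nat_lit 6) (nat_lit 5) (nat_lit 6) (nat_lit 4) (nat_lit 408) (nat_lit 301) (nat_lit 191)) (XT.lf (nat_lit 0) (nat_lit 35205203658) (nat_lit 76) (nat_lit 90624135502) (nat_lit 76) (nat_lit 70431711571) (nat_lit 5) (nat_lit 4) (nat_lit 6) (nat_lit 5) (nat_lit 6) (nat_lit 4) (nat_lit 409) (nat_lit 301) (nat_lit 190)))) (XT.nd (nat_lit 78) (nat_lit 0) (nat_lit 0) (XT.lf (nat_lit 0) (nat_lit 62190112544) (nat_lit 76) (nat_lit 81719694388) (nat_lit 76) (nat_lit 61522976158) (nat_lit 5) (nat_lit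 4) (nat_lit 6) (nat_lit 5) (nat_lit 6) (nat_lit 4) (nat_lit 410) (nat_lit 301) (nat_lit 189)) (XT.nd (nat_lit 78) (nat_lit 0) (nat_lit 0) (XT.lf (nat_lit 0) (nat_lit 90513929637) (nat_lit 76) (nat_lit 72375121642) (nat_lit 76) (nat_lit 52174313605) (nat_lit 5) (nat_lit 4) (nat_lit 6) (nat_lit 5) (nat_lit 6) (nat_lit 4) (nat_lit 411) (nat_lit 301) (nat_lit 188)) (XT.lf (nat_lit 0) (nat_lit 120244092597) (nat_lit 76) (nat_lit 62568168284) (nat_lit 76) (nat_lit 42363465191) (nat_lit 5) (nat_lit 4) (nat_lit 6) (nat_lit 5) (nat_lit 6) (nat_lit 4) (nat_lit 412) (nat_lit 301) (nat_lit 187))))) (XT.nd (nat_lit 234) (nat_lit 152) (nat_lit 0) (XT.nd (nat_lit 78) (nat_lit 0) (nat_lit 0) (XT.lf (nat_lit 0) (nat_lit 151451387525) (nat_lit 76) (nat_lit 52275484422) (nat_lit 76) (nat_lit 32067071753) (nat_lit 5) (nat_lit 4) (nat_lit 6) (nat_lit 5) (nat_lit 6) (nat_lit 4) (nat_lit 413) (nat_lit 301) (nat_lit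 186)) (XT.nd (nat_lit 78) (nat_lit 0) (nat_lit 0) (XT.lf (nat_lit 0) (nat_lit 184210117505) (nat_lit 76) (nat_lit 41472563668) (nat_lit 76) (nat_lit 21260618069) (nat_lit 5) (nat_lit 4) (nat_lit 6) (nat_lit 5) (nat_lit 6) (nat_lit 4) (nat_lit 414) (nat_lit 301) (nat_lit 185)) (XT.lf (nat_lit 0) (nat_lit 218598279512) (nat_lit 76) (nat_lit 30133684782) (nat_lit 76) (nat_lit 9918374488) (nat_lit 5) (nat_lit 4) (nat_lit 6) (nat_lit 5) (nat_lit 6) (nat_lit 4) (nat_lit 415) (nat_lit 301) (nat_lit 184)))) (XT.nd (nat_lit 78) (nat_lit 76) (nat_lit 0) (XT.lf (nat_lit 0) (nat_lit 1923078667) (nat_lit 152) (nat_lit 16276203497) (nat_lit 76) (nat_lit 252742103189) (nat_lit 4) (nat_lit 5) (nat_lit 6) (nat_lit 5) (nat_lit 5) (nat_lit 4) (nat_lit 416) (nat_lit 301) (nat_lit 183)) (XT.nd (nat_lit 78) (nat_lit 0) (nat_lit 0) (XT.lf (nat_lit 0) (nat_lit 8799646674) (nat_lit 76) (nat_lit 5357042749) (nat_lit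 152) (nat_lit 269675494986) (nat_lit 3) (nat_lit 5) (nat_lit 4) (nat_lit 5) (nat_lit 5) (nat_lit 4) (nat_lit 417) (nat_lit 301) (nat_lit 182)) (XT.lf (nat_lit 0) (nat_lit 27405064694) (nat_lit 152) (nat_lit 261798643195) (nat_lit 0) (nat_lit 8143661652) (nat_lit 3) (nat_lit 5) (nat_lit 5) (nat_lit 4) (nat_lit 3) (nat_lit 4) (nat_lit 418) (nat_lit 301) (nat_lit 181)))))) (XT.nd (nat_lit 468) (nat_lit 0) (nat_lit 0) (XT.nd (nat_lit 234) (nat_lit 0) (nat_lit 0) (XT.nd (nat_lit 78) (nat_lit 0) (nat_lit 0) (XT.lf (nat_lit 0) (nat_lit 41399897915) (nat_lit 152) (nat_lit 247998355817) (nat_lit 0) (nat_lit 22135858546) (nat_lit 3) (nat_lit 5) (nat_lit 5) (nat_lit 4) (nat_lit 3) (nat_lit 4) (nat_lit 419) (nat_lit 301) (nat_lit 180)) (XT.nd (nat_lit 78) (nat_lit 0) (nat_lit 0) (XT.lf (nat_lit 0) (nat_lit 56090871666) (nat_lit 152) (nat_lit 233515179324) (nat_lit 0) (nat_lit 36824321510) (nat_lit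 3) (nat_lit 5) (nat_lit 5) (nat_lit 4) (nat_lit 3) (nat_lit 4) (nat_lit 420) (nat_lit 301) (nat_lit 179)) (XT.lf (nat_lit 0) (nat_lit 71512964458) (nat_lit 152) (nat_lit 218314629962) (nat_lit 0) (nat_lit 52244023075) (nat_lit 3) (nat_lit 5) (nat_lit 5) (nat_lit 4) (nat_lit 3) (nat_lit 4) (nat_lit 421) (nat_lit 301) (nat_lit 178)))) (XT.nd (nat_lit 78) (nat_lit 0) (nat_lit 0) (XT.lf (nat_lit 0) (nat_lit 87702895557) (nat_lit 152) (nat_lit 202360515948) (nat_lit 0) (nat_lit 68431676817) (nat_lit 3) (nat_lit 5) (nat_lit 5) (nat_lit 4) (nat_lit 3) (nat_lit 4) (nat_lit 422) (nat_lit 301) (nat_lit 177)) (XT.nd (nat_lit 78) (nat_lit 0) (nat_lit 0) (XT.lf (nat_lit 0) (nat_lit 104699212420) (nat_lit 152) (nat_lit 185614851296) (nat_lit 0) (nat_lit 85425824767) (nat_lit 3) (nat_lit 5) (nat_lit 5) (nat_lit 4) (nat_lit 3) (nat_lit 4) (nat_lit 423) (nat_lit 301) (nat_lit 176)) (XT.lf (nat_lit 0) (nat_lit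 122542382467) (nat_lit 152) (nat_lit 168037765375) (nat_lit 0) (nat_lit 103266929184) (nat_lit 3) (nat_lit 5) (nat_lit 5) (nat_lit 4) (nat_lit 3) (nat_lit 4) (nat_lit 424) (nat_lit 301) (nat_lit 175))))) (XT.nd (nat_lit 234) (nat_lit 0) (nat_lit 0) (XT.nd (nat_lit 78) (nat_lit 0) (nat_lit 0) (XT.lf (nat_lit 0) (nat_lit 141274889437) (nat_lit 152) (nat_lit 149587407981) (nat_lit 0) (nat_lit 121997468886) (nat_lit 3) (nat_lit 5) (nat_lit 5) (nat_lit 4) (nat_lit 3) (nat_lit 4) (nat_lit 425) (nat_lit 301) (nat_lit 174)) (XT.nd (nat_lit 78) (nat_lit 0) (nat_lit 0) (XT.lf (nat_lit 0) (nat_lit 160941334537) (nat_lit 152) (nat_lit 130219849692) (nat_lit 0) (nat_lit 141662040397) (nat_lit 3) (nat_lit 5) (nat_lit 5) (nat_lit 4) (nat_lit 3) (nat_lit 4) (nat_lit 426) (nat_lit 301) (nat_lit 173)) (XT.lf (nat_lit 0) (nat_lit 181588542635) (nat_lit 152) (nat_lit 109888977273) (nat_lit 0) (nat_lit 162307464126)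 (nat_lit 3) (nat_lit 5) (nat_lit 5) (nat_lit 4) (nat_lit 3) (nat_lit 4) (nat_lit 427) (nat_lit 301) (nat_lit 172)))) (XT.nd (nat_lit 156) (nat_lit 0) (nat_lit 0) (XT.nd (nat_lit 78) (nat_lit 0) (nat_lit 0) (XT.lf (nat_lit 0) (nat_lit 203265673752) (nat_lit 152) (nat_lit 88546383885) (nat_lit 0) (nat_lit 183982895843) (nat_lit 3) (nat_lit 5) (nat_lit 5) (nat_lit 4) (nat_lit 3) (nat_lit 4) (nat_lit 428) (nat_lit 301) (nat_lit 171)) (XT.lf (nat_lit 0) (nat_lit 226024340104) (nat_lit 152) (nat_lit 66141253831) (nat_lit 0) (nat_lit 206739943719) (nat_lit 3) (nat_lit 5) (nat_lit 5) (nat_lit 4) (nat_lit 3) (nat_lit 4) (nat_lit 429) (nat_lit 301) (nat_lit 170))) (XT.nd (nat_lit 78) (nat_lit 0) (nat_lit 0) (XT.lf (nat_lit 0) (nat_lit 249918728992) (nat_lit 152) (nat_lit 42620241561) (nat_lit 0) (nat_lit 230632791201) (nat_lit 3) (nat_lit 5) (nat_lit 5) (nat_lit 4) (nat_lit 3) (nat_lit 4) (nat_lit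 430) (nat_lit 301) (nat_lit 169)) (XT.lf (nat_lit 0) (nat_lit 275005731818) (nat_lit 152) (nat_lit 17927344667) (nat_lit 0) (nat_lit 255718326022) (nat_lit 3) (nat_lit 5) (nat_lit 5) (nat_lit 4) (nat_lit 3) (nat_lit 4) (nat_lit 431) (nat_lit 301) (nat_lit 168))))))))
noncomputable def xc106 : XT := (XT.nd (nat_lit 38064) (nat_lit 0) (nat_lit 3420) (XT.nd (nat_lit 37128) (nat_lit 0) (nat_lit 8436) (XT.nd (nat_lit 468) (nat_lit 0) (nat_lit 0) (XT.nd (nat_lit 234) (nat_lit 0) (nat_lit 0) (XT.nd (nat_lit 78) (nat_lit 0) (nat_lit 0) (XT.lf (nat_lit 0) (nat_lit 8260620921) (nat_lit 76) (nat_lit 293213430063) (nat_lit 76) (nat_lit 273924626166) (nat_lit 2) (nat_lit 4) (nat_lit 3) (nat_lit 5) (nat_lit 3) (nat_lit 4) (nat_lit 432) (nat_lit 301) (nat_lit 167)) (XT.nd (nat_lit 78) (nat_lit 0) (nat_lit 0) (XT.lf (nat_lit 0) (nat_lit 36376478101) (nat_lit 76) (nat_lit 293190945561) (nat_lit 76) (nat_lit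 273900810141) (nat_lit 2) (nat_lit 4) (nat_lit 3) (nat_lit 5) (nat_lit 3) (nat_lit 4) (nat_lit 433) (nat_lit 301) (nat_lit 166)) (XT.lf (nat_lit 0) (nat_lit 65894410412) (nat_lit 76) (nat_lit 293169177703) (nat_lit 76) (nat_lit 273877774164) (nat_lit 2) (nat_lit 4) (nat_lit 3) (nat_lit 5) (nat_lit 3) (nat_lit 4) (nat_lit 434) (nat_lit 301) (nat_lit 165)))) (XT.nd (nat_lit 78) (nat_lit 0) (nat_lit 0) (XT.lf (nat_lit 0) (nat_lit 96884698646) (nat_lit 76) (nat_lit 293148074660) (nat_lit 76) (nat_lit 273855463389) (nat_lit 2) (nat_lit 4) (nat_lit 3) (nat_lit 5) (nat_lit 3) (nat_lit 4) (nat_lit 435) (nat_lit 301) (nat_lit 164)) (XT.nd (nat_lit 78) (nat_lit 0) (nat_lit 0) (XT.lf (nat_lit 0) (nat_lit 129421129202) (nat_lit 76) (nat_lit 293127586186) (nat_lit 76) (nat_lit 273833824695) (nat_lit 2) (nat_lit 4) (nat_lit 3) (nat_lit 5) (nat_lit 3) (nat_lit 4) (nat_lit 436) (nat_lit 301) (nat_lit 163))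 (XT.lf (nat_lit 0) (nat_lit 163581169773) (nat_lit 76) (nat_lit 293107663500) (nat_lit 76) (nat_lit 273812806561) (nat_lit 2) (nat_lit 4) (nat_lit 3) (nat_lit 5) (nat_lit 3) (nat_lit 4) (nat_lit 437) (nat_lit 301) (nat_lit 162))))) (XT.nd (nat_lit 36426) (nat_lit 0) (nat_lit 11628) (XT.nd (nat_lit 36270) (nat_lit 0) (nat_lit 11932) (XT.lf (nat_lit 0) (nat_lit 199446153788) (nat_lit 76) (nat_lit 293088259167) (nat_lit 76) (nat_lit 273792358944) (nat_lit 2) (nat_lit 4) (nat_lit 3) (nat_lit 5) (nat_lit 3) (nat_lit 4) (nat_lit 438) (nat_lit 301) (nat_lit 161)) (XT.nd (nat_lit 78) (nat_lit 228) (nat_lit 0) (XT.lf (nat_lit 0) (nat_lit 2572687278) (nat_lit 228) (nat_lit 335761503) (nat_lit 228) (nat_lit 335761503) (nat_lit 162) (nat_lit 3) (nat_lit 165) (nat_lit 3) (nat_lit 165) (nat_lit 5) (nat_lit 302) (nat_lit 302) (nat_lit 296)) (XT.lf (nat_lit 0) (nat_lit 1320571241) (nat_lit 228) (nat_lit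 3991886579) (nat_lit 304) (nat_lit 1202751025) (nat_lit 159) (nat_lit 5) (nat_lit 162) (nat_lit 3) (nat_lit 163) (nat_lit 5) (nat_lit 303) (nat_lit 302) (nat_lit 295)))) (XT.nd (nat_lit 78) (nat_lit 304) (nat_lit 0) (XT.lf (nat_lit 0) (nat_lit 3915129260) (nat_lit 228) (nat_lit 758815794) (nat_lit 304) (nat_lit 1876391692) (nat_lit 159) (nat_lit 5) (nat_lit 162) (nat_lit 3) (nat_lit 163) (nat_lit 5) (nat_lit 304) (nat_lit 302) (nat_lit 294)) (XT.nd (nat_lit 78) (nat_lit 304) (nat_lit 0) (XT.lf (nat_lit 76) (nat_lit 2629529048) (nat_lit 0) (nat_lit 3890308116) (nat_lit 304) (nat_lit 73596898) (nat_lit 160) (nat_lit 5) (nat_lit 159) (nat_lit 5) (nat_lit 163) (nat_lit 5) (nat_lit 305) (nat_lit 302) (nat_lit 293)) (XT.lf (nat_lit 0) (nat_lit 2388303926) (nat_lit 304) (nat_lit 559951387) (nat_lit 380) (nat_lit 3695803999) (nat_lit 155) (nat_lit 5) (nat_lit 159) (nat_lit 5) (nat_lit 160) (nat_lit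 5) (nat_lit 306) (nat_lit 302) (nat_lit 292)))))) (XT.nd (nat_lit 468) (nat_lit 1976) (nat_lit 0) (XT.nd (nat_lit 234) (nat_lit 836) (nat_lit 0) (XT.nd (nat_lit 78) (nat_lit 380) (nat_lit 0) (XT.lf (nat_lit 76) (nat_lit 3019652621) (nat_lit 0) (nat_lit 1848680477) (nat_lit 380) (nat_lit 1834149310) (nat_lit 156) (nat_lit 5) (nat_lit 155) (nat_lit 5) (nat_lit 160) (nat_lit 5) (nat_lit 307) (nat_lit 302) (nat_lit 291)) (XT.nd (nat_lit 78) (nat_lit 0) (nat_lit 76) (XT.lf (nat_lit 0) (nat_lit 549057323) (nat_lit 380) (nat_lit 70455671) (nat_lit 456) (nat_lit 6150784095) (nat_lit 150) (nat_lit 5) (nat_lit 155) (nat_lit 5) (nat_lit 156) (nat_lit 5) (nat_lit 308) (nat_lit 302) (nat_lit 290)) (XT.lf (nat_lit 0) (nat_lit 2921146206) (nat_lit 380) (nat_lit 3134445758) (nat_lit 76) (nat_lit 788013773) (nat_lit 151) (nat_lit 5) (nat_lit 156) (nat_lit 5) (nat_lit 152) (nat_lit 5) (nat_lit 309) (nat_lit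 302) (nat_lit 289)))) (XT.nd (nat_lit 78) (nat_lit 532) (nat_lit 0) (XT.lf (nat_lit 0) (nat_lit 675866281) (nat_lit 380) (nat_lit 4624425760) (nat_lit 456) (nat_lit 1626031536) (nat_lit 146) (nat_lit 5) (nat_lit 151) (nat_lit 5) (nat_lit 152) (nat_lit 5) (nat_lit 310) (nat_lit 302) (nat_lit 288)) (XT.nd (nat_lit 78) (nat_lit 456) (nat_lit 0) (XT.lf (nat_lit 0) (nat_lit 683202149) (nat_lit 456) (nat_lit 2336350811) (nat_lit 76) (nat_lit 3997006481) (nat_lit 145) (nat_lit 5) (nat_lit 151) (nat_lit 5) (nat_lit 146) (nat_lit 5) (nat_lit 311) (nat_lit 302) (nat_lit 287)) (XT.lf (nat_lit 0) (nat_lit 1707933272) (nat_lit 456) (nat_lit 1247377494) (nat_lit 532) (nat_lit 4159704319) (nat_lit 139) (nat_lit 5) (nat_lit 145) (nat_lit 5) (nat_lit 146) (nat_lit 5) (nat_lit 312) (nat_lit 302) (nat_lit 286))))) (XT.nd (nat_lit 234) (nat_lit 1368) (nat_lit 0) (XT.nd (nat_lit 78) (nat_lit 608) (nat_lit 0)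 (XT.lf (nat_lit 0) (nat_lit 5271145948) (nat_lit 532) (nat_lit 1289704609) (nat_lit 76) (nat_lit 661173781) (nat_lit 139) (nat_lit 5) (nat_lit 146) (nat_lit 5) (nat_lit 140) (nat_lit 5) (nat_lit 313) (nat_lit 302) (nat_lit 285)) (XT.nd (nat_lit 78) (nat_lit 0) (nat_lit 0) (XT.lf (nat_lit 0) (nat_lit 309269849) (nat_lit 608) (nat_lit 4326123332) (nat_lit 76) (nat_lit 2701193862) (nat_lit 131) (nat_lit 5) (nat_lit 139) (nat_lit 5) (nat_lit 132) (nat_lit 5) (nat_lit 314) (nat_lit 302) (nat_lit 284)) (XT.lf (nat_lit 0) (nat_lit 2527151372) (nat_lit 608) (nat_lit 13925795) (nat_lit 76) (nat_lit 4918805475) (nat_lit 131) (nat_lit 5) (nat_lit 139) (nat_lit 5) (nat_lit 132) (nat_lit 5) (nat_lit 315) (nat_lit 302) (nat_lit 283)))) (XT.nd (nat_lit 78) (nat_lit 760) (nat_lit 0) (XT.lf (nat_lit 0) (nat_lit 4568466403) (nat_lit 608) (nat_lit 252204600) (nat_lit 684) (nat_lit 2770547429) (nat_lit 123)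 (nat_lit 5) (nat_lit 131) (nat_lit 5) (nat_lit 132) (nat_lit 5) (nat_lit 316) (nat_lit 302) (nat_lit 282)) (XT.nd (nat_lit 78) (nat_lit 76) (nat_lit 0) (XT.lf (nat_lit 0) (nat_lit 1572484157) (nat_lit 684) (nat_lit 5612042349) (nat_lit 760) (nat_lit 546918763) (nat_lit 114) (nat_lit 5) (nat_lit 123) (nat_lit 5) (nat_lit 124) (nat_lit 5) (nat_lit 317) (nat_lit 302) (nat_lit 281)) (XT.lf (nat_lit 0) (nat_lit 1685813487) (nat_lit 760) (nat_lit 1504090526) (nat_lit 76) (nat_lit 4689723723) (nat_lit 113) (nat_lit 5) (nat_lit 123) (nat_lit 5) (nat_lit 114) (nat_lit 5) (nat_lit 318) (nat_lit 302) (nat_lit 280))))))) (XT.nd (nat_lit 936) (nat_lit 1824) (nat_lit 0) (XT.nd (nat_lit 468) (nat_lit 1292) (nat_lit 0) (XT.nd (nat_lit 234) (nat_lit 684) (nat_lit 0) (XT.nd (nat_lit 78) (nat_lit 456) (nat_lit 0) (XT.lf (nat_lit 0) (nat_lit 3390204234) (nat_lit 760) (nat_lit 578319469) (nat_lit 836) (nat_lit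 4068503909) (nat_lit 103) (nat_lit 5) (nat_lit 113) (nat_lit 5) (nat_lit 114) (nat_lit 5) (nat_lit 319) (nat_lit 302) (nat_lit 279)) (XT.nd (nat_lit 78) (nat_lit 76) (nat_lit 0) (XT.lf (nat_lit 0) (nat_lit 258345138) (nat_lit 380) (nat_lit 6077703708) (nat_lit 456) (nat_lit 1867802900) (nat_lit 98) (nat_lit 5) (nat_lit 103) (nat_lit 5) (nat_lit 104) (nat_lit 5) (nat_lit 320) (nat_lit 302) (nat_lit 278)) (XT.lf (nat_lit 0) (nat_lit 426590907) (nat_lit 456) (nat_lit 2920359248) (nat_lit 76) (nat_lit 5031909477) (nat_lit 97) (nat_lit 5) (nat_lit 103) (nat_lit 5) (nat_lit 98) (nat_lit 5) (nat_lit 321) (nat_lit 302) (nat_lit 277)))) (XT.nd (nat_lit 78) (nat_lit 380) (nat_lit 0) (XT.lf (nat_lit 0) (nat_lit 2306200396) (nat_lit 304) (nat_lit 415470715) (nat_lit 380) (nat_lit 5842055178) (nat_lit 93) (nat_lit 5) (nat_lit 97) (nat_lit 5) (nat_lit 98) (nat_lit 5) (nat_lit 322) (nat_lit 302) (nat_lit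 276)) (XT.nd (nat_lit 78) (nat_lit 380) (nat_lit 0) (XT.lf (nat_lit 0) (nat_lit 5138692367) (nat_lit 380) (nat_lit 997996330) (nat_lit 76) (nat_lit 2620860823) (nat_lit 93) (nat_lit 5) (nat_lit 98) (nat_lit 5) (nat_lit 94) (nat_lit 5) (nat_lit 323) (nat_lit 302) (nat_lit 275)) (XT.lf (nat_lit 0) (nat_lit 4572890163) (nat_lit 380) (nat_lit 3101260372) (nat_lit 456) (nat_lit 1287103221) (nat_lit 88) (nat_lit 5) (nat_lit 93) (nat_lit 5) (nat_lit 94) (nat_lit 5) (nat_lit 324) (nat_lit 302) (nat_lit 274))))) (XT.nd (nat_lit 234) (nat_lit 608) (nat_lit 0) (XT.nd (nat_lit 78) (nat_lit 304) (nat_lit 0) (XT.lf (nat_lit 0) (nat_lit 1082653364) (nat_lit 380) (nat_lit 7967881593) (nat_lit 76) (nat_lit 125835353) (nat_lit 83) (nat_lit 5) (nat_lit 88) (nat_lit 5) (nat_lit 84) (nat_lit 5) (nat_lit 325) (nat_lit 302) (nat_lit 273)) (XT.nd (nat_lit 78) (nat_lit 304) (nat_lit 0) (XT.lf (nat_lit 0) (nat_lit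 3576646115) (nat_lit 380) (nat_lit 2328752104) (nat_lit 76) (nat_lit 3493399019) (nat_lit 83) (nat_lit 5) (nat_lit 88) (nat_lit 5) (nat_lit 84) (nat_lit 5) (nat_lit 326) (nat_lit 302) (nat_lit 272)) (XT.lf (nat_lit 0) (nat_lit 3618034164) (nat_lit 304) (nat_lit 2560102186) (nat_lit 380) (nat_lit 3455126149) (nat_lit 79) (nat_lit 5) (nat_lit 83) (nat_lit 5) (nat_lit 84) (nat_lit 5) (nat_lit 327) (nat_lit 302) (nat_lit 271)))) (XT.nd (nat_lit 78) (nat_lit 608) (nat_lit 0) (XT.lf (nat_lit 0) (nat_lit 8892825255) (nat_lit 380) (nat_lit 41999304) (nat_lit 76) (nat_lit 945524427) (nat_lit 79) (nat_lit 5) (nat_lit 84) (nat_lit 5) (nat_lit 80) (nat_lit 5) (nat_lit 328) (nat_lit 302) (nat_lit 270)) (XT.nd (nat_lit 78) (nat_lit 304) (nat_lit 0) (XT.lf (nat_lit 0) (nat_lit 1625217446) (nat_lit 304) (nat_lit 3860461959) (nat_lit 76) (nat_lit 4649253832) (nat_lit 75) (nat_lit 5) (nat_lit 79) (nat_lit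 5) (nat_lit 76) (nat_lit 5) (nat_lit 329) (nat_lit 302) (nat_lit 269)) (XT.lf (nat_lit 0) (nat_lit 2480709850) (nat_lit 304) (nat_lit 1826515268) (nat_lit 380) (nat_lit 6095668097) (nat_lit 71) (nat_lit 5) (nat_lit 75) (nat_lit 5) (nat_lit 76) (nat_lit 5) (nat_lit 330) (nat_lit 302) (nat_lit 268)))))) (XT.nd (nat_lit 468) (nat_lit 1064) (nat_lit 0) (XT.nd (nat_lit 234) (nat_lit 228) (nat_lit 0) (XT.nd (nat_lit 78) (nat_lit 532) (nat_lit 0) (XT.lf (nat_lit 0) (nat_lit 7155144817) (nat_lit 380) (nat_lit 1530630116) (nat_lit 76) (nat_lit 1996930241) (nat_lit 71) (nat_lit 5) (nat_lit 76) (nat_lit 5) (nat_lit 72) (nat_lit 5) (nat_lit 331) (nat_lit 302) (nat_lit 267)) (XT.nd (nat_lit 78) (nat_lit 304) (nat_lit 0) (XT.lf (nat_lit 0) (nat_lit 5232237848) (nat_lit 228) (nat_lit 4961895224) (nat_lit 304) (nat_lit 779983475) (nat_lit 68) (nat_lit 5) (nat_lit 71) (nat_lit 5) (nat_lit 72) (nat_lit 5)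 (nat_lit 332) (nat_lit 302) (nat_lit 266)) (XT.lf (nat_lit 0) (nat_lit 1020458484) (nat_lit 228) (nat_lit 997097098) (nat_lit 304) (nat_lit 9261940398) (nat_lit 64) (nat_lit 5) (nat_lit 67) (nat_lit 5) (nat_lit 68) (nat_lit 5) (nat_lit 333) (nat_lit 302) (nat_lit 265)))) (XT.nd (nat_lit 78) (nat_lit 228) (nat_lit 0) (XT.lf (nat_lit 0) (nat_lit 5015958116) (nat_lit 304) (nat_lit 3426629062) (nat_lit 76) (nat_lit 3152594586) (nat_lit 64) (nat_lit 5) (nat_lit 68) (nat_lit 5) (nat_lit 65) (nat_lit 5) (nat_lit 334) (nat_lit 302) (nat_lit 264)) (XT.nd (nat_lit 78) (nat_lit 0) (nat_lit 0) (XT.lf (nat_lit 0) (nat_lit 3768041076) (nat_lit 228) (nat_lit 4413257381) (nat_lit 304) (nat_lit 3744537414) (nat_lit 61) (nat_lit 5) (nat_lit 64) (nat_lit 5) (nat_lit 65) (nat_lit 5) (nat_lit 335) (nat_lit 302) (nat_lit 263)) (XT.lf (nat_lit 0) (nat_lit 11359144445) (nat_lit 228) (nat_lit 147120172) (nat_lit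 304) (nat_lit 766723382) (nat_lit 61) (nat_lit 5) (nat_lit 64) (nat_lit 5) (nat_lit 65) (nat_lit 5) (nat_lit 336) (nat_lit 302) (nat_lit 262))))) (XT.nd (nat_lit 234) (nat_lit 608) (nat_lit 0) (XT.nd (nat_lit 78) (nat_lit 152) (nat_lit 0) (XT.lf (nat_lit 0) (nat_lit 2405197564) (nat_lit 304) (nat_lit 5910040156) (nat_lit 76) (nat_lit 4314410362) (nat_lit 57) (nat_lit 5) (nat_lit 61) (nat_lit 5) (nat_lit 58) (nat_lit 5) (nat_lit 337) (nat_lit 302) (nat_lit 261)) (XT.nd (nat_lit 78) (nat_lit 0) (nat_lit 0) (XT.lf (nat_lit 0) (nat_lit 1721756402) (nat_lit 152) (nat_lit 3979310487) (nat_lit 228) (nat_lit 7302918585) (nat_lit 55) (nat_lit 5) (nat_lit 57) (nat_lit 5) (nat_lit 58) (nat_lit 5) (nat_lit 338) (nat_lit 302) (nat_lit 260)) (XT.lf (nat_lit 0) (nat_lit 9219401400) (nat_lit 228) (nat_lit 3544430015) (nat_lit 76) (nat_lit 630352091) (nat_lit 55) (nat_lit 5) (nat_lit 58) (nat_lit 5) (nat_lit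 56) (nat_lit 5) (nat_lit 339) (nat_lit 302) (nat_lit 259)))) (XT.nd (nat_lit 156) (nat_lit 304) (nat_lit 0) (XT.nd (nat_lit 78) (nat_lit 76) (nat_lit 0) (XT.lf (nat_lit 0) (nat_lit 4583508734) (nat_lit 228) (nat_lit 8416453189) (nat_lit 304) (nat_lit 799640110) (nat_lit 52) (nat_lit 5) (nat_lit 55) (nat_lit 5) (nat_lit 56) (nat_lit 5) (nat_lit 340) (nat_lit 302) (nat_lit 258)) (XT.lf (nat_lit 0) (nat_lit 2667320201) (nat_lit 304) (nat_lit 1103856447) (nat_lit 76) (nat_lit 10451451462) (nat_lit 51) (nat_lit 5) (nat_lit 55) (nat_lit 5) (nat_lit 52) (nat_lit 5) (nat_lit 341) (nat_lit 302) (nat_lit 257))) (XT.nd (nat_lit 78) (nat_lit 152) (nat_lit 0) (XT.lf (nat_lit 0) (nat_lit 6370188320) (nat_lit 228) (nat_lit 7113429679) (nat_lit 76) (nat_lit 1178082910) (nat_lit 49) (nat_lit 5) (nat_lit 52) (nat_lit 5) (nat_lit 50) (nat_lit 5) (nat_lit 342) (nat_lit 302) (nat_lit 256)) (XT.lf (nat_lit 0)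 (nat_lit 1458475057) (nat_lit 152) (nat_lit 8856289186) (nat_lit 228) (nat_lit 4805156322) (nat_lit 47) (nat_lit 5) (nat_lit 49) (nat_lit 5) (nat_lit 50) (nat_lit 5) (nat_lit 343) (nat_lit 302) (nat_lit 255))))))))
noncomputable def xc107 : XT := (XT.nd (nat_lit 1950) (nat_lit 988) (nat_lit 0) (XT.nd (nat_lit 936) (nat_lit 836) (nat_lit 0) (XT.nd (nat_lit 468) (nat_lit 456) (nat_lit 0) (XT.nd (nat_lit 234) (nat_lit 380) (nat_lit 0) (XT.nd (nat_lit 78) (nat_lit 228) (nat_lit 0) (XT.lf (nat_lit 0) (nat_lit 10631544516) (nat_lit 152) (nat_lit 3899541998) (nat_lit 228) (nat_lit 1066259228) (nat_lit 47) (nat_lit 5) (nat_lit 49) (nat_lit 5) (nat_lit 50) (nat_lit 5) (nat_lit 344) (nat_lit 302) (nat_lit 254)) (XT.nd (nat_lit 78) (nat_lit 0) (nat_lit 0) (XT.lf (nat_lit 0) (nat_lit 2810585667) (nat_lit 228) (nat_lit 11935659721) (nat_lit 76) (nat_lit 1348056631) (nat_lit 44) (nat_lit 5) (nat_lit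 47) (nat_lit 5) (nat_lit 45) (nat_lit 5) (nat_lit 345) (nat_lit 302) (nat_lit 253)) (XT.lf (nat_lit 0) (nat_lit 6950919078) (nat_lit 228) (nat_lit 2855910415) (nat_lit 76) (nat_lit 6803146291) (nat_lit 44) (nat_lit 5) (nat_lit 47) (nat_lit 5) (nat_lit 45) (nat_lit 5) (nat_lit 346) (nat_lit 302) (nat_lit 252)))) (XT.nd (nat_lit 78) (nat_lit 228) (nat_lit 0) (XT.lf (nat_lit 0) (nat_lit 6826868411) (nat_lit 152) (nat_lit 4536154675) (nat_lit 228) (nat_lit 5785189250) (nat_lit 42) (nat_lit 5) (nat_lit 44) (nat_lit 5) (nat_lit 45) (nat_lit 5) (nat_lit 347) (nat_lit 302) (nat_lit 251)) (XT.nd (nat_lit 78) (nat_lit 228) (nat_lit 0) (XT.lf (nat_lit 0) (nat_lit 16019137958) (nat_lit 228) (nat_lit 704353891) (nat_lit 76) (nat_lit 988714580) (nat_lit 42) (nat_lit 5) (nat_lit 45) (nat_lit 5) (nat_lit 43) (nat_lit 4) (nat_lit 348) (nat_lit 302) (nat_lit 250)) (XT.lf (nat_lit 0) (nat_lit 2707559690)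 (nat_lit 228) (nat_lit 8780464107) (nat_lit 76) (nat_lit 6804996685) (nat_lit 39) (nat_lit 5) (nat_lit 42) (nat_lit 5) (nat_lit 40) (nat_lit 5) (nat_lit 349) (nat_lit 302) (nat_lit 249))))) (XT.nd (nat_lit 234) (nat_lit 228) (nat_lit 0) (XT.nd (nat_lit 78) (nat_lit 76) (nat_lit 0) (XT.lf (nat_lit 0) (nat_lit 1309575858) (nat_lit 152) (nat_lit 5955153487) (nat_lit 228) (nat_lit 11637101537) (nat_lit 37) (nat_lit 5) (nat_lit 39) (nat_lit 5) (nat_lit 40) (nat_lit 5) (nat_lit 350) (nat_lit 302) (nat_lit 248)) (XT.nd (nat_lit 78) (nat_lit 76) (nat_lit 0) (XT.lf (nat_lit 0) (nat_lit 12143159438) (nat_lit 152) (nat_lit 16975058) (nat_lit 228) (nat_lit 7375441615) (nat_lit 37) (nat_lit 5) (nat_lit 39) (nat_lit 5) (nat_lit 40) (nat_lit 5) (nat_lit 351) (nat_lit 302) (nat_lit 247)) (XT.lf (nat_lit 0) (nat_lit 3260598829) (nat_lit 76) (nat_lit 14150792407) (nat_lit 152) (nat_lit 2784075831) (nat_lit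 36) (nat_lit 5) (nat_lit 37) (nat_lit 5) (nat_lit 38) (nat_lit 4) (nat_lit 352) (nat_lit 302) (nat_lit 246)))) (XT.nd (nat_lit 78) (nat_lit 152) (nat_lit 0) (XT.lf (nat_lit 0) (nat_lit 2062452012) (nat_lit 152) (nat_lit 6277595960) (nat_lit 76) (nat_lit 12542186618) (nat_lit 35) (nat_lit 5) (nat_lit 37) (nat_lit 5) (nat_lit 36) (nat_lit 5) (nat_lit 353) (nat_lit 302) (nat_lit 245)) (XT.nd (nat_lit 78) (nat_lit 0) (nat_lit 0) (XT.lf (nat_lit 0) (nat_lit 4964573355) (nat_lit 152) (nat_lit 2135691219) (nat_lit 228) (nat_lit 14498678634) (nat_lit 33) (nat_lit 5) (nat_lit 35) (nat_lit 5) (nat_lit 36) (nat_lit 5) (nat_lit 354) (nat_lit 302) (nat_lit 244)) (XT.lf (nat_lit 0) (nat_lit 12531722226) (nat_lit 228) (nat_lit 5491039820) (nat_lit 76) (nat_lit 4321647803) (nat_lit 33) (nat_lit 5) (nat_lit 36) (nat_lit 5) (nat_lit 34) (nat_lit 4) (nat_lit 355) (nat_lit 302) (nat_lit 243)))))) (XT.nd (nat_lit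 468) (nat_lit 456) (nat_lit 0) (XT.nd (nat_lit 234) (nat_lit 76) (nat_lit 0) (XT.nd (nat_lit 78) (nat_lit 228) (nat_lit 0) (XT.lf (nat_lit 0) (nat_lit 6318039374) (nat_lit 76) (nat_lit 12017348767) (nat_lit 152) (nat_lit 4786739728) (nat_lit 32) (nat_lit 5) (nat_lit 33) (nat_lit 5) (nat_lit 34) (nat_lit 4) (nat_lit 356) (nat_lit 302) (nat_lit 242)) (XT.nd (nat_lit 78) (nat_lit 152) (nat_lit 0) (XT.lf (nat_lit 0) (nat_lit 536438440) (nat_lit 152) (nat_lit 5093829198) (nat_lit 76) (nat_lit 18305008548) (nat_lit 31) (nat_lit 5) (nat_lit 33) (nat_lit 5) (nat_lit 32) (nat_lit 5) (nat_lit 357) (nat_lit 302) (nat_lit 241)) (XT.lf (nat_lit 0) (nat_lit 6067153967) (nat_lit 228) (nat_lit 17499424857) (nat_lit 76) (nat_lit 1213475806) (nat_lit 29) (nat_lit 5) (nat_lit 32) (nat_lit 5) (nat_lit 30) (nat_lit 4) (nat_lit 358) (nat_lit 302) (nat_lit 240)))) (XT.nd (nat_lit 78) (nat_lit 76) (nat_lit 0)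 (XT.lf (nat_lit 0) (nat_lit 12023316512) (nat_lit 228) (nat_lit 5362048101) (nat_lit 76) (nat_lit 8274269899) (nat_lit 29) (nat_lit 5) (nat_lit 32) (nat_lit 5) (nat_lit 30) (nat_lit 4) (nat_lit 359) (nat_lit 302) (nat_lit 239)) (XT.nd (nat_lit 78) (nat_lit 0) (nat_lit 0) (XT.lf (nat_lit 0) (nat_lit 7570959580) (nat_lit 76) (nat_lit 10794942078) (nat_lit 152) (nat_lit 8212868702) (nat_lit 28) (nat_lit 5) (nat_lit 29) (nat_lit 5) (nat_lit 30) (nat_lit 4) (nat_lit 360) (nat_lit 302) (nat_lit 238)) (XT.lf (nat_lit 0) (nat_lit 21284083751) (nat_lit 76) (nat_lit 3803338115) (nat_lit 152) (nat_lit 2453358172) (nat_lit 28) (nat_lit 5) (nat_lit 29) (nat_lit 5) (nat_lit 30) (nat_lit 4) (nat_lit 361) (nat_lit 302) (nat_lit 237))))) (XT.nd (nat_lit 234) (nat_lit 152) (nat_lit 0) (XT.nd (nat_lit 78) (nat_lit 76) (nat_lit 0) (XT.lf (nat_lit 0) (nat_lit 3621967426) (nat_lit 228) (nat_lit 21344472340)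 (nat_lit 76) (nat_lit 3574507656) (nat_lit 25) (nat_lit 5) (nat_lit 28) (nat_lit 5) (nat_lit 26) (nat_lit 4) (nat_lit 362) (nat_lit 302) (nat_lit 236)) (XT.nd (nat_lit 78) (nat_lit 76) (nat_lit 0) (XT.lf (nat_lit 0) (nat_lit 10060772450) (nat_lit 228) (nat_lit 8201928633) (nat_lit 76) (nat_lit 11319309371) (nat_lit 25) (nat_lit 5) (nat_lit 28) (nat_lit 5) (nat_lit 26) (nat_lit 4) (nat_lit 363) (nat_lit 302) (nat_lit 235)) (XT.lf (nat_lit 0) (nat_lit 5732335646) (nat_lit 76) (nat_lit 11152122790) (nat_lit 152) (nat_lit 13787527194) (nat_lit 24) (nat_lit 5) (nat_lit 25) (nat_lit 5) (nat_lit 26) (nat_lit 4) (nat_lit 364) (nat_lit 302) (nat_lit 234)))) (XT.nd (nat_lit 156) (nat_lit 76) (nat_lit 0) (XT.nd (nat_lit 78) (nat_lit 76) (nat_lit 0) (XT.lf (nat_lit 0) (nat_lit 20599976770) (nat_lit 76) (nat_lit 3562212291) (nat_lit 152) (nat_lit 7648633228) (nat_lit 24) (nat_lit 5) (nat_lit 25) (nat_lit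 5) (nat_lit 26) (nat_lit 4) (nat_lit 365) (nat_lit 302) (nat_lit 233)) (XT.lf (nat_lit 0) (nat_lit 3191005950) (nat_lit 76) (nat_lit 28706298525) (nat_lit 76) (nat_lit 1104626863) (nat_lit 23) (nat_lit 4) (nat_lit 24) (nat_lit 5) (nat_lit 24) (nat_lit 4) (nat_lit 366) (nat_lit 302) (nat_lit 232))) (XT.nd (nat_lit 78) (nat_lit 0) (nat_lit 0) (XT.lf (nat_lit 0) (nat_lit 5808322737) (nat_lit 152) (nat_lit 15739276206) (nat_lit 76) (nat_lit 12689184757) (nat_lit 22) (nat_lit 5) (nat_lit 24) (nat_lit 5) (nat_lit 23) (nat_lit 4) (nat_lit 367) (nat_lit 302) (nat_lit 231)) (XT.lf (nat_lit 0) (nat_lit 13005929484) (nat_lit 152) (nat_lit 1026721570) (nat_lit 76) (nat_lit 21501020300) (nat_lit 22) (nat_lit 5) (nat_lit 24) (nat_lit 5) (nat_lit 23) (nat_lit 4) (nat_lit 368) (nat_lit 302) (nat_lit 230))))))) (XT.nd (nat_lit 936) (nat_lit 456) (nat_lit 0) (XT.nd (nat_lit 468) (nat_lit 228) (nat_lit 0)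 (XT.nd (nat_lit 234) (nat_lit 152) (nat_lit 0) (XT.nd (nat_lit 78) (nat_lit 76) (nat_lit 0) (XT.lf (nat_lit 0) (nat_lit 14854449897) (nat_lit 76) (nat_lit 5918155191) (nat_lit 152) (nat_lit 16112343376) (nat_lit 21) (nat_lit 5) (nat_lit 22) (nat_lit 5) (nat_lit 23) (nat_lit 4) (nat_lit 369) (nat_lit 302) (nat_lit 229)) (XT.nd (nat_lit 78) (nat_lit 76) (nat_lit 0) (XT.lf (nat_lit 0) (nat_lit 28963308591) (nat_lit 152) (nat_lit 6821082149) (nat_lit 0) (nat_lit 2517618268) (nat_lit 21) (nat_lit 5) (nat_lit 23) (nat_lit 4) (nat_lit 21) (nat_lit 4) (nat_lit 370) (nat_lit 302) (nat_lit 228)) (XT.lf (nat_lit 0) (nat_lit 9309188875) (nat_lit 76) (nat_lit 28475191771) (nat_lit 76) (nat_lit 1994504345) (nat_lit 20) (nat_lit 4) (nat_lit 21) (nat_lit 5) (nat_lit 21) (nat_lit 4) (nat_lit 371) (nat_lit 302) (nat_lit 227)))) (XT.nd (nat_lit 78) (nat_lit 76) (nat_lit 0) (XT.lf (nat_lit 0) (nat_lit 5629861141)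 (nat_lit 152) (nat_lit 14972802658) (nat_lit 76) (nat_lit 20717685024) (nat_lit 19) (nat_lit 5) (nat_lit 21) (nat_lit 5) (nat_lit 20) (nat_lit 4) (nat_lit 372) (nat_lit 302) (nat_lit 226)) (XT.nd (nat_lit 78) (nat_lit 0) (nat_lit 0) (XT.lf (nat_lit 0) (nat_lit 1268152010) (nat_lit 76) (nat_lit 12299610629) (nat_lit 152) (nat_lit 29369524585) (nat_lit 18) (nat_lit 5) (nat_lit 19) (nat_lit 5) (nat_lit 20) (nat_lit 4) (nat_lit 373) (nat_lit 302) (nat_lit 225)) (XT.lf (nat_lit 0) (nat_lit 18802924656) (nat_lit 76) (nat_lit 3333132841) (nat_lit 152) (nat_lit 22487343492) (nat_lit 18) (nat_lit 5) (nat_lit 19) (nat_lit 5) (nat_lit 20) (nat_lit 4) (nat_lit 374) (nat_lit 302) (nat_lit 224))))) (XT.nd (nat_lit 234) (nat_lit 76) (nat_lit 0) (XT.nd (nat_lit 78) (nat_lit 152) (nat_lit 0) (XT.lf (nat_lit 0) (nat_lit 31208334169) (nat_lit 152) (nat_lit 9311267820) (nat_lit 0) (nat_lit 5870443296) (nat_lit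 18) (nat_lit 5) (nat_lit 20) (nat_lit 4) (nat_lit 18) (nat_lit 4) (nat_lit 375) (nat_lit 302) (nat_lit 223)) (XT.nd (nat_lit 78) (nat_lit 76) (nat_lit 0) (XT.lf (nat_lit 0) (nat_lit 8195907026) (nat_lit 76) (nat_lit 32702458511) (nat_lit 76) (nat_lit 7338452261) (nat_lit 17) (nat_lit 4) (nat_lit 18) (nat_lit 5) (nat_lit 18) (nat_lit 4) (nat_lit 376) (nat_lit 302) (nat_lit 222)) (XT.lf (nat_lit 0) (nat_lit 1010114031) (nat_lit 152) (nat_lit 23318144271) (nat_lit 76) (nat_lit 25839880529) (nat_lit 16) (nat_lit 5) (nat_lit 18) (nat_lit 5) (nat_lit 17) (nat_lit 4) (nat_lit 377) (nat_lit 302) (nat_lit 221)))) (XT.nd (nat_lit 78) (nat_lit 76) (nat_lit 0) (XT.lf (nat_lit 0) (nat_lit 9511943000) (nat_lit 152) (nat_lit 5913082302) (nat_lit 76) (nat_lit 36765865397) (nat_lit 16) (nat_lit 5) (nat_lit 18) (nat_lit 5) (nat_lit 17) (nat_lit 4) (nat_lit 378) (nat_lit 302) (nat_lit 220)) (XT.nd (nat_lit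 78) (nat_lit 0) (nat_lit 0) (XT.lf (nat_lit 0) (nat_lit 12737984621) (nat_lit 76) (nat_lit 5883044412) (nat_lit 152) (nat_lit 35684645351) (nat_lit 15) (nat_lit 5) (nat_lit 16) (nat_lit 5) (nat_lit 17) (nat_lit 4) (nat_lit 379) (nat_lit 302) (nat_lit 219)) (XT.lf (nat_lit 0) (nat_lit 28335287501) (nat_lit 152) (nat_lit 24092529283) (nat_lit 0) (nat_lit 4090896947) (nat_lit 15) (nat_lit 5) (nat_lit 17) (nat_lit 4) (nat_lit 15) (nat_lit 4) (nat_lit 380) (nat_lit 302) (nat_lit 218)))))) (XT.nd (nat_lit 468) (nat_lit 228) (nat_lit 0) (XT.nd (nat_lit 234) (nat_lit 152) (nat_lit 0) (XT.nd (nat_lit 78) (nat_lit 76) (nat_lit 0) (XT.lf (nat_lit 0) (nat_lit 38615855066) (nat_lit 152) (nat_lit 5870545628) (nat_lit 0) (nat_lit 14351976816) (nat_lit 15) (nat_lit 5) (nat_lit 17) (nat_lit 4) (nat_lit 15) (nat_lit 4) (nat_lit 381) (nat_lit 302) (nat_lit 217)) (XT.nd (nat_lit 78) (nat_lit 0) (nat_lit 0)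 (XT.lf (nat_lit 0) (nat_lit 13671056885) (nat_lit 76) (nat_lit 35937745086) (nat_lit 76) (nat_lit 11655307125) (nat_lit 14) (nat_lit 4) (nat_lit 15) (nat_lit 5) (nat_lit 15) (nat_lit 4) (nat_lit 382) (nat_lit 302) (nat_lit 216)) (XT.lf (nat_lit 0) (nat_lit 34364980470) (nat_lit 76) (nat_lit 26871016347) (nat_lit 76) (nat_lit 2570902472) (nat_lit 14) (nat_lit 4) (nat_lit 15) (nat_lit 5) (nat_lit 15) (nat_lit 4) (nat_lit 383) (nat_lit 302) (nat_lit 215)))) (XT.nd (nat_lit 78) (nat_lit 76) (nat_lit 0) (XT.lf (nat_lit 0) (nat_lit 6730364279) (nat_lit 152) (nat_lit 10519701307) (nat_lit 76) (nat_lit 49222043369) (nat_lit 13) (nat_lit 5) (nat_lit 15) (nat_lit 5) (nat_lit 14) (nat_lit 4) (nat_lit 384) (nat_lit 302) (nat_lit 214)) (XT.nd (nat_lit 78) (nat_lit 0) (nat_lit 0) (XT.lf (nat_lit 0) (nat_lit 9586955122) (nat_lit 76) (nat_lit 6959355013) (nat_lit 152) (nat_lit 52715362703) (nat_lit 12)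 (nat_lit 5) (nat_lit 13) (nat_lit 5) (nat_lit 14) (nat_lit 4) (nat_lit 385) (nat_lit 302) (nat_lit 213)) (XT.lf (nat_lit 0) (nat_lit 27080561053) (nat_lit 152) (nat_lit 41207028428) (nat_lit 0) (nat_lit 3891751743) (nat_lit 12) (nat_lit 5) (nat_lit 14) (nat_lit 4) (nat_lit 12) (nat_lit 4) (nat_lit 386) (nat_lit 302) (nat_lit 212))))) (XT.nd (nat_lit 234) (nat_lit 152) (nat_lit 0) (XT.nd (nat_lit 78) (nat_lit 76) (nat_lit 0) (XT.lf (nat_lit 0) (nat_lit 38242646403) (nat_lit 152) (nat_lit 21955204595) (nat_lit 0) (nat_lit 15039987551) (nat_lit 12) (nat_lit 5) (nat_lit 14) (nat_lit 4) (nat_lit 12) (nat_lit 4) (nat_lit 387) (nat_lit 302) (nat_lit 211)) (XT.nd (nat_lit 78) (nat_lit 76) (nat_lit 0) (XT.lf (nat_lit 0) (nat_lit 49950487544) (nat_lit 152) (nat_lit 1764753506) (nat_lit 0) (nat_lit 26734638652) (nat_lit 12) (nat_lit 5) (nat_lit 14) (nat_lit 4) (nat_lit 12) (nat_lit 4) (nat_lit 388)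 (nat_lit 302) (nat_lit 210)) (XT.lf (nat_lit 0) (nat_lit 20054258865) (nat_lit 76) (nat_lit 42490804605) (nat_lit 76) (nat_lit 19262393771) (nat_lit 11) (nat_lit 4) (nat_lit 12) (nat_lit 5) (nat_lit 12) (nat_lit 4) (nat_lit 389) (nat_lit 302) (nat_lit 209)))) (XT.nd (nat_lit 156) (nat_lit 76) (nat_lit 0) (XT.nd (nat_lit 78) (nat_lit 76) (nat_lit 0) (XT.lf (nat_lit 0) (nat_lit 43003035425) (nat_lit 76) (nat_lit 32784668709) (nat_lit 76) (nat_lit 9544294120) (nat_lit 11) (nat_lit 4) (nat_lit 12) (nat_lit 5) (nat_lit 12) (nat_lit 4) (nat_lit 390) (nat_lit 302) (nat_lit 208)) (XT.lf (nat_lit 0) (nat_lit 627413061) (nat_lit 152) (nat_lit 21965571864) (nat_lit 76) (nat_lit 66439826792) (nat_lit 10) (nat_lit 5) (nat_lit 12) (nat_lit 5) (nat_lit 11) (nat_lit 4) (nat_lit 391) (nat_lit 302) (nat_lit 207))) (XT.nd (nat_lit 78) (nat_lit 76) (nat_lit 0) (XT.lf (nat_lit 0) (nat_lit 10976304644) (nat_lit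 152) (nat_lit 761195597) (nat_lit 76) (nat_lit 81173876130) (nat_lit 10) (nat_lit 5) (nat_lit 12) (nat_lit 5) (nat_lit 11) (nat_lit 4) (nat_lit 392) (nat_lit 302) (nat_lit 206)) (XT.lf (nat_lit 0) (nat_lit 22179242860) (nat_lit 152) (nat_lit 74773273498) (nat_lit 0) (nat_lit 14523945) (nat_lit 9) (nat_lit 5) (nat_lit 11) (nat_lit 4) (nat_lit 9) (nat_lit 4) (nat_lit 393) (nat_lit 302) (nat_lit 205))))))))
noncomputable def xc108 : XT := (XT.nd (nat_lit 1872) (nat_lit 152) (nat_lit 0) (XT.nd (nat_lit 936) (nat_lit 152) (nat_lit 0) (XT.nd (nat_lit 468) (nat_lit 152) (nat_lit 0) (XT.nd (nat_lit 234) (nat_lit 76) (nat_lit 0) (XT.nd (nat_lit 78) (nat_lit 0) (nat_lit 0) (XT.lf (nat_lit 0) (nat_lit 34137737917) (nat_lit 152) (nat_lit 55114335023) (nat_lit 0) (nat_lit 11963645087) (nat_lit 9) (nat_lit 5) (nat_lit 11) (nat_lit 4) (nat_lit 9) (nat_lit 4) (nat_lit 394) (nat_lit 302) (nat_lit 204))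 (XT.nd (nat_lit 78) (nat_lit 0) (nat_lit 0) (XT.lf (nat_lit 0) (nat_lit 46684528534) (nat_lit 152) (nat_lit 34491275439) (nat_lit 0) (nat_lit 24501508166) (nat_lit 9) (nat_lit 5) (nat_lit 11) (nat_lit 4) (nat_lit 9) (nat_lit 4) (nat_lit 395) (nat_lit 302) (nat_lit 203)) (XT.lf (nat_lit 0) (nat_lit 59849488021) (nat_lit 152) (nat_lit 12854992222) (nat_lit 0) (nat_lit 37657965236) (nat_lit 9) (nat_lit 5) (nat_lit 11) (nat_lit 4) (nat_lit 9) (nat_lit 4) (nat_lit 396) (nat_lit 302) (nat_lit 202)))) (XT.nd (nat_lit 78) (nat_lit 0) (nat_lit 0) (XT.lf (nat_lit 0) (nat_lit 10171583790) (nat_lit 76) (nat_lit 63651184659) (nat_lit 76) (nat_lit 41451564334) (nat_lit 8) (nat_lit 4) (nat_lit 9) (nat_lit 5) (nat_lit 9) (nat_lit 4) (nat_lit 397) (nat_lit 302) (nat_lit 201)) (XT.nd (nat_lit 78) (nat_lit 0) (nat_lit 0) (XT.lf (nat_lit 0) (nat_lit 34778984751) (nat_lit 76) (nat_lit 53924853306) (nat_lit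 76) (nat_lit 31717521038) (nat_lit 8) (nat_lit 4) (nat_lit 9) (nat_lit 5) (nat_lit 9) (nat_lit 4) (nat_lit 398) (nat_lit 302) (nat_lit 200)) (XT.lf (nat_lit 0) (nat_lit 60600755611) (nat_lit 76) (nat_lit 43720033765) (nat_lit 76) (nat_lit 21505356789) (nat_lit 8) (nat_lit 4) (nat_lit 9) (nat_lit 5) (nat_lit 9) (nat_lit 4) (nat_lit 399) (nat_lit 302) (nat_lit 199))))) (XT.nd (nat_lit 234) (nat_lit 0) (nat_lit 0) (XT.nd (nat_lit 78) (nat_lit 152) (nat_lit 0) (XT.lf (nat_lit 0) (nat_lit 87698376778) (nat_lit 76) (nat_lit 33012428847) (nat_lit 76) (nat_lit 10790756912) (nat_lit 8) (nat_lit 4) (nat_lit 9) (nat_lit 5) (nat_lit 9) (nat_lit 4) (nat_lit 400) (nat_lit 302) (nat_lit 198)) (XT.nd (nat_lit 78) (nat_lit 76) (nat_lit 0) (XT.lf (nat_lit 0) (nat_lit 437329458) (nat_lit 152) (nat_lit 21331808411) (nat_lit 76) (nat_lit 115691630551) (nat_lit 7) (nat_lit 5) (nat_lit 9) (nat_lit 5) (nat_lit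 8) (nat_lit 4) (nat_lit 401) (nat_lit 302) (nat_lit 197)) (XT.lf (nat_lit 0) (nat_lit 2140696311) (nat_lit 76) (nat_lit 9749730395) (nat_lit 152) (nat_lit 131817351378) (nat_lit 6) (nat_lit 5) (nat_lit 7) (nat_lit 5) (nat_lit 8) (nat_lit 4) (nat_lit 402) (nat_lit 302) (nat_lit 196)))) (XT.nd (nat_lit 78) (nat_lit 0) (nat_lit 0) (XT.lf (nat_lit 0) (nat_lit 24321028837) (nat_lit 152) (nat_lit 122786477720) (nat_lit 0) (nat_lit 3139389842) (nat_lit 6) (nat_lit 5) (nat_lit 8) (nat_lit 4) (nat_lit 6) (nat_lit 4) (nat_lit 403) (nat_lit 302) (nat_lit 195)) (XT.nd (nat_lit 78) (nat_lit 0) (nat_lit 0) (XT.lf (nat_lit 0) (nat_lit 37526177773) (nat_lit 152) (nat_lit 103240084618) (nat_lit 0) (nat_lit 16339058043) (nat_lit 6) (nat_lit 5) (nat_lit 8) (nat_lit 4) (nat_lit 6) (nat_lit 4) (nat_lit 404) (nat_lit 302) (nat_lit 194)) (XT.lf (nat_lit 0) (nat_lit 51385093728) (nat_lit 152) (nat_lit 82729142821)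 (nat_lit 0) (nat_lit 30192754252) (nat_lit 6) (nat_lit 5) (nat_lit 8) (nat_lit 4) (nat_lit 6) (nat_lit 4) (nat_lit 405) (nat_lit 302) (nat_lit 193)))))) (XT.nd (nat_lit 468) (nat_lit 76) (nat_lit 0) (XT.nd (nat_lit 234) (nat_lit 76) (nat_lit 0) (XT.nd (nat_lit 78) (nat_lit 0) (nat_lit 0) (XT.lf (nat_lit 0) (nat_lit 65930774122) (nat_lit 152) (nat_lit 61204816754) (nat_lit 0) (nat_lit 44733463458) (nat_lit 6) (nat_lit 5) (nat_lit 8) (nat_lit 4) (nat_lit 6) (nat_lit 4) (nat_lit 406) (nat_lit 302) (nat_lit 192)) (XT.nd (nat_lit 78) (nat_lit 0) (nat_lit 0) (XT.lf (nat_lit 0) (nat_lit 81197851527) (nat_lit 152) (nat_lit 38615858021) (nat_lit 0) (nat_lit 59995806399) (nat_lit 6) (nat_lit 5) (nat_lit 8) (nat_lit 4) (nat_lit 6) (nat_lit 4) (nat_lit 407) (nat_lit 302) (nat_lit 191)) (XT.lf (nat_lit 0) (nat_lit 97222676126) (nat_lit 152) (nat_lit 14908483387) (nat_lit 0) (nat_lit 76016121985) (nat_lit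 6) (nat_lit 5) (nat_lit 8) (nat_lit 4) (nat_lit 6) (nat_lit 4) (nat_lit 408) (nat_lit 302) (nat_lit 190)))) (XT.nd (nat_lit 78) (nat_lit 0) (nat_lit 0) (XT.lf (nat_lit 0) (nat_lit 10303530603) (nat_lit 76) (nat_lit 103900738651) (nat_lit 76) (nat_lit 82689890211) (nat_lit 5) (nat_lit 4) (nat_lit 6) (nat_lit 5) (nat_lit 6) (nat_lit 4) (nat_lit 409) (nat_lit 302) (nat_lit 189)) (XT.nd (nat_lit 78) (nat_lit 0) (nat_lit 0) (XT.lf (nat_lit 0) (nat_lit 37283396934) (nat_lit 76) (nat_lit 94998780670) (nat_lit 76) (nat_lit 73783842423) (nat_lit 5) (nat_lit 4) (nat_lit 6) (nat_lit 5) (nat_lit 6) (nat_lit 4) (nat_lit 410) (nat_lit 302) (nat_lit 188)) (XT.lf (nat_lit 0) (nat_lit 65602411594) (nat_lit 76) (nat_lit 85656572814) (nat_lit 76) (nat_lit 64437739512) (nat_lit 5) (nat_lit 4) (nat_lit 6) (nat_lit 5) (nat_lit 6) (nat_lit 4) (nat_lit 411) (nat_lit 302) (nat_lit 187))))) (XT.nd (nat_lit 234)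 (nat_lit 76) (nat_lit 0) (XT.nd (nat_lit 78) (nat_lit 0) (nat_lit 0) (XT.lf (nat_lit 0) (nat_lit 95328000808) (nat_lit 76) (nat_lit 75851871731) (nat_lit 76) (nat_lit 54629328852) (nat_lit 5) (nat_lit 4) (nat_lit 6) (nat_lit 5) (nat_lit 6) (nat_lit 4) (nat_lit 412) (nat_lit 302) (nat_lit 186)) (XT.nd (nat_lit 78) (nat_lit 0) (nat_lit 0) (XT.lf (nat_lit 0) (nat_lit 126530939787) (nat_lit 76) (nat_lit 65561332895) (nat_lit 76) (nat_lit 44335257086) (nat_lit 5) (nat_lit 4) (nat_lit 6) (nat_lit 5) (nat_lit 6) (nat_lit 4) (nat_lit 413) (nat_lit 302) (nat_lit 185)) (XT.lf (nat_lit 0) (nat_lit 159285521244) (nat_lit 76) (nat_lit 54760455022) (nat_lit 76) (nat_lit 33531014517) (nat_lit 5) (nat_lit 4) (nat_lit 6) (nat_lit 5) (nat_lit 6) (nat_lit 4) (nat_lit 414) (nat_lit 302) (nat_lit 184)))) (XT.nd (nat_lit 78) (nat_lit 76) (nat_lit 0) (XT.lf (nat_lit 0) (nat_lit 193669732278) (nat_lit 76) (nat_lit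 43423521736) (nat_lit 76) (nat_lit 22190876760) (nat_lit 5) (nat_lit 4) (nat_lit 6) (nat_lit 5) (nat_lit 6) (nat_lit 4) (nat_lit 415) (nat_lit 302) (nat_lit 183)) (XT.nd (nat_lit 78) (nat_lit 76) (nat_lit 0) (XT.lf (nat_lit 0) (nat_lit 229765440058) (nat_lit 76) (nat_lit 31523540339) (nat_lit 76) (nat_lit 10287843485) (nat_lit 5) (nat_lit 4) (nat_lit 6) (nat_lit 5) (nat_lit 6) (nat_lit 4) (nat_lit 416) (nat_lit 302) (nat_lit 182)) (XT.lf (nat_lit 0) (nat_lit 2135806453) (nat_lit 152) (nat_lit 16860200173) (nat_lit 76) (nat_lit 265486609375) (nat_lit 4) (nat_lit 5) (nat_lit 6) (nat_lit 5) (nat_lit 5) (nat_lit 4) (nat_lit 417) (nat_lit 302) (nat_lit 181))))))) (XT.nd (nat_lit 936) (nat_lit 76) (nat_lit 0) (XT.nd (nat_lit 468) (nat_lit 0) (nat_lit 0) (XT.nd (nat_lit 234) (nat_lit 0) (nat_lit 0) (XT.nd (nat_lit 78) (nat_lit 0) (nat_lit 0) (XT.lf (nat_lit 0) (nat_lit 9465735837) (nat_lit 76)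 (nat_lit 5513340935) (nat_lit 152) (nat_lit 283038979759) (nat_lit 3) (nat_lit 5) (nat_lit 4) (nat_lit 5) (nat_lit 5) (nat_lit 4) (nat_lit 418) (nat_lit 302) (nat_lit 180)) (XT.nd (nat_lit 78) (nat_lit 0) (nat_lit 0) (XT.lf (nat_lit 0) (nat_lit 28886074641) (nat_lit 152) (nat_lit 274669430347) (nat_lit 0) (nat_lit 8653686190) (nat_lit 3) (nat_lit 5) (nat_lit 5) (nat_lit 4) (nat_lit 3) (nat_lit 4) (nat_lit 419) (nat_lit 302) (nat_lit 179)) (XT.lf (nat_lit 0) (nat_lit 43575375394) (nat_lit 152) (nat_lit 260189564077) (nat_lit 0) (nat_lit 23340595717) (nat_lit 3) (nat_lit 5) (nat_lit 5) (nat_lit 4) (nat_lit 3) (nat_lit 4) (nat_lit 420) (nat_lit 302) (nat_lit 178)))) (XT.nd (nat_lit 78) (nat_lit 0) (nat_lit 0) (XT.lf (nat_lit 0) (nat_lit 58995874853) (nat_lit 152) (nat_lit 244992167308) (nat_lit 0) (nat_lit 38758817817) (nat_lit 3) (nat_lit 5) (nat_lit 5) (nat_lit 4) (nat_lit 3) (nat_lit 4)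 (nat_lit 421) (nat_lit 302) (nat_lit 177)) (XT.nd (nat_lit 78) (nat_lit 0) (nat_lit 0) (XT.lf (nat_lit 0) (nat_lit 75184288493) (nat_lit 152) (nat_lit 229041055764) (nat_lit 0) (nat_lit 54945062545) (nat_lit 3) (nat_lit 5) (nat_lit 5) (nat_lit 4) (nat_lit 3) (nat_lit 4) (nat_lit 422) (nat_lit 302) (nat_lit 176)) (XT.lf (nat_lit 0) (nat_lit 92179160157) (nat_lit 152) (nat_lit 212298250606) (nat_lit 0) (nat_lit 71937868578) (nat_lit 3) (nat_lit 5) (nat_lit 5) (nat_lit 4) (nat_lit 3) (nat_lit 4) (nat_lit 423) (nat_lit 302) (nat_lit 175))))) (XT.nd (nat_lit 234) (nat_lit 0) (nat_lit 0) (XT.nd (nat_lit 78) (nat_lit 0) (nat_lit 0) (XT.lf (nat_lit 0) (nat_lit 110020953823) (nat_lit 152) (nat_lit 194723888013) (nat_lit 0) (nat_lit 89777694977) (nat_lit 3) (nat_lit 5) (nat_lit 5) (nat_lit 4) (nat_lit 3) (nat_lit 4) (nat_lit 424) (nat_lit 302) (nat_lit 174)) (XT.nd (nat_lit 78) (nat_lit 0) (nat_lit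 0) (XT.lf (nat_lit 0) (nat_lit 128752149955) (nat_lit 152) (nat_lit 176276124265) (nat_lit 0) (nat_lit 108507017520) (nat_lit 3) (nat_lit 5) (nat_lit 5) (nat_lit 4) (nat_lit 3) (nat_lit 4) (nat_lit 425) (nat_lit 302) (nat_lit 173)) (XT.lf (nat_lit 0) (nat_lit 148417346637) (nat_lit 152) (nat_lit 156911036115) (nat_lit 0) (nat_lit 128170429832) (nat_lit 3) (nat_lit 5) (nat_lit 5) (nat_lit 4) (nat_lit 3) (nat_lit 4) (nat_lit 426) (nat_lit 302) (nat_lit 172)))) (XT.nd (nat_lit 78) (nat_lit 0) (nat_lit 0) (XT.lf (nat_lit 0) (nat_lit 169063365766) (nat_lit 152) (nat_lit 136582516209) (nat_lit 0) (nat_lit 148814749562) (nat_lit 3) (nat_lit 5) (nat_lit 5) (nat_lit 4) (nat_lit 3) (nat_lit 4) (nat_lit 427) (nat_lit 302) (nat_lit 171)) (XT.nd (nat_lit 78) (nat_lit 0) (nat_lit 0) (XT.lf (nat_lit 0) (nat_lit 190739364532) (nat_lit 152) (nat_lit 115242163311) (nat_lit 0) (nat_lit 170489129851) (nat_lit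 3) (nat_lit 5) (nat_lit 5) (nat_lit 4) (nat_lit 3) (nat_lit 4) (nat_lit 428) (nat_lit 302) (nat_lit 170)) (XT.lf (nat_lit 0) (nat_lit 213496952453) (nat_lit 152) (nat_lit 92839167055) (nat_lit 0) (nat_lit 193245176368) (nat_lit 3) (nat_lit 5) (nat_lit 5) (nat_lit 4) (nat_lit 3) (nat_lit 4) (nat_lit 429) (nat_lit 302) (nat_lit 169)))))) (XT.nd (nat_lit 468) (nat_lit 0) (nat_lit 0) (XT.nd (nat_lit 234) (nat_lit 76) (nat_lit 0) (XT.nd (nat_lit 78) (nat_lit 0) (nat_lit 0) (XT.lf (nat_lit 0) (nat_lit 237390314265) (nat_lit 152) (nat_lit 69320186975) (nat_lit 0) (nat_lit 217137070174) (nat_lit 3) (nat_lit 5) (nat_lit 5) (nat_lit 4) (nat_lit 3) (nat_lit 4) (nat_lit 430) (nat_lit 302) (nat_lit 168)) (XT.nd (nat_lit 78) (nat_lit 0) (nat_lit 0) (XT.lf (nat_lit 0) (nat_lit 262476338923) (nat_lit 152) (nat_lit 44629225499) (nat_lit 0) (nat_lit 242221696732) (nat_lit 3) (nat_lit 5) (nat_lit 5) (nat_lit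 4) (nat_lit 3) (nat_lit 4) (nat_lit 431) (nat_lit 302) (nat_lit 167)) (XT.lf (nat_lit 0) (nat_lit 288814755058) (nat_lit 152) (nat_lit 18707494624) (nat_lit 0) (nat_lit 268558781343) (nat_lit 3) (nat_lit 5) (nat_lit 5) (nat_lit 4) (nat_lit 3) (nat_lit 4) (nat_lit 432) (nat_lit 302) (nat_lit 166)))) (XT.nd (nat_lit 78) (nat_lit 0) (nat_lit 0) (XT.lf (nat_lit 0) (nat_lit 8787994772) (nat_lit 76) (nat_lit 307817483639) (nat_lit 76) (nat_lit 287560241805) (nat_lit 2) (nat_lit 4) (nat_lit 3) (nat_lit 5) (nat_lit 3) (nat_lit 4) (nat_lit 433) (nat_lit 302) (nat_lit 165)) (XT.nd (nat_lit 78) (nat_lit 0) (nat_lit 0) (XT.lf (nat_lit 0) (nat_lit 38304199915) (nat_lit 76) (nat_lit 307796571004) (nat_lit 76) (nat_lit 287538121439) (nat_lit 2) (nat_lit 4) (nat_lit 3) (nat_lit 5) (nat_lit 3) (nat_lit 4) (nat_lit 434) (nat_lit 302) (nat_lit 164)) (XT.lf (nat_lit 0) (nat_lit 69292843227) (nat_lit 76) (nat_lit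 307776282460) (nat_lit 76) (nat_lit 287516682674) (nat_lit 2) (nat_lit 4) (nat_lit 3) (nat_lit 5) (nat_lit 3) (nat_lit 4) (nat_lit 435) (nat_lit 302) (nat_lit 163))))) (XT.nd (nat_lit 36504) (nat_lit 0) (nat_lit 11552) (XT.nd (nat_lit 78) (nat_lit 0) (nat_lit 0) (XT.lf (nat_lit 0) (nat_lit 101827707191) (nat_lit 76) (nat_lit 307756569699) (nat_lit 76) (nat_lit 287495874465) (nat_lit 2) (nat_lit 4) (nat_lit 3) (nat_lit 5) (nat_lit 3) (nat_lit 4) (nat_lit 436) (nat_lit 302) (nat_lit 162)) (XT.nd (nat_lit 78) (nat_lit 0) (nat_lit 0) (XT.lf (nat_lit 0) (nat_lit 135986255770) (nat_lit 76) (nat_lit 307737385787) (nat_lit 76) (nat_lit 287475647269) (nat_lit 2) (nat_lit 4) (nat_lit 3) (nat_lit 5) (nat_lit 3) (nat_lit 4) (nat_lit 437) (nat_lit 302) (nat_lit 161)) (XT.lf (nat_lit 0) (nat_lit 171849818840) (nat_lit 76) (nat_lit 307718685048) (nat_lit 76) (nat_lit 287455952926) (nat_lit 2) (nat_lit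 4) (nat_lit 3) (nat_lit 5) (nat_lit 3) (nat_lit 4) (nat_lit 438) (nat_lit 302) (nat_lit 160)))) (XT.nd (nat_lit 156) (nat_lit 380) (nat_lit 0) (XT.nd (nat_lit 78) (nat_lit 0) (nat_lit 0) (XT.lf (nat_lit 0) (nat_lit 960201405) (nat_lit 0) (nat_lit 960201405) (nat_lit 228) (nat_lit 1352641413) (nat_lit 159) (nat_lit 5) (nat_lit 159) (nat_lit 3) (nat_lit 162) (nat_lit 3) (nat_lit 303) (nat_lit 303) (nat_lit 294)) (XT.lf (nat_lit 0) (nat_lit 5160523059) (nat_lit 0) (nat_lit 1185001673) (nat_lit 228) (nat_lit 240297767) (nat_lit 159) (nat_lit 5) (nat_lit 159) (nat_lit 3) (nat_lit 162) (nat_lit 3) (nat_lit 304) (nat_lit 303) (nat_lit 293))) (XT.nd (nat_lit 78) (nat_lit 0) (nat_lit 76) (XT.lf (nat_lit 76) (nat_lit 1875997239) (nat_lit 0) (nat_lit 269149943) (nat_lit 380) (nat_lit 4487157564) (nat_lit 155) (nat_lit 5) (nat_lit 154) (nat_lit 3) (nat_lit 159) (nat_lit 5) (nat_lit 305) (nat_lit 303)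 (nat_lit 292)) (XT.lf (nat_lit 0) (nat_lit 4527495825) (nat_lit 304) (nat_lit 1393197596) (nat_lit 380) (nat_lit 766137608) (nat_lit 155) (nat_lit 5) (nat_lit 159) (nat_lit 5) (nat_lit 160) (nat_lit 5) (nat_lit 306) (nat_lit 303) (nat_lit 291))))))))
noncomputable def xc109 : XT := (XT.nd (nat_lit 1950) (nat_lit 2888) (nat_lit 0) (XT.nd (nat_lit 936) (nat_lit 3192) (nat_lit 0) (XT.nd (nat_lit 468) (nat_lit 1976) (nat_lit 0) (XT.nd (nat_lit 234) (nat_lit 836) (nat_lit 0) (XT.nd (nat_lit 78) (nat_lit 0) (nat_lit 0) (XT.lf (nat_lit 0) (nat_lit 168782331) (nat_lit 380) (nat_lit 4636585293) (nat_lit 456) (nat_lit 1944025953) (nat_lit 150) (nat_lit 5) (nat_lit 155) (nat_lit 5) (nat_lit 156) (nat_lit 5) (nat_lit 307) (nat_lit 303) (nat_lit 290)) (XT.nd (nat_lit 78) (nat_lit 0) (nat_lit 0) (XT.lf (nat_lit 0) (nat_lit 2425251914) (nat_lit 380) (nat_lit 1096314302) (nat_lit 456) (nat_lit 3297697095)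 (nat_lit 150) (nat_lit 5) (nat_lit 155) (nat_lit 5) (nat_lit 156) (nat_lit 5) (nat_lit 308) (nat_lit 303) (nat_lit 289)) (XT.lf (nat_lit 76) (nat_lit 2619961389) (nat_lit 0) (nat_lit 2082662546) (nat_lit 456) (nat_lit 2194765031) (nat_lit 151) (nat_lit 5) (nat_lit 150) (nat_lit 5) (nat_lit 156) (nat_lit 5) (nat_lit 309) (nat_lit 303) (nat_lit 288)))) (XT.nd (nat_lit 78) (nat_lit 836) (nat_lit 0) (XT.lf (nat_lit 76) (nat_lit 6476617220) (nat_lit 0) (nat_lit 508009422) (nat_lit 456) (nat_lit 414616) (nat_lit 151) (nat_lit 5) (nat_lit 150) (nat_lit 5) (nat_lit 156) (nat_lit 5) (nat_lit 310) (nat_lit 303) (nat_lit 287)) (XT.nd (nat_lit 78) (nat_lit 456) (nat_lit 0) (XT.lf (nat_lit 0) (nat_lit 2179738975) (nat_lit 456) (nat_lit 3659521497) (nat_lit 76) (nat_lit 1238670249) (nat_lit 145) (nat_lit 5) (nat_lit 151) (nat_lit 5) (nat_lit 146) (nat_lit 5) (nat_lit 311) (nat_lit 303) (nat_lit 286))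 (XT.lf (nat_lit 0) (nat_lit 296121193) (nat_lit 456) (nat_lit 4075794598) (nat_lit 532) (nat_lit 2808533936) (nat_lit 139) (nat_lit 5) (nat_lit 145) (nat_lit 5) (nat_lit 146) (nat_lit 5) (nat_lit 312) (nat_lit 303) (nat_lit 285))))) (XT.nd (nat_lit 234) (nat_lit 1368) (nat_lit 0) (XT.nd (nat_lit 78) (nat_lit 608) (nat_lit 0) (XT.lf (nat_lit 0) (nat_lit 4488951241) (nat_lit 456) (nat_lit 2132335318) (nat_lit 532) (nat_lit 669559236) (nat_lit 139) (nat_lit 5) (nat_lit 145) (nat_lit 5) (nat_lit 146) (nat_lit 5) (nat_lit 313) (nat_lit 303) (nat_lit 284)) (XT.nd (nat_lit 78) (nat_lit 0) (nat_lit 0) (XT.lf (nat_lit 0) (nat_lit 1418185493) (nat_lit 532) (nat_lit 19017429) (nat_lit 608) (nat_lit 5972881804) (nat_lit 131) (nat_lit 5) (nat_lit 138) (nat_lit 5) (nat_lit 139) (nat_lit 5) (nat_lit 314) (nat_lit 303) (nat_lit 283)) (XT.lf (nat_lit 0) (nat_lit 3602796051) (nat_lit 608) (nat_lit 1724104620)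 (nat_lit 76) (nat_lit 2209149006) (nat_lit 131) (nat_lit 5) (nat_lit 139) (nat_lit 5) (nat_lit 132) (nat_lit 5) (nat_lit 315) (nat_lit 303) (nat_lit 282)))) (XT.nd (nat_lit 78) (nat_lit 760) (nat_lit 0) (XT.lf (nat_lit 0) (nat_lit 2757762468) (nat_lit 608) (nat_lit 3060767357) (nat_lit 684) (nat_lit 1852797252) (nat_lit 123) (nat_lit 5) (nat_lit 131) (nat_lit 5) (nat_lit 132) (nat_lit 5) (nat_lit 316) (nat_lit 303) (nat_lit 281)) (XT.nd (nat_lit 78) (nat_lit 684) (nat_lit 0) (XT.lf (nat_lit 0) (nat_lit 251023526) (nat_lit 684) (nat_lit 383243622) (nat_lit 76) (nat_lit 7182441683) (nat_lit 122) (nat_lit 5) (nat_lit 131) (nat_lit 5) (nat_lit 123) (nat_lit 5) (nat_lit 317) (nat_lit 303) (nat_lit 280)) (XT.lf (nat_lit 0) (nat_lit 2403134284) (nat_lit 760) (nat_lit 3601895752) (nat_lit 76) (nat_lit 1962635346) (nat_lit 113) (nat_lit 5) (nat_lit 123) (nat_lit 5) (nat_lit 114) (nat_lit 5) (nat_lit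 318) (nat_lit 303) (nat_lit 279)))))) (XT.nd (nat_lit 468) (nat_lit 1292) (nat_lit 0) (XT.nd (nat_lit 234) (nat_lit 684) (nat_lit 0) (XT.nd (nat_lit 78) (nat_lit 456) (nat_lit 0) (XT.lf (nat_lit 0) (nat_lit 1178468572) (nat_lit 760) (nat_lit 3428148052) (nat_lit 836) (nat_lit 3522453068) (nat_lit 103) (nat_lit 5) (nat_lit 113) (nat_lit 5) (nat_lit 114) (nat_lit 5) (nat_lit 319) (nat_lit 303) (nat_lit 278)) (XT.nd (nat_lit 78) (nat_lit 456) (nat_lit 0) (XT.lf (nat_lit 0) (nat_lit 6235888019) (nat_lit 760) (nat_lit 656761834) (nat_lit 836) (nat_lit 1407359562) (nat_lit 103) (nat_lit 5) (nat_lit 113) (nat_lit 5) (nat_lit 114) (nat_lit 5) (nat_lit 320) (nat_lit 303) (nat_lit 277)) (XT.lf (nat_lit 0) (nat_lit 785634932) (nat_lit 456) (nat_lit 5450670862) (nat_lit 76) (nat_lit 2242722358) (nat_lit 97) (nat_lit 5) (nat_lit 103) (nat_lit 5) (nat_lit 98) (nat_lit 5) (nat_lit 321) (nat_lit 303) (nat_lit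 276)))) (XT.nd (nat_lit 78) (nat_lit 684) (nat_lit 0) (XT.lf (nat_lit 0) (nat_lit 3004165741) (nat_lit 456) (nat_lit 341147345) (nat_lit 76) (nat_lit 5322444605) (nat_lit 97) (nat_lit 5) (nat_lit 103) (nat_lit 5) (nat_lit 98) (nat_lit 5) (nat_lit 322) (nat_lit 303) (nat_lit 275)) (XT.nd (nat_lit 78) (nat_lit 380) (nat_lit 0) (XT.lf (nat_lit 0) (nat_lit 5102784960) (nat_lit 304) (nat_lit 231351239) (nat_lit 380) (nat_lit 3531830987) (nat_lit 93) (nat_lit 5) (nat_lit 97) (nat_lit 5) (nat_lit 98) (nat_lit 5) (nat_lit 323) (nat_lit 303) (nat_lit 274)) (XT.lf (nat_lit 0) (nat_lit 1676250536) (nat_lit 380) (nat_lit 6107052643) (nat_lit 456) (nat_lit 1290714921) (nat_lit 88) (nat_lit 5) (nat_lit 93) (nat_lit 5) (nat_lit 94) (nat_lit 5) (nat_lit 324) (nat_lit 303) (nat_lit 273))))) (XT.nd (nat_lit 234) (nat_lit 608) (nat_lit 0) (XT.nd (nat_lit 78) (nat_lit 608) (nat_lit 0) (XT.lf (nat_lit 0) (nat_lit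 1021279890) (nat_lit 456) (nat_lit 1880397996) (nat_lit 76) (nat_lit 6390382590) (nat_lit 87) (nat_lit 5) (nat_lit 93) (nat_lit 5) (nat_lit 88) (nat_lit 5) (nat_lit 325) (nat_lit 303) (nat_lit 272)) (XT.nd (nat_lit 78) (nat_lit 304) (nat_lit 0) (XT.lf (nat_lit 0) (nat_lit 3403196874) (nat_lit 380) (nat_lit 5595170281) (nat_lit 76) (nat_lit 521751783) (nat_lit 83) (nat_lit 5) (nat_lit 88) (nat_lit 5) (nat_lit 84) (nat_lit 5) (nat_lit 326) (nat_lit 303) (nat_lit 271)) (XT.lf (nat_lit 0) (nat_lit 200371419) (nat_lit 304) (nat_lit 5716721877) (nat_lit 380) (nat_lit 3841897018) (nat_lit 79) (nat_lit 5) (nat_lit 83) (nat_lit 5) (nat_lit 84) (nat_lit 5) (nat_lit 327) (nat_lit 303) (nat_lit 270)))) (XT.nd (nat_lit 156) (nat_lit 304) (nat_lit 0) (XT.nd (nat_lit 78) (nat_lit 304) (nat_lit 0) (XT.lf (nat_lit 0) (nat_lit 6395516962) (nat_lit 304) (nat_lit 2187767558) (nat_lit 380) (nat_lit 1425242329)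 (nat_lit 79) (nat_lit 5) (nat_lit 83) (nat_lit 5) (nat_lit 84) (nat_lit 5) (nat_lit 328) (nat_lit 303) (nat_lit 269)) (XT.lf (nat_lit 0) (nat_lit 1075816547) (nat_lit 304) (nat_lit 7681839390) (nat_lit 76) (nat_lit 1512104292) (nat_lit 75) (nat_lit 5) (nat_lit 79) (nat_lit 5) (nat_lit 76) (nat_lit 5) (nat_lit 329) (nat_lit 303) (nat_lit 268))) (XT.nd (nat_lit 78) (nat_lit 304) (nat_lit 0) (XT.lf (nat_lit 0) (nat_lit 3687670825) (nat_lit 304) (nat_lit 1461180843) (nat_lit 76) (nat_lit 5392397949) (nat_lit 75) (nat_lit 5) (nat_lit 79) (nat_lit 5) (nat_lit 76) (nat_lit 5) (nat_lit 330) (nat_lit 303) (nat_lit 267)) (XT.lf (nat_lit 0) (nat_lit 5155238199) (nat_lit 304) (nat_lit 1294018522) (nat_lit 380) (nat_lit 4376142249) (nat_lit 71) (nat_lit 5) (nat_lit 75) (nat_lit 5) (nat_lit 76) (nat_lit 5) (nat_lit 331) (nat_lit 303) (nat_lit 266))))))) (XT.nd (nat_lit 936) (nat_lit 1216) (nat_lit 0)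 (XT.nd (nat_lit 468) (nat_lit 608) (nat_lit 0) (XT.nd (nat_lit 234) (nat_lit 532) (nat_lit 0) (XT.nd (nat_lit 78) (nat_lit 304) (nat_lit 0) (XT.lf (nat_lit 0) (nat_lit 935535788) (nat_lit 228) (nat_lit 8436172571) (nat_lit 304) (nat_lit 1750948532) (nat_lit 68) (nat_lit 5) (nat_lit 71) (nat_lit 5) (nat_lit 72) (nat_lit 5) (nat_lit 332) (nat_lit 303) (nat_lit 265)) (XT.nd (nat_lit 78) (nat_lit 228) (nat_lit 0) (XT.lf (nat_lit 0) (nat_lit 1032781228) (nat_lit 304) (nat_lit 3482471279) (nat_lit 76) (nat_lit 6915803988) (nat_lit 67) (nat_lit 5) (nat_lit 71) (nat_lit 5) (nat_lit 68) (nat_lit 5) (nat_lit 333) (nat_lit 303) (nat_lit 264)) (XT.lf (nat_lit 0) (nat_lit 3564329782) (nat_lit 228) (nat_lit 331644231) (nat_lit 304) (nat_lit 7857545787) (nat_lit 64) (nat_lit 5) (nat_lit 67) (nat_lit 5) (nat_lit 68) (nat_lit 5) (nat_lit 334) (nat_lit 303) (nat_lit 263)))) (XT.nd (nat_lit 78) (nat_lit 532)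 (nat_lit 0) (XT.lf (nat_lit 0) (nat_lit 6970288032) (nat_lit 304) (nat_lit 1148787758) (nat_lit 76) (nat_lit 3969665655) (nat_lit 64) (nat_lit 5) (nat_lit 68) (nat_lit 5) (nat_lit 65) (nat_lit 5) (nat_lit 335) (nat_lit 303) (nat_lit 262)) (XT.nd (nat_lit 78) (nat_lit 304) (nat_lit 0) (XT.lf (nat_lit 0) (nat_lit 6366113100) (nat_lit 228) (nat_lit 3884283419) (nat_lit 304) (nat_lit 2187755387) (nat_lit 61) (nat_lit 5) (nat_lit 64) (nat_lit 5) (nat_lit 65) (nat_lit 5) (nat_lit 336) (nat_lit 303) (nat_lit 261)) (XT.lf (nat_lit 0) (nat_lit 860444615) (nat_lit 304) (nat_lit 11365827797) (nat_lit 76) (nat_lit 578123048) (nat_lit 57) (nat_lit 5) (nat_lit 61) (nat_lit 5) (nat_lit 58) (nat_lit 5) (nat_lit 337) (nat_lit 303) (nat_lit 260))))) (XT.nd (nat_lit 234) (nat_lit 456) (nat_lit 0) (XT.nd (nat_lit 78) (nat_lit 152) (nat_lit 0) (XT.lf (nat_lit 0) (nat_lit 4104389951) (nat_lit 304) (nat_lit 3826865034)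 (nat_lit 76) (nat_lit 5250087412) (nat_lit 57) (nat_lit 5) (nat_lit 61) (nat_lit 5) (nat_lit 58) (nat_lit 5) (nat_lit 338) (nat_lit 303) (nat_lit 259)) (XT.nd (nat_lit 78) (nat_lit 0) (nat_lit 0) (XT.lf (nat_lit 0) (nat_lit 4148155592) (nat_lit 152) (nat_lit 3378248707) (nat_lit 228) (nat_lit 6049964850) (nat_lit 55) (nat_lit 5) (nat_lit 57) (nat_lit 5) (nat_lit 58) (nat_lit 5) (nat_lit 339) (nat_lit 303) (nat_lit 258)) (XT.lf (nat_lit 0) (nat_lit 11159204550) (nat_lit 228) (nat_lit 1430569325) (nat_lit 76) (nat_lit 1399413919) (nat_lit 55) (nat_lit 5) (nat_lit 58) (nat_lit 5) (nat_lit 56) (nat_lit 5) (nat_lit 340) (nat_lit 303) (nat_lit 257)))) (XT.nd (nat_lit 78) (nat_lit 152) (nat_lit 0) (XT.lf (nat_lit 0) (nat_lit 655226058) (nat_lit 304) (nat_lit 7360429699) (nat_lit 76) (nat_lit 6400490794) (nat_lit 51) (nat_lit 5) (nat_lit 55) (nat_lit 5) (nat_lit 52) (nat_lit 5) (nat_lit 341) (nat_lit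 303) (nat_lit 256)) (XT.nd (nat_lit 78) (nat_lit 0) (nat_lit 0) (XT.lf (nat_lit 0) (nat_lit 1068835779) (nat_lit 152) (nat_lit 3146609405) (nat_lit 228) (nat_lit 10646917073) (nat_lit 49) (nat_lit 5) (nat_lit 51) (nat_lit 5) (nat_lit 52) (nat_lit 5) (nat_lit 342) (nat_lit 303) (nat_lit 255)) (XT.lf (nat_lit 0) (nat_lit 8066273886) (nat_lit 228) (nat_lit 5254302318) (nat_lit 76) (nat_lit 2004703029) (nat_lit 49) (nat_lit 5) (nat_lit 52) (nat_lit 5) (nat_lit 50) (nat_lit 5) (nat_lit 343) (nat_lit 303) (nat_lit 254)))))) (XT.nd (nat_lit 468) (nat_lit 532) (nat_lit 0) (XT.nd (nat_lit 234) (nat_lit 304) (nat_lit 0) (XT.nd (nat_lit 78) (nat_lit 228) (nat_lit 0) (XT.lf (nat_lit 0) (nat_lit 3710475093) (nat_lit 152) (nat_lit 8466026136) (nat_lit 228) (nat_lit 3631517413) (nat_lit 47) (nat_lit 5) (nat_lit 49) (nat_lit 5) (nat_lit 50) (nat_lit 5) (nat_lit 344) (nat_lit 303) (nat_lit 253)) (XT.nd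 (nat_lit 78) (nat_lit 152) (nat_lit 0) (XT.lf (nat_lit 0) (nat_lit 219730827) (nat_lit 228) (nat_lit 3077659871) (nat_lit 76) (nat_lit 13014980413) (nat_lit 46) (nat_lit 5) (nat_lit 49) (nat_lit 5) (nat_lit 47) (nat_lit 5) (nat_lit 345) (nat_lit 303) (nat_lit 252)) (XT.lf (nat_lit 0) (nat_lit 4237723131) (nat_lit 228) (nat_lit 10396112828) (nat_lit 76) (nat_lit 2200334166) (nat_lit 44) (nat_lit 5) (nat_lit 47) (nat_lit 5) (nat_lit 45) (nat_lit 5) (nat_lit 346) (nat_lit 303) (nat_lit 251)))) (XT.nd (nat_lit 78) (nat_lit 304) (nat_lit 0) (XT.lf (nat_lit 0) (nat_lit 8523806156) (nat_lit 228) (nat_lit 964106051) (nat_lit 76) (nat_lit 7890803322) (nat_lit 44) (nat_lit 5) (nat_lit 47) (nat_lit 5) (nat_lit 45) (nat_lit 5) (nat_lit 347) (nat_lit 303) (nat_lit 250)) (XT.nd (nat_lit 78) (nat_lit 152) (nat_lit 0) (XT.lf (nat_lit 0) (nat_lit 9169995588) (nat_lit 152) (nat_lit 3959423653) (nat_lit 228)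 (nat_lit 4815822902) (nat_lit 42) (nat_lit 5) (nat_lit 44) (nat_lit 5) (nat_lit 45) (nat_lit 5) (nat_lit 348) (nat_lit 303) (nat_lit 249)) (XT.lf (nat_lit 0) (nat_lit 1252535540) (nat_lit 152) (nat_lit 16740248709) (nat_lit 228) (nat_lit 545951786) (nat_lit 40) (nat_lit 5) (nat_lit 42) (nat_lit 5) (nat_lit 43) (nat_lit 4) (nat_lit 349) (nat_lit 303) (nat_lit 248))))) (XT.nd (nat_lit 234) (nat_lit 304) (nat_lit 0) (XT.nd (nat_lit 78) (nat_lit 152) (nat_lit 0) (XT.lf (nat_lit 0) (nat_lit 3990051863) (nat_lit 228) (nat_lit 7260619775) (nat_lit 76) (nat_lit 7899239400) (nat_lit 39) (nat_lit 5) (nat_lit 42) (nat_lit 5) (nat_lit 40) (nat_lit 5) (nat_lit 350) (nat_lit 303) (nat_lit 247)) (XT.nd (nat_lit 78) (nat_lit 0) (nat_lit 0) (XT.lf (nat_lit 0) (nat_lit 3302327550) (nat_lit 152) (nat_lit 5448218096) (nat_lit 228) (nat_lit 11039862303) (nat_lit 37) (nat_lit 5) (nat_lit 39) (nat_lit 5) (nat_lit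 40) (nat_lit 5) (nat_lit 351) (nat_lit 303) (nat_lit 246)) (XT.lf (nat_lit 0) (nat_lit 13848951844) (nat_lit 228) (nat_lit 5884403168) (nat_lit 76) (nat_lit 724592244) (nat_lit 37) (nat_lit 5) (nat_lit 40) (nat_lit 5) (nat_lit 38) (nat_lit 4) (nat_lit 352) (nat_lit 303) (nat_lit 245)))) (XT.nd (nat_lit 156) (nat_lit 152) (nat_lit 0) (XT.nd (nat_lit 78) (nat_lit 76) (nat_lit 0) (XT.lf (nat_lit 0) (nat_lit 5270704893) (nat_lit 76) (nat_lit 14069702419) (nat_lit 152) (nat_lit 1811561137) (nat_lit 36) (nat_lit 5) (nat_lit 37) (nat_lit 5) (nat_lit 38) (nat_lit 4) (nat_lit 353) (nat_lit 303) (nat_lit 244)) (XT.lf (nat_lit 0) (nat_lit 3190466566) (nat_lit 152) (nat_lit 4798150945) (nat_lit 76) (nat_lit 13886167071) (nat_lit 35) (nat_lit 5) (nat_lit 37) (nat_lit 5) (nat_lit 36) (nat_lit 5) (nat_lit 354) (nat_lit 303) (nat_lit 243))) (XT.nd (nat_lit 78) (nat_lit 0) (nat_lit 0) (XT.lf (nat_lit 0)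 (nat_lit 6977202242) (nat_lit 152) (nat_lit 1481710369) (nat_lit 228) (nat_lit 14169493982) (nat_lit 33) (nat_lit 5) (nat_lit 35) (nat_lit 5) (nat_lit 36) (nat_lit 5) (nat_lit 355) (nat_lit 303) (nat_lit 242)) (XT.lf (nat_lit 0) (nat_lit 14125463086) (nat_lit 228) (nat_lit 4048442938) (nat_lit 76) (nat_lit 5239078924) (nat_lit 33) (nat_lit 5) (nat_lit 36) (nat_lit 5) (nat_lit 34) (nat_lit 4) (nat_lit 356) (nat_lit 303) (nat_lit 241))))))))
noncomputable def xc110 : XT := (XT.nd (nat_lit 1872) (nat_lit 684) (nat_lit 0) (XT.nd (nat_lit 936) (nat_lit 532) (nat_lit 0) (XT.nd (nat_lit 468) (nat_lit 456) (nat_lit 0) (XT.nd (nat_lit 234) (nat_lit 76) (nat_lit 0) (XT.nd (nat_lit 78) (nat_lit 228) (nat_lit 0) (XT.lf (nat_lit 0) (nat_lit 8323394266) (nat_lit 76) (nat_lit 11876240139) (nat_lit 152) (nat_lit 4030952059) (nat_lit 32) (nat_lit 5) (nat_lit 33) (nat_lit 5) (nat_lit 34) (nat_lit 4) (nat_lit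 357) (nat_lit 303) (nat_lit 240)) (XT.nd (nat_lit 78) (nat_lit 152) (nat_lit 0) (XT.lf (nat_lit 0) (nat_lit 1480664602) (nat_lit 152) (nat_lit 3708935860) (nat_lit 76) (nat_lit 19896320835) (nat_lit 31) (nat_lit 5) (nat_lit 33) (nat_lit 5) (nat_lit 32) (nat_lit 5) (nat_lit 358) (nat_lit 303) (nat_lit 239)) (XT.lf (nat_lit 0) (nat_lit 7280566848) (nat_lit 228) (nat_lit 16727225590) (nat_lit 76) (nat_lit 1965525510) (nat_lit 29) (nat_lit 5) (nat_lit 32) (nat_lit 5) (nat_lit 30) (nat_lit 4) (nat_lit 359) (nat_lit 303) (nat_lit 238)))) (XT.nd (nat_lit 78) (nat_lit 76) (nat_lit 0) (XT.lf (nat_lit 0) (nat_lit 13491201560) (nat_lit 228) (nat_lit 4061416687) (nat_lit 76) (nat_lit 9346436645) (nat_lit 29) (nat_lit 5) (nat_lit 32) (nat_lit 5) (nat_lit 30) (nat_lit 4) (nat_lit 360) (nat_lit 303) (nat_lit 237)) (XT.nd (nat_lit 78) (nat_lit 0) (nat_lit 0) (XT.lf (nat_lit 0) (nat_lit 9492939219) (nat_lit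 76) (nat_lit 10640801693) (nat_lit 152) (nat_lit 7731276105) (nat_lit 28) (nat_lit 5) (nat_lit 29) (nat_lit 5) (nat_lit 30) (nat_lit 4) (nat_lit 361) (nat_lit 303) (nat_lit 236)) (XT.lf (nat_lit 0) (nat_lit 23818222854) (nat_lit 76) (nat_lit 3332659793) (nat_lit 152) (nat_lit 1726277478) (nat_lit 28) (nat_lit 5) (nat_lit 29) (nat_lit 5) (nat_lit 30) (nat_lit 4) (nat_lit 362) (nat_lit 303) (nat_lit 235))))) (XT.nd (nat_lit 234) (nat_lit 152) (nat_lit 0) (XT.nd (nat_lit 78) (nat_lit 76) (nat_lit 0) (XT.lf (nat_lit 0) (nat_lit 4619858959) (nat_lit 228) (nat_lit 20908425481) (nat_lit 76) (nat_lit 4398685271) (nat_lit 25) (nat_lit 5) (nat_lit 28) (nat_lit 5) (nat_lit 26) (nat_lit 4) (nat_lit 363) (nat_lit 303) (nat_lit 234)) (XT.nd (nat_lit 78) (nat_lit 76) (nat_lit 0) (XT.lf (nat_lit 0) (nat_lit 11341709321) (nat_lit 228) (nat_lit 7180338897) (nat_lit 76) (nat_lit 12499991251) (nat_lit 25)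 (nat_lit 5) (nat_lit 28) (nat_lit 5) (nat_lit 26) (nat_lit 4) (nat_lit 364) (nat_lit 303) (nat_lit 233)) (XT.lf (nat_lit 0) (nat_lit 7427546884) (nat_lit 76) (nat_lit 11063982056) (nat_lit 152) (nat_lit 13675745406) (nat_lit 24) (nat_lit 5) (nat_lit 25) (nat_lit 5) (nat_lit 26) (nat_lit 4) (nat_lit 365) (nat_lit 303) (nat_lit 232)))) (XT.nd (nat_lit 78) (nat_lit 152) (nat_lit 0) (XT.lf (nat_lit 0) (nat_lit 22971494138) (nat_lit 76) (nat_lit 3125325884) (nat_lit 152) (nat_lit 7268057130) (nat_lit 24) (nat_lit 5) (nat_lit 25) (nat_lit 5) (nat_lit 26) (nat_lit 4) (nat_lit 366) (nat_lit 303) (nat_lit 231)) (XT.nd (nat_lit 78) (nat_lit 76) (nat_lit 0) (XT.lf (nat_lit 0) (nat_lit 4696888186) (nat_lit 76) (nat_lit 29517371369) (nat_lit 76) (nat_lit 401511307) (nat_lit 23) (nat_lit 4) (nat_lit 24) (nat_lit 5) (nat_lit 24) (nat_lit 4) (nat_lit 367) (nat_lit 303) (nat_lit 230)) (XT.lf (nat_lit 0)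 (nat_lit 6797857980) (nat_lit 152) (nat_lit 15220764721) (nat_lit 76) (nat_lit 13894905862) (nat_lit 22) (nat_lit 5) (nat_lit 24) (nat_lit 5) (nat_lit 23) (nat_lit 4) (nat_lit 368) (nat_lit 303) (nat_lit 229)))))) (XT.nd (nat_lit 468) (nat_lit 228) (nat_lit 0) (XT.nd (nat_lit 234) (nat_lit 228) (nat_lit 0) (XT.nd (nat_lit 78) (nat_lit 0) (nat_lit 0) (XT.lf (nat_lit 0) (nat_lit 170716139) (nat_lit 76) (nat_lit 14154002897) (nat_lit 152) (nat_lit 22952079454) (nat_lit 21) (nat_lit 5) (nat_lit 22) (nat_lit 5) (nat_lit 23) (nat_lit 4) (nat_lit 369) (nat_lit 303) (nat_lit 228)) (XT.nd (nat_lit 78) (nat_lit 0) (nat_lit 0) (XT.lf (nat_lit 0) (nat_lit 16820428814) (nat_lit 76) (nat_lit 5644026628) (nat_lit 152) (nat_lit 16231953938) (nat_lit 21) (nat_lit 5) (nat_lit 22) (nat_lit 5) (nat_lit 23) (nat_lit 4) (nat_lit 370) (nat_lit 303) (nat_lit 227)) (XT.lf (nat_lit 0) (nat_lit 31042064463) (nat_lit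 152) (nat_lit 5974380956) (nat_lit 0) (nat_lit 3169014991) (nat_lit 21) (nat_lit 5) (nat_lit 23) (nat_lit 4) (nat_lit 21) (nat_lit 4) (nat_lit 371) (nat_lit 303) (nat_lit 226)))) (XT.nd (nat_lit 78) (nat_lit 152) (nat_lit 0) (XT.lf (nat_lit 0) (nat_lit 10943246276) (nat_lit 76) (nat_lit 29349160817) (nat_lit 76) (nat_lit 1444367942) (nat_lit 20) (nat_lit 4) (nat_lit 21) (nat_lit 5) (nat_lit 21) (nat_lit 4) (nat_lit 372) (nat_lit 303) (nat_lit 225)) (XT.nd (nat_lit 78) (nat_lit 76) (nat_lit 0) (XT.lf (nat_lit 0) (nat_lit 6510460855) (nat_lit 152) (nat_lit 14588579933) (nat_lit 76) (nat_lit 22257266892) (nat_lit 19) (nat_lit 5) (nat_lit 21) (nat_lit 5) (nat_lit 20) (nat_lit 4) (nat_lit 373) (nat_lit 303) (nat_lit 224)) (XT.lf (nat_lit 0) (nat_lit 2446150487) (nat_lit 76) (nat_lit 12387979940) (nat_lit 152) (nat_lit 30220523841) (nat_lit 18) (nat_lit 5) (nat_lit 19) (nat_lit 5) (nat_lit 20)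 (nat_lit 4) (nat_lit 374) (nat_lit 303) (nat_lit 223))))) (XT.nd (nat_lit 234) (nat_lit 152) (nat_lit 0) (XT.nd (nat_lit 78) (nat_lit 76) (nat_lit 0) (XT.lf (nat_lit 0) (nat_lit 20804586010) (nat_lit 76) (nat_lit 2998254987) (nat_lit 152) (nat_lit 23023637358) (nat_lit 18) (nat_lit 5) (nat_lit 19) (nat_lit 5) (nat_lit 20) (nat_lit 4) (nat_lit 375) (nat_lit 303) (nat_lit 222)) (XT.nd (nat_lit 78) (nat_lit 76) (nat_lit 0) (XT.lf (nat_lit 0) (nat_lit 33309523243) (nat_lit 152) (nat_lit 8746566978) (nat_lit 0) (nat_lit 6626329517) (nat_lit 18) (nat_lit 5) (nat_lit 20) (nat_lit 4) (nat_lit 18) (nat_lit 4) (nat_lit 376) (nat_lit 303) (nat_lit 221)) (XT.lf (nat_lit 0) (nat_lit 9619349445) (nat_lit 76) (nat_lit 33854781541) (nat_lit 76) (nat_lit 7147900398) (nat_lit 17) (nat_lit 4) (nat_lit 18) (nat_lit 5) (nat_lit 18) (nat_lit 4) (nat_lit 377) (nat_lit 303) (nat_lit 220)))) (XT.nd (nat_lit 78)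 (nat_lit 76) (nat_lit 0) (XT.lf (nat_lit 0) (nat_lit 1574554791) (nat_lit 152) (nat_lit 23501603263) (nat_lit 76) (nat_lit 27574613918) (nat_lit 16) (nat_lit 5) (nat_lit 18) (nat_lit 5) (nat_lit 17) (nat_lit 4) (nat_lit 378) (nat_lit 303) (nat_lit 219)) (XT.nd (nat_lit 78) (nat_lit 76) (nat_lit 0) (XT.lf (nat_lit 0) (nat_lit 10477002110) (nat_lit 152) (nat_lit 5273071444) (nat_lit 76) (nat_lit 39025815203) (nat_lit 16) (nat_lit 5) (nat_lit 18) (nat_lit 5) (nat_lit 17) (nat_lit 4) (nat_lit 379) (nat_lit 303) (nat_lit 218)) (XT.lf (nat_lit 0) (nat_lit 14295457455) (nat_lit 76) (nat_lit 5737150011) (nat_lit 152) (nat_lit 36964254403) (nat_lit 15) (nat_lit 5) (nat_lit 16) (nat_lit 5) (nat_lit 17) (nat_lit 4) (nat_lit 380) (nat_lit 303) (nat_lit 217))))))) (XT.nd (nat_lit 936) (nat_lit 304) (nat_lit 0) (XT.nd (nat_lit 468) (nat_lit 152) (nat_lit 0) (XT.nd (nat_lit 234) (nat_lit 152) (nat_lit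 0) (XT.nd (nat_lit 78) (nat_lit 76) (nat_lit 0) (XT.lf (nat_lit 0) (nat_lit 30216239822) (nat_lit 152) (nat_lit 24404013390) (nat_lit 0) (nat_lit 4701120253) (nat_lit 15) (nat_lit 5) (nat_lit 17) (nat_lit 4) (nat_lit 15) (nat_lit 4) (nat_lit 381) (nat_lit 303) (nat_lit 216)) (XT.nd (nat_lit 78) (nat_lit 76) (nat_lit 0) (XT.lf (nat_lit 0) (nat_lit 40988731577) (nat_lit 152) (nat_lit 5313461141) (nat_lit 0) (nat_lit 15455936093) (nat_lit 15) (nat_lit 5) (nat_lit 17) (nat_lit 4) (nat_lit 15) (nat_lit 4) (nat_lit 382) (nat_lit 303) (nat_lit 215)) (XT.lf (nat_lit 0) (nat_lit 15191501953) (nat_lit 76) (nat_lit 37331838498) (nat_lit 76) (nat_lit 11782208810) (nat_lit 14) (nat_lit 4) (nat_lit 15) (nat_lit 5) (nat_lit 15) (nat_lit 4) (nat_lit 383) (nat_lit 303) (nat_lit 214)))) (XT.nd (nat_lit 78) (nat_lit 152) (nat_lit 0) (XT.lf (nat_lit 0) (nat_lit 36880269707) (nat_lit 76) (nat_lit 27830953982)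 (nat_lit 76) (nat_lit 2265291718) (nat_lit 14) (nat_lit 4) (nat_lit 15) (nat_lit 5) (nat_lit 15) (nat_lit 4) (nat_lit 384) (nat_lit 303) (nat_lit 213)) (XT.nd (nat_lit 78) (nat_lit 76) (nat_lit 0) (XT.lf (nat_lit 0) (nat_lit 7467130281) (nat_lit 152) (nat_lit 10273314306) (nat_lit 76) (nat_lit 52035205277) (nat_lit 13) (nat_lit 5) (nat_lit 15) (nat_lit 5) (nat_lit 14) (nat_lit 4) (nat_lit 385) (nat_lit 303) (nat_lit 212)) (XT.lf (nat_lit 0) (nat_lit 10826217331) (nat_lit 76) (nat_lit 6940461075) (nat_lit 152) (nat_lit 54938375771) (nat_lit 12) (nat_lit 5) (nat_lit 13) (nat_lit 5) (nat_lit 14) (nat_lit 4) (nat_lit 386) (nat_lit 303) (nat_lit 211))))) (XT.nd (nat_lit 234) (nat_lit 152) (nat_lit 0) (XT.nd (nat_lit 78) (nat_lit 0) (nat_lit 0) (XT.lf (nat_lit 0) (nat_lit 28814380061) (nat_lit 152) (nat_lit 42530342690) (nat_lit 0) (nat_lit 4424548685) (nat_lit 12) (nat_lit 5) (nat_lit 14) (nat_lit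 4) (nat_lit 12) (nat_lit 4) (nat_lit 387) (nat_lit 303) (nat_lit 210)) (XT.nd (nat_lit 78) (nat_lit 0) (nat_lit 0) (XT.lf (nat_lit 0) (nat_lit 40516484395) (nat_lit 152) (nat_lit 22351024673) (nat_lit 0) (nat_lit 16114091077) (nat_lit 12) (nat_lit 5) (nat_lit 14) (nat_lit 4) (nat_lit 12) (nat_lit 4) (nat_lit 388) (nat_lit 303) (nat_lit 209)) (XT.lf (nat_lit 0) (nat_lit 52792493513) (nat_lit 152) (nat_lit 1184476751) (nat_lit 0) (nat_lit 28378136440) (nat_lit 12) (nat_lit 5) (nat_lit 14) (nat_lit 4) (nat_lit 12) (nat_lit 4) (nat_lit 389) (nat_lit 303) (nat_lit 208)))) (XT.nd (nat_lit 78) (nat_lit 76) (nat_lit 0) (XT.lf (nat_lit 0) (nat_lit 21714703747) (nat_lit 76) (nat_lit 44295959642) (nat_lit 76) (nat_lit 19870208517) (nat_lit 11) (nat_lit 4) (nat_lit 12) (nat_lit 5) (nat_lit 12) (nat_lit 4) (nat_lit 390) (nat_lit 303) (nat_lit 207)) (XT.nd (nat_lit 78) (nat_lit 76) (nat_lit 0) (XT.lf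 (nat_lit 0) (nat_lit 45779598567) (nat_lit 76) (nat_lit 34119725770) (nat_lit 76) (nat_lit 9683123166) (nat_lit 11) (nat_lit 4) (nat_lit 12) (nat_lit 5) (nat_lit 12) (nat_lit 4) (nat_lit 391) (nat_lit 303) (nat_lit 206)) (XT.lf (nat_lit 0) (nat_lit 970741053) (nat_lit 152) (nat_lit 22456918185) (nat_lit 76) (nat_lit 70041159902) (nat_lit 10) (nat_lit 5) (nat_lit 12) (nat_lit 5) (nat_lit 11) (nat_lit 4) (nat_lit 392) (nat_lit 303) (nat_lit 205)))))) (XT.nd (nat_lit 468) (nat_lit 152) (nat_lit 0) (XT.nd (nat_lit 234) (nat_lit 76) (nat_lit 0) (XT.nd (nat_lit 78) (nat_lit 76) (nat_lit 0) (XT.lf (nat_lit 0) (nat_lit 11822222104) (nat_lit 152) (nat_lit 221224640) (nat_lit 76) (nat_lit 85498609718) (nat_lit 10) (nat_lit 5) (nat_lit 12) (nat_lit 5) (nat_lit 11) (nat_lit 4) (nat_lit 393) (nat_lit 303) (nat_lit 204)) (XT.nd (nat_lit 78) (nat_lit 0) (nat_lit 0) (XT.lf (nat_lit 0) (nat_lit 23584361405)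 (nat_lit 152) (nat_lit 77932928597) (nat_lit 0) (nat_lit 283262481) (nat_lit 9) (nat_lit 5) (nat_lit 11) (nat_lit 4) (nat_lit 9) (nat_lit 4) (nat_lit 394) (nat_lit 303) (nat_lit 203)) (XT.lf (nat_lit 0) (nat_lit 36126678529) (nat_lit 152) (nat_lit 57318615035) (nat_lit 0) (nat_lit 12817077188) (nat_lit 9) (nat_lit 5) (nat_lit 11) (nat_lit 4) (nat_lit 9) (nat_lit 4) (nat_lit 395) (nat_lit 303) (nat_lit 202)))) (XT.nd (nat_lit 78) (nat_lit 76) (nat_lit 0) (XT.lf (nat_lit 0) (nat_lit 49287377547) (nat_lit 152) (nat_lit 35690661364) (nat_lit 0) (nat_lit 25969678666) (nat_lit 9) (nat_lit 5) (nat_lit 11) (nat_lit 4) (nat_lit 9) (nat_lit 4) (nat_lit 396) (nat_lit 303) (nat_lit 201)) (XT.nd (nat_lit 78) (nat_lit 76) (nat_lit 0) (XT.lf (nat_lit 0) (nat_lit 63097793458) (nat_lit 152) (nat_lit 12997572455) (nat_lit 0) (nat_lit 39772382633) (nat_lit 9) (nat_lit 5) (nat_lit 11) (nat_lit 4) (nat_lit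 9) (nat_lit 4) (nat_lit 397) (nat_lit 303) (nat_lit 200)) (XT.lf (nat_lit 0) (nat_lit 11172265110) (nat_lit 76) (nat_lit 66592973461) (nat_lit 76) (nat_lit 43260217929) (nat_lit 8) (nat_lit 4) (nat_lit 9) (nat_lit 5) (nat_lit 9) (nat_lit 4) (nat_lit 398) (nat_lit 303) (nat_lit 199))))) (XT.nd (nat_lit 234) (nat_lit 152) (nat_lit 0) (XT.nd (nat_lit 78) (nat_lit 0) (nat_lit 0) (XT.lf (nat_lit 0) (nat_lit 36986602684) (nat_lit 76) (nat_lit 56391790798) (nat_lit 76) (nat_lit 33052040306) (nat_lit 8) (nat_lit 4) (nat_lit 9) (nat_lit 5) (nat_lit 9) (nat_lit 4) (nat_lit 399) (nat_lit 303) (nat_lit 198)) (XT.nd (nat_lit 78) (nat_lit 0) (nat_lit 0) (XT.lf (nat_lit 0) (nat_lit 64077144530) (nat_lit 76) (nat_lit 45687649574) (nat_lit 76) (nat_lit 22341237216) (nat_lit 8) (nat_lit 4) (nat_lit 9) (nat_lit 5) (nat_lit 9) (nat_lit 4) (nat_lit 400) (nat_lit 303) (nat_lit 197)) (XT.lf (nat_lit 0) (nat_lit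 92508391939) (nat_lit 76) (nat_lit 34455063739) (nat_lit 76) (nat_lit 11102306746) (nat_lit 8) (nat_lit 4) (nat_lit 9) (nat_lit 5) (nat_lit 9) (nat_lit 4) (nat_lit 401) (nat_lit 303) (nat_lit 196)))) (XT.nd (nat_lit 156) (nat_lit 0) (nat_lit 0) (XT.nd (nat_lit 78) (nat_lit 76) (nat_lit 0) (XT.lf (nat_lit 0) (nat_lit 669377809) (nat_lit 152) (nat_lit 21986574993) (nat_lit 76) (nat_lit 121667324309) (nat_lit 7) (nat_lit 5) (nat_lit 9) (nat_lit 5) (nat_lit 8) (nat_lit 4) (nat_lit 402) (nat_lit 303) (nat_lit 195)) (XT.lf (nat_lit 0) (nat_lit 2652912645) (nat_lit 76) (nat_lit 10038534631) (nat_lit 152) (nat_lit 138191375095) (nat_lit 6) (nat_lit 5) (nat_lit 7) (nat_lit 5) (nat_lit 8) (nat_lit 4) (nat_lit 403) (nat_lit 303) (nat_lit 194))) (XT.nd (nat_lit 78) (nat_lit 0) (nat_lit 0) (XT.lf (nat_lit 0) (nat_lit 25736700492) (nat_lit 152) (nat_lit 128533016703) (nat_lit 0) (nat_lit 3479524295)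 (nat_lit 6) (nat_lit 5) (nat_lit 8) (nat_lit 4) (nat_lit 6) (nat_lit 4) (nat_lit 404) (nat_lit 303) (nat_lit 193)) (XT.lf (nat_lit 0) (nat_lit 39592601150) (nat_lit 152) (nat_lit 108028007989) (nat_lit 0) (nat_lit 17330453766) (nat_lit 6) (nat_lit 5) (nat_lit 8) (nat_lit 4) (nat_lit 6) (nat_lit 4) (nat_lit 405) (nat_lit 303) (nat_lit 192))))))))
noncomputable def xc111 : XT := (XT.nd (nat_lit 1950) (nat_lit 76) (nat_lit 0) (XT.nd (nat_lit 936) (nat_lit 152) (nat_lit 0) (XT.nd (nat_lit 468) (nat_lit 0) (nat_lit 0) (XT.nd (nat_lit 234) (nat_lit 76) (nat_lit 0) (XT.nd (nat_lit 78) (nat_lit 0) (nat_lit 0) (XT.lf (nat_lit 0) (nat_lit 54135409832) (nat_lit 152) (nat_lit 86509332476) (nat_lit 0) (nat_lit 31868527984) (nat_lit 6) (nat_lit 5) (nat_lit 8) (nat_lit 4) (nat_lit 6) (nat_lit 4) (nat_lit 406) (nat_lit 303) (nat_lit 191)) (XT.nd (nat_lit 78) (nat_lit 0) (nat_lit 0) (XT.lf (nat_lit 0) (nat_lit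 69399752273) (nat_lit 152) (nat_lit 63925755224) (nat_lit 0) (nat_lit 47128361412) (nat_lit 6) (nat_lit 5) (nat_lit 8) (nat_lit 4) (nat_lit 6) (nat_lit 4) (nat_lit 407) (nat_lit 303) (nat_lit 190)) (XT.lf (nat_lit 0) (nat_lit 85421972146) (nat_lit 152) (nat_lit 40223505810) (nat_lit 0) (nat_lit 63146286986) (nat_lit 6) (nat_lit 5) (nat_lit 8) (nat_lit 4) (nat_lit 6) (nat_lit 4) (nat_lit 408) (nat_lit 303) (nat_lit 189)))) (XT.nd (nat_lit 78) (nat_lit 76) (nat_lit 0) (XT.lf (nat_lit 0) (nat_lit 102240217593) (nat_lit 152) (nat_lit 15346150307) (nat_lit 0) (nat_lit 79960442625) (nat_lit 6) (nat_lit 5) (nat_lit 8) (nat_lit 4) (nat_lit 6) (nat_lit 4) (nat_lit 409) (nat_lit 303) (nat_lit 188)) (XT.nd (nat_lit 78) (nat_lit 0) (nat_lit 0) (XT.lf (nat_lit 0) (nat_lit 11121500556) (nat_lit 76) (nat_lit 108946669290) (nat_lit 76) (nat_lit 86662999267) (nat_lit 5) (nat_lit 4) (nat_lit 6) (nat_lit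 5) (nat_lit 6) (nat_lit 4) (nat_lit 410) (nat_lit 303) (nat_lit 187)) (XT.lf (nat_lit 0) (nat_lit 39435941470) (nat_lit 76) (nat_lit 99606713711) (nat_lit 76) (nat_lit 77319334111) (nat_lit 5) (nat_lit 4) (nat_lit 6) (nat_lit 5) (nat_lit 6) (nat_lit 4) (nat_lit 411) (nat_lit 303) (nat_lit 186))))) (XT.nd (nat_lit 234) (nat_lit 0) (nat_lit 0) (XT.nd (nat_lit 78) (nat_lit 0) (nat_lit 0) (XT.lf (nat_lit 0) (nat_lit 69157174734) (nat_lit 76) (nat_lit 89804157652) (nat_lit 76) (nat_lit 67513245123) (nat_lit 5) (nat_lit 4) (nat_lit 6) (nat_lit 5) (nat_lit 6) (nat_lit 4) (nat_lit 412) (nat_lit 303) (nat_lit 185)) (XT.nd (nat_lit 78) (nat_lit 0) (nat_lit 0) (XT.lf (nat_lit 0) (nat_lit 100355965191) (nat_lit 76) (nat_lit 79515661696) (nat_lit 76) (nat_lit 57221384471) (nat_lit 5) (nat_lit 4) (nat_lit 6) (nat_lit 5) (nat_lit 6) (nat_lit 4) (nat_lit 413) (nat_lit 303) (nat_lit 184)) (XT.lf (nat_lit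 0) (nat_lit 133106595675) (nat_lit 76) (nat_lit 68716729424) (nat_lit 76) (nat_lit 46419247727) (nat_lit 5) (nat_lit 4) (nat_lit 6) (nat_lit 5) (nat_lit 6) (nat_lit 4) (nat_lit 414) (nat_lit 303) (nat_lit 183)))) (XT.nd (nat_lit 78) (nat_lit 0) (nat_lit 0) (XT.lf (nat_lit 0) (nat_lit 167487043876) (nat_lit 76) (nat_lit 57381649091) (nat_lit 76) (nat_lit 35081115516) (nat_lit 5) (nat_lit 4) (nat_lit 6) (nat_lit 5) (nat_lit 6) (nat_lit 4) (nat_lit 415) (nat_lit 303) (nat_lit 182)) (XT.nd (nat_lit 78) (nat_lit 0) (nat_lit 0) (XT.lf (nat_lit 0) (nat_lit 203579168006) (nat_lit 76) (nat_lit 45483432411) (nat_lit 76) (nat_lit 23179992287) (nat_lit 5) (nat_lit 4) (nat_lit 6) (nat_lit 5) (nat_lit 6) (nat_lit 4) (nat_lit 416) (nat_lit 303) (nat_lit 181)) (XT.lf (nat_lit 0) (nat_lit 241468901693) (nat_lit 76) (nat_lit 32993750298) (nat_lit 76) (nat_lit 10687542030) (nat_lit 5) (nat_lit 4) (nat_lit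 6) (nat_lit 5) (nat_lit 6) (nat_lit 4) (nat_lit 417) (nat_lit 303) (nat_lit 180)))))) (XT.nd (nat_lit 468) (nat_lit 0) (nat_lit 0) (XT.nd (nat_lit 234) (nat_lit 0) (nat_lit 0) (XT.nd (nat_lit 78) (nat_lit 76) (nat_lit 0) (XT.lf (nat_lit 0) (nat_lit 2348332697) (nat_lit 152) (nat_lit 17494762564) (nat_lit 76) (nat_lit 278858355741) (nat_lit 4) (nat_lit 5) (nat_lit 6) (nat_lit 5) (nat_lit 5) (nat_lit 4) (nat_lit 418) (nat_lit 303) (nat_lit 179)) (XT.nd (nat_lit 78) (nat_lit 0) (nat_lit 0) (XT.lf (nat_lit 0) (nat_lit 10144108189) (nat_lit 76) (nat_lit 5687825259) (nat_lit 152) (nat_lit 297081822192) (nat_lit 3) (nat_lit 5) (nat_lit 4) (nat_lit 5) (nat_lit 5) (nat_lit 4) (nat_lit 419) (nat_lit 303) (nat_lit 178)) (XT.lf (nat_lit 0) (nat_lit 30430837977) (nat_lit 152) (nat_lit 288204130883) (nat_lit 0) (nat_lit 9179650731) (nat_lit 3) (nat_lit 5) (nat_lit 5) (nat_lit 4) (nat_lit 3) (nat_lit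 4) (nat_lit 420) (nat_lit 303) (nat_lit 177)))) (XT.nd (nat_lit 78) (nat_lit 0) (nat_lit 0) (XT.lf (nat_lit 0) (nat_lit 45849819976) (nat_lit 152) (nat_lit 273009736584) (nat_lit 0) (nat_lit 24596463818) (nat_lit 3) (nat_lit 5) (nat_lit 5) (nat_lit 4) (nat_lit 3) (nat_lit 4) (nat_lit 421) (nat_lit 303) (nat_lit 176)) (XT.nd (nat_lit 78) (nat_lit 0) (nat_lit 0) (XT.lf (nat_lit 0) (nat_lit 62036788417) (nat_lit 152) (nat_lit 257061484534) (nat_lit 0) (nat_lit 40781366628) (nat_lit 3) (nat_lit 5) (nat_lit 5) (nat_lit 4) (nat_lit 3) (nat_lit 4) (nat_lit 422) (nat_lit 303) (nat_lit 175)) (XT.lf (nat_lit 0) (nat_lit 79030283700) (nat_lit 152) (nat_lit 240321402704) (nat_lit 0) (nat_lit 57772894644) (nat_lit 3) (nat_lit 5) (nat_lit 5) (nat_lit 4) (nat_lit 3) (nat_lit 4) (nat_lit 423) (nat_lit 303) (nat_lit 174))))) (XT.nd (nat_lit 234) (nat_lit 0) (nat_lit 0) (XT.nd (nat_lit 78) (nat_lit 0) (nat_lit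 0) (XT.lf (nat_lit 0) (nat_lit 96870766529) (nat_lit 152) (nat_lit 222749633758) (nat_lit 0) (nat_lit 75611503884) (nat_lit 3) (nat_lit 5) (nat_lit 5) (nat_lit 4) (nat_lit 3) (nat_lit 4) (nat_lit 424) (nat_lit 303) (nat_lit 173)) (XT.nd (nat_lit 78) (nat_lit 0) (nat_lit 0) (XT.lf (nat_lit 0) (nat_lit 115600714242) (nat_lit 152) (nat_lit 204304340149) (nat_lit 0) (nat_lit 94339667228) (nat_lit 3) (nat_lit 5) (nat_lit 5) (nat_lit 4) (nat_lit 3) (nat_lit 4) (nat_lit 425) (nat_lit 303) (nat_lit 172)) (XT.lf (nat_lit 0) (nat_lit 135264721955) (nat_lit 152) (nat_lit 184941604512) (nat_lit 0) (nat_lit 114001975541) (nat_lit 3) (nat_lit 5) (nat_lit 5) (nat_lit 4) (nat_lit 3) (nat_lit 4) (nat_lit 426) (nat_lit 303) (nat_lit 171)))) (XT.nd (nat_lit 156) (nat_lit 0) (nat_lit 0) (XT.nd (nat_lit 78) (nat_lit 0) (nat_lit 0) (XT.lf (nat_lit 0) (nat_lit 155909608733) (nat_lit 152) (nat_lit 164615325095)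 (nat_lit 0) (nat_lit 134645243843) (nat_lit 3) (nat_lit 5) (nat_lit 5) (nat_lit 4) (nat_lit 3) (nat_lit 4) (nat_lit 427) (nat_lit 303) (nat_lit 170)) (XT.lf (nat_lit 0) (nat_lit 177584529068) (nat_lit 152) (nat_lit 143277105995) (nat_lit 0) (nat_lit 156318622773) (nat_lit 3) (nat_lit 5) (nat_lit 5) (nat_lit 4) (nat_lit 3) (nat_lit 4) (nat_lit 428) (nat_lit 303) (nat_lit 169))) (XT.nd (nat_lit 78) (nat_lit 0) (nat_lit 0) (XT.lf (nat_lit 0) (nat_lit 200341089914) (nat_lit 152) (nat_lit 120876141929) (nat_lit 0) (nat_lit 179073715613) (nat_lit 3) (nat_lit 5) (nat_lit 5) (nat_lit 4) (nat_lit 3) (nat_lit 4) (nat_lit 429) (nat_lit 303) (nat_lit 168)) (XT.lf (nat_lit 0) (nat_lit 224233473558) (nat_lit 152) (nat_lit 97359097268) (nat_lit 0) (nat_lit 202964701157) (nat_lit 3) (nat_lit 5) (nat_lit 5) (nat_lit 4) (nat_lit 3) (nat_lit 4) (nat_lit 430) (nat_lit 303) (nat_lit 167))))))) (XT.nd (nat_lit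 37284) (nat_lit 0) (nat_lit 7676) (XT.nd (nat_lit 468) (nat_lit 0) (nat_lit 0) (XT.nd (nat_lit 234) (nat_lit 76) (nat_lit 0) (XT.nd (nat_lit 78) (nat_lit 0) (nat_lit 0) (XT.lf (nat_lit 0) (nat_lit 249318566628) (nat_lit 152) (nat_lit 72669979048) (nat_lit 0) (nat_lit 228048462702) (nat_lit 3) (nat_lit 5) (nat_lit 5) (nat_lit 4) (nat_lit 3) (nat_lit 4) (nat_lit 431) (nat_lit 303) (nat_lit 166)) (XT.nd (nat_lit 78) (nat_lit 0) (nat_lit 0) (XT.lf (nat_lit 0) (nat_lit 275656095536) (nat_lit 152) (nat_lit 46750003654) (nat_lit 0) (nat_lit 254384723492) (nat_lit 3) (nat_lit 5) (nat_lit 5) (nat_lit 4) (nat_lit 3) (nat_lit 4) (nat_lit 432) (nat_lit 303) (nat_lit 165)) (XT.lf (nat_lit 0) (nat_lit 303308768684) (nat_lit 152) (nat_lit 19537456860) (nat_lit 0) (nat_lit 282036188908) (nat_lit 3) (nat_lit 5) (nat_lit 5) (nat_lit 4) (nat_lit 3) (nat_lit 4) (nat_lit 433) (nat_lit 303) (nat_lit 164))))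 (XT.nd (nat_lit 78) (nat_lit 0) (nat_lit 0) (XT.lf (nat_lit 0) (nat_lit 9331106804) (nat_lit 76) (nat_lit 323157003693) (nat_lit 76) (nat_lit 301883273697) (nat_lit 2) (nat_lit 4) (nat_lit 3) (nat_lit 5) (nat_lit 3) (nat_lit 4) (nat_lit 434) (nat_lit 303) (nat_lit 163)) (XT.nd (nat_lit 78) (nat_lit 0) (nat_lit 0) (XT.lf (nat_lit 0) (nat_lit 40318183524) (nat_lit 76) (nat_lit 323137490861) (nat_lit 76) (nat_lit 301862665417) (nat_lit 2) (nat_lit 4) (nat_lit 3) (nat_lit 5) (nat_lit 3) (nat_lit 4) (nat_lit 435) (nat_lit 303) (nat_lit 162)) (XT.lf (nat_lit 0) (nat_lit 72851555496) (nat_lit 76) (nat_lit 323118516874) (nat_lit 76) (nat_lit 301842648146) (nat_lit 2) (nat_lit 4) (nat_lit 3) (nat_lit 5) (nat_lit 3) (nat_lit 4) (nat_lit 436) (nat_lit 303) (nat_lit 161))))) (XT.nd (nat_lit 36582) (nat_lit 0) (nat_lit 11172) (XT.nd (nat_lit 78) (nat_lit 0) (nat_lit 0) (XT.lf (nat_lit 0) (nat_lit 107008683130)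 (nat_lit 76) (nat_lit 323100036557) (nat_lit 76) (nat_lit 301823174225) (nat_lit 2) (nat_lit 4) (nat_lit 3) (nat_lit 5) (nat_lit 3) (nat_lit 4) (nat_lit 437) (nat_lit 303) (nat_lit 160)) (XT.nd (nat_lit 36426) (nat_lit 0) (nat_lit 11552) (XT.lf (nat_lit 0) (nat_lit 142870892919) (nat_lit 76) (nat_lit 323082005908) (nat_lit 76) (nat_lit 301804197287) (nat_lit 2) (nat_lit 4) (nat_lit 3) (nat_lit 5) (nat_lit 3) (nat_lit 4) (nat_lit 438) (nat_lit 303) (nat_lit 159)) (XT.lf (nat_lit 0) (nat_lit 1038466018) (nat_lit 380) (nat_lit 1137704746) (nat_lit 380) (nat_lit 1137704746) (nat_lit 154) (nat_lit 3) (nat_lit 159) (nat_lit 3) (nat_lit 159) (nat_lit 5) (nat_lit 304) (nat_lit 304) (nat_lit 292)))) (XT.nd (nat_lit 78) (nat_lit 380) (nat_lit 0) (XT.lf (nat_lit 76) (nat_lit 954310729) (nat_lit 0) (nat_lit 3413079054) (nat_lit 380) (nat_lit 2311119364) (nat_lit 155) (nat_lit 5) (nat_lit 154) (nat_lit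 3) (nat_lit 159) (nat_lit 5) (nat_lit 305) (nat_lit 304) (nat_lit 291)) (XT.nd (nat_lit 78) (nat_lit 380) (nat_lit 0) (XT.lf (nat_lit 76) (nat_lit 4347214969) (nat_lit 0) (nat_lit 2320143341) (nat_lit 380) (nat_lit 69890081) (nat_lit 155) (nat_lit 5) (nat_lit 154) (nat_lit 3) (nat_lit 159) (nat_lit 5) (nat_lit 306) (nat_lit 304) (nat_lit 290)) (XT.lf (nat_lit 76) (nat_lit 1029754981) (nat_lit 0) (nat_lit 1057509539) (nat_lit 456) (nat_lit 4716204919) (nat_lit 150) (nat_lit 5) (nat_lit 149) (nat_lit 5) (nat_lit 155) (nat_lit 5) (nat_lit 307) (nat_lit 304) (nat_lit 289)))))) (XT.nd (nat_lit 468) (nat_lit 2660) (nat_lit 0) (XT.nd (nat_lit 234) (nat_lit 456) (nat_lit 0) (XT.nd (nat_lit 78) (nat_lit 456) (nat_lit 0) (XT.lf (nat_lit 0) (nat_lit 4262430254) (nat_lit 380) (nat_lit 2258329841) (nat_lit 456) (nat_lit 356725431) (nat_lit 150) (nat_lit 5) (nat_lit 155) (nat_lit 5) (nat_lit 156) (nat_lit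 5) (nat_lit 308) (nat_lit 304) (nat_lit 288)) (XT.nd (nat_lit 78) (nat_lit 456) (nat_lit 0) (XT.lf (nat_lit 76) (nat_lit 1378795001) (nat_lit 0) (nat_lit 5079921415) (nat_lit 456) (nat_lit 501026355) (nat_lit 151) (nat_lit 5) (nat_lit 150) (nat_lit 5) (nat_lit 156) (nat_lit 5) (nat_lit 309) (nat_lit 304) (nat_lit 287)) (XT.lf (nat_lit 0) (nat_lit 1578707569) (nat_lit 456) (nat_lit 1879239493) (nat_lit 532) (nat_lit 3591217214) (nat_lit 144) (nat_lit 5) (nat_lit 150) (nat_lit 5) (nat_lit 151) (nat_lit 5) (nat_lit 310) (nat_lit 304) (nat_lit 286)))) (XT.nd (nat_lit 78) (nat_lit 456) (nat_lit 0) (XT.lf (nat_lit 76) (nat_lit 1983040482) (nat_lit 0) (nat_lit 1675548785) (nat_lit 532) (nat_lit 3488543852) (nat_lit 145) (nat_lit 5) (nat_lit 144) (nat_lit 5) (nat_lit 151) (nat_lit 5) (nat_lit 311) (nat_lit 304) (nat_lit 285)) (XT.nd (nat_lit 78) (nat_lit 532) (nat_lit 0) (XT.lf (nat_lit 0) (nat_lit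 5764849975) (nat_lit 456) (nat_lit 1233152983) (nat_lit 76) (nat_lit 256008565) (nat_lit 145) (nat_lit 5) (nat_lit 151) (nat_lit 5) (nat_lit 146) (nat_lit 5) (nat_lit 312) (nat_lit 304) (nat_lit 284)) (XT.lf (nat_lit 0) (nat_lit 554726460) (nat_lit 532) (nat_lit 4498881354) (nat_lit 76) (nat_lit 2314064617) (nat_lit 138) (nat_lit 5) (nat_lit 145) (nat_lit 5) (nat_lit 139) (nat_lit 5) (nat_lit 313) (nat_lit 304) (nat_lit 283))))) (XT.nd (nat_lit 234) (nat_lit 1520) (nat_lit 0) (XT.nd (nat_lit 78) (nat_lit 1140) (nat_lit 0) (XT.lf (nat_lit 0) (nat_lit 2566418608) (nat_lit 532) (nat_lit 375182361) (nat_lit 76) (nat_lit 4548524640) (nat_lit 138) (nat_lit 5) (nat_lit 145) (nat_lit 5) (nat_lit 139) (nat_lit 5) (nat_lit 314) (nat_lit 304) (nat_lit 282)) (XT.nd (nat_lit 78) (nat_lit 608) (nat_lit 0) (XT.lf (nat_lit 0) (nat_lit 4003702236) (nat_lit 532) (nat_lit 636958260) (nat_lit 608) (nat_lit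 2980049944) (nat_lit 131) (nat_lit 5) (nat_lit 138) (nat_lit 5) (nat_lit 139) (nat_lit 5) (nat_lit 315) (nat_lit 304) (nat_lit 281)) (XT.lf (nat_lit 0) (nat_lit 770659821) (nat_lit 608) (nat_lit 5997607702) (nat_lit 684) (nat_lit 992176482) (nat_lit 123) (nat_lit 5) (nat_lit 131) (nat_lit 5) (nat_lit 132) (nat_lit 5) (nat_lit 316) (nat_lit 304) (nat_lit 280)))) (XT.nd (nat_lit 156) (nat_lit 760) (nat_lit 0) (XT.nd (nat_lit 78) (nat_lit 684) (nat_lit 0) (XT.lf (nat_lit 0) (nat_lit 1037771656) (nat_lit 684) (nat_lit 2514367021) (nat_lit 76) (nat_lit 4355376810) (nat_lit 122) (nat_lit 5) (nat_lit 131) (nat_lit 5) (nat_lit 123) (nat_lit 5) (nat_lit 317) (nat_lit 304) (nat_lit 279)) (XT.lf (nat_lit 0) (nat_lit 2156621548) (nat_lit 684) (nat_lit 922474188) (nat_lit 760) (nat_lit 4984958677) (nat_lit 113) (nat_lit 5) (nat_lit 122) (nat_lit 5) (nat_lit 123) (nat_lit 5) (nat_lit 318) (nat_lit 304)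 (nat_lit 278))) (XT.nd (nat_lit 78) (nat_lit 760) (nat_lit 0) (XT.lf (nat_lit 0) (nat_lit 5207208394) (nat_lit 760) (nat_lit 1191471233) (nat_lit 76) (nat_lit 1830588574) (nat_lit 113) (nat_lit 5) (nat_lit 123) (nat_lit 5) (nat_lit 114) (nat_lit 5) (nat_lit 319) (nat_lit 304) (nat_lit 277)) (XT.lf (nat_lit 0) (nat_lit 3786128737) (nat_lit 760) (nat_lit 3646723447) (nat_lit 836) (nat_lit 970414252) (nat_lit 103) (nat_lit 5) (nat_lit 113) (nat_lit 5) (nat_lit 114) (nat_lit 5) (nat_lit 320) (nat_lit 304) (nat_lit 276))))))))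
noncomputable def xc112 : XT := (XT.nd (nat_lit 1872) (nat_lit 2052) (nat_lit 0) (XT.nd (nat_lit 936) (nat_lit 1672) (nat_lit 0) (XT.nd (nat_lit 468) (nat_lit 912) (nat_lit 0) (XT.nd (nat_lit 234) (nat_lit 760) (nat_lit 0) (XT.nd (nat_lit 78) (nat_lit 304) (nat_lit 0) (XT.lf (nat_lit 0) (nat_lit 380689619) (nat_lit 380) (nat_lit 709911805) (nat_lit 456) (nat_lit 7497277755) (nat_lit 97) (nat_lit 5) (nat_lit 102) (nat_lit 5) (nat_lit 103) (nat_lit 5) (nat_lit 321) (nat_lit 304) (nat_lit 275)) (XT.nd (nat_lit 78) (nat_lit 304) (nat_lit 0) (XT.lf (nat_lit 0) (nat_lit 3259436002) (nat_lit 456) (nat_lit 3127747391) (nat_lit 76) (nat_lit 2391943861) (nat_lit 97) (nat_lit 5) (nat_lit 103) (nat_lit 5) (nat_lit 98) (nat_lit 5) (nat_lit 322) (nat_lit 304) (nat_lit 274)) (XT.lf (nat_lit 0) (nat_lit 2183546225) (nat_lit 304) (nat_lit 3323508909) (nat_lit 380) (nat_lit 3474431300) (nat_lit 93) (nat_lit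 5) (nat_lit 97) (nat_lit 5) (nat_lit 98) (nat_lit 5) (nat_lit 323) (nat_lit 304) (nat_lit 273)))) (XT.nd (nat_lit 78) (nat_lit 760) (nat_lit 0) (XT.lf (nat_lit 0) (nat_lit 7789919260) (nat_lit 304) (nat_lit 57074799) (nat_lit 380) (nat_lit 1348035281) (nat_lit 93) (nat_lit 5) (nat_lit 97) (nat_lit 5) (nat_lit 98) (nat_lit 5) (nat_lit 324) (nat_lit 304) (nat_lit 272)) (XT.nd (nat_lit 78) (nat_lit 304) (nat_lit 0) (XT.lf (nat_lit 0) (nat_lit 906681211) (nat_lit 456) (nat_lit 5169083612) (nat_lit 76) (nat_lit 3340335030) (nat_lit 87) (nat_lit 5) (nat_lit 93) (nat_lit 5) (nat_lit 88) (nat_lit 5) (nat_lit 325) (nat_lit 304) (nat_lit 271)) (XT.lf (nat_lit 0) (nat_lit 496140823) (nat_lit 304) (nat_lit 2696859109) (nat_lit 380) (nat_lit 6455964721) (nat_lit 83) (nat_lit 5) (nat_lit 87) (nat_lit 5) (nat_lit 88) (nat_lit 5) (nat_lit 326) (nat_lit 304) (nat_lit 270))))) (XT.nd (nat_lit 234) (nat_lit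 532) (nat_lit 0) (XT.nd (nat_lit 78) (nat_lit 380) (nat_lit 0) (XT.lf (nat_lit 0) (nat_lit 5629058161) (nat_lit 380) (nat_lit 3361454517) (nat_lit 76) (nat_lit 901240427) (nat_lit 83) (nat_lit 5) (nat_lit 88) (nat_lit 5) (nat_lit 84) (nat_lit 5) (nat_lit 327) (nat_lit 304) (nat_lit 269)) (XT.nd (nat_lit 78) (nat_lit 76) (nat_lit 0) (XT.lf (nat_lit 0) (nat_lit 2683324360) (nat_lit 304) (nat_lit 5526043935) (nat_lit 380) (nat_lit 1936239367) (nat_lit 79) (nat_lit 5) (nat_lit 83) (nat_lit 5) (nat_lit 84) (nat_lit 5) (nat_lit 328) (nat_lit 304) (nat_lit 268)) (XT.lf (nat_lit 0) (nat_lit 485308585) (nat_lit 380) (nat_lit 1349805523) (nat_lit 76) (nat_lit 8576940879) (nat_lit 78) (nat_lit 5) (nat_lit 83) (nat_lit 5) (nat_lit 79) (nat_lit 5) (nat_lit 329) (nat_lit 304) (nat_lit 267)))) (XT.nd (nat_lit 78) (nat_lit 304) (nat_lit 0) (XT.lf (nat_lit 0) (nat_lit 3016457380) (nat_lit 304) (nat_lit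 5597070203) (nat_lit 76) (nat_lit 2074072770) (nat_lit 75) (nat_lit 5) (nat_lit 79) (nat_lit 5) (nat_lit 76) (nat_lit 5) (nat_lit 330) (nat_lit 304) (nat_lit 266)) (XT.nd (nat_lit 78) (nat_lit 0) (nat_lit 0) (XT.lf (nat_lit 0) (nat_lit 844072031) (nat_lit 304) (nat_lit 4838160670) (nat_lit 380) (nat_lit 5294327253) (nat_lit 71) (nat_lit 5) (nat_lit 75) (nat_lit 5) (nat_lit 76) (nat_lit 5) (nat_lit 331) (nat_lit 304) (nat_lit 265)) (XT.lf (nat_lit 0) (nat_lit 7726372314) (nat_lit 304) (nat_lit 792894043) (nat_lit 380) (nat_lit 2758841196) (nat_lit 71) (nat_lit 5) (nat_lit 75) (nat_lit 5) (nat_lit 76) (nat_lit 5) (nat_lit 332) (nat_lit 304) (nat_lit 264)))))) (XT.nd (nat_lit 468) (nat_lit 608) (nat_lit 0) (XT.nd (nat_lit 234) (nat_lit 532) (nat_lit 0) (XT.nd (nat_lit 78) (nat_lit 304) (nat_lit 0) (XT.lf (nat_lit 0) (nat_lit 3336813650) (nat_lit 228) (nat_lit 8212984221) (nat_lit 304) (nat_lit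 42389017) (nat_lit 68) (nat_lit 5) (nat_lit 71) (nat_lit 5) (nat_lit 72) (nat_lit 5) (nat_lit 333) (nat_lit 304) (nat_lit 263)) (XT.nd (nat_lit 78) (nat_lit 228) (nat_lit 0) (XT.lf (nat_lit 0) (nat_lit 2740249150) (nat_lit 304) (nat_lit 1358440883) (nat_lit 76) (nat_lit 7820105039) (nat_lit 67) (nat_lit 5) (nat_lit 71) (nat_lit 5) (nat_lit 68) (nat_lit 5) (nat_lit 334) (nat_lit 304) (nat_lit 262)) (XT.lf (nat_lit 0) (nat_lit 5707747362) (nat_lit 304) (nat_lit 6260667246) (nat_lit 76) (nat_lit 290958349) (nat_lit 64) (nat_lit 5) (nat_lit 68) (nat_lit 5) (nat_lit 65) (nat_lit 5) (nat_lit 335) (nat_lit 304) (nat_lit 261)))) (XT.nd (nat_lit 78) (nat_lit 304) (nat_lit 0) (XT.lf (nat_lit 0) (nat_lit 1048813317) (nat_lit 228) (nat_lit 7831517782) (nat_lit 304) (nat_lit 3733843271) (nat_lit 61) (nat_lit 5) (nat_lit 64) (nat_lit 5) (nat_lit 65) (nat_lit 5) (nat_lit 336) (nat_lit 304) (nat_lit 260))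 (XT.nd (nat_lit 78) (nat_lit 304) (nat_lit 0) (XT.lf (nat_lit 0) (nat_lit 8870060452) (nat_lit 228) (nat_lit 3398554886) (nat_lit 304) (nat_lit 715275676) (nat_lit 61) (nat_lit 5) (nat_lit 64) (nat_lit 5) (nat_lit 65) (nat_lit 5) (nat_lit 337) (nat_lit 304) (nat_lit 259)) (XT.lf (nat_lit 0) (nat_lit 2407212093) (nat_lit 304) (nat_lit 9668712396) (nat_lit 76) (nat_lit 1292702088) (nat_lit 57) (nat_lit 5) (nat_lit 61) (nat_lit 5) (nat_lit 58) (nat_lit 5) (nat_lit 338) (nat_lit 304) (nat_lit 258))))) (XT.nd (nat_lit 234) (nat_lit 228) (nat_lit 0) (XT.nd (nat_lit 78) (nat_lit 380) (nat_lit 0) (XT.lf (nat_lit 0) (nat_lit 5741747779) (nat_lit 304) (nat_lit 1860678008) (nat_lit 76) (nat_lit 6165613579) (nat_lit 57) (nat_lit 5) (nat_lit 61) (nat_lit 5) (nat_lit 58) (nat_lit 5) (nat_lit 339) (nat_lit 304) (nat_lit 257)) (XT.nd (nat_lit 78) (nat_lit 228) (nat_lit 0) (XT.lf (nat_lit 0) (nat_lit 6478294773)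 (nat_lit 152) (nat_lit 2821512793) (nat_lit 228) (nat_lit 4884798998) (nat_lit 55) (nat_lit 5) (nat_lit 57) (nat_lit 5) (nat_lit 58) (nat_lit 5) (nat_lit 340) (nat_lit 304) (nat_lit 256)) (XT.lf (nat_lit 0) (nat_lit 595025835) (nat_lit 228) (nat_lit 12472774161) (nat_lit 304) (nat_lit 1552623152) (nat_lit 52) (nat_lit 5) (nat_lit 55) (nat_lit 5) (nat_lit 56) (nat_lit 5) (nat_lit 341) (nat_lit 304) (nat_lit 255)))) (XT.nd (nat_lit 78) (nat_lit 152) (nat_lit 0) (XT.lf (nat_lit 0) (nat_lit 2019483981) (nat_lit 304) (nat_lit 5639236298) (nat_lit 76) (nat_lit 7411030854) (nat_lit 51) (nat_lit 5) (nat_lit 55) (nat_lit 5) (nat_lit 52) (nat_lit 5) (nat_lit 342) (nat_lit 304) (nat_lit 254)) (XT.nd (nat_lit 78) (nat_lit 0) (nat_lit 0) (XT.lf (nat_lit 0) (nat_lit 3177795440) (nat_lit 152) (nat_lit 2548606417) (nat_lit 228) (nat_lit 9813471279) (nat_lit 49) (nat_lit 5) (nat_lit 51) (nat_lit 5) (nat_lit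 52) (nat_lit 5) (nat_lit 343) (nat_lit 304) (nat_lit 253)) (XT.lf (nat_lit 0) (nat_lit 9719089758) (nat_lit 228) (nat_lit 3508129593) (nat_lit 76) (nat_lit 2801279199) (nat_lit 49) (nat_lit 5) (nat_lit 52) (nat_lit 5) (nat_lit 50) (nat_lit 5) (nat_lit 344) (nat_lit 304) (nat_lit 252))))))) (XT.nd (nat_lit 936) (nat_lit 836) (nat_lit 0) (XT.nd (nat_lit 468) (nat_lit 456) (nat_lit 0) (XT.nd (nat_lit 234) (nat_lit 380) (nat_lit 0) (XT.nd (nat_lit 78) (nat_lit 228) (nat_lit 0) (XT.lf (nat_lit 0) (nat_lit 5872485273) (nat_lit 152) (nat_lit 8133701583) (nat_lit 228) (nat_lit 2530647274) (nat_lit 47) (nat_lit 5) (nat_lit 49) (nat_lit 5) (nat_lit 50) (nat_lit 5) (nat_lit 345) (nat_lit 304) (nat_lit 251)) (XT.nd (nat_lit 78) (nat_lit 152) (nat_lit 0) (XT.lf (nat_lit 0) (nat_lit 1413002824) (nat_lit 228) (nat_lit 1309591158) (nat_lit 76) (nat_lit 14345789426) (nat_lit 46) (nat_lit 5) (nat_lit 49)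 (nat_lit 5) (nat_lit 47) (nat_lit 5) (nat_lit 346) (nat_lit 304) (nat_lit 250)) (XT.lf (nat_lit 0) (nat_lit 5616600834) (nat_lit 228) (nat_lit 8978204294) (nat_lit 76) (nat_lit 3022255367) (nat_lit 44) (nat_lit 5) (nat_lit 47) (nat_lit 5) (nat_lit 45) (nat_lit 5) (nat_lit 347) (nat_lit 304) (nat_lit 249)))) (XT.nd (nat_lit 78) (nat_lit 228) (nat_lit 0) (XT.lf (nat_lit 0) (nat_lit 860677781) (nat_lit 152) (nat_lit 9214176794) (nat_lit 228) (nat_lit 8116107577) (nat_lit 42) (nat_lit 5) (nat_lit 44) (nat_lit 5) (nat_lit 45) (nat_lit 5) (nat_lit 348) (nat_lit 304) (nat_lit 248)) (XT.nd (nat_lit 78) (nat_lit 228) (nat_lit 0) (XT.lf (nat_lit 0) (nat_lit 11444172245) (nat_lit 152) (nat_lit 3428561496) (nat_lit 228) (nat_lit 3915003335) (nat_lit 42) (nat_lit 5) (nat_lit 44) (nat_lit 5) (nat_lit 45) (nat_lit 5) (nat_lit 349) (nat_lit 304) (nat_lit 247)) (XT.lf (nat_lit 0) (nat_lit 537587887) (nat_lit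 228) (nat_lit 16275972360) (nat_lit 76) (nat_lit 2597550121) (nat_lit 39) (nat_lit 5) (nat_lit 42) (nat_lit 5) (nat_lit 40) (nat_lit 5) (nat_lit 350) (nat_lit 304) (nat_lit 246))))) (XT.nd (nat_lit 234) (nat_lit 304) (nat_lit 0) (XT.nd (nat_lit 78) (nat_lit 152) (nat_lit 0) (XT.lf (nat_lit 0) (nat_lit 5230020840) (nat_lit 228) (nat_lit 5846900164) (nat_lit 76) (nat_lit 8978095139) (nat_lit 39) (nat_lit 5) (nat_lit 42) (nat_lit 5) (nat_lit 40) (nat_lit 5) (nat_lit 351) (nat_lit 304) (nat_lit 245)) (XT.nd (nat_lit 78) (nat_lit 0) (nat_lit 0) (XT.lf (nat_lit 0) (nat_lit 5215537260) (nat_lit 152) (nat_lit 4990748669) (nat_lit 228) (nat_lit 10522382121) (nat_lit 37) (nat_lit 5) (nat_lit 39) (nat_lit 5) (nat_lit 40) (nat_lit 5) (nat_lit 352) (nat_lit 304) (nat_lit 244)) (XT.lf (nat_lit 0) (nat_lit 15521978940) (nat_lit 228) (nat_lit 4475806040) (nat_lit 76) (nat_lit 1433697668) (nat_lit 37) (nat_lit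 5) (nat_lit 40) (nat_lit 5) (nat_lit 38) (nat_lit 4) (nat_lit 353) (nat_lit 304) (nat_lit 243)))) (XT.nd (nat_lit 78) (nat_lit 228) (nat_lit 0) (XT.lf (nat_lit 0) (nat_lit 7209592630) (nat_lit 76) (nat_lit 14057877237) (nat_lit 152) (nat_lit 893777756) (nat_lit 36) (nat_lit 5) (nat_lit 37) (nat_lit 5) (nat_lit 38) (nat_lit 4) (nat_lit 354) (nat_lit 304) (nat_lit 242)) (XT.nd (nat_lit 78) (nat_lit 152) (nat_lit 0) (XT.lf (nat_lit 0) (nat_lit 4279597108) (nat_lit 152) (nat_lit 3411460023) (nat_lit 76) (nat_lit 15230698664) (nat_lit 35) (nat_lit 5) (nat_lit 37) (nat_lit 5) (nat_lit 36) (nat_lit 5) (nat_lit 355) (nat_lit 304) (nat_lit 241)) (XT.lf (nat_lit 0) (nat_lit 8926425364) (nat_lit 152) (nat_lit 865759232) (nat_lit 228) (nat_lit 13921852051) (nat_lit 33) (nat_lit 5) (nat_lit 35) (nat_lit 5) (nat_lit 36) (nat_lit 5) (nat_lit 356) (nat_lit 304) (nat_lit 240)))))) (XT.nd (nat_lit 468) (nat_lit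 456) (nat_lit 0) (XT.nd (nat_lit 234) (nat_lit 228) (nat_lit 0) (XT.nd (nat_lit 78) (nat_lit 152) (nat_lit 0) (XT.lf (nat_lit 0) (nat_lit 15708974108) (nat_lit 228) (nat_lit 2693360438) (nat_lit 76) (nat_lit 6137176844) (nat_lit 33) (nat_lit 5) (nat_lit 36) (nat_lit 5) (nat_lit 34) (nat_lit 4) (nat_lit 357) (nat_lit 304) (nat_lit 239)) (XT.nd (nat_lit 78) (nat_lit 76) (nat_lit 0) (XT.lf (nat_lit 0) (nat_lit 10271947583) (nat_lit 76) (nat_lit 11797057980) (nat_lit 152) (nat_lit 3329892264) (nat_lit 32) (nat_lit 5) (nat_lit 33) (nat_lit 5) (nat_lit 34) (nat_lit 4) (nat_lit 358) (nat_lit 304) (nat_lit 238)) (XT.lf (nat_lit 0) (nat_lit 2386810522) (nat_lit 152) (nat_lit 2407230908) (nat_lit 76) (nat_lit 21504344912) (nat_lit 31) (nat_lit 5) (nat_lit 33) (nat_lit 5) (nat_lit 32) (nat_lit 5) (nat_lit 359) (nat_lit 304) (nat_lit 237)))) (XT.nd (nat_lit 78) (nat_lit 76) (nat_lit 0) (XT.lf (nat_lit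 0) (nat_lit 8470042068) (nat_lit 228) (nat_lit 16069554661) (nat_lit 76) (nat_lit 2690900119) (nat_lit 29) (nat_lit 5) (nat_lit 32) (nat_lit 5) (nat_lit 30) (nat_lit 4) (nat_lit 360) (nat_lit 304) (nat_lit 236)) (XT.nd (nat_lit 78) (nat_lit 76) (nat_lit 0) (XT.lf (nat_lit 0) (nat_lit 14951901521) (nat_lit 228) (nat_lit 2841599704) (nat_lit 76) (nat_lit 10410994987) (nat_lit 29) (nat_lit 5) (nat_lit 32) (nat_lit 5) (nat_lit 30) (nat_lit 4) (nat_lit 361) (nat_lit 304) (nat_lit 235)) (XT.lf (nat_lit 0) (nat_lit 11367524194) (nat_lit 76) (nat_lit 10543465371) (nat_lit 152) (nat_lit 7308555527) (nat_lit 28) (nat_lit 5) (nat_lit 29) (nat_lit 5) (nat_lit 30) (nat_lit 4) (nat_lit 362) (nat_lit 304) (nat_lit 234))))) (XT.nd (nat_lit 234) (nat_lit 228) (nat_lit 0) (XT.nd (nat_lit 78) (nat_lit 228) (nat_lit 0) (XT.lf (nat_lit 0) (nat_lit 26342408296) (nat_lit 76) (nat_lit 2899886681) (nat_lit 152)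 (nat_lit 1041844320) (nat_lit 28) (nat_lit 5) (nat_lit 29) (nat_lit 5) (nat_lit 30) (nat_lit 4) (nat_lit 363) (nat_lit 304) (nat_lit 233)) (XT.nd (nat_lit 78) (nat_lit 0) (nat_lit 0) (XT.lf (nat_lit 0) (nat_lit 5591707382) (nat_lit 228) (nat_lit 20590336119) (nat_lit 76) (nat_lit 5204063736) (nat_lit 25) (nat_lit 5) (nat_lit 28) (nat_lit 5) (nat_lit 26) (nat_lit 4) (nat_lit 364) (nat_lit 304) (nat_lit 232)) (XT.lf (nat_lit 0) (nat_lit 12614371431) (nat_lit 228) (nat_lit 6240774283) (nat_lit 76) (nat_lit 13682556720) (nat_lit 25) (nat_lit 5) (nat_lit 28) (nat_lit 5) (nat_lit 26) (nat_lit 4) (nat_lit 365) (nat_lit 304) (nat_lit 231)))) (XT.nd (nat_lit 156) (nat_lit 152) (nat_lit 0) (XT.nd (nat_lit 78) (nat_lit 0) (nat_lit 0) (XT.lf (nat_lit 0) (nat_lit 9076560923) (nat_lit 76) (nat_lit 11031469709) (nat_lit 152) (nat_lit 13632858620) (nat_lit 24) (nat_lit 5) (nat_lit 25) (nat_lit 5) (nat_lit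 26) (nat_lit 4) (nat_lit 366) (nat_lit 304) (nat_lit 230)) (XT.lf (nat_lit 0) (nat_lit 25336865697) (nat_lit 76) (nat_lit 2723771750) (nat_lit 152) (nat_lit 6939389456) (nat_lit 24) (nat_lit 5) (nat_lit 25) (nat_lit 5) (nat_lit 26) (nat_lit 4) (nat_lit 367) (nat_lit 304) (nat_lit 229))) (XT.nd (nat_lit 78) (nat_lit 0) (nat_lit 0) (XT.lf (nat_lit 0) (nat_lit 257734260) (nat_lit 152) (nat_lit 30164934852) (nat_lit 76) (nat_lit 5890796237) (nat_lit 22) (nat_lit 5) (nat_lit 24) (nat_lit 5) (nat_lit 23) (nat_lit 4) (nat_lit 368) (nat_lit 304) (nat_lit 228)) (XT.lf (nat_lit 0) (nat_lit 7771872518) (nat_lit 152) (nat_lit 14797698380) (nat_lit 76) (nat_lit 15107802509) (nat_lit 22) (nat_lit 5) (nat_lit 24) (nat_lit 5) (nat_lit 23) (nat_lit 4) (nat_lit 369) (nat_lit 304) (nat_lit 227))))))))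
noncomputable def xc113 : XT := (XT.nd (nat_lit 1950) (nat_lit 380) (nat_lit 0) (XT.nd (nat_lit 936) (nat_lit 456) (nat_lit 0) (XT.nd (nat_lit 468) (nat_lit 228) (nat_lit 0) (XT.nd (nat_lit 234) (nat_lit 228) (nat_lit 0) (XT.nd (nat_lit 78) (nat_lit 0) (nat_lit 0) (XT.lf (nat_lit 0) (nat_lit 1344258062) (nat_lit 76) (nat_lit 14318811307) (nat_lit 152) (nat_lit 23446343801) (nat_lit 21) (nat_lit 5) (nat_lit 22) (nat_lit 5) (nat_lit 23) (nat_lit 4) (nat_lit 370) (nat_lit 304) (nat_lit 226)) (XT.nd (nat_lit 78) (nat_lit 0) (nat_lit 0) (XT.lf (nat_lit 0) (nat_lit 18770979889) (nat_lit 76) (nat_lit 5409188211) (nat_lit 152) (nat_lit 16421323419) (nat_lit 21) (nat_lit 5) (nat_lit 22) (nat_lit 5) (nat_lit 23) (nat_lit 4) (nat_lit 371) (nat_lit 304) (nat_lit 225)) (XT.lf (nat_lit 0) (nat_lit 33166131806) (nat_lit 152) (nat_lit 5195770934) (nat_lit 0) (nat_lit 3804124071) (nat_lit 21) (nat_lit 5)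 (nat_lit 23) (nat_lit 4) (nat_lit 21) (nat_lit 4) (nat_lit 372) (nat_lit 304) (nat_lit 224)))) (XT.nd (nat_lit 78) (nat_lit 152) (nat_lit 0) (XT.lf (nat_lit 0) (nat_lit 12550361385) (nat_lit 76) (nat_lit 30317942630) (nat_lit 76) (nat_lit 927142693) (nat_lit 20) (nat_lit 4) (nat_lit 21) (nat_lit 5) (nat_lit 21) (nat_lit 4) (nat_lit 373) (nat_lit 304) (nat_lit 223)) (XT.nd (nat_lit 78) (nat_lit 76) (nat_lit 0) (XT.lf (nat_lit 0) (nat_lit 7379391297) (nat_lit 152) (nat_lit 14290468923) (nat_lit 76) (nat_lit 23826998823) (nat_lit 19) (nat_lit 5) (nat_lit 21) (nat_lit 5) (nat_lit 20) (nat_lit 4) (nat_lit 374) (nat_lit 304) (nat_lit 222)) (XT.lf (nat_lit 0) (nat_lit 3579424793) (nat_lit 76) (nat_lit 12529727037) (nat_lit 152) (nat_lit 31171480216) (nat_lit 18) (nat_lit 5) (nat_lit 19) (nat_lit 5) (nat_lit 20) (nat_lit 4) (nat_lit 375) (nat_lit 304) (nat_lit 221))))) (XT.nd (nat_lit 234) (nat_lit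 152) (nat_lit 0) (XT.nd (nat_lit 78) (nat_lit 76) (nat_lit 0) (XT.lf (nat_lit 0) (nat_lit 22807640816) (nat_lit 76) (nat_lit 2693261165) (nat_lit 152) (nat_lit 23641419400) (nat_lit 18) (nat_lit 5) (nat_lit 19) (nat_lit 5) (nat_lit 20) (nat_lit 4) (nat_lit 376) (nat_lit 304) (nat_lit 220)) (XT.nd (nat_lit 78) (nat_lit 76) (nat_lit 0) (XT.lf (nat_lit 0) (nat_lit 35465495882) (nat_lit 152) (nat_lit 8249415297) (nat_lit 0) (nat_lit 7377023823) (nat_lit 18) (nat_lit 5) (nat_lit 20) (nat_lit 4) (nat_lit 18) (nat_lit 4) (nat_lit 377) (nat_lit 304) (nat_lit 219)) (XT.lf (nat_lit 0) (nat_lit 11019724689) (nat_lit 76) (nat_lit 35109606880) (nat_lit 76) (nat_lit 6999649635) (nat_lit 17) (nat_lit 4) (nat_lit 18) (nat_lit 5) (nat_lit 18) (nat_lit 4) (nat_lit 378) (nat_lit 304) (nat_lit 218)))) (XT.nd (nat_lit 78) (nat_lit 76) (nat_lit 0) (XT.lf (nat_lit 0) (nat_lit 2119436779) (nat_lit 152) (nat_lit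 23785573928) (nat_lit 76) (nat_lit 29354922268) (nat_lit 16) (nat_lit 5) (nat_lit 18) (nat_lit 5) (nat_lit 17) (nat_lit 4) (nat_lit 379) (nat_lit 304) (nat_lit 217)) (XT.nd (nat_lit 78) (nat_lit 76) (nat_lit 0) (XT.lf (nat_lit 0) (nat_lit 11444808642) (nat_lit 152) (nat_lit 4688049304) (nat_lit 76) (nat_lit 41359560871) (nat_lit 16) (nat_lit 5) (nat_lit 18) (nat_lit 5) (nat_lit 17) (nat_lit 4) (nat_lit 380) (nat_lit 304) (nat_lit 216)) (XT.lf (nat_lit 0) (nat_lit 15845217722) (nat_lit 76) (nat_lit 5624872254) (nat_lit 152) (nat_lit 38354758992) (nat_lit 15) (nat_lit 5) (nat_lit 16) (nat_lit 5) (nat_lit 17) (nat_lit 4) (nat_lit 381) (nat_lit 304) (nat_lit 215)))))) (XT.nd (nat_lit 468) (nat_lit 228) (nat_lit 0) (XT.nd (nat_lit 234) (nat_lit 152) (nat_lit 0) (XT.nd (nat_lit 78) (nat_lit 76) (nat_lit 0) (XT.lf (nat_lit 0) (nat_lit 32148083963) (nat_lit 152) (nat_lit 24814107613) (nat_lit 0)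 (nat_lit 5304138585) (nat_lit 15) (nat_lit 5) (nat_lit 17) (nat_lit 4) (nat_lit 15) (nat_lit 4) (nat_lit 382) (nat_lit 304) (nat_lit 214)) (XT.nd (nat_lit 78) (nat_lit 76) (nat_lit 0) (XT.lf (nat_lit 0) (nat_lit 43439151156) (nat_lit 152) (nat_lit 4807604249) (nat_lit 0) (nat_lit 16579173203) (nat_lit 15) (nat_lit 5) (nat_lit 17) (nat_lit 4) (nat_lit 15) (nat_lit 4) (nat_lit 383) (nat_lit 304) (nat_lit 213)) (XT.lf (nat_lit 0) (nat_lit 16710162969) (nat_lit 76) (nat_lit 38833084535) (nat_lit 76) (nat_lit 11957837463) (nat_lit 14) (nat_lit 4) (nat_lit 15) (nat_lit 5) (nat_lit 15) (nat_lit 4) (nat_lit 384) (nat_lit 304) (nat_lit 212)))) (XT.nd (nat_lit 78) (nat_lit 152) (nat_lit 0) (XT.lf (nat_lit 0) (nat_lit 39447222162) (nat_lit 76) (nat_lit 28874553217) (nat_lit 76) (nat_lit 1984764125) (nat_lit 14) (nat_lit 4) (nat_lit 15) (nat_lit 5) (nat_lit 15) (nat_lit 4) (nat_lit 385) (nat_lit 304)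 (nat_lit 211)) (XT.nd (nat_lit 78) (nat_lit 76) (nat_lit 0) (XT.lf (nat_lit 0) (nat_lit 8203523338) (nat_lit 152) (nat_lit 10086415789) (nat_lit 76) (nat_lit 54956294102) (nat_lit 13) (nat_lit 5) (nat_lit 15) (nat_lit 5) (nat_lit 14) (nat_lit 4) (nat_lit 386) (nat_lit 304) (nat_lit 210)) (XT.lf (nat_lit 0) (nat_lit 12056793007) (nat_lit 76) (nat_lit 6954729763) (nat_lit 152) (nat_lit 57310913545) (nat_lit 12) (nat_lit 5) (nat_lit 13) (nat_lit 5) (nat_lit 14) (nat_lit 4) (nat_lit 387) (nat_lit 304) (nat_lit 209))))) (XT.nd (nat_lit 234) (nat_lit 228) (nat_lit 0) (XT.nd (nat_lit 78) (nat_lit 0) (nat_lit 0) (XT.lf (nat_lit 0) (nat_lit 30599580656) (nat_lit 152) (nat_lit 43988345394) (nat_lit 0) (nat_lit 4952541975) (nat_lit 12) (nat_lit 5) (nat_lit 14) (nat_lit 4) (nat_lit 12) (nat_lit 4) (nat_lit 388) (nat_lit 304) (nat_lit 208)) (XT.nd (nat_lit 78) (nat_lit 0) (nat_lit 0) (XT.lf (nat_lit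 0) (nat_lit 42870386322) (nat_lit 152) (nat_lit 22831895497) (nat_lit 0) (nat_lit 17211953588) (nat_lit 12) (nat_lit 5) (nat_lit 14) (nat_lit 4) (nat_lit 12) (nat_lit 4) (nat_lit 389) (nat_lit 304) (nat_lit 207)) (XT.lf (nat_lit 0) (nat_lit 55744573148) (nat_lit 152) (nat_lit 637338294) (nat_lit 0) (nat_lit 30075288936) (nat_lit 12) (nat_lit 5) (nat_lit 14) (nat_lit 4) (nat_lit 12) (nat_lit 4) (nat_lit 390) (nat_lit 304) (nat_lit 206)))) (XT.nd (nat_lit 156) (nat_lit 152) (nat_lit 0) (XT.nd (nat_lit 78) (nat_lit 0) (nat_lit 0) (XT.lf (nat_lit 0) (nat_lit 23397021192) (nat_lit 76) (nat_lit 46221065838) (nat_lit 76) (nat_lit 20541446885) (nat_lit 11) (nat_lit 4) (nat_lit 12) (nat_lit 5) (nat_lit 12) (nat_lit 4) (nat_lit 391) (nat_lit 304) (nat_lit 205)) (XT.lf (nat_lit 0) (nat_lit 48636752074) (nat_lit 76) (nat_lit 35549815120) (nat_lit 76) (nat_lit 9860353556) (nat_lit 11) (nat_lit 4) (nat_lit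 12) (nat_lit 5) (nat_lit 12) (nat_lit 4) (nat_lit 392) (nat_lit 304) (nat_lit 204))) (XT.nd (nat_lit 78) (nat_lit 76) (nat_lit 0) (XT.lf (nat_lit 0) (nat_lit 1302232608) (nat_lit 152) (nat_lit 23029258631) (nat_lit 76) (nat_lit 73796589118) (nat_lit 10) (nat_lit 5) (nat_lit 12) (nat_lit 5) (nat_lit 11) (nat_lit 4) (nat_lit 393) (nat_lit 304) (nat_lit 203)) (XT.lf (nat_lit 0) (nat_lit 301660049) (nat_lit 76) (nat_lit 12385863397) (nat_lit 152) (nat_lit 89717895838) (nat_lit 9) (nat_lit 5) (nat_lit 10) (nat_lit 5) (nat_lit 11) (nat_lit 4) (nat_lit 394) (nat_lit 304) (nat_lit 202))))))) (XT.nd (nat_lit 936) (nat_lit 152) (nat_lit 0) (XT.nd (nat_lit 468) (nat_lit 152) (nat_lit 0) (XT.nd (nat_lit 234) (nat_lit 76) (nat_lit 0) (XT.nd (nat_lit 78) (nat_lit 0) (nat_lit 0) (XT.lf (nat_lit 0) (nat_lit 25032202062) (nat_lit 152) (nat_lit 81304397180) (nat_lit 0) (nat_lit 540520697) (nat_lit 9) (nat_lit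 5) (nat_lit 11) (nat_lit 4) (nat_lit 9) (nat_lit 4) (nat_lit 395) (nat_lit 304) (nat_lit 201)) (XT.nd (nat_lit 78) (nat_lit 0) (nat_lit 0) (XT.lf (nat_lit 0) (nat_lit 38188843491) (nat_lit 152) (nat_lit 59684376409) (nat_lit 0) (nat_lit 13689450182) (nat_lit 9) (nat_lit 5) (nat_lit 11) (nat_lit 4) (nat_lit 9) (nat_lit 4) (nat_lit 396) (nat_lit 304) (nat_lit 200)) (XT.lf (nat_lit 0) (nat_lit 51995395030) (nat_lit 152) (nat_lit 36998842644) (nat_lit 0) (nat_lit 27488657013) (nat_lit 9) (nat_lit 5) (nat_lit 11) (nat_lit 4) (nat_lit 9) (nat_lit 4) (nat_lit 397) (nat_lit 304) (nat_lit 199)))) (XT.nd (nat_lit 78) (nat_lit 76) (nat_lit 0) (XT.lf (nat_lit 0) (nat_lit 66484729421) (nat_lit 152) (nat_lit 13193782708) (nat_lit 0) (nat_lit 41970996445) (nat_lit 9) (nat_lit 5) (nat_lit 11) (nat_lit 4) (nat_lit 9) (nat_lit 4) (nat_lit 398) (nat_lit 304) (nat_lit 198)) (XT.nd (nat_lit 78) (nat_lit 0)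 (nat_lit 0) (XT.lf (nat_lit 0) (nat_lit 12177229503) (nat_lit 76) (nat_lit 69704236255) (nat_lit 76) (nat_lit 45183841413) (nat_lit 8) (nat_lit 4) (nat_lit 9) (nat_lit 5) (nat_lit 9) (nat_lit 4) (nat_lit 399) (nat_lit 304) (nat_lit 197)) (XT.lf (nat_lit 0) (nat_lit 39261029140) (nat_lit 76) (nat_lit 59003393787) (nat_lit 76) (nat_lit 34476654310) (nat_lit 8) (nat_lit 4) (nat_lit 9) (nat_lit 5) (nat_lit 9) (nat_lit 4) (nat_lit 400) (nat_lit 304) (nat_lit 196))))) (XT.nd (nat_lit 234) (nat_lit 76) (nat_lit 0) (XT.nd (nat_lit 78) (nat_lit 76) (nat_lit 0) (XT.lf (nat_lit 0) (nat_lit 67685855396) (nat_lit 76) (nat_lit 47773949623) (nat_lit 76) (nat_lit 23241167637) (nat_lit 8) (nat_lit 4) (nat_lit 9) (nat_lit 5) (nat_lit 9) (nat_lit 4) (nat_lit 401) (nat_lit 304) (nat_lit 195)) (XT.nd (nat_lit 78) (nat_lit 76) (nat_lit 0) (XT.lf (nat_lit 0) (nat_lit 97519386431) (nat_lit 76) (nat_lit 35989166993)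 (nat_lit 76) (nat_lit 11450630236) (nat_lit 8) (nat_lit 4) (nat_lit 9) (nat_lit 5) (nat_lit 9) (nat_lit 4) (nat_lit 402) (nat_lit 304) (nat_lit 194)) (XT.lf (nat_lit 0) (nat_lit 893487858) (nat_lit 152) (nat_lit 22712367380) (nat_lit 76) (nat_lit 127924034952) (nat_lit 7) (nat_lit 5) (nat_lit 9) (nat_lit 5) (nat_lit 8) (nat_lit 4) (nat_lit 403) (nat_lit 304) (nat_lit 193)))) (XT.nd (nat_lit 78) (nat_lit 0) (nat_lit 0) (XT.lf (nat_lit 0) (nat_lit 3153069860) (nat_lit 76) (nat_lit 10360250675) (nat_lit 152) (nat_lit 144904260083) (nat_lit 6) (nat_lit 5) (nat_lit 7) (nat_lit 5) (nat_lit 8) (nat_lit 4) (nat_lit 404) (nat_lit 304) (nat_lit 192)) (XT.nd (nat_lit 78) (nat_lit 0) (nat_lit 0) (XT.lf (nat_lit 0) (nat_lit 27204596934) (nat_lit 152) (nat_lit 134603400052) (nat_lit 0) (nat_lit 3819636529) (nat_lit 6) (nat_lit 5) (nat_lit 8) (nat_lit 4) (nat_lit 6) (nat_lit 4) (nat_lit 405) (nat_lit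 304) (nat_lit 191)) (XT.lf (nat_lit 0) (nat_lit 41744670653) (nat_lit 152) (nat_lit 113090106021) (nat_lit 0) (nat_lit 18355201235) (nat_lit 6) (nat_lit 5) (nat_lit 8) (nat_lit 4) (nat_lit 6) (nat_lit 4) (nat_lit 406) (nat_lit 304) (nat_lit 190)))))) (XT.nd (nat_lit 468) (nat_lit 76) (nat_lit 0) (XT.nd (nat_lit 234) (nat_lit 76) (nat_lit 0) (XT.nd (nat_lit 78) (nat_lit 0) (nat_lit 0) (XT.lf (nat_lit 0) (nat_lit 57006408367) (nat_lit 152) (nat_lit 90511653988) (nat_lit 0) (nat_lit 33612644650) (nat_lit 6) (nat_lit 5) (nat_lit 8) (nat_lit 4) (nat_lit 6) (nat_lit 4) (nat_lit 407) (nat_lit 304) (nat_lit 189)) (XT.nd (nat_lit 78) (nat_lit 0) (nat_lit 0) (XT.lf (nat_lit 0) (nat_lit 73026147547) (nat_lit 152) (nat_lit 66814285736) (nat_lit 0) (nat_lit 49628294022) (nat_lit 6) (nat_lit 5) (nat_lit 8) (nat_lit 4) (nat_lit 6) (nat_lit 4) (nat_lit 408) (nat_lit 304) (nat_lit 188)) (XT.lf (nat_lit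 0) (nat_lit 89842030429) (nat_lit 152) (nat_lit 41941578958) (nat_lit 0) (nat_lit 66440281850) (nat_lit 6) (nat_lit 5) (nat_lit 8) (nat_lit 4) (nat_lit 6) (nat_lit 4) (nat_lit 409) (nat_lit 304) (nat_lit 187)))) (XT.nd (nat_lit 78) (nat_lit 76) (nat_lit 0) (XT.lf (nat_lit 0) (nat_lit 107494094831) (nat_lit 152) (nat_lit 15834312925) (nat_lit 0) (nat_lit 84088636674) (nat_lit 6) (nat_lit 5) (nat_lit 8) (nat_lit 4) (nat_lit 6) (nat_lit 4) (nat_lit 410) (nat_lit 304) (nat_lit 186)) (XT.nd (nat_lit 78) (nat_lit 0) (nat_lit 0) (XT.lf (nat_lit 0) (nat_lit 11952218144) (nat_lit 76) (nat_lit 114258758952) (nat_lit 76) (nat_lit 90849767866) (nat_lit 5) (nat_lit 4) (nat_lit 6) (nat_lit 5) (nat_lit 6) (nat_lit 4) (nat_lit 411) (nat_lit 304) (nat_lit 185)) (XT.lf (nat_lit 0) (nat_lit 41669302886) (nat_lit 76) (nat_lit 104458245774) (nat_lit 76) (nat_lit 81045889993) (nat_lit 5) (nat_lit 4) (nat_lit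 6) (nat_lit 5) (nat_lit 6) (nat_lit 4) (nat_lit 412) (nat_lit 304) (nat_lit 184))))) (XT.nd (nat_lit 234) (nat_lit 76) (nat_lit 0) (XT.nd (nat_lit 78) (nat_lit 0) (nat_lit 0) (XT.lf (nat_lit 0) (nat_lit 72864142369) (nat_lit 76) (nat_lit 94171695419) (nat_lit 76) (nat_lit 70756135166) (nat_lit 5) (nat_lit 4) (nat_lit 6) (nat_lit 5) (nat_lit 6) (nat_lit 4) (nat_lit 413) (nat_lit 304) (nat_lit 183)) (XT.nd (nat_lit 78) (nat_lit 0) (nat_lit 0) (XT.lf (nat_lit 0) (nat_lit 105611010021) (nat_lit 76) (nat_lit 83374616099) (nat_lit 76) (nat_lit 59956003968) (nat_lit 5) (nat_lit 4) (nat_lit 6) (nat_lit 5) (nat_lit 6) (nat_lit 4) (nat_lit 414) (nat_lit 304) (nat_lit 182)) (XT.lf (nat_lit 0) (nat_lit 139987874573) (nat_lit 76) (nat_lit 72041300483) (nat_lit 76) (nat_lit 48619781802) (nat_lit 5) (nat_lit 4) (nat_lit 6) (nat_lit 5) (nat_lit 6) (nat_lit 4) (nat_lit 415) (nat_lit 304) (nat_lit 181))))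 (XT.nd (nat_lit 156) (nat_lit 76) (nat_lit 0) (XT.nd (nat_lit 78) (nat_lit 0) (nat_lit 0) (XT.lf (nat_lit 0) (nat_lit 176076585703) (nat_lit 76) (nat_lit 60144764487) (nat_lit 76) (nat_lit 36720477663) (nat_lit 5) (nat_lit 4) (nat_lit 6) (nat_lit 5) (nat_lit 6) (nat_lit 4) (nat_lit 416) (nat_lit 304) (nat_lit 180)) (XT.lf (nat_lit 0) (nat_lit 213963068914) (nat_lit 76) (nat_lit 47656683024) (nat_lit 76) (nat_lit 24229759873) (nat_lit 5) (nat_lit 4) (nat_lit 6) (nat_lit 5) (nat_lit 6) (nat_lit 4) (nat_lit 417) (nat_lit 304) (nat_lit 179))) (XT.nd (nat_lit 78) (nat_lit 76) (nat_lit 0) (XT.lf (nat_lit 0) (nat_lit 253737530118) (nat_lit 76) (nat_lit 34547322567) (nat_lit 76) (nat_lit 11117888629) (nat_lit 5) (nat_lit 4) (nat_lit 6) (nat_lit 5) (nat_lit 6) (nat_lit 4) (nat_lit 418) (nat_lit 304) (nat_lit 178)) (XT.lf (nat_lit 0) (nat_lit 2561654929) (nat_lit 152) (nat_lit 18180432558) (nat_lit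 76) (nat_lit 292889632618) (nat_lit 4) (nat_lit 5) (nat_lit 6) (nat_lit 5) (nat_lit 5) (nat_lit 4) (nat_lit 419) (nat_lit 304) (nat_lit 177))))))))
noncomputable def xc114 : XT := (XT.nd (nat_lit 38298) (nat_lit 0) (nat_lit 4940) (XT.nd (nat_lit 936) (nat_lit 76) (nat_lit 0) (XT.nd (nat_lit 468) (nat_lit 0) (nat_lit 0) (XT.nd (nat_lit 234) (nat_lit 0) (nat_lit 0) (XT.nd (nat_lit 78) (nat_lit 0) (nat_lit 0) (XT.lf (nat_lit 0) (nat_lit 10837332246) (nat_lit 76) (nat_lit 5880440811) (nat_lit 152) (nat_lit 311836950441) (nat_lit 3) (nat_lit 5) (nat_lit 4) (nat_lit 5) (nat_lit 5) (nat_lit 4) (nat_lit 420) (nat_lit 304) (nat_lit 176)) (XT.nd (nat_lit 78) (nat_lit 0) (nat_lit 0) (XT.lf (nat_lit 0) (nat_lit 32043499697) (nat_lit 152) (nat_lit 302434046287) (nat_lit 0) (nat_lit 9723241188) (nat_lit 3) (nat_lit 5) (nat_lit 5) (nat_lit 4) (nat_lit 3) (nat_lit 4) (nat_lit 421) (nat_lit 304) (nat_lit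 175)) (XT.lf (nat_lit 0) (nat_lit 48229091757) (nat_lit 152) (nat_lit 286488517565) (nat_lit 0) (nat_lit 25906865980) (nat_lit 3) (nat_lit 5) (nat_lit 5) (nat_lit 4) (nat_lit 3) (nat_lit 4) (nat_lit 422) (nat_lit 304) (nat_lit 174)))) (XT.nd (nat_lit 78) (nat_lit 0) (nat_lit 0) (XT.lf (nat_lit 0) (nat_lit 65221276202) (nat_lit 152) (nat_lit 269751029382) (nat_lit 0) (nat_lit 42897176837) (nat_lit 3) (nat_lit 5) (nat_lit 5) (nat_lit 4) (nat_lit 3) (nat_lit 4) (nat_lit 423) (nat_lit 304) (nat_lit 173)) (XT.nd (nat_lit 78) (nat_lit 0) (nat_lit 0) (XT.lf (nat_lit 0) (nat_lit 83060510613) (nat_lit 152) (nat_lit 252181730574) (nat_lit 0) (nat_lit 60734626878) (nat_lit 3) (nat_lit 5) (nat_lit 5) (nat_lit 4) (nat_lit 3) (nat_lit 4) (nat_lit 424) (nat_lit 304) (nat_lit 172)) (XT.lf (nat_lit 0) (nat_lit 101789269358) (nat_lit 152) (nat_lit 233738789478) (nat_lit 0) (nat_lit 79461686223) (nat_lit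 3) (nat_lit 5) (nat_lit 5) (nat_lit 4) (nat_lit 3) (nat_lit 4) (nat_lit 425) (nat_lit 304) (nat_lit 171))))) (XT.nd (nat_lit 234) (nat_lit 0) (nat_lit 0) (XT.nd (nat_lit 78) (nat_lit 0) (nat_lit 0) (XT.lf (nat_lit 0) (nat_lit 121452144719) (nat_lit 152) (nat_lit 214378294330) (nat_lit 0) (nat_lit 99122943109) (nat_lit 3) (nat_lit 5) (nat_lit 5) (nat_lit 4) (nat_lit 3) (nat_lit 4) (nat_lit 426) (nat_lit 304) (nat_lit 170)) (XT.nd (nat_lit 78) (nat_lit 0) (nat_lit 0) (XT.lf (nat_lit 0) (nat_lit 142095953067) (nat_lit 152) (nat_lit 194054148713) (nat_lit 0) (nat_lit 119765210051) (nat_lit 3) (nat_lit 5) (nat_lit 5) (nat_lit 4) (nat_lit 3) (nat_lit 4) (nat_lit 427) (nat_lit 304) (nat_lit 169)) (XT.lf (nat_lit 0) (nat_lit 163769846326) (nat_lit 152) (nat_lit 172717961803) (nat_lit 0) (nat_lit 141437635304) (nat_lit 3) (nat_lit 5) (nat_lit 5) (nat_lit 4) (nat_lit 3) (nat_lit 4) (nat_lit 428)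 (nat_lit 304) (nat_lit 168)))) (XT.nd (nat_lit 78) (nat_lit 0) (nat_lit 0) (XT.lf (nat_lit 0) (nat_lit 186525429004) (nat_lit 152) (nat_lit 150318933155) (nat_lit 0) (nat_lit 164191819882) (nat_lit 3) (nat_lit 5) (nat_lit 5) (nat_lit 4) (nat_lit 3) (nat_lit 4) (nat_lit 429) (nat_lit 304) (nat_lit 167)) (XT.nd (nat_lit 78) (nat_lit 0) (nat_lit 0) (XT.lf (nat_lit 0) (nat_lit 210416881059) (nat_lit 152) (nat_lit 126803731749) (nat_lit 0) (nat_lit 188081940413) (nat_lit 3) (nat_lit 5) (nat_lit 5) (nat_lit 4) (nat_lit 3) (nat_lit 4) (nat_lit 430) (nat_lit 304) (nat_lit 166)) (XT.lf (nat_lit 0) (nat_lit 235501086902) (nat_lit 152) (nat_lit 102116369011) (nat_lit 0) (nat_lit 213164878138) (nat_lit 3) (nat_lit 5) (nat_lit 5) (nat_lit 4) (nat_lit 3) (nat_lit 4) (nat_lit 431) (nat_lit 304) (nat_lit 165)))))) (XT.nd (nat_lit 468) (nat_lit 0) (nat_lit 0) (XT.nd (nat_lit 234) (nat_lit 76) (nat_lit 0)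 (XT.nd (nat_lit 78) (nat_lit 0) (nat_lit 0) (XT.lf (nat_lit 0) (nat_lit 261837770832) (nat_lit 152) (nat_lit 76198065505) (nat_lit 0) (nat_lit 239500354336) (nat_lit 3) (nat_lit 5) (nat_lit 5) (nat_lit 4) (nat_lit 3) (nat_lit 4) (nat_lit 432) (nat_lit 304) (nat_lit 164)) (XT.nd (nat_lit 78) (nat_lit 0) (nat_lit 0) (XT.lf (nat_lit 0) (nat_lit 289489639239) (nat_lit 152) (nat_lit 48987110984) (nat_lit 0) (nat_lit 267151072522) (nat_lit 3) (nat_lit 5) (nat_lit 5) (nat_lit 4) (nat_lit 3) (nat_lit 4) (nat_lit 433) (nat_lit 304) (nat_lit 163)) (XT.lf (nat_lit 0) (nat_lit 318522529905) (nat_lit 152) (nat_lit 20418717462) (nat_lit 0) (nat_lit 296182867740) (nat_lit 3) (nat_lit 5) (nat_lit 5) (nat_lit 4) (nat_lit 3) (nat_lit 4) (nat_lit 434) (nat_lit 304) (nat_lit 162)))) (XT.nd (nat_lit 78) (nat_lit 0) (nat_lit 0) (XT.lf (nat_lit 0) (nat_lit 9891732252) (nat_lit 76) (nat_lit 339268274170) (nat_lit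 76) (nat_lit 316927568721) (nat_lit 2) (nat_lit 4) (nat_lit 3) (nat_lit 5) (nat_lit 3) (nat_lit 4) (nat_lit 435) (nat_lit 304) (nat_lit 161)) (XT.nd (nat_lit 78) (nat_lit 0) (nat_lit 0) (XT.lf (nat_lit 0) (nat_lit 42423683279) (nat_lit 76) (nat_lit 339250003777) (nat_lit 76) (nat_lit 316908304725) (nat_lit 2) (nat_lit 4) (nat_lit 3) (nat_lit 5) (nat_lit 3) (nat_lit 4) (nat_lit 436) (nat_lit 304) (nat_lit 160)) (XT.lf (nat_lit 0) (nat_lit 76579457632) (nat_lit 76) (nat_lit 339232193550) (nat_lit 76) (nat_lit 316889548208) (nat_lit 2) (nat_lit 4) (nat_lit 3) (nat_lit 5) (nat_lit 3) (nat_lit 4) (nat_lit 437) (nat_lit 304) (nat_lit 159))))) (XT.nd (nat_lit 36660) (nat_lit 0) (nat_lit 10716) (XT.nd (nat_lit 36504) (nat_lit 0) (nat_lit 11172) (XT.lf (nat_lit 0) (nat_lit 112440378583) (nat_lit 76) (nat_lit 339214801082) (nat_lit 76) (nat_lit 316871254512) (nat_lit 2) (nat_lit 4) (nat_lit 3) (nat_lit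 5) (nat_lit 3) (nat_lit 4) (nat_lit 438) (nat_lit 304) (nat_lit 158)) (XT.nd (nat_lit 78) (nat_lit 380) (nat_lit 0) (XT.lf (nat_lit 0) (nat_lit 3279307126) (nat_lit 380) (nat_lit 43927159) (nat_lit 380) (nat_lit 43927159) (nat_lit 154) (nat_lit 3) (nat_lit 159) (nat_lit 3) (nat_lit 159) (nat_lit 5) (nat_lit 305) (nat_lit 305) (nat_lit 290)) (XT.lf (nat_lit 0) (nat_lit 1930102350) (nat_lit 380) (nat_lit 3561453821) (nat_lit 456) (nat_lit 1303444192) (nat_lit 149) (nat_lit 5) (nat_lit 154) (nat_lit 3) (nat_lit 155) (nat_lit 5) (nat_lit 306) (nat_lit 305) (nat_lit 289)))) (XT.nd (nat_lit 78) (nat_lit 456) (nat_lit 0) (XT.lf (nat_lit 0) (nat_lit 4004306005) (nat_lit 380) (nat_lit 212134769) (nat_lit 456) (nat_lit 2648842942) (nat_lit 149) (nat_lit 5) (nat_lit 154) (nat_lit 3) (nat_lit 155) (nat_lit 5) (nat_lit 307) (nat_lit 305) (nat_lit 288)) (XT.nd (nat_lit 78) (nat_lit 456) (nat_lit 0) (XT.lf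 (nat_lit 76) (nat_lit 3340460951) (nat_lit 0) (nat_lit 2767717452) (nat_lit 456) (nat_lit 834763364) (nat_lit 150) (nat_lit 5) (nat_lit 149) (nat_lit 5) (nat_lit 155) (nat_lit 5) (nat_lit 308) (nat_lit 305) (nat_lit 287)) (XT.lf (nat_lit 0) (nat_lit 1131624165) (nat_lit 456) (nat_lit 40676670) (nat_lit 532) (nat_lit 5857304487) (nat_lit 143) (nat_lit 5) (nat_lit 149) (nat_lit 5) (nat_lit 150) (nat_lit 5) (nat_lit 309) (nat_lit 305) (nat_lit 286))))))) (XT.nd (nat_lit 936) (nat_lit 2660) (nat_lit 0) (XT.nd (nat_lit 468) (nat_lit 2204) (nat_lit 0) (XT.nd (nat_lit 234) (nat_lit 988) (nat_lit 0) (XT.nd (nat_lit 78) (nat_lit 0) (nat_lit 0) (XT.lf (nat_lit 0) (nat_lit 3118809960) (nat_lit 456) (nat_lit 3398372365) (nat_lit 532) (nat_lit 605345761) (nat_lit 144) (nat_lit 5) (nat_lit 150) (nat_lit 5) (nat_lit 151) (nat_lit 5) (nat_lit 310) (nat_lit 305) (nat_lit 285)) (XT.nd (nat_lit 78) (nat_lit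 0) (nat_lit 0) (XT.lf (nat_lit 76) (nat_lit 375393710) (nat_lit 0) (nat_lit 4743395768) (nat_lit 532) (nat_lit 2105766153) (nat_lit 145) (nat_lit 5) (nat_lit 144) (nat_lit 5) (nat_lit 151) (nat_lit 5) (nat_lit 311) (nat_lit 305) (nat_lit 284)) (XT.lf (nat_lit 76) (nat_lit 4381085963) (nat_lit 0) (nat_lit 2787073111) (nat_lit 532) (nat_lit 166180082) (nat_lit 145) (nat_lit 5) (nat_lit 144) (nat_lit 5) (nat_lit 151) (nat_lit 5) (nat_lit 312) (nat_lit 305) (nat_lit 283)))) (XT.nd (nat_lit 78) (nat_lit 456) (nat_lit 0) (XT.lf (nat_lit 76) (nat_lit 1067655798) (nat_lit 0) (nat_lit 654720003) (nat_lit 608) (nat_lit 5730295847) (nat_lit 138) (nat_lit 5) (nat_lit 137) (nat_lit 5) (nat_lit 145) (nat_lit 5) (nat_lit 313) (nat_lit 305) (nat_lit 282)) (XT.nd (nat_lit 78) (nat_lit 532) (nat_lit 0) (XT.lf (nat_lit 0) (nat_lit 3674800141) (nat_lit 532) (nat_lit 2289701097) (nat_lit 76) (nat_lit 1613639296)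 (nat_lit 138) (nat_lit 5) (nat_lit 145) (nat_lit 5) (nat_lit 139) (nat_lit 5) (nat_lit 314) (nat_lit 305) (nat_lit 281)) (XT.lf (nat_lit 0) (nat_lit 1987897291) (nat_lit 532) (nat_lit 3682962093) (nat_lit 608) (nat_lit 2041824940) (nat_lit 131) (nat_lit 5) (nat_lit 138) (nat_lit 5) (nat_lit 139) (nat_lit 5) (nat_lit 315) (nat_lit 305) (nat_lit 280))))) (XT.nd (nat_lit 234) (nat_lit 1520) (nat_lit 0) (XT.nd (nat_lit 78) (nat_lit 684) (nat_lit 0) (XT.lf (nat_lit 0) (nat_lit 6484710447) (nat_lit 532) (nat_lit 1228434255) (nat_lit 608) (nat_lit 143586726) (nat_lit 131) (nat_lit 5) (nat_lit 138) (nat_lit 5) (nat_lit 139) (nat_lit 5) (nat_lit 316) (nat_lit 305) (nat_lit 279)) (XT.nd (nat_lit 78) (nat_lit 0) (nat_lit 0) (XT.lf (nat_lit 0) (nat_lit 1773408457) (nat_lit 684) (nat_lit 4833006211) (nat_lit 76) (nat_lit 1401058481) (nat_lit 122) (nat_lit 5) (nat_lit 131) (nat_lit 5) (nat_lit 123) (nat_lit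 5) (nat_lit 317) (nat_lit 305) (nat_lit 278)) (XT.lf (nat_lit 0) (nat_lit 3739041313) (nat_lit 684) (nat_lit 268654902) (nat_lit 76) (nat_lit 4160141414) (nat_lit 122) (nat_lit 5) (nat_lit 131) (nat_lit 5) (nat_lit 123) (nat_lit 5) (nat_lit 318) (nat_lit 305) (nat_lit 277)))) (XT.nd (nat_lit 78) (nat_lit 836) (nat_lit 0) (XT.lf (nat_lit 0) (nat_lit 4597634217) (nat_lit 684) (nat_lit 1195063880) (nat_lit 760) (nat_lit 2544115153) (nat_lit 113) (nat_lit 5) (nat_lit 122) (nat_lit 5) (nat_lit 123) (nat_lit 5) (nat_lit 319) (nat_lit 305) (nat_lit 276)) (XT.nd (nat_lit 78) (nat_lit 76) (nat_lit 0) (XT.lf (nat_lit 0) (nat_lit 1134958334) (nat_lit 760) (nat_lit 6784722555) (nat_lit 836) (nat_lit 596100828) (nat_lit 103) (nat_lit 5) (nat_lit 113) (nat_lit 5) (nat_lit 114) (nat_lit 5) (nat_lit 320) (nat_lit 305) (nat_lit 275)) (XT.lf (nat_lit 0) (nat_lit 1409000006) (nat_lit 836) (nat_lit 2438980275)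 (nat_lit 76) (nat_lit 4854352423) (nat_lit 102) (nat_lit 5) (nat_lit 113) (nat_lit 5) (nat_lit 103) (nat_lit 5) (nat_lit 321) (nat_lit 305) (nat_lit 274)))))) (XT.nd (nat_lit 468) (nat_lit 1216) (nat_lit 0) (XT.nd (nat_lit 234) (nat_lit 760) (nat_lit 0) (XT.nd (nat_lit 78) (nat_lit 304) (nat_lit 0) (XT.lf (nat_lit 0) (nat_lit 2754231497) (nat_lit 380) (nat_lit 708920162) (nat_lit 456) (nat_lit 5436195386) (nat_lit 97) (nat_lit 5) (nat_lit 102) (nat_lit 5) (nat_lit 103) (nat_lit 5) (nat_lit 322) (nat_lit 305) (nat_lit 273)) (XT.nd (nat_lit 78) (nat_lit 304) (nat_lit 0) (XT.lf (nat_lit 0) (nat_lit 5630588593) (nat_lit 456) (nat_lit 929978739) (nat_lit 76) (nat_lit 2545178592) (nat_lit 97) (nat_lit 5) (nat_lit 103) (nat_lit 5) (nat_lit 98) (nat_lit 5) (nat_lit 323) (nat_lit 305) (nat_lit 272)) (XT.lf (nat_lit 0) (nat_lit 4608909300) (nat_lit 304) (nat_lit 3312690068) (nat_lit 380) (nat_lit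 1400165003) (nat_lit 93) (nat_lit 5) (nat_lit 97) (nat_lit 5) (nat_lit 98) (nat_lit 5) (nat_lit 324) (nat_lit 305) (nat_lit 271)))) (XT.nd (nat_lit 78) (nat_lit 304) (nat_lit 0) (XT.lf (nat_lit 0) (nat_lit 717653705) (nat_lit 456) (nat_lit 8702014646) (nat_lit 76) (nat_lit 130161964) (nat_lit 87) (nat_lit 5) (nat_lit 93) (nat_lit 5) (nat_lit 88) (nat_lit 5) (nat_lit 325) (nat_lit 305) (nat_lit 270)) (XT.nd (nat_lit 78) (nat_lit 304) (nat_lit 0) (XT.lf (nat_lit 0) (nat_lit 2964310415) (nat_lit 456) (nat_lit 3089748159) (nat_lit 76) (nat_lit 3730644807) (nat_lit 87) (nat_lit 5) (nat_lit 93) (nat_lit 5) (nat_lit 88) (nat_lit 5) (nat_lit 326) (nat_lit 305) (nat_lit 269)) (XT.lf (nat_lit 0) (nat_lit 2821031213) (nat_lit 304) (nat_lit 2484001027) (nat_lit 380) (nat_lit 4727250380) (nat_lit 83) (nat_lit 5) (nat_lit 87) (nat_lit 5) (nat_lit 88) (nat_lit 5) (nat_lit 327) (nat_lit 305) (nat_lit 268)))))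 (XT.nd (nat_lit 234) (nat_lit 608) (nat_lit 0) (XT.nd (nat_lit 78) (nat_lit 608) (nat_lit 0) (XT.lf (nat_lit 0) (nat_lit 7775092878) (nat_lit 380) (nat_lit 1249731979) (nat_lit 76) (nat_lit 1266847622) (nat_lit 83) (nat_lit 5) (nat_lit 88) (nat_lit 5) (nat_lit 84) (nat_lit 5) (nat_lit 328) (nat_lit 305) (nat_lit 267)) (XT.nd (nat_lit 78) (nat_lit 304) (nat_lit 0) (XT.lf (nat_lit 0) (nat_lit 5060514951) (nat_lit 304) (nat_lit 5370133854) (nat_lit 380) (nat_lit 130327978) (nat_lit 79) (nat_lit 5) (nat_lit 83) (nat_lit 5) (nat_lit 84) (nat_lit 5) (nat_lit 329) (nat_lit 305) (nat_lit 266)) (XT.lf (nat_lit 0) (nat_lit 803889681) (nat_lit 228) (nat_lit 1472353711) (nat_lit 304) (nat_lit 8566837650) (nat_lit 75) (nat_lit 5) (nat_lit 78) (nat_lit 5) (nat_lit 79) (nat_lit 5) (nat_lit 330) (nat_lit 305) (nat_lit 265)))) (XT.nd (nat_lit 156) (nat_lit 304) (nat_lit 0) (XT.nd (nat_lit 78) (nat_lit 304)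 (nat_lit 0) (XT.lf (nat_lit 0) (nat_lit 4878708826) (nat_lit 304) (nat_lit 3637593865) (nat_lit 76) (nat_lit 2618922225) (nat_lit 75) (nat_lit 5) (nat_lit 79) (nat_lit 5) (nat_lit 76) (nat_lit 5) (nat_lit 331) (nat_lit 305) (nat_lit 264)) (XT.lf (nat_lit 0) (nat_lit 3089487256) (nat_lit 304) (nat_lit 4541187365) (nat_lit 380) (nat_lit 3810369172) (nat_lit 71) (nat_lit 5) (nat_lit 75) (nat_lit 5) (nat_lit 76) (nat_lit 5) (nat_lit 332) (nat_lit 305) (nat_lit 263))) (XT.nd (nat_lit 78) (nat_lit 304) (nat_lit 0) (XT.lf (nat_lit 0) (nat_lit 10210987715) (nat_lit 304) (nat_lit 319318422) (nat_lit 380) (nat_lit 1231379024) (nat_lit 71) (nat_lit 5) (nat_lit 75) (nat_lit 5) (nat_lit 76) (nat_lit 5) (nat_lit 333) (nat_lit 305) (nat_lit 262)) (XT.lf (nat_lit 0) (nat_lit 1533895947) (nat_lit 304) (nat_lit 6478728941) (nat_lit 76) (nat_lit 4079382995) (nat_lit 67) (nat_lit 5) (nat_lit 71) (nat_lit 5)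 (nat_lit 68) (nat_lit 5) (nat_lit 334) (nat_lit 305) (nat_lit 261))))))))
noncomputable def xc115 : XT := (XT.nd (nat_lit 1950) (nat_lit 1292) (nat_lit 0) (XT.nd (nat_lit 936) (nat_lit 1140) (nat_lit 0) (XT.nd (nat_lit 468) (nat_lit 608) (nat_lit 0) (XT.nd (nat_lit 234) (nat_lit 456) (nat_lit 0) (XT.nd (nat_lit 78) (nat_lit 228) (nat_lit 0) (XT.lf (nat_lit 0) (nat_lit 679891225) (nat_lit 228) (nat_lit 3709870977) (nat_lit 304) (nat_lit 8048419879) (nat_lit 64) (nat_lit 5) (nat_lit 67) (nat_lit 5) (nat_lit 68) (nat_lit 5) (nat_lit 335) (nat_lit 305) (nat_lit 260)) (XT.nd (nat_lit 78) (nat_lit 228) (nat_lit 0) (XT.lf (nat_lit 0) (nat_lit 7464709731) (nat_lit 304) (nat_lit 4458013095) (nat_lit 76) (nat_lit 875156490) (nat_lit 64) (nat_lit 5) (nat_lit 68) (nat_lit 5) (nat_lit 65) (nat_lit 5) (nat_lit 336) (nat_lit 305) (nat_lit 259)) (XT.lf (nat_lit 0) (nat_lit 3182817504) (nat_lit 228) (nat_lit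 7575529191) (nat_lit 304) (nat_lit 2413994977) (nat_lit 61) (nat_lit 5) (nat_lit 64) (nat_lit 5) (nat_lit 65) (nat_lit 5) (nat_lit 337) (nat_lit 305) (nat_lit 258)))) (XT.nd (nat_lit 78) (nat_lit 380) (nat_lit 0) (XT.lf (nat_lit 0) (nat_lit 661876354) (nat_lit 304) (nat_lit 2278669004) (nat_lit 76) (nat_lit 10622919372) (nat_lit 60) (nat_lit 5) (nat_lit 64) (nat_lit 5) (nat_lit 61) (nat_lit 5) (nat_lit 338) (nat_lit 305) (nat_lit 257)) (XT.nd (nat_lit 78) (nat_lit 152) (nat_lit 0) (XT.lf (nat_lit 0) (nat_lit 3891513964) (nat_lit 304) (nat_lit 8097357276) (nat_lit 76) (nat_lit 1979262713) (nat_lit 57) (nat_lit 5) (nat_lit 61) (nat_lit 5) (nat_lit 58) (nat_lit 5) (nat_lit 339) (nat_lit 305) (nat_lit 256)) (XT.lf (nat_lit 0) (nat_lit 3338505) (nat_lit 152) (nat_lit 7324540468) (nat_lit 228) (nat_lit 7062917896) (nat_lit 55) (nat_lit 5) (nat_lit 57) (nat_lit 5) (nat_lit 58) (nat_lit 5) (nat_lit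 340) (nat_lit 305) (nat_lit 255))))) (XT.nd (nat_lit 234) (nat_lit 304) (nat_lit 0) (XT.nd (nat_lit 78) (nat_lit 304) (nat_lit 0) (XT.lf (nat_lit 0) (nat_lit 8727589468) (nat_lit 152) (nat_lit 2304403990) (nat_lit 228) (nat_lit 3797824350) (nat_lit 55) (nat_lit 5) (nat_lit 57) (nat_lit 5) (nat_lit 58) (nat_lit 5) (nat_lit 341) (nat_lit 305) (nat_lit 254)) (XT.nd (nat_lit 78) (nat_lit 76) (nat_lit 0) (XT.lf (nat_lit 0) (nat_lit 2571978727) (nat_lit 228) (nat_lit 12396252177) (nat_lit 304) (nat_lit 320233442) (nat_lit 52) (nat_lit 5) (nat_lit 55) (nat_lit 5) (nat_lit 56) (nat_lit 5) (nat_lit 342) (nat_lit 305) (nat_lit 253)) (XT.lf (nat_lit 0) (nat_lit 3328164866) (nat_lit 304) (nat_lit 4026218625) (nat_lit 76) (nat_lit 8407900329) (nat_lit 51) (nat_lit 5) (nat_lit 55) (nat_lit 5) (nat_lit 52) (nat_lit 5) (nat_lit 343) (nat_lit 305) (nat_lit 252)))) (XT.nd (nat_lit 78) (nat_lit 152) (nat_lit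 0) (XT.lf (nat_lit 0) (nat_lit 5201100515) (nat_lit 152) (nat_lit 1990927026) (nat_lit 228) (nat_lit 9065331557) (nat_lit 49) (nat_lit 5) (nat_lit 51) (nat_lit 5) (nat_lit 52) (nat_lit 5) (nat_lit 344) (nat_lit 305) (nat_lit 251)) (XT.nd (nat_lit 78) (nat_lit 152) (nat_lit 0) (XT.lf (nat_lit 0) (nat_lit 11338379554) (nat_lit 228) (nat_lit 1861415581) (nat_lit 76) (nat_lit 3572944990) (nat_lit 49) (nat_lit 5) (nat_lit 52) (nat_lit 5) (nat_lit 50) (nat_lit 5) (nat_lit 345) (nat_lit 305) (nat_lit 250)) (XT.lf (nat_lit 0) (nat_lit 7958840987) (nat_lit 152) (nat_lit 7855011734) (nat_lit 228) (nat_lit 1493963302) (nat_lit 47) (nat_lit 5) (nat_lit 49) (nat_lit 5) (nat_lit 50) (nat_lit 5) (nat_lit 346) (nat_lit 305) (nat_lit 249)))))) (XT.nd (nat_lit 468) (nat_lit 532) (nat_lit 0) (XT.nd (nat_lit 234) (nat_lit 228) (nat_lit 0) (XT.nd (nat_lit 78) (nat_lit 152) (nat_lit 0) (XT.lf (nat_lit 0) (nat_lit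 380370365) (nat_lit 152) (nat_lit 2181589007) (nat_lit 228) (nat_lit 15305481638) (nat_lit 44) (nat_lit 5) (nat_lit 46) (nat_lit 5) (nat_lit 47) (nat_lit 5) (nat_lit 347) (nat_lit 305) (nat_lit 248)) (XT.nd (nat_lit 78) (nat_lit 152) (nat_lit 0) (XT.lf (nat_lit 0) (nat_lit 6955926609) (nat_lit 228) (nat_lit 7669550631) (nat_lit 76) (nat_lit 3819086496) (nat_lit 44) (nat_lit 5) (nat_lit 47) (nat_lit 5) (nat_lit 45) (nat_lit 5) (nat_lit 348) (nat_lit 305) (nat_lit 247)) (XT.lf (nat_lit 0) (nat_lit 2632927744) (nat_lit 152) (nat_lit 8980758644) (nat_lit 228) (nat_lit 7434664659) (nat_lit 42) (nat_lit 5) (nat_lit 44) (nat_lit 5) (nat_lit 45) (nat_lit 5) (nat_lit 349) (nat_lit 305) (nat_lit 246)))) (XT.nd (nat_lit 78) (nat_lit 228) (nat_lit 0) (XT.lf (nat_lit 0) (nat_lit 13663253308) (nat_lit 152) (nat_lit 2938916248) (nat_lit 228) (nat_lit 3075278933) (nat_lit 42) (nat_lit 5) (nat_lit 44) (nat_lit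 5) (nat_lit 45) (nat_lit 5) (nat_lit 350) (nat_lit 305) (nat_lit 245)) (XT.nd (nat_lit 78) (nat_lit 0) (nat_lit 0) (XT.lf (nat_lit 0) (nat_lit 1555387647) (nat_lit 228) (nat_lit 15397627549) (nat_lit 76) (nat_lit 3378755026) (nat_lit 39) (nat_lit 5) (nat_lit 42) (nat_lit 5) (nat_lit 40) (nat_lit 5) (nat_lit 351) (nat_lit 305) (nat_lit 244)) (XT.lf (nat_lit 0) (nat_lit 6435255563) (nat_lit 228) (nat_lit 4527680002) (nat_lit 76) (nat_lit 10047311704) (nat_lit 39) (nat_lit 5) (nat_lit 42) (nat_lit 5) (nat_lit 40) (nat_lit 5) (nat_lit 352) (nat_lit 305) (nat_lit 243))))) (XT.nd (nat_lit 234) (nat_lit 304) (nat_lit 0) (XT.nd (nat_lit 78) (nat_lit 76) (nat_lit 0) (XT.lf (nat_lit 0) (nat_lit 7061886307) (nat_lit 152) (nat_lit 4578263127) (nat_lit 228) (nat_lit 10078457420) (nat_lit 37) (nat_lit 5) (nat_lit 39) (nat_lit 5) (nat_lit 40) (nat_lit 5) (nat_lit 353) (nat_lit 305) (nat_lit 242)) (XT.nd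 (nat_lit 78) (nat_lit 76) (nat_lit 0) (XT.lf (nat_lit 0) (nat_lit 17187492403) (nat_lit 228) (nat_lit 3155090866) (nat_lit 76) (nat_lit 2115700748) (nat_lit 37) (nat_lit 5) (nat_lit 40) (nat_lit 5) (nat_lit 38) (nat_lit 4) (nat_lit 354) (nat_lit 305) (nat_lit 241)) (XT.lf (nat_lit 0) (nat_lit 9089666358) (nat_lit 76) (nat_lit 14111963568) (nat_lit 152) (nat_lit 23853095) (nat_lit 36) (nat_lit 5) (nat_lit 37) (nat_lit 5) (nat_lit 38) (nat_lit 4) (nat_lit 355) (nat_lit 305) (nat_lit 240)))) (XT.nd (nat_lit 156) (nat_lit 76) (nat_lit 0) (XT.nd (nat_lit 78) (nat_lit 152) (nat_lit 0) (XT.lf (nat_lit 0) (nat_lit 5336758110) (nat_lit 152) (nat_lit 2106660263) (nat_lit 76) (nat_lit 16582005244) (nat_lit 35) (nat_lit 5) (nat_lit 37) (nat_lit 5) (nat_lit 36) (nat_lit 5) (nat_lit 356) (nat_lit 305) (nat_lit 239)) (XT.lf (nat_lit 0) (nat_lit 10824323058) (nat_lit 152) (nat_lit 283163607) (nat_lit 228)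 (nat_lit 13750718685) (nat_lit 33) (nat_lit 5) (nat_lit 35) (nat_lit 5) (nat_lit 36) (nat_lit 5) (nat_lit 357) (nat_lit 305) (nat_lit 238))) (XT.nd (nat_lit 78) (nat_lit 76) (nat_lit 0) (XT.lf (nat_lit 0) (nat_lit 17290103420) (nat_lit 228) (nat_lit 1415325833) (nat_lit 76) (nat_lit 7021037023) (nat_lit 33) (nat_lit 5) (nat_lit 36) (nat_lit 5) (nat_lit 34) (nat_lit 4) (nat_lit 358) (nat_lit 305) (nat_lit 237)) (XT.lf (nat_lit 0) (nat_lit 12175462063) (nat_lit 76) (nat_lit 11776485333) (nat_lit 152) (nat_lit 2677695361) (nat_lit 32) (nat_lit 5) (nat_lit 33) (nat_lit 5) (nat_lit 34) (nat_lit 4) (nat_lit 359) (nat_lit 305) (nat_lit 236))))))) (XT.nd (nat_lit 936) (nat_lit 456) (nat_lit 0) (XT.nd (nat_lit 468) (nat_lit 304) (nat_lit 0) (XT.nd (nat_lit 234) (nat_lit 304) (nat_lit 0) (XT.nd (nat_lit 78) (nat_lit 152) (nat_lit 0) (XT.lf (nat_lit 0) (nat_lit 3260901787) (nat_lit 152) (nat_lit 1178701983)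 (nat_lit 76) (nat_lit 23135759922) (nat_lit 31) (nat_lit 5) (nat_lit 33) (nat_lit 5) (nat_lit 32) (nat_lit 5) (nat_lit 360) (nat_lit 305) (nat_lit 235)) (XT.nd (nat_lit 78) (nat_lit 0) (nat_lit 0) (XT.lf (nat_lit 0) (nat_lit 9642248823) (nat_lit 228) (nat_lit 15517901139) (nat_lit 76) (nat_lit 3394241801) (nat_lit 29) (nat_lit 5) (nat_lit 32) (nat_lit 5) (nat_lit 30) (nat_lit 4) (nat_lit 361) (nat_lit 305) (nat_lit 234)) (XT.lf (nat_lit 0) (nat_lit 16412548646) (nat_lit 228) (nat_lit 1693078494) (nat_lit 76) (nat_lit 11473255855) (nat_lit 29) (nat_lit 5) (nat_lit 32) (nat_lit 5) (nat_lit 30) (nat_lit 4) (nat_lit 362) (nat_lit 305) (nat_lit 233)))) (XT.nd (nat_lit 78) (nat_lit 228) (nat_lit 0) (XT.lf (nat_lit 0) (nat_lit 13205685451) (nat_lit 76) (nat_lit 10499775685) (nat_lit 152) (nat_lit 6939938511) (nat_lit 28) (nat_lit 5) (nat_lit 29) (nat_lit 5) (nat_lit 30) (nat_lit 4) (nat_lit 363)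 (nat_lit 305) (nat_lit 232)) (XT.nd (nat_lit 78) (nat_lit 228) (nat_lit 0) (XT.lf (nat_lit 0) (nat_lit 28868847802) (nat_lit 76) (nat_lit 2501202010) (nat_lit 152) (nat_lit 394846258) (nat_lit 28) (nat_lit 5) (nat_lit 29) (nat_lit 5) (nat_lit 30) (nat_lit 4) (nat_lit 364) (nat_lit 305) (nat_lit 231)) (XT.lf (nat_lit 0) (nat_lit 6543270506) (nat_lit 228) (nat_lit 20383108584) (nat_lit 76) (nat_lit 5995282071) (nat_lit 25) (nat_lit 5) (nat_lit 28) (nat_lit 5) (nat_lit 26) (nat_lit 4) (nat_lit 365) (nat_lit 305) (nat_lit 230))))) (XT.nd (nat_lit 234) (nat_lit 228) (nat_lit 0) (XT.nd (nat_lit 78) (nat_lit 76) (nat_lit 0) (XT.lf (nat_lit 0) (nat_lit 13885068817) (nat_lit 228) (nat_lit 5374961244) (nat_lit 76) (nat_lit 14872413269) (nat_lit 25) (nat_lit 5) (nat_lit 28) (nat_lit 5) (nat_lit 26) (nat_lit 4) (nat_lit 366) (nat_lit 305) (nat_lit 229)) (XT.nd (nat_lit 78) (nat_lit 0) (nat_lit 0) (XT.lf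 (nat_lit 0) (nat_lit 10689243114) (nat_lit 76) (nat_lit 11051785644) (nat_lit 152) (nat_lit 13655386761) (nat_lit 24) (nat_lit 5) (nat_lit 25) (nat_lit 5) (nat_lit 26) (nat_lit 4) (nat_lit 367) (nat_lit 305) (nat_lit 228)) (XT.lf (nat_lit 0) (nat_lit 27707379596) (nat_lit 76) (nat_lit 2354000765) (nat_lit 152) (nat_lit 6658630558) (nat_lit 24) (nat_lit 5) (nat_lit 25) (nat_lit 5) (nat_lit 26) (nat_lit 4) (nat_lit 368) (nat_lit 305) (nat_lit 227)))) (XT.nd (nat_lit 78) (nat_lit 76) (nat_lit 0) (XT.lf (nat_lit 0) (nat_lit 874546343) (nat_lit 152) (nat_lit 30545462950) (nat_lit 76) (nat_lit 6678813529) (nat_lit 22) (nat_lit 5) (nat_lit 24) (nat_lit 5) (nat_lit 23) (nat_lit 4) (nat_lit 369) (nat_lit 305) (nat_lit 226)) (XT.nd (nat_lit 78) (nat_lit 76) (nat_lit 0) (XT.lf (nat_lit 0) (nat_lit 8735633163) (nat_lit 152) (nat_lit 14463565542) (nat_lit 76) (nat_lit 16333171186) (nat_lit 22) (nat_lit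 5) (nat_lit 24) (nat_lit 5) (nat_lit 23) (nat_lit 4) (nat_lit 370) (nat_lit 305) (nat_lit 225)) (XT.lf (nat_lit 0) (nat_lit 2468165855) (nat_lit 76) (nat_lit 14542333064) (nat_lit 152) (nat_lit 24026062691) (nat_lit 21) (nat_lit 5) (nat_lit 22) (nat_lit 5) (nat_lit 23) (nat_lit 4) (nat_lit 371) (nat_lit 305) (nat_lit 224)))))) (XT.nd (nat_lit 468) (nat_lit 228) (nat_lit 0) (XT.nd (nat_lit 234) (nat_lit 152) (nat_lit 0) (XT.nd (nat_lit 78) (nat_lit 76) (nat_lit 0) (XT.lf (nat_lit 0) (nat_lit 20715904969) (nat_lit 76) (nat_lit 5210677329) (nat_lit 152) (nat_lit 16678010257) (nat_lit 21) (nat_lit 5) (nat_lit 22) (nat_lit 5) (nat_lit 23) (nat_lit 4) (nat_lit 372) (nat_lit 305) (nat_lit 223)) (XT.nd (nat_lit 78) (nat_lit 76) (nat_lit 0) (XT.lf (nat_lit 0) (nat_lit 35343226714) (nat_lit 152) (nat_lit 4478390256) (nat_lit 0) (nat_lit 4426673431) (nat_lit 21) (nat_lit 5) (nat_lit 23) (nat_lit 4)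 (nat_lit 21) (nat_lit 4) (nat_lit 373) (nat_lit 305) (nat_lit 222)) (XT.lf (nat_lit 0) (nat_lit 14139287885) (nat_lit 76) (nat_lit 31381525722) (nat_lit 76) (nat_lit 438857064) (nat_lit 20) (nat_lit 4) (nat_lit 21) (nat_lit 5) (nat_lit 21) (nat_lit 4) (nat_lit 374) (nat_lit 305) (nat_lit 221)))) (XT.nd (nat_lit 78) (nat_lit 76) (nat_lit 0) (XT.lf (nat_lit 0) (nat_lit 8241247391) (nat_lit 152) (nat_lit 14072983292) (nat_lit 76) (nat_lit 25432742040) (nat_lit 19) (nat_lit 5) (nat_lit 21) (nat_lit 5) (nat_lit 20) (nat_lit 4) (nat_lit 375) (nat_lit 305) (nat_lit 220)) (XT.nd (nat_lit 78) (nat_lit 0) (nat_lit 0) (XT.lf (nat_lit 0) (nat_lit 4675372705) (nat_lit 76) (nat_lit 12722969034) (nat_lit 152) (nat_lit 32222054393) (nat_lit 18) (nat_lit 5) (nat_lit 19) (nat_lit 5) (nat_lit 20) (nat_lit 4) (nat_lit 376) (nat_lit 305) (nat_lit 219)) (XT.lf (nat_lit 0) (nat_lit 24821333973) (nat_lit 76) (nat_lit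 2415310552) (nat_lit 152) (nat_lit 24339681004) (nat_lit 18) (nat_lit 5) (nat_lit 19) (nat_lit 5) (nat_lit 20) (nat_lit 4) (nat_lit 377) (nat_lit 305) (nat_lit 218))))) (XT.nd (nat_lit 234) (nat_lit 76) (nat_lit 0) (XT.nd (nat_lit 78) (nat_lit 152) (nat_lit 0) (XT.lf (nat_lit 0) (nat_lit 37683665440) (nat_lit 152) (nat_lit 7814285127) (nat_lit 0) (nat_lit 8126263068) (nat_lit 18) (nat_lit 5) (nat_lit 20) (nat_lit 4) (nat_lit 18) (nat_lit 4) (nat_lit 378) (nat_lit 305) (nat_lit 217)) (XT.nd (nat_lit 78) (nat_lit 76) (nat_lit 0) (XT.lf (nat_lit 0) (nat_lit 12404640875) (nat_lit 76) (nat_lit 36467886554) (nat_lit 76) (nat_lit 6890996486) (nat_lit 17) (nat_lit 4) (nat_lit 18) (nat_lit 5) (nat_lit 18) (nat_lit 4) (nat_lit 379) (nat_lit 305) (nat_lit 216)) (XT.lf (nat_lit 0) (nat_lit 2648224262) (nat_lit 152) (nat_lit 24166590041) (nat_lit 76) (nat_lit 31186911151) (nat_lit 16) (nat_lit 5) (nat_lit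 18) (nat_lit 5) (nat_lit 17) (nat_lit 4) (nat_lit 380) (nat_lit 305) (nat_lit 215)))) (XT.nd (nat_lit 156) (nat_lit 0) (nat_lit 0) (XT.nd (nat_lit 78) (nat_lit 76) (nat_lit 0) (XT.lf (nat_lit 0) (nat_lit 12419730640) (nat_lit 152) (nat_lit 4152677880) (nat_lit 76) (nat_lit 43774436790) (nat_lit 16) (nat_lit 5) (nat_lit 18) (nat_lit 5) (nat_lit 17) (nat_lit 4) (nat_lit 381) (nat_lit 305) (nat_lit 214)) (XT.lf (nat_lit 0) (nat_lit 17394836789) (nat_lit 76) (nat_lit 5544088423) (nat_lit 152) (nat_lit 39857342173) (nat_lit 15) (nat_lit 5) (nat_lit 16) (nat_lit 5) (nat_lit 17) (nat_lit 4) (nat_lit 382) (nat_lit 305) (nat_lit 213))) (XT.nd (nat_lit 78) (nat_lit 0) (nat_lit 0) (XT.lf (nat_lit 0) (nat_lit 34137376732) (nat_lit 152) (nat_lit 25320022566) (nat_lit 0) (nat_lit 5903098186) (nat_lit 15) (nat_lit 5) (nat_lit 17) (nat_lit 4) (nat_lit 15) (nat_lit 4) (nat_lit 383) (nat_lit 305) (nat_lit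 212)) (XT.lf (nat_lit 0) (nat_lit 45974812115) (nat_lit 152) (nat_lit 4348184053) (nat_lit 0) (nat_lit 17725991550) (nat_lit 15) (nat_lit 5) (nat_lit 17) (nat_lit 4) (nat_lit 15) (nat_lit 4) (nat_lit 384) (nat_lit 305) (nat_lit 211))))))))
noncomputable def xc116 : XT := (XT.nd (nat_lit 1872) (nat_lit 228) (nat_lit 0) (XT.nd (nat_lit 936) (nat_lit 228) (nat_lit 0) (XT.nd (nat_lit 468) (nat_lit 228) (nat_lit 0) (XT.nd (nat_lit 234) (nat_lit 76) (nat_lit 0) (XT.nd (nat_lit 78) (nat_lit 76) (nat_lit 0) (XT.lf (nat_lit 0) (nat_lit 18234184421) (nat_lit 76) (nat_lit 40443359272) (nat_lit 76) (nat_lit 12180689165) (nat_lit 14) (nat_lit 4) (nat_lit 15) (nat_lit 5) (nat_lit 15) (nat_lit 4) (nat_lit 385) (nat_lit 305) (nat_lit 210)) (XT.nd (nat_lit 78) (nat_lit 76) (nat_lit 0) (XT.lf (nat_lit 0) (nat_lit 42075310227) (nat_lit 76) (nat_lit 30002681363) (nat_lit 76) (nat_lit 1726821217) (nat_lit 14)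 (nat_lit 4) (nat_lit 15) (nat_lit 5) (nat_lit 15) (nat_lit 4) (nat_lit 386) (nat_lit 305) (nat_lit 209)) (XT.lf (nat_lit 0) (nat_lit 8942984351) (nat_lit 152) (nat_lit 9955304168) (nat_lit 76) (nat_lit 57993749226) (nat_lit 13) (nat_lit 5) (nat_lit 15) (nat_lit 5) (nat_lit 14) (nat_lit 4) (nat_lit 387) (nat_lit 305) (nat_lit 208)))) (XT.nd (nat_lit 78) (nat_lit 0) (nat_lit 0) (XT.lf (nat_lit 0) (nat_lit 13284816158) (nat_lit 76) (nat_lit 7000648233) (nat_lit 152) (nat_lit 59836884606) (nat_lit 12) (nat_lit 5) (nat_lit 13) (nat_lit 5) (nat_lit 14) (nat_lit 4) (nat_lit 388) (nat_lit 305) (nat_lit 207)) (XT.nd (nat_lit 78) (nat_lit 0) (nat_lit 0) (XT.lf (nat_lit 0) (nat_lit 32442014648) (nat_lit 152) (nat_lit 45581400369) (nat_lit 0) (nat_lit 5478414747) (nat_lit 12) (nat_lit 5) (nat_lit 14) (nat_lit 4) (nat_lit 12) (nat_lit 4) (nat_lit 389) (nat_lit 305) (nat_lit 206)) (XT.lf (nat_lit 0)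 (nat_lit 45311481789) (nat_lit 152) (nat_lit 23396002372) (nat_lit 0) (nat_lit 18337547147) (nat_lit 12) (nat_lit 5) (nat_lit 14) (nat_lit 4) (nat_lit 12) (nat_lit 4) (nat_lit 390) (nat_lit 305) (nat_lit 205))))) (XT.nd (nat_lit 234) (nat_lit 152) (nat_lit 0) (XT.nd (nat_lit 78) (nat_lit 76) (nat_lit 0) (XT.lf (nat_lit 0) (nat_lit 58815207663) (nat_lit 152) (nat_lit 119216733) (nat_lit 0) (nat_lit 31831430411) (nat_lit 12) (nat_lit 5) (nat_lit 14) (nat_lit 4) (nat_lit 12) (nat_lit 4) (nat_lit 391) (nat_lit 305) (nat_lit 204)) (XT.nd (nat_lit 78) (nat_lit 0) (nat_lit 0) (XT.lf (nat_lit 0) (nat_lit 25107989946) (nat_lit 76) (nat_lit 48269360141) (nat_lit 76) (nat_lit 21276208973) (nat_lit 11) (nat_lit 4) (nat_lit 12) (nat_lit 5) (nat_lit 12) (nat_lit 4) (nat_lit 392) (nat_lit 305) (nat_lit 203)) (XT.lf (nat_lit 0) (nat_lit 51583939863) (nat_lit 76) (nat_lit 37077059219) (nat_lit 76) (nat_lit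 10074980514) (nat_lit 11) (nat_lit 4) (nat_lit 12) (nat_lit 5) (nat_lit 12) (nat_lit 4) (nat_lit 393) (nat_lit 305) (nat_lit 202)))) (XT.nd (nat_lit 78) (nat_lit 76) (nat_lit 0) (XT.lf (nat_lit 0) (nat_lit 1623992313) (nat_lit 152) (nat_lit 23681396880) (nat_lit 76) (nat_lit 77716233740) (nat_lit 10) (nat_lit 5) (nat_lit 12) (nat_lit 5) (nat_lit 11) (nat_lit 4) (nat_lit 394) (nat_lit 305) (nat_lit 201)) (XT.nd (nat_lit 78) (nat_lit 0) (nat_lit 0) (XT.lf (nat_lit 0) (nat_lit 808014111) (nat_lit 76) (nat_lit 12765982364) (nat_lit 152) (nat_lit 93939061275) (nat_lit 9) (nat_lit 5) (nat_lit 10) (nat_lit 5) (nat_lit 11) (nat_lit 4) (nat_lit 395) (nat_lit 305) (nat_lit 200)) (XT.lf (nat_lit 0) (nat_lit 26527460771) (nat_lit 152) (nat_lit 84893265251) (nat_lit 0) (nat_lit 788041146) (nat_lit 9) (nat_lit 5) (nat_lit 11) (nat_lit 4) (nat_lit 9) (nat_lit 4) (nat_lit 396) (nat_lit 305) (nat_lit 199))))))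 (XT.nd (nat_lit 468) (nat_lit 152) (nat_lit 0) (XT.nd (nat_lit 234) (nat_lit 76) (nat_lit 0) (XT.nd (nat_lit 78) (nat_lit 0) (nat_lit 0) (XT.lf (nat_lit 0) (nat_lit 40330331956) (nat_lit 152) (nat_lit 62214926860) (nat_lit 0) (nat_lit 14583917371) (nat_lit 9) (nat_lit 5) (nat_lit 11) (nat_lit 4) (nat_lit 9) (nat_lit 4) (nat_lit 397) (nat_lit 305) (nat_lit 198)) (XT.nd (nat_lit 78) (nat_lit 0) (nat_lit 0) (XT.lf (nat_lit 0) (nat_lit 54816161249) (nat_lit 152) (nat_lit 38416719662) (nat_lit 0) (nat_lit 29063084798) (nat_lit 9) (nat_lit 5) (nat_lit 11) (nat_lit 4) (nat_lit 9) (nat_lit 4) (nat_lit 398) (nat_lit 305) (nat_lit 197)) (XT.lf (nat_lit 0) (nat_lit 70019438718) (nat_lit 152) (nat_lit 13441981259) (nat_lit 0) (nat_lit 44260017633) (nat_lit 9) (nat_lit 5) (nat_lit 11) (nat_lit 4) (nat_lit 9) (nat_lit 4) (nat_lit 399) (nat_lit 305) (nat_lit 196)))) (XT.nd (nat_lit 78) (nat_lit 0) (nat_lit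 0) (XT.lf (nat_lit 0) (nat_lit 13190944619) (nat_lit 76) (nat_lit 72991365638) (nat_lit 76) (nat_lit 47225902043) (nat_lit 8) (nat_lit 4) (nat_lit 9) (nat_lit 5) (nat_lit 9) (nat_lit 4) (nat_lit 400) (nat_lit 305) (nat_lit 195)) (XT.nd (nat_lit 78) (nat_lit 0) (nat_lit 0) (XT.lf (nat_lit 0) (nat_lit 41609655492) (nat_lit 76) (nat_lit 61764913543) (nat_lit 76) (nat_lit 35993695178) (nat_lit 8) (nat_lit 4) (nat_lit 9) (nat_lit 5) (nat_lit 9) (nat_lit 4) (nat_lit 401) (nat_lit 305) (nat_lit 194)) (XT.lf (nat_lit 0) (nat_lit 71437362352) (nat_lit 76) (nat_lit 49982980502) (nat_lit 76) (nat_lit 24206281402) (nat_lit 8) (nat_lit 4) (nat_lit 9) (nat_lit 5) (nat_lit 9) (nat_lit 4) (nat_lit 402) (nat_lit 305) (nat_lit 193))))) (XT.nd (nat_lit 234) (nat_lit 0) (nat_lit 0) (XT.nd (nat_lit 78) (nat_lit 152) (nat_lit 0) (XT.lf (nat_lit 0) (nat_lit 102745083549) (nat_lit 76) (nat_lit 37617514292) (nat_lit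 76) (nat_lit 11835595446) (nat_lit 8) (nat_lit 4) (nat_lit 9) (nat_lit 5) (nat_lit 9) (nat_lit 4) (nat_lit 403) (nat_lit 305) (nat_lit 192)) (XT.nd (nat_lit 78) (nat_lit 76) (nat_lit 0) (XT.lf (nat_lit 0) (nat_lit 1111079402) (nat_lit 152) (nat_lit 23509177257) (nat_lit 76) (nat_lit 134477465204) (nat_lit 7) (nat_lit 5) (nat_lit 9) (nat_lit 5) (nat_lit 8) (nat_lit 4) (nat_lit 404) (nat_lit 305) (nat_lit 191)) (XT.lf (nat_lit 0) (nat_lit 3644067192) (nat_lit 76) (nat_lit 10714806802) (nat_lit 152) (nat_lit 151971075114) (nat_lit 6) (nat_lit 5) (nat_lit 7) (nat_lit 5) (nat_lit 8) (nat_lit 4) (nat_lit 405) (nat_lit 305) (nat_lit 190)))) (XT.nd (nat_lit 78) (nat_lit 0) (nat_lit 0) (XT.lf (nat_lit 0) (nat_lit 28729054823) (nat_lit 152) (nat_lit 141010424943) (nat_lit 0) (nat_lit 4161308623) (nat_lit 6) (nat_lit 5) (nat_lit 8) (nat_lit 4) (nat_lit 6) (nat_lit 4) (nat_lit 406) (nat_lit 305) (nat_lit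 189)) (XT.nd (nat_lit 78) (nat_lit 0) (nat_lit 0) (XT.lf (nat_lit 0) (nat_lit 43988311845) (nat_lit 152) (nat_lit 118436854072) (nat_lit 0) (nat_lit 19416475836) (nat_lit 6) (nat_lit 5) (nat_lit 8) (nat_lit 4) (nat_lit 6) (nat_lit 4) (nat_lit 407) (nat_lit 305) (nat_lit 188)) (XT.lf (nat_lit 0) (nat_lit 60005688461) (nat_lit 152) (nat_lit 94744134545) (nat_lit 0) (nat_lit 35429957397) (nat_lit 6) (nat_lit 5) (nat_lit 8) (nat_lit 4) (nat_lit 6) (nat_lit 4) (nat_lit 408) (nat_lit 305) (nat_lit 187))))))) (XT.nd (nat_lit 936) (nat_lit 76) (nat_lit 0) (XT.nd (nat_lit 468) (nat_lit 76) (nat_lit 0) (XT.nd (nat_lit 234) (nat_lit 76) (nat_lit 0) (XT.nd (nat_lit 78) (nat_lit 0) (nat_lit 0) (XT.lf (nat_lit 0) (nat_lit 76819321282) (nat_lit 152) (nat_lit 69875855125) (nat_lit 0) (nat_lit 52239880642) (nat_lit 6) (nat_lit 5) (nat_lit 8) (nat_lit 4) (nat_lit 6) (nat_lit 4) (nat_lit 409) (nat_lit 305)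 (nat_lit 186)) (XT.nd (nat_lit 78) (nat_lit 0) (nat_lit 0) (XT.lf (nat_lit 0) (nat_lit 94469242768) (nat_lit 152) (nat_lit 43772805623) (nat_lit 0) (nat_lit 69886269198) (nat_lit 6) (nat_lit 5) (nat_lit 8) (nat_lit 4) (nat_lit 6) (nat_lit 4) (nat_lit 410) (nat_lit 305) (nat_lit 185)) (XT.lf (nat_lit 0) (nat_lit 112997476541) (nat_lit 152) (nat_lit 16372835921) (nat_lit 0) (nat_lit 88411138275) (nat_lit 6) (nat_lit 5) (nat_lit 8) (nat_lit 4) (nat_lit 6) (nat_lit 4) (nat_lit 411) (nat_lit 305) (nat_lit 184)))) (XT.nd (nat_lit 78) (nat_lit 0) (nat_lit 0) (XT.lf (nat_lit 0) (nat_lit 12798937949) (nat_lit 76) (nat_lit 119849026784) (nat_lit 76) (nat_lit 95259484046) (nat_lit 5) (nat_lit 4) (nat_lit 6) (nat_lit 5) (nat_lit 6) (nat_lit 4) (nat_lit 412) (nat_lit 305) (nat_lit 183)) (XT.nd (nat_lit 78) (nat_lit 0) (nat_lit 0) (XT.lf (nat_lit 0) (nat_lit 43990014600) (nat_lit 76) (nat_lit 109564329381)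 (nat_lit 76) (nat_lit 84971734766) (nat_lit 5) (nat_lit 4) (nat_lit 6) (nat_lit 5) (nat_lit 6) (nat_lit 4) (nat_lit 413) (nat_lit 305) (nat_lit 182)) (XT.lf (nat_lit 0) (nat_lit 76733298602) (nat_lit 76) (nat_lit 98769014778) (nat_lit 76) (nat_lit 74173513613) (nat_lit 5) (nat_lit 4) (nat_lit 6) (nat_lit 5) (nat_lit 6) (nat_lit 4) (nat_lit 414) (nat_lit 305) (nat_lit 181))))) (XT.nd (nat_lit 234) (nat_lit 76) (nat_lit 0) (XT.nd (nat_lit 78) (nat_lit 0) (nat_lit 0) (XT.lf (nat_lit 0) (nat_lit 111106750154) (nat_lit 76) (nat_lit 87437379846) (nat_lit 76) (nat_lit 62839110537) (nat_lit 5) (nat_lit 4) (nat_lit 6) (nat_lit 5) (nat_lit 6) (nat_lit 4) (nat_lit 415) (nat_lit 305) (nat_lit 180)) (XT.nd (nat_lit 78) (nat_lit 0) (nat_lit 0) (XT.lf (nat_lit 0) (nat_lit 147192210808) (nat_lit 76) (nat_lit 75542444499) (nat_lit 76) (nat_lit 50941538864) (nat_lit 5) (nat_lit 4) (nat_lit 6) (nat_lit 5)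 (nat_lit 6) (nat_lit 4) (nat_lit 416) (nat_lit 305) (nat_lit 179)) (XT.lf (nat_lit 0) (nat_lit 185075598328) (nat_lit 76) (nat_lit 63055887465) (nat_lit 76) (nat_lit 38452471043) (nat_lit 5) (nat_lit 4) (nat_lit 6) (nat_lit 5) (nat_lit 6) (nat_lit 4) (nat_lit 417) (nat_lit 305) (nat_lit 178)))) (XT.nd (nat_lit 78) (nat_lit 76) (nat_lit 0) (XT.lf (nat_lit 0) (nat_lit 224847111255) (nat_lit 76) (nat_lit 49947978846) (nat_lit 76) (nat_lit 25342171197) (nat_lit 5) (nat_lit 4) (nat_lit 6) (nat_lit 5) (nat_lit 6) (nat_lit 4) (nat_lit 418) (nat_lit 305) (nat_lit 177)) (XT.nd (nat_lit 78) (nat_lit 76) (nat_lit 0) (XT.lf (nat_lit 0) (nat_lit 266601443667) (nat_lit 76) (nat_lit 36187509334) (nat_lit 76) (nat_lit 11579424327) (nat_lit 5) (nat_lit 4) (nat_lit 6) (nat_lit 5) (nat_lit 6) (nat_lit 4) (nat_lit 419) (nat_lit 305) (nat_lit 176)) (XT.lf (nat_lit 0) (nat_lit 2776726880) (nat_lit 152) (nat_lit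 18917963815) (nat_lit 76) (nat_lit 307614258549) (nat_lit 4) (nat_lit 5) (nat_lit 6) (nat_lit 5) (nat_lit 5) (nat_lit 4) (nat_lit 420) (nat_lit 305) (nat_lit 175)))))) (XT.nd (nat_lit 468) (nat_lit 0) (nat_lit 0) (XT.nd (nat_lit 234) (nat_lit 0) (nat_lit 0) (XT.nd (nat_lit 78) (nat_lit 0) (nat_lit 0) (XT.lf (nat_lit 0) (nat_lit 11547923256) (nat_lit 76) (nat_lit 6091219575) (nat_lit 152) (nat_lit 327339035730) (nat_lit 3) (nat_lit 5) (nat_lit 4) (nat_lit 5) (nat_lit 5) (nat_lit 4) (nat_lit 421) (nat_lit 305) (nat_lit 174)) (XT.nd (nat_lit 78) (nat_lit 0) (nat_lit 0) (XT.lf (nat_lit 0) (nat_lit 33728323046) (nat_lit 152) (nat_lit 317392219222) (nat_lit 0) (nat_lit 10286145124) (nat_lit 3) (nat_lit 5) (nat_lit 5) (nat_lit 4) (nat_lit 3) (nat_lit 4) (nat_lit 422) (nat_lit 305) (nat_lit 173)) (XT.lf (nat_lit 0) (nat_lit 50719259073) (nat_lit 152) (nat_lit 300657201178) (nat_lit 0) (nat_lit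 27275296782) (nat_lit 3) (nat_lit 5) (nat_lit 5) (nat_lit 4) (nat_lit 3) (nat_lit 4) (nat_lit 423) (nat_lit 305) (nat_lit 172)))) (XT.nd (nat_lit 78) (nat_lit 0) (nat_lit 0) (XT.lf (nat_lit 0) (nat_lit 68557304515) (nat_lit 152) (nat_lit 283090254884) (nat_lit 0) (nat_lit 45111642824) (nat_lit 3) (nat_lit 5) (nat_lit 5) (nat_lit 4) (nat_lit 3) (nat_lit 4) (nat_lit 424) (nat_lit 305) (nat_lit 171)) (XT.nd (nat_lit 78) (nat_lit 0) (nat_lit 0) (XT.lf (nat_lit 0) (nat_lit 87284930908) (nat_lit 152) (nat_lit 264649554277) (nat_lit 0) (nat_lit 63837650741) (nat_lit 3) (nat_lit 5) (nat_lit 5) (nat_lit 4) (nat_lit 3) (nat_lit 4) (nat_lit 425) (nat_lit 305) (nat_lit 170)) (XT.lf (nat_lit 0) (nat_lit 106946727839) (nat_lit 152) (nat_lit 245291192928) (nat_lit 0) (nat_lit 83497906267) (nat_lit 3) (nat_lit 5) (nat_lit 5) (nat_lit 4) (nat_lit 3) (nat_lit 4) (nat_lit 426) (nat_lit 305) (nat_lit 169)))))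 (XT.nd (nat_lit 234) (nat_lit 0) (nat_lit 0) (XT.nd (nat_lit 78) (nat_lit 0) (nat_lit 0) (XT.lf (nat_lit 0) (nat_lit 127589509111) (nat_lit 152) (nat_lit 224969079500) (nat_lit 0) (nat_lit 104139219533) (nat_lit 3) (nat_lit 5) (nat_lit 5) (nat_lit 4) (nat_lit 3) (nat_lit 4) (nat_lit 427) (nat_lit 305) (nat_lit 168)) (XT.nd (nat_lit 78) (nat_lit 0) (nat_lit 0) (XT.lf (nat_lit 0) (nat_lit 149262424202) (nat_lit 152) (nat_lit 203634828008) (nat_lit 0) (nat_lit 125810736524) (nat_lit 3) (nat_lit 5) (nat_lit 5) (nat_lit 4) (nat_lit 3) (nat_lit 4) (nat_lit 428) (nat_lit 305) (nat_lit 167)) (XT.lf (nat_lit 0) (nat_lit 172017075292) (nat_lit 152) (nat_lit 181237642616) (nat_lit 0) (nat_lit 148564056089) (nat_lit 3) (nat_lit 5) (nat_lit 5) (nat_lit 4) (nat_lit 3) (nat_lit 4) (nat_lit 429) (nat_lit 305) (nat_lit 166)))) (XT.nd (nat_lit 156) (nat_lit 0) (nat_lit 0) (XT.nd (nat_lit 78) (nat_lit 0)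 (nat_lit 0) (XT.lf (nat_lit 0) (nat_lit 195907640120) (nat_lit 152) (nat_lit 157724196692) (nat_lit 0) (nat_lit 172453352799) (nat_lit 3) (nat_lit 5) (nat_lit 5) (nat_lit 4) (nat_lit 3) (nat_lit 4) (nat_lit 430) (nat_lit 305) (nat_lit 165)) (XT.lf (nat_lit 0) (nat_lit 220991000985) (nat_lit 152) (nat_lit 133038505841) (nat_lit 0) (nat_lit 197535505932) (nat_lit 3) (nat_lit 5) (nat_lit 5) (nat_lit 4) (nat_lit 3) (nat_lit 4) (nat_lit 431) (nat_lit 305) (nat_lit 164))) (XT.nd (nat_lit 78) (nat_lit 0) (nat_lit 0) (XT.lf (nat_lit 0) (nat_lit 247326880173) (nat_lit 152) (nat_lit 107121794609) (nat_lit 0) (nat_lit 223870234900) (nat_lit 3) (nat_lit 5) (nat_lit 5) (nat_lit 4) (nat_lit 3) (nat_lit 4) (nat_lit 432) (nat_lit 305) (nat_lit 163)) (XT.lf (nat_lit 0) (nat_lit 274977982160) (nat_lit 152) (nat_lit 79912356539) (nat_lit 0) (nat_lit 251520241439) (nat_lit 3) (nat_lit 5) (nat_lit 5) (nat_lit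 4) (nat_lit 3) (nat_lit 4) (nat_lit 433) (nat_lit 305) (nat_lit 162))))))))
noncomputable def xc117 : XT := (XT.nd (nat_lit 38454) (nat_lit 0) (nat_lit 3040) (XT.nd (nat_lit 37440) (nat_lit 0) (nat_lit 6840) (XT.nd (nat_lit 36972) (nat_lit 0) (nat_lit 10260) (XT.nd (nat_lit 234) (nat_lit 0) (nat_lit 0) (XT.nd (nat_lit 78) (nat_lit 76) (nat_lit 0) (XT.lf (nat_lit 0) (nat_lit 304010142902) (nat_lit 152) (nat_lit 51345407256) (nat_lit 0) (nat_lit 280551358897) (nat_lit 3) (nat_lit 5) (nat_lit 5) (nat_lit 4) (nat_lit 3) (nat_lit 4) (nat_lit 434) (nat_lit 305) (nat_lit 161)) (XT.nd (nat_lit 78) (nat_lit 76) (nat_lit 0) (XT.lf (nat_lit 0) (nat_lit 334492486592) (nat_lit 152) (nat_lit 21352930214) (nat_lit 0) (nat_lit 311032708983) (nat_lit 3) (nat_lit 5) (nat_lit 5) (nat_lit 4) (nat_lit 3) (nat_lit 4) (nat_lit 435) (nat_lit 305) (nat_lit 160)) (XT.lf (nat_lit 0) (nat_lit 10471643226) (nat_lit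 76) (nat_lit 356189438710) (nat_lit 76) (nat_lit 332728714811) (nat_lit 2) (nat_lit 4) (nat_lit 3) (nat_lit 5) (nat_lit 3) (nat_lit 4) (nat_lit 436) (nat_lit 305) (nat_lit 159)))) (XT.nd (nat_lit 78) (nat_lit 0) (nat_lit 0) (XT.lf (nat_lit 0) (nat_lit 44626128740) (nat_lit 76) (nat_lit 356172266663) (nat_lit 76) (nat_lit 332710641537) (nat_lit 2) (nat_lit 4) (nat_lit 3) (nat_lit 5) (nat_lit 3) (nat_lit 4) (nat_lit 437) (nat_lit 305) (nat_lit 158)) (XT.nd (nat_lit 36582) (nat_lit 0) (nat_lit 11172) (XT.lf (nat_lit 0) (nat_lit 80485822224) (nat_lit 76) (nat_lit 356155481986) (nat_lit 76) (nat_lit 332692998547) (nat_lit 2) (nat_lit 4) (nat_lit 3) (nat_lit 5) (nat_lit 3) (nat_lit 4) (nat_lit 438) (nat_lit 305) (nat_lit 157)) (XT.lf (nat_lit 0) (nat_lit 981471881) (nat_lit 0) (nat_lit 981471881) (nat_lit 380) (nat_lit 1467477205) (nat_lit 149) (nat_lit 5) (nat_lit 149) (nat_lit 3) (nat_lit 154)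 (nat_lit 3) (nat_lit 306) (nat_lit 306) (nat_lit 288))))) (XT.nd (nat_lit 234) (nat_lit 456) (nat_lit 0) (XT.nd (nat_lit 78) (nat_lit 456) (nat_lit 0) (XT.lf (nat_lit 0) (nat_lit 5374309614) (nat_lit 0) (nat_lit 542038522) (nat_lit 380) (nat_lit 1019041601) (nat_lit 149) (nat_lit 5) (nat_lit 149) (nat_lit 3) (nat_lit 154) (nat_lit 3) (nat_lit 307) (nat_lit 306) (nat_lit 287)) (XT.nd (nat_lit 78) (nat_lit 0) (nat_lit 0) (XT.lf (nat_lit 0) (nat_lit 884159066) (nat_lit 456) (nat_lit 5110314163) (nat_lit 532) (nat_lit 1022397324) (nat_lit 143) (nat_lit 5) (nat_lit 149) (nat_lit 5) (nat_lit 150) (nat_lit 5) (nat_lit 308) (nat_lit 306) (nat_lit 286)) (XT.lf (nat_lit 0) (nat_lit 2766494420) (nat_lit 456) (nat_lit 1596006357) (nat_lit 532) (nat_lit 2743315181) (nat_lit 143) (nat_lit 5) (nat_lit 149) (nat_lit 5) (nat_lit 150) (nat_lit 5) (nat_lit 309) (nat_lit 306) (nat_lit 285)))) (XT.nd (nat_lit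 78) (nat_lit 456) (nat_lit 0) (XT.lf (nat_lit 76) (nat_lit 2093744151) (nat_lit 0) (nat_lit 2569952751) (nat_lit 532) (nat_lit 2539604579) (nat_lit 144) (nat_lit 5) (nat_lit 143) (nat_lit 5) (nat_lit 150) (nat_lit 5) (nat_lit 310) (nat_lit 306) (nat_lit 284)) (XT.nd (nat_lit 78) (nat_lit 456) (nat_lit 0) (XT.lf (nat_lit 76) (nat_lit 5957191596) (nat_lit 0) (nat_lit 617955046) (nat_lit 532) (nat_lit 734669437) (nat_lit 144) (nat_lit 5) (nat_lit 143) (nat_lit 5) (nat_lit 150) (nat_lit 5) (nat_lit 311) (nat_lit 306) (nat_lit 283)) (XT.lf (nat_lit 0) (nat_lit 1083400531) (nat_lit 532) (nat_lit 4857623672) (nat_lit 608) (nat_lit 1481837292) (nat_lit 137) (nat_lit 5) (nat_lit 144) (nat_lit 5) (nat_lit 145) (nat_lit 5) (nat_lit 312) (nat_lit 306) (nat_lit 282)))))) (XT.nd (nat_lit 468) (nat_lit 2280) (nat_lit 0) (XT.nd (nat_lit 234) (nat_lit 1140) (nat_lit 0) (XT.nd (nat_lit 78) (nat_lit 0) (nat_lit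 0) (XT.lf (nat_lit 0) (nat_lit 2901274169) (nat_lit 532) (nat_lit 908214838) (nat_lit 608) (nat_lit 3734895742) (nat_lit 137) (nat_lit 5) (nat_lit 144) (nat_lit 5) (nat_lit 145) (nat_lit 5) (nat_lit 313) (nat_lit 306) (nat_lit 281)) (XT.nd (nat_lit 78) (nat_lit 0) (nat_lit 76) (XT.lf (nat_lit 76) (nat_lit 3275693134) (nat_lit 0) (nat_lit 1490421192) (nat_lit 608) (nat_lit 2908168345) (nat_lit 138) (nat_lit 5) (nat_lit 137) (nat_lit 5) (nat_lit 145) (nat_lit 5) (nat_lit 314) (nat_lit 306) (nat_lit 280)) (XT.lf (nat_lit 0) (nat_lit 6663381288) (nat_lit 532) (nat_lit 196363635) (nat_lit 76) (nat_lit 954068605) (nat_lit 138) (nat_lit 5) (nat_lit 145) (nat_lit 5) (nat_lit 139) (nat_lit 5) (nat_lit 315) (nat_lit 306) (nat_lit 279)))) (XT.nd (nat_lit 78) (nat_lit 608) (nat_lit 0) (XT.lf (nat_lit 0) (nat_lit 676999821) (nat_lit 608) (nat_lit 3711624182) (nat_lit 76) (nat_lit 3571039490) (nat_lit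 130) (nat_lit 5) (nat_lit 138) (nat_lit 5) (nat_lit 131) (nat_lit 5) (nat_lit 316) (nat_lit 306) (nat_lit 278)) (XT.nd (nat_lit 78) (nat_lit 0) (nat_lit 0) (XT.lf (nat_lit 0) (nat_lit 743558619) (nat_lit 608) (nat_lit 1743345332) (nat_lit 684) (nat_lit 5628554935) (nat_lit 122) (nat_lit 5) (nat_lit 130) (nat_lit 5) (nat_lit 131) (nat_lit 5) (nat_lit 317) (nat_lit 306) (nat_lit 277)) (XT.lf (nat_lit 0) (nat_lit 4385298951) (nat_lit 684) (nat_lit 2816151311) (nat_lit 76) (nat_lit 1077774037) (nat_lit 122) (nat_lit 5) (nat_lit 131) (nat_lit 5) (nat_lit 123) (nat_lit 5) (nat_lit 318) (nat_lit 306) (nat_lit 276))))) (XT.nd (nat_lit 234) (nat_lit 760) (nat_lit 0) (XT.nd (nat_lit 78) (nat_lit 836) (nat_lit 0) (XT.lf (nat_lit 0) (nat_lit 1930662967) (nat_lit 684) (nat_lit 4428540204) (nat_lit 760) (nat_lit 2093021558) (nat_lit 113) (nat_lit 5) (nat_lit 122) (nat_lit 5) (nat_lit 123) (nat_lit 5)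 (nat_lit 319) (nat_lit 306) (nat_lit 275)) (XT.nd (nat_lit 78) (nat_lit 836) (nat_lit 0) (XT.lf (nat_lit 0) (nat_lit 6943780411) (nat_lit 684) (nat_lit 1460228396) (nat_lit 760) (nat_lit 231328659) (nat_lit 113) (nat_lit 5) (nat_lit 122) (nat_lit 5) (nat_lit 123) (nat_lit 5) (nat_lit 320) (nat_lit 306) (nat_lit 274)) (XT.lf (nat_lit 0) (nat_lit 1675386730) (nat_lit 836) (nat_lit 5460943952) (nat_lit 76) (nat_lit 1689640657) (nat_lit 102) (nat_lit 5) (nat_lit 113) (nat_lit 5) (nat_lit 103) (nat_lit 5) (nat_lit 321) (nat_lit 306) (nat_lit 273)))) (XT.nd (nat_lit 156) (nat_lit 380) (nat_lit 0) (XT.nd (nat_lit 78) (nat_lit 380) (nat_lit 0) (XT.lf (nat_lit 0) (nat_lit 3652078296) (nat_lit 836) (nat_lit 390311712) (nat_lit 76) (nat_lit 4984499264) (nat_lit 102) (nat_lit 5) (nat_lit 113) (nat_lit 5) (nat_lit 103) (nat_lit 5) (nat_lit 322) (nat_lit 306) (nat_lit 272)) (XT.lf (nat_lit 0) (nat_lit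 5027550688) (nat_lit 380) (nat_lit 711271173) (nat_lit 456) (nat_lit 3498530092) (nat_lit 97) (nat_lit 5) (nat_lit 102) (nat_lit 5) (nat_lit 103) (nat_lit 5) (nat_lit 323) (nat_lit 306) (nat_lit 271))) (XT.nd (nat_lit 78) (nat_lit 76) (nat_lit 0) (XT.lf (nat_lit 0) (nat_lit 1197126765) (nat_lit 304) (nat_lit 6736566833) (nat_lit 380) (nat_lit 1524511498) (nat_lit 93) (nat_lit 5) (nat_lit 97) (nat_lit 5) (nat_lit 98) (nat_lit 5) (nat_lit 324) (nat_lit 306) (nat_lit 270)) (XT.lf (nat_lit 0) (nat_lit 550612276) (nat_lit 380) (nat_lit 2757848373) (nat_lit 76) (nat_lit 6380266368) (nat_lit 92) (nat_lit 5) (nat_lit 97) (nat_lit 5) (nat_lit 93) (nat_lit 5) (nat_lit 325) (nat_lit 306) (nat_lit 269))))))) (XT.nd (nat_lit 936) (nat_lit 1672) (nat_lit 0) (XT.nd (nat_lit 468) (nat_lit 836) (nat_lit 0) (XT.nd (nat_lit 234) (nat_lit 608) (nat_lit 0) (XT.nd (nat_lit 78) (nat_lit 304) (nat_lit 0) (XT.lf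 (nat_lit 0) (nat_lit 2670007954) (nat_lit 456) (nat_lit 6910649061) (nat_lit 76) (nat_lit 349330087) (nat_lit 87) (nat_lit 5) (nat_lit 93) (nat_lit 5) (nat_lit 88) (nat_lit 5) (nat_lit 326) (nat_lit 306) (nat_lit 268)) (XT.nd (nat_lit 78) (nat_lit 304) (nat_lit 0) (XT.lf (nat_lit 0) (nat_lit 4937736949) (nat_lit 456) (nat_lit 1123791455) (nat_lit 76) (nat_lit 4119710405) (nat_lit 87) (nat_lit 5) (nat_lit 93) (nat_lit 5) (nat_lit 88) (nat_lit 5) (nat_lit 327) (nat_lit 306) (nat_lit 267)) (XT.lf (nat_lit 0) (nat_lit 5048326174) (nat_lit 304) (nat_lit 2292825987) (nat_lit 380) (nat_lit 3102830517) (nat_lit 83) (nat_lit 5) (nat_lit 87) (nat_lit 5) (nat_lit 88) (nat_lit 5) (nat_lit 328) (nat_lit 306) (nat_lit 266)))) (XT.nd (nat_lit 78) (nat_lit 304) (nat_lit 0) (XT.lf (nat_lit 0) (nat_lit 780607237) (nat_lit 304) (nat_lit 9086658416) (nat_lit 380) (nat_lit 852514154) (nat_lit 79) (nat_lit 5)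 (nat_lit 83) (nat_lit 5) (nat_lit 84) (nat_lit 5) (nat_lit 329) (nat_lit 306) (nat_lit 265)) (XT.nd (nat_lit 78) (nat_lit 228) (nat_lit 0) (XT.lf (nat_lit 0) (nat_lit 1538124456) (nat_lit 380) (nat_lit 3682437932) (nat_lit 76) (nat_lit 5783856586) (nat_lit 78) (nat_lit 5) (nat_lit 83) (nat_lit 5) (nat_lit 79) (nat_lit 5) (nat_lit 330) (nat_lit 306) (nat_lit 264)) (XT.lf (nat_lit 0) (nat_lit 2901270271) (nat_lit 228) (nat_lit 1111940835) (nat_lit 304) (nat_lit 7289738567) (nat_lit 75) (nat_lit 5) (nat_lit 78) (nat_lit 5) (nat_lit 79) (nat_lit 5) (nat_lit 331) (nat_lit 306) (nat_lit 263))))) (XT.nd (nat_lit 234) (nat_lit 228) (nat_lit 0) (XT.nd (nat_lit 78) (nat_lit 608) (nat_lit 0) (XT.lf (nat_lit 0) (nat_lit 6674960436) (nat_lit 304) (nat_lit 1788335375) (nat_lit 76) (nat_lit 3150000596) (nat_lit 75) (nat_lit 5) (nat_lit 79) (nat_lit 5) (nat_lit 76) (nat_lit 5) (nat_lit 332) (nat_lit 306)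 (nat_lit 262)) (XT.nd (nat_lit 78) (nat_lit 304) (nat_lit 0) (XT.lf (nat_lit 0) (nat_lit 5242339510) (nat_lit 304) (nat_lit 4279465474) (nat_lit 380) (nat_lit 2414788362) (nat_lit 71) (nat_lit 5) (nat_lit 75) (nat_lit 5) (nat_lit 76) (nat_lit 5) (nat_lit 333) (nat_lit 306) (nat_lit 261)) (XT.lf (nat_lit 0) (nat_lit 218392960) (nat_lit 304) (nat_lit 11922806365) (nat_lit 76) (nat_lit 135153780) (nat_lit 67) (nat_lit 5) (nat_lit 71) (nat_lit 5) (nat_lit 68) (nat_lit 5) (nat_lit 334) (nat_lit 306) (nat_lit 260)))) (XT.nd (nat_lit 78) (nat_lit 228) (nat_lit 0) (XT.lf (nat_lit 0) (nat_lit 3040957971) (nat_lit 304) (nat_lit 4817433590) (nat_lit 76) (nat_lit 4765814817) (nat_lit 67) (nat_lit 5) (nat_lit 71) (nat_lit 5) (nat_lit 68) (nat_lit 5) (nat_lit 335) (nat_lit 306) (nat_lit 259)) (XT.nd (nat_lit 78) (nat_lit 0) (nat_lit 0) (XT.lf (nat_lit 0) (nat_lit 2667097716) (nat_lit 228) (nat_lit 3334902209)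 (nat_lit 304) (nat_lit 6987612314) (nat_lit 64) (nat_lit 5) (nat_lit 67) (nat_lit 5) (nat_lit 68) (nat_lit 5) (nat_lit 336) (nat_lit 306) (nat_lit 258)) (XT.lf (nat_lit 0) (nat_lit 9172707123) (nat_lit 304) (nat_lit 2761922809) (nat_lit 76) (nat_lit 1435603860) (nat_lit 64) (nat_lit 5) (nat_lit 68) (nat_lit 5) (nat_lit 65) (nat_lit 5) (nat_lit 337) (nat_lit 306) (nat_lit 257)))))) (XT.nd (nat_lit 468) (nat_lit 684) (nat_lit 0) (XT.nd (nat_lit 234) (nat_lit 456) (nat_lit 0) (XT.nd (nat_lit 78) (nat_lit 304) (nat_lit 0) (XT.lf (nat_lit 0) (nat_lit 5229997853) (nat_lit 228) (nat_lit 7366945578) (nat_lit 304) (nat_lit 1168218120) (nat_lit 61) (nat_lit 5) (nat_lit 64) (nat_lit 5) (nat_lit 65) (nat_lit 5) (nat_lit 338) (nat_lit 306) (nat_lit 256)) (XT.nd (nat_lit 78) (nat_lit 228) (nat_lit 0) (XT.lf (nat_lit 0) (nat_lit 1954723334) (nat_lit 304) (nat_lit 552124218) (nat_lit 76) (nat_lit 11671110482)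 (nat_lit 60) (nat_lit 5) (nat_lit 64) (nat_lit 5) (nat_lit 61) (nat_lit 5) (nat_lit 339) (nat_lit 306) (nat_lit 255)) (XT.lf (nat_lit 0) (nat_lit 5323224598) (nat_lit 304) (nat_lit 6638469366) (nat_lit 76) (nat_lit 2642330629) (nat_lit 57) (nat_lit 5) (nat_lit 61) (nat_lit 5) (nat_lit 58) (nat_lit 5) (nat_lit 340) (nat_lit 306) (nat_lit 254)))) (XT.nd (nat_lit 78) (nat_lit 304) (nat_lit 0) (XT.lf (nat_lit 0) (nat_lit 1837200627) (nat_lit 152) (nat_lit 7063925165) (nat_lit 228) (nat_lit 6148240364) (nat_lit 55) (nat_lit 5) (nat_lit 57) (nat_lit 5) (nat_lit 58) (nat_lit 5) (nat_lit 341) (nat_lit 306) (nat_lit 253)) (XT.nd (nat_lit 78) (nat_lit 304) (nat_lit 0) (XT.lf (nat_lit 0) (nat_lit 10910345319) (nat_lit 152) (nat_lit 1822631497) (nat_lit 228) (nat_lit 2780264684) (nat_lit 55) (nat_lit 5) (nat_lit 57) (nat_lit 5) (nat_lit 58) (nat_lit 5) (nat_lit 342) (nat_lit 306) (nat_lit 252)) (XT.lf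 (nat_lit 0) (nat_lit 824713672) (nat_lit 304) (nat_lit 11542317802) (nat_lit 76) (nat_lit 3628066318) (nat_lit 51) (nat_lit 5) (nat_lit 55) (nat_lit 5) (nat_lit 52) (nat_lit 5) (nat_lit 343) (nat_lit 306) (nat_lit 251))))) (XT.nd (nat_lit 234) (nat_lit 532) (nat_lit 0) (XT.nd (nat_lit 78) (nat_lit 152) (nat_lit 0) (XT.lf (nat_lit 0) (nat_lit 4589998674) (nat_lit 304) (nat_lit 2508727299) (nat_lit 76) (nat_lit 9396384173) (nat_lit 51) (nat_lit 5) (nat_lit 55) (nat_lit 5) (nat_lit 52) (nat_lit 5) (nat_lit 344) (nat_lit 306) (nat_lit 250)) (XT.nd (nat_lit 78) (nat_lit 0) (nat_lit 0) (XT.lf (nat_lit 0) (nat_lit 7152235180) (nat_lit 152) (nat_lit 1469058673) (nat_lit 228) (nat_lit 8394957966) (nat_lit 49) (nat_lit 5) (nat_lit 51) (nat_lit 5) (nat_lit 52) (nat_lit 5) (nat_lit 345) (nat_lit 306) (nat_lit 249)) (XT.lf (nat_lit 0) (nat_lit 12933267065) (nat_lit 228) (nat_lit 301769361) (nat_lit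 76) (nat_lit 4324473720) (nat_lit 49) (nat_lit 5) (nat_lit 52) (nat_lit 5) (nat_lit 50) (nat_lit 5) (nat_lit 346) (nat_lit 306) (nat_lit 248)))) (XT.nd (nat_lit 156) (nat_lit 152) (nat_lit 0) (XT.nd (nat_lit 78) (nat_lit 228) (nat_lit 0) (XT.lf (nat_lit 0) (nat_lit 9982843310) (nat_lit 152) (nat_lit 7626107056) (nat_lit 228) (nat_lit 513589961) (nat_lit 47) (nat_lit 5) (nat_lit 49) (nat_lit 5) (nat_lit 50) (nat_lit 5) (nat_lit 347) (nat_lit 306) (nat_lit 247)) (XT.lf (nat_lit 0) (nat_lit 2032864738) (nat_lit 152) (nat_lit 1655364909) (nat_lit 228) (nat_lit 15022270039) (nat_lit 44) (nat_lit 5) (nat_lit 46) (nat_lit 5) (nat_lit 47) (nat_lit 5) (nat_lit 348) (nat_lit 306) (nat_lit 246))) (XT.nd (nat_lit 78) (nat_lit 152) (nat_lit 0) (XT.lf (nat_lit 0) (nat_lit 8263809773) (nat_lit 228) (nat_lit 6458865914) (nat_lit 76) (nat_lit 4595726408) (nat_lit 44) (nat_lit 5) (nat_lit 47) (nat_lit 5)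 (nat_lit 45) (nat_lit 5) (nat_lit 349) (nat_lit 306) (nat_lit 245)) (XT.lf (nat_lit 0) (nat_lit 4333024085) (nat_lit 152) (nat_lit 8800202935) (nat_lit 228) (nat_lit 6820231636) (nat_lit 42) (nat_lit 5) (nat_lit 44) (nat_lit 5) (nat_lit 45) (nat_lit 5) (nat_lit 350) (nat_lit 306) (nat_lit 244))))))))
noncomputable def xc118 : XT := (XT.nd (nat_lit 1872) (nat_lit 912) (nat_lit 0) (XT.nd (nat_lit 936) (nat_lit 608) (nat_lit 0) (XT.nd (nat_lit 468) (nat_lit 456) (nat_lit 0) (XT.nd (nat_lit 234) (nat_lit 304) (nat_lit 0) (XT.nd (nat_lit 78) (nat_lit 228) (nat_lit 0) (XT.lf (nat_lit 0) (nat_lit 15840177834) (nat_lit 152) (nat_lit 2486249068) (nat_lit 228) (nat_lit 2289836922) (nat_lit 42) (nat_lit 5) (nat_lit 44) (nat_lit 5) (nat_lit 45) (nat_lit 5) (nat_lit 351) (nat_lit 306) (nat_lit 243)) (XT.nd (nat_lit 78) (nat_lit 0) (nat_lit 0) (XT.lf (nat_lit 0) (nat_lit 2531951011) (nat_lit 228) (nat_lit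 14632684955) (nat_lit 76) (nat_lit 4138465928) (nat_lit 39) (nat_lit 5) (nat_lit 42) (nat_lit 5) (nat_lit 40) (nat_lit 5) (nat_lit 352) (nat_lit 306) (nat_lit 242)) (XT.lf (nat_lit 0) (nat_lit 7613012610) (nat_lit 228) (nat_lit 3292326886) (nat_lit 76) (nat_lit 11112318386) (nat_lit 39) (nat_lit 5) (nat_lit 42) (nat_lit 5) (nat_lit 40) (nat_lit 5) (nat_lit 353) (nat_lit 306) (nat_lit 241)))) (XT.nd (nat_lit 78) (nat_lit 152) (nat_lit 0) (XT.lf (nat_lit 0) (nat_lit 8853141333) (nat_lit 152) (nat_lit 4206701928) (nat_lit 228) (nat_lit 9702521962) (nat_lit 37) (nat_lit 5) (nat_lit 39) (nat_lit 5) (nat_lit 40) (nat_lit 5) (nat_lit 354) (nat_lit 306) (nat_lit 240)) (XT.nd (nat_lit 78) (nat_lit 152) (nat_lit 0) (XT.lf (nat_lit 0) (nat_lit 18853592207) (nat_lit 228) (nat_lit 1911933413) (nat_lit 76) (nat_lit 2775062381) (nat_lit 37) (nat_lit 5) (nat_lit 40) (nat_lit 5) (nat_lit 38) (nat_lit 4)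 (nat_lit 355) (nat_lit 306) (nat_lit 239)) (XT.lf (nat_lit 0) (nat_lit 778785533) (nat_lit 152) (nat_lit 13437099547) (nat_lit 76) (nat_lit 10130491674) (nat_lit 35) (nat_lit 5) (nat_lit 37) (nat_lit 5) (nat_lit 36) (nat_lit 5) (nat_lit 356) (nat_lit 306) (nat_lit 238))))) (XT.nd (nat_lit 234) (nat_lit 304) (nat_lit 0) (XT.nd (nat_lit 78) (nat_lit 152) (nat_lit 0) (XT.lf (nat_lit 0) (nat_lit 6368386171) (nat_lit 152) (nat_lit 873786690) (nat_lit 76) (nat_lit 17946045775) (nat_lit 35) (nat_lit 5) (nat_lit 37) (nat_lit 5) (nat_lit 36) (nat_lit 5) (nat_lit 357) (nat_lit 306) (nat_lit 237)) (XT.nd (nat_lit 78) (nat_lit 0) (nat_lit 0) (XT.lf (nat_lit 0) (nat_lit 12416010026) (nat_lit 228) (nat_lit 13385503307) (nat_lit 76) (nat_lit 261719449) (nat_lit 33) (nat_lit 5) (nat_lit 36) (nat_lit 5) (nat_lit 34) (nat_lit 4) (nat_lit 358) (nat_lit 306) (nat_lit 236)) (XT.lf (nat_lit 0) (nat_lit 18876314356)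 (nat_lit 228) (nat_lit 204729198) (nat_lit 76) (nat_lit 7895446096) (nat_lit 33) (nat_lit 5) (nat_lit 36) (nat_lit 5) (nat_lit 34) (nat_lit 4) (nat_lit 359) (nat_lit 306) (nat_lit 235)))) (XT.nd (nat_lit 78) (nat_lit 228) (nat_lit 0) (XT.lf (nat_lit 0) (nat_lit 14044930950) (nat_lit 76) (nat_lit 11811635635) (nat_lit 152) (nat_lit 2069002789) (nat_lit 32) (nat_lit 5) (nat_lit 33) (nat_lit 5) (nat_lit 34) (nat_lit 4) (nat_lit 360) (nat_lit 306) (nat_lit 234)) (XT.nd (nat_lit 78) (nat_lit 152) (nat_lit 0) (XT.lf (nat_lit 0) (nat_lit 4108528045) (nat_lit 152) (nat_lit 14153661) (nat_lit 76) (nat_lit 24797035686) (nat_lit 31) (nat_lit 5) (nat_lit 33) (nat_lit 5) (nat_lit 32) (nat_lit 5) (nat_lit 361) (nat_lit 306) (nat_lit 233)) (XT.lf (nat_lit 0) (nat_lit 10803458453) (nat_lit 228) (nat_lit 15064652201) (nat_lit 76) (nat_lit 4079869242) (nat_lit 29) (nat_lit 5) (nat_lit 32) (nat_lit 5) (nat_lit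 30) (nat_lit 4) (nat_lit 362) (nat_lit 306) (nat_lit 232)))))) (XT.nd (nat_lit 468) (nat_lit 228) (nat_lit 0) (XT.nd (nat_lit 234) (nat_lit 228) (nat_lit 0) (XT.nd (nat_lit 78) (nat_lit 152) (nat_lit 0) (XT.lf (nat_lit 0) (nat_lit 17879935306) (nat_lit 228) (nat_lit 607119090) (nat_lit 76) (nat_lit 12538266602) (nat_lit 29) (nat_lit 5) (nat_lit 32) (nat_lit 5) (nat_lit 30) (nat_lit 4) (nat_lit 363) (nat_lit 306) (nat_lit 231)) (XT.nd (nat_lit 78) (nat_lit 76) (nat_lit 0) (XT.lf (nat_lit 0) (nat_lit 15017702192) (nat_lit 76) (nat_lit 10506974941) (nat_lit 152) (nat_lit 6621135172) (nat_lit 28) (nat_lit 5) (nat_lit 29) (nat_lit 5) (nat_lit 30) (nat_lit 4) (nat_lit 364) (nat_lit 306) (nat_lit 230)) (XT.lf (nat_lit 0) (nat_lit 212481326) (nat_lit 152) (nat_lit 1917049427) (nat_lit 76) (nat_lit 31193098458) (nat_lit 27) (nat_lit 5) (nat_lit 29) (nat_lit 5) (nat_lit 28) (nat_lit 5) (nat_lit 365)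 (nat_lit 306) (nat_lit 229)))) (XT.nd (nat_lit 78) (nat_lit 76) (nat_lit 0) (XT.lf (nat_lit 0) (nat_lit 7479937665) (nat_lit 228) (nat_lit 20280500438) (nat_lit 76) (nat_lit 6776692568) (nat_lit 25) (nat_lit 5) (nat_lit 28) (nat_lit 5) (nat_lit 26) (nat_lit 4) (nat_lit 366) (nat_lit 306) (nat_lit 228)) (XT.nd (nat_lit 78) (nat_lit 76) (nat_lit 0) (XT.lf (nat_lit 0) (nat_lit 15159801908) (nat_lit 228) (nat_lit 4575363044) (nat_lit 76) (nat_lit 16074744783) (nat_lit 25) (nat_lit 5) (nat_lit 28) (nat_lit 5) (nat_lit 26) (nat_lit 4) (nat_lit 367) (nat_lit 306) (nat_lit 227)) (XT.lf (nat_lit 0) (nat_lit 12274820140) (nat_lit 76) (nat_lit 11122508667) (nat_lit 152) (nat_lit 13740319555) (nat_lit 24) (nat_lit 5) (nat_lit 25) (nat_lit 5) (nat_lit 26) (nat_lit 4) (nat_lit 368) (nat_lit 306) (nat_lit 226))))) (XT.nd (nat_lit 234) (nat_lit 76) (nat_lit 0) (XT.nd (nat_lit 78) (nat_lit 152) (nat_lit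 0) (XT.lf (nat_lit 0) (nat_lit 30093810357) (nat_lit 76) (nat_lit 2012780556) (nat_lit 152) (nat_lit 6422193948) (nat_lit 24) (nat_lit 5) (nat_lit 25) (nat_lit 5) (nat_lit 26) (nat_lit 4) (nat_lit 369) (nat_lit 306) (nat_lit 225)) (XT.nd (nat_lit 78) (nat_lit 0) (nat_lit 0) (XT.lf (nat_lit 0) (nat_lit 1466051774) (nat_lit 152) (nat_lit 31049862043) (nat_lit 76) (nat_lit 7460352826) (nat_lit 22) (nat_lit 5) (nat_lit 24) (nat_lit 5) (nat_lit 23) (nat_lit 4) (nat_lit 370) (nat_lit 306) (nat_lit 224)) (XT.lf (nat_lit 0) (nat_lit 9694108263) (nat_lit 152) (nat_lit 14212578053) (nat_lit 76) (nat_lit 17576114147) (nat_lit 22) (nat_lit 5) (nat_lit 24) (nat_lit 5) (nat_lit 23) (nat_lit 4) (nat_lit 371) (nat_lit 306) (nat_lit 223)))) (XT.nd (nat_lit 78) (nat_lit 0) (nat_lit 0) (XT.lf (nat_lit 0) (nat_lit 3550027562) (nat_lit 76) (nat_lit 14822811343) (nat_lit 152) (nat_lit 24689861698) (nat_lit 21)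 (nat_lit 5) (nat_lit 22) (nat_lit 5) (nat_lit 23) (nat_lit 4) (nat_lit 372) (nat_lit 306) (nat_lit 222)) (XT.nd (nat_lit 78) (nat_lit 0) (nat_lit 0) (XT.lf (nat_lit 0) (nat_lit 22664512994) (nat_lit 76) (nat_lit 5045841315) (nat_lit 152) (nat_lit 17000002077) (nat_lit 21) (nat_lit 5) (nat_lit 22) (nat_lit 5) (nat_lit 23) (nat_lit 4) (nat_lit 373) (nat_lit 306) (nat_lit 221)) (XT.lf (nat_lit 0) (nat_lit 37580944346) (nat_lit 152) (nat_lit 3815988476) (nat_lit 0) (nat_lit 5040155091) (nat_lit 21) (nat_lit 5) (nat_lit 23) (nat_lit 4) (nat_lit 21) (nat_lit 4) (nat_lit 374) (nat_lit 306) (nat_lit 220))))))) (XT.nd (nat_lit 936) (nat_lit 380) (nat_lit 0) (XT.nd (nat_lit 468) (nat_lit 228) (nat_lit 0) (XT.nd (nat_lit 234) (nat_lit 76) (nat_lit 0) (XT.nd (nat_lit 78) (nat_lit 76) (nat_lit 0) (XT.lf (nat_lit 0) (nat_lit 23364299) (nat_lit 152) (nat_lit 32516579856) (nat_lit 76) (nat_lit 15694518081)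 (nat_lit 19) (nat_lit 5) (nat_lit 21) (nat_lit 5) (nat_lit 20) (nat_lit 4) (nat_lit 375) (nat_lit 306) (nat_lit 219)) (XT.nd (nat_lit 78) (nat_lit 76) (nat_lit 0) (XT.lf (nat_lit 0) (nat_lit 9100372373) (nat_lit 152) (nat_lit 13931272750) (nat_lit 76) (nat_lit 27080246058) (nat_lit 19) (nat_lit 5) (nat_lit 21) (nat_lit 5) (nat_lit 20) (nat_lit 4) (nat_lit 376) (nat_lit 306) (nat_lit 218)) (XT.lf (nat_lit 0) (nat_lit 5740866213) (nat_lit 76) (nat_lit 12966152085) (nat_lit 152) (nat_lit 33372386288) (nat_lit 18) (nat_lit 5) (nat_lit 19) (nat_lit 5) (nat_lit 20) (nat_lit 4) (nat_lit 377) (nat_lit 306) (nat_lit 217)))) (XT.nd (nat_lit 78) (nat_lit 76) (nat_lit 0) (XT.lf (nat_lit 0) (nat_lit 26854519599) (nat_lit 76) (nat_lit 2161823317) (nat_lit 152) (nat_lit 25117835698) (nat_lit 18) (nat_lit 5) (nat_lit 19) (nat_lit 5) (nat_lit 20) (nat_lit 4) (nat_lit 378) (nat_lit 306) (nat_lit 216)) (XT.nd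 (nat_lit 78) (nat_lit 76) (nat_lit 0) (XT.lf (nat_lit 0) (nat_lit 39971381377) (nat_lit 152) (nat_lit 7436200350) (nat_lit 0) (nat_lit 8877599399) (nat_lit 18) (nat_lit 5) (nat_lit 20) (nat_lit 4) (nat_lit 18) (nat_lit 4) (nat_lit 379) (nat_lit 306) (nat_lit 215)) (XT.lf (nat_lit 0) (nat_lit 13781271967) (nat_lit 76) (nat_lit 37931008166) (nat_lit 76) (nat_lit 6819550274) (nat_lit 17) (nat_lit 4) (nat_lit 18) (nat_lit 5) (nat_lit 18) (nat_lit 4) (nat_lit 380) (nat_lit 306) (nat_lit 214))))) (XT.nd (nat_lit 234) (nat_lit 76) (nat_lit 0) (XT.nd (nat_lit 78) (nat_lit 76) (nat_lit 0) (XT.lf (nat_lit 0) (nat_lit 3164141728) (nat_lit 152) (nat_lit 24641801553) (nat_lit 76) (nat_lit 33076635638) (nat_lit 16) (nat_lit 5) (nat_lit 18) (nat_lit 5) (nat_lit 17) (nat_lit 4) (nat_lit 381) (nat_lit 306) (nat_lit 213)) (XT.nd (nat_lit 78) (nat_lit 76) (nat_lit 0) (XT.lf (nat_lit 0) (nat_lit 13405961223)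 (nat_lit 152) (nat_lit 3662104165) (nat_lit 76) (nat_lit 46277805229) (nat_lit 16) (nat_lit 5) (nat_lit 18) (nat_lit 5) (nat_lit 17) (nat_lit 4) (nat_lit 382) (nat_lit 306) (nat_lit 212)) (XT.lf (nat_lit 0) (nat_lit 18951524825) (nat_lit 76) (nat_lit 5492923280) (nat_lit 152) (nat_lit 41473651669) (nat_lit 15) (nat_lit 5) (nat_lit 16) (nat_lit 5) (nat_lit 17) (nat_lit 4) (nat_lit 383) (nat_lit 306) (nat_lit 211)))) (XT.nd (nat_lit 78) (nat_lit 76) (nat_lit 0) (XT.lf (nat_lit 0) (nat_lit 36190629761) (nat_lit 152) (nat_lit 25919547115) (nat_lit 0) (nat_lit 6500976607) (nat_lit 15) (nat_lit 5) (nat_lit 17) (nat_lit 4) (nat_lit 15) (nat_lit 4) (nat_lit 384) (nat_lit 306) (nat_lit 210)) (XT.nd (nat_lit 78) (nat_lit 76) (nat_lit 0) (XT.lf (nat_lit 0) (nat_lit 48603442427) (nat_lit 152) (nat_lit 3930853658) (nat_lit 0) (nat_lit 18900599234) (nat_lit 15) (nat_lit 5) (nat_lit 17) (nat_lit 4) (nat_lit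 15) (nat_lit 4) (nat_lit 385) (nat_lit 306) (nat_lit 209)) (XT.lf (nat_lit 0) (nat_lit 19770395506) (nat_lit 76) (nat_lit 42164956270) (nat_lit 76) (nat_lit 12449551134) (nat_lit 14) (nat_lit 4) (nat_lit 15) (nat_lit 5) (nat_lit 15) (nat_lit 4) (nat_lit 386) (nat_lit 306) (nat_lit 208)))))) (XT.nd (nat_lit 468) (nat_lit 152) (nat_lit 0) (XT.nd (nat_lit 234) (nat_lit 76) (nat_lit 0) (XT.nd (nat_lit 78) (nat_lit 152) (nat_lit 0) (XT.lf (nat_lit 0) (nat_lit 44773839417) (nat_lit 76) (nat_lit 31216557368) (nat_lit 76) (nat_lit 1489188478) (nat_lit 14) (nat_lit 4) (nat_lit 15) (nat_lit 5) (nat_lit 15) (nat_lit 4) (nat_lit 387) (nat_lit 306) (nat_lit 207)) (XT.nd (nat_lit 78) (nat_lit 76) (nat_lit 0) (XT.lf (nat_lit 0) (nat_lit 9688804631) (nat_lit 152) (nat_lit 9876713449) (nat_lit 76) (nat_lit 61156149086) (nat_lit 13) (nat_lit 5) (nat_lit 15) (nat_lit 5) (nat_lit 14) (nat_lit 4) (nat_lit 388)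 (nat_lit 306) (nat_lit 206)) (XT.lf (nat_lit 0) (nat_lit 14516116830) (nat_lit 76) (nat_lit 7076922804) (nat_lit 152) (nat_lit 62520724650) (nat_lit 12) (nat_lit 5) (nat_lit 13) (nat_lit 5) (nat_lit 14) (nat_lit 4) (nat_lit 389) (nat_lit 306) (nat_lit 205)))) (XT.nd (nat_lit 78) (nat_lit 76) (nat_lit 0) (XT.lf (nat_lit 0) (nat_lit 34347521239) (nat_lit 152) (nat_lit 47310481912) (nat_lit 0) (nat_lit 6004712513) (nat_lit 12) (nat_lit 5) (nat_lit 14) (nat_lit 4) (nat_lit 12) (nat_lit 4) (nat_lit 390) (nat_lit 306) (nat_lit 204)) (XT.nd (nat_lit 78) (nat_lit 76) (nat_lit 0) (XT.lf (nat_lit 0) (nat_lit 47846966220) (nat_lit 152) (nat_lit 24042003942) (nat_lit 0) (nat_lit 19494783579) (nat_lit 12) (nat_lit 5) (nat_lit 14) (nat_lit 4) (nat_lit 12) (nat_lit 4) (nat_lit 391) (nat_lit 306) (nat_lit 203)) (XT.lf (nat_lit 0) (nat_lit 386033679) (nat_lit 76) (nat_lit 61633018903) (nat_lit 76) (nat_lit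 33271908724) (nat_lit 11) (nat_lit 4) (nat_lit 12) (nat_lit 5) (nat_lit 12) (nat_lit 4) (nat_lit 392) (nat_lit 306) (nat_lit 202))))) (XT.nd (nat_lit 234) (nat_lit 76) (nat_lit 0) (XT.nd (nat_lit 78) (nat_lit 76) (nat_lit 0) (XT.lf (nat_lit 0) (nat_lit 26854199144) (nat_lit 76) (nat_lit 50444497999) (nat_lit 76) (nat_lit 22074885403) (nat_lit 11) (nat_lit 4) (nat_lit 12) (nat_lit 5) (nat_lit 12) (nat_lit 4) (nat_lit 393) (nat_lit 306) (nat_lit 201)) (XT.nd (nat_lit 78) (nat_lit 76) (nat_lit 0) (XT.lf (nat_lit 0) (nat_lit 54630574666) (nat_lit 76) (nat_lit 38703931086) (nat_lit 76) (nat_lit 10326220950) (nat_lit 11) (nat_lit 4) (nat_lit 12) (nat_lit 5) (nat_lit 12) (nat_lit 4) (nat_lit 394) (nat_lit 306) (nat_lit 200)) (XT.lf (nat_lit 0) (nat_lit 1937979298) (nat_lit 152) (nat_lit 24412564517) (nat_lit 76) (nat_lit 81810494557) (nat_lit 10) (nat_lit 5) (nat_lit 12) (nat_lit 5) (nat_lit 11)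 (nat_lit 4) (nat_lit 395) (nat_lit 306) (nat_lit 199)))) (XT.nd (nat_lit 156) (nat_lit 0) (nat_lit 0) (XT.nd (nat_lit 78) (nat_lit 0) (nat_lit 0) (XT.lf (nat_lit 0) (nat_lit 1294012148) (nat_lit 76) (nat_lit 13187343429) (nat_lit 152) (nat_lit 98395897011) (nat_lit 9) (nat_lit 5) (nat_lit 10) (nat_lit 5) (nat_lit 11) (nat_lit 4) (nat_lit 396) (nat_lit 306) (nat_lit 198)) (XT.lf (nat_lit 0) (nat_lit 28074830277) (nat_lit 152) (nat_lit 88705863399) (nat_lit 0) (nat_lit 1027438137) (nat_lit 9) (nat_lit 5) (nat_lit 11) (nat_lit 4) (nat_lit 9) (nat_lit 4) (nat_lit 397) (nat_lit 306) (nat_lit 197))) (XT.nd (nat_lit 78) (nat_lit 0) (nat_lit 0) (XT.lf (nat_lit 0) (nat_lit 42557321380) (nat_lit 152) (nat_lit 64914182618) (nat_lit 0) (nat_lit 15503584605) (nat_lit 9) (nat_lit 5) (nat_lit 11) (nat_lit 4) (nat_lit 9) (nat_lit 4) (nat_lit 398) (nat_lit 306) (nat_lit 196)) (XT.lf (nat_lit 0) (nat_lit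 57757419622) (nat_lit 152) (nat_lit 39945659850) (nat_lit 0) (nat_lit 30697640338) (nat_lit 9) (nat_lit 5) (nat_lit 11) (nat_lit 4) (nat_lit 9) (nat_lit 4) (nat_lit 399) (nat_lit 306) (nat_lit 195))))))))
noncomputable def xc119 : XT := (XT.nd (nat_lit 1950) (nat_lit 76) (nat_lit 0) (XT.nd (nat_lit 936) (nat_lit 228) (nat_lit 0) (XT.nd (nat_lit 468) (nat_lit 76) (nat_lit 0) (XT.nd (nat_lit 234) (nat_lit 76) (nat_lit 0) (XT.nd (nat_lit 78) (nat_lit 76) (nat_lit 0) (XT.lf (nat_lit 0) (nat_lit 73711315712) (nat_lit 152) (nat_lit 13740846231) (nat_lit 0) (nat_lit 46645781657) (nat_lit 9) (nat_lit 5) (nat_lit 11) (nat_lit 4) (nat_lit 9) (nat_lit 4) (nat_lit 400) (nat_lit 306) (nat_lit 194)) (XT.nd (nat_lit 78) (nat_lit 0) (nat_lit 0) (XT.lf (nat_lit 0) (nat_lit 14217706036) (nat_lit 76) (nat_lit 76461267317) (nat_lit 76) (nat_lit 49390252529) (nat_lit 8) (nat_lit 4) (nat_lit 9) (nat_lit 5) (nat_lit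 9) (nat_lit 4) (nat_lit 401) (nat_lit 306) (nat_lit 193)) (XT.lf (nat_lit 0) (nat_lit 44039866063) (nat_lit 76) (nat_lit 64682048170) (nat_lit 76) (nat_lit 37605813635) (nat_lit 8) (nat_lit 4) (nat_lit 9) (nat_lit 5) (nat_lit 9) (nat_lit 4) (nat_lit 402) (nat_lit 306) (nat_lit 192)))) (XT.nd (nat_lit 78) (nat_lit 76) (nat_lit 0) (XT.lf (nat_lit 0) (nat_lit 75342304562) (nat_lit 76) (nat_lit 52319166622) (nat_lit 76) (nat_lit 25237960899) (nat_lit 8) (nat_lit 4) (nat_lit 9) (nat_lit 5) (nat_lit 9) (nat_lit 4) (nat_lit 403) (nat_lit 306) (nat_lit 191)) (XT.nd (nat_lit 78) (nat_lit 76) (nat_lit 0) (XT.lf (nat_lit 0) (nat_lit 108199551147) (nat_lit 76) (nat_lit 39343187240) (nat_lit 76) (nat_lit 12257247053) (nat_lit 8) (nat_lit 4) (nat_lit 9) (nat_lit 5) (nat_lit 9) (nat_lit 4) (nat_lit 404) (nat_lit 306) (nat_lit 190)) (XT.lf (nat_lit 0) (nat_lit 1323474326) (nat_lit 152) (nat_lit 24377326831)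 (nat_lit 76) (nat_lit 141343949353) (nat_lit 7) (nat_lit 5) (nat_lit 9) (nat_lit 5) (nat_lit 8) (nat_lit 4) (nat_lit 405) (nat_lit 306) (nat_lit 189))))) (XT.nd (nat_lit 234) (nat_lit 0) (nat_lit 0) (XT.nd (nat_lit 78) (nat_lit 0) (nat_lit 0) (XT.lf (nat_lit 0) (nat_lit 4128623239) (nat_lit 76) (nat_lit 11102287364) (nat_lit 152) (nat_lit 159407816648) (nat_lit 6) (nat_lit 5) (nat_lit 7) (nat_lit 5) (nat_lit 8) (nat_lit 4) (nat_lit 406) (nat_lit 306) (nat_lit 188)) (XT.nd (nat_lit 78) (nat_lit 0) (nat_lit 0) (XT.lf (nat_lit 0) (nat_lit 30314467241) (nat_lit 152) (nat_lit 147767844048) (nat_lit 0) (nat_lit 4506054568) (nat_lit 6) (nat_lit 5) (nat_lit 8) (nat_lit 4) (nat_lit 6) (nat_lit 4) (nat_lit 407) (nat_lit 306) (nat_lit 187)) (XT.lf (nat_lit 0) (nat_lit 46329593796) (nat_lit 152) (nat_lit 124079551878) (nat_lit 0) (nat_lit 20517471547) (nat_lit 6) (nat_lit 5) (nat_lit 8) (nat_lit 4)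 (nat_lit 6) (nat_lit 4) (nat_lit 408) (nat_lit 306) (nat_lit 186)))) (XT.nd (nat_lit 78) (nat_lit 0) (nat_lit 0) (XT.lf (nat_lit 0) (nat_lit 63141083701) (nat_lit 152) (nat_lit 99215488990) (nat_lit 0) (nat_lit 37325428523) (nat_lit 6) (nat_lit 5) (nat_lit 8) (nat_lit 4) (nat_lit 6) (nat_lit 4) (nat_lit 409) (nat_lit 306) (nat_lit 185)) (XT.nd (nat_lit 78) (nat_lit 0) (nat_lit 0) (XT.lf (nat_lit 0) (nat_lit 80788964315) (nat_lit 152) (nat_lit 73116455231) (nat_lit 0) (nat_lit 54969944441) (nat_lit 6) (nat_lit 5) (nat_lit 8) (nat_lit 4) (nat_lit 6) (nat_lit 4) (nat_lit 410) (nat_lit 306) (nat_lit 184)) (XT.lf (nat_lit 0) (nat_lit 99315254401) (nat_lit 152) (nat_lit 45720310047) (nat_lit 0) (nat_lit 73493030055) (nat_lit 6) (nat_lit 5) (nat_lit 8) (nat_lit 4) (nat_lit 6) (nat_lit 4) (nat_lit 411) (nat_lit 306) (nat_lit 183)))))) (XT.nd (nat_lit 468) (nat_lit 152) (nat_lit 0) (XT.nd (nat_lit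 234) (nat_lit 0) (nat_lit 0) (XT.nd (nat_lit 78) (nat_lit 76) (nat_lit 0) (XT.lf (nat_lit 0) (nat_lit 118764064172) (nat_lit 152) (nat_lit 16961824519) (nat_lit 0) (nat_lit 92938787949) (nat_lit 6) (nat_lit 5) (nat_lit 8) (nat_lit 4) (nat_lit 6) (nat_lit 4) (nat_lit 412) (nat_lit 306) (nat_lit 182)) (XT.nd (nat_lit 78) (nat_lit 0) (nat_lit 0) (XT.lf (nat_lit 0) (nat_lit 13664833961) (nat_lit 76) (nat_lit 125730212711) (nat_lit 76) (nat_lit 99902029938) (nat_lit 5) (nat_lit 4) (nat_lit 6) (nat_lit 5) (nat_lit 6) (nat_lit 4) (nat_lit 413) (nat_lit 306) (nat_lit 181)) (XT.lf (nat_lit 0) (nat_lit 46404704963) (nat_lit 76) (nat_lit 114936578792) (nat_lit 76) (nat_lit 89105627875) (nat_lit 5) (nat_lit 4) (nat_lit 6) (nat_lit 5) (nat_lit 6) (nat_lit 4) (nat_lit 414) (nat_lit 306) (nat_lit 180)))) (XT.nd (nat_lit 78) (nat_lit 0) (nat_lit 0) (XT.lf (nat_lit 0) (nat_lit 80774906039) (nat_lit 76)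 (nat_lit 103606544509) (nat_lit 76) (nat_lit 77772957266) (nat_lit 5) (nat_lit 4) (nat_lit 6) (nat_lit 5) (nat_lit 6) (nat_lit 4) (nat_lit 415) (nat_lit 306) (nat_lit 179)) (XT.nd (nat_lit 78) (nat_lit 0) (nat_lit 0) (XT.lf (nat_lit 0) (nat_lit 116857271002) (nat_lit 76) (nat_lit 91713133592) (nat_lit 76) (nat_lit 65877035561) (nat_lit 5) (nat_lit 4) (nat_lit 6) (nat_lit 5) (nat_lit 6) (nat_lit 4) (nat_lit 416) (nat_lit 306) (nat_lit 178)) (XT.lf (nat_lit 0) (nat_lit 154737710244) (nat_lit 76) (nat_lit 79228028395) (nat_lit 76) (nat_lit 53389539138) (nat_lit 5) (nat_lit 4) (nat_lit 6) (nat_lit 5) (nat_lit 6) (nat_lit 4) (nat_lit 417) (nat_lit 306) (nat_lit 177))))) (XT.nd (nat_lit 234) (nat_lit 152) (nat_lit 0) (XT.nd (nat_lit 78) (nat_lit 0) (nat_lit 0) (XT.lf (nat_lit 0) (nat_lit 194506415288) (nat_lit 76) (nat_lit 66121502477) (nat_lit 76) (nat_lit 40280735862) (nat_lit 5) (nat_lit 4)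 (nat_lit 6) (nat_lit 5) (nat_lit 6) (nat_lit 4) (nat_lit 418) (nat_lit 306) (nat_lit 176)) (XT.nd (nat_lit 78) (nat_lit 0) (nat_lit 0) (XT.lf (nat_lit 0) (nat_lit 236258073525) (nat_lit 76) (nat_lit 52362349825) (nat_lit 76) (nat_lit 26519414297) (nat_lit 5) (nat_lit 4) (nat_lit 6) (nat_lit 5) (nat_lit 6) (nat_lit 4) (nat_lit 419) (nat_lit 306) (nat_lit 175)) (XT.lf (nat_lit 0) (nat_lit 280092093667) (nat_lit 76) (nat_lit 37917810550) (nat_lit 76) (nat_lit 12072809392) (nat_lit 5) (nat_lit 4) (nat_lit 6) (nat_lit 5) (nat_lit 6) (nat_lit 4) (nat_lit 420) (nat_lit 306) (nat_lit 174)))) (XT.nd (nat_lit 156) (nat_lit 0) (nat_lit 0) (XT.nd (nat_lit 78) (nat_lit 76) (nat_lit 0) (XT.lf (nat_lit 0) (nat_lit 2994464996) (nat_lit 152) (nat_lit 19708315183) (nat_lit 76) (nat_lit 323067664718) (nat_lit 4) (nat_lit 5) (nat_lit 6) (nat_lit 5) (nat_lit 5) (nat_lit 4) (nat_lit 421) (nat_lit 306) (nat_lit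 173)) (XT.lf (nat_lit 0) (nat_lit 12278357421) (nat_lit 76) (nat_lit 6320276449) (nat_lit 152) (nat_lit 343624570526) (nat_lit 3) (nat_lit 5) (nat_lit 4) (nat_lit 5) (nat_lit 5) (nat_lit 4) (nat_lit 422) (nat_lit 306) (nat_lit 172))) (XT.nd (nat_lit 78) (nat_lit 0) (nat_lit 0) (XT.lf (nat_lit 0) (nat_lit 35489703701) (nat_lit 152) (nat_lit 333113504217) (nat_lit 0) (nat_lit 10870059526) (nat_lit 3) (nat_lit 5) (nat_lit 5) (nat_lit 4) (nat_lit 3) (nat_lit 4) (nat_lit 423) (nat_lit 306) (nat_lit 171)) (XT.lf (nat_lit 0) (nat_lit 53326616791) (nat_lit 152) (nat_lit 315548798411) (nat_lit 0) (nat_lit 28705354140) (nat_lit 3) (nat_lit 5) (nat_lit 5) (nat_lit 4) (nat_lit 3) (nat_lit 4) (nat_lit 424) (nat_lit 306) (nat_lit 170))))))) (XT.nd (nat_lit 936) (nat_lit 76) (nat_lit 0) (XT.nd (nat_lit 468) (nat_lit 0) (nat_lit 0) (XT.nd (nat_lit 234) (nat_lit 0) (nat_lit 0) (XT.nd (nat_lit 78) (nat_lit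 0) (nat_lit 0) (XT.lf (nat_lit 0) (nat_lit 72053164754) (nat_lit 152) (nat_lit 297110231603) (nat_lit 0) (nat_lit 47430360697) (nat_lit 3) (nat_lit 5) (nat_lit 5) (nat_lit 4) (nat_lit 3) (nat_lit 4) (nat_lit 425) (nat_lit 306) (nat_lit 169)) (XT.nd (nat_lit 78) (nat_lit 0) (nat_lit 0) (XT.lf (nat_lit 0) (nat_lit 91713934609) (nat_lit 152) (nat_lit 277753902444) (nat_lit 0) (nat_lit 67089662547) (nat_lit 3) (nat_lit 5) (nat_lit 5) (nat_lit 4) (nat_lit 3) (nat_lit 4) (nat_lit 426) (nat_lit 306) (nat_lit 168)) (XT.lf (nat_lit 0) (nat_lit 112355737713) (nat_lit 152) (nat_lit 257433724434) (nat_lit 0) (nat_lit 87730067551) (nat_lit 3) (nat_lit 5) (nat_lit 5) (nat_lit 4) (nat_lit 3) (nat_lit 4) (nat_lit 427) (nat_lit 306) (nat_lit 167)))) (XT.nd (nat_lit 78) (nat_lit 0) (nat_lit 0) (XT.lf (nat_lit 0) (nat_lit 134027721216) (nat_lit 152) (nat_lit 236101316198) (nat_lit 0) (nat_lit 109400719529)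 (nat_lit 3) (nat_lit 5) (nat_lit 5) (nat_lit 4) (nat_lit 3) (nat_lit 4) (nat_lit 428) (nat_lit 306) (nat_lit 166)) (XT.nd (nat_lit 78) (nat_lit 0) (nat_lit 0) (XT.lf (nat_lit 0) (nat_lit 156781485078) (nat_lit 152) (nat_lit 213705886288) (nat_lit 0) (nat_lit 132153215273) (nat_lit 3) (nat_lit 5) (nat_lit 5) (nat_lit 4) (nat_lit 3) (nat_lit 4) (nat_lit 429) (nat_lit 306) (nat_lit 165)) (XT.lf (nat_lit 0) (nat_lit 180671204929) (nat_lit 152) (nat_lit 190194112252) (nat_lit 0) (nat_lit 156041727392) (nat_lit 3) (nat_lit 5) (nat_lit 5) (nat_lit 4) (nat_lit 3) (nat_lit 4) (nat_lit 430) (nat_lit 306) (nat_lit 164))))) (XT.nd (nat_lit 234) (nat_lit 0) (nat_lit 0) (XT.nd (nat_lit 78) (nat_lit 0) (nat_lit 0) (XT.lf (nat_lit 0) (nat_lit 205753761052) (nat_lit 152) (nat_lit 165510013674) (nat_lit 0) (nat_lit 181123133295) (nat_lit 3) (nat_lit 5) (nat_lit 5) (nat_lit 4) (nat_lit 3) (nat_lit 4) (nat_lit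 431) (nat_lit 306) (nat_lit 163)) (XT.nd (nat_lit 78) (nat_lit 0) (nat_lit 0) (XT.lf (nat_lit 0) (nat_lit 232088873821) (nat_lit 152) (nat_lit 139594818893) (nat_lit 0) (nat_lit 207457150615) (nat_lit 3) (nat_lit 5) (nat_lit 5) (nat_lit 4) (nat_lit 3) (nat_lit 4) (nat_lit 432) (nat_lit 306) (nat_lit 162)) (XT.lf (nat_lit 0) (nat_lit 259739245884) (nat_lit 152) (nat_lit 112386825062) (nat_lit 0) (nat_lit 235106479394) (nat_lit 3) (nat_lit 5) (nat_lit 5) (nat_lit 4) (nat_lit 3) (nat_lit 4) (nat_lit 433) (nat_lit 306) (nat_lit 161)))) (XT.nd (nat_lit 78) (nat_lit 0) (nat_lit 0) (XT.lf (nat_lit 0) (nat_lit 288770711460) (nat_lit 152) (nat_lit 83821251245) (nat_lit 0) (nat_lit 264136951367) (nat_lit 3) (nat_lit 5) (nat_lit 5) (nat_lit 4) (nat_lit 3) (nat_lit 4) (nat_lit 434) (nat_lit 306) (nat_lit 160)) (XT.nd (nat_lit 78) (nat_lit 0) (nat_lit 0) (XT.lf (nat_lit 0) (nat_lit 319252393088) (nat_lit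 152) (nat_lit 53830084170) (nat_lit 0) (nat_lit 294617686705) (nat_lit 3) (nat_lit 5) (nat_lit 5) (nat_lit 4) (nat_lit 3) (nat_lit 4) (nat_lit 435) (nat_lit 306) (nat_lit 159)) (XT.lf (nat_lit 0) (nat_lit 351256866198) (nat_lit 152) (nat_lit 22341916298) (nat_lit 0) (nat_lit 326621258588) (nat_lit 3) (nat_lit 5) (nat_lit 5) (nat_lit 4) (nat_lit 3) (nat_lit 4) (nat_lit 436) (nat_lit 306) (nat_lit 158)))))) (XT.nd (nat_lit 37050) (nat_lit 0) (nat_lit 9728) (XT.nd (nat_lit 36816) (nat_lit 0) (nat_lit 10640) (XT.nd (nat_lit 78) (nat_lit 0) (nat_lit 0) (XT.lf (nat_lit 0) (nat_lit 11072617098) (nat_lit 76) (nat_lit 373960589404) (nat_lit 76) (nat_lit 349324123481) (nat_lit 2) (nat_lit 4) (nat_lit 3) (nat_lit 5) (nat_lit 3) (nat_lit 4) (nat_lit 437) (nat_lit 306) (nat_lit 157)) (XT.nd (nat_lit 36660) (nat_lit 0) (nat_lit 10640) (XT.lf (nat_lit 0) (nat_lit 46931141568) (nat_lit 76) (nat_lit 373944383576)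 (nat_lit 76) (nat_lit 349307100213) (nat_lit 2) (nat_lit 4) (nat_lit 3) (nat_lit 5) (nat_lit 3) (nat_lit 4) (nat_lit 438) (nat_lit 306) (nat_lit 156)) (XT.lf (nat_lit 0) (nat_lit 404018585) (nat_lit 532) (nat_lit 1551069193) (nat_lit 532) (nat_lit 1551069193) (nat_lit 142) (nat_lit 3) (nat_lit 149) (nat_lit 3) (nat_lit 149) (nat_lit 5) (nat_lit 307) (nat_lit 307) (nat_lit 286)))) (XT.nd (nat_lit 78) (nat_lit 0) (nat_lit 0) (XT.lf (nat_lit 76) (nat_lit 284329591) (nat_lit 0) (nat_lit 2294939141) (nat_lit 532) (nat_lit 4518764968) (nat_lit 143) (nat_lit 5) (nat_lit 142) (nat_lit 3) (nat_lit 149) (nat_lit 5) (nat_lit 308) (nat_lit 307) (nat_lit 285)) (XT.nd (nat_lit 78) (nat_lit 0) (nat_lit 76) (XT.lf (nat_lit 76) (nat_lit 3887115159) (nat_lit 0) (nat_lit 491731482) (nat_lit 532) (nat_lit 2812333928) (nat_lit 143) (nat_lit 5) (nat_lit 142) (nat_lit 3) (nat_lit 149) (nat_lit 5) (nat_lit 309)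 (nat_lit 307) (nat_lit 284)) (XT.lf (nat_lit 76) (nat_lit 304847262) (nat_lit 0) (nat_lit 5883590747) (nat_lit 532) (nat_lit 1104669203) (nat_lit 144) (nat_lit 5) (nat_lit 143) (nat_lit 5) (nat_lit 150) (nat_lit 5) (nat_lit 310) (nat_lit 307) (nat_lit 283))))) (XT.nd (nat_lit 234) (nat_lit 456) (nat_lit 0) (XT.nd (nat_lit 78) (nat_lit 0) (nat_lit 0) (XT.lf (nat_lit 0) (nat_lit 626969518) (nat_lit 532) (nat_lit 3274752679) (nat_lit 608) (nat_lit 3499952068) (nat_lit 136) (nat_lit 5) (nat_lit 143) (nat_lit 5) (nat_lit 144) (nat_lit 5) (nat_lit 311) (nat_lit 307) (nat_lit 282)) (XT.nd (nat_lit 78) (nat_lit 0) (nat_lit 76) (XT.lf (nat_lit 76) (nat_lit 560833125) (nat_lit 0) (nat_lit 1756645052) (nat_lit 608) (nat_lit 5201922674) (nat_lit 137) (nat_lit 5) (nat_lit 136) (nat_lit 5) (nat_lit 144) (nat_lit 5) (nat_lit 312) (nat_lit 307) (nat_lit 281)) (XT.lf (nat_lit 0) (nat_lit 4061550096) (nat_lit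 532) (nat_lit 3014812711) (nat_lit 608) (nat_lit 568301212) (nat_lit 137) (nat_lit 5) (nat_lit 144) (nat_lit 5) (nat_lit 145) (nat_lit 5) (nat_lit 313) (nat_lit 307) (nat_lit 280)))) (XT.nd (nat_lit 156) (nat_lit 532) (nat_lit 0) (XT.nd (nat_lit 78) (nat_lit 0) (nat_lit 0) (XT.lf (nat_lit 76) (nat_lit 1066895199) (nat_lit 0) (nat_lit 4780842320) (nat_lit 608) (nat_lit 1930804512) (nat_lit 138) (nat_lit 5) (nat_lit 137) (nat_lit 5) (nat_lit 145) (nat_lit 5) (nat_lit 314) (nat_lit 307) (nat_lit 279)) (XT.lf (nat_lit 76) (nat_lit 5393812980) (nat_lit 0) (nat_lit 2293255348) (nat_lit 608) (nat_lit 233946564) (nat_lit 138) (nat_lit 5) (nat_lit 137) (nat_lit 5) (nat_lit 145) (nat_lit 5) (nat_lit 315) (nat_lit 307) (nat_lit 278))) (XT.nd (nat_lit 78) (nat_lit 0) (nat_lit 0) (XT.lf (nat_lit 0) (nat_lit 1448563709) (nat_lit 608) (nat_lit 6240727290) (nat_lit 76) (nat_lit 382678830) (nat_lit 130)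 (nat_lit 5) (nat_lit 138) (nat_lit 5) (nat_lit 131) (nat_lit 5) (nat_lit 316) (nat_lit 307) (nat_lit 277)) (XT.lf (nat_lit 0) (nat_lit 3207264598) (nat_lit 608) (nat_lit 1841940390) (nat_lit 76) (nat_lit 3181159435) (nat_lit 130) (nat_lit 5) (nat_lit 138) (nat_lit 5) (nat_lit 131) (nat_lit 5) (nat_lit 317) (nat_lit 307) (nat_lit 276))))))))
noncomputable def xc120 : XT := (XT.nd (nat_lit 1872) (nat_lit 2280) (nat_lit 0) (XT.nd (nat_lit 936) (nat_lit 1976) (nat_lit 0) (XT.nd (nat_lit 468) (nat_lit 1064) (nat_lit 0) (XT.nd (nat_lit 234) (nat_lit 1140) (nat_lit 0) (XT.nd (nat_lit 78) (nat_lit 760) (nat_lit 0) (XT.lf (nat_lit 0) (nat_lit 2802852115) (nat_lit 608) (nat_lit 2217505816) (nat_lit 684) (nat_lit 3378074170) (nat_lit 122) (nat_lit 5) (nat_lit 130) (nat_lit 5) (nat_lit 131) (nat_lit 5) (nat_lit 318) (nat_lit 307) (nat_lit 275)) (XT.nd (nat_lit 78) (nat_lit 760) (nat_lit 0) (XT.lf (nat_lit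 0) (nat_lit 6893198883) (nat_lit 684) (nat_lit 908428074) (nat_lit 76) (nat_lit 774894150) (nat_lit 122) (nat_lit 5) (nat_lit 131) (nat_lit 5) (nat_lit 123) (nat_lit 5) (nat_lit 319) (nat_lit 307) (nat_lit 274)) (XT.lf (nat_lit 0) (nat_lit 122092575) (nat_lit 760) (nat_lit 4721436772) (nat_lit 76) (nat_lit 3918525827) (nat_lit 112) (nat_lit 5) (nat_lit 122) (nat_lit 5) (nat_lit 113) (nat_lit 5) (nat_lit 320) (nat_lit 307) (nat_lit 273)))) (XT.nd (nat_lit 78) (nat_lit 380) (nat_lit 0) (XT.lf (nat_lit 0) (nat_lit 227206781) (nat_lit 760) (nat_lit 1683530061) (nat_lit 836) (nat_lit 7047335569) (nat_lit 102) (nat_lit 5) (nat_lit 112) (nat_lit 5) (nat_lit 113) (nat_lit 5) (nat_lit 321) (nat_lit 307) (nat_lit 272)) (XT.nd (nat_lit 78) (nat_lit 380) (nat_lit 0) (XT.lf (nat_lit 0) (nat_lit 3828325867) (nat_lit 836) (nat_lit 3666736314) (nat_lit 76) (nat_lit 1666912423) (nat_lit 102) (nat_lit 5)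 (nat_lit 113) (nat_lit 5) (nat_lit 103) (nat_lit 5) (nat_lit 322) (nat_lit 307) (nat_lit 271)) (XT.lf (nat_lit 0) (nat_lit 1610533976) (nat_lit 380) (nat_lit 4219931088) (nat_lit 456) (nat_lit 3546230184) (nat_lit 97) (nat_lit 5) (nat_lit 102) (nat_lit 5) (nat_lit 103) (nat_lit 5) (nat_lit 323) (nat_lit 307) (nat_lit 270))))) (XT.nd (nat_lit 234) (nat_lit 684) (nat_lit 0) (XT.nd (nat_lit 78) (nat_lit 380) (nat_lit 0) (XT.lf (nat_lit 0) (nat_lit 7215987285) (nat_lit 380) (nat_lit 716816594) (nat_lit 456) (nat_lit 1669397582) (nat_lit 97) (nat_lit 5) (nat_lit 102) (nat_lit 5) (nat_lit 103) (nat_lit 5) (nat_lit 324) (nat_lit 307) (nat_lit 269)) (XT.nd (nat_lit 78) (nat_lit 0) (nat_lit 0) (XT.lf (nat_lit 0) (nat_lit 330240132) (nat_lit 380) (nat_lit 6584667946) (nat_lit 76) (nat_lit 2921958542) (nat_lit 92) (nat_lit 5) (nat_lit 97) (nat_lit 5) (nat_lit 93) (nat_lit 5) (nat_lit 325) (nat_lit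 307) (nat_lit 268)) (XT.lf (nat_lit 0) (nat_lit 2368374912) (nat_lit 380) (nat_lit 929576685) (nat_lit 76) (nat_lit 6784260978) (nat_lit 92) (nat_lit 5) (nat_lit 97) (nat_lit 5) (nat_lit 93) (nat_lit 5) (nat_lit 326) (nat_lit 307) (nat_lit 267)))) (XT.nd (nat_lit 78) (nat_lit 304) (nat_lit 0) (XT.lf (nat_lit 0) (nat_lit 4541804556) (nat_lit 456) (nat_lit 5236710931) (nat_lit 76) (nat_lit 559685503) (nat_lit 87) (nat_lit 5) (nat_lit 93) (nat_lit 5) (nat_lit 88) (nat_lit 5) (nat_lit 327) (nat_lit 307) (nat_lit 266)) (XT.nd (nat_lit 78) (nat_lit 0) (nat_lit 0) (XT.lf (nat_lit 0) (nat_lit 767901945) (nat_lit 304) (nat_lit 6084231145) (nat_lit 380) (nat_lit 3753486805) (nat_lit 83) (nat_lit 5) (nat_lit 87) (nat_lit 5) (nat_lit 88) (nat_lit 5) (nat_lit 328) (nat_lit 307) (nat_lit 265)) (XT.lf (nat_lit 0) (nat_lit 7193026746) (nat_lit 304) (nat_lit 2121412783) (nat_lit 380) (nat_lit 1570187568)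 (nat_lit 83) (nat_lit 5) (nat_lit 87) (nat_lit 5) (nat_lit 88) (nat_lit 5) (nat_lit 329) (nat_lit 307) (nat_lit 264)))))) (XT.nd (nat_lit 468) (nat_lit 760) (nat_lit 0) (XT.nd (nat_lit 234) (nat_lit 608) (nat_lit 0) (XT.nd (nat_lit 78) (nat_lit 228) (nat_lit 0) (XT.lf (nat_lit 0) (nat_lit 724547307) (nat_lit 380) (nat_lit 8430812255) (nat_lit 76) (nat_lit 2020428520) (nat_lit 78) (nat_lit 5) (nat_lit 83) (nat_lit 5) (nat_lit 79) (nat_lit 5) (nat_lit 330) (nat_lit 307) (nat_lit 263)) (XT.nd (nat_lit 78) (nat_lit 228) (nat_lit 0) (XT.lf (nat_lit 0) (nat_lit 3130304111) (nat_lit 380) (nat_lit 1970042397) (nat_lit 76) (nat_lit 6377455797) (nat_lit 78) (nat_lit 5) (nat_lit 83) (nat_lit 5) (nat_lit 79) (nat_lit 5) (nat_lit 331) (nat_lit 307) (nat_lit 262)) (XT.lf (nat_lit 0) (nat_lit 4912262225) (nat_lit 228) (nat_lit 773859363) (nat_lit 304) (nat_lit 6107340266) (nat_lit 75) (nat_lit 5) (nat_lit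 78) (nat_lit 5) (nat_lit 79) (nat_lit 5) (nat_lit 332) (nat_lit 307) (nat_lit 261)))) (XT.nd (nat_lit 78) (nat_lit 608) (nat_lit 0) (XT.lf (nat_lit 0) (nat_lit 8416704984) (nat_lit 304) (nat_lit 35449936) (nat_lit 76) (nat_lit 3670432380) (nat_lit 75) (nat_lit 5) (nat_lit 79) (nat_lit 5) (nat_lit 76) (nat_lit 5) (nat_lit 333) (nat_lit 307) (nat_lit 260)) (XT.nd (nat_lit 78) (nat_lit 304) (nat_lit 0) (XT.lf (nat_lit 0) (nat_lit 7317044141) (nat_lit 304) (nat_lit 4050099737) (nat_lit 380) (nat_lit 1096888987) (nat_lit 71) (nat_lit 5) (nat_lit 75) (nat_lit 5) (nat_lit 76) (nat_lit 5) (nat_lit 334) (nat_lit 307) (nat_lit 259)) (XT.lf (nat_lit 0) (nat_lit 1591567109) (nat_lit 304) (nat_lit 10628249733) (nat_lit 76) (nat_lit 601399728) (nat_lit 67) (nat_lit 5) (nat_lit 71) (nat_lit 5) (nat_lit 68) (nat_lit 5) (nat_lit 335) (nat_lit 307) (nat_lit 258))))) (XT.nd (nat_lit 234) (nat_lit 532) (nat_lit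 0) (XT.nd (nat_lit 78) (nat_lit 228) (nat_lit 0) (XT.lf (nat_lit 0) (nat_lit 4490391108) (nat_lit 304) (nat_lit 3257641508) (nat_lit 76) (nat_lit 5441713424) (nat_lit 67) (nat_lit 5) (nat_lit 71) (nat_lit 5) (nat_lit 68) (nat_lit 5) (nat_lit 336) (nat_lit 307) (nat_lit 257)) (XT.nd (nat_lit 78) (nat_lit 0) (nat_lit 0) (XT.lf (nat_lit 0) (nat_lit 4572073400) (nat_lit 228) (nat_lit 2993291476) (nat_lit 304) (nat_lit 6009801493) (nat_lit 64) (nat_lit 5) (nat_lit 67) (nat_lit 5) (nat_lit 68) (nat_lit 5) (nat_lit 337) (nat_lit 307) (nat_lit 256)) (XT.lf (nat_lit 0) (nat_lit 10842010874) (nat_lit 304) (nat_lit 1159437597) (nat_lit 76) (nat_lit 1976036702) (nat_lit 64) (nat_lit 5) (nat_lit 68) (nat_lit 5) (nat_lit 65) (nat_lit 5) (nat_lit 338) (nat_lit 307) (nat_lit 255)))) (XT.nd (nat_lit 78) (nat_lit 228) (nat_lit 0) (XT.lf (nat_lit 0) (nat_lit 12395679) (nat_lit 304) (nat_lit 7189934350) (nat_lit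 76) (nat_lit 7191399600) (nat_lit 60) (nat_lit 5) (nat_lit 64) (nat_lit 5) (nat_lit 61) (nat_lit 5) (nat_lit 339) (nat_lit 307) (nat_lit 254)) (XT.nd (nat_lit 78) (nat_lit 0) (nat_lit 0) (XT.lf (nat_lit 0) (nat_lit 1125665925) (nat_lit 228) (nat_lit 2087001628) (nat_lit 304) (nat_lit 11615550065) (nat_lit 57) (nat_lit 5) (nat_lit 60) (nat_lit 5) (nat_lit 61) (nat_lit 5) (nat_lit 340) (nat_lit 307) (nat_lit 253)) (XT.lf (nat_lit 0) (nat_lit 6711503684) (nat_lit 304) (nat_lit 5279911408) (nat_lit 76) (nat_lit 3286106826) (nat_lit 57) (nat_lit 5) (nat_lit 61) (nat_lit 5) (nat_lit 58) (nat_lit 5) (nat_lit 341) (nat_lit 307) (nat_lit 252))))))) (XT.nd (nat_lit 936) (nat_lit 912) (nat_lit 0) (XT.nd (nat_lit 468) (nat_lit 608) (nat_lit 0) (XT.nd (nat_lit 234) (nat_lit 304) (nat_lit 0) (XT.nd (nat_lit 78) (nat_lit 304) (nat_lit 0) (XT.lf (nat_lit 0) (nat_lit 3592276256) (nat_lit 152) (nat_lit 6848556954)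 (nat_lit 228) (nat_lit 5305699160) (nat_lit 55) (nat_lit 5) (nat_lit 57) (nat_lit 5) (nat_lit 58) (nat_lit 5) (nat_lit 342) (nat_lit 307) (nat_lit 251)) (XT.nd (nat_lit 78) (nat_lit 304) (nat_lit 0) (XT.lf (nat_lit 0) (nat_lit 13039877440) (nat_lit 152) (nat_lit 1372273101) (nat_lit 228) (nat_lit 1824084374) (nat_lit 55) (nat_lit 5) (nat_lit 57) (nat_lit 5) (nat_lit 58) (nat_lit 5) (nat_lit 343) (nat_lit 307) (nat_lit 250)) (XT.lf (nat_lit 0) (nat_lit 1909211798) (nat_lit 304) (nat_lit 10482479162) (nat_lit 76) (nat_lit 4350506612) (nat_lit 51) (nat_lit 5) (nat_lit 55) (nat_lit 5) (nat_lit 52) (nat_lit 5) (nat_lit 344) (nat_lit 307) (nat_lit 249)))) (XT.nd (nat_lit 78) (nat_lit 304) (nat_lit 0) (XT.lf (nat_lit 0) (nat_lit 5813081886) (nat_lit 304) (nat_lit 1075159350) (nat_lit 76) (nat_lit 10381476695) (nat_lit 51) (nat_lit 5) (nat_lit 55) (nat_lit 5) (nat_lit 52) (nat_lit 5) (nat_lit 345)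 (nat_lit 307) (nat_lit 248)) (XT.nd (nat_lit 78) (nat_lit 152) (nat_lit 0) (XT.lf (nat_lit 0) (nat_lit 9043706023) (nat_lit 152) (nat_lit 978870151) (nat_lit 228) (nat_lit 7795531108) (nat_lit 49) (nat_lit 5) (nat_lit 51) (nat_lit 5) (nat_lit 52) (nat_lit 5) (nat_lit 346) (nat_lit 307) (nat_lit 247)) (XT.lf (nat_lit 0) (nat_lit 1221294250) (nat_lit 152) (nat_lit 13310101756) (nat_lit 228) (nat_lit 3858091371) (nat_lit 47) (nat_lit 5) (nat_lit 49) (nat_lit 5) (nat_lit 50) (nat_lit 5) (nat_lit 347) (nat_lit 307) (nat_lit 246))))) (XT.nd (nat_lit 234) (nat_lit 380) (nat_lit 0) (XT.nd (nat_lit 78) (nat_lit 152) (nat_lit 0) (XT.lf (nat_lit 0) (nat_lit 404342121) (nat_lit 228) (nat_lit 7032362908) (nat_lit 76) (nat_lit 11545680225) (nat_lit 46) (nat_lit 5) (nat_lit 49) (nat_lit 5) (nat_lit 47) (nat_lit 5) (nat_lit 348) (nat_lit 307) (nat_lit 245)) (XT.nd (nat_lit 78) (nat_lit 0) (nat_lit 0) (XT.lf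 (nat_lit 0) (nat_lit 3616118727) (nat_lit 152) (nat_lit 1161894108) (nat_lit 228) (nat_lit 14822376121) (nat_lit 44) (nat_lit 5) (nat_lit 46) (nat_lit 5) (nat_lit 47) (nat_lit 5) (nat_lit 349) (nat_lit 307) (nat_lit 244)) (XT.lf (nat_lit 0) (nat_lit 9547827321) (nat_lit 228) (nat_lit 5335857058) (nat_lit 76) (nat_lit 5356746822) (nat_lit 44) (nat_lit 5) (nat_lit 47) (nat_lit 5) (nat_lit 45) (nat_lit 5) (nat_lit 350) (nat_lit 307) (nat_lit 243)))) (XT.nd (nat_lit 78) (nat_lit 228) (nat_lit 0) (XT.lf (nat_lit 0) (nat_lit 5972305632) (nat_lit 152) (nat_lit 8669153090) (nat_lit 228) (nat_lit 6266761353) (nat_lit 42) (nat_lit 5) (nat_lit 44) (nat_lit 5) (nat_lit 45) (nat_lit 5) (nat_lit 351) (nat_lit 307) (nat_lit 242)) (XT.nd (nat_lit 78) (nat_lit 228) (nat_lit 0) (XT.lf (nat_lit 0) (nat_lit 17987072767) (nat_lit 152) (nat_lit 2066694863) (nat_lit 228) (nat_lit 1552441277) (nat_lit 42) (nat_lit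 5) (nat_lit 44) (nat_lit 5) (nat_lit 45) (nat_lit 5) (nat_lit 352) (nat_lit 307) (nat_lit 241)) (XT.lf (nat_lit 0) (nat_lit 3473781199) (nat_lit 228) (nat_lit 13972188616) (nat_lit 76) (nat_lit 4881237888) (nat_lit 39) (nat_lit 5) (nat_lit 42) (nat_lit 5) (nat_lit 40) (nat_lit 5) (nat_lit 353) (nat_lit 307) (nat_lit 240)))))) (XT.nd (nat_lit 468) (nat_lit 456) (nat_lit 0) (XT.nd (nat_lit 234) (nat_lit 304) (nat_lit 0) (XT.nd (nat_lit 78) (nat_lit 152) (nat_lit 0) (XT.lf (nat_lit 0) (nat_lit 8770075276) (nat_lit 228) (nat_lit 2131104576) (nat_lit 76) (nat_lit 12178266365) (nat_lit 39) (nat_lit 5) (nat_lit 42) (nat_lit 5) (nat_lit 40) (nat_lit 5) (nat_lit 354) (nat_lit 307) (nat_lit 239)) (XT.nd (nat_lit 78) (nat_lit 0) (nat_lit 0) (XT.lf (nat_lit 0) (nat_lit 10600252559) (nat_lit 152) (nat_lit 3872389084) (nat_lit 228) (nat_lit 9389590619) (nat_lit 37) (nat_lit 5) (nat_lit 39) (nat_lit 5)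 (nat_lit 40) (nat_lit 5) (nat_lit 355) (nat_lit 307) (nat_lit 238)) (XT.lf (nat_lit 0) (nat_lit 20527995341) (nat_lit 228) (nat_lit 736861607) (nat_lit 76) (nat_lit 3415925791) (nat_lit 37) (nat_lit 5) (nat_lit 40) (nat_lit 5) (nat_lit 38) (nat_lit 4) (nat_lit 356) (nat_lit 307) (nat_lit 237)))) (XT.nd (nat_lit 78) (nat_lit 152) (nat_lit 0) (XT.lf (nat_lit 0) (nat_lit 1546096386) (nat_lit 152) (nat_lit 12834472061) (nat_lit 76) (nat_lit 11146483180) (nat_lit 35) (nat_lit 5) (nat_lit 37) (nat_lit 5) (nat_lit 36) (nat_lit 5) (nat_lit 357) (nat_lit 307) (nat_lit 236)) (XT.nd (nat_lit 78) (nat_lit 0) (nat_lit 0) (XT.lf (nat_lit 0) (nat_lit 306114367) (nat_lit 152) (nat_lit 7079157631) (nat_lit 228) (nat_lit 19027219591) (nat_lit 33) (nat_lit 5) (nat_lit 35) (nat_lit 5) (nat_lit 36) (nat_lit 5) (nat_lit 358) (nat_lit 307) (nat_lit 235)) (XT.lf (nat_lit 0) (nat_lit 13724149351) (nat_lit 228)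 (nat_lit 12834432828) (nat_lit 76) (nat_lit 773240870) (nat_lit 33) (nat_lit 5) (nat_lit 36) (nat_lit 5) (nat_lit 34) (nat_lit 4) (nat_lit 359) (nat_lit 307) (nat_lit 234))))) (XT.nd (nat_lit 234) (nat_lit 152) (nat_lit 0) (XT.nd (nat_lit 78) (nat_lit 228) (nat_lit 0) (XT.lf (nat_lit 0) (nat_lit 978589257) (nat_lit 76) (nat_lit 19511427741) (nat_lit 152) (nat_lit 7801608092) (nat_lit 32) (nat_lit 5) (nat_lit 33) (nat_lit 5) (nat_lit 34) (nat_lit 4) (nat_lit 360) (nat_lit 307) (nat_lit 233)) (XT.nd (nat_lit 78) (nat_lit 228) (nat_lit 0) (XT.lf (nat_lit 0) (nat_lit 15890665736) (nat_lit 76) (nat_lit 11900018808) (nat_lit 152) (nat_lit 1498913391) (nat_lit 32) (nat_lit 5) (nat_lit 33) (nat_lit 5) (nat_lit 34) (nat_lit 4) (nat_lit 361) (nat_lit 307) (nat_lit 232)) (XT.lf (nat_lit 0) (nat_lit 1131075668) (nat_lit 152) (nat_lit 3821473340) (nat_lit 228) (nat_lit 25381056340) (nat_lit 29) (nat_lit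 5) (nat_lit 31) (nat_lit 5) (nat_lit 32) (nat_lit 5) (nat_lit 362) (nat_lit 307) (nat_lit 231)))) (XT.nd (nat_lit 156) (nat_lit 76) (nat_lit 0) (XT.nd (nat_lit 78) (nat_lit 76) (nat_lit 0) (XT.lf (nat_lit 0) (nat_lit 11959592545) (nat_lit 228) (nat_lit 14703014974) (nat_lit 76) (nat_lit 4751813137) (nat_lit 29) (nat_lit 5) (nat_lit 32) (nat_lit 5) (nat_lit 30) (nat_lit 4) (nat_lit 363) (nat_lit 307) (nat_lit 230)) (XT.lf (nat_lit 0) (nat_lit 438335216) (nat_lit 76) (nat_lit 18929070181) (nat_lit 152) (nat_lit 13179355435) (nat_lit 28) (nat_lit 5) (nat_lit 29) (nat_lit 5) (nat_lit 30) (nat_lit 4) (nat_lit 364) (nat_lit 307) (nat_lit 229))) (XT.nd (nat_lit 78) (nat_lit 76) (nat_lit 0) (XT.lf (nat_lit 0) (nat_lit 16813242602) (nat_lit 76) (nat_lit 10562673323) (nat_lit 152) (nat_lit 6348291464) (nat_lit 28) (nat_lit 5) (nat_lit 29) (nat_lit 5) (nat_lit 30) (nat_lit 4) (nat_lit 365) (nat_lit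 307) (nat_lit 228)) (XT.lf (nat_lit 0) (nat_lit 779840517) (nat_lit 152) (nat_lit 999452133) (nat_lit 76) (nat_lit 33181499487) (nat_lit 27) (nat_lit 5) (nat_lit 29) (nat_lit 5) (nat_lit 28) (nat_lit 5) (nat_lit 366) (nat_lit 307) (nat_lit 227))))))))
noncomputable def xc121 : XT := (XT.nd (nat_lit 1950) (nat_lit 532) (nat_lit 0) (XT.nd (nat_lit 936) (nat_lit 456) (nat_lit 0) (XT.nd (nat_lit 468) (nat_lit 304) (nat_lit 0) (XT.nd (nat_lit 234) (nat_lit 152) (nat_lit 0) (XT.nd (nat_lit 78) (nat_lit 76) (nat_lit 0) (XT.lf (nat_lit 0) (nat_lit 8406772310) (nat_lit 228) (nat_lit 20277052830) (nat_lit 76) (nat_lit 7552394674) (nat_lit 25) (nat_lit 5) (nat_lit 28) (nat_lit 5) (nat_lit 26) (nat_lit 4) (nat_lit 367) (nat_lit 307) (nat_lit 226)) (XT.nd (nat_lit 78) (nat_lit 76) (nat_lit 0) (XT.lf (nat_lit 0) (nat_lit 16444304158) (nat_lit 228) (nat_lit 3835109644) (nat_lit 76) (nat_lit 17294546286)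 (nat_lit 25) (nat_lit 5) (nat_lit 28) (nat_lit 5) (nat_lit 26) (nat_lit 4) (nat_lit 368) (nat_lit 307) (nat_lit 225)) (XT.lf (nat_lit 0) (nat_lit 13841953319) (nat_lit 76) (nat_lit 11241567198) (nat_lit 152) (nat_lit 13885080163) (nat_lit 24) (nat_lit 5) (nat_lit 25) (nat_lit 5) (nat_lit 26) (nat_lit 4) (nat_lit 369) (nat_lit 307) (nat_lit 224)))) (XT.nd (nat_lit 78) (nat_lit 152) (nat_lit 0) (XT.lf (nat_lit 0) (nat_lit 32506493420) (nat_lit 76) (nat_lit 1697165392) (nat_lit 152) (nat_lit 6226869960) (nat_lit 24) (nat_lit 5) (nat_lit 25) (nat_lit 5) (nat_lit 26) (nat_lit 4) (nat_lit 370) (nat_lit 307) (nat_lit 223)) (XT.nd (nat_lit 78) (nat_lit 0) (nat_lit 0) (XT.lf (nat_lit 0) (nat_lit 2036205259) (nat_lit 152) (nat_lit 31674578226) (nat_lit 76) (nat_lit 8239355611) (nat_lit 22) (nat_lit 5) (nat_lit 24) (nat_lit 5) (nat_lit 23) (nat_lit 4) (nat_lit 371) (nat_lit 307) (nat_lit 222)) (XT.lf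 (nat_lit 0) (nat_lit 10652005006) (nat_lit 152) (nat_lit 14039609889) (nat_lit 76) (nat_lit 18841572372) (nat_lit 22) (nat_lit 5) (nat_lit 24) (nat_lit 5) (nat_lit 23) (nat_lit 4) (nat_lit 372) (nat_lit 307) (nat_lit 221))))) (XT.nd (nat_lit 234) (nat_lit 228) (nat_lit 0) (XT.nd (nat_lit 78) (nat_lit 0) (nat_lit 0) (XT.lf (nat_lit 0) (nat_lit 4596874441) (nat_lit 76) (nat_lit 15158837739) (nat_lit 152) (nat_lit 25436822695) (nat_lit 21) (nat_lit 5) (nat_lit 22) (nat_lit 5) (nat_lit 23) (nat_lit 4) (nat_lit 373) (nat_lit 307) (nat_lit 220)) (XT.nd (nat_lit 78) (nat_lit 0) (nat_lit 0) (XT.lf (nat_lit 0) (nat_lit 24625686739) (nat_lit 76) (nat_lit 4912310361) (nat_lit 152) (nat_lit 17385685906) (nat_lit 21) (nat_lit 5) (nat_lit 22) (nat_lit 5) (nat_lit 23) (nat_lit 4) (nat_lit 374) (nat_lit 307) (nat_lit 219)) (XT.lf (nat_lit 0) (nat_lit 39886799996) (nat_lit 152) (nat_lit 3202868361) (nat_lit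 0) (nat_lit 5647852631) (nat_lit 21) (nat_lit 5) (nat_lit 23) (nat_lit 4) (nat_lit 21) (nat_lit 4) (nat_lit 375) (nat_lit 307) (nat_lit 218)))) (XT.nd (nat_lit 78) (nat_lit 76) (nat_lit 0) (XT.lf (nat_lit 0) (nat_lit 450306430) (nat_lit 152) (nat_lit 33337304366) (nat_lit 76) (nat_lit 16837212477) (nat_lit 19) (nat_lit 5) (nat_lit 21) (nat_lit 5) (nat_lit 20) (nat_lit 4) (nat_lit 376) (nat_lit 307) (nat_lit 217)) (XT.nd (nat_lit 78) (nat_lit 76) (nat_lit 0) (XT.lf (nat_lit 0) (nat_lit 9960889959) (nat_lit 152) (nat_lit 13861070213) (nat_lit 76) (nat_lit 28775180735) (nat_lit 19) (nat_lit 5) (nat_lit 21) (nat_lit 5) (nat_lit 20) (nat_lit 4) (nat_lit 377) (nat_lit 307) (nat_lit 216)) (XT.lf (nat_lit 0) (nat_lit 6782308501) (nat_lit 76) (nat_lit 13258028487) (nat_lit 152) (nat_lit 34623072881) (nat_lit 18) (nat_lit 5) (nat_lit 19) (nat_lit 5) (nat_lit 20) (nat_lit 4) (nat_lit 378) (nat_lit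 307) (nat_lit 215)))))) (XT.nd (nat_lit 468) (nat_lit 228) (nat_lit 0) (XT.nd (nat_lit 234) (nat_lit 152) (nat_lit 0) (XT.nd (nat_lit 78) (nat_lit 76) (nat_lit 0) (XT.lf (nat_lit 0) (nat_lit 28915720796) (nat_lit 76) (nat_lit 1930456195) (nat_lit 152) (nat_lit 25975696320) (nat_lit 18) (nat_lit 5) (nat_lit 19) (nat_lit 5) (nat_lit 20) (nat_lit 4) (nat_lit 379) (nat_lit 307) (nat_lit 214)) (XT.nd (nat_lit 78) (nat_lit 76) (nat_lit 0) (XT.lf (nat_lit 0) (nat_lit 42335966469) (nat_lit 152) (nat_lit 7110686982) (nat_lit 0) (nat_lit 9634425562) (nat_lit 18) (nat_lit 5) (nat_lit 20) (nat_lit 4) (nat_lit 18) (nat_lit 4) (nat_lit 380) (nat_lit 307) (nat_lit 213)) (XT.lf (nat_lit 0) (nat_lit 15156411800) (nat_lit 76) (nat_lit 39500780601) (nat_lit 76) (nat_lit 6783207119) (nat_lit 17) (nat_lit 4) (nat_lit 18) (nat_lit 5) (nat_lit 18) (nat_lit 4) (nat_lit 381) (nat_lit 307) (nat_lit 212)))) (XT.nd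 (nat_lit 78) (nat_lit 76) (nat_lit 0) (XT.lf (nat_lit 0) (nat_lit 3670200291) (nat_lit 152) (nat_lit 25208932003) (nat_lit 76) (nat_lit 35030130848) (nat_lit 16) (nat_lit 5) (nat_lit 18) (nat_lit 5) (nat_lit 17) (nat_lit 4) (nat_lit 382) (nat_lit 307) (nat_lit 211)) (XT.nd (nat_lit 78) (nat_lit 76) (nat_lit 0) (XT.lf (nat_lit 0) (nat_lit 14407546405) (nat_lit 152) (nat_lit 3211914489) (nat_lit 76) (nat_lit 48877089232) (nat_lit 16) (nat_lit 5) (nat_lit 18) (nat_lit 5) (nat_lit 17) (nat_lit 4) (nat_lit 383) (nat_lit 307) (nat_lit 210)) (XT.lf (nat_lit 0) (nat_lit 20522181516) (nat_lit 76) (nat_lit 5469728570) (nat_lit 152) (nat_lit 43205785397) (nat_lit 15) (nat_lit 5) (nat_lit 16) (nat_lit 5) (nat_lit 17) (nat_lit 4) (nat_lit 384) (nat_lit 307) (nat_lit 209))))) (XT.nd (nat_lit 234) (nat_lit 152) (nat_lit 0) (XT.nd (nat_lit 78) (nat_lit 76) (nat_lit 0) (XT.lf (nat_lit 0) (nat_lit 38314341922)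 (nat_lit 152) (nat_lit 26611010568) (nat_lit 0) (nat_lit 7100604586) (nat_lit 15) (nat_lit 5) (nat_lit 17) (nat_lit 4) (nat_lit 15) (nat_lit 4) (nat_lit 385) (nat_lit 307) (nat_lit 208)) (XT.nd (nat_lit 78) (nat_lit 76) (nat_lit 0) (XT.lf (nat_lit 0) (nat_lit 51332834237) (nat_lit 152) (nat_lit 3551668813) (nat_lit 0) (nat_lit 20107133147) (nat_lit 15) (nat_lit 5) (nat_lit 17) (nat_lit 4) (nat_lit 15) (nat_lit 4) (nat_lit 386) (nat_lit 307) (nat_lit 207)) (XT.lf (nat_lit 0) (nat_lit 21325356880) (nat_lit 76) (nat_lit 44000577356) (nat_lit 76) (nat_lit 12763482214) (nat_lit 14) (nat_lit 4) (nat_lit 15) (nat_lit 5) (nat_lit 15) (nat_lit 4) (nat_lit 387) (nat_lit 307) (nat_lit 206)))) (XT.nd (nat_lit 156) (nat_lit 76) (nat_lit 0) (XT.nd (nat_lit 78) (nat_lit 76) (nat_lit 0) (XT.lf (nat_lit 0) (nat_lit 47551999578) (nat_lit 76) (nat_lit 32517740735) (nat_lit 76) (nat_lit 1269794115) (nat_lit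 14) (nat_lit 4) (nat_lit 15) (nat_lit 5) (nat_lit 15) (nat_lit 4) (nat_lit 388) (nat_lit 307) (nat_lit 205)) (XT.lf (nat_lit 0) (nat_lit 10444148320) (nat_lit 152) (nat_lit 9847777305) (nat_lit 76) (nat_lit 64452244430) (nat_lit 13) (nat_lit 5) (nat_lit 15) (nat_lit 5) (nat_lit 14) (nat_lit 4) (nat_lit 389) (nat_lit 307) (nat_lit 204))) (XT.nd (nat_lit 78) (nat_lit 0) (nat_lit 0) (XT.lf (nat_lit 0) (nat_lit 15756262684) (nat_lit 76) (nat_lit 7182462513) (nat_lit 152) (nat_lit 65367392005) (nat_lit 12) (nat_lit 5) (nat_lit 13) (nat_lit 5) (nat_lit 14) (nat_lit 4) (nat_lit 390) (nat_lit 307) (nat_lit 203)) (XT.lf (nat_lit 0) (nat_lit 36321954769) (nat_lit 152) (nat_lit 49177150247) (nat_lit 0) (nat_lit 6533861543) (nat_lit 12) (nat_lit 5) (nat_lit 14) (nat_lit 4) (nat_lit 12) (nat_lit 4) (nat_lit 391) (nat_lit 307) (nat_lit 202))))))) (XT.nd (nat_lit 936) (nat_lit 228) (nat_lit 0) (XT.nd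 (nat_lit 468) (nat_lit 76) (nat_lit 0) (XT.nd (nat_lit 234) (nat_lit 152) (nat_lit 0) (XT.nd (nat_lit 78) (nat_lit 76) (nat_lit 0) (XT.lf (nat_lit 0) (nat_lit 50484131167) (nat_lit 152) (nat_lit 24769003414) (nat_lit 0) (nat_lit 20687535524) (nat_lit 12) (nat_lit 5) (nat_lit 14) (nat_lit 4) (nat_lit 12) (nat_lit 4) (nat_lit 392) (nat_lit 307) (nat_lit 201)) (XT.nd (nat_lit 78) (nat_lit 0) (nat_lit 0) (XT.lf (nat_lit 0) (nat_lit 872773172) (nat_lit 76) (nat_lit 64487688754) (nat_lit 76) (nat_lit 34682995570) (nat_lit 11) (nat_lit 4) (nat_lit 12) (nat_lit 5) (nat_lit 12) (nat_lit 4) (nat_lit 393) (nat_lit 307) (nat_lit 200)) (XT.lf (nat_lit 0) (nat_lit 28642087967) (nat_lit 76) (nat_lit 52750550429) (nat_lit 76) (nat_lit 22938145302) (nat_lit 11) (nat_lit 4) (nat_lit 12) (nat_lit 5) (nat_lit 12) (nat_lit 4) (nat_lit 394) (nat_lit 307) (nat_lit 199)))) (XT.nd (nat_lit 78) (nat_lit 152) (nat_lit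 0) (XT.lf (nat_lit 0) (nat_lit 57786083272) (nat_lit 76) (nat_lit 40433249097) (nat_lit 76) (nat_lit 10613499263) (nat_lit 11) (nat_lit 4) (nat_lit 12) (nat_lit 5) (nat_lit 12) (nat_lit 4) (nat_lit 395) (nat_lit 307) (nat_lit 198)) (XT.nd (nat_lit 78) (nat_lit 76) (nat_lit 0) (XT.lf (nat_lit 0) (nat_lit 2246023269) (nat_lit 152) (nat_lit 25222397091) (nat_lit 76) (nat_lit 86090088791) (nat_lit 10) (nat_lit 5) (nat_lit 12) (nat_lit 5) (nat_lit 11) (nat_lit 4) (nat_lit 396) (nat_lit 307) (nat_lit 197)) (XT.lf (nat_lit 0) (nat_lit 1762882672) (nat_lit 76) (nat_lit 13649941392) (nat_lit 152) (nat_lit 103097898366) (nat_lit 9) (nat_lit 5) (nat_lit 10) (nat_lit 5) (nat_lit 11) (nat_lit 4) (nat_lit 397) (nat_lit 307) (nat_lit 196))))) (XT.nd (nat_lit 234) (nat_lit 76) (nat_lit 0) (XT.nd (nat_lit 78) (nat_lit 0) (nat_lit 0) (XT.lf (nat_lit 0) (nat_lit 29679022101) (nat_lit 152) (nat_lit 92749260774)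 (nat_lit 0) (nat_lit 1260211344) (nat_lit 9) (nat_lit 5) (nat_lit 11) (nat_lit 4) (nat_lit 9) (nat_lit 4) (nat_lit 398) (nat_lit 307) (nat_lit 195)) (XT.nd (nat_lit 78) (nat_lit 0) (nat_lit 0) (XT.lf (nat_lit 0) (nat_lit 44876092507) (nat_lit 152) (nat_lit 67786657658) (nat_lit 0) (nat_lit 16451526979) (nat_lit 9) (nat_lit 5) (nat_lit 11) (nat_lit 4) (nat_lit 9) (nat_lit 4) (nat_lit 399) (nat_lit 307) (nat_lit 194)) (XT.lf (nat_lit 0) (nat_lit 60827104943) (nat_lit 152) (nat_lit 41587481804) (nat_lit 0) (nat_lit 32397058682) (nat_lit 9) (nat_lit 5) (nat_lit 11) (nat_lit 4) (nat_lit 9) (nat_lit 4) (nat_lit 400) (nat_lit 307) (nat_lit 193)))) (XT.nd (nat_lit 78) (nat_lit 76) (nat_lit 0) (XT.lf (nat_lit 0) (nat_lit 77570038012) (nat_lit 152) (nat_lit 14089354220) (nat_lit 0) (nat_lit 49134772004) (nat_lit 9) (nat_lit 5) (nat_lit 11) (nat_lit 4) (nat_lit 9) (nat_lit 4) (nat_lit 401) (nat_lit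 307) (nat_lit 192)) (XT.nd (nat_lit 78) (nat_lit 0) (nat_lit 0) (XT.lf (nat_lit 0) (nat_lit 15261665429) (nat_lit 76) (nat_lit 80121367778) (nat_lit 76) (nat_lit 51681130582) (nat_lit 8) (nat_lit 4) (nat_lit 9) (nat_lit 5) (nat_lit 9) (nat_lit 4) (nat_lit 402) (nat_lit 307) (nat_lit 191)) (XT.lf (nat_lit 0) (nat_lit 46559072787) (nat_lit 76) (nat_lit 67760947812) (nat_lit 76) (nat_lit 39315976152) (nat_lit 8) (nat_lit 4) (nat_lit 9) (nat_lit 5) (nat_lit 9) (nat_lit 4) (nat_lit 403) (nat_lit 307) (nat_lit 190)))))) (XT.nd (nat_lit 468) (nat_lit 76) (nat_lit 0) (XT.nd (nat_lit 234) (nat_lit 76) (nat_lit 0) (XT.nd (nat_lit 78) (nat_lit 76) (nat_lit 0) (XT.lf (nat_lit 0) (nat_lit 79411527809) (nat_lit 76) (nat_lit 54787312794) (nat_lit 76) (nat_lit 26337832121) (nat_lit 8) (nat_lit 4) (nat_lit 9) (nat_lit 5) (nat_lit 9) (nat_lit 4) (nat_lit 404) (nat_lit 307) (nat_lit 189)) (XT.nd (nat_lit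 78) (nat_lit 76) (nat_lit 0) (XT.lf (nat_lit 0) (nat_lit 113897250627) (nat_lit 76) (nat_lit 41169573117) (nat_lit 76) (nat_lit 12715798146) (nat_lit 8) (nat_lit 4) (nat_lit 9) (nat_lit 5) (nat_lit 9) (nat_lit 4) (nat_lit 405) (nat_lit 307) (nat_lit 188)) (XT.lf (nat_lit 0) (nat_lit 1531907410) (nat_lit 152) (nat_lit 25317454588) (nat_lit 76) (nat_lit 148540499101) (nat_lit 7) (nat_lit 5) (nat_lit 9) (nat_lit 5) (nat_lit 8) (nat_lit 4) (nat_lit 406) (nat_lit 307) (nat_lit 187)))) (XT.nd (nat_lit 78) (nat_lit 0) (nat_lit 0) (XT.lf (nat_lit 0) (nat_lit 4609297202) (nat_lit 76) (nat_lit 11522925742) (nat_lit 152) (nat_lit 167231439026) (nat_lit 6) (nat_lit 5) (nat_lit 7) (nat_lit 5) (nat_lit 8) (nat_lit 4) (nat_lit 407) (nat_lit 307) (nat_lit 186)) (XT.nd (nat_lit 78) (nat_lit 0) (nat_lit 0) (XT.lf (nat_lit 0) (nat_lit 31965301420) (nat_lit 152) (nat_lit 154890383967) (nat_lit 0) (nat_lit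 4855330552) (nat_lit 6) (nat_lit 5) (nat_lit 8) (nat_lit 4) (nat_lit 6) (nat_lit 4) (nat_lit 408) (nat_lit 307) (nat_lit 185)) (XT.lf (nat_lit 0) (nat_lit 48774750454) (nat_lit 152) (nat_lit 130030336822) (nat_lit 0) (nat_lit 21661414891) (nat_lit 6) (nat_lit 5) (nat_lit 8) (nat_lit 4) (nat_lit 6) (nat_lit 4) (nat_lit 409) (nat_lit 307) (nat_lit 184))))) (XT.nd (nat_lit 234) (nat_lit 76) (nat_lit 0) (XT.nd (nat_lit 78) (nat_lit 0) (nat_lit 0) (XT.lf (nat_lit 0) (nat_lit 66420687381) (nat_lit 152) (nat_lit 103935127581) (nat_lit 0) (nat_lit 39304147346) (nat_lit 6) (nat_lit 5) (nat_lit 8) (nat_lit 4) (nat_lit 6) (nat_lit 4) (nat_lit 410) (nat_lit 307) (nat_lit 183)) (XT.nd (nat_lit 78) (nat_lit 0) (nat_lit 0) (XT.lf (nat_lit 0) (nat_lit 84945126335) (nat_lit 152) (nat_lit 76542624795) (nat_lit 0) (nat_lit 57825534423) (nat_lit 6) (nat_lit 5) (nat_lit 8) (nat_lit 4) (nat_lit 6) (nat_lit 4)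 (nat_lit 411) (nat_lit 307) (nat_lit 182)) (XT.lf (nat_lit 0) (nat_lit 104392173125) (nat_lit 152) (nat_lit 47787608218) (nat_lit 0) (nat_lit 77269674662) (nat_lit 6) (nat_lit 5) (nat_lit 8) (nat_lit 4) (nat_lit 6) (nat_lit 4) (nat_lit 412) (nat_lit 307) (nat_lit 181)))) (XT.nd (nat_lit 156) (nat_lit 0) (nat_lit 0) (XT.nd (nat_lit 78) (nat_lit 76) (nat_lit 0) (XT.lf (nat_lit 0) (nat_lit 124808130241) (nat_lit 152) (nat_lit 17601613524) (nat_lit 0) (nat_lit 97682863636) (nat_lit 6) (nat_lit 5) (nat_lit 8) (nat_lit 4) (nat_lit 6) (nat_lit 4) (nat_lit 413) (nat_lit 307) (nat_lit 180)) (XT.lf (nat_lit 0) (nat_lit 14553018166) (nat_lit 76) (nat_lit 131915802339) (nat_lit 76) (nat_lit 104787899407) (nat_lit 5) (nat_lit 4) (nat_lit 6) (nat_lit 5) (nat_lit 6) (nat_lit 4) (nat_lit 414) (nat_lit 307) (nat_lit 179))) (XT.nd (nat_lit 78) (nat_lit 0) (nat_lit 0) (XT.lf (nat_lit 0) (nat_lit 48920123551)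 (nat_lit 76) (nat_lit 120587292486) (nat_lit 76) (nat_lit 93456878766) (nat_lit 5) (nat_lit 4) (nat_lit 6) (nat_lit 5) (nat_lit 6) (nat_lit 4) (nat_lit 415) (nat_lit 307) (nat_lit 178)) (XT.lf (nat_lit 0) (nat_lit 84999540236) (nat_lit 76) (nat_lit 108695333405) (nat_lit 76) (nat_lit 81562528460) (nat_lit 5) (nat_lit 4) (nat_lit 6) (nat_lit 5) (nat_lit 6) (nat_lit 4) (nat_lit 416) (nat_lit 307) (nat_lit 177))))))))
noncomputable def xc122 : XT := (XT.nd (nat_lit 38532) (nat_lit 0) (nat_lit 5244) (XT.nd (nat_lit 936) (nat_lit 76) (nat_lit 0) (XT.nd (nat_lit 468) (nat_lit 76) (nat_lit 0) (XT.nd (nat_lit 234) (nat_lit 76) (nat_lit 0) (XT.nd (nat_lit 78) (nat_lit 0) (nat_lit 0) (XT.lf (nat_lit 0) (nat_lit 122877171595) (nat_lit 76) (nat_lit 96211610910) (nat_lit 76) (nat_lit 69076528607) (nat_lit 5) (nat_lit 4) (nat_lit 6) (nat_lit 5) (nat_lit 6) (nat_lit 4) (nat_lit 417) (nat_lit 307) (nat_lit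 176)) (XT.nd (nat_lit 78) (nat_lit 0) (nat_lit 0) (XT.lf (nat_lit 0) (nat_lit 162643202464) (nat_lit 76) (nat_lit 83106401852) (nat_lit 76) (nat_lit 55969150635) (nat_lit 5) (nat_lit 4) (nat_lit 6) (nat_lit 5) (nat_lit 6) (nat_lit 4) (nat_lit 418) (nat_lit 307) (nat_lit 175)) (XT.lf (nat_lit 0) (nat_lit 204392313869) (nat_lit 76) (nat_lit 69348503351) (nat_lit 76) (nat_lit 42209186503) (nat_lit 5) (nat_lit 4) (nat_lit 6) (nat_lit 5) (nat_lit 6) (nat_lit 4) (nat_lit 419) (nat_lit 307) (nat_lit 174)))) (XT.nd (nat_lit 78) (nat_lit 76) (nat_lit 0) (XT.lf (nat_lit 0) (nat_lit 248223908456) (nat_lit 76) (nat_lit 54905158506) (nat_lit 76) (nat_lit 27763874391) (nat_lit 5) (nat_lit 4) (nat_lit 6) (nat_lit 5) (nat_lit 6) (nat_lit 4) (nat_lit 420) (nat_lit 307) (nat_lit 173)) (XT.nd (nat_lit 78) (nat_lit 76) (nat_lit 0) (XT.lf (nat_lit 0) (nat_lit 294242347164) (nat_lit 76) (nat_lit 39741978401)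 (nat_lit 76) (nat_lit 12598820698) (nat_lit 5) (nat_lit 4) (nat_lit 6) (nat_lit 5) (nat_lit 6) (nat_lit 4) (nat_lit 421) (nat_lit 307) (nat_lit 172)) (XT.lf (nat_lit 0) (nat_lit 3215754479) (nat_lit 152) (nat_lit 20552645390) (nat_lit 76) (nat_lit 339286982868) (nat_lit 4) (nat_lit 5) (nat_lit 6) (nat_lit 5) (nat_lit 5) (nat_lit 4) (nat_lit 422) (nat_lit 307) (nat_lit 171))))) (XT.nd (nat_lit 234) (nat_lit 0) (nat_lit 0) (XT.nd (nat_lit 78) (nat_lit 0) (nat_lit 0) (XT.lf (nat_lit 0) (nat_lit 13031085272) (nat_lit 76) (nat_lit 6567805822) (nat_lit 152) (nat_lit 360731951442) (nat_lit 3) (nat_lit 5) (nat_lit 4) (nat_lit 5) (nat_lit 5) (nat_lit 4) (nat_lit 423) (nat_lit 307) (nat_lit 170)) (XT.nd (nat_lit 78) (nat_lit 0) (nat_lit 0) (XT.lf (nat_lit 0) (nat_lit 37332183900) (nat_lit 152) (nat_lit 349634643403) (nat_lit 0) (nat_lit 11476698234) (nat_lit 3) (nat_lit 5) (nat_lit 5) (nat_lit 4)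 (nat_lit 3) (nat_lit 4) (nat_lit 424) (nat_lit 307) (nat_lit 169)) (XT.lf (nat_lit 0) (nat_lit 56057704787) (nat_lit 152) (nat_lit 331198108785) (nat_lit 0) (nat_lit 30200751116) (nat_lit 3) (nat_lit 5) (nat_lit 5) (nat_lit 4) (nat_lit 3) (nat_lit 4) (nat_lit 425) (nat_lit 307) (nat_lit 168)))) (XT.nd (nat_lit 78) (nat_lit 0) (nat_lit 0) (XT.lf (nat_lit 0) (nat_lit 75717496474) (nat_lit 152) (nat_lit 311843715044) (nat_lit 0) (nat_lit 49859144703) (nat_lit 3) (nat_lit 5) (nat_lit 5) (nat_lit 4) (nat_lit 3) (nat_lit 4) (nat_lit 426) (nat_lit 307) (nat_lit 167)) (XT.nd (nat_lit 78) (nat_lit 0) (nat_lit 0) (XT.lf (nat_lit 0) (nat_lit 96358367989) (nat_lit 152) (nat_lit 291525380290) (nat_lit 0) (nat_lit 70498684694) (nat_lit 3) (nat_lit 5) (nat_lit 5) (nat_lit 4) (nat_lit 3) (nat_lit 4) (nat_lit 427) (nat_lit 307) (nat_lit 166)) (XT.lf (nat_lit 0) (nat_lit 118029464265) (nat_lit 152) (nat_lit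 270194727536) (nat_lit 0) (nat_lit 92168512852) (nat_lit 3) (nat_lit 5) (nat_lit 5) (nat_lit 4) (nat_lit 3) (nat_lit 4) (nat_lit 428) (nat_lit 307) (nat_lit 165)))))) (XT.nd (nat_lit 468) (nat_lit 76) (nat_lit 0) (XT.nd (nat_lit 234) (nat_lit 0) (nat_lit 0) (XT.nd (nat_lit 78) (nat_lit 0) (nat_lit 0) (XT.lf (nat_lit 0) (nat_lit 140782383149) (nat_lit 152) (nat_lit 247800969513) (nat_lit 0) (nat_lit 114920224004) (nat_lit 3) (nat_lit 5) (nat_lit 5) (nat_lit 4) (nat_lit 3) (nat_lit 4) (nat_lit 429) (nat_lit 307) (nat_lit 164)) (XT.nd (nat_lit 78) (nat_lit 0) (nat_lit 0) (XT.lf (nat_lit 0) (nat_lit 164671298258) (nat_lit 152) (nat_lit 224290787750) (nat_lit 0) (nat_lit 138807988893) (nat_lit 3) (nat_lit 5) (nat_lit 5) (nat_lit 4) (nat_lit 3) (nat_lit 4) (nat_lit 430) (nat_lit 307) (nat_lit 163)) (XT.lf (nat_lit 0) (nat_lit 189753087962) (nat_lit 152) (nat_lit 199608205623) (nat_lit 0) (nat_lit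 163888683148) (nat_lit 3) (nat_lit 5) (nat_lit 5) (nat_lit 4) (nat_lit 3) (nat_lit 4) (nat_lit 431) (nat_lit 307) (nat_lit 162)))) (XT.nd (nat_lit 78) (nat_lit 0) (nat_lit 0) (XT.lf (nat_lit 0) (nat_lit 216087470807) (nat_lit 152) (nat_lit 173694455081) (nat_lit 0) (nat_lit 190222022709) (nat_lit 3) (nat_lit 5) (nat_lit 5) (nat_lit 4) (nat_lit 3) (nat_lit 4) (nat_lit 432) (nat_lit 307) (nat_lit 161)) (XT.nd (nat_lit 78) (nat_lit 0) (nat_lit 0) (XT.lf (nat_lit 0) (nat_lit 243737147704) (nat_lit 152) (nat_lit 146487836716) (nat_lit 0) (nat_lit 217870706002) (nat_lit 3) (nat_lit 5) (nat_lit 5) (nat_lit 4) (nat_lit 3) (nat_lit 4) (nat_lit 433) (nat_lit 307) (nat_lit 160)) (XT.lf (nat_lit 0) (nat_lit 272767951218) (nat_lit 152) (nat_lit 117923572867) (nat_lit 0) (nat_lit 246900563227) (nat_lit 3) (nat_lit 5) (nat_lit 5) (nat_lit 4) (nat_lit 3) (nat_lit 4) (nat_lit 434) (nat_lit 307) (nat_lit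 159))))) (XT.nd (nat_lit 234) (nat_lit 76) (nat_lit 0) (XT.nd (nat_lit 78) (nat_lit 0) (nat_lit 0) (XT.lf (nat_lit 0) (nat_lit 303249002310) (nat_lit 152) (nat_lit 87933653380) (nat_lit 0) (nat_lit 277380713091) (nat_lit 3) (nat_lit 5) (nat_lit 5) (nat_lit 4) (nat_lit 3) (nat_lit 4) (nat_lit 435) (nat_lit 307) (nat_lit 158)) (XT.nd (nat_lit 78) (nat_lit 0) (nat_lit 0) (XT.lf (nat_lit 0) (nat_lit 335252874910) (nat_lit 152) (nat_lit 56446673686) (nat_lit 0) (nat_lit 309383727379) (nat_lit 3) (nat_lit 5) (nat_lit 5) (nat_lit 4) (nat_lit 3) (nat_lit 4) (nat_lit 436) (nat_lit 307) (nat_lit 157)) (XT.lf (nat_lit 0) (nat_lit 368855768716) (nat_lit 152) (nat_lit 23387664786) (nat_lit 0) (nat_lit 342985803744) (nat_lit 3) (nat_lit 5) (nat_lit 5) (nat_lit 4) (nat_lit 3) (nat_lit 4) (nat_lit 437) (nat_lit 307) (nat_lit 156)))) (XT.nd (nat_lit 36738) (nat_lit 0) (nat_lit 10640) (XT.lf (nat_lit 0)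 (nat_lit 11696444516) (nat_lit 76) (nat_lit 392623860379) (nat_lit 76) (nat_lit 366753116892) (nat_lit 2) (nat_lit 4) (nat_lit 3) (nat_lit 5) (nat_lit 3) (nat_lit 4) (nat_lit 438) (nat_lit 307) (nat_lit 155)) (XT.nd (nat_lit 78) (nat_lit 0) (nat_lit 0) (XT.lf (nat_lit 0) (nat_lit 2143541777) (nat_lit 532) (nat_lit 724976082) (nat_lit 532) (nat_lit 724976082) (nat_lit 142) (nat_lit 3) (nat_lit 149) (nat_lit 3) (nat_lit 149) (nat_lit 5) (nat_lit 308) (nat_lit 308) (nat_lit 284)) (XT.lf (nat_lit 76) (nat_lit 2076689322) (nat_lit 0) (nat_lit 3934204193) (nat_lit 532) (nat_lit 1273090200) (nat_lit 143) (nat_lit 5) (nat_lit 142) (nat_lit 3) (nat_lit 149) (nat_lit 5) (nat_lit 309) (nat_lit 308) (nat_lit 283))))))) (XT.nd (nat_lit 936) (nat_lit 3116) (nat_lit 0) (XT.nd (nat_lit 468) (nat_lit 1292) (nat_lit 0) (XT.nd (nat_lit 234) (nat_lit 456) (nat_lit 0) (XT.nd (nat_lit 78) (nat_lit 0) (nat_lit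 76) (XT.lf (nat_lit 0) (nat_lit 342038159) (nat_lit 532) (nat_lit 1620409310) (nat_lit 608) (nat_lit 5427109939) (nat_lit 135) (nat_lit 5) (nat_lit 142) (nat_lit 3) (nat_lit 143) (nat_lit 5) (nat_lit 310) (nat_lit 308) (nat_lit 282)) (XT.nd (nat_lit 78) (nat_lit 0) (nat_lit 0) (XT.lf (nat_lit 0) (nat_lit 1932656665) (nat_lit 532) (nat_lit 5368468706) (nat_lit 608) (nat_lit 201472256) (nat_lit 136) (nat_lit 5) (nat_lit 143) (nat_lit 5) (nat_lit 144) (nat_lit 5) (nat_lit 311) (nat_lit 308) (nat_lit 281)) (XT.lf (nat_lit 0) (nat_lit 3568256280) (nat_lit 532) (nat_lit 1580304684) (nat_lit 608) (nat_lit 2474558528) (nat_lit 136) (nat_lit 5) (nat_lit 143) (nat_lit 5) (nat_lit 144) (nat_lit 5) (nat_lit 312) (nat_lit 308) (nat_lit 280)))) (XT.nd (nat_lit 78) (nat_lit 532) (nat_lit 0) (XT.lf (nat_lit 76) (nat_lit 2417089674) (nat_lit 0) (nat_lit 2816175766) (nat_lit 608) (nat_lit 2519117812) (nat_lit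 137) (nat_lit 5) (nat_lit 136) (nat_lit 5) (nat_lit 144) (nat_lit 5) (nat_lit 313) (nat_lit 308) (nat_lit 279)) (XT.nd (nat_lit 78) (nat_lit 532) (nat_lit 0) (XT.lf (nat_lit 76) (nat_lit 6612606594) (nat_lit 0) (nat_lit 308980698) (nat_lit 608) (nat_lit 969612445) (nat_lit 137) (nat_lit 5) (nat_lit 136) (nat_lit 5) (nat_lit 144) (nat_lit 5) (nat_lit 314) (nat_lit 308) (nat_lit 278)) (XT.lf (nat_lit 0) (nat_lit 636956691) (nat_lit 608) (nat_lit 5065772095) (nat_lit 684) (nat_lit 2333767706) (nat_lit 129) (nat_lit 5) (nat_lit 137) (nat_lit 5) (nat_lit 138) (nat_lit 5) (nat_lit 315) (nat_lit 308) (nat_lit 277))))) (XT.nd (nat_lit 234) (nat_lit 1292) (nat_lit 0) (XT.nd (nat_lit 78) (nat_lit 0) (nat_lit 0) (XT.lf (nat_lit 0) (nat_lit 2237850376) (nat_lit 608) (nat_lit 792770108) (nat_lit 684) (nat_lit 5160393800) (nat_lit 129) (nat_lit 5) (nat_lit 137) (nat_lit 5) (nat_lit 138) (nat_lit 5) (nat_lit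 316) (nat_lit 308) (nat_lit 276)) (XT.nd (nat_lit 78) (nat_lit 0) (nat_lit 76) (XT.lf (nat_lit 76) (nat_lit 3756615355) (nat_lit 0) (nat_lit 144165254) (nat_lit 684) (nat_lit 4453453985) (nat_lit 130) (nat_lit 5) (nat_lit 129) (nat_lit 5) (nat_lit 138) (nat_lit 5) (nat_lit 317) (nat_lit 308) (nat_lit 275)) (XT.lf (nat_lit 0) (nat_lit 5631949630) (nat_lit 608) (nat_lit 69851468) (nat_lit 76) (nat_lit 2824632800) (nat_lit 130) (nat_lit 5) (nat_lit 138) (nat_lit 5) (nat_lit 131) (nat_lit 5) (nat_lit 318) (nat_lit 308) (nat_lit 274)))) (XT.nd (nat_lit 78) (nat_lit 760) (nat_lit 0) (XT.lf (nat_lit 0) (nat_lit 4777113148) (nat_lit 608) (nat_lit 2679395363) (nat_lit 684) (nat_lit 1250462221) (nat_lit 122) (nat_lit 5) (nat_lit 130) (nat_lit 5) (nat_lit 131) (nat_lit 5) (nat_lit 319) (nat_lit 308) (nat_lit 273)) (XT.nd (nat_lit 78) (nat_lit 0) (nat_lit 0) (XT.lf (nat_lit 0) (nat_lit 415755892) (nat_lit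 760) (nat_lit 7971379412) (nat_lit 76) (nat_lit 511329299) (nat_lit 112) (nat_lit 5) (nat_lit 122) (nat_lit 5) (nat_lit 113) (nat_lit 5) (nat_lit 320) (nat_lit 308) (nat_lit 272)) (XT.lf (nat_lit 0) (nat_lit 2168492862) (nat_lit 760) (nat_lit 3060101581) (nat_lit 76) (nat_lit 3867711894) (nat_lit 112) (nat_lit 5) (nat_lit 122) (nat_lit 5) (nat_lit 113) (nat_lit 5) (nat_lit 321) (nat_lit 308) (nat_lit 271)))))) (XT.nd (nat_lit 468) (nat_lit 1216) (nat_lit 0) (XT.nd (nat_lit 234) (nat_lit 760) (nat_lit 0) (XT.nd (nat_lit 78) (nat_lit 380) (nat_lit 0) (XT.lf (nat_lit 0) (nat_lit 2105370811) (nat_lit 760) (nat_lit 1873187633) (nat_lit 836) (nat_lit 5327054004) (nat_lit 102) (nat_lit 5) (nat_lit 112) (nat_lit 5) (nat_lit 113) (nat_lit 5) (nat_lit 322) (nat_lit 308) (nat_lit 270)) (XT.nd (nat_lit 78) (nat_lit 380) (nat_lit 0) (XT.lf (nat_lit 0) (nat_lit 5896540164) (nat_lit 836) (nat_lit 1975012055)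 (nat_lit 76) (nat_lit 1653015171) (nat_lit 102) (nat_lit 5) (nat_lit 113) (nat_lit 5) (nat_lit 103) (nat_lit 5) (nat_lit 323) (nat_lit 308) (nat_lit 269)) (XT.lf (nat_lit 0) (nat_lit 3535878829) (nat_lit 380) (nat_lit 4402338940) (nat_lit 456) (nat_lit 1814914061) (nat_lit 97) (nat_lit 5) (nat_lit 102) (nat_lit 5) (nat_lit 103) (nat_lit 5) (nat_lit 324) (nat_lit 308) (nat_lit 268)))) (XT.nd (nat_lit 78) (nat_lit 684) (nat_lit 0) (XT.lf (nat_lit 0) (nat_lit 62796794) (nat_lit 456) (nat_lit 661569800) (nat_lit 76) (nat_lit 9269896031) (nat_lit 96) (nat_lit 5) (nat_lit 102) (nat_lit 5) (nat_lit 97) (nat_lit 5) (nat_lit 325) (nat_lit 308) (nat_lit 267)) (XT.nd (nat_lit 78) (nat_lit 380) (nat_lit 0) (XT.lf (nat_lit 0) (nat_lit 2051735017) (nat_lit 380) (nat_lit 5041364099) (nat_lit 76) (nat_lit 3148991032) (nat_lit 92) (nat_lit 5) (nat_lit 97) (nat_lit 5) (nat_lit 93) (nat_lit 5) (nat_lit 326)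 (nat_lit 308) (nat_lit 266)) (XT.lf (nat_lit 0) (nat_lit 834006706) (nat_lit 380) (nat_lit 3289601351) (nat_lit 456) (nat_lit 6379569039) (nat_lit 87) (nat_lit 5) (nat_lit 92) (nat_lit 5) (nat_lit 93) (nat_lit 5) (nat_lit 327) (nat_lit 308) (nat_lit 265))))) (XT.nd (nat_lit 234) (nat_lit 912) (nat_lit 0) (XT.nd (nat_lit 78) (nat_lit 304) (nat_lit 0) (XT.lf (nat_lit 0) (nat_lit 6345580682) (nat_lit 456) (nat_lit 3666827128) (nat_lit 76) (nat_lit 762625706) (nat_lit 87) (nat_lit 5) (nat_lit 93) (nat_lit 5) (nat_lit 88) (nat_lit 5) (nat_lit 328) (nat_lit 308) (nat_lit 264)) (XT.nd (nat_lit 78) (nat_lit 0) (nat_lit 0) (XT.lf (nat_lit 0) (nat_lit 2608472531) (nat_lit 304) (nat_lit 6116009842) (nat_lit 380) (nat_lit 2333747361) (nat_lit 83) (nat_lit 5) (nat_lit 87) (nat_lit 5) (nat_lit 88) (nat_lit 5) (nat_lit 329) (nat_lit 308) (nat_lit 263)) (XT.lf (nat_lit 0) (nat_lit 9269035692) (nat_lit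 304) (nat_lit 1968023554) (nat_lit 380) (nat_lit 117826675) (nat_lit 83) (nat_lit 5) (nat_lit 87) (nat_lit 5) (nat_lit 88) (nat_lit 5) (nat_lit 330) (nat_lit 308) (nat_lit 262)))) (XT.nd (nat_lit 156) (nat_lit 532) (nat_lit 0) (XT.nd (nat_lit 78) (nat_lit 0) (nat_lit 0) (XT.lf (nat_lit 0) (nat_lit 2203892227) (nat_lit 380) (nat_lit 7046145790) (nat_lit 76) (nat_lit 2411360785) (nat_lit 78) (nat_lit 5) (nat_lit 83) (nat_lit 5) (nat_lit 79) (nat_lit 5) (nat_lit 331) (nat_lit 308) (nat_lit 261)) (XT.lf (nat_lit 0) (nat_lit 4661216988) (nat_lit 380) (nat_lit 348347301) (nat_lit 76) (nat_lit 6972434147) (nat_lit 78) (nat_lit 5) (nat_lit 83) (nat_lit 5) (nat_lit 79) (nat_lit 5) (nat_lit 332) (nat_lit 308) (nat_lit 260))) (XT.nd (nat_lit 78) (nat_lit 304) (nat_lit 0) (XT.lf (nat_lit 0) (nat_lit 6850327436) (nat_lit 228) (nat_lit 455474315) (nat_lit 304) (nat_lit 5009636777) (nat_lit 75) (nat_lit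 5) (nat_lit 78) (nat_lit 5) (nat_lit 79) (nat_lit 5) (nat_lit 333) (nat_lit 308) (nat_lit 259)) (XT.lf (nat_lit 0) (nat_lit 1687820782) (nat_lit 304) (nat_lit 8453165417) (nat_lit 380) (nat_lit 2521674630) (nat_lit 71) (nat_lit 5) (nat_lit 75) (nat_lit 5) (nat_lit 76) (nat_lit 5) (nat_lit 334) (nat_lit 308) (nat_lit 258))))))))
noncomputable def xc123 : XT := (XT.nd (nat_lit 1950) (nat_lit 1292) (nat_lit 0) (XT.nd (nat_lit 936) (nat_lit 1216) (nat_lit 0) (XT.nd (nat_lit 468) (nat_lit 836) (nat_lit 0) (XT.nd (nat_lit 234) (nat_lit 532) (nat_lit 0) (XT.nd (nat_lit 78) (nat_lit 228) (nat_lit 0) (XT.lf (nat_lit 0) (nat_lit 148252460) (nat_lit 380) (nat_lit 3699719985) (nat_lit 76) (nat_lit 9176203597) (nat_lit 70) (nat_lit 5) (nat_lit 75) (nat_lit 5) (nat_lit 71) (nat_lit 5) (nat_lit 335) (nat_lit 308) (nat_lit 257)) (XT.nd (nat_lit 78) (nat_lit 0) (nat_lit 0) (XT.lf (nat_lit 0) (nat_lit 2906750454)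 (nat_lit 304) (nat_lit 9444744351) (nat_lit 76) (nat_lit 1048239111) (nat_lit 67) (nat_lit 5) (nat_lit 71) (nat_lit 5) (nat_lit 68) (nat_lit 5) (nat_lit 336) (nat_lit 308) (nat_lit 256)) (XT.lf (nat_lit 0) (nat_lit 5891677320) (nat_lit 304) (nat_lit 1787268470) (nat_lit 76) (nat_lit 6110722329) (nat_lit 67) (nat_lit 5) (nat_lit 71) (nat_lit 5) (nat_lit 68) (nat_lit 5) (nat_lit 337) (nat_lit 308) (nat_lit 255)))) (XT.nd (nat_lit 78) (nat_lit 304) (nat_lit 0) (XT.lf (nat_lit 0) (nat_lit 6407589359) (nat_lit 228) (nat_lit 2681862315) (nat_lit 304) (nat_lit 5106489811) (nat_lit 64) (nat_lit 5) (nat_lit 67) (nat_lit 5) (nat_lit 68) (nat_lit 5) (nat_lit 338) (nat_lit 308) (nat_lit 254)) (XT.nd (nat_lit 78) (nat_lit 76) (nat_lit 0) (XT.lf (nat_lit 0) (nat_lit 373296953) (nat_lit 228) (nat_lit 12114754599) (nat_lit 304) (nat_lit 2132451564) (nat_lit 61) (nat_lit 5) (nat_lit 64) (nat_lit 5) (nat_lit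 65) (nat_lit 5) (nat_lit 339) (nat_lit 308) (nat_lit 253)) (XT.lf (nat_lit 0) (nat_lit 1101237609) (nat_lit 304) (nat_lit 5959556768) (nat_lit 76) (nat_lit 7997612613) (nat_lit 60) (nat_lit 5) (nat_lit 64) (nat_lit 5) (nat_lit 61) (nat_lit 5) (nat_lit 340) (nat_lit 308) (nat_lit 252))))) (XT.nd (nat_lit 234) (nat_lit 456) (nat_lit 0) (XT.nd (nat_lit 78) (nat_lit 152) (nat_lit 0) (XT.lf (nat_lit 0) (nat_lit 2746180388) (nat_lit 228) (nat_lit 1687944620) (nat_lit 304) (nat_lit 11081892751) (nat_lit 57) (nat_lit 5) (nat_lit 60) (nat_lit 5) (nat_lit 61) (nat_lit 5) (nat_lit 341) (nat_lit 308) (nat_lit 251)) (XT.nd (nat_lit 78) (nat_lit 152) (nat_lit 0) (XT.lf (nat_lit 0) (nat_lit 8064872841) (nat_lit 304) (nat_lit 4010590491) (nat_lit 76) (nat_lit 3914502567) (nat_lit 57) (nat_lit 5) (nat_lit 61) (nat_lit 5) (nat_lit 58) (nat_lit 5) (nat_lit 342) (nat_lit 308) (nat_lit 250)) (XT.lf (nat_lit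 0) (nat_lit 5280475645) (nat_lit 152) (nat_lit 6675280068) (nat_lit 228) (nat_lit 4527942647) (nat_lit 55) (nat_lit 5) (nat_lit 57) (nat_lit 5) (nat_lit 58) (nat_lit 5) (nat_lit 343) (nat_lit 308) (nat_lit 249)))) (XT.nd (nat_lit 78) (nat_lit 456) (nat_lit 0) (XT.lf (nat_lit 0) (nat_lit 15128619479) (nat_lit 152) (nat_lit 949739391) (nat_lit 228) (nat_lit 921915763) (nat_lit 55) (nat_lit 5) (nat_lit 57) (nat_lit 5) (nat_lit 58) (nat_lit 5) (nat_lit 344) (nat_lit 308) (nat_lit 248)) (XT.nd (nat_lit 78) (nat_lit 152) (nat_lit 0) (XT.lf (nat_lit 0) (nat_lit 2950942177) (nat_lit 304) (nat_lit 9521837106) (nat_lit 76) (nat_lit 5058768431) (nat_lit 51) (nat_lit 5) (nat_lit 55) (nat_lit 5) (nat_lit 52) (nat_lit 5) (nat_lit 345) (nat_lit 308) (nat_lit 247)) (XT.lf (nat_lit 0) (nat_lit 294573752) (nat_lit 152) (nat_lit 6714970673) (nat_lit 228) (nat_lit 11077943983) (nat_lit 49) (nat_lit 5) (nat_lit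 51) (nat_lit 5) (nat_lit 52) (nat_lit 5) (nat_lit 346) (nat_lit 308) (nat_lit 246)))))) (XT.nd (nat_lit 468) (nat_lit 684) (nat_lit 0) (XT.nd (nat_lit 234) (nat_lit 304) (nat_lit 0) (XT.nd (nat_lit 78) (nat_lit 228) (nat_lit 0) (XT.lf (nat_lit 0) (nat_lit 10887146729) (nat_lit 152) (nat_lit 516574243) (nat_lit 228) (nat_lit 7260886115) (nat_lit 49) (nat_lit 5) (nat_lit 51) (nat_lit 5) (nat_lit 52) (nat_lit 5) (nat_lit 347) (nat_lit 308) (nat_lit 245)) (XT.nd (nat_lit 78) (nat_lit 76) (nat_lit 0) (XT.lf (nat_lit 0) (nat_lit 2687010964) (nat_lit 152) (nat_lit 13438597653) (nat_lit 228) (nat_lit 3139585503) (nat_lit 47) (nat_lit 5) (nat_lit 49) (nat_lit 5) (nat_lit 50) (nat_lit 5) (nat_lit 348) (nat_lit 308) (nat_lit 244)) (XT.lf (nat_lit 0) (nat_lit 1264787427) (nat_lit 228) (nat_lit 6018085858) (nat_lit 76) (nat_lit 12606270176) (nat_lit 46) (nat_lit 5) (nat_lit 49) (nat_lit 5) (nat_lit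 47) (nat_lit 5) (nat_lit 349) (nat_lit 308) (nat_lit 243)))) (XT.nd (nat_lit 78) (nat_lit 152) (nat_lit 0) (XT.lf (nat_lit 0) (nat_lit 5140789292) (nat_lit 152) (nat_lit 697323012) (nat_lit 228) (nat_lit 14700903163) (nat_lit 44) (nat_lit 5) (nat_lit 46) (nat_lit 5) (nat_lit 47) (nat_lit 5) (nat_lit 350) (nat_lit 308) (nat_lit 242)) (XT.nd (nat_lit 78) (nat_lit 152) (nat_lit 0) (XT.lf (nat_lit 0) (nat_lit 10815084501) (nat_lit 228) (nat_lit 4291128685) (nat_lit 76) (nat_lit 6106429146) (nat_lit 44) (nat_lit 5) (nat_lit 47) (nat_lit 5) (nat_lit 45) (nat_lit 5) (nat_lit 351) (nat_lit 308) (nat_lit 241)) (XT.lf (nat_lit 0) (nat_lit 7561288572) (nat_lit 152) (nat_lit 8584642498) (nat_lit 228) (nat_lit 5768778001) (nat_lit 42) (nat_lit 5) (nat_lit 44) (nat_lit 5) (nat_lit 45) (nat_lit 5) (nat_lit 352) (nat_lit 308) (nat_lit 240))))) (XT.nd (nat_lit 234) (nat_lit 456) (nat_lit 0) (XT.nd (nat_lit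 78) (nat_lit 228) (nat_lit 0) (XT.lf (nat_lit 0) (nat_lit 20115347985) (nat_lit 152) (nat_lit 1676726514) (nat_lit 228) (nat_lit 857376275) (nat_lit 42) (nat_lit 5) (nat_lit 44) (nat_lit 5) (nat_lit 45) (nat_lit 5) (nat_lit 353) (nat_lit 308) (nat_lit 239)) (XT.nd (nat_lit 78) (nat_lit 0) (nat_lit 0) (XT.lf (nat_lit 0) (nat_lit 4386910292) (nat_lit 228) (nat_lit 13408094567) (nat_lit 76) (nat_lit 5611330315) (nat_lit 39) (nat_lit 5) (nat_lit 42) (nat_lit 5) (nat_lit 40) (nat_lit 5) (nat_lit 354) (nat_lit 308) (nat_lit 238)) (XT.lf (nat_lit 0) (nat_lit 9912807643) (nat_lit 228) (nat_lit 1035085062) (nat_lit 76) (nat_lit 13250065906) (nat_lit 39) (nat_lit 5) (nat_lit 42) (nat_lit 5) (nat_lit 40) (nat_lit 5) (nat_lit 355) (nat_lit 308) (nat_lit 237)))) (XT.nd (nat_lit 156) (nat_lit 228) (nat_lit 0) (XT.nd (nat_lit 78) (nat_lit 76) (nat_lit 0) (XT.lf (nat_lit 0) (nat_lit 12313443563) (nat_lit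 152) (nat_lit 3571996801) (nat_lit 228) (nat_lit 9135208526) (nat_lit 37) (nat_lit 5) (nat_lit 39) (nat_lit 5) (nat_lit 40) (nat_lit 5) (nat_lit 356) (nat_lit 308) (nat_lit 236)) (XT.lf (nat_lit 0) (nat_lit 391354878) (nat_lit 76) (nat_lit 21832845181) (nat_lit 152) (nat_lit 3656906184) (nat_lit 36) (nat_lit 5) (nat_lit 37) (nat_lit 5) (nat_lit 38) (nat_lit 4) (nat_lit 357) (nat_lit 308) (nat_lit 235))) (XT.nd (nat_lit 78) (nat_lit 152) (nat_lit 0) (XT.lf (nat_lit 0) (nat_lit 2284055697) (nat_lit 152) (nat_lit 12320202500) (nat_lit 76) (nat_lit 12165908856) (nat_lit 35) (nat_lit 5) (nat_lit 37) (nat_lit 5) (nat_lit 36) (nat_lit 5) (nat_lit 358) (nat_lit 308) (nat_lit 234)) (XT.lf (nat_lit 0) (nat_lit 1458768199) (nat_lit 152) (nat_lit 6942719345) (nat_lit 228) (nat_lit 19299086333) (nat_lit 33) (nat_lit 5) (nat_lit 35) (nat_lit 5) (nat_lit 36) (nat_lit 5) (nat_lit 359) (nat_lit 308) (nat_lit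 233))))))) (XT.nd (nat_lit 936) (nat_lit 608) (nat_lit 0) (XT.nd (nat_lit 468) (nat_lit 304) (nat_lit 0) (XT.nd (nat_lit 234) (nat_lit 304) (nat_lit 0) (XT.nd (nat_lit 78) (nat_lit 76) (nat_lit 0) (XT.lf (nat_lit 0) (nat_lit 15033793393) (nat_lit 228) (nat_lit 12369264995) (nat_lit 76) (nat_lit 1263998559) (nat_lit 33) (nat_lit 5) (nat_lit 36) (nat_lit 5) (nat_lit 34) (nat_lit 4) (nat_lit 360) (nat_lit 308) (nat_lit 232)) (XT.nd (nat_lit 78) (nat_lit 0) (nat_lit 0) (XT.lf (nat_lit 0) (nat_lit 2116555137) (nat_lit 76) (nat_lit 20008714740) (nat_lit 152) (nat_lit 7550222271) (nat_lit 32) (nat_lit 5) (nat_lit 33) (nat_lit 5) (nat_lit 34) (nat_lit 4) (nat_lit 361) (nat_lit 308) (nat_lit 231)) (XT.lf (nat_lit 0) (nat_lit 17722376563) (nat_lit 76) (nat_lit 12039510808) (nat_lit 152) (nat_lit 962938846) (nat_lit 32) (nat_lit 5) (nat_lit 33) (nat_lit 5) (nat_lit 34) (nat_lit 4) (nat_lit 362) (nat_lit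 308) (nat_lit 230)))) (XT.nd (nat_lit 78) (nat_lit 76) (nat_lit 0) (XT.lf (nat_lit 0) (nat_lit 2227473803) (nat_lit 152) (nat_lit 3552144162) (nat_lit 228) (nat_lit 26041543026) (nat_lit 29) (nat_lit 5) (nat_lit 31) (nat_lit 5) (nat_lit 32) (nat_lit 5) (nat_lit 363) (nat_lit 308) (nat_lit 229)) (XT.nd (nat_lit 78) (nat_lit 76) (nat_lit 0) (XT.lf (nat_lit 0) (nat_lit 13116267111) (nat_lit 228) (nat_lit 14426945916) (nat_lit 76) (nat_lit 5413848630) (nat_lit 29) (nat_lit 5) (nat_lit 32) (nat_lit 5) (nat_lit 30) (nat_lit 4) (nat_lit 364) (nat_lit 308) (nat_lit 228)) (XT.lf (nat_lit 0) (nat_lit 1455161787) (nat_lit 76) (nat_lit 19428237627) (nat_lit 152) (nat_lit 13263179905) (nat_lit 28) (nat_lit 5) (nat_lit 29) (nat_lit 5) (nat_lit 30) (nat_lit 4) (nat_lit 365) (nat_lit 308) (nat_lit 227))))) (XT.nd (nat_lit 234) (nat_lit 76) (nat_lit 0) (XT.nd (nat_lit 78) (nat_lit 228) (nat_lit 0) (XT.lf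 (nat_lit 0) (nat_lit 18601437884) (nat_lit 76) (nat_lit 10664820263) (nat_lit 152) (nat_lit 6117950511) (nat_lit 28) (nat_lit 5) (nat_lit 29) (nat_lit 5) (nat_lit 30) (nat_lit 4) (nat_lit 366) (nat_lit 308) (nat_lit 226)) (XT.nd (nat_lit 78) (nat_lit 152) (nat_lit 0) (XT.lf (nat_lit 0) (nat_lit 1323807712) (nat_lit 152) (nat_lit 130195928) (nat_lit 76) (nat_lit 35229459819) (nat_lit 27) (nat_lit 5) (nat_lit 29) (nat_lit 5) (nat_lit 28) (nat_lit 5) (nat_lit 367) (nat_lit 308) (nat_lit 225)) (XT.lf (nat_lit 0) (nat_lit 9328551073) (nat_lit 228) (nat_lit 20368027802) (nat_lit 76) (nat_lit 8326266087) (nat_lit 25) (nat_lit 5) (nat_lit 28) (nat_lit 5) (nat_lit 26) (nat_lit 4) (nat_lit 368) (nat_lit 308) (nat_lit 224)))) (XT.nd (nat_lit 78) (nat_lit 76) (nat_lit 0) (XT.lf (nat_lit 0) (nat_lit 17744081411) (nat_lit 228) (nat_lit 3147934013) (nat_lit 76) (nat_lit 18536656152) (nat_lit 25) (nat_lit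 5) (nat_lit 28) (nat_lit 5) (nat_lit 26) (nat_lit 4) (nat_lit 369) (nat_lit 308) (nat_lit 223)) (XT.nd (nat_lit 78) (nat_lit 0) (nat_lit 0) (XT.lf (nat_lit 0) (nat_lit 15398805790) (nat_lit 76) (nat_lit 11407212994) (nat_lit 152) (nat_lit 14087492567) (nat_lit 24) (nat_lit 5) (nat_lit 25) (nat_lit 5) (nat_lit 26) (nat_lit 4) (nat_lit 370) (nat_lit 308) (nat_lit 222)) (XT.lf (nat_lit 0) (nat_lit 34955394096) (nat_lit 76) (nat_lit 1404468839) (nat_lit 152) (nat_lit 6069792882) (nat_lit 24) (nat_lit 5) (nat_lit 25) (nat_lit 5) (nat_lit 26) (nat_lit 4) (nat_lit 371) (nat_lit 308) (nat_lit 221)))))) (XT.nd (nat_lit 468) (nat_lit 228) (nat_lit 0) (XT.nd (nat_lit 234) (nat_lit 152) (nat_lit 0) (XT.nd (nat_lit 78) (nat_lit 76) (nat_lit 0) (XT.lf (nat_lit 0) (nat_lit 2588673932) (nat_lit 152) (nat_lit 32416786121) (nat_lit 76) (nat_lit 9019563885) (nat_lit 22) (nat_lit 5) (nat_lit 24) (nat_lit 5)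 (nat_lit 23) (nat_lit 4) (nat_lit 372) (nat_lit 308) (nat_lit 220)) (XT.nd (nat_lit 78) (nat_lit 76) (nat_lit 0) (XT.lf (nat_lit 0) (nat_lit 11613803742) (nat_lit 152) (nat_lit 13940141797) (nat_lit 76) (nat_lit 20134356222) (nat_lit 22) (nat_lit 5) (nat_lit 24) (nat_lit 5) (nat_lit 23) (nat_lit 4) (nat_lit 373) (nat_lit 308) (nat_lit 219)) (XT.lf (nat_lit 0) (nat_lit 5615240160) (nat_lit 76) (nat_lit 15549329130) (nat_lit 152) (nat_lit 26266457854) (nat_lit 21) (nat_lit 5) (nat_lit 22) (nat_lit 5) (nat_lit 23) (nat_lit 4) (nat_lit 374) (nat_lit 308) (nat_lit 218)))) (XT.nd (nat_lit 78) (nat_lit 152) (nat_lit 0) (XT.lf (nat_lit 0) (nat_lit 26607944406) (nat_lit 76) (nat_lit 4807973025) (nat_lit 152) (nat_lit 17833821653) (nat_lit 21) (nat_lit 5) (nat_lit 22) (nat_lit 5) (nat_lit 23) (nat_lit 4) (nat_lit 375) (nat_lit 308) (nat_lit 217)) (XT.nd (nat_lit 78) (nat_lit 152) (nat_lit 0) (XT.lf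 (nat_lit 0) (nat_lit 42268267826) (nat_lit 152) (nat_lit 2633833058) (nat_lit 0) (nat_lit 6252866383) (nat_lit 21) (nat_lit 5) (nat_lit 23) (nat_lit 4) (nat_lit 21) (nat_lit 4) (nat_lit 376) (nat_lit 308) (nat_lit 216)) (XT.lf (nat_lit 0) (nat_lit 859011245) (nat_lit 152) (nat_lit 34273916085) (nat_lit 76) (nat_lit 18003761076) (nat_lit 19) (nat_lit 5) (nat_lit 21) (nat_lit 5) (nat_lit 20) (nat_lit 4) (nat_lit 377) (nat_lit 308) (nat_lit 215))))) (XT.nd (nat_lit 234) (nat_lit 152) (nat_lit 0) (XT.nd (nat_lit 78) (nat_lit 76) (nat_lit 0) (XT.lf (nat_lit 0) (nat_lit 10826733974) (nat_lit 152) (nat_lit 13858644201) (nat_lit 76) (nat_lit 30523166414) (nat_lit 19) (nat_lit 5) (nat_lit 21) (nat_lit 5) (nat_lit 20) (nat_lit 4) (nat_lit 378) (nat_lit 308) (nat_lit 214)) (XT.nd (nat_lit 78) (nat_lit 0) (nat_lit 0) (XT.lf (nat_lit 0) (nat_lit 7805686037) (nat_lit 76) (nat_lit 13597636304) (nat_lit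 152) (nat_lit 35975149228) (nat_lit 18) (nat_lit 5) (nat_lit 19) (nat_lit 5) (nat_lit 20) (nat_lit 4) (nat_lit 379) (nat_lit 308) (nat_lit 213)) (XT.lf (nat_lit 0) (nat_lit 31013185037) (nat_lit 76) (nat_lit 1719080331) (nat_lit 152) (nat_lit 26913455138) (nat_lit 18) (nat_lit 5) (nat_lit 19) (nat_lit 5) (nat_lit 20) (nat_lit 4) (nat_lit 380) (nat_lit 308) (nat_lit 212)))) (XT.nd (nat_lit 156) (nat_lit 76) (nat_lit 0) (XT.nd (nat_lit 78) (nat_lit 76) (nat_lit 0) (XT.lf (nat_lit 0) (nat_lit 44784752114) (nat_lit 152) (nat_lit 6833728464) (nat_lit 0) (nat_lit 10399998263) (nat_lit 18) (nat_lit 5) (nat_lit 20) (nat_lit 4) (nat_lit 18) (nat_lit 4) (nat_lit 381) (nat_lit 308) (nat_lit 211)) (XT.lf (nat_lit 0) (nat_lit 16536523760) (nat_lit 76) (nat_lit 41179422376) (nat_lit 76) (nat_lit 6780126506) (nat_lit 17) (nat_lit 4) (nat_lit 18) (nat_lit 5) (nat_lit 18) (nat_lit 4) (nat_lit 382) (nat_lit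 308) (nat_lit 210))) (XT.nd (nat_lit 78) (nat_lit 0) (nat_lit 0) (XT.lf (nat_lit 0) (nat_lit 4169221850) (nat_lit 152) (nat_lit 25866240619) (nat_lit 76) (nat_lit 37053440953) (nat_lit 16) (nat_lit 5) (nat_lit 18) (nat_lit 5) (nat_lit 17) (nat_lit 4) (nat_lit 383) (nat_lit 308) (nat_lit 209)) (XT.lf (nat_lit 0) (nat_lit 15428410909) (nat_lit 152) (nat_lit 2798093086) (nat_lit 76) (nat_lit 51579804229) (nat_lit 16) (nat_lit 5) (nat_lit 18) (nat_lit 5) (nat_lit 17) (nat_lit 4) (nat_lit 384) (nat_lit 308) (nat_lit 208))))))))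
noncomputable def xc124 : XT := (XT.nd (nat_lit 1872) (nat_lit 228) (nat_lit 0) (XT.nd (nat_lit 936) (nat_lit 380) (nat_lit 0) (XT.nd (nat_lit 468) (nat_lit 152) (nat_lit 0) (XT.nd (nat_lit 234) (nat_lit 152) (nat_lit 0) (XT.nd (nat_lit 78) (nat_lit 0) (nat_lit 0) (XT.lf (nat_lit 0) (nat_lit 22113442928) (nat_lit 76) (nat_lit 5473064546) (nat_lit 152) (nat_lit 45056279787) (nat_lit 15) (nat_lit 5) (nat_lit 16) (nat_lit 5) (nat_lit 17) (nat_lit 4) (nat_lit 385) (nat_lit 308) (nat_lit 207)) (XT.nd (nat_lit 78) (nat_lit 0) (nat_lit 0) (XT.lf (nat_lit 0) (nat_lit 40515030149) (nat_lit 152) (nat_lit 27393249166) (nat_lit 0) (nat_lit 7704686198) (nat_lit 15) (nat_lit 5) (nat_lit 17) (nat_lit 4) (nat_lit 15) (nat_lit 4) (nat_lit 386) (nat_lit 308) (nat_lit 206)) (XT.lf (nat_lit 0) (nat_lit 54170877027) (nat_lit 152) (nat_lit 3207050415) (nat_lit 0) (nat_lit 21349681597) (nat_lit 15) (nat_lit 5)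 (nat_lit 17) (nat_lit 4) (nat_lit 15) (nat_lit 4) (nat_lit 387) (nat_lit 308) (nat_lit 205)))) (XT.nd (nat_lit 78) (nat_lit 76) (nat_lit 0) (XT.lf (nat_lit 0) (nat_lit 22905403953) (nat_lit 76) (nat_lit 45953325747) (nat_lit 76) (nat_lit 13121795575) (nat_lit 14) (nat_lit 4) (nat_lit 15) (nat_lit 5) (nat_lit 15) (nat_lit 4) (nat_lit 388) (nat_lit 308) (nat_lit 204)) (XT.nd (nat_lit 78) (nat_lit 76) (nat_lit 0) (XT.lf (nat_lit 0) (nat_lit 50418913108) (nat_lit 76) (nat_lit 33908122555) (nat_lit 76) (nat_lit 1066749773) (nat_lit 14) (nat_lit 4) (nat_lit 15) (nat_lit 5) (nat_lit 15) (nat_lit 4) (nat_lit 389) (nat_lit 308) (nat_lit 203)) (XT.lf (nat_lit 0) (nat_lit 11212073158) (nat_lit 152) (nat_lit 9865996722) (nat_lit 76) (nat_lit 67890990791) (nat_lit 13) (nat_lit 5) (nat_lit 15) (nat_lit 5) (nat_lit 14) (nat_lit 4) (nat_lit 390) (nat_lit 308) (nat_lit 202))))) (XT.nd (nat_lit 234) (nat_lit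 76) (nat_lit 0) (XT.nd (nat_lit 78) (nat_lit 0) (nat_lit 0) (XT.lf (nat_lit 0) (nat_lit 17010597373) (nat_lit 76) (nat_lit 7316364386) (nat_lit 152) (nat_lit 68382365799) (nat_lit 12) (nat_lit 5) (nat_lit 13) (nat_lit 5) (nat_lit 14) (nat_lit 4) (nat_lit 391) (nat_lit 308) (nat_lit 201)) (XT.nd (nat_lit 78) (nat_lit 0) (nat_lit 0) (XT.lf (nat_lit 0) (nat_lit 38371211209) (nat_lit 152) (nat_lit 51183530879) (nat_lit 0) (nat_lit 7068185826) (nat_lit 12) (nat_lit 5) (nat_lit 14) (nat_lit 4) (nat_lit 12) (nat_lit 4) (nat_lit 392) (nat_lit 308) (nat_lit 200)) (XT.lf (nat_lit 0) (nat_lit 53230393631) (nat_lit 152) (nat_lit 25576523223) (nat_lit 0) (nat_lit 21919656305) (nat_lit 12) (nat_lit 5) (nat_lit 14) (nat_lit 4) (nat_lit 12) (nat_lit 4) (nat_lit 393) (nat_lit 308) (nat_lit 199)))) (XT.nd (nat_lit 78) (nat_lit 0) (nat_lit 0) (XT.lf (nat_lit 0) (nat_lit 1340391704) (nat_lit 76) (nat_lit 67506194648)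 (nat_lit 76) (nat_lit 36188112614) (nat_lit 11) (nat_lit 4) (nat_lit 12) (nat_lit 5) (nat_lit 12) (nat_lit 4) (nat_lit 394) (nat_lit 308) (nat_lit 198)) (XT.nd (nat_lit 78) (nat_lit 0) (nat_lit 0) (XT.lf (nat_lit 0) (nat_lit 30477982720) (nat_lit 76) (nat_lit 55192003147) (nat_lit 76) (nat_lit 23866926153) (nat_lit 11) (nat_lit 4) (nat_lit 12) (nat_lit 5) (nat_lit 12) (nat_lit 4) (nat_lit 395) (nat_lit 308) (nat_lit 197)) (XT.lf (nat_lit 0) (nat_lit 61059949678) (nat_lit 76) (nat_lit 42268173644) (nat_lit 76) (nat_lit 10936434784) (nat_lit 11) (nat_lit 4) (nat_lit 12) (nat_lit 5) (nat_lit 12) (nat_lit 4) (nat_lit 396) (nat_lit 308) (nat_lit 196)))))) (XT.nd (nat_lit 468) (nat_lit 228) (nat_lit 0) (XT.nd (nat_lit 234) (nat_lit 0) (nat_lit 0) (XT.nd (nat_lit 78) (nat_lit 76) (nat_lit 0) (XT.lf (nat_lit 0) (nat_lit 2549839177) (nat_lit 152) (nat_lit 26110913179) (nat_lit 76) (nat_lit 90566084845)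 (nat_lit 10) (nat_lit 5) (nat_lit 12) (nat_lit 5) (nat_lit 11) (nat_lit 4) (nat_lit 397) (nat_lit 308) (nat_lit 195)) (XT.nd (nat_lit 78) (nat_lit 0) (nat_lit 0) (XT.lf (nat_lit 0) (nat_lit 2217620834) (nat_lit 76) (nat_lit 14153962989) (nat_lit 152) (nat_lit 108055248165) (nat_lit 9) (nat_lit 5) (nat_lit 10) (nat_lit 5) (nat_lit 11) (nat_lit 4) (nat_lit 398) (nat_lit 308) (nat_lit 194)) (XT.lf (nat_lit 0) (nat_lit 31344787546) (nat_lit 152) (nat_lit 97031262774) (nat_lit 0) (nat_lit 1487758238) (nat_lit 9) (nat_lit 5) (nat_lit 11) (nat_lit 4) (nat_lit 9) (nat_lit 4) (nat_lit 399) (nat_lit 308) (nat_lit 193)))) (XT.nd (nat_lit 78) (nat_lit 0) (nat_lit 0) (XT.lf (nat_lit 0) (nat_lit 47293053647) (nat_lit 152) (nat_lit 70837456218) (nat_lit 0) (nat_lit 17430804591) (nat_lit 9) (nat_lit 5) (nat_lit 11) (nat_lit 4) (nat_lit 9) (nat_lit 4) (nat_lit 400) (nat_lit 308) (nat_lit 192)) (XT.nd (nat_lit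 78) (nat_lit 0) (nat_lit 0) (XT.lf (nat_lit 0) (nat_lit 64033371157) (nat_lit 152) (nat_lit 43344442253) (nat_lit 0) (nat_lit 34166150914) (nat_lit 9) (nat_lit 5) (nat_lit 11) (nat_lit 4) (nat_lit 9) (nat_lit 4) (nat_lit 401) (nat_lit 308) (nat_lit 191)) (XT.lf (nat_lit 0) (nat_lit 81605597976) (nat_lit 152) (nat_lit 14486761321) (nat_lit 0) (nat_lit 51733643269) (nat_lit 9) (nat_lit 5) (nat_lit 11) (nat_lit 4) (nat_lit 9) (nat_lit 4) (nat_lit 402) (nat_lit 308) (nat_lit 190))))) (XT.nd (nat_lit 234) (nat_lit 152) (nat_lit 0) (XT.nd (nat_lit 78) (nat_lit 0) (nat_lit 0) (XT.lf (nat_lit 0) (nat_lit 16326856720) (nat_lit 76) (nat_lit 83979624008) (nat_lit 76) (nat_lit 54103160288) (nat_lit 8) (nat_lit 4) (nat_lit 9) (nat_lit 5) (nat_lit 9) (nat_lit 4) (nat_lit 403) (nat_lit 308) (nat_lit 189)) (XT.nd (nat_lit 78) (nat_lit 0) (nat_lit 0) (XT.lf (nat_lit 0) (nat_lit 49174748350) (nat_lit 76)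 (nat_lit 71008221718) (nat_lit 76) (nat_lit 41127463699) (nat_lit 8) (nat_lit 4) (nat_lit 9) (nat_lit 5) (nat_lit 9) (nat_lit 4) (nat_lit 404) (nat_lit 308) (nat_lit 188)) (XT.lf (nat_lit 0) (nat_lit 83656125079) (nat_lit 76) (nat_lit 57392608448) (nat_lit 76) (nat_lit 27507760622) (nat_lit 8) (nat_lit 4) (nat_lit 9) (nat_lit 5) (nat_lit 9) (nat_lit 4) (nat_lit 405) (nat_lit 308) (nat_lit 187)))) (XT.nd (nat_lit 78) (nat_lit 152) (nat_lit 0) (XT.lf (nat_lit 0) (nat_lit 119853085425) (nat_lit 76) (nat_lit 43100366072) (nat_lit 76) (nat_lit 13211623191) (nat_lit 8) (nat_lit 4) (nat_lit 9) (nat_lit 5) (nat_lit 9) (nat_lit 4) (nat_lit 406) (nat_lit 308) (nat_lit 186)) (XT.nd (nat_lit 78) (nat_lit 76) (nat_lit 0) (XT.lf (nat_lit 0) (nat_lit 1737536221) (nat_lit 152) (nat_lit 26330503204) (nat_lit 76) (nat_lit 156084850388) (nat_lit 7) (nat_lit 5) (nat_lit 9) (nat_lit 5) (nat_lit 8) (nat_lit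 4) (nat_lit 407) (nat_lit 308) (nat_lit 185)) (XT.lf (nat_lit 0) (nat_lit 5088508367) (nat_lit 76) (nat_lit 11977098342) (nat_lit 152) (nat_lit 175459887663) (nat_lit 6) (nat_lit 5) (nat_lit 7) (nat_lit 5) (nat_lit 8) (nat_lit 4) (nat_lit 408) (nat_lit 308) (nat_lit 184))))))) (XT.nd (nat_lit 936) (nat_lit 152) (nat_lit 0) (XT.nd (nat_lit 468) (nat_lit 76) (nat_lit 0) (XT.nd (nat_lit 234) (nat_lit 0) (nat_lit 0) (XT.nd (nat_lit 78) (nat_lit 0) (nat_lit 0) (XT.lf (nat_lit 0) (nat_lit 33686115985) (nat_lit 152) (nat_lit 162393767307) (nat_lit 0) (nat_lit 5210544477) (nat_lit 6) (nat_lit 5) (nat_lit 8) (nat_lit 4) (nat_lit 6) (nat_lit 4) (nat_lit 409) (nat_lit 308) (nat_lit 183)) (XT.nd (nat_lit 78) (nat_lit 0) (nat_lit 0) (XT.lf (nat_lit 0) (nat_lit 51330201781) (nat_lit 152) (nat_lit 136302200465) (nat_lit 0) (nat_lit 22851578395) (nat_lit 6) (nat_lit 5) (nat_lit 8) (nat_lit 4) (nat_lit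 6) (nat_lit 4) (nat_lit 410) (nat_lit 308) (nat_lit 182)) (XT.lf (nat_lit 0) (nat_lit 69852877754) (nat_lit 152) (nat_lit 108913166629) (nat_lit 0) (nat_lit 41371347818) (nat_lit 6) (nat_lit 5) (nat_lit 8) (nat_lit 4) (nat_lit 6) (nat_lit 4) (nat_lit 411) (nat_lit 308) (nat_lit 181)))) (XT.nd (nat_lit 78) (nat_lit 0) (nat_lit 0) (XT.lf (nat_lit 0) (nat_lit 89298245513) (nat_lit 152) (nat_lit 80161453814) (nat_lit 0) (nat_lit 60813947434) (nat_lit 6) (nat_lit 5) (nat_lit 8) (nat_lit 4) (nat_lit 6) (nat_lit 4) (nat_lit 412) (nat_lit 308) (nat_lit 180)) (XT.nd (nat_lit 78) (nat_lit 0) (nat_lit 0) (XT.lf (nat_lit 0) (nat_lit 109712603553) (nat_lit 152) (nat_lit 49978605561) (nat_lit 0) (nat_lit 81225669147) (nat_lit 6) (nat_lit 5) (nat_lit 8) (nat_lit 4) (nat_lit 6) (nat_lit 4) (nat_lit 413) (nat_lit 308) (nat_lit 179)) (XT.lf (nat_lit 0) (nat_lit 131144557489) (nat_lit 152) (nat_lit 18292757946)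 (nat_lit 0) (nat_lit 102655112296) (nat_lit 6) (nat_lit 5) (nat_lit 8) (nat_lit 4) (nat_lit 6) (nat_lit 4) (nat_lit 414) (nat_lit 308) (nat_lit 178))))) (XT.nd (nat_lit 234) (nat_lit 0) (nat_lit 0) (XT.nd (nat_lit 78) (nat_lit 0) (nat_lit 0) (XT.lf (nat_lit 0) (nat_lit 15466557970) (nat_lit 76) (nat_lit 138420054127) (nat_lit 76) (nat_lit 109928217707) (nat_lit 5) (nat_lit 4) (nat_lit 6) (nat_lit 5) (nat_lit 6) (nat_lit 4) (nat_lit 415) (nat_lit 308) (nat_lit 177)) (XT.nd (nat_lit 78) (nat_lit 0) (nat_lit 0) (XT.lf (nat_lit 0) (nat_lit 51543166772) (nat_lit 76) (nat_lit 126529477749) (nat_lit 76) (nat_lit 98035363971) (nat_lit 5) (nat_lit 4) (nat_lit 6) (nat_lit 5) (nat_lit 6) (nat_lit 4) (nat_lit 416) (nat_lit 308) (nat_lit 176)) (XT.lf (nat_lit 0) (nat_lit 89418123956) (nat_lit 76) (nat_lit 114047072113) (nat_lit 76) (nat_lit 85550789423) (nat_lit 5) (nat_lit 4) (nat_lit 6) (nat_lit 5)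 (nat_lit 6) (nat_lit 4) (nat_lit 417) (nat_lit 308) (nat_lit 175)))) (XT.nd (nat_lit 78) (nat_lit 0) (nat_lit 0) (XT.lf (nat_lit 0) (nat_lit 129181607992) (nat_lit 76) (nat_lit 100943117205) (nat_lit 76) (nat_lit 72444768885) (nat_lit 5) (nat_lit 4) (nat_lit 6) (nat_lit 5) (nat_lit 6) (nat_lit 4) (nat_lit 418) (nat_lit 308) (nat_lit 174)) (XT.nd (nat_lit 78) (nat_lit 0) (nat_lit 0) (XT.lf (nat_lit 0) (nat_lit 170928293842) (nat_lit 76) (nat_lit 87186413134) (nat_lit 76) (nat_lit 58686097546) (nat_lit 5) (nat_lit 4) (nat_lit 6) (nat_lit 5) (nat_lit 6) (nat_lit 4) (nat_lit 419) (nat_lit 308) (nat_lit 173)) (XT.lf (nat_lit 0) (nat_lit 214757578376) (nat_lit 76) (nat_lit 72744205842) (nat_lit 76) (nat_lit 44242016665) (nat_lit 5) (nat_lit 4) (nat_lit 6) (nat_lit 5) (nat_lit 6) (nat_lit 4) (nat_lit 420) (nat_lit 308) (nat_lit 172)))))) (XT.nd (nat_lit 468) (nat_lit 0) (nat_lit 0) (XT.nd (nat_lit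 234) (nat_lit 76) (nat_lit 0) (XT.nd (nat_lit 78) (nat_lit 76) (nat_lit 0) (XT.lf (nat_lit 0) (nat_lit 260773817034) (nat_lit 76) (nat_lit 57582109121) (nat_lit 76) (nat_lit 29078135574) (nat_lit 5) (nat_lit 4) (nat_lit 6) (nat_lit 5) (nat_lit 6) (nat_lit 4) (nat_lit 421) (nat_lit 308) (nat_lit 171)) (XT.nd (nat_lit 78) (nat_lit 76) (nat_lit 0) (XT.lf (nat_lit 0) (nat_lit 309086572290) (nat_lit 76) (nat_lit 41664022740) (nat_lit 76) (nat_lit 13158349794) (nat_lit 5) (nat_lit 4) (nat_lit 6) (nat_lit 5) (nat_lit 6) (nat_lit 4) (nat_lit 422) (nat_lit 308) (nat_lit 170)) (XT.lf (nat_lit 0) (nat_lit 3441454886) (nat_lit 152) (nat_lit 21452308904) (nat_lit 76) (nat_lit 356311136922) (nat_lit 4) (nat_lit 5) (nat_lit 6) (nat_lit 5) (nat_lit 5) (nat_lit 4) (nat_lit 423) (nat_lit 308) (nat_lit 169)))) (XT.nd (nat_lit 78) (nat_lit 0) (nat_lit 0) (XT.lf (nat_lit 0) (nat_lit 13808544279) (nat_lit 76)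 (nat_lit 6834078699) (nat_lit 152) (nat_lit 378701567054) (nat_lit 3) (nat_lit 5) (nat_lit 4) (nat_lit 5) (nat_lit 5) (nat_lit 4) (nat_lit 424) (nat_lit 308) (nat_lit 168)) (XT.nd (nat_lit 78) (nat_lit 0) (nat_lit 0) (XT.lf (nat_lit 0) (nat_lit 39260466577) (nat_lit 152) (nat_lit 366994347433) (nat_lit 0) (nat_lit 12107799117) (nat_lit 3) (nat_lit 5) (nat_lit 5) (nat_lit 4) (nat_lit 3) (nat_lit 4) (nat_lit 425) (nat_lit 308) (nat_lit 167)) (XT.lf (nat_lit 0) (nat_lit 58919326675) (nat_lit 152) (nat_lit 347641796948) (nat_lit 0) (nat_lit 31765327691) (nat_lit 3) (nat_lit 5) (nat_lit 5) (nat_lit 4) (nat_lit 3) (nat_lit 4) (nat_lit 426) (nat_lit 308) (nat_lit 166))))) (XT.nd (nat_lit 234) (nat_lit 0) (nat_lit 0) (XT.nd (nat_lit 78) (nat_lit 0) (nat_lit 0) (XT.lf (nat_lit 0) (nat_lit 79559310964) (nat_lit 152) (nat_lit 327325217675) (nat_lit 0) (nat_lit 52404043861) (nat_lit 3) (nat_lit 5)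 (nat_lit 5) (nat_lit 4) (nat_lit 3) (nat_lit 4) (nat_lit 427) (nat_lit 308) (nat_lit 165)) (XT.nd (nat_lit 78) (nat_lit 0) (nat_lit 0) (XT.lf (nat_lit 0) (nat_lit 101229562261) (nat_lit 152) (nat_lit 305996236809) (nat_lit 0) (nat_lit 74073087427) (nat_lit 3) (nat_lit 5) (nat_lit 5) (nat_lit 4) (nat_lit 3) (nat_lit 4) (nat_lit 428) (nat_lit 308) (nat_lit 164)) (XT.lf (nat_lit 0) (nat_lit 123981676404) (nat_lit 152) (nat_lit 283604071059) (nat_lit 0) (nat_lit 96824051350) (nat_lit 3) (nat_lit 5) (nat_lit 5) (nat_lit 4) (nat_lit 3) (nat_lit 4) (nat_lit 429) (nat_lit 308) (nat_lit 163)))) (XT.nd (nat_lit 156) (nat_lit 0) (nat_lit 0) (XT.nd (nat_lit 78) (nat_lit 0) (nat_lit 0) (XT.lf (nat_lit 0) (nat_lit 147869825093) (nat_lit 152) (nat_lit 260095405748) (nat_lit 0) (nat_lit 120711104591) (nat_lit 3) (nat_lit 5) (nat_lit 5) (nat_lit 4) (nat_lit 3) (nat_lit 4) (nat_lit 430) (nat_lit 308) (nat_lit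 162)) (XT.lf (nat_lit 0) (nat_lit 172950884873) (nat_lit 152) (nat_lit 235414267860) (nat_lit 0) (nat_lit 145791121086) (nat_lit 3) (nat_lit 5) (nat_lit 5) (nat_lit 4) (nat_lit 3) (nat_lit 4) (nat_lit 431) (nat_lit 308) (nat_lit 161))) (XT.nd (nat_lit 78) (nat_lit 0) (nat_lit 0) (XT.lf (nat_lit 0) (nat_lit 199284572552) (nat_lit 152) (nat_lit 209501892784) (nat_lit 0) (nat_lit 172123815161) (nat_lit 3) (nat_lit 5) (nat_lit 5) (nat_lit 4) (nat_lit 3) (nat_lit 4) (nat_lit 432) (nat_lit 308) (nat_lit 160)) (XT.lf (nat_lit 0) (nat_lit 226933587387) (nat_lit 152) (nat_lit 182296584386) (nat_lit 0) (nat_lit 199771883707) (nat_lit 3) (nat_lit 5) (nat_lit 5) (nat_lit 4) (nat_lit 3) (nat_lit 4) (nat_lit 433) (nat_lit 308) (nat_lit 159))))))))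
noncomputable def xc125 : XT := (XT.nd (nat_lit 38766) (nat_lit 0) (nat_lit 2964) (XT.nd (nat_lit 37752) (nat_lit 0) (nat_lit 6384) (XT.nd (nat_lit 37284) (nat_lit 0) (nat_lit 9500) (XT.nd (nat_lit 234) (nat_lit 0) (nat_lit 0) (XT.nd (nat_lit 78) (nat_lit 0) (nat_lit 0) (XT.lf (nat_lit 0) (nat_lit 255963760365) (nat_lit 152) (nat_lit 153733568125) (nat_lit 0) (nat_lit 228801155457) (nat_lit 3) (nat_lit 5) (nat_lit 5) (nat_lit 4) (nat_lit 3) (nat_lit 4) (nat_lit 434) (nat_lit 308) (nat_lit 158)) (XT.nd (nat_lit 78) (nat_lit 0) (nat_lit 0) (XT.lf (nat_lit 0) (nat_lit 286444210947) (nat_lit 152) (nat_lit 123744836817) (nat_lit 0) (nat_lit 259280747727) (nat_lit 3) (nat_lit 5) (nat_lit 5) (nat_lit 4) (nat_lit 3) (nat_lit 4) (nat_lit 435) (nat_lit 308) (nat_lit 157)) (XT.lf (nat_lit 0) (nat_lit 318447511633) (nat_lit 152) (nat_lit 92258988723) (nat_lit 0) (nat_lit 291283230972) (nat_lit 3) (nat_lit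 5) (nat_lit 5) (nat_lit 4) (nat_lit 3) (nat_lit 4) (nat_lit 436) (nat_lit 308) (nat_lit 156)))) (XT.nd (nat_lit 36894) (nat_lit 0) (nat_lit 10032) (XT.lf (nat_lit 0) (nat_lit 352049860758) (nat_lit 152) (nat_lit 59201057536) (nat_lit 0) (nat_lit 324884801583) (nat_lit 3) (nat_lit 5) (nat_lit 5) (nat_lit 4) (nat_lit 3) (nat_lit 4) (nat_lit 437) (nat_lit 308) (nat_lit 155)) (XT.nd (nat_lit 78) (nat_lit 0) (nat_lit 0) (XT.lf (nat_lit 0) (nat_lit 57467107) (nat_lit 0) (nat_lit 57467107) (nat_lit 532) (nat_lit 3578258314) (nat_lit 135) (nat_lit 5) (nat_lit 135) (nat_lit 3) (nat_lit 142) (nat_lit 3) (nat_lit 309) (nat_lit 309) (nat_lit 282)) (XT.lf (nat_lit 0) (nat_lit 1754111775) (nat_lit 532) (nat_lit 3729878748) (nat_lit 608) (nat_lit 2009533628) (nat_lit 135) (nat_lit 5) (nat_lit 142) (nat_lit 3) (nat_lit 143) (nat_lit 5) (nat_lit 310) (nat_lit 309) (nat_lit 281))))) (XT.nd (nat_lit 234)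 (nat_lit 532) (nat_lit 0) (XT.nd (nat_lit 78) (nat_lit 0) (nat_lit 0) (XT.lf (nat_lit 0) (nat_lit 3262066075) (nat_lit 532) (nat_lit 66277362) (nat_lit 608) (nat_lit 4282403969) (nat_lit 135) (nat_lit 5) (nat_lit 142) (nat_lit 3) (nat_lit 143) (nat_lit 5) (nat_lit 311) (nat_lit 309) (nat_lit 280)) (XT.nd (nat_lit 78) (nat_lit 0) (nat_lit 76) (XT.lf (nat_lit 76) (nat_lit 3853196987) (nat_lit 0) (nat_lit 962489465) (nat_lit 608) (nat_lit 2919729234) (nat_lit 136) (nat_lit 5) (nat_lit 135) (nat_lit 5) (nat_lit 143) (nat_lit 5) (nat_lit 312) (nat_lit 309) (nat_lit 279)) (XT.lf (nat_lit 76) (nat_lit 26972512) (nat_lit 0) (nat_lit 6359517504) (nat_lit 608) (nat_lit 1482944905) (nat_lit 137) (nat_lit 5) (nat_lit 136) (nat_lit 5) (nat_lit 144) (nat_lit 5) (nat_lit 313) (nat_lit 309) (nat_lit 278)))) (XT.nd (nat_lit 78) (nat_lit 0) (nat_lit 0) (XT.lf (nat_lit 0) (nat_lit 23448925) (nat_lit 608)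 (nat_lit 3814497658) (nat_lit 684) (nat_lit 4172342915) (nat_lit 128) (nat_lit 5) (nat_lit 136) (nat_lit 5) (nat_lit 137) (nat_lit 5) (nat_lit 314) (nat_lit 309) (nat_lit 277)) (XT.nd (nat_lit 78) (nat_lit 0) (nat_lit 76) (XT.lf (nat_lit 76) (nat_lit 347606231) (nat_lit 0) (nat_lit 1133135763) (nat_lit 684) (nat_lit 6680038502) (nat_lit 129) (nat_lit 5) (nat_lit 128) (nat_lit 5) (nat_lit 137) (nat_lit 5) (nat_lit 315) (nat_lit 309) (nat_lit 276)) (XT.lf (nat_lit 0) (nat_lit 3026549412) (nat_lit 608) (nat_lit 3550530500) (nat_lit 684) (nat_lit 1741009872) (nat_lit 129) (nat_lit 5) (nat_lit 137) (nat_lit 5) (nat_lit 138) (nat_lit 5) (nat_lit 316) (nat_lit 309) (nat_lit 275)))))) (XT.nd (nat_lit 468) (nat_lit 1900) (nat_lit 0) (XT.nd (nat_lit 234) (nat_lit 760) (nat_lit 0) (XT.nd (nat_lit 78) (nat_lit 532) (nat_lit 0) (XT.lf (nat_lit 76) (nat_lit 880073717) (nat_lit 0) (nat_lit 3728880914)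 (nat_lit 684) (nat_lit 3876417123) (nat_lit 130) (nat_lit 5) (nat_lit 129) (nat_lit 5) (nat_lit 138) (nat_lit 5) (nat_lit 317) (nat_lit 309) (nat_lit 274)) (XT.nd (nat_lit 78) (nat_lit 532) (nat_lit 0) (XT.lf (nat_lit 76) (nat_lit 5601594237) (nat_lit 0) (nat_lit 658642243) (nat_lit 684) (nat_lit 2401362661) (nat_lit 130) (nat_lit 5) (nat_lit 129) (nat_lit 5) (nat_lit 138) (nat_lit 5) (nat_lit 318) (nat_lit 309) (nat_lit 273)) (XT.lf (nat_lit 0) (nat_lit 1671010326) (nat_lit 608) (nat_lit 6322432562) (nat_lit 684) (nat_lit 853292830) (nat_lit 122) (nat_lit 5) (nat_lit 130) (nat_lit 5) (nat_lit 131) (nat_lit 5) (nat_lit 319) (nat_lit 309) (nat_lit 272)))) (XT.nd (nat_lit 78) (nat_lit 684) (nat_lit 0) (XT.lf (nat_lit 0) (nat_lit 745376550) (nat_lit 684) (nat_lit 2373745546) (nat_lit 76) (nat_lit 5921568421) (nat_lit 121) (nat_lit 5) (nat_lit 130) (nat_lit 5) (nat_lit 122) (nat_lit 5) (nat_lit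 320) (nat_lit 309) (nat_lit 271)) (XT.nd (nat_lit 78) (nat_lit 0) (nat_lit 0) (XT.lf (nat_lit 0) (nat_lit 2379682409) (nat_lit 760) (nat_lit 6562894068) (nat_lit 76) (nat_lit 301905075) (nat_lit 112) (nat_lit 5) (nat_lit 122) (nat_lit 5) (nat_lit 113) (nat_lit 5) (nat_lit 321) (nat_lit 309) (nat_lit 270)) (XT.lf (nat_lit 0) (nat_lit 4127525812) (nat_lit 760) (nat_lit 1492102552) (nat_lit 76) (nat_lit 3837296832) (nat_lit 112) (nat_lit 5) (nat_lit 122) (nat_lit 5) (nat_lit 113) (nat_lit 5) (nat_lit 322) (nat_lit 309) (nat_lit 269))))) (XT.nd (nat_lit 234) (nat_lit 760) (nat_lit 0) (XT.nd (nat_lit 78) (nat_lit 380) (nat_lit 0) (XT.lf (nat_lit 0) (nat_lit 3903885329) (nat_lit 760) (nat_lit 2062521454) (nat_lit 836) (nat_lit 3713453559) (nat_lit 102) (nat_lit 5) (nat_lit 112) (nat_lit 5) (nat_lit 113) (nat_lit 5) (nat_lit 323) (nat_lit 309) (nat_lit 268)) (XT.nd (nat_lit 78) (nat_lit 380) (nat_lit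 0) (XT.lf (nat_lit 0) (nat_lit 7893678288) (nat_lit 836) (nat_lit 373026988) (nat_lit 76) (nat_lit 1647463778) (nat_lit 102) (nat_lit 5) (nat_lit 113) (nat_lit 5) (nat_lit 103) (nat_lit 5) (nat_lit 324) (nat_lit 309) (nat_lit 267)) (XT.lf (nat_lit 0) (nat_lit 5385977219) (nat_lit 380) (nat_lit 4596525091) (nat_lit 456) (nat_lit 174478238) (nat_lit 97) (nat_lit 5) (nat_lit 102) (nat_lit 5) (nat_lit 103) (nat_lit 5) (nat_lit 325) (nat_lit 309) (nat_lit 266)))) (XT.nd (nat_lit 156) (nat_lit 380) (nat_lit 0) (XT.nd (nat_lit 78) (nat_lit 0) (nat_lit 0) (XT.lf (nat_lit 0) (nat_lit 984562650) (nat_lit 304) (nat_lit 692719962) (nat_lit 380) (nat_lit 8734820457) (nat_lit 92) (nat_lit 5) (nat_lit 96) (nat_lit 5) (nat_lit 97) (nat_lit 5) (nat_lit 326) (nat_lit 309) (nat_lit 265)) (XT.lf (nat_lit 0) (nat_lit 3700791499) (nat_lit 380) (nat_lit 3594985825) (nat_lit 76) (nat_lit 3379850619) (nat_lit 92)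 (nat_lit 5) (nat_lit 97) (nat_lit 5) (nat_lit 93) (nat_lit 5) (nat_lit 327) (nat_lit 309) (nat_lit 264))) (XT.nd (nat_lit 78) (nat_lit 0) (nat_lit 0) (XT.lf (nat_lit 0) (nat_lit 2546759223) (nat_lit 380) (nat_lit 3281947360) (nat_lit 456) (nat_lit 5123499437) (nat_lit 87) (nat_lit 5) (nat_lit 92) (nat_lit 5) (nat_lit 93) (nat_lit 5) (nat_lit 328) (nat_lit 309) (nat_lit 263)) (XT.lf (nat_lit 0) (nat_lit 8092960305) (nat_lit 456) (nat_lit 2188745039) (nat_lit 76) (nat_lit 959447176) (nat_lit 87) (nat_lit 5) (nat_lit 93) (nat_lit 5) (nat_lit 88) (nat_lit 5) (nat_lit 329) (nat_lit 309) (nat_lit 262))))))) (XT.nd (nat_lit 936) (nat_lit 1368) (nat_lit 0) (XT.nd (nat_lit 468) (nat_lit 836) (nat_lit 0) (XT.nd (nat_lit 234) (nat_lit 532) (nat_lit 0) (XT.nd (nat_lit 78) (nat_lit 380) (nat_lit 0) (XT.lf (nat_lit 0) (nat_lit 4373522452) (nat_lit 304) (nat_lit 6174705698) (nat_lit 380) (nat_lit 992463042)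 (nat_lit 83) (nat_lit 5) (nat_lit 87) (nat_lit 5) (nat_lit 88) (nat_lit 5) (nat_lit 330) (nat_lit 309) (nat_lit 261)) (XT.nd (nat_lit 78) (nat_lit 304) (nat_lit 0) (XT.lf (nat_lit 0) (nat_lit 1224344108) (nat_lit 380) (nat_lit 586008015) (nat_lit 76) (nat_lit 10044195454) (nat_lit 82) (nat_lit 5) (nat_lit 87) (nat_lit 5) (nat_lit 83) (nat_lit 5) (nat_lit 331) (nat_lit 309) (nat_lit 260)) (XT.lf (nat_lit 0) (nat_lit 3623037001) (nat_lit 380) (nat_lit 5760170017) (nat_lit 76) (nat_lit 2794886501) (nat_lit 78) (nat_lit 5) (nat_lit 83) (nat_lit 5) (nat_lit 79) (nat_lit 5) (nat_lit 332) (nat_lit 309) (nat_lit 259)))) (XT.nd (nat_lit 78) (nat_lit 304) (nat_lit 0) (XT.lf (nat_lit 0) (nat_lit 1234000645) (nat_lit 228) (nat_lit 4926162604) (nat_lit 304) (nat_lit 6356757301) (nat_lit 75) (nat_lit 5) (nat_lit 78) (nat_lit 5) (nat_lit 79) (nat_lit 5) (nat_lit 333) (nat_lit 309) (nat_lit 258)) (XT.nd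 (nat_lit 78) (nat_lit 304) (nat_lit 0) (XT.lf (nat_lit 0) (nat_lit 8727947754) (nat_lit 228) (nat_lit 154367743) (nat_lit 304) (nat_lit 3987492310) (nat_lit 75) (nat_lit 5) (nat_lit 78) (nat_lit 5) (nat_lit 79) (nat_lit 5) (nat_lit 334) (nat_lit 309) (nat_lit 257)) (XT.lf (nat_lit 0) (nat_lit 3337993189) (nat_lit 304) (nat_lit 8492850781) (nat_lit 380) (nat_lit 1405008081) (nat_lit 71) (nat_lit 5) (nat_lit 75) (nat_lit 5) (nat_lit 76) (nat_lit 5) (nat_lit 335) (nat_lit 309) (nat_lit 256))))) (XT.nd (nat_lit 234) (nat_lit 532) (nat_lit 0) (XT.nd (nat_lit 78) (nat_lit 228) (nat_lit 0) (XT.lf (nat_lit 0) (nat_lit 1301355092) (nat_lit 380) (nat_lit 2354877059) (nat_lit 76) (nat_lit 9961141303) (nat_lit 70) (nat_lit 5) (nat_lit 75) (nat_lit 5) (nat_lit 71) (nat_lit 5) (nat_lit 336) (nat_lit 309) (nat_lit 255)) (XT.nd (nat_lit 78) (nat_lit 0) (nat_lit 0) (XT.lf (nat_lit 0) (nat_lit 4172818126)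 (nat_lit 304) (nat_lit 8361500509) (nat_lit 76) (nat_lit 1478673194) (nat_lit 67) (nat_lit 5) (nat_lit 71) (nat_lit 5) (nat_lit 68) (nat_lit 5) (nat_lit 337) (nat_lit 309) (nat_lit 254)) (XT.lf (nat_lit 0) (nat_lit 7253623233) (nat_lit 304) (nat_lit 395221360) (nat_lit 76) (nat_lit 6776279520) (nat_lit 67) (nat_lit 5) (nat_lit 71) (nat_lit 5) (nat_lit 68) (nat_lit 5) (nat_lit 338) (nat_lit 309) (nat_lit 253)))) (XT.nd (nat_lit 78) (nat_lit 304) (nat_lit 0) (XT.lf (nat_lit 0) (nat_lit 8185485642) (nat_lit 228) (nat_lit 2397729820) (nat_lit 304) (nat_lit 4269930623) (nat_lit 64) (nat_lit 5) (nat_lit 67) (nat_lit 5) (nat_lit 68) (nat_lit 5) (nat_lit 339) (nat_lit 309) (nat_lit 252)) (XT.nd (nat_lit 78) (nat_lit 76) (nat_lit 0) (XT.lf (nat_lit 0) (nat_lit 1871290132) (nat_lit 228) (nat_lit 12260280343) (nat_lit 304) (nat_lit 1168403965) (nat_lit 61) (nat_lit 5) (nat_lit 64) (nat_lit 5) (nat_lit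 65) (nat_lit 5) (nat_lit 340) (nat_lit 309) (nat_lit 251)) (XT.lf (nat_lit 0) (nat_lit 2143349056) (nat_lit 304) (nat_lit 4815471749) (nat_lit 76) (nat_lit 8802611641) (nat_lit 60) (nat_lit 5) (nat_lit 64) (nat_lit 5) (nat_lit 61) (nat_lit 5) (nat_lit 341) (nat_lit 309) (nat_lit 250)))))) (XT.nd (nat_lit 468) (nat_lit 532) (nat_lit 0) (XT.nd (nat_lit 234) (nat_lit 456) (nat_lit 0) (XT.nd (nat_lit 78) (nat_lit 152) (nat_lit 0) (XT.lf (nat_lit 0) (nat_lit 4302293187) (nat_lit 228) (nat_lit 1315736780) (nat_lit 304) (nat_lit 10625162158) (nat_lit 57) (nat_lit 5) (nat_lit 60) (nat_lit 5) (nat_lit 61) (nat_lit 5) (nat_lit 342) (nat_lit 309) (nat_lit 249)) (XT.nd (nat_lit 78) (nat_lit 152) (nat_lit 0) (XT.lf (nat_lit 0) (nat_lit 9391285620) (nat_lit 304) (nat_lit 2820356762) (nat_lit 76) (nat_lit 4531171368) (nat_lit 57) (nat_lit 5) (nat_lit 61) (nat_lit 5) (nat_lit 58) (nat_lit 5) (nat_lit 343)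 (nat_lit 309) (nat_lit 248)) (XT.lf (nat_lit 0) (nat_lit 6912831015) (nat_lit 152) (nat_lit 6541284676) (nat_lit 228) (nat_lit 3808270418) (nat_lit 55) (nat_lit 5) (nat_lit 57) (nat_lit 5) (nat_lit 58) (nat_lit 5) (nat_lit 344) (nat_lit 309) (nat_lit 247)))) (XT.nd (nat_lit 78) (nat_lit 456) (nat_lit 0) (XT.lf (nat_lit 0) (nat_lit 17188223394) (nat_lit 152) (nat_lit 551741222) (nat_lit 228) (nat_lit 66993112) (nat_lit 55) (nat_lit 5) (nat_lit 57) (nat_lit 5) (nat_lit 58) (nat_lit 5) (nat_lit 345) (nat_lit 309) (nat_lit 246)) (XT.nd (nat_lit 78) (nat_lit 152) (nat_lit 0) (XT.lf (nat_lit 0) (nat_lit 3956783879) (nat_lit 304) (nat_lit 8651202418) (nat_lit 76) (nat_lit 5756819314) (nat_lit 51) (nat_lit 5) (nat_lit 55) (nat_lit 5) (nat_lit 52) (nat_lit 5) (nat_lit 346) (nat_lit 309) (nat_lit 245)) (XT.lf (nat_lit 0) (nat_lit 1634307587) (nat_lit 152) (nat_lit 6563824525) (nat_lit 228) (nat_lit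 10751439708) (nat_lit 49) (nat_lit 5) (nat_lit 51) (nat_lit 5) (nat_lit 52) (nat_lit 5) (nat_lit 347) (nat_lit 309) (nat_lit 244))))) (XT.nd (nat_lit 234) (nat_lit 304) (nat_lit 0) (XT.nd (nat_lit 78) (nat_lit 228) (nat_lit 0) (XT.lf (nat_lit 0) (nat_lit 12693413730) (nat_lit 152) (nat_lit 78693734) (nat_lit 228) (nat_lit 6785452827) (nat_lit 49) (nat_lit 5) (nat_lit 51) (nat_lit 5) (nat_lit 52) (nat_lit 5) (nat_lit 348) (nat_lit 309) (nat_lit 243)) (XT.nd (nat_lit 78) (nat_lit 76) (nat_lit 0) (XT.lf (nat_lit 0) (nat_lit 4095422284) (nat_lit 152) (nat_lit 13623444370) (nat_lit 228) (nat_lit 2469888646) (nat_lit 47) (nat_lit 5) (nat_lit 49) (nat_lit 5) (nat_lit 50) (nat_lit 5) (nat_lit 349) (nat_lit 309) (nat_lit 242)) (XT.lf (nat_lit 0) (nat_lit 2090138545) (nat_lit 228) (nat_lit 5080082943) (nat_lit 76) (nat_lit 13674956419) (nat_lit 46) (nat_lit 5) (nat_lit 49) (nat_lit 5) (nat_lit 47)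 (nat_lit 5) (nat_lit 350) (nat_lit 309) (nat_lit 241)))) (XT.nd (nat_lit 156) (nat_lit 152) (nat_lit 0) (XT.nd (nat_lit 78) (nat_lit 0) (nat_lit 0) (XT.lf (nat_lit 0) (nat_lit 6616753589) (nat_lit 152) (nat_lit 258115873) (nat_lit 228) (nat_lit 14653552164) (nat_lit 44) (nat_lit 5) (nat_lit 46) (nat_lit 5) (nat_lit 47) (nat_lit 5) (nat_lit 351) (nat_lit 309) (nat_lit 240)) (XT.lf (nat_lit 0) (nat_lit 12072270303) (nat_lit 228) (nat_lit 3316096705) (nat_lit 76) (nat_lit 6848798206) (nat_lit 44) (nat_lit 5) (nat_lit 47) (nat_lit 5) (nat_lit 45) (nat_lit 5) (nat_lit 352) (nat_lit 309) (nat_lit 239))) (XT.nd (nat_lit 78) (nat_lit 0) (nat_lit 0) (XT.lf (nat_lit 0) (nat_lit 9109754505) (nat_lit 152) (nat_lit 8544062154) (nat_lit 228) (nat_lit 5321324457) (nat_lit 42) (nat_lit 5) (nat_lit 44) (nat_lit 5) (nat_lit 45) (nat_lit 5) (nat_lit 353) (nat_lit 309) (nat_lit 238)) (XT.lf (nat_lit 0) (nat_lit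 22235783483) (nat_lit 152) (nat_lit 1313122393) (nat_lit 228) (nat_lit 199395142) (nat_lit 42) (nat_lit 5) (nat_lit 44) (nat_lit 5) (nat_lit 45) (nat_lit 5) (nat_lit 354) (nat_lit 309) (nat_lit 237))))))))
noncomputable def xc126 : XT := (XT.nd (nat_lit 1950) (nat_lit 836) (nat_lit 0) (XT.nd (nat_lit 936) (nat_lit 684) (nat_lit 0) (XT.nd (nat_lit 468) (nat_lit 380) (nat_lit 0) (XT.nd (nat_lit 234) (nat_lit 304) (nat_lit 0) (XT.nd (nat_lit 78) (nat_lit 152) (nat_lit 0) (XT.lf (nat_lit 0) (nat_lit 5276949715) (nat_lit 228) (nat_lit 12933190016) (nat_lit 76) (nat_lit 6332740852) (nat_lit 39) (nat_lit 5) (nat_lit 42) (nat_lit 5) (nat_lit 40) (nat_lit 5) (nat_lit 355) (nat_lit 309) (nat_lit 236)) (XT.nd (nat_lit 78) (nat_lit 0) (nat_lit 0) (XT.lf (nat_lit 0) (nat_lit 4061416) (nat_lit 152) (nat_lit 11043206122) (nat_lit 228) (nat_lit 14328422644) (nat_lit 37) (nat_lit 5) (nat_lit 39) (nat_lit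 5) (nat_lit 40) (nat_lit 5) (nat_lit 356) (nat_lit 309) (nat_lit 235)) (XT.lf (nat_lit 0) (nat_lit 14002293407) (nat_lit 152) (nat_lit 3302513432) (nat_lit 228) (nat_lit 8935405120) (nat_lit 37) (nat_lit 5) (nat_lit 39) (nat_lit 5) (nat_lit 40) (nat_lit 5) (nat_lit 357) (nat_lit 309) (nat_lit 234)))) (XT.nd (nat_lit 78) (nat_lit 228) (nat_lit 0) (XT.lf (nat_lit 0) (nat_lit 1490869776) (nat_lit 76) (nat_lit 22463392041) (nat_lit 152) (nat_lit 3189752719) (nat_lit 36) (nat_lit 5) (nat_lit 37) (nat_lit 5) (nat_lit 38) (nat_lit 4) (nat_lit 358) (nat_lit 309) (nat_lit 233)) (XT.nd (nat_lit 78) (nat_lit 152) (nat_lit 0) (XT.lf (nat_lit 0) (nat_lit 2997491581) (nat_lit 152) (nat_lit 11887692749) (nat_lit 76) (nat_lit 13193343997) (nat_lit 35) (nat_lit 5) (nat_lit 37) (nat_lit 5) (nat_lit 36) (nat_lit 5) (nat_lit 359) (nat_lit 309) (nat_lit 232)) (XT.lf (nat_lit 0) (nat_lit 2563314874) (nat_lit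 152) (nat_lit 6845051532) (nat_lit 228) (nat_lit 19647719345) (nat_lit 33) (nat_lit 5) (nat_lit 35) (nat_lit 5) (nat_lit 36) (nat_lit 5) (nat_lit 360) (nat_lit 309) (nat_lit 231))))) (XT.nd (nat_lit 234) (nat_lit 304) (nat_lit 0) (XT.nd (nat_lit 78) (nat_lit 76) (nat_lit 0) (XT.lf (nat_lit 0) (nat_lit 16350958414) (nat_lit 228) (nat_lit 11983746863) (nat_lit 76) (nat_lit 1737262565) (nat_lit 33) (nat_lit 5) (nat_lit 36) (nat_lit 5) (nat_lit 34) (nat_lit 4) (nat_lit 361) (nat_lit 309) (nat_lit 230)) (XT.nd (nat_lit 78) (nat_lit 0) (nat_lit 0) (XT.lf (nat_lit 0) (nat_lit 3210171028) (nat_lit 76) (nat_lit 20575332437) (nat_lit 152) (nat_lit 7345904608) (nat_lit 32) (nat_lit 5) (nat_lit 33) (nat_lit 5) (nat_lit 34) (nat_lit 4) (nat_lit 362) (nat_lit 309) (nat_lit 229)) (XT.lf (nat_lit 0) (nat_lit 19549245995) (nat_lit 76) (nat_lit 12228326311) (nat_lit 152) (nat_lit 456963144) (nat_lit 32)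 (nat_lit 5) (nat_lit 33) (nat_lit 5) (nat_lit 34) (nat_lit 4) (nat_lit 363) (nat_lit 309) (nat_lit 228)))) (XT.nd (nat_lit 78) (nat_lit 76) (nat_lit 0) (XT.lf (nat_lit 0) (nat_lit 3282016972) (nat_lit 152) (nat_lit 3312152418) (nat_lit 228) (nat_lit 26791632757) (nat_lit 29) (nat_lit 5) (nat_lit 31) (nat_lit 5) (nat_lit 32) (nat_lit 5) (nat_lit 364) (nat_lit 309) (nat_lit 227)) (XT.nd (nat_lit 78) (nat_lit 76) (nat_lit 0) (XT.lf (nat_lit 0) (nat_lit 14278833244) (nat_lit 228) (nat_lit 14231087038) (nat_lit 76) (nat_lit 6069525041) (nat_lit 29) (nat_lit 5) (nat_lit 32) (nat_lit 5) (nat_lit 30) (nat_lit 4) (nat_lit 365) (nat_lit 309) (nat_lit 226)) (XT.lf (nat_lit 0) (nat_lit 2430332403) (nat_lit 76) (nat_lit 19993947865) (nat_lit 152) (nat_lit 13404666971) (nat_lit 28) (nat_lit 5) (nat_lit 29) (nat_lit 5) (nat_lit 30) (nat_lit 4) (nat_lit 366) (nat_lit 309) (nat_lit 225)))))) (XT.nd (nat_lit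 468) (nat_lit 380) (nat_lit 0) (XT.nd (nat_lit 234) (nat_lit 76) (nat_lit 0) (XT.nd (nat_lit 78) (nat_lit 228) (nat_lit 0) (XT.lf (nat_lit 0) (nat_lit 20390950280) (nat_lit 76) (nat_lit 10811678758) (nat_lit 152) (nat_lit 5927017628) (nat_lit 28) (nat_lit 5) (nat_lit 29) (nat_lit 5) (nat_lit 30) (nat_lit 4) (nat_lit 367) (nat_lit 309) (nat_lit 224)) (XT.nd (nat_lit 78) (nat_lit 0) (nat_lit 0) (XT.lf (nat_lit 0) (nat_lit 720109920) (nat_lit 152) (nat_lit 1139158476) (nat_lit 228) (nat_lit 36634796307) (nat_lit 25) (nat_lit 5) (nat_lit 27) (nat_lit 5) (nat_lit 28) (nat_lit 5) (nat_lit 368) (nat_lit 309) (nat_lit 223)) (XT.lf (nat_lit 0) (nat_lit 10249799622) (nat_lit 228) (nat_lit 20549351942) (nat_lit 76) (nat_lit 9101991346) (nat_lit 25) (nat_lit 5) (nat_lit 28) (nat_lit 5) (nat_lit 26) (nat_lit 4) (nat_lit 369) (nat_lit 309) (nat_lit 222)))) (XT.nd (nat_lit 78) (nat_lit 76) (nat_lit 0)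 (XT.lf (nat_lit 0) (nat_lit 19064448334) (nat_lit 228) (nat_lit 2508114284) (nat_lit 76) (nat_lit 19805786059) (nat_lit 25) (nat_lit 5) (nat_lit 28) (nat_lit 5) (nat_lit 26) (nat_lit 4) (nat_lit 370) (nat_lit 309) (nat_lit 221)) (XT.nd (nat_lit 78) (nat_lit 0) (nat_lit 0) (XT.lf (nat_lit 0) (nat_lit 16953104180) (nat_lit 76) (nat_lit 11617997622) (nat_lit 152) (nat_lit 14345752361) (nat_lit 24) (nat_lit 5) (nat_lit 25) (nat_lit 5) (nat_lit 26) (nat_lit 4) (nat_lit 371) (nat_lit 309) (nat_lit 220)) (XT.lf (nat_lit 0) (nat_lit 37450171515) (nat_lit 76) (nat_lit 1132238927) (nat_lit 152) (nat_lit 5948411256) (nat_lit 24) (nat_lit 5) (nat_lit 25) (nat_lit 5) (nat_lit 26) (nat_lit 4) (nat_lit 372) (nat_lit 309) (nat_lit 219))))) (XT.nd (nat_lit 234) (nat_lit 152) (nat_lit 0) (XT.nd (nat_lit 78) (nat_lit 76) (nat_lit 0) (XT.lf (nat_lit 0) (nat_lit 3126868091) (nat_lit 152) (nat_lit 33274341059)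 (nat_lit 76) (nat_lit 9804547061) (nat_lit 22) (nat_lit 5) (nat_lit 24) (nat_lit 5) (nat_lit 23) (nat_lit 4) (nat_lit 373) (nat_lit 309) (nat_lit 218)) (XT.nd (nat_lit 78) (nat_lit 76) (nat_lit 0) (XT.lf (nat_lit 0) (nat_lit 12583789607) (nat_lit 152) (nat_lit 13910211394) (nat_lit 76) (nat_lit 21459174016) (nat_lit 22) (nat_lit 5) (nat_lit 24) (nat_lit 5) (nat_lit 23) (nat_lit 4) (nat_lit 374) (nat_lit 309) (nat_lit 217)) (XT.lf (nat_lit 0) (nat_lit 6611214863) (nat_lit 76) (nat_lit 15993507155) (nat_lit 152) (nat_lit 27178686891) (nat_lit 21) (nat_lit 5) (nat_lit 22) (nat_lit 5) (nat_lit 23) (nat_lit 4) (nat_lit 375) (nat_lit 309) (nat_lit 216)))) (XT.nd (nat_lit 156) (nat_lit 152) (nat_lit 0) (XT.nd (nat_lit 78) (nat_lit 0) (nat_lit 0) (XT.lf (nat_lit 0) (nat_lit 28619496574) (nat_lit 76) (nat_lit 4730954123) (nat_lit 152) (nat_lit 18343518588) (nat_lit 21) (nat_lit 5) (nat_lit 22) (nat_lit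 5) (nat_lit 23) (nat_lit 4) (nat_lit 376) (nat_lit 309) (nat_lit 215)) (XT.lf (nat_lit 0) (nat_lit 44732817571) (nat_lit 152) (nat_lit 2104138116) (nat_lit 0) (nat_lit 6858136568) (nat_lit 21) (nat_lit 5) (nat_lit 23) (nat_lit 4) (nat_lit 21) (nat_lit 4) (nat_lit 377) (nat_lit 309) (nat_lit 214))) (XT.nd (nat_lit 78) (nat_lit 0) (nat_lit 0) (XT.lf (nat_lit 0) (nat_lit 1252247062) (nat_lit 152) (nat_lit 35325250439) (nat_lit 76) (nat_lit 19198450694) (nat_lit 19) (nat_lit 5) (nat_lit 21) (nat_lit 5) (nat_lit 20) (nat_lit 4) (nat_lit 378) (nat_lit 309) (nat_lit 213)) (XT.lf (nat_lit 0) (nat_lit 11701675677) (nat_lit 152) (nat_lit 13920755982) (nat_lit 76) (nat_lit 32329802415) (nat_lit 19) (nat_lit 5) (nat_lit 21) (nat_lit 5) (nat_lit 20) (nat_lit 4) (nat_lit 379) (nat_lit 309) (nat_lit 212))))))) (XT.nd (nat_lit 936) (nat_lit 380) (nat_lit 0) (XT.nd (nat_lit 468) (nat_lit 228) (nat_lit 0)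 (XT.nd (nat_lit 234) (nat_lit 152) (nat_lit 0) (XT.nd (nat_lit 78) (nat_lit 0) (nat_lit 0) (XT.lf (nat_lit 0) (nat_lit 8816616245) (nat_lit 76) (nat_lit 13984281287) (nat_lit 152) (nat_lit 37430072405) (nat_lit 18) (nat_lit 5) (nat_lit 19) (nat_lit 5) (nat_lit 20) (nat_lit 4) (nat_lit 380) (nat_lit 309) (nat_lit 211)) (XT.nd (nat_lit 78) (nat_lit 0) (nat_lit 0) (XT.lf (nat_lit 0) (nat_lit 33154935627) (nat_lit 76) (nat_lit 1525761174) (nat_lit 152) (nat_lit 27931666672) (nat_lit 18) (nat_lit 5) (nat_lit 19) (nat_lit 5) (nat_lit 20) (nat_lit 4) (nat_lit 381) (nat_lit 309) (nat_lit 210)) (XT.lf (nat_lit 0) (nat_lit 47325112008) (nat_lit 152) (nat_lit 6601725211) (nat_lit 0) (nat_lit 11177459784) (nat_lit 18) (nat_lit 5) (nat_lit 20) (nat_lit 4) (nat_lit 18) (nat_lit 4) (nat_lit 382) (nat_lit 309) (nat_lit 209)))) (XT.nd (nat_lit 78) (nat_lit 76) (nat_lit 0) (XT.lf (nat_lit 0) (nat_lit 17927786564)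 (nat_lit 76) (nat_lit 42969552447) (nat_lit 76) (nat_lit 6808710183) (nat_lit 17) (nat_lit 4) (nat_lit 18) (nat_lit 5) (nat_lit 18) (nat_lit 4) (nat_lit 383) (nat_lit 309) (nat_lit 208)) (XT.nd (nat_lit 78) (nat_lit 0) (nat_lit 0) (XT.lf (nat_lit 0) (nat_lit 4663861213) (nat_lit 152) (nat_lit 26612488719) (nat_lit 76) (nat_lit 39152646844) (nat_lit 16) (nat_lit 5) (nat_lit 18) (nat_lit 5) (nat_lit 17) (nat_lit 4) (nat_lit 384) (nat_lit 309) (nat_lit 207)) (XT.lf (nat_lit 0) (nat_lit 16472382189) (nat_lit 152) (nat_lit 2416984472) (nat_lit 76) (nat_lit 54393588578) (nat_lit 16) (nat_lit 5) (nat_lit 18) (nat_lit 5) (nat_lit 17) (nat_lit 4) (nat_lit 385) (nat_lit 309) (nat_lit 206))))) (XT.nd (nat_lit 234) (nat_lit 152) (nat_lit 0) (XT.nd (nat_lit 78) (nat_lit 0) (nat_lit 0) (XT.lf (nat_lit 0) (nat_lit 23731724902) (nat_lit 76) (nat_lit 5501683349) (nat_lit 152) (nat_lit 47028100688) (nat_lit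 15) (nat_lit 5) (nat_lit 16) (nat_lit 5) (nat_lit 17) (nat_lit 4) (nat_lit 386) (nat_lit 309) (nat_lit 205)) (XT.nd (nat_lit 78) (nat_lit 0) (nat_lit 0) (XT.lf (nat_lit 0) (nat_lit 42799258874) (nat_lit 152) (nat_lit 28265576539) (nat_lit 0) (nat_lit 8315817453) (nat_lit 15) (nat_lit 5) (nat_lit 17) (nat_lit 4) (nat_lit 15) (nat_lit 4) (nat_lit 387) (nat_lit 309) (nat_lit 204)) (XT.lf (nat_lit 0) (nat_lit 57125589656) (nat_lit 152) (nat_lit 2893750475) (nat_lit 0) (nat_lit 22632305625) (nat_lit 15) (nat_lit 5) (nat_lit 17) (nat_lit 4) (nat_lit 15) (nat_lit 4) (nat_lit 388) (nat_lit 309) (nat_lit 203)))) (XT.nd (nat_lit 78) (nat_lit 76) (nat_lit 0) (XT.lf (nat_lit 0) (nat_lit 24516687056) (nat_lit 76) (nat_lit 48026701351) (nat_lit 76) (nat_lit 13524043404) (nat_lit 14) (nat_lit 4) (nat_lit 15) (nat_lit 5) (nat_lit 15) (nat_lit 4) (nat_lit 389) (nat_lit 309) (nat_lit 202)) (XT.nd (nat_lit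 78) (nat_lit 76) (nat_lit 0) (XT.lf (nat_lit 0) (nat_lit 53383680578) (nat_lit 76) (nat_lit 35389918509) (nat_lit 76) (nat_lit 878333024) (nat_lit 14) (nat_lit 4) (nat_lit 15) (nat_lit 5) (nat_lit 15) (nat_lit 4) (nat_lit 390) (nat_lit 309) (nat_lit 201)) (XT.lf (nat_lit 0) (nat_lit 11995549761) (nat_lit 152) (nat_lit 9929210890) (nat_lit 76) (nat_lit 71481580367) (nat_lit 13) (nat_lit 5) (nat_lit 15) (nat_lit 5) (nat_lit 14) (nat_lit 4) (nat_lit 391) (nat_lit 309) (nat_lit 200)))))) (XT.nd (nat_lit 468) (nat_lit 228) (nat_lit 0) (XT.nd (nat_lit 234) (nat_lit 76) (nat_lit 0) (XT.nd (nat_lit 78) (nat_lit 0) (nat_lit 0) (XT.lf (nat_lit 0) (nat_lit 18284276043) (nat_lit 76) (nat_lit 7477900291) (nat_lit 152) (nat_lit 71571646622) (nat_lit 12) (nat_lit 5) (nat_lit 13) (nat_lit 5) (nat_lit 14) (nat_lit 4) (nat_lit 392) (nat_lit 309) (nat_lit 199)) (XT.nd (nat_lit 78) (nat_lit 0) (nat_lit 0)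 (XT.lf (nat_lit 0) (nat_lit 40501253584) (nat_lit 152) (nat_lit 53332297554) (nat_lit 0) (nat_lit 7609922741) (nat_lit 12) (nat_lit 5) (nat_lit 14) (nat_lit 4) (nat_lit 12) (nat_lit 4) (nat_lit 393) (nat_lit 309) (nat_lit 198)) (XT.lf (nat_lit 0) (nat_lit 56093324565) (nat_lit 152) (nat_lit 26464482842) (nat_lit 0) (nat_lit 23194998763) (nat_lit 12) (nat_lit 5) (nat_lit 14) (nat_lit 4) (nat_lit 12) (nat_lit 4) (nat_lit 394) (nat_lit 309) (nat_lit 197)))) (XT.nd (nat_lit 78) (nat_lit 0) (nat_lit 0) (XT.lf (nat_lit 0) (nat_lit 1791973532) (nat_lit 76) (nat_lit 70694766473) (nat_lit 76) (nat_lit 37789778803) (nat_lit 11) (nat_lit 4) (nat_lit 12) (nat_lit 5) (nat_lit 12) (nat_lit 4) (nat_lit 395) (nat_lit 309) (nat_lit 196)) (XT.nd (nat_lit 78) (nat_lit 0) (nat_lit 0) (XT.lf (nat_lit 0) (nat_lit 32368131611) (nat_lit 76) (nat_lit 57773757678) (nat_lit 76) (nat_lit 24862425374) (nat_lit 11)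 (nat_lit 4) (nat_lit 12) (nat_lit 5) (nat_lit 12) (nat_lit 4) (nat_lit 396) (nat_lit 309) (nat_lit 195)) (XT.lf (nat_lit 0) (nat_lit 64461756452) (nat_lit 76) (nat_lit 44212205539) (nat_lit 76) (nat_lit 11294830726) (nat_lit 11) (nat_lit 4) (nat_lit 12) (nat_lit 5) (nat_lit 12) (nat_lit 4) (nat_lit 397) (nat_lit 309) (nat_lit 194))))) (XT.nd (nat_lit 234) (nat_lit 76) (nat_lit 0) (XT.nd (nat_lit 78) (nat_lit 76) (nat_lit 0) (XT.lf (nat_lit 0) (nat_lit 2851040655) (nat_lit 152) (nat_lit 27078496238) (nat_lit 76) (nat_lit 95249937038) (nat_lit 10) (nat_lit 5) (nat_lit 12) (nat_lit 5) (nat_lit 11) (nat_lit 4) (nat_lit 398) (nat_lit 309) (nat_lit 193)) (XT.nd (nat_lit 78) (nat_lit 0) (nat_lit 0) (XT.lf (nat_lit 0) (nat_lit 2661013465) (nat_lit 76) (nat_lit 14699778623) (nat_lit 152) (nat_lit 113278831326) (nat_lit 9) (nat_lit 5) (nat_lit 10) (nat_lit 5) (nat_lit 11) (nat_lit 4) (nat_lit 399)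 (nat_lit 309) (nat_lit 192)) (XT.lf (nat_lit 0) (nat_lit 33076937890) (nat_lit 152) (nat_lit 101560412272) (nat_lit 0) (nat_lit 1711385448) (nat_lit 9) (nat_lit 5) (nat_lit 11) (nat_lit 4) (nat_lit 9) (nat_lit 4) (nat_lit 400) (nat_lit 309) (nat_lit 191)))) (XT.nd (nat_lit 156) (nat_lit 76) (nat_lit 0) (XT.nd (nat_lit 78) (nat_lit 0) (nat_lit 0) (XT.lf (nat_lit 0) (nat_lit 49814764392) (nat_lit 152) (nat_lit 74072268419) (nat_lit 0) (nat_lit 18444477486) (nat_lit 9) (nat_lit 5) (nat_lit 11) (nat_lit 4) (nat_lit 9) (nat_lit 4) (nat_lit 401) (nat_lit 309) (nat_lit 190)) (XT.lf (nat_lit 0) (nat_lit 67384618823) (nat_lit 152) (nat_lit 45219225689) (nat_lit 0) (nat_lit 36009822903) (nat_lit 9) (nat_lit 5) (nat_lit 11) (nat_lit 4) (nat_lit 9) (nat_lit 4) (nat_lit 402) (nat_lit 309) (nat_lit 189))) (XT.nd (nat_lit 78) (nat_lit 76) (nat_lit 0) (XT.lf (nat_lit 0) (nat_lit 85828334168) (nat_lit 152)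 (nat_lit 14932586362) (nat_lit 0) (nat_lit 54449243950) (nat_lit 9) (nat_lit 5) (nat_lit 11) (nat_lit 4) (nat_lit 9) (nat_lit 4) (nat_lit 403) (nat_lit 309) (nat_lit 188)) (XT.lf (nat_lit 0) (nat_lit 17417220436) (nat_lit 76) (nat_lit 88044535223) (nat_lit 76) (nat_lit 56661355197) (nat_lit 8) (nat_lit 4) (nat_lit 9) (nat_lit 5) (nat_lit 9) (nat_lit 4) (nat_lit 404) (nat_lit 309) (nat_lit 187))))))))
noncomputable def xc127 : XT := (XT.nd (nat_lit 1950) (nat_lit 0) (nat_lit 0) (XT.nd (nat_lit 936) (nat_lit 152) (nat_lit 0) (XT.nd (nat_lit 468) (nat_lit 76) (nat_lit 0) (XT.nd (nat_lit 234) (nat_lit 152) (nat_lit 0) (XT.nd (nat_lit 78) (nat_lit 0) (nat_lit 0) (XT.lf (nat_lit 0) (nat_lit 51894458033) (nat_lit 76) (nat_lit 74430947103) (nat_lit 76) (nat_lit 43043872022) (nat_lit 8) (nat_lit 4) (nat_lit 9) (nat_lit 5) (nat_lit 9) (nat_lit 4) (nat_lit 405) (nat_lit 309) (nat_lit 186)) (XT.nd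 (nat_lit 78) (nat_lit 0) (nat_lit 0) (XT.lf (nat_lit 0) (nat_lit 88087476349) (nat_lit 76) (nat_lit 60140633442) (nat_lit 76) (nat_lit 28749848784) (nat_lit 8) (nat_lit 4) (nat_lit 9) (nat_lit 5) (nat_lit 9) (nat_lit 4) (nat_lit 406) (nat_lit 309) (nat_lit 185)) (XT.lf (nat_lit 0) (nat_lit 126082449235) (nat_lit 76) (nat_lit 45139569682) (nat_lit 76) (nat_lit 13745252094) (nat_lit 8) (nat_lit 4) (nat_lit 9) (nat_lit 5) (nat_lit 9) (nat_lit 4) (nat_lit 407) (nat_lit 309) (nat_lit 184)))) (XT.nd (nat_lit 78) (nat_lit 76) (nat_lit 0) (XT.lf (nat_lit 0) (nat_lit 1941450166) (nat_lit 152) (nat_lit 27417709441) (nat_lit 76) (nat_lit 163995511348) (nat_lit 7) (nat_lit 5) (nat_lit 9) (nat_lit 5) (nat_lit 8) (nat_lit 4) (nat_lit 408) (nat_lit 309) (nat_lit 183)) (XT.nd (nat_lit 78) (nat_lit 0) (nat_lit 0) (XT.lf (nat_lit 0) (nat_lit 5568554017) (nat_lit 76) (nat_lit 12465319529) (nat_lit 152) (nat_lit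 184112135275) (nat_lit 6) (nat_lit 5) (nat_lit 7) (nat_lit 5) (nat_lit 8) (nat_lit 4) (nat_lit 409) (nat_lit 309) (nat_lit 182)) (XT.lf (nat_lit 0) (nat_lit 35481577788) (nat_lit 152) (nat_lit 170294738341) (nat_lit 0) (nat_lit 5573064806) (nat_lit 6) (nat_lit 5) (nat_lit 8) (nat_lit 4) (nat_lit 6) (nat_lit 4) (nat_lit 410) (nat_lit 309) (nat_lit 181))))) (XT.nd (nat_lit 234) (nat_lit 76) (nat_lit 0) (XT.nd (nat_lit 78) (nat_lit 0) (nat_lit 0) (XT.lf (nat_lit 0) (nat_lit 54002574731) (nat_lit 152) (nat_lit 142909008268) (nat_lit 0) (nat_lit 24091293605) (nat_lit 6) (nat_lit 5) (nat_lit 8) (nat_lit 4) (nat_lit 6) (nat_lit 4) (nat_lit 411) (nat_lit 309) (nat_lit 180)) (XT.nd (nat_lit 78) (nat_lit 0) (nat_lit 0) (XT.lf (nat_lit 0) (nat_lit 73446343413) (nat_lit 152) (nat_lit 114160441893) (nat_lit 0) (nat_lit 43532425961) (nat_lit 6) (nat_lit 5) (nat_lit 8) (nat_lit 4) (nat_lit 6) (nat_lit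 4) (nat_lit 412) (nat_lit 309) (nat_lit 179)) (XT.lf (nat_lit 0) (nat_lit 93859178524) (nat_lit 152) (nat_lit 83980590251) (nat_lit 0) (nat_lit 63942750284) (nat_lit 6) (nat_lit 5) (nat_lit 8) (nat_lit 4) (nat_lit 6) (nat_lit 4) (nat_lit 413) (nat_lit 309) (nat_lit 178)))) (XT.nd (nat_lit 78) (nat_lit 76) (nat_lit 0) (XT.lf (nat_lit 0) (nat_lit 115289682050) (nat_lit 152) (nat_lit 52297596550) (nat_lit 0) (nat_lit 85370862584) (nat_lit 6) (nat_lit 5) (nat_lit 8) (nat_lit 4) (nat_lit 6) (nat_lit 4) (nat_lit 414) (nat_lit 309) (nat_lit 177)) (XT.nd (nat_lit 78) (nat_lit 76) (nat_lit 0) (XT.lf (nat_lit 0) (nat_lit 137788879001) (nat_lit 152) (nat_lit 19036025092) (nat_lit 0) (nat_lit 107867782177) (nat_lit 6) (nat_lit 5) (nat_lit 8) (nat_lit 4) (nat_lit 6) (nat_lit 4) (nat_lit 415) (nat_lit 309) (nat_lit 176)) (XT.lf (nat_lit 0) (nat_lit 16408492576) (nat_lit 76) (nat_lit 145258028870) (nat_lit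 76) (nat_lit 115334763133) (nat_lit 5) (nat_lit 4) (nat_lit 6) (nat_lit 5) (nat_lit 6) (nat_lit 4) (nat_lit 416) (nat_lit 309) (nat_lit 175)))))) (XT.nd (nat_lit 468) (nat_lit 152) (nat_lit 0) (XT.nd (nat_lit 234) (nat_lit 0) (nat_lit 0) (XT.nd (nat_lit 78) (nat_lit 0) (nat_lit 0) (XT.lf (nat_lit 0) (nat_lit 54280902927) (nat_lit 76) (nat_lit 132776877385) (nat_lit 76) (nat_lit 102851546018) (nat_lit 5) (nat_lit 4) (nat_lit 6) (nat_lit 5) (nat_lit 6) (nat_lit 4) (nat_lit 417) (nat_lit 309) (nat_lit 174)) (XT.nd (nat_lit 78) (nat_lit 0) (nat_lit 0) (XT.lf (nat_lit 0) (nat_lit 94041961408) (nat_lit 76) (nat_lit 119674116908) (nat_lit 76) (nat_lit 89746818273) (nat_lit 5) (nat_lit 4) (nat_lit 6) (nat_lit 5) (nat_lit 6) (nat_lit 4) (nat_lit 418) (nat_lit 309) (nat_lit 173)) (XT.lf (nat_lit 0) (nat_lit 135786337205) (nat_lit 76) (nat_lit 105918550390) (nat_lit 76) (nat_lit 75989378166) (nat_lit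 5) (nat_lit 4) (nat_lit 6) (nat_lit 5) (nat_lit 6) (nat_lit 4) (nat_lit 419) (nat_lit 309) (nat_lit 172)))) (XT.nd (nat_lit 78) (nat_lit 0) (nat_lit 0) (XT.lf (nat_lit 0) (nat_lit 179613421689) (nat_lit 76) (nat_lit 91477426480) (nat_lit 76) (nat_lit 61546469887) (nat_lit 5) (nat_lit 4) (nat_lit 6) (nat_lit 5) (nat_lit 6) (nat_lit 4) (nat_lit 420) (nat_lit 309) (nat_lit 171)) (XT.nd (nat_lit 78) (nat_lit 0) (nat_lit 0) (XT.lf (nat_lit 0) (nat_lit 225627565062) (nat_lit 76) (nat_lit 76316361553) (nat_lit 76) (nat_lit 46383705559) (nat_lit 5) (nat_lit 4) (nat_lit 6) (nat_lit 5) (nat_lit 6) (nat_lit 4) (nat_lit 421) (nat_lit 309) (nat_lit 170)) (XT.lf (nat_lit 0) (nat_lit 273938324807) (nat_lit 76) (nat_lit 60399257832) (nat_lit 76) (nat_lit 30464983363) (nat_lit 5) (nat_lit 4) (nat_lit 6) (nat_lit 5) (nat_lit 6) (nat_lit 4) (nat_lit 422) (nat_lit 309) (nat_lit 169))))) (XT.nd (nat_lit 234)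 (nat_lit 0) (nat_lit 0) (XT.nd (nat_lit 78) (nat_lit 152) (nat_lit 0) (XT.lf (nat_lit 0) (nat_lit 324660726544) (nat_lit 76) (nat_lit 43688217454) (nat_lit 76) (nat_lit 13752401579) (nat_lit 5) (nat_lit 4) (nat_lit 6) (nat_lit 5) (nat_lit 6) (nat_lit 4) (nat_lit 423) (nat_lit 309) (nat_lit 168)) (XT.nd (nat_lit 78) (nat_lit 76) (nat_lit 0) (XT.lf (nat_lit 0) (nat_lit 3672405348) (nat_lit 152) (nat_lit 22408852916) (nat_lit 76) (nat_lit 374180938584) (nat_lit 4) (nat_lit 5) (nat_lit 6) (nat_lit 5) (nat_lit 5) (nat_lit 4) (nat_lit 424) (nat_lit 309) (nat_lit 167)) (XT.lf (nat_lit 0) (nat_lit 14613170806) (nat_lit 76) (nat_lit 7119440308) (nat_lit 152) (nat_lit 397575890795) (nat_lit 3) (nat_lit 5) (nat_lit 4) (nat_lit 5) (nat_lit 5) (nat_lit 4) (nat_lit 425) (nat_lit 309) (nat_lit 166)))) (XT.nd (nat_lit 156) (nat_lit 0) (nat_lit 0) (XT.nd (nat_lit 78) (nat_lit 0) (nat_lit 0) (XT.lf (nat_lit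 0) (nat_lit 41279429572) (nat_lit 152) (nat_lit 385233381684) (nat_lit 0) (nat_lit 12765130996) (nat_lit 3) (nat_lit 5) (nat_lit 5) (nat_lit 4) (nat_lit 3) (nat_lit 4) (nat_lit 426) (nat_lit 309) (nat_lit 165)) (XT.lf (nat_lit 0) (nat_lit 61918568882) (nat_lit 152) (nat_lit 364918474299) (nat_lit 0) (nat_lit 33403062574) (nat_lit 3) (nat_lit 5) (nat_lit 5) (nat_lit 4) (nat_lit 3) (nat_lit 4) (nat_lit 427) (nat_lit 309) (nat_lit 164))) (XT.nd (nat_lit 78) (nat_lit 0) (nat_lit 0) (XT.lf (nat_lit 0) (nat_lit 83588015438) (nat_lit 152) (nat_lit 343591085706) (nat_lit 0) (nat_lit 55071358910) (nat_lit 3) (nat_lit 5) (nat_lit 5) (nat_lit 4) (nat_lit 3) (nat_lit 4) (nat_lit 428) (nat_lit 309) (nat_lit 163)) (XT.lf (nat_lit 0) (nat_lit 106339363161) (nat_lit 152) (nat_lit 321200436408) (nat_lit 0) (nat_lit 77821611185) (nat_lit 3) (nat_lit 5) (nat_lit 5) (nat_lit 4) (nat_lit 3) (nat_lit 4) (nat_lit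 429) (nat_lit 309) (nat_lit 162))))))) (XT.nd (nat_lit 37830) (nat_lit 0) (nat_lit 7068) (XT.nd (nat_lit 468) (nat_lit 0) (nat_lit 0) (XT.nd (nat_lit 234) (nat_lit 0) (nat_lit 0) (XT.nd (nat_lit 78) (nat_lit 0) (nat_lit 0) (XT.lf (nat_lit 0) (nat_lit 130226781926) (nat_lit 152) (nat_lit 297693215335) (nat_lit 0) (nat_lit 101707986666) (nat_lit 3) (nat_lit 5) (nat_lit 5) (nat_lit 4) (nat_lit 3) (nat_lit 4) (nat_lit 430) (nat_lit 309) (nat_lit 161)) (XT.nd (nat_lit 78) (nat_lit 0) (nat_lit 0) (XT.lf (nat_lit 0) (nat_lit 155307146540) (nat_lit 152) (nat_lit 273013452914) (nat_lit 0) (nat_lit 126787357676) (nat_lit 3) (nat_lit 5) (nat_lit 5) (nat_lit 4) (nat_lit 3) (nat_lit 4) (nat_lit 431) (nat_lit 309) (nat_lit 160)) (XT.lf (nat_lit 0) (nat_lit 181640172157) (nat_lit 152) (nat_lit 247102387805) (nat_lit 0) (nat_lit 153119437003) (nat_lit 3) (nat_lit 5) (nat_lit 5) (nat_lit 4) (nat_lit 3)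 (nat_lit 4) (nat_lit 432) (nat_lit 309) (nat_lit 159)))) (XT.nd (nat_lit 78) (nat_lit 0) (nat_lit 0) (XT.lf (nat_lit 0) (nat_lit 209288556456) (nat_lit 152) (nat_lit 219898326996) (nat_lit 0) (nat_lit 180766920075) (nat_lit 3) (nat_lit 5) (nat_lit 5) (nat_lit 4) (nat_lit 3) (nat_lit 4) (nat_lit 433) (nat_lit 309) (nat_lit 158)) (XT.nd (nat_lit 78) (nat_lit 0) (nat_lit 0) (XT.lf (nat_lit 0) (nat_lit 238318128924) (nat_lit 152) (nat_lit 191336498913) (nat_lit 0) (nat_lit 209795634231) (nat_lit 3) (nat_lit 5) (nat_lit 5) (nat_lit 4) (nat_lit 3) (nat_lit 4) (nat_lit 434) (nat_lit 309) (nat_lit 157)) (XT.lf (nat_lit 0) (nat_lit 268798007591) (nat_lit 152) (nat_lit 161348899205) (nat_lit 0) (nat_lit 240274695457) (nat_lit 3) (nat_lit 5) (nat_lit 5) (nat_lit 4) (nat_lit 3) (nat_lit 4) (nat_lit 435) (nat_lit 309) (nat_lit 156))))) (XT.nd (nat_lit 37128) (nat_lit 0) (nat_lit 10032) (XT.nd (nat_lit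 78) (nat_lit 0) (nat_lit 0) (XT.lf (nat_lit 0) (nat_lit 300800763597) (nat_lit 152) (nat_lit 129864128824) (nat_lit 0) (nat_lit 272276672948) (nat_lit 3) (nat_lit 5) (nat_lit 5) (nat_lit 4) (nat_lit 3) (nat_lit 4) (nat_lit 436) (nat_lit 309) (nat_lit 155)) (XT.nd (nat_lit 36972) (nat_lit 0) (nat_lit 10032) (XT.lf (nat_lit 0) (nat_lit 334402593979) (nat_lit 152) (nat_lit 96807224031) (nat_lit 0) (nat_lit 305877761887) (nat_lit 3) (nat_lit 5) (nat_lit 5) (nat_lit 4) (nat_lit 3) (nat_lit 4) (nat_lit 437) (nat_lit 309) (nat_lit 154)) (XT.lf (nat_lit 0) (nat_lit 791781889) (nat_lit 0) (nat_lit 791781889) (nat_lit 532) (nat_lit 2219573446) (nat_lit 135) (nat_lit 5) (nat_lit 135) (nat_lit 3) (nat_lit 142) (nat_lit 3) (nat_lit 310) (nat_lit 310) (nat_lit 280)))) (XT.nd (nat_lit 78) (nat_lit 0) (nat_lit 0) (XT.lf (nat_lit 0) (nat_lit 4606508800) (nat_lit 532) (nat_lit 2359084673) (nat_lit 608) (nat_lit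 761380341) (nat_lit 135) (nat_lit 5) (nat_lit 142) (nat_lit 3) (nat_lit 143) (nat_lit 5) (nat_lit 311) (nat_lit 310) (nat_lit 279)) (XT.nd (nat_lit 78) (nat_lit 0) (nat_lit 0) (XT.lf (nat_lit 76) (nat_lit 1460278233) (nat_lit 0) (nat_lit 4620729644) (nat_lit 608) (nat_lit 1774635477) (nat_lit 136) (nat_lit 5) (nat_lit 135) (nat_lit 5) (nat_lit 143) (nat_lit 5) (nat_lit 312) (nat_lit 310) (nat_lit 278)) (XT.lf (nat_lit 76) (nat_lit 5505066802) (nat_lit 0) (nat_lit 2081842961) (nat_lit 608) (nat_lit 406040950) (nat_lit 136) (nat_lit 5) (nat_lit 135) (nat_lit 5) (nat_lit 143) (nat_lit 5) (nat_lit 313) (nat_lit 310) (nat_lit 277)))))) (XT.nd (nat_lit 468) (nat_lit 2432) (nat_lit 0) (XT.nd (nat_lit 234) (nat_lit 0) (nat_lit 76) (XT.nd (nat_lit 78) (nat_lit 0) (nat_lit 0) (XT.lf (nat_lit 0) (nat_lit 953567142) (nat_lit 608) (nat_lit 6547166782) (nat_lit 684) (nat_lit 637885637) (nat_lit 128)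 (nat_lit 5) (nat_lit 136) (nat_lit 5) (nat_lit 137) (nat_lit 5) (nat_lit 314) (nat_lit 310) (nat_lit 276)) (XT.nd (nat_lit 78) (nat_lit 0) (nat_lit 0) (XT.lf (nat_lit 0) (nat_lit 2368261961) (nat_lit 608) (nat_lit 2421309992) (nat_lit 684) (nat_lit 3501705699) (nat_lit 128) (nat_lit 5) (nat_lit 136) (nat_lit 5) (nat_lit 137) (nat_lit 5) (nat_lit 315) (nat_lit 310) (nat_lit 275)) (XT.lf (nat_lit 76) (nat_lit 1923352115) (nat_lit 0) (nat_lit 1887796091) (nat_lit 684) (nat_lit 4642620203) (nat_lit 129) (nat_lit 5) (nat_lit 128) (nat_lit 5) (nat_lit 137) (nat_lit 5) (nat_lit 316) (nat_lit 310) (nat_lit 274)))) (XT.nd (nat_lit 78) (nat_lit 0) (nat_lit 0) (XT.lf (nat_lit 0) (nat_lit 5316420997) (nat_lit 608) (nat_lit 2123948000) (nat_lit 684) (nat_lit 1184571730) (nat_lit 129) (nat_lit 5) (nat_lit 137) (nat_lit 5) (nat_lit 138) (nat_lit 5) (nat_lit 317) (nat_lit 310) (nat_lit 273)) (XT.nd (nat_lit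 78) (nat_lit 0) (nat_lit 0) (XT.lf (nat_lit 76) (nat_lit 2502313702) (nat_lit 0) (nat_lit 4398438033) (nat_lit 684) (nat_lit 1903796053) (nat_lit 130) (nat_lit 5) (nat_lit 129) (nat_lit 5) (nat_lit 138) (nat_lit 5) (nat_lit 318) (nat_lit 310) (nat_lit 272)) (XT.lf (nat_lit 76) (nat_lit 7384756138) (nat_lit 0) (nat_lit 1151682044) (nat_lit 684) (nat_lit 458152770) (nat_lit 130) (nat_lit 5) (nat_lit 129) (nat_lit 5) (nat_lit 138) (nat_lit 5) (nat_lit 319) (nat_lit 310) (nat_lit 271))))) (XT.nd (nat_lit 234) (nat_lit 1216) (nat_lit 0) (XT.nd (nat_lit 78) (nat_lit 684) (nat_lit 0) (XT.lf (nat_lit 0) (nat_lit 1053040812) (nat_lit 684) (nat_lit 5870898934) (nat_lit 76) (nat_lit 2268066731) (nat_lit 121) (nat_lit 5) (nat_lit 130) (nat_lit 5) (nat_lit 122) (nat_lit 5) (nat_lit 320) (nat_lit 310) (nat_lit 270)) (XT.nd (nat_lit 78) (nat_lit 684) (nat_lit 0) (XT.lf (nat_lit 0) (nat_lit 2611523522)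 (nat_lit 684) (nat_lit 921362041) (nat_lit 76) (nat_lit 5866729531) (nat_lit 121) (nat_lit 5) (nat_lit 130) (nat_lit 5) (nat_lit 122) (nat_lit 5) (nat_lit 321) (nat_lit 310) (nat_lit 269)) (XT.lf (nat_lit 0) (nat_lit 4261150632) (nat_lit 760) (nat_lit 5251987240) (nat_lit 76) (nat_lit 103856846) (nat_lit 112) (nat_lit 5) (nat_lit 122) (nat_lit 5) (nat_lit 113) (nat_lit 5) (nat_lit 322) (nat_lit 310) (nat_lit 268)))) (XT.nd (nat_lit 156) (nat_lit 456) (nat_lit 0) (XT.nd (nat_lit 78) (nat_lit 760) (nat_lit 0) (XT.lf (nat_lit 0) (nat_lit 6012458390) (nat_lit 760) (nat_lit 5706220) (nat_lit 76) (nat_lit 3826167881) (nat_lit 112) (nat_lit 5) (nat_lit 122) (nat_lit 5) (nat_lit 113) (nat_lit 5) (nat_lit 323) (nat_lit 310) (nat_lit 267)) (XT.lf (nat_lit 0) (nat_lit 5634903612) (nat_lit 760) (nat_lit 2252427063) (nat_lit 836) (nat_lit 2193953316) (nat_lit 102) (nat_lit 5) (nat_lit 112) (nat_lit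 5) (nat_lit 113) (nat_lit 5) (nat_lit 324) (nat_lit 310) (nat_lit 266))) (XT.nd (nat_lit 78) (nat_lit 76) (nat_lit 0) (XT.lf (nat_lit 0) (nat_lit 1188994291) (nat_lit 380) (nat_lit 8661977807) (nat_lit 456) (nat_lit 479404257) (nat_lit 97) (nat_lit 5) (nat_lit 102) (nat_lit 5) (nat_lit 103) (nat_lit 5) (nat_lit 325) (nat_lit 310) (nat_lit 265)) (XT.lf (nat_lit 0) (nat_lit 1342636887) (nat_lit 456) (nat_lit 3437456257) (nat_lit 76) (nat_lit 5807637449) (nat_lit 96) (nat_lit 5) (nat_lit 102) (nat_lit 5) (nat_lit 97) (nat_lit 5) (nat_lit 326) (nat_lit 310) (nat_lit 264))))))))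
noncomputable def xc128 : XT := (XT.nd (nat_lit 1872) (nat_lit 1900) (nat_lit 0) (XT.nd (nat_lit 936) (nat_lit 1520) (nat_lit 0) (XT.nd (nat_lit 468) (nat_lit 836) (nat_lit 0) (XT.nd (nat_lit 234) (nat_lit 684) (nat_lit 0) (XT.nd (nat_lit 78) (nat_lit 380) (nat_lit 0) (XT.lf (nat_lit 0) (nat_lit 2577717450) (nat_lit 304) (nat_lit 655129957) (nat_lit 380) (nat_lit 7625091756) (nat_lit 92) (nat_lit 5) (nat_lit 96) (nat_lit 5) (nat_lit 97) (nat_lit 5) (nat_lit 327) (nat_lit 310) (nat_lit 263)) (XT.nd (nat_lit 78) (nat_lit 380) (nat_lit 0) (XT.lf (nat_lit 0) (nat_lit 5288524707) (nat_lit 380) (nat_lit 2234194091) (nat_lit 76) (nat_lit 3615428216) (nat_lit 92) (nat_lit 5) (nat_lit 97) (nat_lit 5) (nat_lit 93) (nat_lit 5) (nat_lit 328) (nat_lit 310) (nat_lit 262)) (XT.lf (nat_lit 0) (nat_lit 4189790773) (nat_lit 380) (nat_lit 3289914062) (nat_lit 456) (nat_lit 3951059393) (nat_lit 87) (nat_lit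 5) (nat_lit 92) (nat_lit 5) (nat_lit 93) (nat_lit 5) (nat_lit 329) (nat_lit 310) (nat_lit 261)))) (XT.nd (nat_lit 78) (nat_lit 684) (nat_lit 0) (XT.lf (nat_lit 0) (nat_lit 9794751711) (nat_lit 456) (nat_lit 791222249) (nat_lit 76) (nat_lit 1151356211) (nat_lit 87) (nat_lit 5) (nat_lit 93) (nat_lit 5) (nat_lit 88) (nat_lit 5) (nat_lit 330) (nat_lit 310) (nat_lit 260)) (XT.nd (nat_lit 78) (nat_lit 304) (nat_lit 0) (XT.lf (nat_lit 0) (nat_lit 271364566) (nat_lit 380) (nat_lit 5983349537) (nat_lit 76) (nat_lit 5798892552) (nat_lit 82) (nat_lit 5) (nat_lit 87) (nat_lit 5) (nat_lit 83) (nat_lit 5) (nat_lit 331) (nat_lit 310) (nat_lit 259)) (XT.lf (nat_lit 0) (nat_lit 865643047) (nat_lit 304) (nat_lit 1652573851) (nat_lit 380) (nat_lit 9866541740) (nat_lit 78) (nat_lit 5) (nat_lit 82) (nat_lit 5) (nat_lit 83) (nat_lit 5) (nat_lit 332) (nat_lit 310) (nat_lit 258))))) (XT.nd (nat_lit 234) (nat_lit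 608) (nat_lit 0) (XT.nd (nat_lit 78) (nat_lit 228) (nat_lit 0) (XT.lf (nat_lit 0) (nat_lit 4991445235) (nat_lit 380) (nat_lit 4562207485) (nat_lit 76) (nat_lit 3173141191) (nat_lit 78) (nat_lit 5) (nat_lit 83) (nat_lit 5) (nat_lit 79) (nat_lit 5) (nat_lit 333) (nat_lit 310) (nat_lit 257)) (XT.nd (nat_lit 78) (nat_lit 0) (nat_lit 0) (XT.lf (nat_lit 0) (nat_lit 2757704435) (nat_lit 228) (nat_lit 4864013317) (nat_lit 304) (nat_lit 5462570113) (nat_lit 75) (nat_lit 5) (nat_lit 78) (nat_lit 5) (nat_lit 79) (nat_lit 5) (nat_lit 334) (nat_lit 310) (nat_lit 256)) (XT.lf (nat_lit 0) (nat_lit 10427102773) (nat_lit 304) (nat_lit 2902930451) (nat_lit 76) (nat_lit 127468164) (nat_lit 75) (nat_lit 5) (nat_lit 79) (nat_lit 5) (nat_lit 76) (nat_lit 5) (nat_lit 335) (nat_lit 310) (nat_lit 255)))) (XT.nd (nat_lit 78) (nat_lit 304) (nat_lit 0) (XT.lf (nat_lit 0) (nat_lit 4925102706) (nat_lit 304) (nat_lit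 8570125605) (nat_lit 380) (nat_lit 348047348) (nat_lit 71) (nat_lit 5) (nat_lit 75) (nat_lit 5) (nat_lit 76) (nat_lit 5) (nat_lit 336) (nat_lit 310) (nat_lit 254)) (XT.nd (nat_lit 78) (nat_lit 228) (nat_lit 0) (XT.lf (nat_lit 0) (nat_lit 2405597458) (nat_lit 380) (nat_lit 1085020980) (nat_lit 76) (nat_lit 10755005649) (nat_lit 70) (nat_lit 5) (nat_lit 75) (nat_lit 5) (nat_lit 71) (nat_lit 5) (nat_lit 337) (nat_lit 310) (nat_lit 253)) (XT.lf (nat_lit 0) (nat_lit 5397994315) (nat_lit 304) (nat_lit 7368708360) (nat_lit 76) (nat_lit 1895484068) (nat_lit 67) (nat_lit 5) (nat_lit 71) (nat_lit 5) (nat_lit 68) (nat_lit 5) (nat_lit 338) (nat_lit 310) (nat_lit 252)))))) (XT.nd (nat_lit 468) (nat_lit 760) (nat_lit 0) (XT.nd (nat_lit 234) (nat_lit 304) (nat_lit 0) (XT.nd (nat_lit 78) (nat_lit 228) (nat_lit 0) (XT.lf (nat_lit 0) (nat_lit 959407630) (nat_lit 228) (nat_lit 7640004647) (nat_lit 304) (nat_lit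 6497214635) (nat_lit 64) (nat_lit 5) (nat_lit 67) (nat_lit 5) (nat_lit 68) (nat_lit 5) (nat_lit 339) (nat_lit 310) (nat_lit 251)) (XT.nd (nat_lit 78) (nat_lit 228) (nat_lit 0) (XT.lf (nat_lit 0) (nat_lit 9916770641) (nat_lit 228) (nat_lit 2138273354) (nat_lit 304) (nat_lit 3493056470) (nat_lit 64) (nat_lit 5) (nat_lit 67) (nat_lit 5) (nat_lit 68) (nat_lit 5) (nat_lit 340) (nat_lit 310) (nat_lit 250)) (XT.lf (nat_lit 0) (nat_lit 3306649043) (nat_lit 228) (nat_lit 12455868523) (nat_lit 304) (nat_lit 255694752) (nat_lit 61) (nat_lit 5) (nat_lit 64) (nat_lit 5) (nat_lit 65) (nat_lit 5) (nat_lit 341) (nat_lit 310) (nat_lit 249)))) (XT.nd (nat_lit 78) (nat_lit 228) (nat_lit 0) (XT.lf (nat_lit 0) (nat_lit 3145799562) (nat_lit 304) (nat_lit 3748251815) (nat_lit 76) (nat_lit 9610196551) (nat_lit 60) (nat_lit 5) (nat_lit 64) (nat_lit 5) (nat_lit 61) (nat_lit 5) (nat_lit 342) (nat_lit 310) (nat_lit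 248)) (XT.nd (nat_lit 78) (nat_lit 0) (nat_lit 0) (XT.lf (nat_lit 0) (nat_lit 5804304698) (nat_lit 228) (nat_lit 967369361) (nat_lit 304) (nat_lit 10239571984) (nat_lit 57) (nat_lit 5) (nat_lit 60) (nat_lit 5) (nat_lit 61) (nat_lit 5) (nat_lit 343) (nat_lit 310) (nat_lit 247)) (XT.lf (nat_lit 0) (nat_lit 10698191522) (nat_lit 304) (nat_lit 1699911331) (nat_lit 76) (nat_lit 5139538256) (nat_lit 57) (nat_lit 5) (nat_lit 61) (nat_lit 5) (nat_lit 58) (nat_lit 5) (nat_lit 344) (nat_lit 310) (nat_lit 246))))) (XT.nd (nat_lit 234) (nat_lit 304) (nat_lit 0) (XT.nd (nat_lit 78) (nat_lit 304) (nat_lit 0) (XT.lf (nat_lit 0) (nat_lit 8499589653) (nat_lit 152) (nat_lit 6444077349) (nat_lit 228) (nat_lit 3140571140) (nat_lit 55) (nat_lit 5) (nat_lit 57) (nat_lit 5) (nat_lit 58) (nat_lit 5) (nat_lit 345) (nat_lit 310) (nat_lit 245)) (XT.nd (nat_lit 78) (nat_lit 0) (nat_lit 0) (XT.lf (nat_lit 0) (nat_lit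 578501735) (nat_lit 228) (nat_lit 153532109) (nat_lit 304) (nat_lit 17924934938) (nat_lit 51) (nat_lit 5) (nat_lit 54) (nat_lit 5) (nat_lit 55) (nat_lit 5) (nat_lit 346) (nat_lit 310) (nat_lit 244)) (XT.lf (nat_lit 0) (nat_lit 4933121570) (nat_lit 304) (nat_lit 7862241865) (nat_lit 76) (nat_lit 6448390403) (nat_lit 51) (nat_lit 5) (nat_lit 55) (nat_lit 5) (nat_lit 52) (nat_lit 5) (nat_lit 347) (nat_lit 310) (nat_lit 243)))) (XT.nd (nat_lit 78) (nat_lit 152) (nat_lit 0) (XT.lf (nat_lit 0) (nat_lit 2917841694) (nat_lit 152) (nat_lit 6450387922) (nat_lit 228) (nat_lit 10490461604) (nat_lit 49) (nat_lit 5) (nat_lit 51) (nat_lit 5) (nat_lit 52) (nat_lit 5) (nat_lit 348) (nat_lit 310) (nat_lit 242)) (XT.nd (nat_lit 78) (nat_lit 152) (nat_lit 0) (XT.lf (nat_lit 0) (nat_lit 14139980821) (nat_lit 228) (nat_lit 6031508714) (nat_lit 76) (nat_lit 327152375) (nat_lit 49) (nat_lit 5) (nat_lit 52) (nat_lit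 5) (nat_lit 50) (nat_lit 5) (nat_lit 349) (nat_lit 310) (nat_lit 241)) (XT.lf (nat_lit 0) (nat_lit 5455804076) (nat_lit 152) (nat_lit 13862817799) (nat_lit 228) (nat_lit 1843563457) (nat_lit 47) (nat_lit 5) (nat_lit 49) (nat_lit 5) (nat_lit 50) (nat_lit 5) (nat_lit 350) (nat_lit 310) (nat_lit 240))))))) (XT.nd (nat_lit 936) (nat_lit 836) (nat_lit 0) (XT.nd (nat_lit 468) (nat_lit 456) (nat_lit 0) (XT.nd (nat_lit 234) (nat_lit 380) (nat_lit 0) (XT.nd (nat_lit 78) (nat_lit 152) (nat_lit 0) (XT.lf (nat_lit 0) (nat_lit 2885903292) (nat_lit 228) (nat_lit 4210361733) (nat_lit 76) (nat_lit 14756321233) (nat_lit 46) (nat_lit 5) (nat_lit 49) (nat_lit 5) (nat_lit 47) (nat_lit 5) (nat_lit 351) (nat_lit 310) (nat_lit 239)) (XT.nd (nat_lit 78) (nat_lit 0) (nat_lit 0) (XT.lf (nat_lit 0) (nat_lit 7896697316) (nat_lit 228) (nat_lit 14520078685) (nat_lit 76) (nat_lit 153888530) (nat_lit 44) (nat_lit 5) (nat_lit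 47) (nat_lit 5) (nat_lit 45) (nat_lit 5) (nat_lit 352) (nat_lit 310) (nat_lit 238)) (XT.lf (nat_lit 0) (nat_lit 13325708378) (nat_lit 228) (nat_lit 2402909781) (nat_lit 76) (nat_lit 7587653176) (nat_lit 44) (nat_lit 5) (nat_lit 47) (nat_lit 5) (nat_lit 45) (nat_lit 5) (nat_lit 353) (nat_lit 310) (nat_lit 237)))) (XT.nd (nat_lit 78) (nat_lit 228) (nat_lit 0) (XT.lf (nat_lit 0) (nat_lit 10626830896) (nat_lit 152) (nat_lit 8545131503) (nat_lit 228) (nat_lit 4919914541) (nat_lit 42) (nat_lit 5) (nat_lit 44) (nat_lit 5) (nat_lit 45) (nat_lit 5) (nat_lit 354) (nat_lit 310) (nat_lit 236)) (XT.nd (nat_lit 78) (nat_lit 152) (nat_lit 0) (XT.lf (nat_lit 0) (nat_lit 412681545) (nat_lit 228) (nat_lit 553266330) (nat_lit 76) (nat_lit 23938938974) (nat_lit 41) (nat_lit 5) (nat_lit 44) (nat_lit 5) (nat_lit 42) (nat_lit 5) (nat_lit 355) (nat_lit 310) (nat_lit 235)) (XT.lf (nat_lit 0) (nat_lit 6149136346)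 (nat_lit 228) (nat_lit 12541020239) (nat_lit 76) (nat_lit 7049236418) (nat_lit 39) (nat_lit 5) (nat_lit 42) (nat_lit 5) (nat_lit 40) (nat_lit 5) (nat_lit 356) (nat_lit 310) (nat_lit 234))))) (XT.nd (nat_lit 234) (nat_lit 228) (nat_lit 0) (XT.nd (nat_lit 78) (nat_lit 76) (nat_lit 0) (XT.lf (nat_lit 0) (nat_lit 1026338454) (nat_lit 152) (nat_lit 11168620515) (nat_lit 228) (nat_lit 14419544889) (nat_lit 37) (nat_lit 5) (nat_lit 39) (nat_lit 5) (nat_lit 40) (nat_lit 5) (nat_lit 357) (nat_lit 310) (nat_lit 233)) (XT.nd (nat_lit 78) (nat_lit 76) (nat_lit 0) (XT.lf (nat_lit 0) (nat_lit 15675811855) (nat_lit 152) (nat_lit 3061214424) (nat_lit 228) (nat_lit 8786652627) (nat_lit 37) (nat_lit 5) (nat_lit 39) (nat_lit 5) (nat_lit 40) (nat_lit 5) (nat_lit 358) (nat_lit 310) (nat_lit 232)) (XT.lf (nat_lit 0) (nat_lit 2544957169) (nat_lit 76) (nat_lit 23168334524) (nat_lit 152) (nat_lit 2759672306) (nat_lit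 36) (nat_lit 5) (nat_lit 37) (nat_lit 5) (nat_lit 38) (nat_lit 4) (nat_lit 359) (nat_lit 310) (nat_lit 231)))) (XT.nd (nat_lit 78) (nat_lit 152) (nat_lit 0) (XT.lf (nat_lit 0) (nat_lit 3690888245) (nat_lit 152) (nat_lit 11531038950) (nat_lit 76) (nat_lit 14233183259) (nat_lit 35) (nat_lit 5) (nat_lit 37) (nat_lit 5) (nat_lit 36) (nat_lit 5) (nat_lit 360) (nat_lit 310) (nat_lit 230)) (XT.nd (nat_lit 78) (nat_lit 0) (nat_lit 0) (XT.lf (nat_lit 0) (nat_lit 3627179725) (nat_lit 152) (nat_lit 6783853967) (nat_lit 228) (nat_lit 20071083721) (nat_lit 33) (nat_lit 5) (nat_lit 35) (nat_lit 5) (nat_lit 36) (nat_lit 5) (nat_lit 361) (nat_lit 310) (nat_lit 229)) (XT.lf (nat_lit 0) (nat_lit 17681409148) (nat_lit 228) (nat_lit 11672293497) (nat_lit 76) (nat_lit 2196065899) (nat_lit 33) (nat_lit 5) (nat_lit 36) (nat_lit 5) (nat_lit 34) (nat_lit 4) (nat_lit 362) (nat_lit 310) (nat_lit 228)))))) (XT.nd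 (nat_lit 468) (nat_lit 456) (nat_lit 0) (XT.nd (nat_lit 234) (nat_lit 76) (nat_lit 0) (XT.nd (nat_lit 78) (nat_lit 228) (nat_lit 0) (XT.lf (nat_lit 0) (nat_lit 4266632536) (nat_lit 76) (nat_lit 21210613309) (nat_lit 152) (nat_lit 7185463987) (nat_lit 32) (nat_lit 5) (nat_lit 33) (nat_lit 5) (nat_lit 34) (nat_lit 4) (nat_lit 363) (nat_lit 310) (nat_lit 227)) (XT.nd (nat_lit 78) (nat_lit 152) (nat_lit 0) (XT.lf (nat_lit 0) (nat_lit 22064712) (nat_lit 152) (nat_lit 12442555904) (nat_lit 76) (nat_lit 21357558436) (nat_lit 31) (nat_lit 5) (nat_lit 33) (nat_lit 5) (nat_lit 32) (nat_lit 5) (nat_lit 364) (nat_lit 310) (nat_lit 226)) (XT.lf (nat_lit 0) (nat_lit 4301600342) (nat_lit 152) (nat_lit 3098985479) (nat_lit 228) (nat_lit 27630545533) (nat_lit 29) (nat_lit 5) (nat_lit 31) (nat_lit 5) (nat_lit 32) (nat_lit 5) (nat_lit 365) (nat_lit 310) (nat_lit 225)))) (XT.nd (nat_lit 78) (nat_lit 76) (nat_lit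 0) (XT.lf (nat_lit 0) (nat_lit 15452414615) (nat_lit 228) (nat_lit 14110708352) (nat_lit 76) (nat_lit 6722193110) (nat_lit 29) (nat_lit 5) (nat_lit 32) (nat_lit 5) (nat_lit 30) (nat_lit 4) (nat_lit 366) (nat_lit 310) (nat_lit 224)) (XT.nd (nat_lit 78) (nat_lit 0) (nat_lit 0) (XT.lf (nat_lit 0) (nat_lit 3370363786) (nat_lit 76) (nat_lit 20625661908) (nat_lit 152) (nat_lit 13601728502) (nat_lit 28) (nat_lit 5) (nat_lit 29) (nat_lit 5) (nat_lit 30) (nat_lit 4) (nat_lit 367) (nat_lit 310) (nat_lit 223)) (XT.lf (nat_lit 0) (nat_lit 22190035663) (nat_lit 76) (nat_lit 11001802363) (nat_lit 152) (nat_lit 5772728683) (nat_lit 28) (nat_lit 5) (nat_lit 29) (nat_lit 5) (nat_lit 30) (nat_lit 4) (nat_lit 368) (nat_lit 310) (nat_lit 222))))) (XT.nd (nat_lit 234) (nat_lit 228) (nat_lit 0) (XT.nd (nat_lit 78) (nat_lit 0) (nat_lit 0) (XT.lf (nat_lit 0) (nat_lit 1537372335) (nat_lit 152) (nat_lit 842501412)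 (nat_lit 228) (nat_lit 38017413760) (nat_lit 25) (nat_lit 5) (nat_lit 27) (nat_lit 5) (nat_lit 28) (nat_lit 5) (nat_lit 369) (nat_lit 310) (nat_lit 221)) (XT.nd (nat_lit 78) (nat_lit 0) (nat_lit 0) (XT.lf (nat_lit 0) (nat_lit 11174825653) (nat_lit 228) (nat_lit 20817565796) (nat_lit 76) (nat_lit 9883088151) (nat_lit 25) (nat_lit 5) (nat_lit 28) (nat_lit 5) (nat_lit 26) (nat_lit 4) (nat_lit 370) (nat_lit 310) (nat_lit 220)) (XT.lf (nat_lit 0) (nat_lit 20410562227) (nat_lit 228) (nat_lit 1910421196) (nat_lit 76) (nat_lit 21106548922) (nat_lit 25) (nat_lit 5) (nat_lit 28) (nat_lit 5) (nat_lit 26) (nat_lit 4) (nat_lit 371) (nat_lit 310) (nat_lit 219)))) (XT.nd (nat_lit 156) (nat_lit 152) (nat_lit 0) (XT.nd (nat_lit 78) (nat_lit 0) (nat_lit 0) (XT.lf (nat_lit 0) (nat_lit 18512195307) (nat_lit 76) (nat_lit 11872751452) (nat_lit 152) (nat_lit 14658400674) (nat_lit 24) (nat_lit 5) (nat_lit 25)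 (nat_lit 5) (nat_lit 26) (nat_lit 4) (nat_lit 372) (nat_lit 310) (nat_lit 218)) (XT.lf (nat_lit 0) (nat_lit 40000238108) (nat_lit 76) (nat_lit 878235586) (nat_lit 152) (nat_lit 5860461052) (nat_lit 24) (nat_lit 5) (nat_lit 25) (nat_lit 5) (nat_lit 26) (nat_lit 4) (nat_lit 373) (nat_lit 310) (nat_lit 217))) (XT.nd (nat_lit 78) (nat_lit 0) (nat_lit 0) (XT.lf (nat_lit 0) (nat_lit 3653969284) (nat_lit 152) (nat_lit 34245736690) (nat_lit 76) (nat_lit 10597726779) (nat_lit 22) (nat_lit 5) (nat_lit 24) (nat_lit 5) (nat_lit 23) (nat_lit 4) (nat_lit 374) (nat_lit 310) (nat_lit 216)) (XT.lf (nat_lit 0) (nat_lit 13566081744) (nat_lit 152) (nat_lit 13946368228) (nat_lit 76) (nat_lit 22820658779) (nat_lit 22) (nat_lit 5) (nat_lit 24) (nat_lit 5) (nat_lit 23) (nat_lit 4) (nat_lit 375) (nat_lit 310) (nat_lit 215))))))))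
noncomputable def xc129 : XT := (XT.nd (nat_lit 1950) (nat_lit 380) (nat_lit 0) (XT.nd (nat_lit 936) (nat_lit 456) (nat_lit 0) (XT.nd (nat_lit 468) (nat_lit 228) (nat_lit 0) (XT.nd (nat_lit 234) (nat_lit 228) (nat_lit 0) (XT.nd (nat_lit 78) (nat_lit 0) (nat_lit 0) (XT.lf (nat_lit 0) (nat_lit 7590494604) (nat_lit 76) (nat_lit 16490880081) (nat_lit 152) (nat_lit 28173817285) (nat_lit 21) (nat_lit 5) (nat_lit 22) (nat_lit 5) (nat_lit 23) (nat_lit 4) (nat_lit 376) (nat_lit 310) (nat_lit 214)) (XT.nd (nat_lit 78) (nat_lit 0) (nat_lit 0) (XT.lf (nat_lit 0) (nat_lit 30668299020) (nat_lit 76) (nat_lit 4679594751) (nat_lit 152) (nat_lit 18914214564) (nat_lit 21) (nat_lit 5) (nat_lit 22) (nat_lit 5) (nat_lit 23) (nat_lit 4) (nat_lit 377) (nat_lit 310) (nat_lit 213)) (XT.lf (nat_lit 0) (nat_lit 47287949473) (nat_lit 152) (nat_lit 1609447884) (nat_lit 0) (nat_lit 7466464591) (nat_lit 21) (nat_lit 5)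 (nat_lit 23) (nat_lit 4) (nat_lit 21) (nat_lit 4) (nat_lit 378) (nat_lit 310) (nat_lit 212)))) (XT.nd (nat_lit 78) (nat_lit 76) (nat_lit 0) (XT.lf (nat_lit 0) (nat_lit 1632578466) (nat_lit 152) (nat_lit 36490731600) (nat_lit 76) (nat_lit 20425494829) (nat_lit 19) (nat_lit 5) (nat_lit 21) (nat_lit 5) (nat_lit 20) (nat_lit 4) (nat_lit 379) (nat_lit 310) (nat_lit 211)) (XT.nd (nat_lit 78) (nat_lit 76) (nat_lit 0) (XT.lf (nat_lit 0) (nat_lit 12589349034) (nat_lit 152) (nat_lit 14044621057) (nat_lit 76) (nat_lit 34200694060) (nat_lit 19) (nat_lit 5) (nat_lit 21) (nat_lit 5) (nat_lit 20) (nat_lit 4) (nat_lit 380) (nat_lit 310) (nat_lit 210)) (XT.lf (nat_lit 0) (nat_lit 9820391190) (nat_lit 76) (nat_lit 14417520900) (nat_lit 152) (nat_lit 38989708195) (nat_lit 18) (nat_lit 5) (nat_lit 19) (nat_lit 5) (nat_lit 20) (nat_lit 4) (nat_lit 381) (nat_lit 310) (nat_lit 209))))) (XT.nd (nat_lit 234) (nat_lit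 152) (nat_lit 0) (XT.nd (nat_lit 78) (nat_lit 76) (nat_lit 0) (XT.lf (nat_lit 0) (nat_lit 35348819678) (nat_lit 76) (nat_lit 1348740232) (nat_lit 152) (nat_lit 29031233024) (nat_lit 18) (nat_lit 5) (nat_lit 19) (nat_lit 5) (nat_lit 20) (nat_lit 4) (nat_lit 382) (nat_lit 310) (nat_lit 208)) (XT.nd (nat_lit 78) (nat_lit 76) (nat_lit 0) (XT.lf (nat_lit 0) (nat_lit 49964494400) (nat_lit 152) (nat_lit 6411458025) (nat_lit 0) (nat_lit 11969858040) (nat_lit 18) (nat_lit 5) (nat_lit 20) (nat_lit 4) (nat_lit 18) (nat_lit 4) (nat_lit 383) (nat_lit 310) (nat_lit 207)) (XT.lf (nat_lit 0) (nat_lit 19336136542) (nat_lit 76) (nat_lit 44874183314) (nat_lit 76) (nat_lit 6867583200) (nat_lit 17) (nat_lit 4) (nat_lit 18) (nat_lit 5) (nat_lit 18) (nat_lit 4) (nat_lit 384) (nat_lit 310) (nat_lit 206)))) (XT.nd (nat_lit 78) (nat_lit 76) (nat_lit 0) (XT.lf (nat_lit 0) (nat_lit 5156626401) (nat_lit 152) (nat_lit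 27446910042) (nat_lit 76) (nat_lit 41333892650) (nat_lit 16) (nat_lit 5) (nat_lit 18) (nat_lit 5) (nat_lit 17) (nat_lit 4) (nat_lit 385) (nat_lit 310) (nat_lit 205)) (XT.nd (nat_lit 78) (nat_lit 76) (nat_lit 0) (XT.lf (nat_lit 0) (nat_lit 17543212849) (nat_lit 152) (nat_lit 2065259303) (nat_lit 76) (nat_lit 57326233210) (nat_lit 16) (nat_lit 5) (nat_lit 18) (nat_lit 5) (nat_lit 17) (nat_lit 4) (nat_lit 386) (nat_lit 310) (nat_lit 204)) (XT.lf (nat_lit 0) (nat_lit 25383263372) (nat_lit 76) (nat_lit 5554514070) (nat_lit 152) (nat_lit 49124636708) (nat_lit 15) (nat_lit 5) (nat_lit 16) (nat_lit 5) (nat_lit 17) (nat_lit 4) (nat_lit 387) (nat_lit 310) (nat_lit 203)))))) (XT.nd (nat_lit 468) (nat_lit 228) (nat_lit 0) (XT.nd (nat_lit 234) (nat_lit 152) (nat_lit 0) (XT.nd (nat_lit 78) (nat_lit 76) (nat_lit 0) (XT.lf (nat_lit 0) (nat_lit 45173668273) (nat_lit 152) (nat_lit 29227757784) (nat_lit 0)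 (nat_lit 8936503514) (nat_lit 15) (nat_lit 5) (nat_lit 17) (nat_lit 4) (nat_lit 15) (nat_lit 4) (nat_lit 388) (nat_lit 310) (nat_lit 202)) (XT.nd (nat_lit 78) (nat_lit 76) (nat_lit 0) (XT.lf (nat_lit 0) (nat_lit 60205151478) (nat_lit 152) (nat_lit 2608821254) (nat_lit 0) (nat_lit 23959059181) (nat_lit 15) (nat_lit 5) (nat_lit 17) (nat_lit 4) (nat_lit 15) (nat_lit 4) (nat_lit 389) (nat_lit 310) (nat_lit 201)) (XT.lf (nat_lit 0) (nat_lit 26165208851) (nat_lit 76) (nat_lit 50224598158) (nat_lit 76) (nat_lit 13970003443) (nat_lit 14) (nat_lit 4) (nat_lit 15) (nat_lit 5) (nat_lit 15) (nat_lit 4) (nat_lit 390) (nat_lit 310) (nat_lit 200)))) (XT.nd (nat_lit 78) (nat_lit 152) (nat_lit 0) (XT.lf (nat_lit 0) (nat_lit 56455424076) (nat_lit 76) (nat_lit 36965663710) (nat_lit 76) (nat_lit 702971455) (nat_lit 14) (nat_lit 4) (nat_lit 15) (nat_lit 5) (nat_lit 15) (nat_lit 4) (nat_lit 391) (nat_lit 310)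 (nat_lit 199)) (XT.nd (nat_lit 78) (nat_lit 76) (nat_lit 0) (XT.lf (nat_lit 0) (nat_lit 12797479580) (nat_lit 152) (nat_lit 10035571057) (nat_lit 76) (nat_lit 75233473477) (nat_lit 13) (nat_lit 5) (nat_lit 15) (nat_lit 5) (nat_lit 14) (nat_lit 4) (nat_lit 392) (nat_lit 310) (nat_lit 198)) (XT.lf (nat_lit 0) (nat_lit 19582298282) (nat_lit 76) (nat_lit 7666505223) (nat_lit 152) (nat_lit 74941759596) (nat_lit 12) (nat_lit 5) (nat_lit 13) (nat_lit 5) (nat_lit 14) (nat_lit 4) (nat_lit 393) (nat_lit 310) (nat_lit 197))))) (XT.nd (nat_lit 234) (nat_lit 152) (nat_lit 0) (XT.nd (nat_lit 78) (nat_lit 76) (nat_lit 0) (XT.lf (nat_lit 0) (nat_lit 42718136504) (nat_lit 152) (nat_lit 55626658582) (nat_lit 0) (nat_lit 8161237585) (nat_lit 12) (nat_lit 5) (nat_lit 14) (nat_lit 4) (nat_lit 12) (nat_lit 4) (nat_lit 394) (nat_lit 310) (nat_lit 196)) (XT.nd (nat_lit 78) (nat_lit 76) (nat_lit 0) (XT.lf (nat_lit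 0) (nat_lit 59080676737) (nat_lit 152) (nat_lit 27433179509) (nat_lit 0) (nat_lit 24517433183) (nat_lit 12) (nat_lit 5) (nat_lit 14) (nat_lit 4) (nat_lit 12) (nat_lit 4) (nat_lit 395) (nat_lit 310) (nat_lit 195)) (XT.lf (nat_lit 0) (nat_lit 2230381499) (nat_lit 76) (nat_lit 74060128009) (nat_lit 76) (nat_lit 39490841946) (nat_lit 11) (nat_lit 4) (nat_lit 12) (nat_lit 5) (nat_lit 12) (nat_lit 4) (nat_lit 396) (nat_lit 310) (nat_lit 194)))) (XT.nd (nat_lit 156) (nat_lit 152) (nat_lit 0) (XT.nd (nat_lit 78) (nat_lit 0) (nat_lit 0) (XT.lf (nat_lit 0) (nat_lit 34318737516) (nat_lit 76) (nat_lit 60501134336) (nat_lit 76) (nat_lit 25926093502) (nat_lit 11) (nat_lit 4) (nat_lit 12) (nat_lit 5) (nat_lit 12) (nat_lit 4) (nat_lit 397) (nat_lit 310) (nat_lit 193)) (XT.lf (nat_lit 0) (nat_lit 68001224583) (nat_lit 76) (nat_lit 46269186077) (nat_lit 76) (nat_lit 11688664510) (nat_lit 11) (nat_lit 4)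 (nat_lit 12) (nat_lit 5) (nat_lit 12) (nat_lit 4) (nat_lit 398) (nat_lit 310) (nat_lit 192))) (XT.nd (nat_lit 78) (nat_lit 76) (nat_lit 0) (XT.lf (nat_lit 0) (nat_lit 3151152343) (nat_lit 152) (nat_lit 28125879010) (nat_lit 76) (nat_lit 100153520466) (nat_lit 10) (nat_lit 5) (nat_lit 12) (nat_lit 5) (nat_lit 11) (nat_lit 4) (nat_lit 399) (nat_lit 310) (nat_lit 191)) (XT.lf (nat_lit 0) (nat_lit 3095661953) (nat_lit 76) (nat_lit 15287935341) (nat_lit 152) (nat_lit 118780252033) (nat_lit 9) (nat_lit 5) (nat_lit 10) (nat_lit 5) (nat_lit 11) (nat_lit 4) (nat_lit 400) (nat_lit 310) (nat_lit 190))))))) (XT.nd (nat_lit 936) (nat_lit 152) (nat_lit 0) (XT.nd (nat_lit 468) (nat_lit 152) (nat_lit 0) (XT.nd (nat_lit 234) (nat_lit 76) (nat_lit 0) (XT.nd (nat_lit 78) (nat_lit 0) (nat_lit 0) (XT.lf (nat_lit 0) (nat_lit 34880363893) (nat_lit 152) (nat_lit 106345994209) (nat_lit 0) (nat_lit 1932319164) (nat_lit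 9) (nat_lit 5) (nat_lit 11) (nat_lit 4) (nat_lit 9) (nat_lit 4) (nat_lit 401) (nat_lit 310) (nat_lit 189)) (XT.nd (nat_lit 78) (nat_lit 0) (nat_lit 0) (XT.lf (nat_lit 0) (nat_lit 52447958905) (nat_lit 152) (nat_lit 77497368815) (nat_lit 0) (nat_lit 19495619878) (nat_lit 9) (nat_lit 5) (nat_lit 11) (nat_lit 4) (nat_lit 9) (nat_lit 4) (nat_lit 402) (nat_lit 310) (nat_lit 188)) (XT.lf (nat_lit 0) (nat_lit 70889522424) (nat_lit 152) (nat_lit 47214936474) (nat_lit 0) (nat_lit 37933093589) (nat_lit 9) (nat_lit 5) (nat_lit 11) (nat_lit 4) (nat_lit 9) (nat_lit 4) (nat_lit 403) (nat_lit 310) (nat_lit 187)))) (XT.nd (nat_lit 78) (nat_lit 76) (nat_lit 0) (XT.lf (nat_lit 0) (nat_lit 90248962934) (nat_lit 152) (nat_lit 15426596156) (nat_lit 0) (nat_lit 57288639044) (nat_lit 9) (nat_lit 5) (nat_lit 11) (nat_lit 4) (nat_lit 9) (nat_lit 4) (nat_lit 404) (nat_lit 310) (nat_lit 186)) (XT.nd (nat_lit 78)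 (nat_lit 0) (nat_lit 0) (XT.lf (nat_lit 0) (nat_lit 18536626473) (nat_lit 76) (nat_lit 92325156555) (nat_lit 76) (nat_lit 59361123088) (nat_lit 8) (nat_lit 4) (nat_lit 9) (nat_lit 5) (nat_lit 9) (nat_lit 4) (nat_lit 405) (nat_lit 310) (nat_lit 185)) (XT.lf (nat_lit 0) (nat_lit 54725890474) (nat_lit 76) (nat_lit 78036679764) (nat_lit 76) (nat_lit 45069113368) (nat_lit 8) (nat_lit 4) (nat_lit 9) (nat_lit 5) (nat_lit 9) (nat_lit 4) (nat_lit 406) (nat_lit 310) (nat_lit 184))))) (XT.nd (nat_lit 234) (nat_lit 76) (nat_lit 0) (XT.nd (nat_lit 78) (nat_lit 76) (nat_lit 0) (XT.lf (nat_lit 0) (nat_lit 92717287822) (nat_lit 76) (nat_lit 63037365405) (nat_lit 76) (nat_lit 30066434313) (nat_lit 8) (nat_lit 4) (nat_lit 9) (nat_lit 5) (nat_lit 9) (nat_lit 4) (nat_lit 407) (nat_lit 310) (nat_lit 183)) (XT.nd (nat_lit 78) (nat_lit 76) (nat_lit 0) (XT.lf (nat_lit 0) (nat_lit 132601274226) (nat_lit 76) (nat_lit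 47291500824) (nat_lit 76) (nat_lit 14317365261) (nat_lit 8) (nat_lit 4) (nat_lit 9) (nat_lit 5) (nat_lit 9) (nat_lit 4) (nat_lit 408) (nat_lit 310) (nat_lit 182)) (XT.lf (nat_lit 0) (nat_lit 2144678805) (nat_lit 152) (nat_lit 28580595889) (nat_lit 76) (nat_lit 172291811579) (nat_lit 7) (nat_lit 5) (nat_lit 9) (nat_lit 5) (nat_lit 8) (nat_lit 4) (nat_lit 409) (nat_lit 310) (nat_lit 181)))) (XT.nd (nat_lit 78) (nat_lit 0) (nat_lit 0) (XT.lf (nat_lit 0) (nat_lit 6051625918) (nat_lit 76) (nat_lit 12988237452) (nat_lit 152) (nat_lit 193208221158) (nat_lit 6) (nat_lit 5) (nat_lit 7) (nat_lit 5) (nat_lit 8) (nat_lit 4) (nat_lit 410) (nat_lit 310) (nat_lit 180)) (XT.nd (nat_lit 78) (nat_lit 0) (nat_lit 0) (XT.lf (nat_lit 0) (nat_lit 37356478450) (nat_lit 152) (nat_lit 178611092191) (nat_lit 0) (nat_lit 5944228798) (nat_lit 6) (nat_lit 5) (nat_lit 8) (nat_lit 4) (nat_lit 6) (nat_lit 4) (nat_lit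 411) (nat_lit 310) (nat_lit 179)) (XT.lf (nat_lit 0) (nat_lit 56798724203) (nat_lit 152) (nat_lit 149865522427) (nat_lit 0) (nat_lit 25383963763) (nat_lit 6) (nat_lit 5) (nat_lit 8) (nat_lit 4) (nat_lit 6) (nat_lit 4) (nat_lit 412) (nat_lit 310) (nat_lit 178)))))) (XT.nd (nat_lit 468) (nat_lit 76) (nat_lit 0) (XT.nd (nat_lit 234) (nat_lit 76) (nat_lit 0) (XT.nd (nat_lit 78) (nat_lit 0) (nat_lit 0) (XT.lf (nat_lit 0) (nat_lit 77210108904) (nat_lit 152) (nat_lit 119688524698) (nat_lit 0) (nat_lit 45792957238) (nat_lit 6) (nat_lit 5) (nat_lit 8) (nat_lit 4) (nat_lit 6) (nat_lit 4) (nat_lit 413) (nat_lit 310) (nat_lit 177)) (XT.nd (nat_lit 78) (nat_lit 0) (nat_lit 0) (XT.lf (nat_lit 0) (nat_lit 98639231088) (nat_lit 152) (nat_lit 88008249011) (nat_lit 0) (nat_lit 67219802064) (nat_lit 6) (nat_lit 5) (nat_lit 8) (nat_lit 4) (nat_lit 6) (nat_lit 4) (nat_lit 414) (nat_lit 310) (nat_lit 176)) (XT.lf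 (nat_lit 0) (nat_lit 121137112474) (nat_lit 152) (nat_lit 54749266137) (nat_lit 0) (nat_lit 89715514538) (nat_lit 6) (nat_lit 5) (nat_lit 8) (nat_lit 4) (nat_lit 6) (nat_lit 4) (nat_lit 415) (nat_lit 310) (nat_lit 175)))) (XT.nd (nat_lit 78) (nat_lit 76) (nat_lit 0) (XT.lf (nat_lit 0) (nat_lit 144757319448) (nat_lit 152) (nat_lit 19832388022) (nat_lit 0) (nat_lit 113333655880) (nat_lit 6) (nat_lit 5) (nat_lit 8) (nat_lit 4) (nat_lit 6) (nat_lit 4) (nat_lit 416) (nat_lit 310) (nat_lit 174)) (XT.nd (nat_lit 78) (nat_lit 0) (nat_lit 0) (XT.lf (nat_lit 0) (nat_lit 17381848459) (nat_lit 76) (nat_lit 152445621503) (nat_lit 76) (nat_lit 121019990669) (nat_lit 5) (nat_lit 4) (nat_lit 6) (nat_lit 5) (nat_lit 6) (nat_lit 4) (nat_lit 417) (nat_lit 310) (nat_lit 173)) (XT.lf (nat_lit 0) (nat_lit 57140596887) (nat_lit 76) (nat_lit 139343998579) (nat_lit 76) (nat_lit 107916494156) (nat_lit 5) (nat_lit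 4) (nat_lit 6) (nat_lit 5) (nat_lit 6) (nat_lit 4) (nat_lit 418) (nat_lit 310) (nat_lit 172))))) (XT.nd (nat_lit 234) (nat_lit 76) (nat_lit 0) (XT.nd (nat_lit 78) (nat_lit 0) (nat_lit 0) (XT.lf (nat_lit 0) (nat_lit 98882772634) (nat_lit 76) (nat_lit 125589515443) (nat_lit 76) (nat_lit 94160226650) (nat_lit 5) (nat_lit 4) (nat_lit 6) (nat_lit 5) (nat_lit 6) (nat_lit 4) (nat_lit 419) (nat_lit 310) (nat_lit 171)) (XT.nd (nat_lit 78) (nat_lit 0) (nat_lit 0) (XT.lf (nat_lit 0) (nat_lit 142707761833) (nat_lit 76) (nat_lit 111149423327) (nat_lit 76) (nat_lit 79718435135) (nat_lit 5) (nat_lit 4) (nat_lit 6) (nat_lit 5) (nat_lit 6) (nat_lit 4) (nat_lit 420) (nat_lit 310) (nat_lit 170)) (XT.lf (nat_lit 0) (nat_lit 188719909695) (nat_lit 76) (nat_lit 95989341060) (nat_lit 76) (nat_lit 64556734392) (nat_lit 5) (nat_lit 4) (nat_lit 6) (nat_lit 5) (nat_lit 6) (nat_lit 4) (nat_lit 421) (nat_lit 310) (nat_lit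 169)))) (XT.nd (nat_lit 156) (nat_lit 76) (nat_lit 0) (XT.nd (nat_lit 78) (nat_lit 0) (nat_lit 0) (XT.lf (nat_lit 0) (nat_lit 237028768955) (nat_lit 76) (nat_lit 80073173207) (nat_lit 76) (nat_lit 48639025133) (nat_lit 5) (nat_lit 4) (nat_lit 6) (nat_lit 5) (nat_lit 6) (nat_lit 4) (nat_lit 422) (nat_lit 310) (nat_lit 168)) (XT.lf (nat_lit 0) (nat_lit 287749360704) (nat_lit 76) (nat_lit 63363024130) (nat_lit 76) (nat_lit 31927408051) (nat_lit 5) (nat_lit 4) (nat_lit 6) (nat_lit 5) (nat_lit 6) (nat_lit 4) (nat_lit 423) (nat_lit 310) (nat_lit 167))) (XT.nd (nat_lit 78) (nat_lit 76) (nat_lit 0) (XT.lf (nat_lit 0) (nat_lit 341002448258) (nat_lit 76) (nat_lit 45819107761) (nat_lit 76) (nat_lit 14382093581) (nat_lit 5) (nat_lit 4) (nat_lit 6) (nat_lit 5) (nat_lit 6) (nat_lit 4) (nat_lit 424) (nat_lit 310) (nat_lit 166)) (XT.lf (nat_lit 0) (nat_lit 3909429440) (nat_lit 152) (nat_lit 23424015350)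 (nat_lit 76) (nat_lit 392939187161) (nat_lit 4) (nat_lit 5) (nat_lit 6) (nat_lit 5) (nat_lit 5) (nat_lit 4) (nat_lit 425) (nat_lit 310) (nat_lit 165))))))))
noncomputable def xc130 : XT := (XT.nd (nat_lit 38844) (nat_lit 0) (nat_lit 3648) (XT.nd (nat_lit 37908) (nat_lit 0) (nat_lit 8284) (XT.nd (nat_lit 468) (nat_lit 0) (nat_lit 0) (XT.nd (nat_lit 234) (nat_lit 0) (nat_lit 0) (XT.nd (nat_lit 78) (nat_lit 0) (nat_lit 0) (XT.lf (nat_lit 0) (nat_lit 15447411491) (nat_lit 76) (nat_lit 7424308173) (nat_lit 152) (nat_lit 417399579110) (nat_lit 3) (nat_lit 5) (nat_lit 4) (nat_lit 5) (nat_lit 5) (nat_lit 4) (nat_lit 426) (nat_lit 310) (nat_lit 164)) (XT.nd (nat_lit 78) (nat_lit 0) (nat_lit 0) (XT.lf (nat_lit 0) (nat_lit 43394139976) (nat_lit 152) (nat_lit 404394657916) (nat_lit 0) (nat_lit 13450500401) (nat_lit 3) (nat_lit 5) (nat_lit 5) (nat_lit 4) (nat_lit 3) (nat_lit 4) (nat_lit 427) (nat_lit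 310) (nat_lit 163)) (XT.lf (nat_lit 0) (nat_lit 65062820113) (nat_lit 152) (nat_lit 383068785774) (nat_lit 0) (nat_lit 35118085089) (nat_lit 3) (nat_lit 5) (nat_lit 5) (nat_lit 4) (nat_lit 3) (nat_lit 4) (nat_lit 428) (nat_lit 310) (nat_lit 162)))) (XT.nd (nat_lit 78) (nat_lit 0) (nat_lit 0) (XT.lf (nat_lit 0) (nat_lit 87813437912) (nat_lit 152) (nat_lit 360679580715) (nat_lit 0) (nat_lit 57867659605) (nat_lit 3) (nat_lit 5) (nat_lit 5) (nat_lit 4) (nat_lit 3) (nat_lit 4) (nat_lit 429) (nat_lit 310) (nat_lit 161)) (XT.nd (nat_lit 78) (nat_lit 0) (nat_lit 0) (XT.lf (nat_lit 0) (nat_lit 111700161511) (nat_lit 152) (nat_lit 337173735108) (nat_lit 0) (nat_lit 81753389600) (nat_lit 3) (nat_lit 5) (nat_lit 5) (nat_lit 4) (nat_lit 3) (nat_lit 4) (nat_lit 430) (nat_lit 310) (nat_lit 160)) (XT.lf (nat_lit 0) (nat_lit 136779864063) (nat_lit 152) (nat_lit 312495282654) (nat_lit 0) (nat_lit 106832145862)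 (nat_lit 3) (nat_lit 5) (nat_lit 5) (nat_lit 4) (nat_lit 3) (nat_lit 4) (nat_lit 431) (nat_lit 310) (nat_lit 159))))) (XT.nd (nat_lit 234) (nat_lit 0) (nat_lit 0) (XT.nd (nat_lit 78) (nat_lit 0) (nat_lit 0) (XT.lf (nat_lit 0) (nat_lit 163112259144) (nat_lit 152) (nat_lit 286585465133) (nat_lit 0) (nat_lit 133163639715) (nat_lit 3) (nat_lit 5) (nat_lit 5) (nat_lit 4) (nat_lit 3) (nat_lit 4) (nat_lit 432) (nat_lit 310) (nat_lit 158)) (XT.nd (nat_lit 78) (nat_lit 0) (nat_lit 0) (XT.lf (nat_lit 0) (nat_lit 190760042933) (nat_lit 152) (nat_lit 259382592503) (nat_lit 0) (nat_lit 160810565192) (nat_lit 3) (nat_lit 5) (nat_lit 5) (nat_lit 4) (nat_lit 3) (nat_lit 4) (nat_lit 433) (nat_lit 310) (nat_lit 157)) (XT.lf (nat_lit 0) (nat_lit 219789043486) (nat_lit 152) (nat_lit 230821896019) (nat_lit 0) (nat_lit 189838748305) (nat_lit 3) (nat_lit 5) (nat_lit 5) (nat_lit 4) (nat_lit 3) (nat_lit 4) (nat_lit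 434) (nat_lit 310) (nat_lit 156)))) (XT.nd (nat_lit 78) (nat_lit 0) (nat_lit 0) (XT.lf (nat_lit 0) (nat_lit 250268377473) (nat_lit 152) (nat_lit 200835374024) (nat_lit 0) (nat_lit 220317303777) (nat_lit 3) (nat_lit 5) (nat_lit 5) (nat_lit 4) (nat_lit 3) (nat_lit 4) (nat_lit 435) (nat_lit 310) (nat_lit 155)) (XT.nd (nat_lit 78) (nat_lit 0) (nat_lit 0) (XT.lf (nat_lit 0) (nat_lit 282270614735) (nat_lit 152) (nat_lit 169351630037) (nat_lit 0) (nat_lit 252318799597) (nat_lit 3) (nat_lit 5) (nat_lit 5) (nat_lit 4) (nat_lit 3) (nat_lit 4) (nat_lit 436) (nat_lit 310) (nat_lit 154)) (XT.lf (nat_lit 0) (nat_lit 315871951076) (nat_lit 152) (nat_lit 136295702762) (nat_lit 0) (nat_lit 285919429802) (nat_lit 3) (nat_lit 5) (nat_lit 5) (nat_lit 4) (nat_lit 3) (nat_lit 4) (nat_lit 437) (nat_lit 310) (nat_lit 153)))))) (XT.nd (nat_lit 468) (nat_lit 1140) (nat_lit 0) (XT.nd (nat_lit 234) (nat_lit 0) (nat_lit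 0) (XT.nd (nat_lit 78) (nat_lit 608) (nat_lit 0) (XT.lf (nat_lit 0) (nat_lit 1494809920) (nat_lit 0) (nat_lit 1494809920) (nat_lit 532) (nat_lit 935905603) (nat_lit 135) (nat_lit 5) (nat_lit 135) (nat_lit 3) (nat_lit 142) (nat_lit 3) (nat_lit 311) (nat_lit 311) (nat_lit 278)) (XT.nd (nat_lit 78) (nat_lit 608) (nat_lit 0) (XT.lf (nat_lit 0) (nat_lit 6913515871) (nat_lit 0) (nat_lit 437810447) (nat_lit 532) (nat_lit 633557773) (nat_lit 135) (nat_lit 5) (nat_lit 135) (nat_lit 3) (nat_lit 142) (nat_lit 3) (nat_lit 312) (nat_lit 311) (nat_lit 277)) (XT.lf (nat_lit 0) (nat_lit 648223132) (nat_lit 608) (nat_lit 5212783137) (nat_lit 684) (nat_lit 2263814816) (nat_lit 127) (nat_lit 5) (nat_lit 135) (nat_lit 5) (nat_lit 136) (nat_lit 5) (nat_lit 313) (nat_lit 311) (nat_lit 276)))) (XT.nd (nat_lit 78) (nat_lit 0) (nat_lit 0) (XT.lf (nat_lit 0) (nat_lit 1922494063) (nat_lit 608) (nat_lit 1202518979)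 (nat_lit 684) (nat_lit 5148814166) (nat_lit 127) (nat_lit 5) (nat_lit 135) (nat_lit 5) (nat_lit 136) (nat_lit 5) (nat_lit 314) (nat_lit 311) (nat_lit 275)) (XT.nd (nat_lit 78) (nat_lit 0) (nat_lit 76) (XT.lf (nat_lit 76) (nat_lit 3062840495) (nat_lit 0) (nat_lit 173146970) (nat_lit 684) (nat_lit 5195593317) (nat_lit 128) (nat_lit 5) (nat_lit 127) (nat_lit 5) (nat_lit 136) (nat_lit 5) (nat_lit 315) (nat_lit 311) (nat_lit 274)) (XT.lf (nat_lit 0) (nat_lit 4612426162) (nat_lit 608) (nat_lit 1105720119) (nat_lit 684) (nat_lit 2879281360) (nat_lit 128) (nat_lit 5) (nat_lit 136) (nat_lit 5) (nat_lit 137) (nat_lit 5) (nat_lit 316) (nat_lit 311) (nat_lit 273))))) (XT.nd (nat_lit 234) (nat_lit 1216) (nat_lit 0) (XT.nd (nat_lit 78) (nat_lit 0) (nat_lit 76) (XT.lf (nat_lit 76) (nat_lit 3433003233) (nat_lit 0) (nat_lit 2615295681) (nat_lit 684) (nat_lit 2723803164) (nat_lit 129) (nat_lit 5) (nat_lit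 128) (nat_lit 5) (nat_lit 137) (nat_lit 5) (nat_lit 317) (nat_lit 311) (nat_lit 272)) (XT.nd (nat_lit 78) (nat_lit 0) (nat_lit 0) (XT.lf (nat_lit 0) (nat_lit 7521964599) (nat_lit 608) (nat_lit 775171227) (nat_lit 684) (nat_lit 660137156) (nat_lit 129) (nat_lit 5) (nat_lit 137) (nat_lit 5) (nat_lit 138) (nat_lit 5) (nat_lit 318) (nat_lit 311) (nat_lit 271)) (XT.lf (nat_lit 76) (nat_lit 4058936235) (nat_lit 0) (nat_lit 5056557733) (nat_lit 684) (nat_lit 33959165) (nat_lit 130) (nat_lit 5) (nat_lit 129) (nat_lit 5) (nat_lit 138) (nat_lit 5) (nat_lit 319) (nat_lit 311) (nat_lit 270)))) (XT.nd (nat_lit 78) (nat_lit 608) (nat_lit 0) (XT.lf (nat_lit 0) (nat_lit 1345892304) (nat_lit 684) (nat_lit 257911741) (nat_lit 760) (nat_lit 7748648158) (nat_lit 120) (nat_lit 5) (nat_lit 129) (nat_lit 5) (nat_lit 130) (nat_lit 5) (nat_lit 320) (nat_lit 311) (nat_lit 269)) (XT.nd (nat_lit 78) (nat_lit 684)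 (nat_lit 0) (XT.lf (nat_lit 0) (nat_lit 2847481561) (nat_lit 684) (nat_lit 4668185992) (nat_lit 76) (nat_lit 2047263104) (nat_lit 121) (nat_lit 5) (nat_lit 130) (nat_lit 5) (nat_lit 122) (nat_lit 5) (nat_lit 321) (nat_lit 311) (nat_lit 268)) (XT.lf (nat_lit 0) (nat_lit 472706943) (nat_lit 684) (nat_lit 3935619423) (nat_lit 760) (nat_lit 5376446998) (nat_lit 112) (nat_lit 5) (nat_lit 121) (nat_lit 5) (nat_lit 122) (nat_lit 5) (nat_lit 322) (nat_lit 311) (nat_lit 267))))))) (XT.nd (nat_lit 936) (nat_lit 2052) (nat_lit 0) (XT.nd (nat_lit 468) (nat_lit 1064) (nat_lit 0) (XT.nd (nat_lit 234) (nat_lit 760) (nat_lit 0) (XT.nd (nat_lit 78) (nat_lit 760) (nat_lit 0) (XT.lf (nat_lit 0) (nat_lit 5987128182) (nat_lit 684) (nat_lit 87064335) (nat_lit 760) (nat_lit 3942213528) (nat_lit 112) (nat_lit 5) (nat_lit 121) (nat_lit 5) (nat_lit 122) (nat_lit 5) (nat_lit 323) (nat_lit 311) (nat_lit 266)) (XT.nd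 (nat_lit 78) (nat_lit 0) (nat_lit 0) (XT.lf (nat_lit 0) (nat_lit 1456499900) (nat_lit 760) (nat_lit 6401821489) (nat_lit 836) (nat_lit 2399595065) (nat_lit 102) (nat_lit 5) (nat_lit 112) (nat_lit 5) (nat_lit 113) (nat_lit 5) (nat_lit 324) (nat_lit 311) (nat_lit 265)) (XT.lf (nat_lit 0) (nat_lit 7309686449) (nat_lit 760) (nat_lit 2443760014) (nat_lit 836) (nat_lit 757008877) (nat_lit 102) (nat_lit 5) (nat_lit 112) (nat_lit 5) (nat_lit 113) (nat_lit 5) (nat_lit 325) (nat_lit 311) (nat_lit 264)))) (XT.nd (nat_lit 78) (nat_lit 304) (nat_lit 0) (XT.lf (nat_lit 0) (nat_lit 960332298) (nat_lit 456) (nat_lit 8096080709) (nat_lit 76) (nat_lit 1717311311) (nat_lit 96) (nat_lit 5) (nat_lit 102) (nat_lit 5) (nat_lit 97) (nat_lit 5) (nat_lit 326) (nat_lit 311) (nat_lit 263)) (XT.nd (nat_lit 78) (nat_lit 304) (nat_lit 0) (XT.lf (nat_lit 0) (nat_lit 2788431248) (nat_lit 456) (nat_lit 2185984906) (nat_lit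 76) (nat_lit 6072640199) (nat_lit 96) (nat_lit 5) (nat_lit 102) (nat_lit 5) (nat_lit 97) (nat_lit 5) (nat_lit 327) (nat_lit 311) (nat_lit 262)) (XT.lf (nat_lit 0) (nat_lit 4106990322) (nat_lit 304) (nat_lit 622375342) (nat_lit 380) (nat_lit 6603652717) (nat_lit 92) (nat_lit 5) (nat_lit 96) (nat_lit 5) (nat_lit 97) (nat_lit 5) (nat_lit 328) (nat_lit 311) (nat_lit 261))))) (XT.nd (nat_lit 234) (nat_lit 380) (nat_lit 0) (XT.nd (nat_lit 78) (nat_lit 684) (nat_lit 0) (XT.lf (nat_lit 0) (nat_lit 6825235417) (nat_lit 380) (nat_lit 948587674) (nat_lit 76) (nat_lit 3856594244) (nat_lit 92) (nat_lit 5) (nat_lit 97) (nat_lit 5) (nat_lit 93) (nat_lit 5) (nat_lit 329) (nat_lit 311) (nat_lit 260)) (XT.nd (nat_lit 78) (nat_lit 304) (nat_lit 0) (XT.lf (nat_lit 0) (nat_lit 5774059077) (nat_lit 380) (nat_lit 3312794649) (nat_lit 456) (nat_lit 2852816430) (nat_lit 87) (nat_lit 5) (nat_lit 92) (nat_lit 5)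 (nat_lit 93) (nat_lit 5) (nat_lit 330) (nat_lit 311) (nat_lit 259)) (XT.lf (nat_lit 0) (nat_lit 553798840) (nat_lit 304) (nat_lit 10915884101) (nat_lit 380) (nat_lit 794326340) (nat_lit 83) (nat_lit 5) (nat_lit 87) (nat_lit 5) (nat_lit 88) (nat_lit 5) (nat_lit 331) (nat_lit 311) (nat_lit 258)))) (XT.nd (nat_lit 78) (nat_lit 304) (nat_lit 0) (XT.lf (nat_lit 0) (nat_lit 1446018957) (nat_lit 380) (nat_lit 4898473700) (nat_lit 76) (nat_lit 6252898558) (nat_lit 82) (nat_lit 5) (nat_lit 87) (nat_lit 5) (nat_lit 83) (nat_lit 5) (nat_lit 332) (nat_lit 311) (nat_lit 257)) (XT.nd (nat_lit 78) (nat_lit 0) (nat_lit 0) (XT.lf (nat_lit 0) (nat_lit 2270645234) (nat_lit 304) (nat_lit 1500539121) (nat_lit 380) (nat_lit 9175657990) (nat_lit 78) (nat_lit 5) (nat_lit 82) (nat_lit 5) (nat_lit 83) (nat_lit 5) (nat_lit 333) (nat_lit 311) (nat_lit 256)) (XT.lf (nat_lit 0) (nat_lit 6317894035) (nat_lit 380) (nat_lit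 3442498328) (nat_lit 76) (nat_lit 3548134183) (nat_lit 78) (nat_lit 5) (nat_lit 83) (nat_lit 5) (nat_lit 79) (nat_lit 5) (nat_lit 334) (nat_lit 311) (nat_lit 255)))))) (XT.nd (nat_lit 468) (nat_lit 988) (nat_lit 0) (XT.nd (nat_lit 234) (nat_lit 456) (nat_lit 0) (XT.nd (nat_lit 78) (nat_lit 380) (nat_lit 0) (XT.lf (nat_lit 0) (nat_lit 4221670162) (nat_lit 228) (nat_lit 4827434013) (nat_lit 304) (nat_lit 4636356166) (nat_lit 75) (nat_lit 5) (nat_lit 78) (nat_lit 5) (nat_lit 79) (nat_lit 5) (nat_lit 335) (nat_lit 311) (nat_lit 254)) (XT.nd (nat_lit 78) (nat_lit 380) (nat_lit 0) (XT.lf (nat_lit 0) (nat_lit 11949094756) (nat_lit 304) (nat_lit 1738787190) (nat_lit 76) (nat_lit 391770395) (nat_lit 75) (nat_lit 5) (nat_lit 79) (nat_lit 5) (nat_lit 76) (nat_lit 5) (nat_lit 336) (nat_lit 311) (nat_lit 253)) (XT.lf (nat_lit 0) (nat_lit 635937063) (nat_lit 380) (nat_lit 8036852162) (nat_lit 76) (nat_lit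 5812823082) (nat_lit 70) (nat_lit 5) (nat_lit 75) (nat_lit 5) (nat_lit 71) (nat_lit 5) (nat_lit 337) (nat_lit 311) (nat_lit 252)))) (XT.nd (nat_lit 78) (nat_lit 228) (nat_lit 0) (XT.lf (nat_lit 0) (nat_lit 123267338) (nat_lit 228) (nat_lit 3347096547) (nat_lit 304) (nat_lit 11439719065) (nat_lit 67) (nat_lit 5) (nat_lit 70) (nat_lit 5) (nat_lit 71) (nat_lit 5) (nat_lit 338) (nat_lit 311) (nat_lit 251)) (XT.nd (nat_lit 78) (nat_lit 228) (nat_lit 0) (XT.lf (nat_lit 0) (nat_lit 6589921498) (nat_lit 304) (nat_lit 6457445660) (nat_lit 76) (nat_lit 2301258011) (nat_lit 67) (nat_lit 5) (nat_lit 71) (nat_lit 5) (nat_lit 68) (nat_lit 5) (nat_lit 339) (nat_lit 311) (nat_lit 250)) (XT.lf (nat_lit 0) (nat_lit 2266435837) (nat_lit 228) (nat_lit 7660725872) (nat_lit 304) (nat_lit 5878865191) (nat_lit 64) (nat_lit 5) (nat_lit 67) (nat_lit 5) (nat_lit 68) (nat_lit 5) (nat_lit 340) (nat_lit 311) (nat_lit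 249))))) (XT.nd (nat_lit 234) (nat_lit 684) (nat_lit 0) (XT.nd (nat_lit 78) (nat_lit 304) (nat_lit 0) (XT.lf (nat_lit 0) (nat_lit 11611711864) (nat_lit 228) (nat_lit 1901111777) (nat_lit 304) (nat_lit 2769413888) (nat_lit 64) (nat_lit 5) (nat_lit 67) (nat_lit 5) (nat_lit 68) (nat_lit 5) (nat_lit 341) (nat_lit 311) (nat_lit 248)) (XT.nd (nat_lit 78) (nat_lit 0) (nat_lit 0) (XT.lf (nat_lit 0) (nat_lit 592764057) (nat_lit 304) (nat_lit 12097241606) (nat_lit 76) (nat_lit 4086225772) (nat_lit 60) (nat_lit 5) (nat_lit 64) (nat_lit 5) (nat_lit 61) (nat_lit 5) (nat_lit 342) (nat_lit 311) (nat_lit 247)) (XT.lf (nat_lit 0) (nat_lit 4115137660) (nat_lit 304) (nat_lit 2749275724) (nat_lit 76) (nat_lit 10423998287) (nat_lit 60) (nat_lit 5) (nat_lit 64) (nat_lit 5) (nat_lit 61) (nat_lit 5) (nat_lit 343) (nat_lit 311) (nat_lit 246)))) (XT.nd (nat_lit 156) (nat_lit 456) (nat_lit 0) (XT.nd (nat_lit 78)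 (nat_lit 0) (nat_lit 0) (XT.lf (nat_lit 0) (nat_lit 7261773313) (nat_lit 228) (nat_lit 640087707) (nat_lit 304) (nat_lit 9919942164) (nat_lit 57) (nat_lit 5) (nat_lit 60) (nat_lit 5) (nat_lit 61) (nat_lit 5) (nat_lit 344) (nat_lit 311) (nat_lit 245)) (XT.lf (nat_lit 0) (nat_lit 11992594631) (nat_lit 304) (nat_lit 640722527) (nat_lit 76) (nat_lit 5742826570) (nat_lit 57) (nat_lit 5) (nat_lit 61) (nat_lit 5) (nat_lit 58) (nat_lit 5) (nat_lit 345) (nat_lit 311) (nat_lit 244))) (XT.nd (nat_lit 78) (nat_lit 304) (nat_lit 0) (XT.lf (nat_lit 0) (nat_lit 10050298919) (nat_lit 152) (nat_lit 6381454404) (nat_lit 228) (nat_lit 2519266092) (nat_lit 55) (nat_lit 5) (nat_lit 57) (nat_lit 5) (nat_lit 58) (nat_lit 5) (nat_lit 346) (nat_lit 311) (nat_lit 243)) (XT.lf (nat_lit 0) (nat_lit 1507545758) (nat_lit 304) (nat_lit 17816520457) (nat_lit 76) (nat_lit 228455849) (nat_lit 51) (nat_lit 5) (nat_lit 55)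 (nat_lit 5) (nat_lit 52) (nat_lit 5) (nat_lit 347) (nat_lit 311) (nat_lit 242))))))))
noncomputable def xc131 : XT := (XT.nd (nat_lit 1950) (nat_lit 1064) (nat_lit 0) (XT.nd (nat_lit 936) (nat_lit 912) (nat_lit 0) (XT.nd (nat_lit 468) (nat_lit 532) (nat_lit 0) (XT.nd (nat_lit 234) (nat_lit 380) (nat_lit 0) (XT.nd (nat_lit 78) (nat_lit 152) (nat_lit 0) (XT.lf (nat_lit 0) (nat_lit 5885898735) (nat_lit 304) (nat_lit 7147398698) (nat_lit 76) (nat_lit 7137005047) (nat_lit 51) (nat_lit 5) (nat_lit 55) (nat_lit 5) (nat_lit 52) (nat_lit 5) (nat_lit 348) (nat_lit 311) (nat_lit 241)) (XT.nd (nat_lit 78) (nat_lit 0) (nat_lit 0) (XT.lf (nat_lit 0) (nat_lit 4153818793) (nat_lit 152) (nat_lit 6372337859) (nat_lit 228) (nat_lit 10290676213) (nat_lit 49) (nat_lit 5) (nat_lit 51) (nat_lit 5) (nat_lit 52) (nat_lit 5) (nat_lit 349) (nat_lit 311) (nat_lit 240)) (XT.lf (nat_lit 0) (nat_lit 15509617545) (nat_lit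 228) (nat_lit 5267728036) (nat_lit 76) (nat_lit 712794504) (nat_lit 49) (nat_lit 5) (nat_lit 52) (nat_lit 5) (nat_lit 50) (nat_lit 5) (nat_lit 350) (nat_lit 311) (nat_lit 239)))) (XT.nd (nat_lit 78) (nat_lit 228) (nat_lit 0) (XT.lf (nat_lit 0) (nat_lit 6776767230) (nat_lit 152) (nat_lit 14155234162) (nat_lit 228) (nat_lit 1255633130) (nat_lit 47) (nat_lit 5) (nat_lit 49) (nat_lit 5) (nat_lit 50) (nat_lit 5) (nat_lit 351) (nat_lit 311) (nat_lit 238)) (XT.nd (nat_lit 78) (nat_lit 152) (nat_lit 0) (XT.lf (nat_lit 0) (nat_lit 3657189676) (nat_lit 228) (nat_lit 3401627794) (nat_lit 76) (nat_lit 15854787627) (nat_lit 46) (nat_lit 5) (nat_lit 49) (nat_lit 5) (nat_lit 47) (nat_lit 5) (nat_lit 352) (nat_lit 311) (nat_lit 237)) (XT.lf (nat_lit 0) (nat_lit 8910412715) (nat_lit 228) (nat_lit 14218471421) (nat_lit 76) (nat_lit 539121109) (nat_lit 44) (nat_lit 5) (nat_lit 47) (nat_lit 5) (nat_lit 45)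 (nat_lit 5) (nat_lit 353) (nat_lit 311) (nat_lit 236))))) (XT.nd (nat_lit 234) (nat_lit 152) (nat_lit 0) (XT.nd (nat_lit 78) (nat_lit 380) (nat_lit 0) (XT.lf (nat_lit 0) (nat_lit 14581403829) (nat_lit 228) (nat_lit 1544377938) (nat_lit 76) (nat_lit 8326595980) (nat_lit 44) (nat_lit 5) (nat_lit 47) (nat_lit 5) (nat_lit 45) (nat_lit 5) (nat_lit 354) (nat_lit 311) (nat_lit 235)) (XT.nd (nat_lit 78) (nat_lit 228) (nat_lit 0) (XT.lf (nat_lit 0) (nat_lit 12121064655) (nat_lit 152) (nat_lit 8585872197) (nat_lit 228) (nat_lit 4560489733) (nat_lit 42) (nat_lit 5) (nat_lit 44) (nat_lit 5) (nat_lit 45) (nat_lit 5) (nat_lit 355) (nat_lit 311) (nat_lit 234)) (XT.lf (nat_lit 0) (nat_lit 366499781) (nat_lit 152) (nat_lit 630674403) (nat_lit 228) (nat_lit 25124559650) (nat_lit 39) (nat_lit 5) (nat_lit 41) (nat_lit 5) (nat_lit 42) (nat_lit 5) (nat_lit 356) (nat_lit 311) (nat_lit 233)))) (XT.nd (nat_lit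 78) (nat_lit 152) (nat_lit 0) (XT.lf (nat_lit 0) (nat_lit 7008374701) (nat_lit 228) (nat_lit 12225822473) (nat_lit 76) (nat_lit 7764381706) (nat_lit 39) (nat_lit 5) (nat_lit 42) (nat_lit 5) (nat_lit 40) (nat_lit 5) (nat_lit 357) (nat_lit 311) (nat_lit 232)) (XT.nd (nat_lit 78) (nat_lit 0) (nat_lit 0) (XT.lf (nat_lit 0) (nat_lit 2004706594) (nat_lit 152) (nat_lit 11339980418) (nat_lit 228) (nat_lit 14573357609) (nat_lit 37) (nat_lit 5) (nat_lit 39) (nat_lit 5) (nat_lit 40) (nat_lit 5) (nat_lit 358) (nat_lit 311) (nat_lit 231)) (XT.lf (nat_lit 0) (nat_lit 17342508369) (nat_lit 152) (nat_lit 2845635981) (nat_lit 228) (nat_lit 8685828569) (nat_lit 37) (nat_lit 5) (nat_lit 39) (nat_lit 5) (nat_lit 40) (nat_lit 5) (nat_lit 359) (nat_lit 311) (nat_lit 230)))))) (XT.nd (nat_lit 468) (nat_lit 456) (nat_lit 0) (XT.nd (nat_lit 234) (nat_lit 152) (nat_lit 0) (XT.nd (nat_lit 78) (nat_lit 228) (nat_lit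 0) (XT.lf (nat_lit 0) (nat_lit 3560680224) (nat_lit 76) (nat_lit 23947406924) (nat_lit 152) (nat_lit 2362900322) (nat_lit 36) (nat_lit 5) (nat_lit 37) (nat_lit 5) (nat_lit 38) (nat_lit 4) (nat_lit 360) (nat_lit 311) (nat_lit 229)) (XT.nd (nat_lit 78) (nat_lit 152) (nat_lit 0) (XT.lf (nat_lit 0) (nat_lit 4368423210) (nat_lit 152) (nat_lit 11244971000) (nat_lit 76) (nat_lit 15289669689) (nat_lit 35) (nat_lit 5) (nat_lit 37) (nat_lit 5) (nat_lit 36) (nat_lit 5) (nat_lit 361) (nat_lit 311) (nat_lit 228)) (XT.lf (nat_lit 0) (nat_lit 4657245384) (nat_lit 152) (nat_lit 6757105495) (nat_lit 228) (nat_lit 20567588844) (nat_lit 33) (nat_lit 5) (nat_lit 35) (nat_lit 5) (nat_lit 36) (nat_lit 5) (nat_lit 362) (nat_lit 311) (nat_lit 227)))) (XT.nd (nat_lit 78) (nat_lit 152) (nat_lit 0) (XT.lf (nat_lit 0) (nat_lit 19030697576) (nat_lit 228) (nat_lit 11429930204) (nat_lit 76) (nat_lit 2643229926) (nat_lit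 33) (nat_lit 5) (nat_lit 36) (nat_lit 5) (nat_lit 34) (nat_lit 4) (nat_lit 363) (nat_lit 311) (nat_lit 226)) (XT.nd (nat_lit 78) (nat_lit 76) (nat_lit 0) (XT.lf (nat_lit 0) (nat_lit 5292619905) (nat_lit 76) (nat_lit 21914240800) (nat_lit 152) (nat_lit 7066065212) (nat_lit 32) (nat_lit 5) (nat_lit 33) (nat_lit 5) (nat_lit 34) (nat_lit 4) (nat_lit 364) (nat_lit 311) (nat_lit 225)) (XT.lf (nat_lit 0) (nat_lit 464455073) (nat_lit 152) (nat_lit 12276015377) (nat_lit 76) (nat_lit 22750633671) (nat_lit 31) (nat_lit 5) (nat_lit 33) (nat_lit 5) (nat_lit 32) (nat_lit 5) (nat_lit 365) (nat_lit 311) (nat_lit 224))))) (XT.nd (nat_lit 234) (nat_lit 228) (nat_lit 0) (XT.nd (nat_lit 78) (nat_lit 76) (nat_lit 0) (XT.lf (nat_lit 0) (nat_lit 5292628224) (nat_lit 152) (nat_lit 2910375062) (nat_lit 228) (nat_lit 28557951393) (nat_lit 29) (nat_lit 5) (nat_lit 31) (nat_lit 5) (nat_lit 32) (nat_lit 5) (nat_lit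 366) (nat_lit 311) (nat_lit 223)) (XT.nd (nat_lit 78) (nat_lit 76) (nat_lit 0) (XT.lf (nat_lit 0) (nat_lit 16641942111) (nat_lit 228) (nat_lit 14061655980) (nat_lit 76) (nat_lit 7375030038) (nat_lit 29) (nat_lit 5) (nat_lit 32) (nat_lit 5) (nat_lit 30) (nat_lit 4) (nat_lit 367) (nat_lit 311) (nat_lit 222)) (XT.lf (nat_lit 0) (nat_lit 4281298993) (nat_lit 76) (nat_lit 21323173257) (nat_lit 152) (nat_lit 13852634139) (nat_lit 28) (nat_lit 5) (nat_lit 29) (nat_lit 5) (nat_lit 30) (nat_lit 4) (nat_lit 368) (nat_lit 311) (nat_lit 221)))) (XT.nd (nat_lit 156) (nat_lit 0) (nat_lit 0) (XT.nd (nat_lit 78) (nat_lit 228) (nat_lit 0) (XT.lf (nat_lit 0) (nat_lit 24006601273) (nat_lit 76) (nat_lit 11234014627) (nat_lit 152) (nat_lit 5652621511) (nat_lit 28) (nat_lit 5) (nat_lit 29) (nat_lit 5) (nat_lit 30) (nat_lit 4) (nat_lit 369) (nat_lit 311) (nat_lit 220)) (XT.lf (nat_lit 0) (nat_lit 2322864007)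 (nat_lit 152) (nat_lit 563887265) (nat_lit 228) (nat_lit 39510917225) (nat_lit 25) (nat_lit 5) (nat_lit 27) (nat_lit 5) (nat_lit 28) (nat_lit 5) (nat_lit 370) (nat_lit 311) (nat_lit 219))) (XT.nd (nat_lit 78) (nat_lit 0) (nat_lit 0) (XT.lf (nat_lit 0) (nat_lit 12107749294) (nat_lit 228) (nat_lit 21169778560) (nat_lit 76) (nat_lit 10672931663) (nat_lit 25) (nat_lit 5) (nat_lit 28) (nat_lit 5) (nat_lit 26) (nat_lit 4) (nat_lit 371) (nat_lit 311) (nat_lit 218)) (XT.lf (nat_lit 0) (nat_lit 21787454489) (nat_lit 228) (nat_lit 1350070326) (nat_lit 76) (nat_lit 22443485039) (nat_lit 25) (nat_lit 5) (nat_lit 28) (nat_lit 5) (nat_lit 26) (nat_lit 4) (nat_lit 372) (nat_lit 311) (nat_lit 217))))))) (XT.nd (nat_lit 936) (nat_lit 532) (nat_lit 0) (XT.nd (nat_lit 468) (nat_lit 228) (nat_lit 0) (XT.nd (nat_lit 234) (nat_lit 76) (nat_lit 0) (XT.nd (nat_lit 78) (nat_lit 152) (nat_lit 0) (XT.lf (nat_lit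 0) (nat_lit 20083098423) (nat_lit 76) (nat_lit 12170564941) (nat_lit 152) (nat_lit 15024300929) (nat_lit 24) (nat_lit 5) (nat_lit 25) (nat_lit 5) (nat_lit 26) (nat_lit 4) (nat_lit 373) (nat_lit 311) (nat_lit 216)) (XT.nd (nat_lit 78) (nat_lit 152) (nat_lit 0) (XT.lf (nat_lit 0) (nat_lit 42614815109) (nat_lit 76) (nat_lit 640410143) (nat_lit 152) (nat_lit 5803941458) (nat_lit 24) (nat_lit 5) (nat_lit 25) (nat_lit 5) (nat_lit 26) (nat_lit 4) (nat_lit 374) (nat_lit 311) (nat_lit 215)) (XT.lf (nat_lit 0) (nat_lit 4172955992) (nat_lit 152) (nat_lit 35330067586) (nat_lit 76) (nat_lit 11402399844) (nat_lit 22) (nat_lit 5) (nat_lit 24) (nat_lit 5) (nat_lit 23) (nat_lit 4) (nat_lit 375) (nat_lit 311) (nat_lit 214)))) (XT.nd (nat_lit 78) (nat_lit 76) (nat_lit 0) (XT.lf (nat_lit 0) (nat_lit 14564660349) (nat_lit 152) (nat_lit 14045633365) (nat_lit 76) (nat_lit 24223393361) (nat_lit 22) (nat_lit 5)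 (nat_lit 24) (nat_lit 5) (nat_lit 23) (nat_lit 4) (nat_lit 376) (nat_lit 311) (nat_lit 213)) (XT.nd (nat_lit 78) (nat_lit 0) (nat_lit 0) (XT.lf (nat_lit 0) (nat_lit 8558426588) (nat_lit 76) (nat_lit 17041226867) (nat_lit 152) (nat_lit 29252527242) (nat_lit 21) (nat_lit 5) (nat_lit 22) (nat_lit 5) (nat_lit 23) (nat_lit 4) (nat_lit 377) (nat_lit 311) (nat_lit 212)) (XT.lf (nat_lit 0) (nat_lit 32762101832) (nat_lit 76) (nat_lit 4652434281) (nat_lit 152) (nat_lit 19545657761) (nat_lit 21) (nat_lit 5) (nat_lit 22) (nat_lit 5) (nat_lit 23) (nat_lit 4) (nat_lit 378) (nat_lit 311) (nat_lit 211))))) (XT.nd (nat_lit 234) (nat_lit 76) (nat_lit 0) (XT.nd (nat_lit 78) (nat_lit 152) (nat_lit 0) (XT.lf (nat_lit 0) (nat_lit 49941227694) (nat_lit 152) (nat_lit 1145795890) (nat_lit 0) (nat_lit 8080532668) (nat_lit 21) (nat_lit 5) (nat_lit 23) (nat_lit 4) (nat_lit 21) (nat_lit 4) (nat_lit 379) (nat_lit 311)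 (nat_lit 210)) (XT.nd (nat_lit 78) (nat_lit 0) (nat_lit 0) (XT.lf (nat_lit 0) (nat_lit 2002387935) (nat_lit 152) (nat_lit 37770341776) (nat_lit 76) (nat_lit 21689056736) (nat_lit 19) (nat_lit 5) (nat_lit 21) (nat_lit 5) (nat_lit 20) (nat_lit 4) (nat_lit 380) (nat_lit 311) (nat_lit 209)) (XT.lf (nat_lit 0) (nat_lit 13493274148) (nat_lit 152) (nat_lit 14227874582) (nat_lit 76) (nat_lit 36141478444) (nat_lit 19) (nat_lit 5) (nat_lit 21) (nat_lit 5) (nat_lit 20) (nat_lit 4) (nat_lit 381) (nat_lit 311) (nat_lit 208)))) (XT.nd (nat_lit 78) (nat_lit 0) (nat_lit 0) (XT.lf (nat_lit 0) (nat_lit 10822017672) (nat_lit 76) (nat_lit 14897150277) (nat_lit 152) (nat_lit 40656320288) (nat_lit 18) (nat_lit 5) (nat_lit 19) (nat_lit 5) (nat_lit 20) (nat_lit 4) (nat_lit 382) (nat_lit 311) (nat_lit 207)) (XT.nd (nat_lit 78) (nat_lit 0) (nat_lit 0) (XT.lf (nat_lit 0) (nat_lit 37602552969) (nat_lit 76) (nat_lit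 1186418512) (nat_lit 152) (nat_lit 30213391517) (nat_lit 18) (nat_lit 5) (nat_lit 19) (nat_lit 5) (nat_lit 20) (nat_lit 4) (nat_lit 383) (nat_lit 311) (nat_lit 206)) (XT.lf (nat_lit 0) (nat_lit 52710453171) (nat_lit 152) (nat_lit 6260055010) (nat_lit 0) (nat_lit 12780165244) (nat_lit 18) (nat_lit 5) (nat_lit 20) (nat_lit 4) (nat_lit 18) (nat_lit 4) (nat_lit 384) (nat_lit 311) (nat_lit 205)))))) (XT.nd (nat_lit 468) (nat_lit 304) (nat_lit 0) (XT.nd (nat_lit 234) (nat_lit 76) (nat_lit 0) (XT.nd (nat_lit 78) (nat_lit 76) (nat_lit 0) (XT.lf (nat_lit 0) (nat_lit 20767306770) (nat_lit 76) (nat_lit 46896716285) (nat_lit 76) (nat_lit 6955576879) (nat_lit 17) (nat_lit 4) (nat_lit 18) (nat_lit 5) (nat_lit 18) (nat_lit 4) (nat_lit 385) (nat_lit 311) (nat_lit 204)) (XT.nd (nat_lit 78) (nat_lit 0) (nat_lit 0) (XT.lf (nat_lit 0) (nat_lit 5649897293) (nat_lit 152) (nat_lit 28369184694) (nat_lit 76) (nat_lit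 43603411286) (nat_lit 16) (nat_lit 5) (nat_lit 18) (nat_lit 5) (nat_lit 17) (nat_lit 4) (nat_lit 386) (nat_lit 311) (nat_lit 203)) (XT.lf (nat_lit 0) (nat_lit 18644601655) (nat_lit 152) (nat_lit 1739883364) (nat_lit 76) (nat_lit 60385710588) (nat_lit 16) (nat_lit 5) (nat_lit 18) (nat_lit 5) (nat_lit 17) (nat_lit 4) (nat_lit 387) (nat_lit 311) (nat_lit 202)))) (XT.nd (nat_lit 78) (nat_lit 0) (nat_lit 0) (XT.lf (nat_lit 0) (nat_lit 27074151915) (nat_lit 76) (nat_lit 5630649346) (nat_lit 152) (nat_lit 51349694835) (nat_lit 15) (nat_lit 5) (nat_lit 16) (nat_lit 5) (nat_lit 17) (nat_lit 4) (nat_lit 388) (nat_lit 311) (nat_lit 201)) (XT.nd (nat_lit 78) (nat_lit 0) (nat_lit 0) (XT.lf (nat_lit 0) (nat_lit 47645001533) (nat_lit 152) (nat_lit 30279986869) (nat_lit 0) (nat_lit 9569174666) (nat_lit 15) (nat_lit 5) (nat_lit 17) (nat_lit 4) (nat_lit 15) (nat_lit 4) (nat_lit 389) (nat_lit 311) (nat_lit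 200)) (XT.lf (nat_lit 0) (nat_lit 63417932714) (nat_lit 152) (nat_lit 2349587264) (nat_lit 0) (nat_lit 25334008307) (nat_lit 15) (nat_lit 5) (nat_lit 17) (nat_lit 4) (nat_lit 15) (nat_lit 4) (nat_lit 390) (nat_lit 311) (nat_lit 199))))) (XT.nd (nat_lit 234) (nat_lit 152) (nat_lit 0) (XT.nd (nat_lit 78) (nat_lit 76) (nat_lit 0) (XT.lf (nat_lit 0) (nat_lit 27856859264) (nat_lit 76) (nat_lit 52551303566) (nat_lit 76) (nat_lit 14459667215) (nat_lit 14) (nat_lit 4) (nat_lit 15) (nat_lit 5) (nat_lit 15) (nat_lit 4) (nat_lit 391) (nat_lit 311) (nat_lit 198)) (XT.nd (nat_lit 78) (nat_lit 76) (nat_lit 0) (XT.lf (nat_lit 0) (nat_lit 59643328585) (nat_lit 76) (nat_lit 38638209276) (nat_lit 76) (nat_lit 539228218) (nat_lit 14) (nat_lit 4) (nat_lit 15) (nat_lit 5) (nat_lit 15) (nat_lit 4) (nat_lit 392) (nat_lit 311) (nat_lit 197)) (XT.lf (nat_lit 0) (nat_lit 13620711683) (nat_lit 152) (nat_lit 10183517067)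 (nat_lit 76) (nat_lit 79156429774) (nat_lit 13) (nat_lit 5) (nat_lit 15) (nat_lit 5) (nat_lit 14) (nat_lit 4) (nat_lit 393) (nat_lit 311) (nat_lit 196)))) (XT.nd (nat_lit 156) (nat_lit 76) (nat_lit 0) (XT.nd (nat_lit 78) (nat_lit 0) (nat_lit 0) (XT.lf (nat_lit 0) (nat_lit 20909538762) (nat_lit 76) (nat_lit 7881766918) (nat_lit 152) (nat_lit 78499759724) (nat_lit 12) (nat_lit 5) (nat_lit 13) (nat_lit 5) (nat_lit 14) (nat_lit 4) (nat_lit 394) (nat_lit 311) (nat_lit 195)) (XT.lf (nat_lit 0) (nat_lit 45028029942) (nat_lit 152) (nat_lit 58070346297) (nat_lit 0) (nat_lit 8724237067) (nat_lit 12) (nat_lit 5) (nat_lit 14) (nat_lit 4) (nat_lit 12) (nat_lit 4) (nat_lit 395) (nat_lit 311) (nat_lit 194))) (XT.nd (nat_lit 78) (nat_lit 76) (nat_lit 0) (XT.lf (nat_lit 0) (nat_lit 62200412110) (nat_lit 152) (nat_lit 28483271613) (nat_lit 0) (nat_lit 25890864464) (nat_lit 12) (nat_lit 5) (nat_lit 14) (nat_lit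 4) (nat_lit 12) (nat_lit 4) (nat_lit 396) (nat_lit 311) (nat_lit 193)) (XT.lf (nat_lit 0) (nat_lit 2658280882) (nat_lit 76) (nat_lit 77609504670) (nat_lit 76) (nat_lit 41294476291) (nat_lit 11) (nat_lit 4) (nat_lit 12) (nat_lit 5) (nat_lit 12) (nat_lit 4) (nat_lit 397) (nat_lit 311) (nat_lit 192))))))))
noncomputable def xc132 : XT := (XT.nd (nat_lit 1872) (nat_lit 152) (nat_lit 0) (XT.nd (nat_lit 936) (nat_lit 228) (nat_lit 0) (XT.nd (nat_lit 468) (nat_lit 76) (nat_lit 0) (XT.nd (nat_lit 234) (nat_lit 76) (nat_lit 0) (XT.nd (nat_lit 78) (nat_lit 76) (nat_lit 0) (XT.lf (nat_lit 0) (nat_lit 36335988972) (nat_lit 76) (nat_lit 63379877015) (nat_lit 76) (nat_lit 27059628889) (nat_lit 11) (nat_lit 4) (nat_lit 12) (nat_lit 5) (nat_lit 12) (nat_lit 4) (nat_lit 398) (nat_lit 311) (nat_lit 191)) (XT.nd (nat_lit 78) (nat_lit 76) (nat_lit 0) (XT.lf (nat_lit 0) (nat_lit 71688252079) (nat_lit 76) (nat_lit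 48443298679) (nat_lit 76) (nat_lit 12118079366) (nat_lit 11) (nat_lit 4) (nat_lit 12) (nat_lit 5) (nat_lit 12) (nat_lit 4) (nat_lit 399) (nat_lit 311) (nat_lit 190)) (XT.lf (nat_lit 0) (nat_lit 3451621211) (nat_lit 152) (nat_lit 29254130293) (nat_lit 76) (nat_lit 105289166173) (nat_lit 10) (nat_lit 5) (nat_lit 12) (nat_lit 5) (nat_lit 11) (nat_lit 4) (nat_lit 400) (nat_lit 311) (nat_lit 189)))) (XT.nd (nat_lit 78) (nat_lit 0) (nat_lit 0) (XT.lf (nat_lit 0) (nat_lit 3524003159) (nat_lit 76) (nat_lit 15919150962) (nat_lit 152) (nat_lit 124571853424) (nat_lit 9) (nat_lit 5) (nat_lit 10) (nat_lit 5) (nat_lit 11) (nat_lit 4) (nat_lit 401) (nat_lit 311) (nat_lit 188)) (XT.nd (nat_lit 78) (nat_lit 0) (nat_lit 0) (XT.lf (nat_lit 0) (nat_lit 36760054748) (nat_lit 152) (nat_lit 111398043420) (nat_lit 0) (nat_lit 2151714663) (nat_lit 9) (nat_lit 5) (nat_lit 11) (nat_lit 4) (nat_lit 9) (nat_lit 4)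 (nat_lit 402) (nat_lit 311) (nat_lit 187)) (XT.lf (nat_lit 0) (nat_lit 55199568908) (nat_lit 152) (nat_lit 81119617732) (nat_lit 0) (nat_lit 20587333768) (nat_lit 9) (nat_lit 5) (nat_lit 11) (nat_lit 4) (nat_lit 9) (nat_lit 4) (nat_lit 403) (nat_lit 311) (nat_lit 186))))) (XT.nd (nat_lit 234) (nat_lit 0) (nat_lit 0) (XT.nd (nat_lit 78) (nat_lit 76) (nat_lit 0) (XT.lf (nat_lit 0) (nat_lit 74557057648) (nat_lit 152) (nat_lit 49335093275) (nat_lit 0) (nat_lit 39941112931) (nat_lit 9) (nat_lit 5) (nat_lit 11) (nat_lit 4) (nat_lit 9) (nat_lit 4) (nat_lit 404) (nat_lit 311) (nat_lit 185)) (XT.nd (nat_lit 78) (nat_lit 76) (nat_lit 0) (XT.lf (nat_lit 0) (nat_lit 94878610226) (nat_lit 152) (nat_lit 15968792609) (nat_lit 0) (nat_lit 60259132579) (nat_lit 9) (nat_lit 5) (nat_lit 11) (nat_lit 4) (nat_lit 9) (nat_lit 4) (nat_lit 405) (nat_lit 311) (nat_lit 184)) (XT.lf (nat_lit 0) (nat_lit 19688895452)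 (nat_lit 76) (nat_lit 96831114674) (nat_lit 76) (nat_lit 62208272332) (nat_lit 8) (nat_lit 4) (nat_lit 9) (nat_lit 5) (nat_lit 9) (nat_lit 4) (nat_lit 406) (nat_lit 311) (nat_lit 183)))) (XT.nd (nat_lit 78) (nat_lit 0) (nat_lit 0) (XT.lf (nat_lit 0) (nat_lit 57676887526) (nat_lit 76) (nat_lit 81833466411) (nat_lit 76) (nat_lit 47207419597) (nat_lit 8) (nat_lit 4) (nat_lit 9) (nat_lit 5) (nat_lit 9) (nat_lit 4) (nat_lit 407) (nat_lit 311) (nat_lit 182)) (XT.nd (nat_lit 78) (nat_lit 0) (nat_lit 0) (XT.lf (nat_lit 0) (nat_lit 97557630812) (nat_lit 76) (nat_lit 66089188588) (nat_lit 76) (nat_lit 31460089897) (nat_lit 8) (nat_lit 4) (nat_lit 9) (nat_lit 5) (nat_lit 9) (nat_lit 4) (nat_lit 408) (nat_lit 311) (nat_lit 181)) (XT.lf (nat_lit 0) (nat_lit 139426079460) (nat_lit 76) (nat_lit 49560794830) (nat_lit 76) (nat_lit 14928789589) (nat_lit 8) (nat_lit 4) (nat_lit 9) (nat_lit 5) (nat_lit 9)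 (nat_lit 4) (nat_lit 409) (nat_lit 311) (nat_lit 180)))))) (XT.nd (nat_lit 468) (nat_lit 76) (nat_lit 0) (XT.nd (nat_lit 234) (nat_lit 0) (nat_lit 0) (XT.nd (nat_lit 78) (nat_lit 76) (nat_lit 0) (XT.lf (nat_lit 0) (nat_lit 2348199485) (nat_lit 152) (nat_lit 29820964438) (nat_lit 76) (nat_lit 180993952872) (nat_lit 7) (nat_lit 5) (nat_lit 9) (nat_lit 5) (nat_lit 8) (nat_lit 4) (nat_lit 410) (nat_lit 311) (nat_lit 179)) (XT.nd (nat_lit 78) (nat_lit 0) (nat_lit 0) (XT.lf (nat_lit 0) (nat_lit 6539825537) (nat_lit 76) (nat_lit 13546630681) (nat_lit 152) (nat_lit 202769293549) (nat_lit 6) (nat_lit 5) (nat_lit 7) (nat_lit 5) (nat_lit 8) (nat_lit 4) (nat_lit 411) (nat_lit 311) (nat_lit 178)) (XT.lf (nat_lit 0) (nat_lit 39315750692) (nat_lit 152) (nat_lit 187361707511) (nat_lit 0) (nat_lit 6325350217) (nat_lit 6) (nat_lit 5) (nat_lit 8) (nat_lit 4) (nat_lit 6) (nat_lit 4) (nat_lit 412) (nat_lit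 311) (nat_lit 177)))) (XT.nd (nat_lit 78) (nat_lit 0) (nat_lit 0) (XT.lf (nat_lit 0) (nat_lit 59725754050) (nat_lit 152) (nat_lit 157187427796) (nat_lit 0) (nat_lit 26733076217) (nat_lit 6) (nat_lit 5) (nat_lit 8) (nat_lit 4) (nat_lit 6) (nat_lit 4) (nat_lit 413) (nat_lit 311) (nat_lit 176)) (XT.nd (nat_lit 78) (nat_lit 0) (nat_lit 0) (XT.lf (nat_lit 0) (nat_lit 81153560670) (nat_lit 152) (nat_lit 125509740693) (nat_lit 0) (nat_lit 48158713925) (nat_lit 6) (nat_lit 5) (nat_lit 8) (nat_lit 4) (nat_lit 6) (nat_lit 4) (nat_lit 414) (nat_lit 311) (nat_lit 175)) (XT.lf (nat_lit 0) (nat_lit 103650189139) (nat_lit 152) (nat_lit 92253223138) (nat_lit 0) (nat_lit 70653276762) (nat_lit 6) (nat_lit 5) (nat_lit 8) (nat_lit 4) (nat_lit 6) (nat_lit 4) (nat_lit 415) (nat_lit 311) (nat_lit 174))))) (XT.nd (nat_lit 234) (nat_lit 0) (nat_lit 0) (XT.nd (nat_lit 78) (nat_lit 76) (nat_lit 0) (XT.lf (nat_lit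 0) (nat_lit 127269202857) (nat_lit 152) (nat_lit 57338692945) (nat_lit 0) (nat_lit 94270323212) (nat_lit 6) (nat_lit 5) (nat_lit 8) (nat_lit 4) (nat_lit 6) (nat_lit 4) (nat_lit 416) (nat_lit 311) (nat_lit 173)) (XT.nd (nat_lit 78) (nat_lit 76) (nat_lit 0) (XT.lf (nat_lit 0) (nat_lit 152066837571) (nat_lit 152) (nat_lit 20683020281) (nat_lit 0) (nat_lit 119066084339) (nat_lit 6) (nat_lit 5) (nat_lit 8) (nat_lit 4) (nat_lit 6) (nat_lit 4) (nat_lit 417) (nat_lit 311) (nat_lit 172)) (XT.lf (nat_lit 0) (nat_lit 18389654038) (nat_lit 76) (nat_lit 159999595268) (nat_lit 76) (nat_lit 126997057666) (nat_lit 5) (nat_lit 4) (nat_lit 6) (nat_lit 5) (nat_lit 6) (nat_lit 4) (nat_lit 418) (nat_lit 311) (nat_lit 171)))) (XT.nd (nat_lit 78) (nat_lit 0) (nat_lit 0) (XT.lf (nat_lit 0) (nat_lit 60129734499) (nat_lit 76) (nat_lit 146246143926) (nat_lit 76) (nat_lit 113241906924) (nat_lit 5) (nat_lit 4) (nat_lit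 6) (nat_lit 5) (nat_lit 6) (nat_lit 4) (nat_lit 419) (nat_lit 311) (nat_lit 170)) (XT.nd (nat_lit 78) (nat_lit 0) (nat_lit 0) (XT.lf (nat_lit 0) (nat_lit 103952728187) (nat_lit 76) (nat_lit 131807034471) (nat_lit 76) (nat_lit 98801178993) (nat_lit 5) (nat_lit 4) (nat_lit 6) (nat_lit 5) (nat_lit 6) (nat_lit 4) (nat_lit 420) (nat_lit 311) (nat_lit 169)) (XT.lf (nat_lit 0) (nat_lit 149962975564) (nat_lit 76) (nat_lit 116647888071) (nat_lit 76) (nat_lit 83640491187) (nat_lit 5) (nat_lit 4) (nat_lit 6) (nat_lit 5) (nat_lit 6) (nat_lit 4) (nat_lit 421) (nat_lit 311) (nat_lit 168))))))) (XT.nd (nat_lit 936) (nat_lit 0) (nat_lit 0) (XT.nd (nat_lit 468) (nat_lit 0) (nat_lit 0) (XT.nd (nat_lit 234) (nat_lit 152) (nat_lit 0) (XT.nd (nat_lit 78) (nat_lit 0) (nat_lit 0) (XT.lf (nat_lit 0) (nat_lit 198270024837) (nat_lit 76) (nat_lit 100732611519) (nat_lit 76) (nat_lit 67723746631) (nat_lit 5) (nat_lit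 4) (nat_lit 6) (nat_lit 5) (nat_lit 6) (nat_lit 4) (nat_lit 422) (nat_lit 311) (nat_lit 167)) (XT.nd (nat_lit 78) (nat_lit 0) (nat_lit 0) (XT.lf (nat_lit 0) (nat_lit 248988892789) (nat_lit 76) (nat_lit 84023311302) (nat_lit 76) (nat_lit 51013048313) (nat_lit 5) (nat_lit 4) (nat_lit 6) (nat_lit 5) (nat_lit 6) (nat_lit 4) (nat_lit 423) (nat_lit 311) (nat_lit 166)) (XT.lf (nat_lit 0) (nat_lit 302240338632) (nat_lit 76) (nat_lit 66480203370) (nat_lit 76) (nat_lit 33468608857) (nat_lit 5) (nat_lit 4) (nat_lit 6) (nat_lit 5) (nat_lit 6) (nat_lit 4) (nat_lit 424) (nat_lit 311) (nat_lit 165)))) (XT.nd (nat_lit 78) (nat_lit 152) (nat_lit 0) (XT.lf (nat_lit 0) (nat_lit 358151151521) (nat_lit 76) (nat_lit 48061518419) (nat_lit 76) (nat_lit 15048655787) (nat_lit 5) (nat_lit 4) (nat_lit 6) (nat_lit 5) (nat_lit 6) (nat_lit 4) (nat_lit 425) (nat_lit 311) (nat_lit 164)) (XT.nd (nat_lit 78) (nat_lit 76)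 (nat_lit 0) (XT.lf (nat_lit 0) (nat_lit 4153339756) (nat_lit 152) (nat_lit 24499723861) (nat_lit 76) (nat_lit 412630773864) (nat_lit 4) (nat_lit 5) (nat_lit 6) (nat_lit 5) (nat_lit 5) (nat_lit 4) (nat_lit 426) (nat_lit 311) (nat_lit 163)) (XT.lf (nat_lit 0) (nat_lit 16313734123) (nat_lit 76) (nat_lit 7749170611) (nat_lit 152) (nat_lit 438219575096) (nat_lit 3) (nat_lit 5) (nat_lit 4) (nat_lit 5) (nat_lit 5) (nat_lit 4) (nat_lit 427) (nat_lit 311) (nat_lit 162))))) (XT.nd (nat_lit 234) (nat_lit 0) (nat_lit 0) (XT.nd (nat_lit 78) (nat_lit 0) (nat_lit 0) (XT.lf (nat_lit 0) (nat_lit 45609868677) (nat_lit 152) (nat_lit 424523331534) (nat_lit 0) (nat_lit 14165758170) (nat_lit 3) (nat_lit 5) (nat_lit 5) (nat_lit 4) (nat_lit 3) (nat_lit 4) (nat_lit 428) (nat_lit 311) (nat_lit 161)) (XT.nd (nat_lit 78) (nat_lit 0) (nat_lit 0) (XT.lf (nat_lit 0) (nat_lit 68359791310) (nat_lit 152) (nat_lit 402135501941)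 (nat_lit 0) (nat_lit 36914687200) (nat_lit 3) (nat_lit 5) (nat_lit 5) (nat_lit 4) (nat_lit 3) (nat_lit 4) (nat_lit 429) (nat_lit 311) (nat_lit 160)) (XT.lf (nat_lit 0) (nat_lit 92245852847) (nat_lit 152) (nat_lit 378630966302) (nat_lit 0) (nat_lit 60799802448) (nat_lit 3) (nat_lit 5) (nat_lit 5) (nat_lit 4) (nat_lit 3) (nat_lit 4) (nat_lit 430) (nat_lit 311) (nat_lit 159)))) (XT.nd (nat_lit 78) (nat_lit 0) (nat_lit 0) (XT.lf (nat_lit 0) (nat_lit 117324924863) (nat_lit 152) (nat_lit 353953761436) (nat_lit 0) (nat_lit 85877973236) (nat_lit 3) (nat_lit 5) (nat_lit 5) (nat_lit 4) (nat_lit 3) (nat_lit 4) (nat_lit 431) (nat_lit 311) (nat_lit 158)) (XT.nd (nat_lit 78) (nat_lit 0) (nat_lit 0) (XT.lf (nat_lit 0) (nat_lit 143656719434) (nat_lit 152) (nat_lit 328045132094) (nat_lit 0) (nat_lit 112208909494) (nat_lit 3) (nat_lit 5) (nat_lit 5) (nat_lit 4) (nat_lit 3) (nat_lit 4) (nat_lit 432) (nat_lit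 311) (nat_lit 157)) (XT.lf (nat_lit 0) (nat_lit 171303931308) (nat_lit 152) (nat_lit 300843391063) (nat_lit 0) (nat_lit 139855303928) (nat_lit 3) (nat_lit 5) (nat_lit 5) (nat_lit 4) (nat_lit 3) (nat_lit 4) (nat_lit 433) (nat_lit 311) (nat_lit 156)))))) (XT.nd (nat_lit 37518) (nat_lit 0) (nat_lit 8892) (XT.nd (nat_lit 234) (nat_lit 0) (nat_lit 0) (XT.nd (nat_lit 78) (nat_lit 0) (nat_lit 0) (XT.lf (nat_lit 0) (nat_lit 200332387182) (nat_lit 152) (nat_lit 272283772293) (nat_lit 0) (nat_lit 168882981287) (nat_lit 3) (nat_lit 5) (nat_lit 5) (nat_lit 4) (nat_lit 3) (nat_lit 4) (nat_lit 434) (nat_lit 311) (nat_lit 155)) (XT.nd (nat_lit 78) (nat_lit 0) (nat_lit 0) (XT.lf (nat_lit 0) (nat_lit 230811202425) (nat_lit 152) (nat_lit 242298276692) (nat_lit 0) (nat_lit 199361055087) (nat_lit 3) (nat_lit 5) (nat_lit 5) (nat_lit 4) (nat_lit 3) (nat_lit 4) (nat_lit 435) (nat_lit 311) (nat_lit 154)) (XT.lf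 (nat_lit 0) (nat_lit 262812945646) (nat_lit 152) (nat_lit 210815510223) (nat_lit 0) (nat_lit 231362092173) (nat_lit 3) (nat_lit 5) (nat_lit 5) (nat_lit 4) (nat_lit 3) (nat_lit 4) (nat_lit 436) (nat_lit 311) (nat_lit 153)))) (XT.nd (nat_lit 37128) (nat_lit 0) (nat_lit 9348) (XT.lf (nat_lit 0) (nat_lit 296413811471) (nat_lit 152) (nat_lit 177760513917) (nat_lit 0) (nat_lit 264962285488) (nat_lit 3) (nat_lit 5) (nat_lit 5) (nat_lit 4) (nat_lit 3) (nat_lit 4) (nat_lit 437) (nat_lit 311) (nat_lit 152)) (XT.nd (nat_lit 78) (nat_lit 0) (nat_lit 0) (XT.lf (nat_lit 0) (nat_lit 273249747) (nat_lit 684) (nat_lit 1893431724) (nat_lit 684) (nat_lit 1893431724) (nat_lit 126) (nat_lit 3) (nat_lit 135) (nat_lit 3) (nat_lit 135) (nat_lit 5) (nat_lit 312) (nat_lit 312) (nat_lit 276)) (XT.lf (nat_lit 76) (nat_lit 114793893) (nat_lit 0) (nat_lit 1575431662) (nat_lit 684) (nat_lit 6575369284) (nat_lit 127)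 (nat_lit 5) (nat_lit 126) (nat_lit 3) (nat_lit 135) (nat_lit 5) (nat_lit 313) (nat_lit 312) (nat_lit 275))))) (XT.nd (nat_lit 234) (nat_lit 532) (nat_lit 0) (XT.nd (nat_lit 78) (nat_lit 0) (nat_lit 0) (XT.lf (nat_lit 0) (nat_lit 2904626120) (nat_lit 608) (nat_lit 4137133990) (nat_lit 684) (nat_lit 1375869781) (nat_lit 127) (nat_lit 5) (nat_lit 135) (nat_lit 5) (nat_lit 136) (nat_lit 5) (nat_lit 314) (nat_lit 312) (nat_lit 274)) (XT.nd (nat_lit 78) (nat_lit 0) (nat_lit 0) (XT.lf (nat_lit 76) (nat_lit 10341594) (nat_lit 0) (nat_lit 4126526092) (nat_lit 684) (nat_lit 4442612096) (nat_lit 128) (nat_lit 5) (nat_lit 127) (nat_lit 5) (nat_lit 136) (nat_lit 5) (nat_lit 315) (nat_lit 312) (nat_lit 273)) (XT.lf (nat_lit 76) (nat_lit 4468111345) (nat_lit 0) (nat_lit 966450885) (nat_lit 684) (nat_lit 3314733737) (nat_lit 128) (nat_lit 5) (nat_lit 127) (nat_lit 5) (nat_lit 136) (nat_lit 5) (nat_lit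 316) (nat_lit 312) (nat_lit 272)))) (XT.nd (nat_lit 156) (nat_lit 608) (nat_lit 0) (XT.nd (nat_lit 78) (nat_lit 0) (nat_lit 0) (XT.lf (nat_lit 76) (nat_lit 146780542) (nat_lit 0) (nat_lit 6626677497) (nat_lit 684) (nat_lit 2155391802) (nat_lit 129) (nat_lit 5) (nat_lit 128) (nat_lit 5) (nat_lit 137) (nat_lit 5) (nat_lit 317) (nat_lit 312) (nat_lit 271)) (XT.lf (nat_lit 76) (nat_lit 4886724608) (nat_lit 0) (nat_lit 3320309704) (nat_lit 684) (nat_lit 909020036) (nat_lit 129) (nat_lit 5) (nat_lit 128) (nat_lit 5) (nat_lit 137) (nat_lit 5) (nat_lit 318) (nat_lit 312) (nat_lit 270))) (XT.nd (nat_lit 78) (nat_lit 0) (nat_lit 0) (XT.lf (nat_lit 0) (nat_lit 339374634) (nat_lit 684) (nat_lit 8797986041) (nat_lit 760) (nat_lit 177375762) (nat_lit 120) (nat_lit 5) (nat_lit 129) (nat_lit 5) (nat_lit 130) (nat_lit 5) (nat_lit 319) (nat_lit 312) (nat_lit 269)) (XT.lf (nat_lit 0) (nat_lit 1690775341)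 (nat_lit 684) (nat_lit 3987434500) (nat_lit 760) (nat_lit 3840892515) (nat_lit 120) (nat_lit 5) (nat_lit 129) (nat_lit 5) (nat_lit 130) (nat_lit 5) (nat_lit 320) (nat_lit 312) (nat_lit 268))))))))
noncomputable def xc133 : XT := (XT.nd (nat_lit 1950) (nat_lit 2204) (nat_lit 0) (XT.nd (nat_lit 936) (nat_lit 1900) (nat_lit 0) (XT.nd (nat_lit 468) (nat_lit 1444) (nat_lit 0) (XT.nd (nat_lit 234) (nat_lit 836) (nat_lit 0) (XT.nd (nat_lit 78) (nat_lit 608) (nat_lit 0) (XT.lf (nat_lit 76) (nat_lit 1055402166) (nat_lit 0) (nat_lit 2017397029) (nat_lit 760) (nat_lit 6662783854) (nat_lit 121) (nat_lit 5) (nat_lit 120) (nat_lit 5) (nat_lit 130) (nat_lit 5) (nat_lit 321) (nat_lit 312) (nat_lit 267)) (XT.nd (nat_lit 78) (nat_lit 684) (nat_lit 0) (XT.lf (nat_lit 0) (nat_lit 4569709343) (nat_lit 684) (nat_lit 3544445280) (nat_lit 76) (nat_lit 1846490692) (nat_lit 121) (nat_lit 5) (nat_lit 130) (nat_lit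 5) (nat_lit 122) (nat_lit 5) (nat_lit 322) (nat_lit 312) (nat_lit 266)) (XT.lf (nat_lit 0) (nat_lit 1831602786) (nat_lit 684) (nat_lit 4322609632) (nat_lit 760) (nat_lit 4042155471) (nat_lit 112) (nat_lit 5) (nat_lit 121) (nat_lit 5) (nat_lit 122) (nat_lit 5) (nat_lit 323) (nat_lit 312) (nat_lit 265)))) (XT.nd (nat_lit 78) (nat_lit 836) (nat_lit 0) (XT.lf (nat_lit 0) (nat_lit 7558161253) (nat_lit 684) (nat_lit 272569207) (nat_lit 760) (nat_lit 2612549083) (nat_lit 112) (nat_lit 5) (nat_lit 121) (nat_lit 5) (nat_lit 122) (nat_lit 5) (nat_lit 324) (nat_lit 312) (nat_lit 264)) (XT.nd (nat_lit 78) (nat_lit 76) (nat_lit 0) (XT.lf (nat_lit 0) (nat_lit 2856027425) (nat_lit 760) (nat_lit 6796875990) (nat_lit 836) (nat_lit 1046582337) (nat_lit 102) (nat_lit 5) (nat_lit 112) (nat_lit 5) (nat_lit 113) (nat_lit 5) (nat_lit 325) (nat_lit 312) (nat_lit 263)) (XT.lf (nat_lit 0) (nat_lit 588531163) (nat_lit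 836) (nat_lit 2038843531) (nat_lit 76) (nat_lit 8340198767) (nat_lit 101) (nat_lit 5) (nat_lit 112) (nat_lit 5) (nat_lit 102) (nat_lit 5) (nat_lit 326) (nat_lit 312) (nat_lit 262))))) (XT.nd (nat_lit 234) (nat_lit 760) (nat_lit 0) (XT.nd (nat_lit 78) (nat_lit 304) (nat_lit 0) (XT.lf (nat_lit 0) (nat_lit 2321360834) (nat_lit 456) (nat_lit 7145318875) (nat_lit 76) (nat_lit 1779006283) (nat_lit 96) (nat_lit 5) (nat_lit 102) (nat_lit 5) (nat_lit 97) (nat_lit 5) (nat_lit 327) (nat_lit 312) (nat_lit 261)) (XT.nd (nat_lit 78) (nat_lit 304) (nat_lit 0) (XT.lf (nat_lit 0) (nat_lit 4178340354) (nat_lit 456) (nat_lit 1004269037) (nat_lit 76) (nat_lit 6353252596) (nat_lit 96) (nat_lit 5) (nat_lit 102) (nat_lit 5) (nat_lit 97) (nat_lit 5) (nat_lit 328) (nat_lit 312) (nat_lit 260)) (XT.lf (nat_lit 0) (nat_lit 5582532128) (nat_lit 304) (nat_lit 594073598) (nat_lit 380) (nat_lit 5661550884) (nat_lit 92)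 (nat_lit 5) (nat_lit 96) (nat_lit 5) (nat_lit 97) (nat_lit 5) (nat_lit 329) (nat_lit 312) (nat_lit 259)))) (XT.nd (nat_lit 78) (nat_lit 380) (nat_lit 0) (XT.lf (nat_lit 0) (nat_lit 280363229) (nat_lit 380) (nat_lit 8044510738) (nat_lit 456) (nat_lit 3828217681) (nat_lit 87) (nat_lit 5) (nat_lit 92) (nat_lit 5) (nat_lit 93) (nat_lit 5) (nat_lit 330) (nat_lit 312) (nat_lit 258)) (XT.nd (nat_lit 78) (nat_lit 380) (nat_lit 0) (XT.lf (nat_lit 0) (nat_lit 7309726897) (nat_lit 380) (nat_lit 3349985297) (nat_lit 456) (nat_lit 1820132143) (nat_lit 87) (nat_lit 5) (nat_lit 92) (nat_lit 5) (nat_lit 93) (nat_lit 5) (nat_lit 331) (nat_lit 312) (nat_lit 257)) (XT.lf (nat_lit 0) (nat_lit 298448261) (nat_lit 380) (nat_lit 10964562731) (nat_lit 76) (nat_lit 1558758628) (nat_lit 82) (nat_lit 5) (nat_lit 87) (nat_lit 5) (nat_lit 83) (nat_lit 5) (nat_lit 332) (nat_lit 312) (nat_lit 256)))))) (XT.nd (nat_lit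 468) (nat_lit 988) (nat_lit 0) (XT.nd (nat_lit 234) (nat_lit 608) (nat_lit 0) (XT.nd (nat_lit 78) (nat_lit 304) (nat_lit 0) (XT.lf (nat_lit 0) (nat_lit 2571459282) (nat_lit 380) (nat_lit 3888029299) (nat_lit 76) (nat_lit 6714351992) (nat_lit 82) (nat_lit 5) (nat_lit 87) (nat_lit 5) (nat_lit 83) (nat_lit 5) (nat_lit 333) (nat_lit 312) (nat_lit 255)) (XT.nd (nat_lit 78) (nat_lit 0) (nat_lit 0) (XT.lf (nat_lit 0) (nat_lit 3619297709) (nat_lit 304) (nat_lit 1362719434) (nat_lit 380) (nat_lit 8560326751) (nat_lit 78) (nat_lit 5) (nat_lit 82) (nat_lit 5) (nat_lit 83) (nat_lit 5) (nat_lit 334) (nat_lit 312) (nat_lit 254)) (XT.lf (nat_lit 0) (nat_lit 7610547501) (nat_lit 380) (nat_lit 2392111199) (nat_lit 76) (nat_lit 3921763959) (nat_lit 78) (nat_lit 5) (nat_lit 83) (nat_lit 5) (nat_lit 79) (nat_lit 5) (nat_lit 335) (nat_lit 312) (nat_lit 253)))) (XT.nd (nat_lit 78) (nat_lit 380) (nat_lit 0) (XT.lf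 (nat_lit 0) (nat_lit 5635547780) (nat_lit 228) (nat_lit 4815037034) (nat_lit 304) (nat_lit 3871037963) (nat_lit 75) (nat_lit 5) (nat_lit 78) (nat_lit 5) (nat_lit 79) (nat_lit 5) (nat_lit 336) (nat_lit 312) (nat_lit 252)) (XT.nd (nat_lit 78) (nat_lit 380) (nat_lit 0) (XT.lf (nat_lit 0) (nat_lit 13454156608) (nat_lit 304) (nat_lit 638162120) (nat_lit 76) (nat_lit 645307959) (nat_lit 75) (nat_lit 5) (nat_lit 79) (nat_lit 5) (nat_lit 76) (nat_lit 5) (nat_lit 337) (nat_lit 312) (nat_lit 251)) (XT.lf (nat_lit 0) (nat_lit 1565412017) (nat_lit 380) (nat_lit 7240033777) (nat_lit 76) (nat_lit 6358993686) (nat_lit 70) (nat_lit 5) (nat_lit 75) (nat_lit 5) (nat_lit 71) (nat_lit 5) (nat_lit 338) (nat_lit 312) (nat_lit 250))))) (XT.nd (nat_lit 234) (nat_lit 532) (nat_lit 0) (XT.nd (nat_lit 78) (nat_lit 228) (nat_lit 0) (XT.lf (nat_lit 0) (nat_lit 1308758456) (nat_lit 228) (nat_lit 3208467759) (nat_lit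 304) (nat_lit 11094151260) (nat_lit 67) (nat_lit 5) (nat_lit 70) (nat_lit 5) (nat_lit 71) (nat_lit 5) (nat_lit 339) (nat_lit 312) (nat_lit 249)) (XT.nd (nat_lit 78) (nat_lit 228) (nat_lit 0) (XT.lf (nat_lit 0) (nat_lit 7755723666) (nat_lit 304) (nat_lit 5619594027) (nat_lit 76) (nat_lit 2698406844) (nat_lit 67) (nat_lit 5) (nat_lit 71) (nat_lit 5) (nat_lit 68) (nat_lit 5) (nat_lit 340) (nat_lit 312) (nat_lit 248)) (XT.lf (nat_lit 0) (nat_lit 3521760192) (nat_lit 228) (nat_lit 7716071457) (nat_lit 304) (nat_lit 5317289017) (nat_lit 64) (nat_lit 5) (nat_lit 67) (nat_lit 5) (nat_lit 68) (nat_lit 5) (nat_lit 341) (nat_lit 312) (nat_lit 247)))) (XT.nd (nat_lit 156) (nat_lit 228) (nat_lit 0) (XT.nd (nat_lit 78) (nat_lit 304) (nat_lit 0) (XT.lf (nat_lit 0) (nat_lit 13279918945) (nat_lit 228) (nat_lit 1684080976) (nat_lit 304) (nat_lit 2093104170) (nat_lit 64) (nat_lit 5) (nat_lit 67) (nat_lit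 5) (nat_lit 68) (nat_lit 5) (nat_lit 342) (nat_lit 312) (nat_lit 246)) (XT.lf (nat_lit 0) (nat_lit 1395781422) (nat_lit 304) (nat_lit 11572209704) (nat_lit 76) (nat_lit 4607957925) (nat_lit 60) (nat_lit 5) (nat_lit 64) (nat_lit 5) (nat_lit 61) (nat_lit 5) (nat_lit 343) (nat_lit 312) (nat_lit 245))) (XT.nd (nat_lit 78) (nat_lit 228) (nat_lit 0) (XT.lf (nat_lit 0) (nat_lit 5057446127) (nat_lit 304) (nat_lit 1810650003) (nat_lit 76) (nat_lit 11247503787) (nat_lit 60) (nat_lit 5) (nat_lit 64) (nat_lit 5) (nat_lit 61) (nat_lit 5) (nat_lit 344) (nat_lit 312) (nat_lit 244)) (XT.lf (nat_lit 0) (nat_lit 8683595204) (nat_lit 228) (nat_lit 331366359) (nat_lit 304) (nat_lit 9661645921) (nat_lit 57) (nat_lit 5) (nat_lit 60) (nat_lit 5) (nat_lit 61) (nat_lit 5) (nat_lit 345) (nat_lit 312) (nat_lit 243))))))) (XT.nd (nat_lit 936) (nat_lit 836) (nat_lit 0) (XT.nd (nat_lit 468) (nat_lit 760) (nat_lit 0)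 (XT.nd (nat_lit 234) (nat_lit 152) (nat_lit 0) (XT.nd (nat_lit 78) (nat_lit 304) (nat_lit 0) (XT.lf (nat_lit 0) (nat_lit 377120509) (nat_lit 152) (nat_lit 12909874785) (nat_lit 228) (nat_lit 5972849947) (nat_lit 55) (nat_lit 5) (nat_lit 57) (nat_lit 5) (nat_lit 58) (nat_lit 5) (nat_lit 346) (nat_lit 312) (nat_lit 242)) (XT.nd (nat_lit 78) (nat_lit 304) (nat_lit 0) (XT.lf (nat_lit 0) (nat_lit 11573883964) (nat_lit 152) (nat_lit 6351477862) (nat_lit 228) (nat_lit 1939257872) (nat_lit 55) (nat_lit 5) (nat_lit 57) (nat_lit 5) (nat_lit 58) (nat_lit 5) (nat_lit 347) (nat_lit 312) (nat_lit 241)) (XT.lf (nat_lit 0) (nat_lit 2255419318) (nat_lit 304) (nat_lit 17652150994) (nat_lit 76) (nat_lit 588635902) (nat_lit 51) (nat_lit 5) (nat_lit 55) (nat_lit 5) (nat_lit 52) (nat_lit 5) (nat_lit 348) (nat_lit 312) (nat_lit 240)))) (XT.nd (nat_lit 78) (nat_lit 152) (nat_lit 0) (XT.lf (nat_lit 0) (nat_lit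 6820666312) (nat_lit 304) (nat_lit 6499820552) (nat_lit 76) (nat_lit 7826005071) (nat_lit 51) (nat_lit 5) (nat_lit 55) (nat_lit 5) (nat_lit 52) (nat_lit 5) (nat_lit 349) (nat_lit 312) (nat_lit 239)) (XT.nd (nat_lit 78) (nat_lit 0) (nat_lit 0) (XT.lf (nat_lit 0) (nat_lit 5350248974) (nat_lit 152) (nat_lit 6327626444) (nat_lit 228) (nat_lit 10148240888) (nat_lit 49) (nat_lit 5) (nat_lit 51) (nat_lit 5) (nat_lit 52) (nat_lit 5) (nat_lit 350) (nat_lit 312) (nat_lit 238)) (XT.lf (nat_lit 0) (nat_lit 16886130333) (nat_lit 228) (nat_lit 4564805038) (nat_lit 76) (nat_lit 1083386165) (nat_lit 49) (nat_lit 5) (nat_lit 52) (nat_lit 5) (nat_lit 50) (nat_lit 5) (nat_lit 351) (nat_lit 312) (nat_lit 237))))) (XT.nd (nat_lit 234) (nat_lit 380) (nat_lit 0) (XT.nd (nat_lit 78) (nat_lit 228) (nat_lit 0) (XT.lf (nat_lit 0) (nat_lit 8066329356) (nat_lit 152) (nat_lit 14499526913) (nat_lit 228) (nat_lit 701536328)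 (nat_lit 47) (nat_lit 5) (nat_lit 49) (nat_lit 5) (nat_lit 50) (nat_lit 5) (nat_lit 352) (nat_lit 312) (nat_lit 236)) (XT.nd (nat_lit 78) (nat_lit 152) (nat_lit 0) (XT.lf (nat_lit 0) (nat_lit 4408748679) (nat_lit 228) (nat_lit 2647217551) (nat_lit 76) (nat_lit 16974647493) (nat_lit 46) (nat_lit 5) (nat_lit 49) (nat_lit 5) (nat_lit 47) (nat_lit 5) (nat_lit 353) (nat_lit 312) (nat_lit 235)) (XT.lf (nat_lit 0) (nat_lit 9917276238) (nat_lit 228) (nat_lit 13997321342) (nat_lit 76) (nat_lit 908515398) (nat_lit 44) (nat_lit 5) (nat_lit 47) (nat_lit 5) (nat_lit 45) (nat_lit 5) (nat_lit 354) (nat_lit 312) (nat_lit 234)))) (XT.nd (nat_lit 78) (nat_lit 380) (nat_lit 0) (XT.lf (nat_lit 0) (nat_lit 15845086294) (nat_lit 228) (nat_lit 733907645) (nat_lit 76) (nat_lit 9069057429) (nat_lit 44) (nat_lit 5) (nat_lit 47) (nat_lit 5) (nat_lit 45) (nat_lit 5) (nat_lit 355) (nat_lit 312) (nat_lit 233)) (XT.nd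 (nat_lit 78) (nat_lit 228) (nat_lit 0) (XT.lf (nat_lit 0) (nat_lit 13600489510) (nat_lit 152) (nat_lit 8664584510) (nat_lit 228) (nat_lit 4239379948) (nat_lit 42) (nat_lit 5) (nat_lit 44) (nat_lit 5) (nat_lit 45) (nat_lit 5) (nat_lit 356) (nat_lit 312) (nat_lit 232)) (XT.lf (nat_lit 0) (nat_lit 1261593556) (nat_lit 152) (nat_lit 305374389) (nat_lit 228) (nat_lit 25834670403) (nat_lit 39) (nat_lit 5) (nat_lit 41) (nat_lit 5) (nat_lit 42) (nat_lit 5) (nat_lit 357) (nat_lit 312) (nat_lit 231)))))) (XT.nd (nat_lit 468) (nat_lit 380) (nat_lit 0) (XT.nd (nat_lit 234) (nat_lit 304) (nat_lit 0) (XT.nd (nat_lit 78) (nat_lit 152) (nat_lit 0) (XT.lf (nat_lit 0) (nat_lit 7859275557) (nat_lit 228) (nat_lit 11982466179) (nat_lit 76) (nat_lit 8481565387) (nat_lit 39) (nat_lit 5) (nat_lit 42) (nat_lit 5) (nat_lit 40) (nat_lit 5) (nat_lit 358) (nat_lit 312) (nat_lit 230)) (XT.nd (nat_lit 78) (nat_lit 0)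 (nat_lit 0) (XT.lf (nat_lit 0) (nat_lit 2945804705) (nat_lit 152) (nat_lit 11555894520) (nat_lit 228) (nat_lit 14787590548) (nat_lit 37) (nat_lit 5) (nat_lit 39) (nat_lit 5) (nat_lit 40) (nat_lit 5) (nat_lit 359) (nat_lit 312) (nat_lit 229)) (XT.lf (nat_lit 0) (nat_lit 19010455485) (nat_lit 152) (nat_lit 2653551190) (nat_lit 228) (nat_lit 8630181957) (nat_lit 37) (nat_lit 5) (nat_lit 39) (nat_lit 5) (nat_lit 40) (nat_lit 5) (nat_lit 360) (nat_lit 312) (nat_lit 228)))) (XT.nd (nat_lit 78) (nat_lit 228) (nat_lit 0) (XT.lf (nat_lit 0) (nat_lit 4544587429) (nat_lit 76) (nat_lit 24800700785) (nat_lit 152) (nat_lit 1996006246) (nat_lit 36) (nat_lit 5) (nat_lit 37) (nat_lit 5) (nat_lit 38) (nat_lit 4) (nat_lit 361) (nat_lit 312) (nat_lit 227)) (XT.nd (nat_lit 78) (nat_lit 152) (nat_lit 0) (XT.lf (nat_lit 0) (nat_lit 5034001335) (nat_lit 152) (nat_lit 11024797874) (nat_lit 76) (nat_lit 16366921669)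 (nat_lit 35) (nat_lit 5) (nat_lit 37) (nat_lit 5) (nat_lit 36) (nat_lit 5) (nat_lit 362) (nat_lit 312) (nat_lit 226)) (XT.lf (nat_lit 0) (nat_lit 5659909624) (nat_lit 152) (nat_lit 6763041341) (nat_lit 228) (nat_lit 21136059840) (nat_lit 33) (nat_lit 5) (nat_lit 35) (nat_lit 5) (nat_lit 36) (nat_lit 5) (nat_lit 363) (nat_lit 312) (nat_lit 225))))) (XT.nd (nat_lit 234) (nat_lit 228) (nat_lit 0) (XT.nd (nat_lit 78) (nat_lit 152) (nat_lit 0) (XT.lf (nat_lit 0) (nat_lit 20404198869) (nat_lit 228) (nat_lit 11252240349) (nat_lit 76) (nat_lit 3081387550) (nat_lit 33) (nat_lit 5) (nat_lit 36) (nat_lit 5) (nat_lit 34) (nat_lit 4) (nat_lit 364) (nat_lit 312) (nat_lit 224)) (XT.nd (nat_lit 78) (nat_lit 76) (nat_lit 0) (XT.lf (nat_lit 0) (nat_lit 6294353614) (nat_lit 76) (nat_lit 22686231140) (nat_lit 152) (nat_lit 6985198882) (nat_lit 32) (nat_lit 5) (nat_lit 33) (nat_lit 5) (nat_lit 34) (nat_lit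 4) (nat_lit 365) (nat_lit 312) (nat_lit 223)) (XT.lf (nat_lit 0) (nat_lit 887938258) (nat_lit 152) (nat_lit 12174470730) (nat_lit 76) (nat_lit 24183128905) (nat_lit 31) (nat_lit 5) (nat_lit 33) (nat_lit 5) (nat_lit 32) (nat_lit 5) (nat_lit 366) (nat_lit 312) (nat_lit 222)))) (XT.nd (nat_lit 156) (nat_lit 76) (nat_lit 0) (XT.nd (nat_lit 78) (nat_lit 0) (nat_lit 0) (XT.lf (nat_lit 0) (nat_lit 6261067223) (nat_lit 152) (nat_lit 2744275047) (nat_lit 228) (nat_lit 29573947450) (nat_lit 29) (nat_lit 5) (nat_lit 31) (nat_lit 5) (nat_lit 32) (nat_lit 5) (nat_lit 367) (nat_lit 312) (nat_lit 221)) (XT.lf (nat_lit 0) (nat_lit 17852185942) (nat_lit 228) (nat_lit 14080305411) (nat_lit 76) (nat_lit 8031062512) (nat_lit 29) (nat_lit 5) (nat_lit 32) (nat_lit 5) (nat_lit 30) (nat_lit 4) (nat_lit 368) (nat_lit 312) (nat_lit 220))) (XT.nd (nat_lit 78) (nat_lit 0) (nat_lit 0) (XT.lf (nat_lit 0) (nat_lit 5168758064)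 (nat_lit 76) (nat_lit 22086591107) (nat_lit 152) (nat_lit 14155986221) (nat_lit 28) (nat_lit 5) (nat_lit 29) (nat_lit 5) (nat_lit 30) (nat_lit 4) (nat_lit 369) (nat_lit 312) (nat_lit 219)) (XT.lf (nat_lit 0) (nat_lit 25848259071) (nat_lit 76) (nat_lit 11507390775) (nat_lit 152) (nat_lit 5564510086) (nat_lit 28) (nat_lit 5) (nat_lit 29) (nat_lit 5) (nat_lit 30) (nat_lit 4) (nat_lit 370) (nat_lit 312) (nat_lit 218))))))))
noncomputable def xc134 : XT := (XT.nd (nat_lit 1872) (nat_lit 608) (nat_lit 0) (XT.nd (nat_lit 936) (nat_lit 456) (nat_lit 0) (XT.nd (nat_lit 468) (nat_lit 228) (nat_lit 0) (XT.nd (nat_lit 234) (nat_lit 228) (nat_lit 0) (XT.nd (nat_lit 78) (nat_lit 0) (nat_lit 0) (XT.lf (nat_lit 0) (nat_lit 3081749209) (nat_lit 152) (nat_lit 301161703) (nat_lit 228) (nat_lit 41116969007) (nat_lit 25) (nat_lit 5) (nat_lit 27) (nat_lit 5) (nat_lit 28) (nat_lit 5) (nat_lit 371) (nat_lit 312)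 (nat_lit 217)) (XT.nd (nat_lit 78) (nat_lit 0) (nat_lit 0) (XT.lf (nat_lit 0) (nat_lit 13052531188) (nat_lit 228) (nat_lit 21603627556) (nat_lit 76) (nat_lit 11474776980) (nat_lit 25) (nat_lit 5) (nat_lit 28) (nat_lit 5) (nat_lit 26) (nat_lit 4) (nat_lit 372) (nat_lit 312) (nat_lit 216)) (XT.lf (nat_lit 0) (nat_lit 23200060004) (nat_lit 228) (nat_lit 822678669) (nat_lit 76) (nat_lit 23821086657) (nat_lit 25) (nat_lit 5) (nat_lit 28) (nat_lit 5) (nat_lit 26) (nat_lit 4) (nat_lit 373) (nat_lit 312) (nat_lit 215)))) (XT.nd (nat_lit 78) (nat_lit 152) (nat_lit 0) (XT.lf (nat_lit 0) (nat_lit 21672553434) (nat_lit 76) (nat_lit 12510772025) (nat_lit 152) (nat_lit 15442618218) (nat_lit 24) (nat_lit 5) (nat_lit 25) (nat_lit 5) (nat_lit 26) (nat_lit 4) (nat_lit 374) (nat_lit 312) (nat_lit 214)) (XT.nd (nat_lit 78) (nat_lit 152) (nat_lit 0) (XT.lf (nat_lit 0) (nat_lit 45302984522) (nat_lit 76) (nat_lit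 416886685) (nat_lit 152) (nat_lit 5777093048) (nat_lit 24) (nat_lit 5) (nat_lit 25) (nat_lit 5) (nat_lit 26) (nat_lit 4) (nat_lit 375) (nat_lit 312) (nat_lit 213)) (XT.lf (nat_lit 0) (nat_lit 4686627143) (nat_lit 152) (nat_lit 36526996418) (nat_lit 76) (nat_lit 12221759497) (nat_lit 22) (nat_lit 5) (nat_lit 24) (nat_lit 5) (nat_lit 23) (nat_lit 4) (nat_lit 376) (nat_lit 312) (nat_lit 212))))) (XT.nd (nat_lit 234) (nat_lit 152) (nat_lit 0) (XT.nd (nat_lit 78) (nat_lit 76) (nat_lit 0) (XT.lf (nat_lit 0) (nat_lit 15583391796) (nat_lit 152) (nat_lit 14205463083) (nat_lit 76) (nat_lit 25671934134) (nat_lit 22) (nat_lit 5) (nat_lit 24) (nat_lit 5) (nat_lit 23) (nat_lit 4) (nat_lit 377) (nat_lit 312) (nat_lit 211)) (XT.nd (nat_lit 78) (nat_lit 0) (nat_lit 0) (XT.lf (nat_lit 0) (nat_lit 9520050643) (nat_lit 76) (nat_lit 17644583251) (nat_lit 152) (nat_lit 30415851193) (nat_lit 21) (nat_lit 5) (nat_lit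 22) (nat_lit 5) (nat_lit 23) (nat_lit 4) (nat_lit 378) (nat_lit 312) (nat_lit 210)) (XT.lf (nat_lit 0) (nat_lit 34908495233) (nat_lit 76) (nat_lit 4648194129) (nat_lit 152) (nat_lit 20237890735) (nat_lit 21) (nat_lit 5) (nat_lit 22) (nat_lit 5) (nat_lit 23) (nat_lit 4) (nat_lit 379) (nat_lit 312) (nat_lit 209)))) (XT.nd (nat_lit 78) (nat_lit 152) (nat_lit 0) (XT.lf (nat_lit 0) (nat_lit 52700312432) (nat_lit 152) (nat_lit 709548824) (nat_lit 0) (nat_lit 8702921975) (nat_lit 21) (nat_lit 5) (nat_lit 23) (nat_lit 4) (nat_lit 21) (nat_lit 4) (nat_lit 380) (nat_lit 312) (nat_lit 208)) (XT.nd (nat_lit 78) (nat_lit 0) (nat_lit 0) (XT.lf (nat_lit 0) (nat_lit 2363895582) (nat_lit 152) (nat_lit 39164594552) (nat_lit 76) (nat_lit 22993271174) (nat_lit 19) (nat_lit 5) (nat_lit 21) (nat_lit 5) (nat_lit 20) (nat_lit 4) (nat_lit 381) (nat_lit 312) (nat_lit 207)) (XT.lf (nat_lit 0) (nat_lit 14416879046)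 (nat_lit 152) (nat_lit 14468540394) (nat_lit 76) (nat_lit 38157849130) (nat_lit 19) (nat_lit 5) (nat_lit 21) (nat_lit 5) (nat_lit 20) (nat_lit 4) (nat_lit 382) (nat_lit 312) (nat_lit 206)))))) (XT.nd (nat_lit 468) (nat_lit 228) (nat_lit 0) (XT.nd (nat_lit 234) (nat_lit 152) (nat_lit 0) (XT.nd (nat_lit 78) (nat_lit 0) (nat_lit 0) (XT.lf (nat_lit 0) (nat_lit 11826254087) (nat_lit 76) (nat_lit 15423189952) (nat_lit 152) (nat_lit 42432561866) (nat_lit 18) (nat_lit 5) (nat_lit 19) (nat_lit 5) (nat_lit 20) (nat_lit 4) (nat_lit 383) (nat_lit 312) (nat_lit 205)) (XT.nd (nat_lit 78) (nat_lit 0) (nat_lit 0) (XT.lf (nat_lit 0) (nat_lit 39923762075) (nat_lit 76) (nat_lit 1037341496) (nat_lit 152) (nat_lit 31479704487) (nat_lit 18) (nat_lit 5) (nat_lit 19) (nat_lit 5) (nat_lit 20) (nat_lit 4) (nat_lit 384) (nat_lit 312) (nat_lit 204)) (XT.lf (nat_lit 0) (nat_lit 55570677918) (nat_lit 152) (nat_lit 6144961692)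 (nat_lit 0) (nat_lit 13611295322) (nat_lit 18) (nat_lit 5) (nat_lit 20) (nat_lit 4) (nat_lit 18) (nat_lit 4) (nat_lit 385) (nat_lit 312) (nat_lit 203)))) (XT.nd (nat_lit 78) (nat_lit 76) (nat_lit 0) (XT.lf (nat_lit 0) (nat_lit 22226863402) (nat_lit 76) (nat_lit 49040938770) (nat_lit 76) (nat_lit 7071713564) (nat_lit 17) (nat_lit 4) (nat_lit 18) (nat_lit 5) (nat_lit 18) (nat_lit 4) (nat_lit 386) (nat_lit 312) (nat_lit 202)) (XT.nd (nat_lit 78) (nat_lit 0) (nat_lit 0) (XT.lf (nat_lit 0) (nat_lit 6145942790) (nat_lit 152) (nat_lit 29379416400) (nat_lit 76) (nat_lit 45967549201) (nat_lit 16) (nat_lit 5) (nat_lit 18) (nat_lit 5) (nat_lit 17) (nat_lit 4) (nat_lit 387) (nat_lit 312) (nat_lit 201)) (XT.lf (nat_lit 0) (nat_lit 19780213292) (nat_lit 152) (nat_lit 1438089409) (nat_lit 76) (nat_lit 63580203118) (nat_lit 16) (nat_lit 5) (nat_lit 18) (nat_lit 5) (nat_lit 17) (nat_lit 4) (nat_lit 388)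 (nat_lit 312) (nat_lit 200))))) (XT.nd (nat_lit 234) (nat_lit 152) (nat_lit 0) (XT.nd (nat_lit 78) (nat_lit 0) (nat_lit 0) (XT.lf (nat_lit 0) (nat_lit 28810376857) (nat_lit 76) (nat_lit 5729333354) (nat_lit 152) (nat_lit 53707498207) (nat_lit 15) (nat_lit 5) (nat_lit 16) (nat_lit 5) (nat_lit 17) (nat_lit 4) (nat_lit 389) (nat_lit 312) (nat_lit 199)) (XT.nd (nat_lit 78) (nat_lit 0) (nat_lit 0) (XT.lf (nat_lit 0) (nat_lit 50220131288) (nat_lit 152) (nat_lit 31422867115) (nat_lit 0) (nat_lit 10216201177) (nat_lit 15) (nat_lit 5) (nat_lit 17) (nat_lit 4) (nat_lit 15) (nat_lit 4) (nat_lit 390) (nat_lit 312) (nat_lit 198)) (XT.lf (nat_lit 0) (nat_lit 66772524283) (nat_lit 152) (nat_lit 2113619868) (nat_lit 0) (nat_lit 26761249464) (nat_lit 15) (nat_lit 5) (nat_lit 17) (nat_lit 4) (nat_lit 15) (nat_lit 4) (nat_lit 391) (nat_lit 312) (nat_lit 197)))) (XT.nd (nat_lit 78) (nat_lit 76) (nat_lit 0)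 (XT.lf (nat_lit 0) (nat_lit 29597448233) (nat_lit 76) (nat_lit 55011499583) (nat_lit 76) (nat_lit 14993229805) (nat_lit 14) (nat_lit 4) (nat_lit 15) (nat_lit 5) (nat_lit 15) (nat_lit 4) (nat_lit 392) (nat_lit 312) (nat_lit 196)) (XT.nd (nat_lit 78) (nat_lit 76) (nat_lit 0) (XT.lf (nat_lit 0) (nat_lit 62956681686) (nat_lit 76) (nat_lit 40410720539) (nat_lit 76) (nat_lit 385788895) (nat_lit 14) (nat_lit 4) (nat_lit 15) (nat_lit 5) (nat_lit 15) (nat_lit 4) (nat_lit 393) (nat_lit 312) (nat_lit 195)) (XT.lf (nat_lit 0) (nat_lit 14468058490) (nat_lit 152) (nat_lit 10371756373) (nat_lit 76) (nat_lit 83260539357) (nat_lit 13) (nat_lit 5) (nat_lit 15) (nat_lit 5) (nat_lit 14) (nat_lit 4) (nat_lit 394) (nat_lit 312) (nat_lit 194))))))) (XT.nd (nat_lit 936) (nat_lit 304) (nat_lit 0) (XT.nd (nat_lit 468) (nat_lit 152) (nat_lit 0) (XT.nd (nat_lit 234) (nat_lit 76) (nat_lit 0) (XT.nd (nat_lit 78) (nat_lit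 0) (nat_lit 0) (XT.lf (nat_lit 0) (nat_lit 22270775851) (nat_lit 76) (nat_lit 8123416655) (nat_lit 152) (nat_lit 82253239454) (nat_lit 12) (nat_lit 5) (nat_lit 13) (nat_lit 5) (nat_lit 14) (nat_lit 4) (nat_lit 395) (nat_lit 312) (nat_lit 193)) (XT.nd (nat_lit 78) (nat_lit 0) (nat_lit 0) (XT.lf (nat_lit 0) (nat_lit 47437242425) (nat_lit 152) (nat_lit 60667609448) (nat_lit 0) (nat_lit 9300981893) (nat_lit 12) (nat_lit 5) (nat_lit 14) (nat_lit 4) (nat_lit 12) (nat_lit 4) (nat_lit 396) (nat_lit 312) (nat_lit 192)) (XT.lf (nat_lit 0) (nat_lit 65460728893) (nat_lit 152) (nat_lit 29615764562) (nat_lit 0) (nat_lit 27319248614) (nat_lit 12) (nat_lit 5) (nat_lit 14) (nat_lit 4) (nat_lit 12) (nat_lit 4) (nat_lit 397) (nat_lit 312) (nat_lit 191)))) (XT.nd (nat_lit 78) (nat_lit 0) (nat_lit 0) (XT.lf (nat_lit 0) (nat_lit 3078161193) (nat_lit 76) (nat_lit 81350633202) (nat_lit 76) (nat_lit 43204181736)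 (nat_lit 11) (nat_lit 4) (nat_lit 12) (nat_lit 5) (nat_lit 12) (nat_lit 4) (nat_lit 398) (nat_lit 312) (nat_lit 190)) (XT.nd (nat_lit 78) (nat_lit 0) (nat_lit 0) (XT.lf (nat_lit 0) (nat_lit 38426089626) (nat_lit 76) (nat_lit 66416159721) (nat_lit 76) (nat_lit 28264973791) (nat_lit 11) (nat_lit 4) (nat_lit 12) (nat_lit 5) (nat_lit 12) (nat_lit 4) (nat_lit 399) (nat_lit 312) (nat_lit 189)) (XT.lf (nat_lit 0) (nat_lit 75532951546) (nat_lit 76) (nat_lit 50739072047) (nat_lit 76) (nat_lit 12583377103) (nat_lit 11) (nat_lit 4) (nat_lit 12) (nat_lit 5) (nat_lit 12) (nat_lit 4) (nat_lit 400) (nat_lit 312) (nat_lit 188))))) (XT.nd (nat_lit 234) (nat_lit 0) (nat_lit 0) (XT.nd (nat_lit 78) (nat_lit 76) (nat_lit 0) (XT.lf (nat_lit 0) (nat_lit 3753826989) (nat_lit 152) (nat_lit 30464643912) (nat_lit 76) (nat_lit 110669696757) (nat_lit 10) (nat_lit 5) (nat_lit 12) (nat_lit 5) (nat_lit 11) (nat_lit 4)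 (nat_lit 401) (nat_lit 312) (nat_lit 187)) (XT.nd (nat_lit 78) (nat_lit 0) (nat_lit 0) (XT.lf (nat_lit 0) (nat_lit 3948328585) (nat_lit 76) (nat_lit 16594309285) (nat_lit 152) (nat_lit 130666739782) (nat_lit 9) (nat_lit 5) (nat_lit 10) (nat_lit 5) (nat_lit 11) (nat_lit 4) (nat_lit 402) (nat_lit 312) (nat_lit 186)) (XT.lf (nat_lit 0) (nat_lit 38721116587) (nat_lit 152) (nat_lit 116727355568) (nat_lit 0) (nat_lit 2370665058) (nat_lit 9) (nat_lit 5) (nat_lit 11) (nat_lit 4) (nat_lit 9) (nat_lit 4) (nat_lit 403) (nat_lit 312) (nat_lit 185)))) (XT.nd (nat_lit 78) (nat_lit 0) (nat_lit 0) (XT.lf (nat_lit 0) (nat_lit 58076746498) (nat_lit 152) (nat_lit 84946465264) (nat_lit 0) (nat_lit 21722762039) (nat_lit 9) (nat_lit 5) (nat_lit 11) (nat_lit 4) (nat_lit 9) (nat_lit 4) (nat_lit 404) (nat_lit 312) (nat_lit 184)) (XT.nd (nat_lit 78) (nat_lit 0) (nat_lit 0) (XT.lf (nat_lit 0) (nat_lit 78396528763)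 (nat_lit 152) (nat_lit 51583625696) (nat_lit 0) (nat_lit 42039179609) (nat_lit 9) (nat_lit 5) (nat_lit 11) (nat_lit 4) (nat_lit 9) (nat_lit 4) (nat_lit 405) (nat_lit 312) (nat_lit 183)) (XT.lf (nat_lit 0) (nat_lit 99728843816) (nat_lit 152) (nat_lit 16559401532) (nat_lit 0) (nat_lit 63368290191) (nat_lit 9) (nat_lit 5) (nat_lit 11) (nat_lit 4) (nat_lit 9) (nat_lit 4) (nat_lit 406) (nat_lit 312) (nat_lit 182)))))) (XT.nd (nat_lit 468) (nat_lit 76) (nat_lit 0) (XT.nd (nat_lit 234) (nat_lit 152) (nat_lit 0) (XT.nd (nat_lit 78) (nat_lit 0) (nat_lit 0) (XT.lf (nat_lit 0) (nat_lit 20877818824) (nat_lit 76) (nat_lit 101572625321) (nat_lit 76) (nat_lit 65209019817) (nat_lit 8) (nat_lit 4) (nat_lit 9) (nat_lit 5) (nat_lit 9) (nat_lit 4) (nat_lit 407) (nat_lit 312) (nat_lit 181)) (XT.nd (nat_lit 78) (nat_lit 0) (nat_lit 0) (XT.lf (nat_lit 0) (nat_lit 60755473426) (nat_lit 76) (nat_lit 85829858696)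 (nat_lit 76) (nat_lit 49463346642) (nat_lit 8) (nat_lit 4) (nat_lit 9) (nat_lit 5) (nat_lit 9) (nat_lit 4) (nat_lit 408) (nat_lit 312) (nat_lit 180)) (XT.lf (nat_lit 0) (nat_lit 102620980470) (nat_lit 76) (nat_lit 69302904174) (nat_lit 76) (nat_lit 32933623977) (nat_lit 8) (nat_lit 4) (nat_lit 9) (nat_lit 5) (nat_lit 9) (nat_lit 4) (nat_lit 409) (nat_lit 312) (nat_lit 179)))) (XT.nd (nat_lit 78) (nat_lit 152) (nat_lit 0) (XT.lf (nat_lit 0) (nat_lit 146574019735) (nat_lit 76) (nat_lit 51952411864) (nat_lit 76) (nat_lit 15580495340) (nat_lit 8) (nat_lit 4) (nat_lit 9) (nat_lit 5) (nat_lit 9) (nat_lit 4) (nat_lit 410) (nat_lit 312) (nat_lit 178)) (XT.nd (nat_lit 78) (nat_lit 76) (nat_lit 0) (XT.lf (nat_lit 0) (nat_lit 2552944371) (nat_lit 152) (nat_lit 31140891349) (nat_lit 76) (nat_lit 190123061595) (nat_lit 7) (nat_lit 5) (nat_lit 9) (nat_lit 5) (nat_lit 8) (nat_lit 4) (nat_lit 411) (nat_lit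 312) (nat_lit 177)) (XT.lf (nat_lit 0) (nat_lit 7035178104) (nat_lit 76) (nat_lit 14141405623) (nat_lit 152) (nat_lit 212817655127) (nat_lit 6) (nat_lit 5) (nat_lit 7) (nat_lit 5) (nat_lit 8) (nat_lit 4) (nat_lit 412) (nat_lit 312) (nat_lit 176))))) (XT.nd (nat_lit 234) (nat_lit 76) (nat_lit 0) (XT.nd (nat_lit 78) (nat_lit 0) (nat_lit 0) (XT.lf (nat_lit 0) (nat_lit 41364484548) (nat_lit 152) (nat_lit 196566582647) (nat_lit 0) (nat_lit 6717726553) (nat_lit 6) (nat_lit 5) (nat_lit 8) (nat_lit 4) (nat_lit 6) (nat_lit 4) (nat_lit 413) (nat_lit 312) (nat_lit 175)) (XT.nd (nat_lit 78) (nat_lit 0) (nat_lit 0) (XT.lf (nat_lit 0) (nat_lit 62791038250) (nat_lit 152) (nat_lit 164891360862) (nat_lit 0) (nat_lit 28142214623) (nat_lit 6) (nat_lit 5) (nat_lit 8) (nat_lit 4) (nat_lit 6) (nat_lit 4) (nat_lit 414) (nat_lit 312) (nat_lit 174)) (XT.lf (nat_lit 0) (nat_lit 85286473462) (nat_lit 152) (nat_lit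 131637191229) (nat_lit 0) (nat_lit 50635682569) (nat_lit 6) (nat_lit 5) (nat_lit 8) (nat_lit 4) (nat_lit 6) (nat_lit 4) (nat_lit 415) (nat_lit 312) (nat_lit 173)))) (XT.nd (nat_lit 156) (nat_lit 76) (nat_lit 0) (XT.nd (nat_lit 78) (nat_lit 0) (nat_lit 0) (XT.lf (nat_lit 0) (nat_lit 108904350747) (nat_lit 152) (nat_lit 96724897153) (nat_lit 0) (nat_lit 74251686265) (nat_lit 6) (nat_lit 5) (nat_lit 8) (nat_lit 4) (nat_lit 6) (nat_lit 4) (nat_lit 416) (nat_lit 312) (nat_lit 172)) (XT.lf (nat_lit 0) (nat_lit 133700903143) (nat_lit 152) (nat_lit 60071354124) (nat_lit 0) (nat_lit 99046454291) (nat_lit 6) (nat_lit 5) (nat_lit 8) (nat_lit 4) (nat_lit 6) (nat_lit 4) (nat_lit 417) (nat_lit 312) (nat_lit 171))) (XT.nd (nat_lit 78) (nat_lit 76) (nat_lit 0) (XT.lf (nat_lit 0) (nat_lit 159735170063) (nat_lit 152) (nat_lit 21589291802) (nat_lit 0) (nat_lit 125079021811) (nat_lit 6) (nat_lit 5) (nat_lit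 8) (nat_lit 4) (nat_lit 6) (nat_lit 4) (nat_lit 418) (nat_lit 312) (nat_lit 170)) (XT.lf (nat_lit 0) (nat_lit 19434953661) (nat_lit 76) (nat_lit 167937618287) (nat_lit 76) (nat_lit 133279851559) (nat_lit 5) (nat_lit 4) (nat_lit 6) (nat_lit 5) (nat_lit 6) (nat_lit 4) (nat_lit 419) (nat_lit 312) (nat_lit 169))))))))
noncomputable def xc135 : XT := (XT.nd (nat_lit 39078) (nat_lit 0) (nat_lit 4332) (XT.nd (nat_lit 936) (nat_lit 0) (nat_lit 0) (XT.nd (nat_lit 468) (nat_lit 152) (nat_lit 0) (XT.nd (nat_lit 234) (nat_lit 0) (nat_lit 0) (XT.nd (nat_lit 78) (nat_lit 0) (nat_lit 0) (XT.lf (nat_lit 0) (nat_lit 63256046863) (nat_lit 76) (nat_lit 153499444699) (nat_lit 76) (nat_lit 118840136566) (nat_lit 5) (nat_lit 4) (nat_lit 6) (nat_lit 5) (nat_lit 6) (nat_lit 4) (nat_lit 420) (nat_lit 312) (nat_lit 168)) (XT.nd (nat_lit 78) (nat_lit 0) (nat_lit 0) (XT.lf (nat_lit 0) (nat_lit 109264484253) (nat_lit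 76) (nat_lit 138341189601) (nat_lit 76) (nat_lit 103680413462) (nat_lit 5) (nat_lit 4) (nat_lit 6) (nat_lit 5) (nat_lit 6) (nat_lit 4) (nat_lit 421) (nat_lit 312) (nat_lit 167)) (XT.lf (nat_lit 0) (nat_lit 157569809729) (nat_lit 76) (nat_lit 122426761909) (nat_lit 76) (nat_lit 87764587670) (nat_lit 5) (nat_lit 4) (nat_lit 6) (nat_lit 5) (nat_lit 6) (nat_lit 4) (nat_lit 422) (nat_lit 312) (nat_lit 166)))) (XT.nd (nat_lit 78) (nat_lit 0) (nat_lit 0) (XT.lf (nat_lit 0) (nat_lit 208287035971) (nat_lit 76) (nat_lit 105718270129) (nat_lit 76) (nat_lit 71054764365) (nat_lit 5) (nat_lit 4) (nat_lit 6) (nat_lit 5) (nat_lit 6) (nat_lit 4) (nat_lit 423) (nat_lit 312) (nat_lit 165)) (XT.nd (nat_lit 78) (nat_lit 0) (nat_lit 0) (XT.lf (nat_lit 0) (nat_lit 261536918279) (nat_lit 76) (nat_lit 88175932137) (nat_lit 76) (nat_lit 53511158255) (nat_lit 5) (nat_lit 4) (nat_lit 6) (nat_lit 5) (nat_lit 6) (nat_lit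 4) (nat_lit 424) (nat_lit 312) (nat_lit 164)) (XT.lf (nat_lit 0) (nat_lit 317446242088) (nat_lit 76) (nat_lit 69757980462) (nat_lit 76) (nat_lit 35091998849) (nat_lit 5) (nat_lit 4) (nat_lit 6) (nat_lit 5) (nat_lit 6) (nat_lit 4) (nat_lit 425) (nat_lit 312) (nat_lit 163))))) (XT.nd (nat_lit 234) (nat_lit 0) (nat_lit 0) (XT.nd (nat_lit 78) (nat_lit 152) (nat_lit 0) (XT.lf (nat_lit 0) (nat_lit 376148124834) (nat_lit 76) (nat_lit 50420562838) (nat_lit 76) (nat_lit 15753431005) (nat_lit 5) (nat_lit 4) (nat_lit 6) (nat_lit 5) (nat_lit 6) (nat_lit 4) (nat_lit 426) (nat_lit 312) (nat_lit 162)) (XT.nd (nat_lit 78) (nat_lit 76) (nat_lit 0) (XT.lf (nat_lit 0) (nat_lit 4404942203) (nat_lit 152) (nat_lit 25638095764) (nat_lit 76) (nat_lit 433302790875) (nat_lit 4) (nat_lit 5) (nat_lit 6) (nat_lit 5) (nat_lit 5) (nat_lit 4) (nat_lit 427) (nat_lit 312) (nat_lit 161)) (XT.lf (nat_lit 0) (nat_lit 17214638115)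 (nat_lit 76) (nat_lit 8094585631) (nat_lit 152) (nat_lit 460085217824) (nat_lit 3) (nat_lit 5) (nat_lit 4) (nat_lit 5) (nat_lit 5) (nat_lit 4) (nat_lit 428) (nat_lit 312) (nat_lit 160)))) (XT.nd (nat_lit 78) (nat_lit 0) (nat_lit 0) (XT.lf (nat_lit 0) (nat_lit 47932105151) (nat_lit 152) (nat_lit 445666904663) (nat_lit 0) (nat_lit 14912805942) (nat_lit 3) (nat_lit 5) (nat_lit 5) (nat_lit 4) (nat_lit 3) (nat_lit 4) (nat_lit 429) (nat_lit 312) (nat_lit 159)) (XT.nd (nat_lit 78) (nat_lit 0) (nat_lit 0) (XT.lf (nat_lit 0) (nat_lit 71817536152) (nat_lit 152) (nat_lit 422163616611) (nat_lit 0) (nat_lit 38797335715) (nat_lit 3) (nat_lit 5) (nat_lit 5) (nat_lit 4) (nat_lit 3) (nat_lit 4) (nat_lit 430) (nat_lit 312) (nat_lit 158)) (XT.lf (nat_lit 0) (nat_lit 96896007658) (nat_lit 152) (nat_lit 397487599924) (nat_lit 0) (nat_lit 63874948908) (nat_lit 3) (nat_lit 5) (nat_lit 5) (nat_lit 4) (nat_lit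 3) (nat_lit 4) (nat_lit 431) (nat_lit 312) (nat_lit 157)))))) (XT.nd (nat_lit 37596) (nat_lit 0) (nat_lit 8816) (XT.nd (nat_lit 234) (nat_lit 0) (nat_lit 0) (XT.nd (nat_lit 78) (nat_lit 0) (nat_lit 0) (XT.lf (nat_lit 0) (nat_lit 123227230314) (nat_lit 152) (nat_lit 371580102182) (nat_lit 0) (nat_lit 90205354124) (nat_lit 3) (nat_lit 5) (nat_lit 5) (nat_lit 4) (nat_lit 3) (nat_lit 4) (nat_lit 432) (nat_lit 312) (nat_lit 156)) (XT.nd (nat_lit 78) (nat_lit 0) (nat_lit 0) (XT.lf (nat_lit 0) (nat_lit 150873897508) (nat_lit 152) (nat_lit 344379438864) (nat_lit 0) (nat_lit 117851242804) (nat_lit 3) (nat_lit 5) (nat_lit 5) (nat_lit 4) (nat_lit 3) (nat_lit 4) (nat_lit 433) (nat_lit 312) (nat_lit 155)) (XT.lf (nat_lit 0) (nat_lit 179901834638) (nat_lit 152) (nat_lit 315820846488) (nat_lit 0) (nat_lit 146878438491) (nat_lit 3) (nat_lit 5) (nat_lit 5) (nat_lit 4) (nat_lit 3) (nat_lit 4) (nat_lit 434)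 (nat_lit 312) (nat_lit 154)))) (XT.nd (nat_lit 78) (nat_lit 0) (nat_lit 0) (XT.lf (nat_lit 0) (nat_lit 210380155840) (nat_lit 152) (nat_lit 285836328405) (nat_lit 0) (nat_lit 177356053558) (nat_lit 3) (nat_lit 5) (nat_lit 5) (nat_lit 4) (nat_lit 3) (nat_lit 4) (nat_lit 435) (nat_lit 312) (nat_lit 153)) (XT.nd (nat_lit 78) (nat_lit 0) (nat_lit 0) (XT.lf (nat_lit 0) (nat_lit 242381428545) (nat_lit 152) (nat_lit 254354492905) (nat_lit 0) (nat_lit 209356653753) (nat_lit 3) (nat_lit 5) (nat_lit 5) (nat_lit 4) (nat_lit 3) (nat_lit 4) (nat_lit 436) (nat_lit 312) (nat_lit 152)) (XT.lf (nat_lit 0) (nat_lit 275981846261) (nat_lit 152) (nat_lit 221300383237) (nat_lit 0) (nat_lit 242956430982) (nat_lit 3) (nat_lit 5) (nat_lit 5) (nat_lit 4) (nat_lit 3) (nat_lit 4) (nat_lit 437) (nat_lit 312) (nat_lit 151))))) (XT.nd (nat_lit 234) (nat_lit 532) (nat_lit 0) (XT.nd (nat_lit 78) (nat_lit 0) (nat_lit 0)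 (XT.lf (nat_lit 0) (nat_lit 1397568076) (nat_lit 684) (nat_lit 1404450829) (nat_lit 684) (nat_lit 1404450829) (nat_lit 126) (nat_lit 3) (nat_lit 135) (nat_lit 3) (nat_lit 135) (nat_lit 5) (nat_lit 313) (nat_lit 313) (nat_lit 274)) (XT.nd (nat_lit 78) (nat_lit 0) (nat_lit 76) (XT.lf (nat_lit 76) (nat_lit 1269011051) (nat_lit 0) (nat_lit 2639191671) (nat_lit 684) (nat_lit 4661872226) (nat_lit 127) (nat_lit 5) (nat_lit 126) (nat_lit 3) (nat_lit 135) (nat_lit 5) (nat_lit 314) (nat_lit 313) (nat_lit 273)) (XT.lf (nat_lit 0) (nat_lit 5067083578) (nat_lit 608) (nat_lit 3131937806) (nat_lit 684) (nat_lit 536603608) (nat_lit 127) (nat_lit 5) (nat_lit 135) (nat_lit 5) (nat_lit 136) (nat_lit 5) (nat_lit 315) (nat_lit 313) (nat_lit 272)))) (XT.nd (nat_lit 156) (nat_lit 608) (nat_lit 0) (XT.nd (nat_lit 78) (nat_lit 0) (nat_lit 0) (XT.lf (nat_lit 76) (nat_lit 1203362317) (nat_lit 0) (nat_lit 5080134840)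 (nat_lit 684) (nat_lit 2626038657) (nat_lit 128) (nat_lit 5) (nat_lit 127) (nat_lit 5) (nat_lit 136) (nat_lit 5) (nat_lit 316) (nat_lit 313) (nat_lit 271)) (XT.lf (nat_lit 76) (nat_lit 5827234668) (nat_lit 0) (nat_lit 1726470995) (nat_lit 684) (nat_lit 1538847524) (nat_lit 128) (nat_lit 5) (nat_lit 127) (nat_lit 5) (nat_lit 136) (nat_lit 5) (nat_lit 317) (nat_lit 313) (nat_lit 270))) (XT.nd (nat_lit 78) (nat_lit 684) (nat_lit 0) (XT.lf (nat_lit 76) (nat_lit 1375139772) (nat_lit 0) (nat_lit 7504915409) (nat_lit 684) (nat_lit 405091595) (nat_lit 129) (nat_lit 5) (nat_lit 128) (nat_lit 5) (nat_lit 137) (nat_lit 5) (nat_lit 318) (nat_lit 313) (nat_lit 269)) (XT.lf (nat_lit 0) (nat_lit 789030338) (nat_lit 684) (nat_lit 3204793228) (nat_lit 760) (nat_lit 5491544273) (nat_lit 119) (nat_lit 5) (nat_lit 128) (nat_lit 5) (nat_lit 129) (nat_lit 5) (nat_lit 319) (nat_lit 313) (nat_lit 268))))))) (XT.nd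 (nat_lit 936) (nat_lit 2052) (nat_lit 0) (XT.nd (nat_lit 468) (nat_lit 1900) (nat_lit 0) (XT.nd (nat_lit 234) (nat_lit 532) (nat_lit 0) (XT.nd (nat_lit 78) (nat_lit 0) (nat_lit 76) (XT.lf (nat_lit 76) (nat_lit 1747147912) (nat_lit 0) (nat_lit 256332005) (nat_lit 760) (nat_lit 7693125365) (nat_lit 120) (nat_lit 5) (nat_lit 119) (nat_lit 5) (nat_lit 129) (nat_lit 5) (nat_lit 320) (nat_lit 313) (nat_lit 267)) (XT.nd (nat_lit 78) (nat_lit 0) (nat_lit 0) (XT.lf (nat_lit 0) (nat_lit 3340204100) (nat_lit 684) (nat_lit 2955920478) (nat_lit 760) (nat_lit 3619249206) (nat_lit 120) (nat_lit 5) (nat_lit 129) (nat_lit 5) (nat_lit 130) (nat_lit 5) (nat_lit 321) (nat_lit 313) (nat_lit 266)) (XT.lf (nat_lit 76) (nat_lit 2319205025) (nat_lit 0) (nat_lit 2416513165) (nat_lit 760) (nat_lit 5409809402) (nat_lit 121) (nat_lit 5) (nat_lit 120) (nat_lit 5) (nat_lit 130) (nat_lit 5) (nat_lit 322) (nat_lit 313)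 (nat_lit 265)))) (XT.nd (nat_lit 78) (nat_lit 684) (nat_lit 0) (XT.lf (nat_lit 0) (nat_lit 6231168691) (nat_lit 684) (nat_lit 2490692477) (nat_lit 76) (nat_lit 1663862330) (nat_lit 121) (nat_lit 5) (nat_lit 130) (nat_lit 5) (nat_lit 122) (nat_lit 5) (nat_lit 323) (nat_lit 313) (nat_lit 264)) (XT.nd (nat_lit 78) (nat_lit 0) (nat_lit 0) (XT.lf (nat_lit 0) (nat_lit 3134303556) (nat_lit 684) (nat_lit 4711265499) (nat_lit 760) (nat_lit 2790191700) (nat_lit 112) (nat_lit 5) (nat_lit 121) (nat_lit 5) (nat_lit 122) (nat_lit 5) (nat_lit 324) (nat_lit 313) (nat_lit 263)) (XT.lf (nat_lit 0) (nat_lit 9089517536) (nat_lit 684) (nat_lit 450507558) (nat_lit 760) (nat_lit 1358346495) (nat_lit 112) (nat_lit 5) (nat_lit 121) (nat_lit 5) (nat_lit 122) (nat_lit 5) (nat_lit 325) (nat_lit 313) (nat_lit 262))))) (XT.nd (nat_lit 234) (nat_lit 684) (nat_lit 0) (XT.nd (nat_lit 78) (nat_lit 380) (nat_lit 0) (XT.lf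 (nat_lit 0) (nat_lit 229546309) (nat_lit 836) (nat_lit 6971280039) (nat_lit 76) (nat_lit 3968753313) (nat_lit 101) (nat_lit 5) (nat_lit 112) (nat_lit 5) (nat_lit 102) (nat_lit 5) (nat_lit 326) (nat_lit 313) (nat_lit 261)) (XT.nd (nat_lit 78) (nat_lit 380) (nat_lit 0) (XT.lf (nat_lit 0) (nat_lit 1849658421) (nat_lit 836) (nat_lit 952981786) (nat_lit 76) (nat_lit 8650704086) (nat_lit 101) (nat_lit 5) (nat_lit 112) (nat_lit 5) (nat_lit 102) (nat_lit 5) (nat_lit 327) (nat_lit 313) (nat_lit 260)) (XT.lf (nat_lit 0) (nat_lit 3628369394) (nat_lit 456) (nat_lit 6273046614) (nat_lit 76) (nat_lit 1846033157) (nat_lit 96) (nat_lit 5) (nat_lit 102) (nat_lit 5) (nat_lit 97) (nat_lit 5) (nat_lit 328) (nat_lit 313) (nat_lit 259)))) (XT.nd (nat_lit 78) (nat_lit 380) (nat_lit 0) (XT.lf (nat_lit 0) (nat_lit 120358500) (nat_lit 304) (nat_lit 5403007070) (nat_lit 380) (nat_lit 6531556392) (nat_lit 92) (nat_lit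 5) (nat_lit 96) (nat_lit 5) (nat_lit 97) (nat_lit 5) (nat_lit 329) (nat_lit 313) (nat_lit 258)) (XT.nd (nat_lit 78) (nat_lit 380) (nat_lit 0) (XT.lf (nat_lit 0) (nat_lit 7013760585) (nat_lit 304) (nat_lit 569881123) (nat_lit 380) (nat_lit 4790628910) (nat_lit 92) (nat_lit 5) (nat_lit 96) (nat_lit 5) (nat_lit 97) (nat_lit 5) (nat_lit 330) (nat_lit 313) (nat_lit 257)) (XT.lf (nat_lit 0) (nat_lit 1481966978) (nat_lit 380) (nat_lit 8324403813) (nat_lit 456) (nat_lit 2900271319) (nat_lit 87) (nat_lit 5) (nat_lit 92) (nat_lit 5) (nat_lit 93) (nat_lit 5) (nat_lit 331) (nat_lit 313) (nat_lit 256)))))) (XT.nd (nat_lit 468) (nat_lit 1140) (nat_lit 0) (XT.nd (nat_lit 234) (nat_lit 532) (nat_lit 0) (XT.nd (nat_lit 78) (nat_lit 380) (nat_lit 0) (XT.lf (nat_lit 0) (nat_lit 8806247134) (nat_lit 380) (nat_lit 3400977455) (nat_lit 456) (nat_lit 845084229) (nat_lit 87) (nat_lit 5) (nat_lit 92) (nat_lit 5)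 (nat_lit 93) (nat_lit 5) (nat_lit 332) (nat_lit 313) (nat_lit 255)) (XT.nd (nat_lit 78) (nat_lit 0) (nat_lit 0) (XT.lf (nat_lit 0) (nat_lit 1316360557) (nat_lit 380) (nat_lit 10317202215) (nat_lit 76) (nat_lit 1778418947) (nat_lit 82) (nat_lit 5) (nat_lit 87) (nat_lit 5) (nat_lit 83) (nat_lit 5) (nat_lit 333) (nat_lit 313) (nat_lit 254)) (XT.lf (nat_lit 0) (nat_lit 3655260706) (nat_lit 380) (nat_lit 2943774904) (nat_lit 76) (nat_lit 7185043294) (nat_lit 82) (nat_lit 5) (nat_lit 87) (nat_lit 5) (nat_lit 83) (nat_lit 5) (nat_lit 334) (nat_lit 313) (nat_lit 253)))) (XT.nd (nat_lit 78) (nat_lit 228) (nat_lit 0) (XT.lf (nat_lit 0) (nat_lit 4920553038) (nat_lit 304) (nat_lit 1237797227) (nat_lit 380) (nat_lit 8014089902) (nat_lit 78) (nat_lit 5) (nat_lit 82) (nat_lit 5) (nat_lit 83) (nat_lit 5) (nat_lit 335) (nat_lit 313) (nat_lit 252)) (XT.nd (nat_lit 78) (nat_lit 228) (nat_lit 0) (XT.lf (nat_lit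 0) (nat_lit 8877023870) (nat_lit 380) (nat_lit 1402862295) (nat_lit 76) (nat_lit 4295832264) (nat_lit 78) (nat_lit 5) (nat_lit 83) (nat_lit 5) (nat_lit 79) (nat_lit 5) (nat_lit 336) (nat_lit 313) (nat_lit 251)) (XT.lf (nat_lit 0) (nat_lit 7008294883) (nat_lit 228) (nat_lit 4825613212) (nat_lit 304) (nat_lit 3160158106) (nat_lit 75) (nat_lit 5) (nat_lit 78) (nat_lit 5) (nat_lit 79) (nat_lit 5) (nat_lit 337) (nat_lit 313) (nat_lit 250))))) (XT.nd (nat_lit 234) (nat_lit 532) (nat_lit 0) (XT.nd (nat_lit 78) (nat_lit 304) (nat_lit 0) (XT.lf (nat_lit 0) (nat_lit 420545810) (nat_lit 304) (nat_lit 14536110934) (nat_lit 380) (nat_lit 475792126) (nat_lit 71) (nat_lit 5) (nat_lit 75) (nat_lit 5) (nat_lit 76) (nat_lit 5) (nat_lit 338) (nat_lit 313) (nat_lit 249)) (XT.nd (nat_lit 78) (nat_lit 228) (nat_lit 0) (XT.lf (nat_lit 0) (nat_lit 2457903117) (nat_lit 380) (nat_lit 6514814610) (nat_lit 76) (nat_lit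 6908716115) (nat_lit 70) (nat_lit 5) (nat_lit 75) (nat_lit 5) (nat_lit 71) (nat_lit 5) (nat_lit 339) (nat_lit 313) (nat_lit 248)) (XT.lf (nat_lit 0) (nat_lit 2443881414) (nat_lit 228) (nat_lit 3091354988) (nat_lit 304) (nat_lit 10816610516) (nat_lit 67) (nat_lit 5) (nat_lit 70) (nat_lit 5) (nat_lit 71) (nat_lit 5) (nat_lit 340) (nat_lit 313) (nat_lit 247)))) (XT.nd (nat_lit 156) (nat_lit 304) (nat_lit 0) (XT.nd (nat_lit 78) (nat_lit 228) (nat_lit 0) (XT.lf (nat_lit 0) (nat_lit 8902064128) (nat_lit 304) (nat_lit 4847762920) (nat_lit 76) (nat_lit 3089187443) (nat_lit 67) (nat_lit 5) (nat_lit 71) (nat_lit 5) (nat_lit 68) (nat_lit 5) (nat_lit 341) (nat_lit 313) (nat_lit 246)) (XT.lf (nat_lit 0) (nat_lit 4733678190) (nat_lit 228) (nat_lit 7804649897) (nat_lit 304) (nat_lit 4807172122) (nat_lit 64) (nat_lit 5) (nat_lit 67) (nat_lit 5) (nat_lit 68) (nat_lit 5) (nat_lit 342) (nat_lit 313) (nat_lit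 245))) (XT.nd (nat_lit 78) (nat_lit 304) (nat_lit 0) (XT.lf (nat_lit 0) (nat_lit 14930419644) (nat_lit 228) (nat_lit 1485213470) (nat_lit 304) (nat_lit 1458729525) (nat_lit 64) (nat_lit 5) (nat_lit 67) (nat_lit 5) (nat_lit 68) (nat_lit 5) (nat_lit 343) (nat_lit 313) (nat_lit 244)) (XT.lf (nat_lit 0) (nat_lit 2167048191) (nat_lit 304) (nat_lit 11125973039) (nat_lit 76) (nat_lit 5126265903) (nat_lit 60) (nat_lit 5) (nat_lit 64) (nat_lit 5) (nat_lit 61) (nat_lit 5) (nat_lit 344) (nat_lit 313) (nat_lit 243))))))))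
noncomputable def xc136 : XT := (XT.nd (nat_lit 1872) (nat_lit 1140) (nat_lit 0) (XT.nd (nat_lit 936) (nat_lit 988) (nat_lit 0) (XT.nd (nat_lit 468) (nat_lit 684) (nat_lit 0) (XT.nd (nat_lit 234) (nat_lit 304) (nat_lit 0) (XT.nd (nat_lit 78) (nat_lit 380) (nat_lit 0) (XT.lf (nat_lit 0) (nat_lit 5978392432) (nat_lit 304) (nat_lit 925137599) (nat_lit 76) (nat_lit 12084079054) (nat_lit 60) (nat_lit 5) (nat_lit 64) (nat_lit 5) (nat_lit 61) (nat_lit 5) (nat_lit 345) (nat_lit 313) (nat_lit 242)) (XT.nd (nat_lit 78) (nat_lit 152) (nat_lit 0) (XT.lf (nat_lit 0) (nat_lit 10078077209) (nat_lit 228) (nat_lit 38886393) (nat_lit 304) (nat_lit 9460561913) (nat_lit 57) (nat_lit 5) (nat_lit 60) (nat_lit 5) (nat_lit 61) (nat_lit 5) (nat_lit 346) (nat_lit 313) (nat_lit 241)) (XT.lf (nat_lit 0) (nat_lit 1368424248) (nat_lit 152) (nat_lit 13222940655) (nat_lit 228) (nat_lit 5599138612) (nat_lit 55) (nat_lit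 5) (nat_lit 57) (nat_lit 5) (nat_lit 58) (nat_lit 5) (nat_lit 347) (nat_lit 313) (nat_lit 240)))) (XT.nd (nat_lit 78) (nat_lit 304) (nat_lit 0) (XT.lf (nat_lit 0) (nat_lit 13078718842) (nat_lit 152) (nat_lit 6352453784) (nat_lit 228) (nat_lit 1395883783) (nat_lit 55) (nat_lit 5) (nat_lit 57) (nat_lit 5) (nat_lit 58) (nat_lit 5) (nat_lit 348) (nat_lit 313) (nat_lit 239)) (XT.nd (nat_lit 78) (nat_lit 0) (nat_lit 0) (XT.lf (nat_lit 0) (nat_lit 2978164227) (nat_lit 304) (nat_lit 17577665133) (nat_lit 76) (nat_lit 934400813) (nat_lit 51) (nat_lit 5) (nat_lit 55) (nat_lit 5) (nat_lit 52) (nat_lit 5) (nat_lit 349) (nat_lit 313) (nat_lit 238)) (XT.lf (nat_lit 0) (nat_lit 7742627193) (nat_lit 304) (nat_lit 5913294045) (nat_lit 76) (nat_lit 8518574959) (nat_lit 51) (nat_lit 5) (nat_lit 55) (nat_lit 5) (nat_lit 52) (nat_lit 5) (nat_lit 350) (nat_lit 313) (nat_lit 237))))) (XT.nd (nat_lit 234) (nat_lit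 380) (nat_lit 0) (XT.nd (nat_lit 78) (nat_lit 152) (nat_lit 0) (XT.lf (nat_lit 0) (nat_lit 6514577061) (nat_lit 152) (nat_lit 6314458281) (nat_lit 228) (nat_lit 10059762561) (nat_lit 49) (nat_lit 5) (nat_lit 51) (nat_lit 5) (nat_lit 52) (nat_lit 5) (nat_lit 351) (nat_lit 313) (nat_lit 236)) (XT.nd (nat_lit 78) (nat_lit 152) (nat_lit 0) (XT.lf (nat_lit 0) (nat_lit 18275590511) (nat_lit 228) (nat_lit 3916574179) (nat_lit 76) (nat_lit 1441366753) (nat_lit 49) (nat_lit 5) (nat_lit 52) (nat_lit 5) (nat_lit 50) (nat_lit 5) (nat_lit 352) (nat_lit 313) (nat_lit 235)) (XT.lf (nat_lit 0) (nat_lit 9331980304) (nat_lit 152) (nat_lit 14894826199) (nat_lit 228) (nat_lit 177086198) (nat_lit 47) (nat_lit 5) (nat_lit 49) (nat_lit 5) (nat_lit 50) (nat_lit 5) (nat_lit 353) (nat_lit 313) (nat_lit 234)))) (XT.nd (nat_lit 78) (nat_lit 304) (nat_lit 0) (XT.lf (nat_lit 0) (nat_lit 5145013341) (nat_lit 228) (nat_lit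 1941037265) (nat_lit 76) (nat_lit 18120087789) (nat_lit 46) (nat_lit 5) (nat_lit 49) (nat_lit 5) (nat_lit 47) (nat_lit 5) (nat_lit 354) (nat_lit 313) (nat_lit 233)) (XT.nd (nat_lit 78) (nat_lit 152) (nat_lit 0) (XT.lf (nat_lit 0) (nat_lit 10922294596) (nat_lit 228) (nat_lit 13851769133) (nat_lit 76) (nat_lit 1264542740) (nat_lit 44) (nat_lit 5) (nat_lit 47) (nat_lit 5) (nat_lit 45) (nat_lit 5) (nat_lit 355) (nat_lit 313) (nat_lit 232)) (XT.lf (nat_lit 0) (nat_lit 35699853) (nat_lit 152) (nat_lit 17087107221) (nat_lit 228) (nat_lit 9783178843) (nat_lit 42) (nat_lit 5) (nat_lit 44) (nat_lit 5) (nat_lit 45) (nat_lit 5) (nat_lit 356) (nat_lit 313) (nat_lit 231)))))) (XT.nd (nat_lit 468) (nat_lit 532) (nat_lit 0) (XT.nd (nat_lit 234) (nat_lit 228) (nat_lit 0) (XT.nd (nat_lit 78) (nat_lit 228) (nat_lit 0) (XT.lf (nat_lit 0) (nat_lit 15072687793) (nat_lit 152) (nat_lit 8779826163) (nat_lit 228)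 (nat_lit 3953267973) (nat_lit 42) (nat_lit 5) (nat_lit 44) (nat_lit 5) (nat_lit 45) (nat_lit 5) (nat_lit 357) (nat_lit 313) (nat_lit 230)) (XT.nd (nat_lit 78) (nat_lit 0) (nat_lit 0) (XT.lf (nat_lit 0) (nat_lit 2116959844) (nat_lit 228) (nat_lit 26628090973) (nat_lit 76) (nat_lit 2919088) (nat_lit 39) (nat_lit 5) (nat_lit 42) (nat_lit 5) (nat_lit 40) (nat_lit 5) (nat_lit 358) (nat_lit 313) (nat_lit 229)) (XT.lf (nat_lit 0) (nat_lit 8706191372) (nat_lit 228) (nat_lit 11806399087) (nat_lit 76) (nat_lit 9204024243) (nat_lit 39) (nat_lit 5) (nat_lit 42) (nat_lit 5) (nat_lit 40) (nat_lit 5) (nat_lit 359) (nat_lit 313) (nat_lit 228)))) (XT.nd (nat_lit 78) (nat_lit 76) (nat_lit 0) (XT.lf (nat_lit 0) (nat_lit 3855782271) (nat_lit 152) (nat_lit 11815244875) (nat_lit 228) (nat_lit 15060362418) (nat_lit 37) (nat_lit 5) (nat_lit 39) (nat_lit 5) (nat_lit 40) (nat_lit 5) (nat_lit 360) (nat_lit 313) (nat_lit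 227)) (XT.nd (nat_lit 78) (nat_lit 76) (nat_lit 0) (XT.lf (nat_lit 0) (nat_lit 20687347146) (nat_lit 152) (nat_lit 2482948397) (nat_lit 228) (nat_lit 8617302810) (nat_lit 37) (nat_lit 5) (nat_lit 39) (nat_lit 5) (nat_lit 40) (nat_lit 5) (nat_lit 361) (nat_lit 313) (nat_lit 226)) (XT.lf (nat_lit 0) (nat_lit 5502767543) (nat_lit 76) (nat_lit 25728648308) (nat_lit 152) (nat_lit 1655861803) (nat_lit 36) (nat_lit 5) (nat_lit 37) (nat_lit 5) (nat_lit 38) (nat_lit 4) (nat_lit 362) (nat_lit 313) (nat_lit 225))))) (XT.nd (nat_lit 234) (nat_lit 304) (nat_lit 0) (XT.nd (nat_lit 78) (nat_lit 152) (nat_lit 0) (XT.lf (nat_lit 0) (nat_lit 5691285950) (nat_lit 152) (nat_lit 10866358244) (nat_lit 76) (nat_lit 17468957999) (nat_lit 35) (nat_lit 5) (nat_lit 37) (nat_lit 5) (nat_lit 36) (nat_lit 5) (nat_lit 363) (nat_lit 313) (nat_lit 224)) (XT.nd (nat_lit 78) (nat_lit 0) (nat_lit 0) (XT.lf (nat_lit 0) (nat_lit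 6641138186) (nat_lit 152) (nat_lit 6800132701) (nat_lit 228) (nat_lit 21775712313) (nat_lit 33) (nat_lit 5) (nat_lit 35) (nat_lit 5) (nat_lit 36) (nat_lit 5) (nat_lit 364) (nat_lit 313) (nat_lit 223)) (XT.lf (nat_lit 0) (nat_lit 21807144788) (nat_lit 228) (nat_lit 11135318248) (nat_lit 76) (nat_lit 3513004436) (nat_lit 33) (nat_lit 5) (nat_lit 36) (nat_lit 5) (nat_lit 34) (nat_lit 4) (nat_lit 365) (nat_lit 313) (nat_lit 222)))) (XT.nd (nat_lit 78) (nat_lit 228) (nat_lit 0) (XT.lf (nat_lit 0) (nat_lit 7277645185) (nat_lit 76) (nat_lit 23526917572) (nat_lit 152) (nat_lit 6940654208) (nat_lit 32) (nat_lit 5) (nat_lit 33) (nat_lit 5) (nat_lit 34) (nat_lit 4) (nat_lit 366) (nat_lit 313) (nat_lit 221)) (XT.nd (nat_lit 78) (nat_lit 152) (nat_lit 0) (XT.lf (nat_lit 0) (nat_lit 1295383181) (nat_lit 152) (nat_lit 12134354886) (nat_lit 76) (nat_lit 25659825985) (nat_lit 31) (nat_lit 5) (nat_lit 33)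 (nat_lit 5) (nat_lit 32) (nat_lit 5) (nat_lit 367) (nat_lit 313) (nat_lit 220)) (XT.lf (nat_lit 0) (nat_lit 7212494813) (nat_lit 152) (nat_lit 2598841391) (nat_lit 228) (nat_lit 30679038009) (nat_lit 29) (nat_lit 5) (nat_lit 31) (nat_lit 5) (nat_lit 32) (nat_lit 5) (nat_lit 368) (nat_lit 313) (nat_lit 219))))))) (XT.nd (nat_lit 936) (nat_lit 532) (nat_lit 0) (XT.nd (nat_lit 468) (nat_lit 304) (nat_lit 0) (XT.nd (nat_lit 234) (nat_lit 228) (nat_lit 0) (XT.nd (nat_lit 78) (nat_lit 76) (nat_lit 0) (XT.lf (nat_lit 0) (nat_lit 19087785466) (nat_lit 228) (nat_lit 14163519439) (nat_lit 76) (nat_lit 8693187948) (nat_lit 29) (nat_lit 5) (nat_lit 32) (nat_lit 5) (nat_lit 30) (nat_lit 4) (nat_lit 369) (nat_lit 313) (nat_lit 218)) (XT.nd (nat_lit 78) (nat_lit 0) (nat_lit 0) (XT.lf (nat_lit 0) (nat_lit 6037984286) (nat_lit 76) (nat_lit 22916325820) (nat_lit 152) (nat_lit 14510697436) (nat_lit 28) (nat_lit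 5) (nat_lit 29) (nat_lit 5) (nat_lit 30) (nat_lit 4) (nat_lit 370) (nat_lit 313) (nat_lit 217)) (XT.lf (nat_lit 0) (nat_lit 27722375185) (nat_lit 76) (nat_lit 11821241416) (nat_lit 152) (nat_lit 5506461213) (nat_lit 28) (nat_lit 5) (nat_lit 29) (nat_lit 5) (nat_lit 30) (nat_lit 4) (nat_lit 371) (nat_lit 313) (nat_lit 216)))) (XT.nd (nat_lit 78) (nat_lit 0) (nat_lit 0) (XT.lf (nat_lit 0) (nat_lit 3818822611) (nat_lit 152) (nat_lit 52346840) (nat_lit 228) (nat_lit 42837675435) (nat_lit 25) (nat_lit 5) (nat_lit 27) (nat_lit 5) (nat_lit 28) (nat_lit 5) (nat_lit 372) (nat_lit 313) (nat_lit 215)) (XT.nd (nat_lit 78) (nat_lit 0) (nat_lit 0) (XT.lf (nat_lit 0) (nat_lit 14012998500) (nat_lit 228) (nat_lit 22117242101) (nat_lit 76) (nat_lit 12291779987) (nat_lit 25) (nat_lit 5) (nat_lit 28) (nat_lit 5) (nat_lit 26) (nat_lit 4) (nat_lit 373) (nat_lit 313) (nat_lit 214)) (XT.lf (nat_lit 0) (nat_lit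 24653244673) (nat_lit 228) (nat_lit 324225143) (nat_lit 76) (nat_lit 25243821140) (nat_lit 25) (nat_lit 5) (nat_lit 28) (nat_lit 5) (nat_lit 26) (nat_lit 4) (nat_lit 374) (nat_lit 313) (nat_lit 213))))) (XT.nd (nat_lit 234) (nat_lit 76) (nat_lit 0) (XT.nd (nat_lit 78) (nat_lit 152) (nat_lit 0) (XT.lf (nat_lit 0) (nat_lit 23287065542) (nat_lit 76) (nat_lit 12892935421) (nat_lit 152) (nat_lit 15912801049) (nat_lit 24) (nat_lit 5) (nat_lit 25) (nat_lit 5) (nat_lit 26) (nat_lit 4) (nat_lit 375) (nat_lit 313) (nat_lit 212)) (XT.nd (nat_lit 78) (nat_lit 152) (nat_lit 0) (XT.lf (nat_lit 0) (nat_lit 48073737973) (nat_lit 76) (nat_lit 205945110) (nat_lit 152) (nat_lit 5778378100) (nat_lit 24) (nat_lit 5) (nat_lit 25) (nat_lit 5) (nat_lit 26) (nat_lit 4) (nat_lit 376) (nat_lit 313) (nat_lit 211)) (XT.lf (nat_lit 0) (nat_lit 5197623670) (nat_lit 152) (nat_lit 37836725334) (nat_lit 76) (nat_lit 13058915191)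 (nat_lit 22) (nat_lit 5) (nat_lit 24) (nat_lit 5) (nat_lit 23) (nat_lit 4) (nat_lit 377) (nat_lit 313) (nat_lit 210)))) (XT.nd (nat_lit 78) (nat_lit 76) (nat_lit 0) (XT.lf (nat_lit 0) (nat_lit 16626052024) (nat_lit 152) (nat_lit 14423716328) (nat_lit 76) (nat_lit 27170833431) (nat_lit 22) (nat_lit 5) (nat_lit 24) (nat_lit 5) (nat_lit 23) (nat_lit 4) (nat_lit 378) (nat_lit 313) (nat_lit 209)) (XT.nd (nat_lit 78) (nat_lit 0) (nat_lit 0) (XT.lf (nat_lit 0) (nat_lit 10480137279) (nat_lit 76) (nat_lit 18301229685) (nat_lit 152) (nat_lit 31665167643) (nat_lit 21) (nat_lit 5) (nat_lit 22) (nat_lit 5) (nat_lit 23) (nat_lit 4) (nat_lit 379) (nat_lit 313) (nat_lit 208)) (XT.lf (nat_lit 0) (nat_lit 37114952475) (nat_lit 76) (nat_lit 4665763141) (nat_lit 152) (nat_lit 20991236596) (nat_lit 21) (nat_lit 5) (nat_lit 22) (nat_lit 5) (nat_lit 23) (nat_lit 4) (nat_lit 380) (nat_lit 313) (nat_lit 207))))))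 (XT.nd (nat_lit 468) (nat_lit 304) (nat_lit 0) (XT.nd (nat_lit 234) (nat_lit 76) (nat_lit 0) (XT.nd (nat_lit 78) (nat_lit 152) (nat_lit 0) (XT.lf (nat_lit 0) (nat_lit 55572990959) (nat_lit 152) (nat_lit 297373785) (nat_lit 0) (nat_lit 9336129455) (nat_lit 21) (nat_lit 5) (nat_lit 23) (nat_lit 4) (nat_lit 21) (nat_lit 4) (nat_lit 381) (nat_lit 313) (nat_lit 206)) (XT.nd (nat_lit 78) (nat_lit 0) (nat_lit 0) (XT.lf (nat_lit 0) (nat_lit 2719177210) (nat_lit 152) (nat_lit 40674511978) (nat_lit 76) (nat_lit 24342264984) (nat_lit 19) (nat_lit 5) (nat_lit 21) (nat_lit 5) (nat_lit 20) (nat_lit 4) (nat_lit 382) (nat_lit 313) (nat_lit 205)) (XT.lf (nat_lit 0) (nat_lit 15363519997) (nat_lit 152) (nat_lit 14765003317) (nat_lit 76) (nat_lit 40255579921) (nat_lit 19) (nat_lit 5) (nat_lit 21) (nat_lit 5) (nat_lit 20) (nat_lit 4) (nat_lit 383) (nat_lit 313) (nat_lit 204)))) (XT.nd (nat_lit 78) (nat_lit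 0) (nat_lit 0) (XT.lf (nat_lit 0) (nat_lit 12837644370) (nat_lit 76) (nat_lit 15995875219) (nat_lit 152) (nat_lit 44321469382) (nat_lit 18) (nat_lit 5) (nat_lit 19) (nat_lit 5) (nat_lit 20) (nat_lit 4) (nat_lit 384) (nat_lit 313) (nat_lit 203)) (XT.nd (nat_lit 78) (nat_lit 0) (nat_lit 0) (XT.lf (nat_lit 0) (nat_lit 42320024064) (nat_lit 76) (nat_lit 900185494) (nat_lit 152) (nat_lit 32832051066) (nat_lit 18) (nat_lit 5) (nat_lit 19) (nat_lit 5) (nat_lit 20) (nat_lit 4) (nat_lit 385) (nat_lit 313) (nat_lit 202)) (XT.lf (nat_lit 0) (nat_lit 58553023231) (nat_lit 152) (nat_lit 6063914022) (nat_lit 0) (nat_lit 14466120239) (nat_lit 18) (nat_lit 5) (nat_lit 20) (nat_lit 4) (nat_lit 18) (nat_lit 4) (nat_lit 386) (nat_lit 313) (nat_lit 201))))) (XT.nd (nat_lit 234) (nat_lit 152) (nat_lit 0) (XT.nd (nat_lit 78) (nat_lit 76) (nat_lit 0) (XT.lf (nat_lit 0) (nat_lit 23720239492) (nat_lit 76) (nat_lit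 51311023506) (nat_lit 76) (nat_lit 7215192975) (nat_lit 17) (nat_lit 4) (nat_lit 18) (nat_lit 5) (nat_lit 18) (nat_lit 4) (nat_lit 387) (nat_lit 313) (nat_lit 200)) (XT.nd (nat_lit 78) (nat_lit 0) (nat_lit 0) (XT.lf (nat_lit 0) (nat_lit 6646936648) (nat_lit 152) (nat_lit 30478112818) (nat_lit 76) (nat_lit 48432790470) (nat_lit 16) (nat_lit 5) (nat_lit 18) (nat_lit 5) (nat_lit 17) (nat_lit 4) (nat_lit 388) (nat_lit 313) (nat_lit 199)) (XT.lf (nat_lit 0) (nat_lit 20953697021) (nat_lit 152) (nat_lit 1157351592) (nat_lit 76) (nat_lit 66918131188) (nat_lit 16) (nat_lit 5) (nat_lit 18) (nat_lit 5) (nat_lit 17) (nat_lit 4) (nat_lit 389) (nat_lit 313) (nat_lit 198)))) (XT.nd (nat_lit 156) (nat_lit 76) (nat_lit 0) (XT.nd (nat_lit 78) (nat_lit 0) (nat_lit 0) (XT.lf (nat_lit 0) (nat_lit 30597850209) (nat_lit 76) (nat_lit 5849951078) (nat_lit 152) (nat_lit 56202685935) (nat_lit 15) (nat_lit 5) (nat_lit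 16) (nat_lit 5) (nat_lit 17) (nat_lit 4) (nat_lit 390) (nat_lit 313) (nat_lit 197)) (XT.lf (nat_lit 0) (nat_lit 52906085408) (nat_lit 152) (nat_lit 32657394509) (nat_lit 0) (nat_lit 10879907181) (nat_lit 15) (nat_lit 5) (nat_lit 17) (nat_lit 4) (nat_lit 15) (nat_lit 4) (nat_lit 391) (nat_lit 313) (nat_lit 196))) (XT.nd (nat_lit 78) (nat_lit 76) (nat_lit 0) (XT.lf (nat_lit 0) (nat_lit 70277767215) (nat_lit 152) (nat_lit 1898714232) (nat_lit 0) (nat_lit 28244927122) (nat_lit 15) (nat_lit 5) (nat_lit 17) (nat_lit 4) (nat_lit 15) (nat_lit 4) (nat_lit 392) (nat_lit 313) (nat_lit 195)) (XT.lf (nat_lit 0) (nat_lit 31392736522) (nat_lit 76) (nat_lit 57610265800) (nat_lit 76) (nat_lit 15571081072) (nat_lit 14) (nat_lit 4) (nat_lit 15) (nat_lit 5) (nat_lit 15) (nat_lit 4) (nat_lit 393) (nat_lit 313) (nat_lit 194))))))))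
noncomputable def xc137 : XT := (XT.nd (nat_lit 1950) (nat_lit 228) (nat_lit 0) (XT.nd (nat_lit 936) (nat_lit 228) (nat_lit 0) (XT.nd (nat_lit 468) (nat_lit 152) (nat_lit 0) (XT.nd (nat_lit 234) (nat_lit 76) (nat_lit 0) (XT.nd (nat_lit 78) (nat_lit 152) (nat_lit 0) (XT.lf (nat_lit 0) (nat_lit 66404911844) (nat_lit 76) (nat_lit 42286676793) (nat_lit 76) (nat_lit 241449556) (nat_lit 14) (nat_lit 4) (nat_lit 15) (nat_lit 5) (nat_lit 15) (nat_lit 4) (nat_lit 394) (nat_lit 313) (nat_lit 193)) (XT.nd (nat_lit 78) (nat_lit 76) (nat_lit 0) (XT.lf (nat_lit 0) (nat_lit 15342310597) (nat_lit 152) (nat_lit 10599245283) (nat_lit 76) (nat_lit 87556253938) (nat_lit 13) (nat_lit 5) (nat_lit 15) (nat_lit 5) (nat_lit 14) (nat_lit 4) (nat_lit 395) (nat_lit 313) (nat_lit 192)) (XT.lf (nat_lit 0) (nat_lit 23670718409) (nat_lit 76) (nat_lit 8391321176) (nat_lit 152) (nat_lit 86210338382) (nat_lit 12) (nat_lit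 5) (nat_lit 13) (nat_lit 5) (nat_lit 14) (nat_lit 4) (nat_lit 396) (nat_lit 313) (nat_lit 191)))) (XT.nd (nat_lit 78) (nat_lit 76) (nat_lit 0) (XT.lf (nat_lit 0) (nat_lit 49952243763) (nat_lit 152) (nat_lit 63423208367) (nat_lit 0) (nat_lit 9893498536) (nat_lit 12) (nat_lit 5) (nat_lit 14) (nat_lit 4) (nat_lit 12) (nat_lit 4) (nat_lit 397) (nat_lit 313) (nat_lit 190)) (XT.nd (nat_lit 78) (nat_lit 76) (nat_lit 0) (XT.lf (nat_lit 0) (nat_lit 68870088401) (nat_lit 152) (nat_lit 30831998930) (nat_lit 0) (nat_lit 28806608710) (nat_lit 12) (nat_lit 5) (nat_lit 14) (nat_lit 4) (nat_lit 12) (nat_lit 4) (nat_lit 398) (nat_lit 313) (nat_lit 189)) (XT.lf (nat_lit 0) (nat_lit 3492356116) (nat_lit 76) (nat_lit 85291773296) (nat_lit 76) (nat_lit 45223784591) (nat_lit 11) (nat_lit 4) (nat_lit 12) (nat_lit 5) (nat_lit 12) (nat_lit 4) (nat_lit 399) (nat_lit 313) (nat_lit 188))))) (XT.nd (nat_lit 234) (nat_lit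 76) (nat_lit 0) (XT.nd (nat_lit 78) (nat_lit 76) (nat_lit 0) (XT.lf (nat_lit 0) (nat_lit 40595286358) (nat_lit 76) (nat_lit 69616594787) (nat_lit 76) (nat_lit 29544311784) (nat_lit 11) (nat_lit 4) (nat_lit 12) (nat_lit 5) (nat_lit 12) (nat_lit 4) (nat_lit 400) (nat_lit 313) (nat_lit 187)) (XT.nd (nat_lit 78) (nat_lit 76) (nat_lit 0) (XT.lf (nat_lit 0) (nat_lit 79545686981) (nat_lit 76) (nat_lit 53161384772) (nat_lit 76) (nat_lit 13085011962) (nat_lit 11) (nat_lit 4) (nat_lit 12) (nat_lit 5) (nat_lit 12) (nat_lit 4) (nat_lit 401) (nat_lit 313) (nat_lit 186)) (XT.lf (nat_lit 0) (nat_lit 4059091779) (nat_lit 152) (nat_lit 31759129717) (nat_lit 76) (nat_lit 116308462570) (nat_lit 10) (nat_lit 5) (nat_lit 12) (nat_lit 5) (nat_lit 11) (nat_lit 4) (nat_lit 402) (nat_lit 313) (nat_lit 185)))) (XT.nd (nat_lit 78) (nat_lit 0) (nat_lit 0) (XT.lf (nat_lit 0) (nat_lit 4370801947) (nat_lit 76) (nat_lit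 17314456291) (nat_lit 152) (nat_lit 137078801204) (nat_lit 9) (nat_lit 5) (nat_lit 10) (nat_lit 5) (nat_lit 11) (nat_lit 4) (nat_lit 403) (nat_lit 313) (nat_lit 184)) (XT.nd (nat_lit 78) (nat_lit 0) (nat_lit 0) (XT.lf (nat_lit 0) (nat_lit 40768790650) (nat_lit 152) (nat_lit 122345501103) (nat_lit 0) (nat_lit 2590209343) (nat_lit 9) (nat_lit 5) (nat_lit 11) (nat_lit 4) (nat_lit 9) (nat_lit 4) (nat_lit 404) (nat_lit 313) (nat_lit 183)) (XT.lf (nat_lit 0) (nat_lit 61086886903) (nat_lit 152) (nat_lit 88985957820) (nat_lit 0) (nat_lit 22905101124) (nat_lit 9) (nat_lit 5) (nat_lit 11) (nat_lit 4) (nat_lit 9) (nat_lit 4) (nat_lit 405) (nat_lit 313) (nat_lit 182)))))) (XT.nd (nat_lit 468) (nat_lit 152) (nat_lit 0) (XT.nd (nat_lit 234) (nat_lit 0) (nat_lit 0) (XT.nd (nat_lit 78) (nat_lit 76) (nat_lit 0) (XT.lf (nat_lit 0) (nat_lit 82417596230) (nat_lit 152) (nat_lit 53964872974) (nat_lit 0) (nat_lit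 44232758573) (nat_lit 9) (nat_lit 5) (nat_lit 11) (nat_lit 4) (nat_lit 9) (nat_lit 4) (nat_lit 406) (nat_lit 313) (nat_lit 181)) (XT.nd (nat_lit 78) (nat_lit 76) (nat_lit 0) (XT.lf (nat_lit 0) (nat_lit 104811706034) (nat_lit 152) (nat_lit 17198863030) (nat_lit 0) (nat_lit 66623961827) (nat_lit 9) (nat_lit 5) (nat_lit 11) (nat_lit 4) (nat_lit 9) (nat_lit 4) (nat_lit 407) (nat_lit 313) (nat_lit 180)) (XT.lf (nat_lit 0) (nat_lit 22107177883) (nat_lit 76) (nat_lit 106560512744) (nat_lit 76) (nat_lit 68370000394) (nat_lit 8) (nat_lit 4) (nat_lit 9) (nat_lit 5) (nat_lit 9) (nat_lit 4) (nat_lit 408) (nat_lit 313) (nat_lit 179)))) (XT.nd (nat_lit 78) (nat_lit 0) (nat_lit 0) (XT.lf (nat_lit 0) (nat_lit 63969883399) (nat_lit 76) (nat_lit 90034928923) (nat_lit 76) (nat_lit 51841780246) (nat_lit 8) (nat_lit 4) (nat_lit 9) (nat_lit 5) (nat_lit 9) (nat_lit 4) (nat_lit 409) (nat_lit 313) (nat_lit 178))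 (XT.nd (nat_lit 78) (nat_lit 0) (nat_lit 0) (XT.lf (nat_lit 0) (nat_lit 107920254543) (nat_lit 76) (nat_lit 72685742042) (nat_lit 76) (nat_lit 34490082578) (nat_lit 8) (nat_lit 4) (nat_lit 9) (nat_lit 5) (nat_lit 9) (nat_lit 4) (nat_lit 410) (nat_lit 313) (nat_lit 177)) (XT.lf (nat_lit 0) (nat_lit 154062935055) (nat_lit 76) (nat_lit 54471644513) (nat_lit 76) (nat_lit 16273593823) (nat_lit 8) (nat_lit 4) (nat_lit 9) (nat_lit 5) (nat_lit 9) (nat_lit 4) (nat_lit 411) (nat_lit 313) (nat_lit 176))))) (XT.nd (nat_lit 234) (nat_lit 0) (nat_lit 0) (XT.nd (nat_lit 78) (nat_lit 76) (nat_lit 0) (XT.lf (nat_lit 0) (nat_lit 2759806929) (nat_lit 152) (nat_lit 32542723842) (nat_lit 76) (nat_lit 199701242865) (nat_lit 7) (nat_lit 5) (nat_lit 9) (nat_lit 5) (nat_lit 8) (nat_lit 4) (nat_lit 412) (nat_lit 313) (nat_lit 175)) (XT.nd (nat_lit 78) (nat_lit 0) (nat_lit 0) (XT.lf (nat_lit 0) (nat_lit 7539645662)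 (nat_lit 76) (nat_lit 14773594641) (nat_lit 152) (nat_lit 223376811716) (nat_lit 6) (nat_lit 5) (nat_lit 7) (nat_lit 5) (nat_lit 8) (nat_lit 4) (nat_lit 413) (nat_lit 313) (nat_lit 174)) (XT.lf (nat_lit 0) (nat_lit 43507943534) (nat_lit 152) (nat_lit 206246875280) (nat_lit 0) (nat_lit 7122645828) (nat_lit 6) (nat_lit 5) (nat_lit 8) (nat_lit 4) (nat_lit 6) (nat_lit 4) (nat_lit 414) (nat_lit 313) (nat_lit 173)))) (XT.nd (nat_lit 156) (nat_lit 0) (nat_lit 0) (XT.nd (nat_lit 78) (nat_lit 0) (nat_lit 0) (XT.lf (nat_lit 0) (nat_lit 66002242313) (nat_lit 152) (nat_lit 172994941763) (nat_lit 0) (nat_lit 29615071019) (nat_lit 6) (nat_lit 5) (nat_lit 8) (nat_lit 4) (nat_lit 6) (nat_lit 4) (nat_lit 415) (nat_lit 313) (nat_lit 172)) (XT.lf (nat_lit 0) (nat_lit 89619037280) (nat_lit 152) (nat_lit 138084777322) (nat_lit 0) (nat_lit 53230081615) (nat_lit 6) (nat_lit 5) (nat_lit 8) (nat_lit 4) (nat_lit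 6) (nat_lit 4) (nat_lit 416) (nat_lit 313) (nat_lit 171))) (XT.nd (nat_lit 78) (nat_lit 0) (nat_lit 0) (XT.lf (nat_lit 0) (nat_lit 114414558897) (nat_lit 152) (nat_lit 101433262516) (nat_lit 0) (nat_lit 78023903833) (nat_lit 6) (nat_lit 5) (nat_lit 8) (nat_lit 4) (nat_lit 6) (nat_lit 4) (nat_lit 417) (nat_lit 313) (nat_lit 170)) (XT.lf (nat_lit 0) (nat_lit 140447844123) (nat_lit 152) (nat_lit 62953131836) (nat_lit 0) (nat_lit 104055570583) (nat_lit 6) (nat_lit 5) (nat_lit 8) (nat_lit 4) (nat_lit 6) (nat_lit 4) (nat_lit 418) (nat_lit 313) (nat_lit 169))))))) (XT.nd (nat_lit 936) (nat_lit 0) (nat_lit 0) (XT.nd (nat_lit 468) (nat_lit 152) (nat_lit 0) (XT.nd (nat_lit 234) (nat_lit 0) (nat_lit 0) (XT.nd (nat_lit 78) (nat_lit 76) (nat_lit 0) (XT.lf (nat_lit 0) (nat_lit 167780876968) (nat_lit 152) (nat_lit 22552765921) (nat_lit 0) (nat_lit 131387062023) (nat_lit 6) (nat_lit 5) (nat_lit 8) (nat_lit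 4) (nat_lit 6) (nat_lit 4) (nat_lit 419) (nat_lit 313) (nat_lit 168)) (XT.nd (nat_lit 78) (nat_lit 0) (nat_lit 0) (XT.lf (nat_lit 0) (nat_lit 20520821001) (nat_lit 76) (nat_lit 176278302608) (nat_lit 76) (nat_lit 139883019657) (nat_lit 5) (nat_lit 4) (nat_lit 6) (nat_lit 5) (nat_lit 6) (nat_lit 4) (nat_lit 420) (nat_lit 313) (nat_lit 167)) (XT.lf (nat_lit 0) (nat_lit 66527534594) (nat_lit 76) (nat_lit 161120896369) (nat_lit 76) (nat_lit 124724215317) (nat_lit 5) (nat_lit 4) (nat_lit 6) (nat_lit 5) (nat_lit 6) (nat_lit 4) (nat_lit 421) (nat_lit 313) (nat_lit 166)))) (XT.nd (nat_lit 78) (nat_lit 0) (nat_lit 0) (XT.lf (nat_lit 0) (nat_lit 114831218359) (nat_lit 76) (nat_lit 145207277114) (nat_lit 76) (nat_lit 108809264539) (nat_lit 5) (nat_lit 4) (nat_lit 6) (nat_lit 5) (nat_lit 6) (nat_lit 4) (nat_lit 422) (nat_lit 313) (nat_lit 165)) (XT.nd (nat_lit 78) (nat_lit 0) (nat_lit 0) (XT.lf (nat_lit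 0) (nat_lit 165546881066) (nat_lit 76) (nat_lit 128499555274) (nat_lit 76) (nat_lit 92100274580) (nat_lit 5) (nat_lit 4) (nat_lit 6) (nat_lit 5) (nat_lit 6) (nat_lit 4) (nat_lit 423) (nat_lit 313) (nat_lit 164)) (XT.lf (nat_lit 0) (nat_lit 218795274293) (nat_lit 76) (nat_lit 110957950558) (nat_lit 76) (nat_lit 74557462133) (nat_lit 5) (nat_lit 4) (nat_lit 6) (nat_lit 5) (nat_lit 6) (nat_lit 4) (nat_lit 424) (nat_lit 313) (nat_lit 163))))) (XT.nd (nat_lit 234) (nat_lit 152) (nat_lit 0) (XT.nd (nat_lit 78) (nat_lit 0) (nat_lit 0) (XT.lf (nat_lit 0) (nat_lit 274703179930) (nat_lit 76) (nat_lit 92540697242) (nat_lit 76) (nat_lit 56139058596) (nat_lit 5) (nat_lit 4) (nat_lit 6) (nat_lit 5) (nat_lit 6) (nat_lit 4) (nat_lit 425) (nat_lit 313) (nat_lit 162)) (XT.nd (nat_lit 78) (nat_lit 0) (nat_lit 0) (XT.lf (nat_lit 0) (nat_lit 333403712037) (nat_lit 76) (nat_lit 73203944722) (nat_lit 76) (nat_lit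 36801210628) (nat_lit 5) (nat_lit 4) (nat_lit 6) (nat_lit 5) (nat_lit 6) (nat_lit 4) (nat_lit 426) (nat_lit 313) (nat_lit 161)) (XT.lf (nat_lit 0) (nat_lit 395036633785) (nat_lit 76) (nat_lit 52901653110) (nat_lit 76) (nat_lit 16497875732) (nat_lit 5) (nat_lit 4) (nat_lit 6) (nat_lit 5) (nat_lit 6) (nat_lit 4) (nat_lit 427) (nat_lit 313) (nat_lit 160)))) (XT.nd (nat_lit 78) (nat_lit 76) (nat_lit 0) (XT.lf (nat_lit 0) (nat_lit 4665040070) (nat_lit 152) (nat_lit 26841438837) (nat_lit 76) (nat_lit 455004645446) (nat_lit 4) (nat_lit 5) (nat_lit 6) (nat_lit 5) (nat_lit 5) (nat_lit 4) (nat_lit 428) (nat_lit 313) (nat_lit 159)) (XT.nd (nat_lit 78) (nat_lit 0) (nat_lit 0) (XT.lf (nat_lit 0) (nat_lit 18152664612) (nat_lit 76) (nat_lit 8461180209) (nat_lit 152) (nat_lit 483048357602) (nat_lit 3) (nat_lit 5) (nat_lit 4) (nat_lit 5) (nat_lit 5) (nat_lit 4) (nat_lit 429) (nat_lit 313) (nat_lit 158))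 (XT.lf (nat_lit 0) (nat_lit 50366572576) (nat_lit 152) (nat_lit 467875335203) (nat_lit 0) (nat_lit 15693602577) (nat_lit 3) (nat_lit 5) (nat_lit 5) (nat_lit 4) (nat_lit 3) (nat_lit 4) (nat_lit 430) (nat_lit 313) (nat_lit 157)))))) (XT.nd (nat_lit 468) (nat_lit 0) (nat_lit 0) (XT.nd (nat_lit 234) (nat_lit 0) (nat_lit 0) (XT.nd (nat_lit 78) (nat_lit 0) (nat_lit 0) (XT.lf (nat_lit 0) (nat_lit 75444472167) (nat_lit 152) (nat_lit 443200450116) (nat_lit 0) (nat_lit 40770684728) (nat_lit 3) (nat_lit 5) (nat_lit 5) (nat_lit 4) (nat_lit 3) (nat_lit 4) (nat_lit 431) (nat_lit 313) (nat_lit 156)) (XT.nd (nat_lit 78) (nat_lit 0) (nat_lit 0) (XT.lf (nat_lit 0) (nat_lit 101775150143) (nat_lit 152) (nat_lit 417294030086) (nat_lit 0) (nat_lit 67100584189) (nat_lit 3) (nat_lit 5) (nat_lit 5) (nat_lit 4) (nat_lit 3) (nat_lit 4) (nat_lit 432) (nat_lit 313) (nat_lit 155)) (XT.lf (nat_lit 0) (nat_lit 129421298594)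 (nat_lit 152) (nat_lit 390094393163) (nat_lit 0) (nat_lit 94745991197) (nat_lit 3) (nat_lit 5) (nat_lit 5) (nat_lit 4) (nat_lit 3) (nat_lit 4) (nat_lit 433) (nat_lit 313) (nat_lit 154)))) (XT.nd (nat_lit 78) (nat_lit 0) (nat_lit 0) (XT.lf (nat_lit 0) (nat_lit 158448741683) (nat_lit 152) (nat_lit 361536778304) (nat_lit 0) (nat_lit 123772728150) (nat_lit 3) (nat_lit 5) (nat_lit 5) (nat_lit 4) (nat_lit 3) (nat_lit 4) (nat_lit 434) (nat_lit 313) (nat_lit 153)) (XT.nd (nat_lit 78) (nat_lit 0) (nat_lit 0) (XT.lf (nat_lit 0) (nat_lit 188926592369) (nat_lit 152) (nat_lit 331553191191) (nat_lit 0) (nat_lit 154249906327) (nat_lit 3) (nat_lit 5) (nat_lit 5) (nat_lit 4) (nat_lit 3) (nat_lit 4) (nat_lit 435) (nat_lit 313) (nat_lit 152)) (XT.lf (nat_lit 0) (nat_lit 220927416965) (nat_lit 152) (nat_lit 300072242328) (nat_lit 0) (nat_lit 186250090436) (nat_lit 3) (nat_lit 5) (nat_lit 5) (nat_lit 4) (nat_lit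 3) (nat_lit 4) (nat_lit 436) (nat_lit 313) (nat_lit 151))))) (XT.nd (nat_lit 37440) (nat_lit 0) (nat_lit 8740) (XT.nd (nat_lit 37284) (nat_lit 0) (nat_lit 9348) (XT.lf (nat_lit 0) (nat_lit 254527407909) (nat_lit 152) (nat_lit 267018977077) (nat_lit 0) (nat_lit 219849471394) (nat_lit 3) (nat_lit 5) (nat_lit 5) (nat_lit 4) (nat_lit 3) (nat_lit 4) (nat_lit 437) (nat_lit 313) (nat_lit 150)) (XT.nd (nat_lit 78) (nat_lit 0) (nat_lit 0) (XT.lf (nat_lit 0) (nat_lit 2474844069) (nat_lit 684) (nat_lit 945283365) (nat_lit 684) (nat_lit 945283365) (nat_lit 126) (nat_lit 3) (nat_lit 135) (nat_lit 3) (nat_lit 135) (nat_lit 5) (nat_lit 314) (nat_lit 314) (nat_lit 272)) (XT.lf (nat_lit 76) (nat_lit 2374164517) (nat_lit 0) (nat_lit 3664564792) (nat_lit 684) (nat_lit 2861164909) (nat_lit 127) (nat_lit 5) (nat_lit 126) (nat_lit 3) (nat_lit 135) (nat_lit 5) (nat_lit 315) (nat_lit 314) (nat_lit 271)))) (XT.nd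 (nat_lit 156) (nat_lit 608) (nat_lit 0) (XT.nd (nat_lit 78) (nat_lit 0) (nat_lit 76) (XT.lf (nat_lit 76) (nat_lit 6885511583) (nat_lit 0) (nat_lit 268806581) (nat_lit 684) (nat_lit 1924557245) (nat_lit 127) (nat_lit 5) (nat_lit 126) (nat_lit 3) (nat_lit 135) (nat_lit 5) (nat_lit 316) (nat_lit 314) (nat_lit 270)) (XT.lf (nat_lit 76) (nat_lit 2345166390) (nat_lit 0) (nat_lit 6011948788) (nat_lit 684) (nat_lit 908175924) (nat_lit 128) (nat_lit 5) (nat_lit 127) (nat_lit 5) (nat_lit 136) (nat_lit 5) (nat_lit 317) (nat_lit 314) (nat_lit 269))) (XT.nd (nat_lit 78) (nat_lit 0) (nat_lit 76) (XT.lf (nat_lit 0) (nat_lit 140668179) (nat_lit 684) (nat_lit 2315274753) (nat_lit 760) (nat_lit 7005675421) (nat_lit 118) (nat_lit 5) (nat_lit 127) (nat_lit 5) (nat_lit 128) (nat_lit 5) (nat_lit 318) (nat_lit 314) (nat_lit 268)) (XT.lf (nat_lit 0) (nat_lit 1219650741) (nat_lit 684) (nat_lit 7135913145) (nat_lit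 760) (nat_lit 1311091961) (nat_lit 119) (nat_lit 5) (nat_lit 128) (nat_lit 5) (nat_lit 129) (nat_lit 5) (nat_lit 319) (nat_lit 314) (nat_lit 267))))))))
noncomputable def xc138 : XT := (XT.nd (nat_lit 1872) (nat_lit 2508) (nat_lit 0) (XT.nd (nat_lit 936) (nat_lit 2128) (nat_lit 0) (XT.nd (nat_lit 468) (nat_lit 1520) (nat_lit 0) (XT.nd (nat_lit 234) (nat_lit 532) (nat_lit 0) (XT.nd (nat_lit 78) (nat_lit 0) (nat_lit 0) (XT.lf (nat_lit 0) (nat_lit 2382180125) (nat_lit 684) (nat_lit 2257458257) (nat_lit 760) (nat_lit 5240873744) (nat_lit 119) (nat_lit 5) (nat_lit 128) (nat_lit 5) (nat_lit 129) (nat_lit 5) (nat_lit 320) (nat_lit 314) (nat_lit 266)) (XT.nd (nat_lit 78) (nat_lit 0) (nat_lit 76) (XT.lf (nat_lit 76) (nat_lit 2924215832) (nat_lit 0) (nat_lit 676164154) (nat_lit 760) (nat_lit 6504848598) (nat_lit 120) (nat_lit 5) (nat_lit 119) (nat_lit 5) (nat_lit 129) (nat_lit 5) (nat_lit 321) (nat_lit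 314) (nat_lit 265)) (XT.lf (nat_lit 0) (nat_lit 4926615657) (nat_lit 684) (nat_lit 1987266845) (nat_lit 760) (nat_lit 3424984515) (nat_lit 120) (nat_lit 5) (nat_lit 129) (nat_lit 5) (nat_lit 130) (nat_lit 5) (nat_lit 322) (nat_lit 314) (nat_lit 264)))) (XT.nd (nat_lit 78) (nat_lit 608) (nat_lit 0) (XT.lf (nat_lit 76) (nat_lit 3533607681) (nat_lit 0) (nat_lit 2807856995) (nat_lit 760) (nat_lit 4241648040) (nat_lit 121) (nat_lit 5) (nat_lit 120) (nat_lit 5) (nat_lit 130) (nat_lit 5) (nat_lit 323) (nat_lit 314) (nat_lit 263)) (XT.nd (nat_lit 78) (nat_lit 684) (nat_lit 0) (XT.lf (nat_lit 0) (nat_lit 7842476677) (nat_lit 684) (nat_lit 1498696427) (nat_lit 76) (nat_lit 1497665065) (nat_lit 121) (nat_lit 5) (nat_lit 130) (nat_lit 5) (nat_lit 122) (nat_lit 5) (nat_lit 324) (nat_lit 314) (nat_lit 262)) (XT.lf (nat_lit 0) (nat_lit 4389540848) (nat_lit 684) (nat_lit 5103314384) (nat_lit 760) (nat_lit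 1610815530) (nat_lit 112) (nat_lit 5) (nat_lit 121) (nat_lit 5) (nat_lit 122) (nat_lit 5) (nat_lit 325) (nat_lit 314) (nat_lit 261))))) (XT.nd (nat_lit 234) (nat_lit 304) (nat_lit 0) (XT.nd (nat_lit 78) (nat_lit 1216) (nat_lit 0) (XT.lf (nat_lit 0) (nat_lit 10590204950) (nat_lit 684) (nat_lit 622066851) (nat_lit 760) (nat_lit 170182149) (nat_lit 112) (nat_lit 5) (nat_lit 121) (nat_lit 5) (nat_lit 122) (nat_lit 5) (nat_lit 326) (nat_lit 314) (nat_lit 260)) (XT.nd (nat_lit 78) (nat_lit 380) (nat_lit 0) (XT.lf (nat_lit 0) (nat_lit 1414071910) (nat_lit 836) (nat_lit 6188602212) (nat_lit 76) (nat_lit 4065758007) (nat_lit 101) (nat_lit 5) (nat_lit 112) (nat_lit 5) (nat_lit 102) (nat_lit 5) (nat_lit 327) (nat_lit 314) (nat_lit 259)) (XT.lf (nat_lit 0) (nat_lit 79279741) (nat_lit 380) (nat_lit 2981288222) (nat_lit 456) (nat_lit 8908594498) (nat_lit 96) (nat_lit 5) (nat_lit 101) (nat_lit 5) (nat_lit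 102) (nat_lit 5) (nat_lit 328) (nat_lit 314) (nat_lit 258)))) (XT.nd (nat_lit 78) (nat_lit 304) (nat_lit 0) (XT.lf (nat_lit 0) (nat_lit 4890006020) (nat_lit 456) (nat_lit 5471471549) (nat_lit 76) (nat_lit 1918449608) (nat_lit 96) (nat_lit 5) (nat_lit 102) (nat_lit 5) (nat_lit 97) (nat_lit 5) (nat_lit 329) (nat_lit 314) (nat_lit 257)) (XT.nd (nat_lit 78) (nat_lit 0) (nat_lit 0) (XT.lf (nat_lit 0) (nat_lit 1223616282) (nat_lit 304) (nat_lit 5621827752) (nat_lit 380) (nat_lit 5759087052) (nat_lit 92) (nat_lit 5) (nat_lit 96) (nat_lit 5) (nat_lit 97) (nat_lit 5) (nat_lit 330) (nat_lit 314) (nat_lit 256)) (XT.lf (nat_lit 0) (nat_lit 8409438955) (nat_lit 304) (nat_lit 549489778) (nat_lit 380) (nat_lit 3983448774) (nat_lit 92) (nat_lit 5) (nat_lit 96) (nat_lit 5) (nat_lit 97) (nat_lit 5) (nat_lit 331) (nat_lit 314) (nat_lit 255)))))) (XT.nd (nat_lit 468) (nat_lit 1064) (nat_lit 0) (XT.nd (nat_lit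 234) (nat_lit 304) (nat_lit 0) (XT.nd (nat_lit 78) (nat_lit 380) (nat_lit 0) (XT.lf (nat_lit 0) (nat_lit 2633240462) (nat_lit 380) (nat_lit 8629664855) (nat_lit 456) (nat_lit 2029994865) (nat_lit 87) (nat_lit 5) (nat_lit 92) (nat_lit 5) (nat_lit 93) (nat_lit 5) (nat_lit 332) (nat_lit 314) (nat_lit 254)) (XT.nd (nat_lit 78) (nat_lit 304) (nat_lit 0) (XT.lf (nat_lit 0) (nat_lit 77056595) (nat_lit 456) (nat_lit 3386989362) (nat_lit 76) (nat_lit 10194078987) (nat_lit 86) (nat_lit 5) (nat_lit 92) (nat_lit 5) (nat_lit 87) (nat_lit 5) (nat_lit 333) (nat_lit 314) (nat_lit 253)) (XT.lf (nat_lit 0) (nat_lit 2291919975) (nat_lit 380) (nat_lit 9748628173) (nat_lit 76) (nat_lit 1995886277) (nat_lit 82) (nat_lit 5) (nat_lit 87) (nat_lit 5) (nat_lit 83) (nat_lit 5) (nat_lit 334) (nat_lit 314) (nat_lit 252)))) (XT.nd (nat_lit 78) (nat_lit 304) (nat_lit 0) (XT.lf (nat_lit 0) (nat_lit 4704444113) (nat_lit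 380) (nat_lit 2058169219) (nat_lit 76) (nat_lit 7666720585) (nat_lit 82) (nat_lit 5) (nat_lit 87) (nat_lit 5) (nat_lit 83) (nat_lit 5) (nat_lit 335) (nat_lit 314) (nat_lit 251)) (XT.nd (nat_lit 78) (nat_lit 0) (nat_lit 0) (XT.lf (nat_lit 0) (nat_lit 6182717146) (nat_lit 304) (nat_lit 1124577628) (nat_lit 380) (nat_lit 7531118037) (nat_lit 78) (nat_lit 5) (nat_lit 82) (nat_lit 5) (nat_lit 83) (nat_lit 5) (nat_lit 336) (nat_lit 314) (nat_lit 250)) (XT.lf (nat_lit 0) (nat_lit 10124456916) (nat_lit 380) (nat_lit 467241725) (nat_lit 76) (nat_lit 4672057080) (nat_lit 78) (nat_lit 5) (nat_lit 83) (nat_lit 5) (nat_lit 79) (nat_lit 5) (nat_lit 337) (nat_lit 314) (nat_lit 249))))) (XT.nd (nat_lit 234) (nat_lit 456) (nat_lit 0) (XT.nd (nat_lit 78) (nat_lit 380) (nat_lit 0) (XT.lf (nat_lit 0) (nat_lit 8348251318) (nat_lit 228) (nat_lit 4858117752) (nat_lit 304) (nat_lit 2497819747) (nat_lit 75) (nat_lit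 5) (nat_lit 78) (nat_lit 5) (nat_lit 79) (nat_lit 5) (nat_lit 338) (nat_lit 314) (nat_lit 248)) (XT.nd (nat_lit 78) (nat_lit 0) (nat_lit 0) (XT.lf (nat_lit 0) (nat_lit 291856097) (nat_lit 380) (nat_lit 14719249909) (nat_lit 76) (nat_lit 1154090909) (nat_lit 70) (nat_lit 5) (nat_lit 75) (nat_lit 5) (nat_lit 71) (nat_lit 5) (nat_lit 339) (nat_lit 314) (nat_lit 247)) (XT.lf (nat_lit 0) (nat_lit 3319320268) (nat_lit 380) (nat_lit 5854413976) (nat_lit 76) (nat_lit 7464376632) (nat_lit 70) (nat_lit 5) (nat_lit 75) (nat_lit 5) (nat_lit 71) (nat_lit 5) (nat_lit 340) (nat_lit 314) (nat_lit 246)))) (XT.nd (nat_lit 78) (nat_lit 228) (nat_lit 0) (XT.lf (nat_lit 0) (nat_lit 3536311344) (nat_lit 228) (nat_lit 2994189259) (nat_lit 304) (nat_lit 10602567294) (nat_lit 67) (nat_lit 5) (nat_lit 70) (nat_lit 5) (nat_lit 71) (nat_lit 5) (nat_lit 341) (nat_lit 314) (nat_lit 245)) (XT.nd (nat_lit 78) (nat_lit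 228) (nat_lit 0) (XT.lf (nat_lit 0) (nat_lit 10035198427) (nat_lit 304) (nat_lit 4135220627) (nat_lit 76) (nat_lit 3475719609) (nat_lit 67) (nat_lit 5) (nat_lit 71) (nat_lit 5) (nat_lit 68) (nat_lit 5) (nat_lit 342) (nat_lit 314) (nat_lit 244)) (XT.lf (nat_lit 0) (nat_lit 5909890435) (nat_lit 228) (nat_lit 7925290434) (nat_lit 304) (nat_lit 4343692773) (nat_lit 64) (nat_lit 5) (nat_lit 67) (nat_lit 5) (nat_lit 68) (nat_lit 5) (nat_lit 343) (nat_lit 314) (nat_lit 243))))))) (XT.nd (nat_lit 936) (nat_lit 1140) (nat_lit 0) (XT.nd (nat_lit 468) (nat_lit 684) (nat_lit 0) (XT.nd (nat_lit 234) (nat_lit 380) (nat_lit 0) (XT.nd (nat_lit 78) (nat_lit 304) (nat_lit 0) (XT.lf (nat_lit 0) (nat_lit 16571729516) (nat_lit 228) (nat_lit 1302719899) (nat_lit 304) (nat_lit 861344139) (nat_lit 64) (nat_lit 5) (nat_lit 67) (nat_lit 5) (nat_lit 68) (nat_lit 5) (nat_lit 344) (nat_lit 314) (nat_lit 242)) (XT.nd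 (nat_lit 78) (nat_lit 0) (nat_lit 0) (XT.lf (nat_lit 0) (nat_lit 2911661552) (nat_lit 304) (nat_lit 10752705116) (nat_lit 76) (nat_lit 5643722129) (nat_lit 60) (nat_lit 5) (nat_lit 64) (nat_lit 5) (nat_lit 61) (nat_lit 5) (nat_lit 345) (nat_lit 314) (nat_lit 241)) (XT.lf (nat_lit 0) (nat_lit 6883274864) (nat_lit 304) (nat_lit 86092978) (nat_lit 76) (nat_lit 12936990560) (nat_lit 60) (nat_lit 5) (nat_lit 64) (nat_lit 5) (nat_lit 61) (nat_lit 5) (nat_lit 346) (nat_lit 314) (nat_lit 240)))) (XT.nd (nat_lit 78) (nat_lit 152) (nat_lit 0) (XT.lf (nat_lit 0) (nat_lit 11217257357) (nat_lit 304) (nat_lit 9077284846) (nat_lit 76) (nat_lit 231820169) (nat_lit 57) (nat_lit 5) (nat_lit 61) (nat_lit 5) (nat_lit 58) (nat_lit 5) (nat_lit 347) (nat_lit 314) (nat_lit 239)) (XT.nd (nat_lit 78) (nat_lit 0) (nat_lit 0) (XT.lf (nat_lit 0) (nat_lit 2318884203) (nat_lit 152) (nat_lit 13582565810) (nat_lit 228)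 (nat_lit 5269250797) (nat_lit 55) (nat_lit 5) (nat_lit 57) (nat_lit 5) (nat_lit 58) (nat_lit 5) (nat_lit 348) (nat_lit 314) (nat_lit 238)) (XT.lf (nat_lit 0) (nat_lit 14572691681) (nat_lit 152) (nat_lit 6382912780) (nat_lit 228) (nat_lit 884873453) (nat_lit 55) (nat_lit 5) (nat_lit 57) (nat_lit 5) (nat_lit 58) (nat_lit 5) (nat_lit 349) (nat_lit 314) (nat_lit 237))))) (XT.nd (nat_lit 234) (nat_lit 228) (nat_lit 0) (XT.nd (nat_lit 78) (nat_lit 152) (nat_lit 0) (XT.lf (nat_lit 0) (nat_lit 3680336786) (nat_lit 304) (nat_lit 17588436452) (nat_lit 76) (nat_lit 1268044315) (nat_lit 51) (nat_lit 5) (nat_lit 55) (nat_lit 5) (nat_lit 52) (nat_lit 5) (nat_lit 350) (nat_lit 314) (nat_lit 236)) (XT.nd (nat_lit 78) (nat_lit 152) (nat_lit 0) (XT.lf (nat_lit 0) (nat_lit 8656676979) (nat_lit 304) (nat_lit 5382185473) (nat_lit 76) (nat_lit 9217764146) (nat_lit 51) (nat_lit 5) (nat_lit 55) (nat_lit 5) (nat_lit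 52) (nat_lit 5) (nat_lit 351) (nat_lit 314) (nat_lit 235)) (XT.lf (nat_lit 0) (nat_lit 7653744136) (nat_lit 152) (nat_lit 6331270097) (nat_lit 228) (nat_lit 10022260556) (nat_lit 49) (nat_lit 5) (nat_lit 51) (nat_lit 5) (nat_lit 52) (nat_lit 5) (nat_lit 352) (nat_lit 314) (nat_lit 234)))) (XT.nd (nat_lit 78) (nat_lit 228) (nat_lit 0) (XT.lf (nat_lit 0) (nat_lit 19683840477) (nat_lit 228) (nat_lit 3317417753) (nat_lit 76) (nat_lit 1789000878) (nat_lit 49) (nat_lit 5) (nat_lit 52) (nat_lit 5) (nat_lit 50) (nat_lit 5) (nat_lit 353) (nat_lit 314) (nat_lit 233)) (XT.nd (nat_lit 78) (nat_lit 0) (nat_lit 0) (XT.lf (nat_lit 0) (nat_lit 311274775) (nat_lit 228) (nat_lit 15023994333) (nat_lit 76) (nat_lit 10264195749) (nat_lit 46) (nat_lit 5) (nat_lit 49) (nat_lit 5) (nat_lit 47) (nat_lit 5) (nat_lit 354) (nat_lit 314) (nat_lit 232)) (XT.lf (nat_lit 0) (nat_lit 5870134510) (nat_lit 228) (nat_lit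 1277507574) (nat_lit 76) (nat_lit 19295215010) (nat_lit 46) (nat_lit 5) (nat_lit 49) (nat_lit 5) (nat_lit 47) (nat_lit 5) (nat_lit 355) (nat_lit 314) (nat_lit 231)))))) (XT.nd (nat_lit 468) (nat_lit 456) (nat_lit 0) (XT.nd (nat_lit 234) (nat_lit 380) (nat_lit 0) (XT.nd (nat_lit 78) (nat_lit 152) (nat_lit 0) (XT.lf (nat_lit 0) (nat_lit 11930227508) (nat_lit 228) (nat_lit 13777538291) (nat_lit 76) (nat_lit 1609494658) (nat_lit 44) (nat_lit 5) (nat_lit 47) (nat_lit 5) (nat_lit 45) (nat_lit 5) (nat_lit 356) (nat_lit 314) (nat_lit 230)) (XT.nd (nat_lit 78) (nat_lit 0) (nat_lit 0) (XT.lf (nat_lit 0) (nat_lit 791936091) (nat_lit 152) (nat_lit 17638617276) (nat_lit 228) (nat_lit 9797974955) (nat_lit 42) (nat_lit 5) (nat_lit 44) (nat_lit 5) (nat_lit 45) (nat_lit 5) (nat_lit 357) (nat_lit 314) (nat_lit 229)) (XT.lf (nat_lit 0) (nat_lit 16544847178) (nat_lit 152) (nat_lit 8930393370) (nat_lit 228)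 (nat_lit 3699157247) (nat_lit 42) (nat_lit 5) (nat_lit 44) (nat_lit 5) (nat_lit 45) (nat_lit 5) (nat_lit 358) (nat_lit 314) (nat_lit 228)))) (XT.nd (nat_lit 78) (nat_lit 152) (nat_lit 0) (XT.lf (nat_lit 0) (nat_lit 2655143110) (nat_lit 228) (nat_lit 27221218949) (nat_lit 76) (nat_lit 287237029) (nat_lit 39) (nat_lit 5) (nat_lit 42) (nat_lit 5) (nat_lit 40) (nat_lit 5) (nat_lit 359) (nat_lit 314) (nat_lit 227)) (XT.nd (nat_lit 78) (nat_lit 152) (nat_lit 0) (XT.lf (nat_lit 0) (nat_lit 9553248820) (nat_lit 228) (nat_lit 11693598495) (nat_lit 76) (nat_lit 9934865442) (nat_lit 39) (nat_lit 5) (nat_lit 42) (nat_lit 5) (nat_lit 40) (nat_lit 5) (nat_lit 360) (nat_lit 314) (nat_lit 226)) (XT.lf (nat_lit 0) (nat_lit 4740351277) (nat_lit 152) (nat_lit 12117168687) (nat_lit 228) (nat_lit 15390153639) (nat_lit 37) (nat_lit 5) (nat_lit 39) (nat_lit 5) (nat_lit 40) (nat_lit 5) (nat_lit 361) (nat_lit 314)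 (nat_lit 225))))) (XT.nd (nat_lit 234) (nat_lit 304) (nat_lit 0) (XT.nd (nat_lit 78) (nat_lit 152) (nat_lit 0) (XT.lf (nat_lit 0) (nat_lit 22380552495) (nat_lit 152) (nat_lit 2332011596) (nat_lit 228) (nat_lit 8645094713) (nat_lit 37) (nat_lit 5) (nat_lit 39) (nat_lit 5) (nat_lit 40) (nat_lit 5) (nat_lit 362) (nat_lit 314) (nat_lit 224)) (XT.nd (nat_lit 78) (nat_lit 76) (nat_lit 0) (XT.lf (nat_lit 0) (nat_lit 6440899792) (nat_lit 76) (nat_lit 26732008147) (nat_lit 152) (nat_lit 1339612031) (nat_lit 36) (nat_lit 5) (nat_lit 37) (nat_lit 5) (nat_lit 38) (nat_lit 4) (nat_lit 363) (nat_lit 314) (nat_lit 223)) (XT.lf (nat_lit 0) (nat_lit 6343727389) (nat_lit 152) (nat_lit 10765975907) (nat_lit 76) (nat_lit 18599721314) (nat_lit 35) (nat_lit 5) (nat_lit 37) (nat_lit 5) (nat_lit 36) (nat_lit 5) (nat_lit 364) (nat_lit 314) (nat_lit 222)))) (XT.nd (nat_lit 156) (nat_lit 152) (nat_lit 0) (XT.nd (nat_lit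 78) (nat_lit 0) (nat_lit 0) (XT.lf (nat_lit 0) (nat_lit 7606513082) (nat_lit 152) (nat_lit 6867068400) (nat_lit 228) (nat_lit 22486130111) (nat_lit 33) (nat_lit 5) (nat_lit 35) (nat_lit 5) (nat_lit 36) (nat_lit 5) (nat_lit 365) (nat_lit 314) (nat_lit 221)) (XT.lf (nat_lit 0) (nat_lit 23244654840) (nat_lit 228) (nat_lit 11075726684) (nat_lit 76) (nat_lit 3940398430) (nat_lit 33) (nat_lit 5) (nat_lit 36) (nat_lit 5) (nat_lit 34) (nat_lit 4) (nat_lit 366) (nat_lit 314) (nat_lit 220))) (XT.nd (nat_lit 78) (nat_lit 76) (nat_lit 0) (XT.lf (nat_lit 0) (nat_lit 8247943672) (nat_lit 76) (nat_lit 24436936806) (nat_lit 152) (nat_lit 6930494522) (nat_lit 32) (nat_lit 5) (nat_lit 33) (nat_lit 5) (nat_lit 34) (nat_lit 4) (nat_lit 367) (nat_lit 314) (nat_lit 219)) (XT.lf (nat_lit 0) (nat_lit 1689447587) (nat_lit 152) (nat_lit 12152556186) (nat_lit 76) (nat_lit 27185484526) (nat_lit 31) (nat_lit 5) (nat_lit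 33) (nat_lit 5) (nat_lit 32) (nat_lit 5) (nat_lit 368) (nat_lit 314) (nat_lit 218))))))))
noncomputable def xc139 : XT := (XT.nd (nat_lit 1950) (nat_lit 684) (nat_lit 0) (XT.nd (nat_lit 936) (nat_lit 456) (nat_lit 0) (XT.nd (nat_lit 468) (nat_lit 304) (nat_lit 0) (XT.nd (nat_lit 234) (nat_lit 228) (nat_lit 0) (XT.nd (nat_lit 78) (nat_lit 76) (nat_lit 0) (XT.lf (nat_lit 0) (nat_lit 8152143797) (nat_lit 152) (nat_lit 2472413930) (nat_lit 228) (nat_lit 31874117517) (nat_lit 29) (nat_lit 5) (nat_lit 31) (nat_lit 5) (nat_lit 32) (nat_lit 5) (nat_lit 369) (nat_lit 314) (nat_lit 217)) (XT.nd (nat_lit 78) (nat_lit 76) (nat_lit 0) (XT.lf (nat_lit 0) (nat_lit 20353276986) (nat_lit 228) (nat_lit 14308610385) (nat_lit 76) (nat_lit 9364194113) (nat_lit 29) (nat_lit 5) (nat_lit 32) (nat_lit 5) (nat_lit 30) (nat_lit 4) (nat_lit 370) (nat_lit 314) (nat_lit 216)) (XT.lf (nat_lit 0) (nat_lit 6893886510)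 (nat_lit 76) (nat_lit 23813076495) (nat_lit 152) (nat_lit 14915970997) (nat_lit 28) (nat_lit 5) (nat_lit 29) (nat_lit 5) (nat_lit 30) (nat_lit 4) (nat_lit 371) (nat_lit 314) (nat_lit 215)))) (XT.nd (nat_lit 78) (nat_lit 228) (nat_lit 0) (XT.lf (nat_lit 0) (nat_lit 29636115859) (nat_lit 76) (nat_lit 12175098139) (nat_lit 152) (nat_lit 5476773501) (nat_lit 28) (nat_lit 5) (nat_lit 29) (nat_lit 5) (nat_lit 30) (nat_lit 4) (nat_lit 372) (nat_lit 314) (nat_lit 214)) (XT.nd (nat_lit 78) (nat_lit 0) (nat_lit 0) (XT.lf (nat_lit 0) (nat_lit 4357051448) (nat_lit 228) (nat_lit 44494077785) (nat_lit 76) (nat_lit 178475164) (nat_lit 25) (nat_lit 5) (nat_lit 28) (nat_lit 5) (nat_lit 26) (nat_lit 4) (nat_lit 373) (nat_lit 314) (nat_lit 213)) (XT.lf (nat_lit 0) (nat_lit 14992869062) (nat_lit 228) (nat_lit 22709211387) (nat_lit 76) (nat_lit 13127016749) (nat_lit 25) (nat_lit 5) (nat_lit 28) (nat_lit 5)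 (nat_lit 26) (nat_lit 4) (nat_lit 374) (nat_lit 314) (nat_lit 212))))) (XT.nd (nat_lit 234) (nat_lit 228) (nat_lit 0) (XT.nd (nat_lit 78) (nat_lit 0) (nat_lit 0) (XT.lf (nat_lit 0) (nat_lit 153911459) (nat_lit 76) (nat_lit 26000322852) (nat_lit 152) (nat_lit 26564644453) (nat_lit 24) (nat_lit 5) (nat_lit 25) (nat_lit 5) (nat_lit 26) (nat_lit 4) (nat_lit 375) (nat_lit 314) (nat_lit 211)) (XT.nd (nat_lit 78) (nat_lit 0) (nat_lit 0) (XT.lf (nat_lit 0) (nat_lit 24932946652) (nat_lit 76) (nat_lit 13316833707) (nat_lit 152) (nat_lit 16434565292) (nat_lit 24) (nat_lit 5) (nat_lit 25) (nat_lit 5) (nat_lit 26) (nat_lit 4) (nat_lit 376) (nat_lit 314) (nat_lit 210)) (XT.lf (nat_lit 0) (nat_lit 50936022808) (nat_lit 76) (nat_lit 6005713) (nat_lit 152) (nat_lit 5806462901) (nat_lit 24) (nat_lit 5) (nat_lit 25) (nat_lit 5) (nat_lit 26) (nat_lit 4) (nat_lit 377) (nat_lit 314) (nat_lit 209)))) (XT.nd (nat_lit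 78) (nat_lit 76) (nat_lit 0) (XT.lf (nat_lit 0) (nat_lit 5708448319) (nat_lit 152) (nat_lit 39259971211) (nat_lit 76) (nat_lit 13916911036) (nat_lit 22) (nat_lit 5) (nat_lit 24) (nat_lit 5) (nat_lit 23) (nat_lit 4) (nat_lit 378) (nat_lit 314) (nat_lit 208)) (XT.nd (nat_lit 78) (nat_lit 76) (nat_lit 0) (XT.lf (nat_lit 0) (nat_lit 17696348402) (nat_lit 152) (nat_lit 14698625583) (nat_lit 76) (nat_lit 28724660898) (nat_lit 22) (nat_lit 5) (nat_lit 24) (nat_lit 5) (nat_lit 23) (nat_lit 4) (nat_lit 379) (nat_lit 314) (nat_lit 207)) (XT.lf (nat_lit 0) (nat_lit 11443222696) (nat_lit 76) (nat_lit 19011680984) (nat_lit 152) (nat_lit 33002189192) (nat_lit 21) (nat_lit 5) (nat_lit 22) (nat_lit 5) (nat_lit 23) (nat_lit 4) (nat_lit 380) (nat_lit 314) (nat_lit 206)))))) (XT.nd (nat_lit 468) (nat_lit 228) (nat_lit 0) (XT.nd (nat_lit 234) (nat_lit 76) (nat_lit 0) (XT.nd (nat_lit 78) (nat_lit 152) (nat_lit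 0) (XT.lf (nat_lit 0) (nat_lit 39388870149) (nat_lit 76) (nat_lit 4704184455) (nat_lit 152) (nat_lit 21806287155) (nat_lit 21) (nat_lit 5) (nat_lit 22) (nat_lit 5) (nat_lit 23) (nat_lit 4) (nat_lit 381) (nat_lit 314) (nat_lit 205)) (XT.nd (nat_lit 78) (nat_lit 76) (nat_lit 0) (XT.lf (nat_lit 0) (nat_lit 96892692) (nat_lit 76) (nat_lit 58471827842) (nat_lit 76) (nat_lit 9887203513) (nat_lit 20) (nat_lit 4) (nat_lit 21) (nat_lit 5) (nat_lit 21) (nat_lit 4) (nat_lit 382) (nat_lit 314) (nat_lit 204)) (XT.lf (nat_lit 0) (nat_lit 3070180830) (nat_lit 152) (nat_lit 42301605104) (nat_lit 76) (nat_lit 25740176647) (nat_lit 19) (nat_lit 5) (nat_lit 21) (nat_lit 5) (nat_lit 20) (nat_lit 4) (nat_lit 383) (nat_lit 314) (nat_lit 203)))) (XT.nd (nat_lit 78) (nat_lit 76) (nat_lit 0) (XT.lf (nat_lit 0) (nat_lit 16336500530) (nat_lit 152) (nat_lit 15115984461) (nat_lit 76) (nat_lit 42440547882) (nat_lit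 19) (nat_lit 5) (nat_lit 21) (nat_lit 5) (nat_lit 20) (nat_lit 4) (nat_lit 384) (nat_lit 314) (nat_lit 202)) (XT.nd (nat_lit 78) (nat_lit 0) (nat_lit 0) (XT.lf (nat_lit 0) (nat_lit 13860549336) (nat_lit 76) (nat_lit 16615647002) (nat_lit 152) (nat_lit 46326458428) (nat_lit 18) (nat_lit 5) (nat_lit 19) (nat_lit 5) (nat_lit 20) (nat_lit 4) (nat_lit 385) (nat_lit 314) (nat_lit 201)) (XT.lf (nat_lit 0) (nat_lit 44798904074) (nat_lit 76) (nat_lit 773745266) (nat_lit 152) (nat_lit 34272620835) (nat_lit 18) (nat_lit 5) (nat_lit 19) (nat_lit 5) (nat_lit 20) (nat_lit 4) (nat_lit 386) (nat_lit 314) (nat_lit 200))))) (XT.nd (nat_lit 234) (nat_lit 76) (nat_lit 0) (XT.nd (nat_lit 78) (nat_lit 152) (nat_lit 0) (XT.lf (nat_lit 0) (nat_lit 61665537356) (nat_lit 152) (nat_lit 6014914028) (nat_lit 0) (nat_lit 15347485344) (nat_lit 18) (nat_lit 5) (nat_lit 20) (nat_lit 4) (nat_lit 18) (nat_lit 4) (nat_lit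 387) (nat_lit 314) (nat_lit 199)) (XT.nd (nat_lit 78) (nat_lit 76) (nat_lit 0) (XT.lf (nat_lit 0) (nat_lit 25252766586) (nat_lit 76) (nat_lit 53711529599) (nat_lit 76) (nat_lit 7385380047) (nat_lit 17) (nat_lit 4) (nat_lit 18) (nat_lit 5) (nat_lit 18) (nat_lit 4) (nat_lit 388) (nat_lit 314) (nat_lit 198)) (XT.lf (nat_lit 0) (nat_lit 7154972113) (nat_lit 152) (nat_lit 31666168661) (nat_lit 76) (nat_lit 51005780388) (nat_lit 16) (nat_lit 5) (nat_lit 18) (nat_lit 5) (nat_lit 17) (nat_lit 4) (nat_lit 389) (nat_lit 314) (nat_lit 197)))) (XT.nd (nat_lit 156) (nat_lit 0) (nat_lit 0) (XT.nd (nat_lit 78) (nat_lit 76) (nat_lit 0) (XT.lf (nat_lit 0) (nat_lit 22168704380) (nat_lit 152) (nat_lit 895362221) (nat_lit 76) (nat_lit 70408180980) (nat_lit 16) (nat_lit 5) (nat_lit 18) (nat_lit 5) (nat_lit 17) (nat_lit 4) (nat_lit 390) (nat_lit 314) (nat_lit 196)) (XT.lf (nat_lit 0) (nat_lit 32442440687) (nat_lit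 76) (nat_lit 5992018751) (nat_lit 152) (nat_lit 58840314851) (nat_lit 15) (nat_lit 5) (nat_lit 16) (nat_lit 5) (nat_lit 17) (nat_lit 4) (nat_lit 391) (nat_lit 314) (nat_lit 195))) (XT.nd (nat_lit 78) (nat_lit 0) (nat_lit 0) (XT.lf (nat_lit 0) (nat_lit 55710072267) (nat_lit 152) (nat_lit 33984943635) (nat_lit 0) (nat_lit 11562583668) (nat_lit 15) (nat_lit 5) (nat_lit 17) (nat_lit 4) (nat_lit 15) (nat_lit 4) (nat_lit 392) (nat_lit 314) (nat_lit 194)) (XT.lf (nat_lit 0) (nat_lit 73942781852) (nat_lit 152) (nat_lit 1702868420) (nat_lit 0) (nat_lit 29789250744) (nat_lit 15) (nat_lit 5) (nat_lit 17) (nat_lit 4) (nat_lit 15) (nat_lit 4) (nat_lit 393) (nat_lit 314) (nat_lit 193))))))) (XT.nd (nat_lit 936) (nat_lit 228) (nat_lit 0) (XT.nd (nat_lit 468) (nat_lit 228) (nat_lit 0) (XT.nd (nat_lit 234) (nat_lit 76) (nat_lit 0) (XT.nd (nat_lit 78) (nat_lit 76) (nat_lit 0) (XT.lf (nat_lit 0) (nat_lit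 33248464847) (nat_lit 76) (nat_lit 60353084067) (nat_lit 76) (nat_lit 16193798189) (nat_lit 14) (nat_lit 4) (nat_lit 15) (nat_lit 5) (nat_lit 15) (nat_lit 4) (nat_lit 394) (nat_lit 314) (nat_lit 192)) (XT.nd (nat_lit 78) (nat_lit 76) (nat_lit 0) (XT.lf (nat_lit 0) (nat_lit 69997625531) (nat_lit 76) (nat_lit 44269872515) (nat_lit 76) (nat_lit 105105903) (nat_lit 14) (nat_lit 4) (nat_lit 15) (nat_lit 5) (nat_lit 15) (nat_lit 4) (nat_lit 395) (nat_lit 314) (nat_lit 191)) (XT.lf (nat_lit 0) (nat_lit 16246250781) (nat_lit 152) (nat_lit 10865172256) (nat_lit 76) (nat_lit 92054418211) (nat_lit 13) (nat_lit 5) (nat_lit 15) (nat_lit 5) (nat_lit 14) (nat_lit 4) (nat_lit 396) (nat_lit 314) (nat_lit 190)))) (XT.nd (nat_lit 78) (nat_lit 0) (nat_lit 0) (XT.lf (nat_lit 0) (nat_lit 25114030987) (nat_lit 76) (nat_lit 8685475614) (nat_lit 152) (nat_lit 90379755035) (nat_lit 12) (nat_lit 5) (nat_lit 13) (nat_lit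 5) (nat_lit 14) (nat_lit 4) (nat_lit 397) (nat_lit 314) (nat_lit 189)) (XT.nd (nat_lit 78) (nat_lit 0) (nat_lit 0) (XT.lf (nat_lit 0) (nat_lit 52579687441) (nat_lit 152) (nat_lit 66342412728) (nat_lit 0) (nat_lit 10503790288) (nat_lit 12) (nat_lit 5) (nat_lit 14) (nat_lit 4) (nat_lit 12) (nat_lit 4) (nat_lit 398) (nat_lit 314) (nat_lit 188)) (XT.lf (nat_lit 0) (nat_lit 72437241858) (nat_lit 152) (nat_lit 32133640726) (nat_lit 0) (nat_lit 30357050407) (nat_lit 12) (nat_lit 5) (nat_lit 14) (nat_lit 4) (nat_lit 12) (nat_lit 4) (nat_lit 399) (nat_lit 314) (nat_lit 187))))) (XT.nd (nat_lit 234) (nat_lit 152) (nat_lit 0) (XT.nd (nat_lit 78) (nat_lit 0) (nat_lit 0) (XT.lf (nat_lit 0) (nat_lit 3903061779) (nat_lit 76) (nat_lit 89441721084) (nat_lit 76) (nat_lit 47357439825) (nat_lit 11) (nat_lit 4) (nat_lit 12) (nat_lit 5) (nat_lit 12) (nat_lit 4) (nat_lit 400) (nat_lit 314) (nat_lit 186)) (XT.nd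 (nat_lit 78) (nat_lit 0) (nat_lit 0) (XT.lf (nat_lit 0) (nat_lit 42849896255) (nat_lit 76) (nat_lit 72988242739) (nat_lit 76) (nat_lit 30900066425) (nat_lit 11) (nat_lit 4) (nat_lit 12) (nat_lit 5) (nat_lit 12) (nat_lit 4) (nat_lit 401) (nat_lit 314) (nat_lit 185)) (XT.lf (nat_lit 0) (nat_lit 83737109976) (nat_lit 76) (nat_lit 55715471357) (nat_lit 76) (nat_lit 13623585465) (nat_lit 11) (nat_lit 4) (nat_lit 12) (nat_lit 5) (nat_lit 12) (nat_lit 4) (nat_lit 402) (nat_lit 314) (nat_lit 184)))) (XT.nd (nat_lit 78) (nat_lit 76) (nat_lit 0) (XT.lf (nat_lit 0) (nat_lit 4368688944) (nat_lit 152) (nat_lit 33139606484) (nat_lit 76) (nat_lit 122219378647) (nat_lit 10) (nat_lit 5) (nat_lit 12) (nat_lit 5) (nat_lit 11) (nat_lit 4) (nat_lit 403) (nat_lit 314) (nat_lit 183)) (XT.nd (nat_lit 78) (nat_lit 0) (nat_lit 0) (XT.lf (nat_lit 0) (nat_lit 4793475316) (nat_lit 76) (nat_lit 18080797284) (nat_lit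 152) (nat_lit 143822740750) (nat_lit 9) (nat_lit 5) (nat_lit 10) (nat_lit 5) (nat_lit 11) (nat_lit 4) (nat_lit 404) (nat_lit 314) (nat_lit 182)) (XT.lf (nat_lit 0) (nat_lit 42908471211) (nat_lit 152) (nat_lit 128264842152) (nat_lit 0) (nat_lit 2811339793) (nat_lit 9) (nat_lit 5) (nat_lit 11) (nat_lit 4) (nat_lit 9) (nat_lit 4) (nat_lit 405) (nat_lit 314) (nat_lit 181)))))) (XT.nd (nat_lit 468) (nat_lit 152) (nat_lit 0) (XT.nd (nat_lit 234) (nat_lit 76) (nat_lit 0) (XT.nd (nat_lit 78) (nat_lit 0) (nat_lit 0) (XT.lf (nat_lit 0) (nat_lit 64237651274) (nat_lit 152) (nat_lit 93246747132) (nat_lit 0) (nat_lit 24137613307) (nat_lit 9) (nat_lit 5) (nat_lit 11) (nat_lit 4) (nat_lit 9) (nat_lit 4) (nat_lit 406) (nat_lit 314) (nat_lit 180)) (XT.nd (nat_lit 78) (nat_lit 0) (nat_lit 0) (XT.lf (nat_lit 0) (nat_lit 86630304638) (nat_lit 152) (nat_lit 56483584643) (nat_lit 0) (nat_lit 46527498528) (nat_lit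 9) (nat_lit 5) (nat_lit 11) (nat_lit 4) (nat_lit 9) (nat_lit 4) (nat_lit 407) (nat_lit 314) (nat_lit 179)) (XT.lf (nat_lit 0) (nat_lit 110139747142) (nat_lit 152) (nat_lit 17887823345) (nat_lit 0) (nat_lit 70034304705) (nat_lit 9) (nat_lit 5) (nat_lit 11) (nat_lit 4) (nat_lit 9) (nat_lit 4) (nat_lit 408) (nat_lit 314) (nat_lit 178)))) (XT.nd (nat_lit 78) (nat_lit 0) (nat_lit 0) (XT.lf (nat_lit 0) (nat_lit 23380761826) (nat_lit 76) (nat_lit 111806231040) (nat_lit 76) (nat_lit 71698277815) (nat_lit 8) (nat_lit 4) (nat_lit 9) (nat_lit 5) (nat_lit 9) (nat_lit 4) (nat_lit 409) (nat_lit 314) (nat_lit 177)) (XT.nd (nat_lit 78) (nat_lit 0) (nat_lit 0) (XT.lf (nat_lit 0) (nat_lit 67328591902) (nat_lit 76) (nat_lit 94458287425) (nat_lit 76) (nat_lit 54347942975) (nat_lit 8) (nat_lit 4) (nat_lit 9) (nat_lit 5) (nat_lit 9) (nat_lit 4) (nat_lit 410) (nat_lit 314) (nat_lit 176)) (XT.lf (nat_lit 0) (nat_lit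 113468852349) (nat_lit 76) (nat_lit 76245373960) (nat_lit 76) (nat_lit 36132752151) (nat_lit 8) (nat_lit 4) (nat_lit 9) (nat_lit 5) (nat_lit 9) (nat_lit 4) (nat_lit 411) (nat_lit 314) (nat_lit 175))))) (XT.nd (nat_lit 234) (nat_lit 0) (nat_lit 0) (XT.nd (nat_lit 78) (nat_lit 152) (nat_lit 0) (XT.lf (nat_lit 0) (nat_lit 161911400931) (nat_lit 76) (nat_lit 57124126563) (nat_lit 76) (nat_lit 17009335842) (nat_lit 8) (nat_lit 4) (nat_lit 9) (nat_lit 5) (nat_lit 9) (nat_lit 4) (nat_lit 412) (nat_lit 314) (nat_lit 174)) (XT.nd (nat_lit 78) (nat_lit 76) (nat_lit 0) (XT.lf (nat_lit 0) (nat_lit 2969647923) (nat_lit 152) (nat_lit 34029078108) (nat_lit 76) (nat_lit 209751636699) (nat_lit 7) (nat_lit 5) (nat_lit 9) (nat_lit 5) (nat_lit 8) (nat_lit 4) (nat_lit 413) (nat_lit 314) (nat_lit 173)) (XT.lf (nat_lit 0) (nat_lit 8055139195) (nat_lit 76) (nat_lit 15444354860) (nat_lit 152) (nat_lit 234471524259)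 (nat_lit 6) (nat_lit 5) (nat_lit 7) (nat_lit 5) (nat_lit 8) (nat_lit 4) (nat_lit 414) (nat_lit 314) (nat_lit 172)))) (XT.nd (nat_lit 156) (nat_lit 0) (nat_lit 0) (XT.nd (nat_lit 78) (nat_lit 0) (nat_lit 0) (XT.lf (nat_lit 0) (nat_lit 45751580855) (nat_lit 152) (nat_lit 216424945576) (nat_lit 0) (nat_lit 7541393038) (nat_lit 6) (nat_lit 5) (nat_lit 8) (nat_lit 4) (nat_lit 6) (nat_lit 4) (nat_lit 415) (nat_lit 314) (nat_lit 171)) (XT.lf (nat_lit 0) (nat_lit 69367345042) (nat_lit 152) (nat_lit 181516809358) (nat_lit 0) (nat_lit 31155457825) (nat_lit 6) (nat_lit 5) (nat_lit 8) (nat_lit 4) (nat_lit 6) (nat_lit 4) (nat_lit 416) (nat_lit 314) (nat_lit 170))) (XT.nd (nat_lit 78) (nat_lit 0) (nat_lit 0) (XT.lf (nat_lit 0) (nat_lit 94161884966) (nat_lit 152) (nat_lit 144867226194) (nat_lit 0) (nat_lit 55948379273) (nat_lit 6) (nat_lit 5) (nat_lit 8) (nat_lit 4) (nat_lit 6) (nat_lit 4) (nat_lit 417)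 (nat_lit 314) (nat_lit 169)) (XT.lf (nat_lit 0) (nat_lit 120194235244) (nat_lit 152) (nat_lit 106388935172) (nat_lit 0) (nat_lit 81979188146) (nat_lit 6) (nat_lit 5) (nat_lit 8) (nat_lit 4) (nat_lit 6) (nat_lit 4) (nat_lit 418) (nat_lit 314) (nat_lit 168))))))))
noncomputable def xc140 : XT := (XT.nd (nat_lit 39156) (nat_lit 0) (nat_lit 4636) (XT.nd (nat_lit 936) (nat_lit 0) (nat_lit 0) (XT.nd (nat_lit 468) (nat_lit 152) (nat_lit 0) (XT.nd (nat_lit 234) (nat_lit 0) (nat_lit 0) (XT.nd (nat_lit 78) (nat_lit 76) (nat_lit 0) (XT.lf (nat_lit 0) (nat_lit 147526377664) (nat_lit 152) (nat_lit 65990321313) (nat_lit 0) (nat_lit 109309862560) (nat_lit 6) (nat_lit 5) (nat_lit 8) (nat_lit 4) (nat_lit 6) (nat_lit 4) (nat_lit 419) (nat_lit 314) (nat_lit 167)) (XT.nd (nat_lit 78) (nat_lit 76) (nat_lit 0) (XT.lf (nat_lit 0) (nat_lit 176223388755) (nat_lit 152) (nat_lit 23575197441) (nat_lit 0) (nat_lit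 138005475551) (nat_lit 6) (nat_lit 5) (nat_lit 8) (nat_lit 4) (nat_lit 6) (nat_lit 4) (nat_lit 420) (nat_lit 314) (nat_lit 166)) (XT.lf (nat_lit 0) (nat_lit 21650371943) (nat_lit 76) (nat_lit 185041245771) (nat_lit 76) (nat_lit 146822001043) (nat_lit 5) (nat_lit 4) (nat_lit 6) (nat_lit 5) (nat_lit 6) (nat_lit 4) (nat_lit 421) (nat_lit 314) (nat_lit 165)))) (XT.nd (nat_lit 78) (nat_lit 0) (nat_lit 0) (XT.lf (nat_lit 0) (nat_lit 69952492174) (nat_lit 76) (nat_lit 169128396457) (nat_lit 76) (nat_lit 130907883610) (nat_lit 5) (nat_lit 4) (nat_lit 6) (nat_lit 5) (nat_lit 6) (nat_lit 4) (nat_lit 422) (nat_lit 314) (nat_lit 164)) (XT.nd (nat_lit 78) (nat_lit 0) (nat_lit 0) (XT.lf (nat_lit 0) (nat_lit 120666665800) (nat_lit 76) (nat_lit 152421407893) (nat_lit 76) (nat_lit 114199687315) (nat_lit 5) (nat_lit 4) (nat_lit 6) (nat_lit 5) (nat_lit 6) (nat_lit 4) (nat_lit 423) (nat_lit 314) (nat_lit 163))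 (XT.lf (nat_lit 0) (nat_lit 173913640856) (nat_lit 76) (nat_lit 134880501536) (nat_lit 76) (nat_lit 96657630737) (nat_lit 5) (nat_lit 4) (nat_lit 6) (nat_lit 5) (nat_lit 6) (nat_lit 4) (nat_lit 424) (nat_lit 314) (nat_lit 162))))) (XT.nd (nat_lit 234) (nat_lit 152) (nat_lit 0) (XT.nd (nat_lit 78) (nat_lit 0) (nat_lit 0) (XT.lf (nat_lit 0) (nat_lit 229820195853) (nat_lit 76) (nat_lit 116463913323) (nat_lit 76) (nat_lit 78239947076) (nat_lit 5) (nat_lit 4) (nat_lit 6) (nat_lit 5) (nat_lit 6) (nat_lit 4) (nat_lit 425) (nat_lit 314) (nat_lit 161)) (XT.nd (nat_lit 78) (nat_lit 0) (nat_lit 0) (XT.lf (nat_lit 0) (nat_lit 288519441636) (nat_lit 76) (nat_lit 97127794234) (nat_lit 76) (nat_lit 58902784703) (nat_lit 5) (nat_lit 4) (nat_lit 6) (nat_lit 5) (nat_lit 6) (nat_lit 4) (nat_lit 426) (nat_lit 314) (nat_lit 160)) (XT.lf (nat_lit 0) (nat_lit 350151138314) (nat_lit 76) (nat_lit 76826105891) (nat_lit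 76) (nat_lit 38600102756) (nat_lit 5) (nat_lit 4) (nat_lit 6) (nat_lit 5) (nat_lit 6) (nat_lit 4) (nat_lit 427) (nat_lit 314) (nat_lit 159)))) (XT.nd (nat_lit 78) (nat_lit 152) (nat_lit 0) (XT.lf (nat_lit 0) (nat_lit 414862028023) (nat_lit 76) (nat_lit 55510510941) (nat_lit 76) (nat_lit 17283561516) (nat_lit 5) (nat_lit 4) (nat_lit 6) (nat_lit 5) (nat_lit 6) (nat_lit 4) (nat_lit 428) (nat_lit 314) (nat_lit 158)) (XT.nd (nat_lit 78) (nat_lit 76) (nat_lit 0) (XT.lf (nat_lit 0) (nat_lit 4934437884) (nat_lit 152) (nat_lit 28112252988) (nat_lit 76) (nat_lit 477788179330) (nat_lit 4) (nat_lit 5) (nat_lit 6) (nat_lit 5) (nat_lit 5) (nat_lit 4) (nat_lit 429) (nat_lit 314) (nat_lit 157)) (XT.lf (nat_lit 0) (nat_lit 19130406314) (nat_lit 76) (nat_lit 8849649918) (nat_lit 152) (nat_lit 507163477421) (nat_lit 3) (nat_lit 5) (nat_lit 4) (nat_lit 5) (nat_lit 5) (nat_lit 4) (nat_lit 430) (nat_lit 314)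 (nat_lit 156)))))) (XT.nd (nat_lit 468) (nat_lit 0) (nat_lit 0) (XT.nd (nat_lit 234) (nat_lit 0) (nat_lit 0) (XT.nd (nat_lit 78) (nat_lit 0) (nat_lit 0) (XT.lf (nat_lit 0) (nat_lit 52919243308) (nat_lit 152) (nat_lit 491201152129) (nat_lit 0) (nat_lit 16510170541) (nat_lit 3) (nat_lit 5) (nat_lit 5) (nat_lit 4) (nat_lit 3) (nat_lit 4) (nat_lit 431) (nat_lit 314) (nat_lit 155)) (XT.nd (nat_lit 78) (nat_lit 0) (nat_lit 0) (XT.lf (nat_lit 0) (nat_lit 79249402540) (nat_lit 152) (nat_lit 465295758493) (nat_lit 0) (nat_lit 42839588331) (nat_lit 3) (nat_lit 5) (nat_lit 5) (nat_lit 4) (nat_lit 3) (nat_lit 4) (nat_lit 432) (nat_lit 314) (nat_lit 154)) (XT.lf (nat_lit 0) (nat_lit 106895056950) (nat_lit 152) (nat_lit 438097099088) (nat_lit 0) (nat_lit 70484536605) (nat_lit 3) (nat_lit 5) (nat_lit 5) (nat_lit 4) (nat_lit 3) (nat_lit 4) (nat_lit 433) (nat_lit 314) (nat_lit 153)))) (XT.nd (nat_lit 78)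 (nat_lit 0) (nat_lit 0) (XT.lf (nat_lit 0) (nat_lit 135922029523) (nat_lit 152) (nat_lit 409540415199) (nat_lit 0) (nat_lit 99510836668) (nat_lit 3) (nat_lit 5) (nat_lit 5) (nat_lit 4) (nat_lit 3) (nat_lit 4) (nat_lit 434) (nat_lit 314) (nat_lit 152)) (XT.nd (nat_lit 78) (nat_lit 0) (nat_lit 0) (XT.lf (nat_lit 0) (nat_lit 166399432099) (nat_lit 152) (nat_lit 379557714723) (nat_lit 0) (nat_lit 129987598759) (nat_lit 3) (nat_lit 5) (nat_lit 5) (nat_lit 4) (nat_lit 3) (nat_lit 4) (nat_lit 435) (nat_lit 314) (nat_lit 151)) (XT.lf (nat_lit 0) (nat_lit 198399829924) (nat_lit 152) (nat_lit 348077610277) (nat_lit 0) (nat_lit 161987386596) (nat_lit 3) (nat_lit 5) (nat_lit 5) (nat_lit 4) (nat_lit 3) (nat_lit 4) (nat_lit 436) (nat_lit 314) (nat_lit 150))))) (XT.nd (nat_lit 37518) (nat_lit 0) (nat_lit 8740) (XT.nd (nat_lit 37362) (nat_lit 0) (nat_lit 9348) (XT.lf (nat_lit 0) (nat_lit 231999414419)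 (nat_lit 152) (nat_lit 315025149232) (nat_lit 0) (nat_lit 195586390152) (nat_lit 3) (nat_lit 5) (nat_lit 5) (nat_lit 4) (nat_lit 3) (nat_lit 4) (nat_lit 437) (nat_lit 314) (nat_lit 149)) (XT.nd (nat_lit 78) (nat_lit 0) (nat_lit 0) (XT.lf (nat_lit 0) (nat_lit 3512325582) (nat_lit 684) (nat_lit 512375193) (nat_lit 684) (nat_lit 512375193) (nat_lit 126) (nat_lit 3) (nat_lit 135) (nat_lit 3) (nat_lit 135) (nat_lit 5) (nat_lit 315) (nat_lit 315) (nat_lit 270)) (XT.lf (nat_lit 76) (nat_lit 3437727994) (nat_lit 0) (nat_lit 4658145447) (nat_lit 684) (nat_lit 1159505759) (nat_lit 127) (nat_lit 5) (nat_lit 126) (nat_lit 3) (nat_lit 135) (nat_lit 5) (nat_lit 316) (nat_lit 315) (nat_lit 269)))) (XT.nd (nat_lit 78) (nat_lit 608) (nat_lit 0) (XT.lf (nat_lit 76) (nat_lit 8129649306) (nat_lit 0) (nat_lit 1054011115) (nat_lit 684) (nat_lit 263911398) (nat_lit 127) (nat_lit 5) (nat_lit 126) (nat_lit 3) (nat_lit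 135) (nat_lit 5) (nat_lit 317) (nat_lit 315) (nat_lit 268)) (XT.nd (nat_lit 78) (nat_lit 0) (nat_lit 0) (XT.lf (nat_lit 0) (nat_lit 700500434) (nat_lit 684) (nat_lit 6214973594) (nat_lit 760) (nat_lit 2731136660) (nat_lit 118) (nat_lit 5) (nat_lit 127) (nat_lit 5) (nat_lit 128) (nat_lit 5) (nat_lit 318) (nat_lit 315) (nat_lit 267)) (XT.lf (nat_lit 0) (nat_lit 1693953482) (nat_lit 684) (nat_lit 1444115421) (nat_lit 760) (nat_lit 6717878582) (nat_lit 118) (nat_lit 5) (nat_lit 127) (nat_lit 5) (nat_lit 128) (nat_lit 5) (nat_lit 319) (nat_lit 315) (nat_lit 266))))))) (XT.nd (nat_lit 936) (nat_lit 2128) (nat_lit 0) (XT.nd (nat_lit 468) (nat_lit 2052) (nat_lit 0) (XT.nd (nat_lit 234) (nat_lit 0) (nat_lit 76) (XT.nd (nat_lit 78) (nat_lit 0) (nat_lit 0) (XT.lf (nat_lit 0) (nat_lit 2760345917) (nat_lit 684) (nat_lit 6437875820) (nat_lit 760) (nat_lit 876410614) (nat_lit 119) (nat_lit 5) (nat_lit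 128) (nat_lit 5) (nat_lit 129) (nat_lit 5) (nat_lit 320) (nat_lit 315) (nat_lit 265)) (XT.nd (nat_lit 78) (nat_lit 0) (nat_lit 0) (XT.lf (nat_lit 0) (nat_lit 3910539263) (nat_lit 684) (nat_lit 1365728329) (nat_lit 760) (nat_lit 5026502245) (nat_lit 119) (nat_lit 5) (nat_lit 128) (nat_lit 5) (nat_lit 129) (nat_lit 5) (nat_lit 321) (nat_lit 315) (nat_lit 264)) (XT.lf (nat_lit 76) (nat_lit 4058826193) (nat_lit 0) (nat_lit 1079147462) (nat_lit 760) (nat_lit 5403394398) (nat_lit 120) (nat_lit 5) (nat_lit 119) (nat_lit 5) (nat_lit 129) (nat_lit 5) (nat_lit 322) (nat_lit 315) (nat_lit 263)))) (XT.nd (nat_lit 78) (nat_lit 0) (nat_lit 0) (XT.lf (nat_lit 0) (nat_lit 6460385308) (nat_lit 684) (nat_lit 1073977437) (nat_lit 760) (nat_lit 3255891654) (nat_lit 120) (nat_lit 5) (nat_lit 129) (nat_lit 5) (nat_lit 130) (nat_lit 5) (nat_lit 323) (nat_lit 315) (nat_lit 262)) (XT.nd (nat_lit 78) (nat_lit 0)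 (nat_lit 76) (XT.lf (nat_lit 76) (nat_lit 4706607706) (nat_lit 0) (nat_lit 3193617801) (nat_lit 760) (nat_lit 3148830821) (nat_lit 121) (nat_lit 5) (nat_lit 120) (nat_lit 5) (nat_lit 130) (nat_lit 5) (nat_lit 324) (nat_lit 315) (nat_lit 261)) (XT.lf (nat_lit 0) (nat_lit 9413511669) (nat_lit 684) (nat_lit 560905014) (nat_lit 76) (nat_lit 1346343891) (nat_lit 121) (nat_lit 5) (nat_lit 130) (nat_lit 5) (nat_lit 122) (nat_lit 5) (nat_lit 325) (nat_lit 315) (nat_lit 260))))) (XT.nd (nat_lit 234) (nat_lit 684) (nat_lit 0) (XT.nd (nat_lit 78) (nat_lit 836) (nat_lit 0) (XT.lf (nat_lit 0) (nat_lit 5605409831) (nat_lit 684) (nat_lit 5500417165) (nat_lit 760) (nat_lit 495088049) (nat_lit 112) (nat_lit 5) (nat_lit 121) (nat_lit 5) (nat_lit 122) (nat_lit 5) (nat_lit 326) (nat_lit 315) (nat_lit 259)) (XT.nd (nat_lit 78) (nat_lit 0) (nat_lit 0) (XT.lf (nat_lit 0) (nat_lit 162465568) (nat_lit 760) (nat_lit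 769937242) (nat_lit 836) (nat_lit 10963116874) (nat_lit 101) (nat_lit 5) (nat_lit 111) (nat_lit 5) (nat_lit 112) (nat_lit 5) (nat_lit 327) (nat_lit 315) (nat_lit 258)) (XT.lf (nat_lit 0) (nat_lit 2548764880) (nat_lit 836) (nat_lit 5471962636) (nat_lit 76) (nat_lit 4177043212) (nat_lit 101) (nat_lit 5) (nat_lit 112) (nat_lit 5) (nat_lit 102) (nat_lit 5) (nat_lit 328) (nat_lit 315) (nat_lit 257)))) (XT.nd (nat_lit 78) (nat_lit 304) (nat_lit 0) (XT.lf (nat_lit 0) (nat_lit 1092763904) (nat_lit 380) (nat_lit 3149917111) (nat_lit 456) (nat_lit 8272643872) (nat_lit 96) (nat_lit 5) (nat_lit 101) (nat_lit 5) (nat_lit 102) (nat_lit 5) (nat_lit 329) (nat_lit 315) (nat_lit 256)) (XT.nd (nat_lit 78) (nat_lit 304) (nat_lit 0) (XT.lf (nat_lit 0) (nat_lit 6114296032) (nat_lit 456) (nat_lit 4733501003) (nat_lit 76) (nat_lit 1996335620) (nat_lit 96) (nat_lit 5) (nat_lit 102) (nat_lit 5) (nat_lit 97) (nat_lit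 5) (nat_lit 330) (nat_lit 315) (nat_lit 255)) (XT.lf (nat_lit 0) (nat_lit 2280025992) (nat_lit 304) (nat_lit 5856361615) (nat_lit 380) (nat_lit 5050173232) (nat_lit 92) (nat_lit 5) (nat_lit 96) (nat_lit 5) (nat_lit 97) (nat_lit 5) (nat_lit 331) (nat_lit 315) (nat_lit 254)))))) (XT.nd (nat_lit 468) (nat_lit 1064) (nat_lit 0) (XT.nd (nat_lit 234) (nat_lit 608) (nat_lit 0) (XT.nd (nat_lit 78) (nat_lit 456) (nat_lit 0) (XT.lf (nat_lit 0) (nat_lit 9777747946) (nat_lit 304) (nat_lit 532623767) (nat_lit 380) (nat_lit 3233222953) (nat_lit 92) (nat_lit 5) (nat_lit 96) (nat_lit 5) (nat_lit 97) (nat_lit 5) (nat_lit 332) (nat_lit 315) (nat_lit 253)) (XT.nd (nat_lit 78) (nat_lit 76) (nat_lit 0) (XT.lf (nat_lit 0) (nat_lit 3741932087) (nat_lit 380) (nat_lit 8960504878) (nat_lit 456) (nat_lit 1210596632) (nat_lit 87) (nat_lit 5) (nat_lit 92) (nat_lit 5) (nat_lit 93) (nat_lit 5) (nat_lit 333) (nat_lit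 315) (nat_lit 252)) (XT.lf (nat_lit 0) (nat_lit 929884177) (nat_lit 456) (nat_lit 2597135594) (nat_lit 76) (nat_lit 10770934767) (nat_lit 86) (nat_lit 5) (nat_lit 92) (nat_lit 5) (nat_lit 87) (nat_lit 5) (nat_lit 334) (nat_lit 315) (nat_lit 251)))) (XT.nd (nat_lit 78) (nat_lit 304) (nat_lit 0) (XT.lf (nat_lit 0) (nat_lit 3231678232) (nat_lit 380) (nat_lit 9252445839) (nat_lit 76) (nat_lit 2212275949) (nat_lit 82) (nat_lit 5) (nat_lit 87) (nat_lit 5) (nat_lit 83) (nat_lit 5) (nat_lit 335) (nat_lit 315) (nat_lit 250)) (XT.nd (nat_lit 78) (nat_lit 304) (nat_lit 0) (XT.lf (nat_lit 0) (nat_lit 5725535136) (nat_lit 380) (nat_lit 1224302686) (nat_lit 76) (nat_lit 8161099813) (nat_lit 82) (nat_lit 5) (nat_lit 87) (nat_lit 5) (nat_lit 83) (nat_lit 5) (nat_lit 336) (nat_lit 315) (nat_lit 249)) (XT.lf (nat_lit 0) (nat_lit 7413518723) (nat_lit 304) (nat_lit 1021977068) (nat_lit 380) (nat_lit 7106153432)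 (nat_lit 78) (nat_lit 5) (nat_lit 82) (nat_lit 5) (nat_lit 83) (nat_lit 5) (nat_lit 337) (nat_lit 315) (nat_lit 248))))) (XT.nd (nat_lit 234) (nat_lit 456) (nat_lit 0) (XT.nd (nat_lit 78) (nat_lit 380) (nat_lit 0) (XT.lf (nat_lit 0) (nat_lit 435595268) (nat_lit 228) (nat_lit 10930757786) (nat_lit 304) (nat_lit 4623290202) (nat_lit 75) (nat_lit 5) (nat_lit 78) (nat_lit 5) (nat_lit 79) (nat_lit 5) (nat_lit 338) (nat_lit 315) (nat_lit 247)) (XT.nd (nat_lit 78) (nat_lit 380) (nat_lit 0) (XT.lf (nat_lit 0) (nat_lit 9663207368) (nat_lit 228) (nat_lit 4911657543) (nat_lit 304) (nat_lit 1878632490) (nat_lit 75) (nat_lit 5) (nat_lit 78) (nat_lit 5) (nat_lit 79) (nat_lit 5) (nat_lit 339) (nat_lit 315) (nat_lit 246)) (XT.lf (nat_lit 0) (nat_lit 1009803183) (nat_lit 380) (nat_lit 14516030151) (nat_lit 76) (nat_lit 1412009466) (nat_lit 70) (nat_lit 5) (nat_lit 75) (nat_lit 5) (nat_lit 71) (nat_lit 5)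 (nat_lit 340) (nat_lit 315) (nat_lit 245)))) (XT.nd (nat_lit 156) (nat_lit 228) (nat_lit 0) (XT.nd (nat_lit 78) (nat_lit 228) (nat_lit 0) (XT.lf (nat_lit 0) (nat_lit 4155147502) (nat_lit 380) (nat_lit 5252675386) (nat_lit 76) (nat_lit 8028275474) (nat_lit 70) (nat_lit 5) (nat_lit 75) (nat_lit 5) (nat_lit 71) (nat_lit 5) (nat_lit 341) (nat_lit 315) (nat_lit 244)) (XT.lf (nat_lit 0) (nat_lit 4593159437) (nat_lit 228) (nat_lit 2915569037) (nat_lit 304) (nat_lit 10448002917) (nat_lit 67) (nat_lit 5) (nat_lit 70) (nat_lit 5) (nat_lit 71) (nat_lit 5) (nat_lit 342) (nat_lit 315) (nat_lit 243))) (XT.nd (nat_lit 78) (nat_lit 228) (nat_lit 0) (XT.lf (nat_lit 0) (nat_lit 11161022831) (nat_lit 304) (nat_lit 3475831601) (nat_lit 76) (nat_lit 3860002456) (nat_lit 67) (nat_lit 5) (nat_lit 71) (nat_lit 5) (nat_lit 68) (nat_lit 5) (nat_lit 343) (nat_lit 315) (nat_lit 242)) (XT.lf (nat_lit 0) (nat_lit 7057564852)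 (nat_lit 228) (nat_lit 8077027104) (nat_lit 304) (nat_lit 3922475639) (nat_lit 64) (nat_lit 5) (nat_lit 67) (nat_lit 5) (nat_lit 68) (nat_lit 5) (nat_lit 344) (nat_lit 315) (nat_lit 241))))))))
noncomputable def xc141 : XT := (XT.nd (nat_lit 1950) (nat_lit 1216) (nat_lit 0) (XT.nd (nat_lit 936) (nat_lit 1140) (nat_lit 0) (XT.nd (nat_lit 468) (nat_lit 684) (nat_lit 0) (XT.nd (nat_lit 234) (nat_lit 152) (nat_lit 0) (XT.nd (nat_lit 78) (nat_lit 532) (nat_lit 0) (XT.lf (nat_lit 0) (nat_lit 18211915893) (nat_lit 228) (nat_lit 1134972225) (nat_lit 304) (nat_lit 296409657) (nat_lit 64) (nat_lit 5) (nat_lit 67) (nat_lit 5) (nat_lit 68) (nat_lit 5) (nat_lit 345) (nat_lit 315) (nat_lit 240)) (XT.nd (nat_lit 78) (nat_lit 228) (nat_lit 0) (XT.lf (nat_lit 0) (nat_lit 3634352068) (nat_lit 304) (nat_lit 10447196085) (nat_lit 76) (nat_lit 6162772572) (nat_lit 60) (nat_lit 5) (nat_lit 64) (nat_lit 5) (nat_lit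 61) (nat_lit 5) (nat_lit 346) (nat_lit 315) (nat_lit 239)) (XT.lf (nat_lit 0) (nat_lit 736158603) (nat_lit 228) (nat_lit 7052399634) (nat_lit 304) (nat_lit 13084760066) (nat_lit 57) (nat_lit 5) (nat_lit 60) (nat_lit 5) (nat_lit 61) (nat_lit 5) (nat_lit 347) (nat_lit 315) (nat_lit 238)))) (XT.nd (nat_lit 78) (nat_lit 152) (nat_lit 0) (XT.lf (nat_lit 0) (nat_lit 12317878099) (nat_lit 304) (nat_lit 8717998618) (nat_lit 76) (nat_lit 489528225) (nat_lit 57) (nat_lit 5) (nat_lit 61) (nat_lit 5) (nat_lit 58) (nat_lit 5) (nat_lit 348) (nat_lit 315) (nat_lit 237)) (XT.nd (nat_lit 78) (nat_lit 0) (nat_lit 0) (XT.lf (nat_lit 0) (nat_lit 3234863553) (nat_lit 152) (nat_lit 13988204870) (nat_lit 228) (nat_lit 4979566175) (nat_lit 55) (nat_lit 5) (nat_lit 57) (nat_lit 5) (nat_lit 58) (nat_lit 5) (nat_lit 349) (nat_lit 315) (nat_lit 236)) (XT.lf (nat_lit 0) (nat_lit 16063264494) (nat_lit 152) (nat_lit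 6441592485) (nat_lit 228) (nat_lit 402310305) (nat_lit 55) (nat_lit 5) (nat_lit 57) (nat_lit 5) (nat_lit 58) (nat_lit 5) (nat_lit 350) (nat_lit 315) (nat_lit 235))))) (XT.nd (nat_lit 234) (nat_lit 228) (nat_lit 0) (XT.nd (nat_lit 78) (nat_lit 152) (nat_lit 0) (XT.lf (nat_lit 0) (nat_lit 4366180698) (nat_lit 304) (nat_lit 17680455157) (nat_lit 76) (nat_lit 1591694568) (nat_lit 51) (nat_lit 5) (nat_lit 55) (nat_lit 5) (nat_lit 52) (nat_lit 5) (nat_lit 351) (nat_lit 315) (nat_lit 234)) (XT.nd (nat_lit 78) (nat_lit 152) (nat_lit 0) (XT.lf (nat_lit 0) (nat_lit 9567441373) (nat_lit 304) (nat_lit 4901387016) (nat_lit 76) (nat_lit 9926507627) (nat_lit 51) (nat_lit 5) (nat_lit 55) (nat_lit 5) (nat_lit 52) (nat_lit 5) (nat_lit 352) (nat_lit 315) (nat_lit 233)) (XT.lf (nat_lit 0) (nat_lit 8774243788) (nat_lit 152) (nat_lit 6376712424) (nat_lit 228) (nat_lit 10033133100) (nat_lit 49) (nat_lit 5) (nat_lit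 51) (nat_lit 5) (nat_lit 52) (nat_lit 5) (nat_lit 353) (nat_lit 315) (nat_lit 232)))) (XT.nd (nat_lit 78) (nat_lit 228) (nat_lit 0) (XT.lf (nat_lit 0) (nat_lit 21116531767) (nat_lit 228) (nat_lit 2762213689) (nat_lit 76) (nat_lit 2128397214) (nat_lit 49) (nat_lit 5) (nat_lit 52) (nat_lit 5) (nat_lit 50) (nat_lit 5) (nat_lit 354) (nat_lit 315) (nat_lit 231)) (XT.nd (nat_lit 78) (nat_lit 0) (nat_lit 0) (XT.lf (nat_lit 0) (nat_lit 772429468) (nat_lit 228) (nat_lit 15050830665) (nat_lit 76) (nat_lit 11033712995) (nat_lit 46) (nat_lit 5) (nat_lit 49) (nat_lit 5) (nat_lit 47) (nat_lit 5) (nat_lit 355) (nat_lit 315) (nat_lit 230)) (XT.lf (nat_lit 0) (nat_lit 6588013573) (nat_lit 228) (nat_lit 651513062) (nat_lit 76) (nat_lit 20504078102) (nat_lit 46) (nat_lit 5) (nat_lit 49) (nat_lit 5) (nat_lit 47) (nat_lit 5) (nat_lit 356) (nat_lit 315) (nat_lit 229)))))) (XT.nd (nat_lit 468) (nat_lit 456) (nat_lit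 0) (XT.nd (nat_lit 234) (nat_lit 380) (nat_lit 0) (XT.nd (nat_lit 78) (nat_lit 152) (nat_lit 0) (XT.lf (nat_lit 0) (nat_lit 12945621589) (nat_lit 228) (nat_lit 13770887497) (nat_lit 76) (nat_lit 1945502073) (nat_lit 44) (nat_lit 5) (nat_lit 47) (nat_lit 5) (nat_lit 45) (nat_lit 5) (nat_lit 357) (nat_lit 315) (nat_lit 228)) (XT.nd (nat_lit 78) (nat_lit 0) (nat_lit 0) (XT.lf (nat_lit 0) (nat_lit 1515842415) (nat_lit 152) (nat_lit 18245858520) (nat_lit 228) (nat_lit 9857612632) (nat_lit 42) (nat_lit 5) (nat_lit 44) (nat_lit 5) (nat_lit 45) (nat_lit 5) (nat_lit 358) (nat_lit 315) (nat_lit 227)) (XT.lf (nat_lit 0) (nat_lit 18023812888) (nat_lit 152) (nat_lit 9115303877) (nat_lit 228) (nat_lit 3474342661) (nat_lit 42) (nat_lit 5) (nat_lit 44) (nat_lit 5) (nat_lit 45) (nat_lit 5) (nat_lit 359) (nat_lit 315) (nat_lit 226)))) (XT.nd (nat_lit 78) (nat_lit 152) (nat_lit 0) (XT.lf (nat_lit 0) (nat_lit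 3180041102) (nat_lit 228) (nat_lit 27912641281) (nat_lit 76) (nat_lit 559351249) (nat_lit 39) (nat_lit 5) (nat_lit 42) (nat_lit 5) (nat_lit 40) (nat_lit 5) (nat_lit 360) (nat_lit 315) (nat_lit 225)) (XT.nd (nat_lit 78) (nat_lit 152) (nat_lit 0) (XT.lf (nat_lit 0) (nat_lit 10404378725) (nat_lit 228) (nat_lit 11640527358) (nat_lit 76) (nat_lit 10677087161) (nat_lit 39) (nat_lit 5) (nat_lit 42) (nat_lit 5) (nat_lit 40) (nat_lit 5) (nat_lit 361) (nat_lit 315) (nat_lit 224)) (XT.lf (nat_lit 0) (nat_lit 5604833595) (nat_lit 152) (nat_lit 12461042149) (nat_lit 228) (nat_lit 15775782047) (nat_lit 37) (nat_lit 5) (nat_lit 39) (nat_lit 5) (nat_lit 40) (nat_lit 5) (nat_lit 362) (nat_lit 315) (nat_lit 223))))) (XT.nd (nat_lit 234) (nat_lit 304) (nat_lit 0) (XT.nd (nat_lit 78) (nat_lit 152) (nat_lit 0) (XT.lf (nat_lit 0) (nat_lit 24097165600) (nat_lit 152) (nat_lit 2199102679) (nat_lit 228) (nat_lit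 8711750139) (nat_lit 37) (nat_lit 5) (nat_lit 39) (nat_lit 5) (nat_lit 40) (nat_lit 5) (nat_lit 363) (nat_lit 315) (nat_lit 222)) (XT.nd (nat_lit 78) (nat_lit 76) (nat_lit 0) (XT.lf (nat_lit 0) (nat_lit 7364299766) (nat_lit 76) (nat_lit 27811853383) (nat_lit 152) (nat_lit 1044648993) (nat_lit 36) (nat_lit 5) (nat_lit 37) (nat_lit 5) (nat_lit 38) (nat_lit 4) (nat_lit 364) (nat_lit 315) (nat_lit 221)) (XT.lf (nat_lit 0) (nat_lit 6994589170) (nat_lit 152) (nat_lit 10720419602) (nat_lit 76) (nat_lit 19763100047) (nat_lit 35) (nat_lit 5) (nat_lit 37) (nat_lit 5) (nat_lit 36) (nat_lit 5) (nat_lit 365) (nat_lit 315) (nat_lit 220)))) (XT.nd (nat_lit 156) (nat_lit 152) (nat_lit 0) (XT.nd (nat_lit 78) (nat_lit 0) (nat_lit 0) (XT.lf (nat_lit 0) (nat_lit 8561276819) (nat_lit 152) (nat_lit 6962738431) (nat_lit 228) (nat_lit 23267245853) (nat_lit 33) (nat_lit 5) (nat_lit 35) (nat_lit 5) (nat_lit 36)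 (nat_lit 5) (nat_lit 366) (nat_lit 315) (nat_lit 219)) (XT.lf (nat_lit 0) (nat_lit 24721765417) (nat_lit 228) (nat_lit 11070458617) (nat_lit 76) (nat_lit 4365757374) (nat_lit 33) (nat_lit 5) (nat_lit 36) (nat_lit 5) (nat_lit 34) (nat_lit 4) (nat_lit 367) (nat_lit 315) (nat_lit 218))) (XT.nd (nat_lit 78) (nat_lit 76) (nat_lit 0) (XT.lf (nat_lit 0) (nat_lit 9210378250) (nat_lit 76) (nat_lit 25417217530) (nat_lit 152) (nat_lit 6953035214) (nat_lit 32) (nat_lit 5) (nat_lit 33) (nat_lit 5) (nat_lit 34) (nat_lit 4) (nat_lit 368) (nat_lit 315) (nat_lit 217)) (XT.lf (nat_lit 0) (nat_lit 2072600463) (nat_lit 152) (nat_lit 12226382232) (nat_lit 76) (nat_lit 28764865095) (nat_lit 31) (nat_lit 5) (nat_lit 33) (nat_lit 5) (nat_lit 32) (nat_lit 5) (nat_lit 369) (nat_lit 315) (nat_lit 216))))))) (XT.nd (nat_lit 936) (nat_lit 456) (nat_lit 0) (XT.nd (nat_lit 468) (nat_lit 304) (nat_lit 0) (XT.nd (nat_lit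 234) (nat_lit 228) (nat_lit 0) (XT.nd (nat_lit 78) (nat_lit 76) (nat_lit 0) (XT.lf (nat_lit 0) (nat_lit 9084943045) (nat_lit 152) (nat_lit 2363499904) (nat_lit 228) (nat_lit 33160456142) (nat_lit 29) (nat_lit 5) (nat_lit 31) (nat_lit 5) (nat_lit 32) (nat_lit 5) (nat_lit 370) (nat_lit 315) (nat_lit 215)) (XT.nd (nat_lit 78) (nat_lit 76) (nat_lit 0) (XT.lf (nat_lit 0) (nat_lit 21653119744) (nat_lit 228) (nat_lit 14513306186) (nat_lit 76) (nat_lit 10046777303) (nat_lit 29) (nat_lit 5) (nat_lit 32) (nat_lit 5) (nat_lit 30) (nat_lit 4) (nat_lit 371) (nat_lit 315) (nat_lit 214)) (XT.lf (nat_lit 0) (nat_lit 7741077896) (nat_lit 76) (nat_lit 24777820464) (nat_lit 152) (nat_lit 15371283097) (nat_lit 28) (nat_lit 5) (nat_lit 29) (nat_lit 5) (nat_lit 30) (nat_lit 4) (nat_lit 372) (nat_lit 315) (nat_lit 213)))) (XT.nd (nat_lit 78) (nat_lit 228) (nat_lit 0) (XT.lf (nat_lit 0) (nat_lit 31596490281) (nat_lit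 76) (nat_lit 12568700802) (nat_lit 152) (nat_lit 5473958414) (nat_lit 28) (nat_lit 5) (nat_lit 29) (nat_lit 5) (nat_lit 30) (nat_lit 4) (nat_lit 373) (nat_lit 315) (nat_lit 212)) (XT.nd (nat_lit 78) (nat_lit 0) (nat_lit 0) (XT.lf (nat_lit 0) (nat_lit 4840828436) (nat_lit 228) (nat_lit 46229359943) (nat_lit 76) (nat_lit 397539649) (nat_lit 25) (nat_lit 5) (nat_lit 28) (nat_lit 5) (nat_lit 26) (nat_lit 4) (nat_lit 374) (nat_lit 315) (nat_lit 211)) (XT.lf (nat_lit 0) (nat_lit 15995773864) (nat_lit 228) (nat_lit 23378556022) (nat_lit 76) (nat_lit 13983501611) (nat_lit 25) (nat_lit 5) (nat_lit 28) (nat_lit 5) (nat_lit 26) (nat_lit 4) (nat_lit 375) (nat_lit 315) (nat_lit 210))))) (XT.nd (nat_lit 234) (nat_lit 228) (nat_lit 0) (XT.nd (nat_lit 78) (nat_lit 0) (nat_lit 0) (XT.lf (nat_lit 0) (nat_lit 620204968) (nat_lit 76) (nat_lit 27090102342) (nat_lit 152) (nat_lit 27632042572) (nat_lit 24) (nat_lit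 5) (nat_lit 25) (nat_lit 5) (nat_lit 26) (nat_lit 4) (nat_lit 376) (nat_lit 315) (nat_lit 209)) (XT.nd (nat_lit 78) (nat_lit 0) (nat_lit 0) (XT.lf (nat_lit 0) (nat_lit 26616353924) (nat_lit 76) (nat_lit 13782450008) (nat_lit 152) (nat_lit 17007880124) (nat_lit 24) (nat_lit 5) (nat_lit 25) (nat_lit 5) (nat_lit 26) (nat_lit 4) (nat_lit 377) (nat_lit 315) (nat_lit 208)) (XT.lf (nat_lit 0) (nat_lit 53717279716) (nat_lit 152) (nat_lit 5678695746) (nat_lit 0) (nat_lit 178483376) (nat_lit 24) (nat_lit 5) (nat_lit 26) (nat_lit 4) (nat_lit 24) (nat_lit 4) (nat_lit 378) (nat_lit 315) (nat_lit 207)))) (XT.nd (nat_lit 78) (nat_lit 76) (nat_lit 0) (XT.lf (nat_lit 0) (nat_lit 6221483856) (nat_lit 152) (nat_lit 40797944475) (nat_lit 76) (nat_lit 14798743059) (nat_lit 22) (nat_lit 5) (nat_lit 24) (nat_lit 5) (nat_lit 23) (nat_lit 4) (nat_lit 379) (nat_lit 315) (nat_lit 206)) (XT.nd (nat_lit 78) (nat_lit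 76) (nat_lit 0) (XT.lf (nat_lit 0) (nat_lit 18797940223) (nat_lit 152) (nat_lit 15028770865) (nat_lit 76) (nat_lit 30338023916) (nat_lit 22) (nat_lit 5) (nat_lit 24) (nat_lit 5) (nat_lit 23) (nat_lit 4) (nat_lit 380) (nat_lit 315) (nat_lit 205)) (XT.lf (nat_lit 0) (nat_lit 12413641021) (nat_lit 76) (nat_lit 19776677563) (nat_lit 152) (nat_lit 34428954584) (nat_lit 21) (nat_lit 5) (nat_lit 22) (nat_lit 5) (nat_lit 23) (nat_lit 4) (nat_lit 381) (nat_lit 315) (nat_lit 204)))))) (XT.nd (nat_lit 468) (nat_lit 228) (nat_lit 0) (XT.nd (nat_lit 234) (nat_lit 76) (nat_lit 0) (XT.nd (nat_lit 78) (nat_lit 152) (nat_lit 0) (XT.lf (nat_lit 0) (nat_lit 41737606219) (nat_lit 76) (nat_lit 4762643707) (nat_lit 152) (nat_lit 22683892878) (nat_lit 21) (nat_lit 5) (nat_lit 22) (nat_lit 5) (nat_lit 23) (nat_lit 4) (nat_lit 382) (nat_lit 315) (nat_lit 203)) (XT.nd (nat_lit 78) (nat_lit 76) (nat_lit 0) (XT.lf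 (nat_lit 0) (nat_lit 482199290) (nat_lit 76) (nat_lit 61216423210) (nat_lit 76) (nat_lit 10169987392) (nat_lit 20) (nat_lit 4) (nat_lit 21) (nat_lit 5) (nat_lit 21) (nat_lit 4) (nat_lit 383) (nat_lit 315) (nat_lit 202)) (XT.lf (nat_lit 0) (nat_lit 3418741808) (nat_lit 152) (nat_lit 44047857719) (nat_lit 76) (nat_lit 27191174970) (nat_lit 19) (nat_lit 5) (nat_lit 21) (nat_lit 5) (nat_lit 20) (nat_lit 4) (nat_lit 384) (nat_lit 315) (nat_lit 201)))) (XT.nd (nat_lit 78) (nat_lit 76) (nat_lit 0) (XT.lf (nat_lit 0) (nat_lit 17339089306) (nat_lit 152) (nat_lit 15520519265) (nat_lit 76) (nat_lit 44718755744) (nat_lit 19) (nat_lit 5) (nat_lit 21) (nat_lit 5) (nat_lit 20) (nat_lit 4) (nat_lit 385) (nat_lit 315) (nat_lit 200)) (XT.nd (nat_lit 78) (nat_lit 0) (nat_lit 0) (XT.lf (nat_lit 0) (nat_lit 14899175667) (nat_lit 76) (nat_lit 17283144112) (nat_lit 152) (nat_lit 48451321554) (nat_lit 18) (nat_lit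 5) (nat_lit 19) (nat_lit 5) (nat_lit 20) (nat_lit 4) (nat_lit 386) (nat_lit 315) (nat_lit 199)) (XT.lf (nat_lit 0) (nat_lit 47367991053) (nat_lit 76) (nat_lit 656922776) (nat_lit 152) (nat_lit 35803909215) (nat_lit 18) (nat_lit 5) (nat_lit 19) (nat_lit 5) (nat_lit 20) (nat_lit 4) (nat_lit 387) (nat_lit 315) (nat_lit 198))))) (XT.nd (nat_lit 234) (nat_lit 76) (nat_lit 0) (XT.nd (nat_lit 78) (nat_lit 152) (nat_lit 0) (XT.lf (nat_lit 0) (nat_lit 64916490381) (nat_lit 152) (nat_lit 5996207852) (nat_lit 0) (nat_lit 16258223868) (nat_lit 18) (nat_lit 5) (nat_lit 20) (nat_lit 4) (nat_lit 18) (nat_lit 4) (nat_lit 388) (nat_lit 315) (nat_lit 197)) (XT.nd (nat_lit 78) (nat_lit 76) (nat_lit 0) (XT.lf (nat_lit 0) (nat_lit 26829704343) (nat_lit 76) (nat_lit 56247405324) (nat_lit 76) (nat_lit 7581794103) (nat_lit 17) (nat_lit 4) (nat_lit 18) (nat_lit 5) (nat_lit 18) (nat_lit 4) (nat_lit 389) (nat_lit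 315) (nat_lit 196)) (XT.lf (nat_lit 0) (nat_lit 7672075489) (nat_lit 152) (nat_lit 32944851427) (nat_lit 76) (nat_lit 53693348677) (nat_lit 16) (nat_lit 5) (nat_lit 18) (nat_lit 5) (nat_lit 17) (nat_lit 4) (nat_lit 390) (nat_lit 315) (nat_lit 195)))) (XT.nd (nat_lit 156) (nat_lit 0) (nat_lit 0) (XT.nd (nat_lit 78) (nat_lit 76) (nat_lit 0) (XT.lf (nat_lit 0) (nat_lit 23428906047) (nat_lit 152) (nat_lit 650010649) (nat_lit 76) (nat_lit 74059332190) (nat_lit 16) (nat_lit 5) (nat_lit 18) (nat_lit 5) (nat_lit 17) (nat_lit 4) (nat_lit 391) (nat_lit 315) (nat_lit 194)) (XT.lf (nat_lit 0) (nat_lit 34350003054) (nat_lit 76) (nat_lit 6155175352) (nat_lit 152) (nat_lit 61625863128) (nat_lit 15) (nat_lit 5) (nat_lit 16) (nat_lit 5) (nat_lit 17) (nat_lit 4) (nat_lit 392) (nat_lit 315) (nat_lit 193))) (XT.nd (nat_lit 78) (nat_lit 0) (nat_lit 0) (XT.lf (nat_lit 0) (nat_lit 58639505667) (nat_lit 152) (nat_lit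 35407256032) (nat_lit 0) (nat_lit 12266500724) (nat_lit 15) (nat_lit 5) (nat_lit 17) (nat_lit 4) (nat_lit 15) (nat_lit 4) (nat_lit 393) (nat_lit 315) (nat_lit 192)) (XT.lf (nat_lit 0) (nat_lit 77776996931) (nat_lit 152) (nat_lit 1524264427) (nat_lit 0) (nat_lit 31398511254) (nat_lit 15) (nat_lit 5) (nat_lit 17) (nat_lit 4) (nat_lit 15) (nat_lit 4) (nat_lit 394) (nat_lit 315) (nat_lit 191))))))))
noncomputable def xc142 : XT := (XT.nd (nat_lit 1872) (nat_lit 228) (nat_lit 0) (XT.nd (nat_lit 936) (nat_lit 228) (nat_lit 0) (XT.nd (nat_lit 468) (nat_lit 228) (nat_lit 0) (XT.nd (nat_lit 234) (nat_lit 76) (nat_lit 0) (XT.nd (nat_lit 78) (nat_lit 76) (nat_lit 0) (XT.lf (nat_lit 0) (nat_lit 35170381513) (nat_lit 76) (nat_lit 63245844826) (nat_lit 76) (nat_lit 16862139402) (nat_lit 14) (nat_lit 4) (nat_lit 15) (nat_lit 5) (nat_lit 15) (nat_lit 4) (nat_lit 395) (nat_lit 315) (nat_lit 190)) (XT.nd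 (nat_lit 78) (nat_lit 0) (nat_lit 0) (XT.lf (nat_lit 0) (nat_lit 23480244) (nat_lit 152) (nat_lit 46340542110) (nat_lit 76) (nat_lit 73720765507) (nat_lit 13) (nat_lit 5) (nat_lit 15) (nat_lit 5) (nat_lit 14) (nat_lit 4) (nat_lit 396) (nat_lit 315) (nat_lit 189)) (XT.lf (nat_lit 0) (nat_lit 17182667316) (nat_lit 152) (nat_lit 11168943076) (nat_lit 76) (nat_lit 96766301549) (nat_lit 13) (nat_lit 5) (nat_lit 15) (nat_lit 5) (nat_lit 14) (nat_lit 4) (nat_lit 397) (nat_lit 315) (nat_lit 188)))) (XT.nd (nat_lit 78) (nat_lit 0) (nat_lit 0) (XT.lf (nat_lit 0) (nat_lit 26605357622) (nat_lit 76) (nat_lit 9005997358) (nat_lit 152) (nat_lit 94770760685) (nat_lit 12) (nat_lit 5) (nat_lit 13) (nat_lit 5) (nat_lit 14) (nat_lit 4) (nat_lit 398) (nat_lit 315) (nat_lit 187)) (XT.nd (nat_lit 78) (nat_lit 0) (nat_lit 0) (XT.lf (nat_lit 0) (nat_lit 55326432801) (nat_lit 152) (nat_lit 69431001792) (nat_lit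 0) (nat_lit 11133847670) (nat_lit 12) (nat_lit 5) (nat_lit 14) (nat_lit 4) (nat_lit 12) (nat_lit 4) (nat_lit 399) (nat_lit 315) (nat_lit 186)) (XT.lf (nat_lit 0) (nat_lit 76171257273) (nat_lit 152) (nat_lit 33522673646) (nat_lit 0) (nat_lit 31974777088) (nat_lit 12) (nat_lit 5) (nat_lit 14) (nat_lit 4) (nat_lit 12) (nat_lit 4) (nat_lit 400) (nat_lit 315) (nat_lit 185))))) (XT.nd (nat_lit 234) (nat_lit 152) (nat_lit 0) (XT.nd (nat_lit 78) (nat_lit 0) (nat_lit 0) (XT.lf (nat_lit 0) (nat_lit 4312353514) (nat_lit 76) (nat_lit 93809824484) (nat_lit 76) (nat_lit 49609634722) (nat_lit 11) (nat_lit 4) (nat_lit 12) (nat_lit 5) (nat_lit 12) (nat_lit 4) (nat_lit 401) (nat_lit 315) (nat_lit 184)) (XT.nd (nat_lit 78) (nat_lit 0) (nat_lit 0) (XT.lf (nat_lit 0) (nat_lit 45196332635) (nat_lit 76) (nat_lit 76538623777) (nat_lit 76) (nat_lit 32334901085) (nat_lit 11) (nat_lit 4) (nat_lit 12) (nat_lit 5)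 (nat_lit 12) (nat_lit 4) (nat_lit 402) (nat_lit 315) (nat_lit 183)) (XT.lf (nat_lit 0) (nat_lit 88118195540) (nat_lit 76) (nat_lit 58406929592) (nat_lit 76) (nat_lit 14199842204) (nat_lit 11) (nat_lit 4) (nat_lit 12) (nat_lit 5) (nat_lit 12) (nat_lit 4) (nat_lit 403) (nat_lit 315) (nat_lit 182)))) (XT.nd (nat_lit 78) (nat_lit 76) (nat_lit 0) (XT.lf (nat_lit 0) (nat_lit 4683851352) (nat_lit 152) (nat_lit 34608396587) (nat_lit 76) (nat_lit 128416962499) (nat_lit 10) (nat_lit 5) (nat_lit 12) (nat_lit 5) (nat_lit 11) (nat_lit 4) (nat_lit 404) (nat_lit 315) (nat_lit 181)) (XT.nd (nat_lit 78) (nat_lit 0) (nat_lit 0) (XT.lf (nat_lit 0) (nat_lit 5218303977) (nat_lit 76) (nat_lit 18894694907) (nat_lit 152) (nat_lit 150914104078) (nat_lit 9) (nat_lit 5) (nat_lit 10) (nat_lit 5) (nat_lit 11) (nat_lit 4) (nat_lit 405) (nat_lit 315) (nat_lit 180)) (XT.lf (nat_lit 0) (nat_lit 45145723368) (nat_lit 152)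 (nat_lit 134498552280) (nat_lit 0) (nat_lit 3035008809) (nat_lit 9) (nat_lit 5) (nat_lit 11) (nat_lit 4) (nat_lit 9) (nat_lit 4) (nat_lit 406) (nat_lit 315) (nat_lit 179)))))) (XT.nd (nat_lit 468) (nat_lit 152) (nat_lit 0) (XT.nd (nat_lit 234) (nat_lit 76) (nat_lit 0) (XT.nd (nat_lit 78) (nat_lit 0) (nat_lit 0) (XT.lf (nat_lit 0) (nat_lit 67536989645) (nat_lit 152) (nat_lit 97738101652) (nat_lit 0) (nat_lit 25423638759) (nat_lit 9) (nat_lit 5) (nat_lit 11) (nat_lit 4) (nat_lit 9) (nat_lit 4) (nat_lit 407) (nat_lit 315) (nat_lit 178)) (XT.nd (nat_lit 78) (nat_lit 0) (nat_lit 0) (XT.lf (nat_lit 0) (nat_lit 91045111114) (nat_lit 152) (nat_lit 59144923078) (nat_lit 0) (nat_lit 48929249441) (nat_lit 9) (nat_lit 5) (nat_lit 11) (nat_lit 4) (nat_lit 9) (nat_lit 4) (nat_lit 408) (nat_lit 315) (nat_lit 177)) (XT.lf (nat_lit 0) (nat_lit 115726059494) (nat_lit 152) (nat_lit 18627128038) (nat_lit 0)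 (nat_lit 73607806595) (nat_lit 9) (nat_lit 5) (nat_lit 11) (nat_lit 4) (nat_lit 9) (nat_lit 4) (nat_lit 409) (nat_lit 315) (nat_lit 176)))) (XT.nd (nat_lit 78) (nat_lit 0) (nat_lit 0) (XT.lf (nat_lit 0) (nat_lit 24702384997) (nat_lit 76) (nat_lit 117321887407) (nat_lit 76) (nat_lit 75201357150) (nat_lit 8) (nat_lit 4) (nat_lit 9) (nat_lit 5) (nat_lit 9) (nat_lit 4) (nat_lit 410) (nat_lit 315) (nat_lit 175)) (XT.nd (nat_lit 78) (nat_lit 0) (nat_lit 0) (XT.lf (nat_lit 0) (nat_lit 70840340620) (nat_lit 76) (nat_lit 99110101621) (nat_lit 76) (nat_lit 56987402451) (nat_lit 8) (nat_lit 4) (nat_lit 9) (nat_lit 5) (nat_lit 9) (nat_lit 4) (nat_lit 411) (nat_lit 315) (nat_lit 174)) (XT.lf (nat_lit 0) (nat_lit 119280694132) (nat_lit 76) (nat_lit 79989928205) (nat_lit 76) (nat_lit 37865163404) (nat_lit 8) (nat_lit 4) (nat_lit 9) (nat_lit 5) (nat_lit 9) (nat_lit 4) (nat_lit 412) (nat_lit 315) (nat_lit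 173))))) (XT.nd (nat_lit 234) (nat_lit 0) (nat_lit 0) (XT.nd (nat_lit 78) (nat_lit 152) (nat_lit 0) (XT.lf (nat_lit 0) (nat_lit 170138779706) (nat_lit 76) (nat_lit 59915842936) (nat_lit 76) (nat_lit 17789110868) (nat_lit 8) (nat_lit 4) (nat_lit 9) (nat_lit 5) (nat_lit 9) (nat_lit 4) (nat_lit 413) (nat_lit 315) (nat_lit 172)) (XT.nd (nat_lit 78) (nat_lit 76) (nat_lit 0) (XT.lf (nat_lit 0) (nat_lit 3183300975) (nat_lit 152) (nat_lit 35602838656) (nat_lit 76) (nat_lit 220298476304) (nat_lit 7) (nat_lit 5) (nat_lit 9) (nat_lit 5) (nat_lit 8) (nat_lit 4) (nat_lit 414) (nat_lit 315) (nat_lit 171)) (XT.lf (nat_lit 0) (nat_lit 8583529942) (nat_lit 76) (nat_lit 16154967603) (nat_lit 152) (nat_lit 246127864152) (nat_lit 6) (nat_lit 5) (nat_lit 7) (nat_lit 5) (nat_lit 8) (nat_lit 4) (nat_lit 415) (nat_lit 315) (nat_lit 170)))) (XT.nd (nat_lit 78) (nat_lit 0) (nat_lit 0) (XT.lf (nat_lit 0) (nat_lit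 48101055720) (nat_lit 152) (nat_lit 227124402860) (nat_lit 0) (nat_lit 7975256267) (nat_lit 6) (nat_lit 5) (nat_lit 8) (nat_lit 4) (nat_lit 6) (nat_lit 4) (nat_lit 416) (nat_lit 315) (nat_lit 169)) (XT.nd (nat_lit 78) (nat_lit 0) (nat_lit 0) (XT.lf (nat_lit 0) (nat_lit 72894660696) (nat_lit 152) (nat_lit 190476659355) (nat_lit 0) (nat_lit 32767319838) (nat_lit 6) (nat_lit 5) (nat_lit 8) (nat_lit 4) (nat_lit 6) (nat_lit 4) (nat_lit 417) (nat_lit 315) (nat_lit 168)) (XT.lf (nat_lit 0) (nat_lit 98926120549) (nat_lit 152) (nat_lit 152000120389) (nat_lit 0) (nat_lit 58797311685) (nat_lit 6) (nat_lit 5) (nat_lit 8) (nat_lit 4) (nat_lit 6) (nat_lit 4) (nat_lit 418) (nat_lit 315) (nat_lit 167))))))) (XT.nd (nat_lit 936) (nat_lit 76) (nat_lit 0) (XT.nd (nat_lit 468) (nat_lit 76) (nat_lit 0) (XT.nd (nat_lit 234) (nat_lit 76) (nat_lit 0) (XT.nd (nat_lit 78) (nat_lit 0) (nat_lit 0) (XT.lf (nat_lit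 0) (nat_lit 126257414945) (nat_lit 152) (nat_lit 111603175154) (nat_lit 0) (nat_lit 86127207980) (nat_lit 6) (nat_lit 5) (nat_lit 8) (nat_lit 4) (nat_lit 6) (nat_lit 4) (nat_lit 419) (nat_lit 315) (nat_lit 166)) (XT.nd (nat_lit 78) (nat_lit 0) (nat_lit 0) (XT.lf (nat_lit 0) (nat_lit 154953618393) (nat_lit 152) (nat_lit 69189640449) (nat_lit 0) (nat_lit 114822079905) (nat_lit 6) (nat_lit 5) (nat_lit 8) (nat_lit 4) (nat_lit 6) (nat_lit 4) (nat_lit 420) (nat_lit 315) (nat_lit 165)) (XT.lf (nat_lit 0) (nat_lit 185083055189) (nat_lit 152) (nat_lit 24658531666) (nat_lit 0) (nat_lit 144950248582) (nat_lit 6) (nat_lit 5) (nat_lit 8) (nat_lit 4) (nat_lit 6) (nat_lit 4) (nat_lit 421) (nat_lit 315) (nat_lit 164)))) (XT.nd (nat_lit 78) (nat_lit 0) (nat_lit 0) (XT.lf (nat_lit 0) (nat_lit 22826777064) (nat_lit 76) (nat_lit 194247074983) (nat_lit 76) (nat_lit 154113060644) (nat_lit 5) (nat_lit 4) (nat_lit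 6) (nat_lit 5) (nat_lit 6) (nat_lit 4) (nat_lit 422) (nat_lit 315) (nat_lit 163)) (XT.nd (nat_lit 78) (nat_lit 0) (nat_lit 0) (XT.lf (nat_lit 0) (nat_lit 73539532519) (nat_lit 76) (nat_lit 177540784778) (nat_lit 76) (nat_lit 137405620219) (nat_lit 5) (nat_lit 4) (nat_lit 6) (nat_lit 5) (nat_lit 6) (nat_lit 4) (nat_lit 423) (nat_lit 315) (nat_lit 162)) (XT.lf (nat_lit 0) (nat_lit 126785156935) (nat_lit 76) (nat_lit 160000543524) (nat_lit 76) (nat_lit 119864283517) (nat_lit 5) (nat_lit 4) (nat_lit 6) (nat_lit 5) (nat_lit 6) (nat_lit 4) (nat_lit 424) (nat_lit 315) (nat_lit 161))))) (XT.nd (nat_lit 234) (nat_lit 76) (nat_lit 0) (XT.nd (nat_lit 78) (nat_lit 0) (nat_lit 0) (XT.lf (nat_lit 0) (nat_lit 182690425608) (nat_lit 76) (nat_lit 141584588743) (nat_lit 76) (nat_lit 101447285451) (nat_lit 5) (nat_lit 4) (nat_lit 6) (nat_lit 5) (nat_lit 6) (nat_lit 4) (nat_lit 425) (nat_lit 315) (nat_lit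 160)) (XT.nd (nat_lit 78) (nat_lit 0) (nat_lit 0) (XT.lf (nat_lit 0) (nat_lit 241388446321) (nat_lit 76) (nat_lit 122249072923) (nat_lit 76) (nat_lit 82110776027) (nat_lit 5) (nat_lit 4) (nat_lit 6) (nat_lit 5) (nat_lit 6) (nat_lit 4) (nat_lit 426) (nat_lit 315) (nat_lit 159)) (XT.lf (nat_lit 0) (nat_lit 303018976266) (nat_lit 76) (nat_lit 101947959121) (nat_lit 76) (nat_lit 61808715936) (nat_lit 5) (nat_lit 4) (nat_lit 6) (nat_lit 5) (nat_lit 6) (nat_lit 4) (nat_lit 427) (nat_lit 315) (nat_lit 158)))) (XT.nd (nat_lit 78) (nat_lit 76) (nat_lit 0) (XT.lf (nat_lit 0) (nat_lit 367728754799) (nat_lit 76) (nat_lit 80632911352) (nat_lit 76) (nat_lit 40492766940) (nat_lit 5) (nat_lit 4) (nat_lit 6) (nat_lit 5) (nat_lit 6) (nat_lit 4) (nat_lit 428) (nat_lit 315) (nat_lit 157)) (XT.nd (nat_lit 78) (nat_lit 76) (nat_lit 0) (XT.lf (nat_lit 0) (nat_lit 435671852823) (nat_lit 76) (nat_lit 58253179503)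 (nat_lit 76) (nat_lit 18112176778) (nat_lit 5) (nat_lit 4) (nat_lit 6) (nat_lit 5) (nat_lit 6) (nat_lit 4) (nat_lit 429) (nat_lit 315) (nat_lit 156)) (XT.lf (nat_lit 0) (nat_lit 5213945095) (nat_lit 152) (nat_lit 29453232720) (nat_lit 76) (nat_lit 501707793840) (nat_lit 4) (nat_lit 5) (nat_lit 6) (nat_lit 5) (nat_lit 5) (nat_lit 4) (nat_lit 430) (nat_lit 315) (nat_lit 155)))))) (XT.nd (nat_lit 468) (nat_lit 0) (nat_lit 0) (XT.nd (nat_lit 234) (nat_lit 0) (nat_lit 0) (XT.nd (nat_lit 78) (nat_lit 0) (nat_lit 0) (XT.lf (nat_lit 0) (nat_lit 20150517081) (nat_lit 76) (nat_lit 9260758899) (nat_lit 152) (nat_lit 532487820850) (nat_lit 3) (nat_lit 5) (nat_lit 4) (nat_lit 5) (nat_lit 5) (nat_lit 4) (nat_lit 431) (nat_lit 315) (nat_lit 154)) (XT.nd (nat_lit 78) (nat_lit 0) (nat_lit 0) (XT.lf (nat_lit 0) (nat_lit 55596354772) (nat_lit 152) (nat_lit 515699577232) (nat_lit 0) (nat_lit 17364602275) (nat_lit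 3) (nat_lit 5) (nat_lit 5) (nat_lit 4) (nat_lit 3) (nat_lit 4) (nat_lit 432) (nat_lit 315) (nat_lit 153)) (XT.lf (nat_lit 0) (nat_lit 83241538666) (nat_lit 152) (nat_lit 488501848796) (nat_lit 0) (nat_lit 45009113659) (nat_lit 3) (nat_lit 5) (nat_lit 5) (nat_lit 4) (nat_lit 3) (nat_lit 4) (nat_lit 433) (nat_lit 315) (nat_lit 152)))) (XT.nd (nat_lit 78) (nat_lit 0) (nat_lit 0) (XT.lf (nat_lit 0) (nat_lit 112268063130) (nat_lit 152) (nat_lit 459946051545) (nat_lit 0) (nat_lit 74034997636) (nat_lit 3) (nat_lit 5) (nat_lit 5) (nat_lit 4) (nat_lit 3) (nat_lit 4) (nat_lit 434) (nat_lit 315) (nat_lit 151)) (XT.nd (nat_lit 78) (nat_lit 0) (nat_lit 0) (XT.lf (nat_lit 0) (nat_lit 142745038935) (nat_lit 152) (nat_lit 429964195485) (nat_lit 0) (nat_lit 104511363455) (nat_lit 3) (nat_lit 5) (nat_lit 5) (nat_lit 4) (nat_lit 3) (nat_lit 4) (nat_lit 435) (nat_lit 315) (nat_lit 150)) (XT.lf (nat_lit 0)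 (nat_lit 174745030310) (nat_lit 152) (nat_lit 398484895246) (nat_lit 0) (nat_lit 136510773890) (nat_lit 3) (nat_lit 5) (nat_lit 5) (nat_lit 4) (nat_lit 3) (nat_lit 4) (nat_lit 436) (nat_lit 315) (nat_lit 149))))) (XT.nd (nat_lit 37596) (nat_lit 0) (nat_lit 8664) (XT.nd (nat_lit 37440) (nat_lit 0) (nat_lit 8664) (XT.lf (nat_lit 0) (nat_lit 208344227711) (nat_lit 152) (nat_lit 365433200112) (nat_lit 0) (nat_lit 170109418015) (nat_lit 3) (nat_lit 5) (nat_lit 5) (nat_lit 4) (nat_lit 3) (nat_lit 4) (nat_lit 437) (nat_lit 315) (nat_lit 148)) (XT.nd (nat_lit 78) (nat_lit 684) (nat_lit 0) (XT.lf (nat_lit 0) (nat_lit 4516730351) (nat_lit 684) (nat_lit 102463484) (nat_lit 684) (nat_lit 102463484) (nat_lit 126) (nat_lit 3) (nat_lit 135) (nat_lit 3) (nat_lit 135) (nat_lit 5) (nat_lit 316) (nat_lit 316) (nat_lit 268)) (XT.lf (nat_lit 0) (nat_lit 441145738) (nat_lit 684) (nat_lit 5177449493) (nat_lit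 760) (nat_lit 4018009205) (nat_lit 117) (nat_lit 5) (nat_lit 126) (nat_lit 3) (nat_lit 127) (nat_lit 5) (nat_lit 317) (nat_lit 316) (nat_lit 267)))) (XT.nd (nat_lit 156) (nat_lit 0) (nat_lit 76) (XT.nd (nat_lit 78) (nat_lit 0) (nat_lit 76) (XT.lf (nat_lit 0) (nat_lit 1274295318) (nat_lit 684) (nat_lit 510848429) (nat_lit 760) (nat_lit 8056457137) (nat_lit 117) (nat_lit 5) (nat_lit 126) (nat_lit 3) (nat_lit 127) (nat_lit 5) (nat_lit 318) (nat_lit 316) (nat_lit 266)) (XT.lf (nat_lit 0) (nat_lit 2208146307) (nat_lit 684) (nat_lit 5585795541) (nat_lit 760) (nat_lit 2259997674) (nat_lit 118) (nat_lit 5) (nat_lit 127) (nat_lit 5) (nat_lit 128) (nat_lit 5) (nat_lit 319) (nat_lit 316) (nat_lit 265))) (XT.nd (nat_lit 78) (nat_lit 0) (nat_lit 76) (XT.lf (nat_lit 0) (nat_lit 3181147205) (nat_lit 684) (nat_lit 621152875) (nat_lit 760) (nat_lit 6475014589) (nat_lit 118) (nat_lit 5) (nat_lit 127) (nat_lit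 5) (nat_lit 128) (nat_lit 5) (nat_lit 320) (nat_lit 316) (nat_lit 264)) (XT.lf (nat_lit 0) (nat_lit 4240506195) (nat_lit 684) (nat_lit 5803005001) (nat_lit 760) (nat_lit 466502396) (nat_lit 119) (nat_lit 5) (nat_lit 128) (nat_lit 5) (nat_lit 129) (nat_lit 5) (nat_lit 321) (nat_lit 316) (nat_lit 263))))))))
noncomputable def xc143 : XT := (XT.nd (nat_lit 1950) (nat_lit 2584) (nat_lit 0) (XT.nd (nat_lit 936) (nat_lit 2204) (nat_lit 0) (XT.nd (nat_lit 468) (nat_lit 1444) (nat_lit 0) (XT.nd (nat_lit 234) (nat_lit 608) (nat_lit 0) (XT.nd (nat_lit 78) (nat_lit 0) (nat_lit 0) (XT.lf (nat_lit 0) (nat_lit 5384297638) (nat_lit 684) (nat_lit 522810355) (nat_lit 760) (nat_lit 4845704740) (nat_lit 119) (nat_lit 5) (nat_lit 128) (nat_lit 5) (nat_lit 129) (nat_lit 5) (nat_lit 322) (nat_lit 316) (nat_lit 262)) (XT.nd (nat_lit 78) (nat_lit 0) (nat_lit 76) (XT.lf (nat_lit 76) (nat_lit 5158275049) (nat_lit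 0) (nat_lit 1467957534) (nat_lit 760) (nat_lit 4379508217) (nat_lit 120) (nat_lit 5) (nat_lit 119) (nat_lit 5) (nat_lit 129) (nat_lit 5) (nat_lit 323) (nat_lit 316) (nat_lit 261)) (XT.lf (nat_lit 0) (nat_lit 7951149579) (nat_lit 684) (nat_lit 209170413) (nat_lit 760) (nat_lit 3109985930) (nat_lit 120) (nat_lit 5) (nat_lit 129) (nat_lit 5) (nat_lit 130) (nat_lit 5) (nat_lit 324) (nat_lit 316) (nat_lit 260)))) (XT.nd (nat_lit 78) (nat_lit 684) (nat_lit 0) (XT.lf (nat_lit 76) (nat_lit 5845629376) (nat_lit 0) (nat_lit 3575854660) (nat_lit 760) (nat_lit 2122689940) (nat_lit 121) (nat_lit 5) (nat_lit 120) (nat_lit 5) (nat_lit 130) (nat_lit 5) (nat_lit 325) (nat_lit 316) (nat_lit 259)) (XT.nd (nat_lit 78) (nat_lit 76) (nat_lit 0) (XT.lf (nat_lit 0) (nat_lit 340521084) (nat_lit 684) (nat_lit 10618289830) (nat_lit 760) (nat_lit 873282405) (nat_lit 112) (nat_lit 5) (nat_lit 121) (nat_lit 5) (nat_lit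 122) (nat_lit 5) (nat_lit 326) (nat_lit 316) (nat_lit 258)) (XT.lf (nat_lit 0) (nat_lit 547117932) (nat_lit 760) (nat_lit 5347795483) (nat_lit 76) (nat_lit 6233053545) (nat_lit 111) (nat_lit 5) (nat_lit 121) (nat_lit 5) (nat_lit 112) (nat_lit 5) (nat_lit 327) (nat_lit 316) (nat_lit 257))))) (XT.nd (nat_lit 234) (nat_lit 304) (nat_lit 0) (XT.nd (nat_lit 78) (nat_lit 380) (nat_lit 0) (XT.lf (nat_lit 0) (nat_lit 1094806531) (nat_lit 760) (nat_lit 898952885) (nat_lit 836) (nat_lit 10444957963) (nat_lit 101) (nat_lit 5) (nat_lit 111) (nat_lit 5) (nat_lit 112) (nat_lit 5) (nat_lit 328) (nat_lit 316) (nat_lit 256)) (XT.nd (nat_lit 78) (nat_lit 380) (nat_lit 0) (XT.lf (nat_lit 0) (nat_lit 3641272852) (nat_lit 836) (nat_lit 4814885315) (nat_lit 76) (nat_lit 4302446217) (nat_lit 101) (nat_lit 5) (nat_lit 112) (nat_lit 5) (nat_lit 102) (nat_lit 5) (nat_lit 329) (nat_lit 316) (nat_lit 255)) (XT.lf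 (nat_lit 0) (nat_lit 2063066658) (nat_lit 380) (nat_lit 3325158525) (nat_lit 456) (nat_lit 7705432210) (nat_lit 96) (nat_lit 5) (nat_lit 101) (nat_lit 5) (nat_lit 102) (nat_lit 5) (nat_lit 330) (nat_lit 316) (nat_lit 254)))) (XT.nd (nat_lit 78) (nat_lit 304) (nat_lit 0) (XT.lf (nat_lit 0) (nat_lit 7308708985) (nat_lit 456) (nat_lit 4052675715) (nat_lit 76) (nat_lit 2079792792) (nat_lit 96) (nat_lit 5) (nat_lit 102) (nat_lit 5) (nat_lit 97) (nat_lit 5) (nat_lit 331) (nat_lit 316) (nat_lit 253)) (XT.nd (nat_lit 78) (nat_lit 0) (nat_lit 0) (XT.lf (nat_lit 0) (nat_lit 3296729237) (nat_lit 304) (nat_lit 6106950648) (nat_lit 380) (nat_lit 4398493075) (nat_lit 92) (nat_lit 5) (nat_lit 96) (nat_lit 5) (nat_lit 97) (nat_lit 5) (nat_lit 332) (nat_lit 316) (nat_lit 252)) (XT.lf (nat_lit 0) (nat_lit 11126351482) (nat_lit 304) (nat_lit 519036815) (nat_lit 380) (nat_lit 2533751892) (nat_lit 92) (nat_lit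 5) (nat_lit 96) (nat_lit 5) (nat_lit 97) (nat_lit 5) (nat_lit 333) (nat_lit 316) (nat_lit 251)))))) (XT.nd (nat_lit 468) (nat_lit 912) (nat_lit 0) (XT.nd (nat_lit 234) (nat_lit 532) (nat_lit 0) (XT.nd (nat_lit 78) (nat_lit 380) (nat_lit 0) (XT.lf (nat_lit 0) (nat_lit 4815223341) (nat_lit 380) (nat_lit 9317243756) (nat_lit 456) (nat_lit 435844852) (nat_lit 87) (nat_lit 5) (nat_lit 92) (nat_lit 5) (nat_lit 93) (nat_lit 5) (nat_lit 334) (nat_lit 316) (nat_lit 250)) (XT.nd (nat_lit 78) (nat_lit 304) (nat_lit 0) (XT.lf (nat_lit 0) (nat_lit 1746423514) (nat_lit 456) (nat_lit 1856966763) (nat_lit 76) (nat_lit 11370390196) (nat_lit 86) (nat_lit 5) (nat_lit 92) (nat_lit 5) (nat_lit 87) (nat_lit 5) (nat_lit 335) (nat_lit 316) (nat_lit 249)) (XT.lf (nat_lit 0) (nat_lit 4141708637) (nat_lit 380) (nat_lit 8822901470) (nat_lit 76) (nat_lit 2428645174) (nat_lit 82) (nat_lit 5) (nat_lit 87) (nat_lit 5)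 (nat_lit 83) (nat_lit 5) (nat_lit 336) (nat_lit 316) (nat_lit 248)))) (XT.nd (nat_lit 78) (nat_lit 532) (nat_lit 0) (XT.lf (nat_lit 0) (nat_lit 6724618077) (nat_lit 380) (nat_lit 435835286) (nat_lit 76) (nat_lit 8669874258) (nat_lit 82) (nat_lit 5) (nat_lit 87) (nat_lit 5) (nat_lit 83) (nat_lit 5) (nat_lit 337) (nat_lit 316) (nat_lit 247)) (XT.nd (nat_lit 78) (nat_lit 228) (nat_lit 0) (XT.lf (nat_lit 0) (nat_lit 8620172636) (nat_lit 304) (nat_lit 929012936) (nat_lit 380) (nat_lit 6734458375) (nat_lit 78) (nat_lit 5) (nat_lit 82) (nat_lit 5) (nat_lit 83) (nat_lit 5) (nat_lit 338) (nat_lit 316) (nat_lit 246)) (XT.lf (nat_lit 0) (nat_lit 1312178350) (nat_lit 228) (nat_lit 11296947012) (nat_lit 304) (nat_lit 4145808766) (nat_lit 75) (nat_lit 5) (nat_lit 78) (nat_lit 5) (nat_lit 79) (nat_lit 5) (nat_lit 339) (nat_lit 316) (nat_lit 245))))) (XT.nd (nat_lit 234) (nat_lit 532) (nat_lit 0) (XT.nd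 (nat_lit 78) (nat_lit 380) (nat_lit 0) (XT.lf (nat_lit 0) (nat_lit 10960466134) (nat_lit 228) (nat_lit 4985479789) (nat_lit 304) (nat_lit 1297663213) (nat_lit 75) (nat_lit 5) (nat_lit 78) (nat_lit 5) (nat_lit 79) (nat_lit 5) (nat_lit 340) (nat_lit 316) (nat_lit 244)) (XT.nd (nat_lit 78) (nat_lit 0) (nat_lit 0) (XT.lf (nat_lit 0) (nat_lit 1698256409) (nat_lit 380) (nat_lit 14389965670) (nat_lit 76) (nat_lit 1664209949) (nat_lit 70) (nat_lit 5) (nat_lit 75) (nat_lit 5) (nat_lit 71) (nat_lit 5) (nat_lit 341) (nat_lit 316) (nat_lit 243)) (XT.lf (nat_lit 0) (nat_lit 4970488750) (nat_lit 380) (nat_lit 4704008214) (nat_lit 76) (nat_lit 8602641638) (nat_lit 70) (nat_lit 5) (nat_lit 75) (nat_lit 5) (nat_lit 71) (nat_lit 5) (nat_lit 342) (nat_lit 316) (nat_lit 242)))) (XT.nd (nat_lit 156) (nat_lit 304) (nat_lit 0) (XT.nd (nat_lit 78) (nat_lit 0) (nat_lit 0) (XT.lf (nat_lit 0) (nat_lit 5621032851)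 (nat_lit 228) (nat_lit 2854245734) (nat_lit 304) (nat_lit 10349366562) (nat_lit 67) (nat_lit 5) (nat_lit 70) (nat_lit 5) (nat_lit 71) (nat_lit 5) (nat_lit 343) (nat_lit 316) (nat_lit 241)) (XT.lf (nat_lit 0) (nat_lit 12285118855) (nat_lit 304) (nat_lit 2863999546) (nat_lit 76) (nat_lit 4243929441) (nat_lit 67) (nat_lit 5) (nat_lit 71) (nat_lit 5) (nat_lit 68) (nat_lit 5) (nat_lit 344) (nat_lit 316) (nat_lit 240))) (XT.nd (nat_lit 78) (nat_lit 76) (nat_lit 0) (XT.lf (nat_lit 0) (nat_lit 8183395380) (nat_lit 228) (nat_lit 8259084488) (nat_lit 304) (nat_lit 3539550193) (nat_lit 64) (nat_lit 5) (nat_lit 67) (nat_lit 5) (nat_lit 68) (nat_lit 5) (nat_lit 345) (nat_lit 316) (nat_lit 239)) (XT.lf (nat_lit 0) (nat_lit 232555963) (nat_lit 304) (nat_lit 743994072) (nat_lit 76) (nat_lit 19622162310) (nat_lit 63) (nat_lit 5) (nat_lit 67) (nat_lit 5) (nat_lit 64) (nat_lit 5) (nat_lit 346) (nat_lit 316)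 (nat_lit 238))))))) (XT.nd (nat_lit 936) (nat_lit 1140) (nat_lit 0) (XT.nd (nat_lit 468) (nat_lit 532) (nat_lit 0) (XT.nd (nat_lit 234) (nat_lit 456) (nat_lit 0) (XT.nd (nat_lit 78) (nat_lit 228) (nat_lit 0) (XT.lf (nat_lit 0) (nat_lit 4339523131) (nat_lit 304) (nat_lit 10204799167) (nat_lit 76) (nat_lit 6685754137) (nat_lit 60) (nat_lit 5) (nat_lit 64) (nat_lit 5) (nat_lit 61) (nat_lit 5) (nat_lit 347) (nat_lit 316) (nat_lit 237)) (XT.nd (nat_lit 78) (nat_lit 0) (nat_lit 0) (XT.lf (nat_lit 0) (nat_lit 1525388470) (nat_lit 228) (nat_lit 7162872198) (nat_lit 304) (nat_lit 13202935867) (nat_lit 57) (nat_lit 5) (nat_lit 60) (nat_lit 5) (nat_lit 61) (nat_lit 5) (nat_lit 348) (nat_lit 316) (nat_lit 236)) (XT.lf (nat_lit 0) (nat_lit 13423348308) (nat_lit 304) (nat_lit 8416347102) (nat_lit 76) (nat_lit 737240053) (nat_lit 57) (nat_lit 5) (nat_lit 61) (nat_lit 5) (nat_lit 58) (nat_lit 5) (nat_lit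 349) (nat_lit 316) (nat_lit 235)))) (XT.nd (nat_lit 78) (nat_lit 304) (nat_lit 0) (XT.lf (nat_lit 0) (nat_lit 4122262187) (nat_lit 152) (nat_lit 14439552319) (nat_lit 228) (nat_lit 4726823702) (nat_lit 55) (nat_lit 5) (nat_lit 57) (nat_lit 5) (nat_lit 58) (nat_lit 5) (nat_lit 350) (nat_lit 316) (nat_lit 234)) (XT.nd (nat_lit 78) (nat_lit 228) (nat_lit 0) (XT.lf (nat_lit 0) (nat_lit 53630237) (nat_lit 228) (nat_lit 6472883338) (nat_lit 76) (nat_lit 17502989661) (nat_lit 54) (nat_lit 5) (nat_lit 57) (nat_lit 5) (nat_lit 55) (nat_lit 5) (nat_lit 351) (nat_lit 316) (nat_lit 233)) (XT.lf (nat_lit 0) (nat_lit 5039661681) (nat_lit 304) (nat_lit 17850280075) (nat_lit 76) (nat_lit 1907331938) (nat_lit 51) (nat_lit 5) (nat_lit 55) (nat_lit 5) (nat_lit 52) (nat_lit 5) (nat_lit 352) (nat_lit 316) (nat_lit 232))))) (XT.nd (nat_lit 234) (nat_lit 380) (nat_lit 0) (XT.nd (nat_lit 78) (nat_lit 152) (nat_lit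 0) (XT.lf (nat_lit 0) (nat_lit 10479310535) (nat_lit 304) (nat_lit 4466267948) (nat_lit 76) (nat_lit 10647645048) (nat_lit 51) (nat_lit 5) (nat_lit 55) (nat_lit 5) (nat_lit 52) (nat_lit 5) (nat_lit 353) (nat_lit 316) (nat_lit 231)) (XT.nd (nat_lit 78) (nat_lit 0) (nat_lit 0) (XT.lf (nat_lit 0) (nat_lit 9882173615) (nat_lit 152) (nat_lit 6449633145) (nat_lit 228) (nat_lit 10090127184) (nat_lit 49) (nat_lit 5) (nat_lit 51) (nat_lit 5) (nat_lit 52) (nat_lit 5) (nat_lit 354) (nat_lit 316) (nat_lit 230)) (XT.lf (nat_lit 0) (nat_lit 22579160411) (nat_lit 228) (nat_lit 2246288135) (nat_lit 76) (nat_lit 2461525729) (nat_lit 49) (nat_lit 5) (nat_lit 52) (nat_lit 5) (nat_lit 50) (nat_lit 5) (nat_lit 355) (nat_lit 316) (nat_lit 229)))) (XT.nd (nat_lit 78) (nat_lit 152) (nat_lit 0) (XT.lf (nat_lit 0) (nat_lit 1215215072) (nat_lit 228) (nat_lit 15146353255) (nat_lit 76) (nat_lit 11817877065) (nat_lit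 46) (nat_lit 5) (nat_lit 49) (nat_lit 5) (nat_lit 47) (nat_lit 5) (nat_lit 356) (nat_lit 316) (nat_lit 228)) (XT.nd (nat_lit 78) (nat_lit 152) (nat_lit 0) (XT.lf (nat_lit 0) (nat_lit 7302332471) (nat_lit 228) (nat_lit 58356389) (nat_lit 76) (nat_lit 21750690026) (nat_lit 46) (nat_lit 5) (nat_lit 49) (nat_lit 5) (nat_lit 47) (nat_lit 5) (nat_lit 357) (nat_lit 316) (nat_lit 227)) (XT.lf (nat_lit 0) (nat_lit 13972841630) (nat_lit 228) (nat_lit 13828567738) (nat_lit 76) (nat_lit 2274552852) (nat_lit 44) (nat_lit 5) (nat_lit 47) (nat_lit 5) (nat_lit 45) (nat_lit 5) (nat_lit 358) (nat_lit 316) (nat_lit 226)))))) (XT.nd (nat_lit 468) (nat_lit 608) (nat_lit 0) (XT.nd (nat_lit 234) (nat_lit 152) (nat_lit 0) (XT.nd (nat_lit 78) (nat_lit 228) (nat_lit 0) (XT.lf (nat_lit 0) (nat_lit 2212323442) (nat_lit 152) (nat_lit 18908999863) (nat_lit 228) (nat_lit 9960233788) (nat_lit 42) (nat_lit 5) (nat_lit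 44) (nat_lit 5) (nat_lit 45) (nat_lit 5) (nat_lit 359) (nat_lit 316) (nat_lit 225)) (XT.nd (nat_lit 78) (nat_lit 228) (nat_lit 0) (XT.lf (nat_lit 0) (nat_lit 19516135825) (nat_lit 152) (nat_lit 9333781849) (nat_lit 228) (nat_lit 3276384104) (nat_lit 42) (nat_lit 5) (nat_lit 44) (nat_lit 5) (nat_lit 45) (nat_lit 5) (nat_lit 360) (nat_lit 316) (nat_lit 224)) (XT.lf (nat_lit 0) (nat_lit 3694726457) (nat_lit 228) (nat_lit 28700891381) (nat_lit 76) (nat_lit 821107808) (nat_lit 39) (nat_lit 5) (nat_lit 42) (nat_lit 5) (nat_lit 40) (nat_lit 5) (nat_lit 361) (nat_lit 316) (nat_lit 223)))) (XT.nd (nat_lit 78) (nat_lit 152) (nat_lit 0) (XT.lf (nat_lit 0) (nat_lit 11263343660) (nat_lit 228) (nat_lit 11644094713) (nat_lit 76) (nat_lit 11433597707) (nat_lit 39) (nat_lit 5) (nat_lit 42) (nat_lit 5) (nat_lit 40) (nat_lit 5) (nat_lit 362) (nat_lit 316) (nat_lit 222)) (XT.nd (nat_lit 78) (nat_lit 0) (nat_lit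 0) (XT.lf (nat_lit 0) (nat_lit 6454204304) (nat_lit 152) (nat_lit 12846466164) (nat_lit 228) (nat_lit 16216381331) (nat_lit 37) (nat_lit 5) (nat_lit 39) (nat_lit 5) (nat_lit 40) (nat_lit 5) (nat_lit 363) (nat_lit 316) (nat_lit 221)) (XT.lf (nat_lit 0) (nat_lit 25844051527) (nat_lit 152) (nat_lit 2082745344) (nat_lit 228) (nat_lit 8815728296) (nat_lit 37) (nat_lit 5) (nat_lit 39) (nat_lit 5) (nat_lit 40) (nat_lit 5) (nat_lit 364) (nat_lit 316) (nat_lit 220))))) (XT.nd (nat_lit 234) (nat_lit 304) (nat_lit 0) (XT.nd (nat_lit 78) (nat_lit 228) (nat_lit 0) (XT.lf (nat_lit 0) (nat_lit 8277961453) (nat_lit 76) (nat_lit 28969561543) (nat_lit 152) (nat_lit 768587893) (nat_lit 36) (nat_lit 5) (nat_lit 37) (nat_lit 5) (nat_lit 38) (nat_lit 4) (nat_lit 365) (nat_lit 316) (nat_lit 219)) (XT.nd (nat_lit 78) (nat_lit 152) (nat_lit 0) (XT.lf (nat_lit 0) (nat_lit 7646972063) (nat_lit 152) (nat_lit 10726866794)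 (nat_lit 76) (nat_lit 20962949079) (nat_lit 35) (nat_lit 5) (nat_lit 37) (nat_lit 5) (nat_lit 36) (nat_lit 5) (nat_lit 366) (nat_lit 316) (nat_lit 218)) (XT.lf (nat_lit 0) (nat_lit 9510372935) (nat_lit 152) (nat_lit 7086219218) (nat_lit 228) (nat_lit 24119324006) (nat_lit 33) (nat_lit 5) (nat_lit 35) (nat_lit 5) (nat_lit 36) (nat_lit 5) (nat_lit 367) (nat_lit 316) (nat_lit 217)))) (XT.nd (nat_lit 156) (nat_lit 228) (nat_lit 0) (XT.nd (nat_lit 78) (nat_lit 76) (nat_lit 0) (XT.lf (nat_lit 0) (nat_lit 26243457166) (nat_lit 228) (nat_lit 11116902727) (nat_lit 76) (nat_lit 4791155467) (nat_lit 33) (nat_lit 5) (nat_lit 36) (nat_lit 5) (nat_lit 34) (nat_lit 4) (nat_lit 368) (nat_lit 316) (nat_lit 216)) (XT.lf (nat_lit 0) (nat_lit 10169797293) (nat_lit 76) (nat_lit 26468970817) (nat_lit 152) (nat_lit 7006823906) (nat_lit 32) (nat_lit 5) (nat_lit 33) (nat_lit 5) (nat_lit 34) (nat_lit 4) (nat_lit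 369) (nat_lit 316) (nat_lit 215))) (XT.nd (nat_lit 78) (nat_lit 152) (nat_lit 0) (XT.lf (nat_lit 0) (nat_lit 2447142501) (nat_lit 152) (nat_lit 12353527408) (nat_lit 76) (nat_lit 30402751290) (nat_lit 31) (nat_lit 5) (nat_lit 33) (nat_lit 5) (nat_lit 32) (nat_lit 5) (nat_lit 370) (nat_lit 316) (nat_lit 214)) (XT.lf (nat_lit 0) (nat_lit 10015554875) (nat_lit 152) (nat_lit 2270759051) (nat_lit 228) (nat_lit 34539687793) (nat_lit 29) (nat_lit 5) (nat_lit 31) (nat_lit 5) (nat_lit 32) (nat_lit 5) (nat_lit 371) (nat_lit 316) (nat_lit 213))))))))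
noncomputable def xc144 : XT := (XT.nd (nat_lit 1872) (nat_lit 684) (nat_lit 0) (XT.nd (nat_lit 936) (nat_lit 456) (nat_lit 0) (XT.nd (nat_lit 468) (nat_lit 228) (nat_lit 0) (XT.nd (nat_lit 234) (nat_lit 304) (nat_lit 0) (XT.nd (nat_lit 78) (nat_lit 76) (nat_lit 0) (XT.lf (nat_lit 0) (nat_lit 22991720320) (nat_lit 228) (nat_lit 14775720051) (nat_lit 76) (nat_lit 10743559238) (nat_lit 29) (nat_lit 5) (nat_lit 32) (nat_lit 5) (nat_lit 30) (nat_lit 4) (nat_lit 372) (nat_lit 316) (nat_lit 212)) (XT.nd (nat_lit 78) (nat_lit 0) (nat_lit 0) (XT.lf (nat_lit 0) (nat_lit 8583911439) (nat_lit 76) (nat_lit 25811804589) (nat_lit 152) (nat_lit 15876367478) (nat_lit 28) (nat_lit 5) (nat_lit 29) (nat_lit 5) (nat_lit 30) (nat_lit 4) (nat_lit 373) (nat_lit 316) (nat_lit 211)) (XT.lf (nat_lit 0) (nat_lit 33610390650) (nat_lit 76) (nat_lit 13001986414) (nat_lit 152) (nat_lit 5496723217) (nat_lit 28) (nat_lit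 5) (nat_lit 29) (nat_lit 5) (nat_lit 30) (nat_lit 4) (nat_lit 374) (nat_lit 316) (nat_lit 210)))) (XT.nd (nat_lit 78) (nat_lit 76) (nat_lit 0) (XT.lf (nat_lit 0) (nat_lit 5324071143) (nat_lit 228) (nat_lit 48096908002) (nat_lit 76) (nat_lit 608020464) (nat_lit 25) (nat_lit 5) (nat_lit 28) (nat_lit 5) (nat_lit 26) (nat_lit 4) (nat_lit 375) (nat_lit 316) (nat_lit 209)) (XT.nd (nat_lit 78) (nat_lit 76) (nat_lit 0) (XT.lf (nat_lit 0) (nat_lit 17025278066) (nat_lit 228) (nat_lit 24124702929) (nat_lit 76) (nat_lit 14864204152) (nat_lit 25) (nat_lit 5) (nat_lit 28) (nat_lit 5) (nat_lit 26) (nat_lit 4) (nat_lit 376) (nat_lit 316) (nat_lit 208)) (XT.lf (nat_lit 0) (nat_lit 1067177064) (nat_lit 76) (nat_lit 28253916618) (nat_lit 152) (nat_lit 28777060479) (nat_lit 24) (nat_lit 5) (nat_lit 25) (nat_lit 5) (nat_lit 26) (nat_lit 4) (nat_lit 377) (nat_lit 316) (nat_lit 207))))) (XT.nd (nat_lit 234) (nat_lit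 76) (nat_lit 0) (XT.nd (nat_lit 78) (nat_lit 152) (nat_lit 0) (XT.lf (nat_lit 0) (nat_lit 28343325760) (nat_lit 76) (nat_lit 14289962184) (nat_lit 152) (nat_lit 17632955824) (nat_lit 24) (nat_lit 5) (nat_lit 25) (nat_lit 5) (nat_lit 26) (nat_lit 4) (nat_lit 378) (nat_lit 316) (nat_lit 206)) (XT.nd (nat_lit 78) (nat_lit 152) (nat_lit 0) (XT.lf (nat_lit 0) (nat_lit 56610171570) (nat_lit 152) (nat_lit 5577779881) (nat_lit 0) (nat_lit 354833888) (nat_lit 24) (nat_lit 5) (nat_lit 26) (nat_lit 4) (nat_lit 24) (nat_lit 4) (nat_lit 379) (nat_lit 316) (nat_lit 205)) (XT.lf (nat_lit 0) (nat_lit 6739009858) (nat_lit 152) (nat_lit 42452331225) (nat_lit 76) (nat_lit 15707375425) (nat_lit 22) (nat_lit 5) (nat_lit 24) (nat_lit 5) (nat_lit 23) (nat_lit 4) (nat_lit 380) (nat_lit 316) (nat_lit 204)))) (XT.nd (nat_lit 78) (nat_lit 76) (nat_lit 0) (XT.lf (nat_lit 0) (nat_lit 19934458005) (nat_lit 152) (nat_lit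 15413056577) (nat_lit 76) (nat_lit 32015587219) (nat_lit 22) (nat_lit 5) (nat_lit 24) (nat_lit 5) (nat_lit 23) (nat_lit 4) (nat_lit 381) (nat_lit 316) (nat_lit 203)) (XT.nd (nat_lit 78) (nat_lit 0) (nat_lit 0) (XT.lf (nat_lit 0) (nat_lit 13395554084) (nat_lit 76) (nat_lit 20597178135) (nat_lit 152) (nat_lit 35947822661) (nat_lit 21) (nat_lit 5) (nat_lit 22) (nat_lit 5) (nat_lit 23) (nat_lit 4) (nat_lit 382) (nat_lit 316) (nat_lit 202)) (XT.lf (nat_lit 0) (nat_lit 44168516065) (nat_lit 76) (nat_lit 4840458458) (nat_lit 152) (nat_lit 23625154519) (nat_lit 21) (nat_lit 5) (nat_lit 22) (nat_lit 5) (nat_lit 23) (nat_lit 4) (nat_lit 383) (nat_lit 316) (nat_lit 201)))))) (XT.nd (nat_lit 468) (nat_lit 228) (nat_lit 0) (XT.nd (nat_lit 234) (nat_lit 76) (nat_lit 0) (XT.nd (nat_lit 78) (nat_lit 76) (nat_lit 0) (XT.lf (nat_lit 0) (nat_lit 851399470) (nat_lit 76) (nat_lit 64114889700) (nat_lit 76) (nat_lit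 10486580824) (nat_lit 20) (nat_lit 4) (nat_lit 21) (nat_lit 5) (nat_lit 21) (nat_lit 4) (nat_lit 384) (nat_lit 316) (nat_lit 200)) (XT.nd (nat_lit 78) (nat_lit 0) (nat_lit 0) (XT.lf (nat_lit 0) (nat_lit 3766596755) (nat_lit 152) (nat_lit 45915713063) (nat_lit 76) (nat_lit 28699477021) (nat_lit 19) (nat_lit 5) (nat_lit 21) (nat_lit 5) (nat_lit 20) (nat_lit 4) (nat_lit 385) (nat_lit 316) (nat_lit 199)) (XT.lf (nat_lit 0) (nat_lit 18374536968) (nat_lit 152) (nat_lit 15977938046) (nat_lit 76) (nat_lit 47096353819) (nat_lit 19) (nat_lit 5) (nat_lit 21) (nat_lit 5) (nat_lit 20) (nat_lit 4) (nat_lit 386) (nat_lit 316) (nat_lit 198)))) (XT.nd (nat_lit 78) (nat_lit 0) (nat_lit 0) (XT.lf (nat_lit 0) (nat_lit 15957602807) (nat_lit 76) (nat_lit 17999196791) (nat_lit 152) (nat_lit 50700227954) (nat_lit 18) (nat_lit 5) (nat_lit 19) (nat_lit 5) (nat_lit 20) (nat_lit 4) (nat_lit 387) (nat_lit 316) (nat_lit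 197)) (XT.nd (nat_lit 78) (nat_lit 0) (nat_lit 0) (XT.lf (nat_lit 0) (nat_lit 50034931898) (nat_lit 76) (nat_lit 548716985) (nat_lit 152) (nat_lit 37428714506) (nat_lit 18) (nat_lit 5) (nat_lit 19) (nat_lit 5) (nat_lit 20) (nat_lit 4) (nat_lit 388) (nat_lit 316) (nat_lit 196)) (XT.lf (nat_lit 0) (nat_lit 68314402117) (nat_lit 152) (nat_lit 6006265974) (nat_lit 0) (nat_lit 17201170668) (nat_lit 18) (nat_lit 5) (nat_lit 20) (nat_lit 4) (nat_lit 18) (nat_lit 4) (nat_lit 389) (nat_lit 316) (nat_lit 195))))) (XT.nd (nat_lit 234) (nat_lit 76) (nat_lit 0) (XT.nd (nat_lit 78) (nat_lit 76) (nat_lit 0) (XT.lf (nat_lit 0) (nat_lit 28456268407) (nat_lit 76) (nat_lit 58923992592) (nat_lit 76) (nat_lit 7804099277) (nat_lit 17) (nat_lit 4) (nat_lit 18) (nat_lit 5) (nat_lit 18) (nat_lit 4) (nat_lit 390) (nat_lit 316) (nat_lit 194)) (XT.nd (nat_lit 78) (nat_lit 0) (nat_lit 0) (XT.lf (nat_lit 0) (nat_lit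 8200218736) (nat_lit 152) (nat_lit 34315789539) (nat_lit 76) (nat_lit 56502532454) (nat_lit 16) (nat_lit 5) (nat_lit 18) (nat_lit 5) (nat_lit 17) (nat_lit 4) (nat_lit 391) (nat_lit 316) (nat_lit 193)) (XT.lf (nat_lit 0) (nat_lit 24738007990) (nat_lit 152) (nat_lit 419364077) (nat_lit 76) (nat_lit 77880885793) (nat_lit 16) (nat_lit 5) (nat_lit 18) (nat_lit 5) (nat_lit 17) (nat_lit 4) (nat_lit 392) (nat_lit 316) (nat_lit 192)))) (XT.nd (nat_lit 78) (nat_lit 0) (nat_lit 0) (XT.lf (nat_lit 0) (nat_lit 36326406004) (nat_lit 76) (nat_lit 6339175085) (nat_lit 152) (nat_lit 64565235680) (nat_lit 15) (nat_lit 5) (nat_lit 16) (nat_lit 5) (nat_lit 17) (nat_lit 4) (nat_lit 393) (nat_lit 316) (nat_lit 191)) (XT.nd (nat_lit 78) (nat_lit 0) (nat_lit 0) (XT.lf (nat_lit 0) (nat_lit 61702029509) (nat_lit 152) (nat_lit 36926430821) (nat_lit 0) (nat_lit 12993919067) (nat_lit 15) (nat_lit 5) (nat_lit 17) (nat_lit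 4) (nat_lit 15) (nat_lit 4) (nat_lit 394) (nat_lit 316) (nat_lit 190)) (XT.lf (nat_lit 0) (nat_lit 81790178739) (nat_lit 152) (nat_lit 1361250969) (nat_lit 0) (nat_lit 33077097110) (nat_lit 15) (nat_lit 5) (nat_lit 17) (nat_lit 4) (nat_lit 15) (nat_lit 4) (nat_lit 395) (nat_lit 316) (nat_lit 189))))))) (XT.nd (nat_lit 936) (nat_lit 228) (nat_lit 0) (XT.nd (nat_lit 468) (nat_lit 228) (nat_lit 0) (XT.nd (nat_lit 234) (nat_lit 76) (nat_lit 0) (XT.nd (nat_lit 78) (nat_lit 76) (nat_lit 0) (XT.lf (nat_lit 0) (nat_lit 37164268773) (nat_lit 76) (nat_lit 66294855031) (nat_lit 76) (nat_lit 17577038938) (nat_lit 14) (nat_lit 4) (nat_lit 15) (nat_lit 5) (nat_lit 15) (nat_lit 4) (nat_lit 396) (nat_lit 316) (nat_lit 188)) (XT.nd (nat_lit 78) (nat_lit 0) (nat_lit 0) (XT.lf (nat_lit 0) (nat_lit 142848537) (nat_lit 152) (nat_lit 48429485603) (nat_lit 76) (nat_lit 77510768000) (nat_lit 13) (nat_lit 5) (nat_lit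 15) (nat_lit 5) (nat_lit 14) (nat_lit 4) (nat_lit 397) (nat_lit 316) (nat_lit 187)) (XT.lf (nat_lit 0) (nat_lit 18154366664) (nat_lit 152) (nat_lit 11510167743) (nat_lit 76) (nat_lit 101703630167) (nat_lit 13) (nat_lit 5) (nat_lit 15) (nat_lit 5) (nat_lit 14) (nat_lit 4) (nat_lit 398) (nat_lit 316) (nat_lit 186)))) (XT.nd (nat_lit 78) (nat_lit 0) (nat_lit 0) (XT.lf (nat_lit 0) (nat_lit 28149344403) (nat_lit 76) (nat_lit 9353120775) (nat_lit 152) (nat_lit 99393215180) (nat_lit 12) (nat_lit 5) (nat_lit 13) (nat_lit 5) (nat_lit 14) (nat_lit 4) (nat_lit 399) (nat_lit 316) (nat_lit 185)) (XT.nd (nat_lit 78) (nat_lit 0) (nat_lit 0) (XT.lf (nat_lit 0) (nat_lit 58199567128) (nat_lit 152) (nat_lit 72695267009) (nat_lit 0) (nat_lit 11785658301) (nat_lit 12) (nat_lit 5) (nat_lit 14) (nat_lit 4) (nat_lit 12) (nat_lit 4) (nat_lit 400) (nat_lit 316) (nat_lit 184)) (XT.lf (nat_lit 0) (nat_lit 80081546506)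 (nat_lit 152) (nat_lit 35001393165) (nat_lit 0) (nat_lit 33664104749) (nat_lit 12) (nat_lit 5) (nat_lit 14) (nat_lit 4) (nat_lit 12) (nat_lit 4) (nat_lit 401) (nat_lit 316) (nat_lit 183))))) (XT.nd (nat_lit 234) (nat_lit 152) (nat_lit 0) (XT.nd (nat_lit 78) (nat_lit 0) (nat_lit 0) (XT.lf (nat_lit 0) (nat_lit 4722201255) (nat_lit 76) (nat_lit 98406000375) (nat_lit 76) (nat_lit 51985193923) (nat_lit 11) (nat_lit 4) (nat_lit 12) (nat_lit 5) (nat_lit 12) (nat_lit 4) (nat_lit 402) (nat_lit 316) (nat_lit 182)) (XT.nd (nat_lit 78) (nat_lit 0) (nat_lit 0) (XT.lf (nat_lit 0) (nat_lit 47641130281) (nat_lit 76) (nat_lit 80275730839) (nat_lit 76) (nat_lit 33851719915) (nat_lit 11) (nat_lit 4) (nat_lit 12) (nat_lit 5) (nat_lit 12) (nat_lit 4) (nat_lit 403) (nat_lit 316) (nat_lit 181)) (XT.lf (nat_lit 0) (nat_lit 92700277711) (nat_lit 76) (nat_lit 61241729284) (nat_lit 76) (nat_lit 14814666483) (nat_lit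 11) (nat_lit 4) (nat_lit 12) (nat_lit 5) (nat_lit 12) (nat_lit 4) (nat_lit 404) (nat_lit 316) (nat_lit 180)))) (XT.nd (nat_lit 78) (nat_lit 76) (nat_lit 0) (XT.lf (nat_lit 0) (nat_lit 5005779030) (nat_lit 152) (nat_lit 36168122338) (nat_lit 76) (nat_lit 134916372909) (nat_lit 10) (nat_lit 5) (nat_lit 12) (nat_lit 5) (nat_lit 11) (nat_lit 4) (nat_lit 405) (nat_lit 316) (nat_lit 179)) (XT.nd (nat_lit 78) (nat_lit 0) (nat_lit 0) (XT.lf (nat_lit 0) (nat_lit 5647160124) (nat_lit 76) (nat_lit 19757667982) (nat_lit 152) (nat_lit 158369311586) (nat_lit 9) (nat_lit 5) (nat_lit 10) (nat_lit 5) (nat_lit 11) (nat_lit 4) (nat_lit 406) (nat_lit 316) (nat_lit 178)) (XT.lf (nat_lit 0) (nat_lit 47486300781) (nat_lit 152) (nat_lit 141060639097) (nat_lit 0) (nat_lit 3262135237) (nat_lit 9) (nat_lit 5) (nat_lit 11) (nat_lit 4) (nat_lit 9) (nat_lit 4) (nat_lit 407) (nat_lit 316) (nat_lit 177)))))) (XT.nd (nat_lit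 468) (nat_lit 152) (nat_lit 0) (XT.nd (nat_lit 234) (nat_lit 76) (nat_lit 0) (XT.nd (nat_lit 78) (nat_lit 0) (nat_lit 0) (XT.lf (nat_lit 0) (nat_lit 70993164122) (nat_lit 152) (nat_lit 102469920261) (nat_lit 0) (nat_lit 26766607351) (nat_lit 9) (nat_lit 5) (nat_lit 11) (nat_lit 4) (nat_lit 9) (nat_lit 4) (nat_lit 408) (nat_lit 316) (nat_lit 176)) (XT.nd (nat_lit 78) (nat_lit 0) (nat_lit 0) (XT.lf (nat_lit 0) (nat_lit 95672914284) (nat_lit 152) (nat_lit 61954467828) (nat_lit 0) (nat_lit 51444080155) (nat_lit 9) (nat_lit 5) (nat_lit 11) (nat_lit 4) (nat_lit 9) (nat_lit 4) (nat_lit 409) (nat_lit 316) (nat_lit 175)) (XT.lf (nat_lit 0) (nat_lit 121584312577) (nat_lit 152) (nat_lit 19417816436) (nat_lit 0) (nat_lit 77353309536) (nat_lit 9) (nat_lit 5) (nat_lit 11) (nat_lit 4) (nat_lit 9) (nat_lit 4) (nat_lit 410) (nat_lit 316) (nat_lit 174)))) (XT.nd (nat_lit 78) (nat_lit 0) (nat_lit 0) (XT.lf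 (nat_lit 0) (nat_lit 26075903411) (nat_lit 76) (nat_lit 123120267325) (nat_lit 76) (nat_lit 78887198653) (nat_lit 8) (nat_lit 4) (nat_lit 9) (nat_lit 5) (nat_lit 9) (nat_lit 4) (nat_lit 411) (nat_lit 316) (nat_lit 173)) (XT.nd (nat_lit 78) (nat_lit 0) (nat_lit 0) (XT.lf (nat_lit 0) (nat_lit 74514166380) (nat_lit 76) (nat_lit 104001116747) (nat_lit 76) (nat_lit 59766080807) (nat_lit 8) (nat_lit 4) (nat_lit 9) (nat_lit 5) (nat_lit 9) (nat_lit 4) (nat_lit 412) (nat_lit 316) (nat_lit 172)) (XT.lf (nat_lit 0) (nat_lit 125370260960) (nat_lit 76) (nat_lit 83928005610) (nat_lit 76) (nat_lit 39691096082) (nat_lit 8) (nat_lit 4) (nat_lit 9) (nat_lit 5) (nat_lit 9) (nat_lit 4) (nat_lit 413) (nat_lit 316) (nat_lit 171))))) (XT.nd (nat_lit 234) (nat_lit 0) (nat_lit 0) (XT.nd (nat_lit 78) (nat_lit 152) (nat_lit 0) (XT.lf (nat_lit 0) (nat_lit 178765273093) (nat_lit 76) (nat_lit 62853140792) (nat_lit 76)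 (nat_lit 18614446895) (nat_lit 8) (nat_lit 4) (nat_lit 9) (nat_lit 5) (nat_lit 9) (nat_lit 4) (nat_lit 414) (nat_lit 316) (nat_lit 170)) (XT.nd (nat_lit 78) (nat_lit 76) (nat_lit 0) (XT.lf (nat_lit 0) (nat_lit 3401577730) (nat_lit 152) (nat_lit 37267158950) (nat_lit 76) (nat_lit 231367148664) (nat_lit 7) (nat_lit 5) (nat_lit 9) (nat_lit 5) (nat_lit 8) (nat_lit 4) (nat_lit 415) (nat_lit 316) (nat_lit 169)) (XT.lf (nat_lit 0) (nat_lit 9126659988) (nat_lit 76) (nat_lit 16906838431) (nat_lit 152) (nat_lit 258373272035) (nat_lit 6) (nat_lit 5) (nat_lit 7) (nat_lit 5) (nat_lit 8) (nat_lit 4) (nat_lit 416) (nat_lit 316) (nat_lit 168)))) (XT.nd (nat_lit 156) (nat_lit 0) (nat_lit 0) (XT.nd (nat_lit 78) (nat_lit 0) (nat_lit 0) (XT.lf (nat_lit 0) (nat_lit 50562249841) (nat_lit 152) (nat_lit 238370155888) (nat_lit 0) (nat_lit 8425532528) (nat_lit 6) (nat_lit 5) (nat_lit 8) (nat_lit 4) (nat_lit 6) (nat_lit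 4) (nat_lit 417) (nat_lit 316) (nat_lit 167)) (XT.lf (nat_lit 0) (nat_lit 76592861670) (nat_lit 152) (nat_lit 199895285547) (nat_lit 0) (nat_lit 34454746256) (nat_lit 6) (nat_lit 5) (nat_lit 8) (nat_lit 4) (nat_lit 6) (nat_lit 4) (nat_lit 418) (nat_lit 316) (nat_lit 166))) (XT.nd (nat_lit 78) (nat_lit 0) (nat_lit 0) (XT.lf (nat_lit 0) (nat_lit 103923348423) (nat_lit 152) (nat_lit 159499929479) (nat_lit 0) (nat_lit 61783901486) (nat_lit 6) (nat_lit 5) (nat_lit 8) (nat_lit 4) (nat_lit 6) (nat_lit 4) (nat_lit 419) (nat_lit 316) (nat_lit 165)) (XT.lf (nat_lit 0) (nat_lit 132618782688) (nat_lit 152) (nat_lit 117087908265) (nat_lit 0) (nat_lit 90478067633) (nat_lit 6) (nat_lit 5) (nat_lit 8) (nat_lit 4) (nat_lit 6) (nat_lit 4) (nat_lit 420) (nat_lit 316) (nat_lit 164))))))))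
noncomputable def xc145 : XT := (XT.nd (nat_lit 39468) (nat_lit 0) (nat_lit 4104) (XT.nd (nat_lit 936) (nat_lit 0) (nat_lit 0) (XT.nd (nat_lit 468) (nat_lit 152) (nat_lit 0) (XT.nd (nat_lit 234) (nat_lit 0) (nat_lit 0) (XT.nd (nat_lit 78) (nat_lit 76) (nat_lit 0) (XT.lf (nat_lit 0) (nat_lit 162747486929) (nat_lit 152) (nat_lit 72558240903) (nat_lit 0) (nat_lit 120605564141) (nat_lit 6) (nat_lit 5) (nat_lit 8) (nat_lit 4) (nat_lit 6) (nat_lit 4) (nat_lit 421) (nat_lit 316) (nat_lit 163)) (XT.nd (nat_lit 78) (nat_lit 76) (nat_lit 0) (XT.lf (nat_lit 0) (nat_lit 194381196154) (nat_lit 152) (nat_lit 25804904375) (nat_lit 0) (nat_lit 152238123146) (nat_lit 6) (nat_lit 5) (nat_lit 8) (nat_lit 4) (nat_lit 6) (nat_lit 4) (nat_lit 422) (nat_lit 316) (nat_lit 162)) (XT.lf (nat_lit 0) (nat_lit 24053273762) (nat_lit 76) (nat_lit 203917493969) (nat_lit 76) (nat_lit 161773325513) (nat_lit 5) (nat_lit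 4) (nat_lit 6) (nat_lit 5) (nat_lit 6) (nat_lit 4) (nat_lit 423) (nat_lit 316) (nat_lit 161)))) (XT.nd (nat_lit 78) (nat_lit 0) (nat_lit 0) (XT.lf (nat_lit 0) (nat_lit 77297611855) (nat_lit 76) (nat_lit 186377886147) (nat_lit 76) (nat_lit 144232674407) (nat_lit 5) (nat_lit 4) (nat_lit 6) (nat_lit 5) (nat_lit 6) (nat_lit 4) (nat_lit 424) (nat_lit 316) (nat_lit 160)) (XT.nd (nat_lit 78) (nat_lit 0) (nat_lit 0) (XT.lf (nat_lit 0) (nat_lit 133201655457) (nat_lit 76) (nat_lit 167962534634) (nat_lit 76) (nat_lit 125816329290) (nat_lit 5) (nat_lit 4) (nat_lit 6) (nat_lit 5) (nat_lit 6) (nat_lit 4) (nat_lit 425) (nat_lit 316) (nat_lit 159)) (XT.lf (nat_lit 0) (nat_lit 191898509437) (nat_lit 76) (nat_lit 148627593355) (nat_lit 76) (nat_lit 106480441722) (nat_lit 5) (nat_lit 4) (nat_lit 6) (nat_lit 5) (nat_lit 6) (nat_lit 4) (nat_lit 426) (nat_lit 316) (nat_lit 158))))) (XT.nd (nat_lit 234) (nat_lit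 152) (nat_lit 0) (XT.nd (nat_lit 78) (nat_lit 0) (nat_lit 0) (XT.lf (nat_lit 0) (nat_lit 253527928207) (nat_lit 76) (nat_lit 128327026735) (nat_lit 76) (nat_lit 86178973874) (nat_lit 5) (nat_lit 4) (nat_lit 6) (nat_lit 5) (nat_lit 6) (nat_lit 4) (nat_lit 427) (nat_lit 316) (nat_lit 157)) (XT.nd (nat_lit 78) (nat_lit 0) (nat_lit 0) (XT.lf (nat_lit 0) (nat_lit 318236648479) (nat_lit 76) (nat_lit 107012500092) (nat_lit 76) (nat_lit 64863588919) (nat_lit 5) (nat_lit 4) (nat_lit 6) (nat_lit 5) (nat_lit 6) (nat_lit 4) (nat_lit 428) (nat_lit 316) (nat_lit 156)) (XT.lf (nat_lit 0) (nat_lit 386178738634) (nat_lit 76) (nat_lit 84633264554) (nat_lit 76) (nat_lit 42483535940) (nat_lit 5) (nat_lit 4) (nat_lit 6) (nat_lit 5) (nat_lit 6) (nat_lit 4) (nat_lit 429) (nat_lit 316) (nat_lit 155)))) (XT.nd (nat_lit 78) (nat_lit 152) (nat_lit 0) (XT.lf (nat_lit 0) (nat_lit 457515965555) (nat_lit 76) (nat_lit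 61136036225) (nat_lit 76) (nat_lit 18985529096) (nat_lit 5) (nat_lit 4) (nat_lit 6) (nat_lit 5) (nat_lit 6) (nat_lit 4) (nat_lit 430) (nat_lit 316) (nat_lit 154)) (XT.nd (nat_lit 78) (nat_lit 76) (nat_lit 0) (XT.lf (nat_lit 0) (nat_lit 5504379598) (nat_lit 152) (nat_lit 30867270394) (nat_lit 76) (nat_lit 526820580851) (nat_lit 4) (nat_lit 5) (nat_lit 6) (nat_lit 5) (nat_lit 5) (nat_lit 4) (nat_lit 431) (nat_lit 316) (nat_lit 153)) (XT.lf (nat_lit 0) (nat_lit 21215721349) (nat_lit 76) (nat_lit 9695340141) (nat_lit 152) (nat_lit 559081526685) (nat_lit 3) (nat_lit 5) (nat_lit 4) (nat_lit 5) (nat_lit 5) (nat_lit 4) (nat_lit 432) (nat_lit 316) (nat_lit 152)))))) (XT.nd (nat_lit 37986) (nat_lit 0) (nat_lit 8664) (XT.nd (nat_lit 234) (nat_lit 0) (nat_lit 0) (XT.nd (nat_lit 78) (nat_lit 0) (nat_lit 0) (XT.lf (nat_lit 0) (nat_lit 58404425843) (nat_lit 152) (nat_lit 541428653597) (nat_lit 0) (nat_lit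 18259066589) (nat_lit 3) (nat_lit 5) (nat_lit 5) (nat_lit 4) (nat_lit 3) (nat_lit 4) (nat_lit 433) (nat_lit 316) (nat_lit 151)) (XT.nd (nat_lit 78) (nat_lit 0) (nat_lit 0) (XT.lf (nat_lit 0) (nat_lit 87430523535) (nat_lit 152) (nat_lit 512873700763) (nat_lit 0) (nat_lit 47284554295) (nat_lit 3) (nat_lit 5) (nat_lit 5) (nat_lit 4) (nat_lit 3) (nat_lit 4) (nat_lit 434) (nat_lit 316) (nat_lit 150)) (XT.lf (nat_lit 0) (nat_lit 117907092892) (nat_lit 152) (nat_lit 482892648910) (nat_lit 0) (nat_lit 77760542712) (nat_lit 3) (nat_lit 5) (nat_lit 5) (nat_lit 4) (nat_lit 3) (nat_lit 4) (nat_lit 435) (nat_lit 316) (nat_lit 149)))) (XT.nd (nat_lit 37596) (nat_lit 0) (nat_lit 8664) (XT.lf (nat_lit 0) (nat_lit 149906697173) (nat_lit 152) (nat_lit 451414114581) (nat_lit 0) (nat_lit 109759593717) (nat_lit 3) (nat_lit 5) (nat_lit 5) (nat_lit 4) (nat_lit 3) (nat_lit 4) (nat_lit 436) (nat_lit 316) (nat_lit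 148)) (XT.nd (nat_lit 78) (nat_lit 0) (nat_lit 0) (XT.lf (nat_lit 0) (nat_lit 282815986) (nat_lit 0) (nat_lit 282815986) (nat_lit 684) (nat_lit 4352860672) (nat_lit 117) (nat_lit 5) (nat_lit 117) (nat_lit 3) (nat_lit 126) (nat_lit 3) (nat_lit 317) (nat_lit 317) (nat_lit 266)) (XT.lf (nat_lit 0) (nat_lit 1932282199) (nat_lit 684) (nat_lit 4609042164) (nat_lit 760) (nat_lit 3502285678) (nat_lit 117) (nat_lit 5) (nat_lit 126) (nat_lit 3) (nat_lit 127) (nat_lit 5) (nat_lit 318) (nat_lit 317) (nat_lit 265))))) (XT.nd (nat_lit 234) (nat_lit 0) (nat_lit 152) (XT.nd (nat_lit 78) (nat_lit 0) (nat_lit 76) (XT.lf (nat_lit 76) (nat_lit 259810225) (nat_lit 0) (nat_lit 2481379247) (nat_lit 760) (nat_lit 7521027098) (nat_lit 118) (nat_lit 5) (nat_lit 117) (nat_lit 5) (nat_lit 127) (nat_lit 5) (nat_lit 319) (nat_lit 317) (nat_lit 264)) (XT.nd (nat_lit 78) (nat_lit 0) (nat_lit 0) (XT.lf (nat_lit 0) (nat_lit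 3654264145) (nat_lit 684) (nat_lit 5012544064) (nat_lit 760) (nat_lit 1821799536) (nat_lit 118) (nat_lit 5) (nat_lit 127) (nat_lit 5) (nat_lit 128) (nat_lit 5) (nat_lit 320) (nat_lit 317) (nat_lit 263)) (XT.lf (nat_lit 76) (nat_lit 165015044) (nat_lit 0) (nat_lit 4449871128) (nat_lit 760) (nat_lit 6111376124) (nat_lit 119) (nat_lit 5) (nat_lit 118) (nat_lit 5) (nat_lit 128) (nat_lit 5) (nat_lit 321) (nat_lit 317) (nat_lit 262)))) (XT.nd (nat_lit 156) (nat_lit 0) (nat_lit 0) (XT.nd (nat_lit 78) (nat_lit 0) (nat_lit 0) (XT.lf (nat_lit 0) (nat_lit 5669894754) (nat_lit 684) (nat_lit 5225341545) (nat_lit 760) (nat_lit 78282166) (nat_lit 119) (nat_lit 5) (nat_lit 128) (nat_lit 5) (nat_lit 129) (nat_lit 5) (nat_lit 322) (nat_lit 317) (nat_lit 261)) (XT.lf (nat_lit 76) (nat_lit 286715042) (nat_lit 0) (nat_lit 6530667474) (nat_lit 760) (nat_lit 4413803408) (nat_lit 120) (nat_lit 5) (nat_lit 119)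 (nat_lit 5) (nat_lit 129) (nat_lit 5) (nat_lit 323) (nat_lit 317) (nat_lit 260))) (XT.nd (nat_lit 78) (nat_lit 0) (nat_lit 76) (XT.lf (nat_lit 76) (nat_lit 6229347573) (nat_lit 0) (nat_lit 1845076680) (nat_lit 760) (nat_lit 3424736779) (nat_lit 120) (nat_lit 5) (nat_lit 119) (nat_lit 5) (nat_lit 129) (nat_lit 5) (nat_lit 324) (nat_lit 317) (nat_lit 259)) (XT.lf (nat_lit 76) (nat_lit 633767507) (nat_lit 0) (nat_lit 8784013580) (nat_lit 760) (nat_lit 2361612329) (nat_lit 121) (nat_lit 5) (nat_lit 120) (nat_lit 5) (nat_lit 130) (nat_lit 5) (nat_lit 325) (nat_lit 317) (nat_lit 258))))))) (XT.nd (nat_lit 936) (nat_lit 1900) (nat_lit 0) (XT.nd (nat_lit 468) (nat_lit 1064) (nat_lit 0) (XT.nd (nat_lit 234) (nat_lit 1140) (nat_lit 0) (XT.nd (nat_lit 78) (nat_lit 684) (nat_lit 0) (XT.lf (nat_lit 76) (nat_lit 6957585480) (nat_lit 0) (nat_lit 3956512218) (nat_lit 760) (nat_lit 1155280289) (nat_lit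 121) (nat_lit 5) (nat_lit 120) (nat_lit 5) (nat_lit 130) (nat_lit 5) (nat_lit 326) (nat_lit 317) (nat_lit 257)) (XT.nd (nat_lit 78) (nat_lit 0) (nat_lit 0) (XT.lf (nat_lit 0) (nat_lit 112708326) (nat_lit 760) (nat_lit 11157197795) (nat_lit 76) (nat_lit 1103650862) (nat_lit 111) (nat_lit 5) (nat_lit 121) (nat_lit 5) (nat_lit 112) (nat_lit 5) (nat_lit 327) (nat_lit 317) (nat_lit 256)) (XT.lf (nat_lit 0) (nat_lit 1527147008) (nat_lit 760) (nat_lit 4763150069) (nat_lit 76) (nat_lit 6395633177) (nat_lit 111) (nat_lit 5) (nat_lit 121) (nat_lit 5) (nat_lit 112) (nat_lit 5) (nat_lit 328) (nat_lit 317) (nat_lit 255)))) (XT.nd (nat_lit 78) (nat_lit 380) (nat_lit 0) (XT.lf (nat_lit 0) (nat_lit 1987839543) (nat_lit 760) (nat_lit 1026003732) (nat_lit 836) (nat_lit 10000026946) (nat_lit 101) (nat_lit 5) (nat_lit 111) (nat_lit 5) (nat_lit 112) (nat_lit 5) (nat_lit 329) (nat_lit 317) (nat_lit 254)) (XT.nd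 (nat_lit 78) (nat_lit 380) (nat_lit 0) (XT.lf (nat_lit 0) (nat_lit 4698683186) (nat_lit 836) (nat_lit 4211479510) (nat_lit 76) (nat_lit 4441877683) (nat_lit 101) (nat_lit 5) (nat_lit 112) (nat_lit 5) (nat_lit 102) (nat_lit 5) (nat_lit 330) (nat_lit 317) (nat_lit 253)) (XT.lf (nat_lit 0) (nat_lit 2996754737) (nat_lit 380) (nat_lit 3507512195) (nat_lit 456) (nat_lit 7201049529) (nat_lit 96) (nat_lit 5) (nat_lit 101) (nat_lit 5) (nat_lit 102) (nat_lit 5) (nat_lit 331) (nat_lit 317) (nat_lit 252))))) (XT.nd (nat_lit 234) (nat_lit 760) (nat_lit 0) (XT.nd (nat_lit 78) (nat_lit 304) (nat_lit 0) (XT.lf (nat_lit 0) (nat_lit 8480219854) (nat_lit 456) (nat_lit 3423109647) (nat_lit 76) (nat_lit 2168943784) (nat_lit 96) (nat_lit 5) (nat_lit 102) (nat_lit 5) (nat_lit 97) (nat_lit 5) (nat_lit 332) (nat_lit 317) (nat_lit 251)) (XT.nd (nat_lit 78) (nat_lit 0) (nat_lit 0) (XT.lf (nat_lit 0) (nat_lit 4280342975)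 (nat_lit 304) (nat_lit 6373995189) (nat_lit 380) (nat_lit 3798291816) (nat_lit 92) (nat_lit 5) (nat_lit 96) (nat_lit 5) (nat_lit 97) (nat_lit 5) (nat_lit 333) (nat_lit 317) (nat_lit 250)) (XT.lf (nat_lit 0) (nat_lit 12462456938) (nat_lit 304) (nat_lit 508509617) (nat_lit 380) (nat_lit 1879367189) (nat_lit 92) (nat_lit 5) (nat_lit 96) (nat_lit 5) (nat_lit 97) (nat_lit 5) (nat_lit 334) (nat_lit 317) (nat_lit 249)))) (XT.nd (nat_lit 78) (nat_lit 304) (nat_lit 0) (XT.lf (nat_lit 0) (nat_lit 290386462) (nat_lit 456) (nat_lit 9405002221) (nat_lit 76) (nat_lit 5564484882) (nat_lit 86) (nat_lit 5) (nat_lit 92) (nat_lit 5) (nat_lit 87) (nat_lit 5) (nat_lit 335) (nat_lit 317) (nat_lit 248)) (XT.nd (nat_lit 78) (nat_lit 304) (nat_lit 0) (XT.lf (nat_lit 0) (nat_lit 2532198320) (nat_lit 456) (nat_lit 1160676225) (nat_lit 76) (nat_lit 11994155684) (nat_lit 86) (nat_lit 5) (nat_lit 92) (nat_lit 5) (nat_lit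 87) (nat_lit 5) (nat_lit 336) (nat_lit 317) (nat_lit 247)) (XT.lf (nat_lit 0) (nat_lit 5027657101) (nat_lit 380) (nat_lit 8454825082) (nat_lit 76) (nat_lit 2646000722) (nat_lit 82) (nat_lit 5) (nat_lit 87) (nat_lit 5) (nat_lit 83) (nat_lit 5) (nat_lit 337) (nat_lit 317) (nat_lit 246)))))) (XT.nd (nat_lit 468) (nat_lit 988) (nat_lit 0) (XT.nd (nat_lit 234) (nat_lit 380) (nat_lit 0) (XT.nd (nat_lit 78) (nat_lit 228) (nat_lit 0) (XT.lf (nat_lit 0) (nat_lit 323411234) (nat_lit 304) (nat_lit 7389023324) (nat_lit 380) (nat_lit 8876361607) (nat_lit 78) (nat_lit 5) (nat_lit 82) (nat_lit 5) (nat_lit 83) (nat_lit 5) (nat_lit 338) (nat_lit 317) (nat_lit 245)) (XT.nd (nat_lit 78) (nat_lit 228) (nat_lit 0) (XT.lf (nat_lit 0) (nat_lit 9809437937) (nat_lit 304) (nat_lit 844794208) (nat_lit 380) (nat_lit 6411768389) (nat_lit 78) (nat_lit 5) (nat_lit 82) (nat_lit 5) (nat_lit 83) (nat_lit 5) (nat_lit 339)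 (nat_lit 317) (nat_lit 244)) (XT.lf (nat_lit 0) (nat_lit 2153119075) (nat_lit 228) (nat_lit 11698212809) (nat_lit 304) (nat_lit 3710336441) (nat_lit 75) (nat_lit 5) (nat_lit 78) (nat_lit 5) (nat_lit 79) (nat_lit 5) (nat_lit 340) (nat_lit 317) (nat_lit 243)))) (XT.nd (nat_lit 78) (nat_lit 380) (nat_lit 0) (XT.lf (nat_lit 0) (nat_lit 12246900686) (nat_lit 228) (nat_lit 5078961822) (nat_lit 304) (nat_lit 750391361) (nat_lit 75) (nat_lit 5) (nat_lit 78) (nat_lit 5) (nat_lit 79) (nat_lit 5) (nat_lit 341) (nat_lit 317) (nat_lit 242)) (XT.nd (nat_lit 78) (nat_lit 0) (nat_lit 0) (XT.lf (nat_lit 0) (nat_lit 2361820537) (nat_lit 380) (nat_lit 14336796390) (nat_lit 76) (nat_lit 1912137009) (nat_lit 70) (nat_lit 5) (nat_lit 75) (nat_lit 5) (nat_lit 71) (nat_lit 5) (nat_lit 342) (nat_lit 317) (nat_lit 241)) (XT.lf (nat_lit 0) (nat_lit 5770109671) (nat_lit 380) (nat_lit 4203334754) (nat_lit 76) (nat_lit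 9189646637) (nat_lit 70) (nat_lit 5) (nat_lit 75) (nat_lit 5) (nat_lit 71) (nat_lit 5) (nat_lit 343) (nat_lit 317) (nat_lit 240))))) (XT.nd (nat_lit 234) (nat_lit 532) (nat_lit 0) (XT.nd (nat_lit 78) (nat_lit 228) (nat_lit 0) (XT.lf (nat_lit 0) (nat_lit 6626089430) (nat_lit 228) (nat_lit 2809110624) (nat_lit 304) (nat_lit 10303536477) (nat_lit 67) (nat_lit 5) (nat_lit 70) (nat_lit 5) (nat_lit 71) (nat_lit 5) (nat_lit 344) (nat_lit 317) (nat_lit 239)) (XT.nd (nat_lit 78) (nat_lit 228) (nat_lit 0) (XT.lf (nat_lit 0) (nat_lit 13412794192) (nat_lit 304) (nat_lit 2294615728) (nat_lit 76) (nat_lit 4629302205) (nat_lit 67) (nat_lit 5) (nat_lit 71) (nat_lit 5) (nat_lit 68) (nat_lit 5) (nat_lit 345) (nat_lit 317) (nat_lit 238)) (XT.lf (nat_lit 0) (nat_lit 9293655658) (nat_lit 228) (nat_lit 8470865043) (nat_lit 304) (nat_lit 3191312984) (nat_lit 64) (nat_lit 5) (nat_lit 67) (nat_lit 5) (nat_lit 68)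 (nat_lit 5) (nat_lit 346) (nat_lit 317) (nat_lit 237)))) (XT.nd (nat_lit 156) (nat_lit 228) (nat_lit 0) (XT.nd (nat_lit 78) (nat_lit 228) (nat_lit 0) (XT.lf (nat_lit 0) (nat_lit 728378588) (nat_lit 304) (nat_lit 97204904) (nat_lit 76) (nat_lit 20778580772) (nat_lit 63) (nat_lit 5) (nat_lit 67) (nat_lit 5) (nat_lit 64) (nat_lit 5) (nat_lit 347) (nat_lit 317) (nat_lit 236)) (XT.lf (nat_lit 0) (nat_lit 5031287005) (nat_lit 304) (nat_lit 10021382234) (nat_lit 76) (nat_lit 7214910719) (nat_lit 60) (nat_lit 5) (nat_lit 64) (nat_lit 5) (nat_lit 61) (nat_lit 5) (nat_lit 348) (nat_lit 317) (nat_lit 235))) (XT.nd (nat_lit 78) (nat_lit 0) (nat_lit 0) (XT.lf (nat_lit 0) (nat_lit 2284126770) (nat_lit 228) (nat_lit 7301380962) (nat_lit 304) (nat_lit 13376858441) (nat_lit 57) (nat_lit 5) (nat_lit 60) (nat_lit 5) (nat_lit 61) (nat_lit 5) (nat_lit 349) (nat_lit 317) (nat_lit 234)) (XT.lf (nat_lit 0) (nat_lit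 14538575863) (nat_lit 304) (nat_lit 8168183553) (nat_lit 76) (nat_lit 976583160) (nat_lit 57) (nat_lit 5) (nat_lit 61) (nat_lit 5) (nat_lit 58) (nat_lit 5) (nat_lit 350) (nat_lit 317) (nat_lit 233))))))))
noncomputable def xc146 : XT := (XT.nd (nat_lit 1872) (nat_lit 1140) (nat_lit 0) (XT.nd (nat_lit 936) (nat_lit 836) (nat_lit 0) (XT.nd (nat_lit 468) (nat_lit 760) (nat_lit 0) (XT.nd (nat_lit 234) (nat_lit 152) (nat_lit 0) (XT.nd (nat_lit 78) (nat_lit 304) (nat_lit 0) (XT.lf (nat_lit 0) (nat_lit 4986566186) (nat_lit 152) (nat_lit 14936529668) (nat_lit 228) (nat_lit 4508089349) (nat_lit 55) (nat_lit 5) (nat_lit 57) (nat_lit 5) (nat_lit 58) (nat_lit 5) (nat_lit 351) (nat_lit 317) (nat_lit 232)) (XT.nd (nat_lit 78) (nat_lit 228) (nat_lit 0) (XT.lf (nat_lit 0) (nat_lit 475845349) (nat_lit 228) (nat_lit 6155602932) (nat_lit 76) (nat_lit 18578349007) (nat_lit 54) (nat_lit 5) (nat_lit 57) (nat_lit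 5) (nat_lit 55) (nat_lit 5) (nat_lit 352) (nat_lit 317) (nat_lit 231)) (XT.lf (nat_lit 0) (nat_lit 5704499140) (nat_lit 304) (nat_lit 18094995585) (nat_lit 76) (nat_lit 2216805240) (nat_lit 51) (nat_lit 5) (nat_lit 55) (nat_lit 5) (nat_lit 52) (nat_lit 5) (nat_lit 353) (nat_lit 317) (nat_lit 230)))) (XT.nd (nat_lit 78) (nat_lit 152) (nat_lit 0) (XT.lf (nat_lit 0) (nat_lit 11396470705) (nat_lit 304) (nat_lit 4072630399) (nat_lit 76) (nat_lit 11383938448) (nat_lit 51) (nat_lit 5) (nat_lit 55) (nat_lit 5) (nat_lit 52) (nat_lit 5) (nat_lit 354) (nat_lit 317) (nat_lit 229)) (XT.nd (nat_lit 78) (nat_lit 0) (nat_lit 0) (XT.lf (nat_lit 0) (nat_lit 10983282420) (nat_lit 152) (nat_lit 6549062739) (nat_lit 228) (nat_lit 10191311484) (nat_lit 49) (nat_lit 5) (nat_lit 51) (nat_lit 5) (nat_lit 52) (nat_lit 5) (nat_lit 355) (nat_lit 317) (nat_lit 228)) (XT.lf (nat_lit 0) (nat_lit 24077099888) (nat_lit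 228) (nat_lit 1765372394) (nat_lit 76) (nat_lit 2790233449) (nat_lit 49) (nat_lit 5) (nat_lit 52) (nat_lit 5) (nat_lit 50) (nat_lit 5) (nat_lit 356) (nat_lit 317) (nat_lit 227))))) (XT.nd (nat_lit 234) (nat_lit 380) (nat_lit 0) (XT.nd (nat_lit 78) (nat_lit 152) (nat_lit 0) (XT.lf (nat_lit 0) (nat_lit 1642564606) (nat_lit 228) (nat_lit 15307735368) (nat_lit 76) (nat_lit 12619635699) (nat_lit 46) (nat_lit 5) (nat_lit 49) (nat_lit 5) (nat_lit 47) (nat_lit 5) (nat_lit 357) (nat_lit 317) (nat_lit 226)) (XT.nd (nat_lit 78) (nat_lit 0) (nat_lit 0) (XT.lf (nat_lit 0) (nat_lit 523023475) (nat_lit 152) (nat_lit 7501723653) (nat_lit 228) (nat_lit 22524190515) (nat_lit 44) (nat_lit 5) (nat_lit 46) (nat_lit 5) (nat_lit 47) (nat_lit 5) (nat_lit 358) (nat_lit 317) (nat_lit 225)) (XT.lf (nat_lit 0) (nat_lit 15016099550) (nat_lit 228) (nat_lit 13947783758) (nat_lit 76) (nat_lit 2598507865) (nat_lit 44)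 (nat_lit 5) (nat_lit 47) (nat_lit 5) (nat_lit 45) (nat_lit 5) (nat_lit 359) (nat_lit 317) (nat_lit 224)))) (XT.nd (nat_lit 78) (nat_lit 228) (nat_lit 0) (XT.lf (nat_lit 0) (nat_lit 2885922749) (nat_lit 152) (nat_lit 19628462025) (nat_lit 228) (nat_lit 10104268630) (nat_lit 42) (nat_lit 5) (nat_lit 44) (nat_lit 5) (nat_lit 45) (nat_lit 5) (nat_lit 360) (nat_lit 317) (nat_lit 223)) (XT.nd (nat_lit 78) (nat_lit 228) (nat_lit 0) (XT.lf (nat_lit 0) (nat_lit 21028117030) (nat_lit 152) (nat_lit 9585244436) (nat_lit 228) (nat_lit 3103082501) (nat_lit 42) (nat_lit 5) (nat_lit 44) (nat_lit 5) (nat_lit 45) (nat_lit 5) (nat_lit 361) (nat_lit 317) (nat_lit 222)) (XT.lf (nat_lit 0) (nat_lit 4202078017) (nat_lit 228) (nat_lit 29585022605) (nat_lit 76) (nat_lit 1074216711) (nat_lit 39) (nat_lit 5) (nat_lit 42) (nat_lit 5) (nat_lit 40) (nat_lit 5) (nat_lit 362) (nat_lit 317) (nat_lit 221)))))) (XT.nd (nat_lit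 468) (nat_lit 380) (nat_lit 0) (XT.nd (nat_lit 234) (nat_lit 304) (nat_lit 0) (XT.nd (nat_lit 78) (nat_lit 152) (nat_lit 0) (XT.lf (nat_lit 0) (nat_lit 12133763450) (nat_lit 228) (nat_lit 11701620072) (nat_lit 76) (nat_lit 12207233318) (nat_lit 39) (nat_lit 5) (nat_lit 42) (nat_lit 5) (nat_lit 40) (nat_lit 5) (nat_lit 363) (nat_lit 317) (nat_lit 220)) (XT.nd (nat_lit 78) (nat_lit 0) (nat_lit 0) (XT.lf (nat_lit 0) (nat_lit 7293131325) (nat_lit 152) (nat_lit 13273253788) (nat_lit 228) (nat_lit 16711381968) (nat_lit 37) (nat_lit 5) (nat_lit 39) (nat_lit 5) (nat_lit 40) (nat_lit 5) (nat_lit 364) (nat_lit 317) (nat_lit 219)) (XT.lf (nat_lit 0) (nat_lit 27627889157) (nat_lit 152) (nat_lit 1981610530) (nat_lit 228) (nat_lit 8955735254) (nat_lit 37) (nat_lit 5) (nat_lit 39) (nat_lit 5) (nat_lit 40) (nat_lit 5) (nat_lit 365) (nat_lit 317) (nat_lit 218)))) (XT.nd (nat_lit 78) (nat_lit 228) (nat_lit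 0) (XT.lf (nat_lit 0) (nat_lit 9186595760) (nat_lit 76) (nat_lit 30206806505) (nat_lit 152) (nat_lit 509245360) (nat_lit 36) (nat_lit 5) (nat_lit 37) (nat_lit 5) (nat_lit 38) (nat_lit 4) (nat_lit 366) (nat_lit 317) (nat_lit 217)) (XT.nd (nat_lit 78) (nat_lit 152) (nat_lit 0) (XT.lf (nat_lit 0) (nat_lit 8303836253) (nat_lit 152) (nat_lit 10782871098) (nat_lit 76) (nat_lit 22203109258) (nat_lit 35) (nat_lit 5) (nat_lit 37) (nat_lit 5) (nat_lit 36) (nat_lit 5) (nat_lit 367) (nat_lit 317) (nat_lit 216)) (XT.lf (nat_lit 0) (nat_lit 10458483215) (nat_lit 152) (nat_lit 7236760442) (nat_lit 228) (nat_lit 25042946315) (nat_lit 33) (nat_lit 5) (nat_lit 35) (nat_lit 5) (nat_lit 36) (nat_lit 5) (nat_lit 368) (nat_lit 317) (nat_lit 215))))) (XT.nd (nat_lit 234) (nat_lit 228) (nat_lit 0) (XT.nd (nat_lit 78) (nat_lit 152) (nat_lit 0) (XT.lf (nat_lit 0) (nat_lit 27814680798) (nat_lit 228) (nat_lit 11212812424)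 (nat_lit 76) (nat_lit 5218568319) (nat_lit 33) (nat_lit 5) (nat_lit 36) (nat_lit 5) (nat_lit 34) (nat_lit 4) (nat_lit 369) (nat_lit 317) (nat_lit 214)) (XT.nd (nat_lit 78) (nat_lit 76) (nat_lit 0) (XT.lf (nat_lit 0) (nat_lit 11130804283) (nat_lit 76) (nat_lit 27593682316) (nat_lit 152) (nat_lit 7090622635) (nat_lit 32) (nat_lit 5) (nat_lit 33) (nat_lit 5) (nat_lit 34) (nat_lit 4) (nat_lit 370) (nat_lit 317) (nat_lit 213)) (XT.lf (nat_lit 0) (nat_lit 2815224809) (nat_lit 152) (nat_lit 12532043746) (nat_lit 76) (nat_lit 32103970887) (nat_lit 31) (nat_lit 5) (nat_lit 33) (nat_lit 5) (nat_lit 32) (nat_lit 5) (nat_lit 371) (nat_lit 317) (nat_lit 212)))) (XT.nd (nat_lit 78) (nat_lit 76) (nat_lit 0) (XT.lf (nat_lit 0) (nat_lit 10948409425) (nat_lit 152) (nat_lit 2192990112) (nat_lit 228) (nat_lit 36013800385) (nat_lit 29) (nat_lit 5) (nat_lit 31) (nat_lit 5) (nat_lit 32) (nat_lit 5) (nat_lit 372)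 (nat_lit 317) (nat_lit 211)) (XT.nd (nat_lit 78) (nat_lit 76) (nat_lit 0) (XT.lf (nat_lit 0) (nat_lit 24373455623) (nat_lit 228) (nat_lit 15094323337) (nat_lit 76) (nat_lit 11457102797) (nat_lit 29) (nat_lit 5) (nat_lit 32) (nat_lit 5) (nat_lit 30) (nat_lit 4) (nat_lit 373) (nat_lit 317) (nat_lit 210)) (XT.lf (nat_lit 0) (nat_lit 9426512586) (nat_lit 76) (nat_lit 26916538221) (nat_lit 152) (nat_lit 16431201931) (nat_lit 28) (nat_lit 5) (nat_lit 29) (nat_lit 5) (nat_lit 30) (nat_lit 4) (nat_lit 374) (nat_lit 317) (nat_lit 209))))))) (XT.nd (nat_lit 936) (nat_lit 456) (nat_lit 0) (XT.nd (nat_lit 468) (nat_lit 380) (nat_lit 0) (XT.nd (nat_lit 234) (nat_lit 76) (nat_lit 0) (XT.nd (nat_lit 78) (nat_lit 228) (nat_lit 0) (XT.lf (nat_lit 0) (nat_lit 35684629778) (nat_lit 76) (nat_lit 13475079452) (nat_lit 152) (nat_lit 5543955644) (nat_lit 28) (nat_lit 5) (nat_lit 29) (nat_lit 5) (nat_lit 30) (nat_lit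 4) (nat_lit 375) (nat_lit 317) (nat_lit 208)) (XT.nd (nat_lit 78) (nat_lit 0) (nat_lit 0) (XT.lf (nat_lit 0) (nat_lit 5809051375) (nat_lit 228) (nat_lit 50099104932) (nat_lit 76) (nat_lit 811304783) (nat_lit 25) (nat_lit 5) (nat_lit 28) (nat_lit 5) (nat_lit 26) (nat_lit 4) (nat_lit 376) (nat_lit 317) (nat_lit 207)) (XT.lf (nat_lit 0) (nat_lit 18084900708) (nat_lit 228) (nat_lit 24947463342) (nat_lit 76) (nat_lit 15772065117) (nat_lit 25) (nat_lit 5) (nat_lit 28) (nat_lit 5) (nat_lit 26) (nat_lit 4) (nat_lit 377) (nat_lit 317) (nat_lit 206)))) (XT.nd (nat_lit 78) (nat_lit 0) (nat_lit 0) (XT.lf (nat_lit 0) (nat_lit 1497825574) (nat_lit 76) (nat_lit 29493650234) (nat_lit 152) (nat_lit 30001324640) (nat_lit 24) (nat_lit 5) (nat_lit 25) (nat_lit 5) (nat_lit 26) (nat_lit 4) (nat_lit 378) (nat_lit 317) (nat_lit 205)) (XT.nd (nat_lit 78) (nat_lit 0) (nat_lit 0) (XT.lf (nat_lit 0) (nat_lit 30119815531)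 (nat_lit 76) (nat_lit 14839734374) (nat_lit 152) (nat_lit 18310233270) (nat_lit 24) (nat_lit 5) (nat_lit 25) (nat_lit 5) (nat_lit 26) (nat_lit 4) (nat_lit 379) (nat_lit 317) (nat_lit 204)) (XT.lf (nat_lit 0) (nat_lit 59628460527) (nat_lit 152) (nat_lit 5507597988) (nat_lit 0) (nat_lit 524436212) (nat_lit 24) (nat_lit 5) (nat_lit 26) (nat_lit 4) (nat_lit 24) (nat_lit 4) (nat_lit 380) (nat_lit 317) (nat_lit 203))))) (XT.nd (nat_lit 234) (nat_lit 152) (nat_lit 0) (XT.nd (nat_lit 78) (nat_lit 76) (nat_lit 0) (XT.lf (nat_lit 0) (nat_lit 7263218229) (nat_lit 152) (nat_lit 44225278423) (nat_lit 76) (nat_lit 16645755727) (nat_lit 22) (nat_lit 5) (nat_lit 24) (nat_lit 5) (nat_lit 23) (nat_lit 4) (nat_lit 381) (nat_lit 317) (nat_lit 202)) (XT.nd (nat_lit 78) (nat_lit 76) (nat_lit 0) (XT.lf (nat_lit 0) (nat_lit 21109521741) (nat_lit 152) (nat_lit 15850690964) (nat_lit 76) (nat_lit 33762091848) (nat_lit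 22) (nat_lit 5) (nat_lit 24) (nat_lit 5) (nat_lit 23) (nat_lit 4) (nat_lit 382) (nat_lit 317) (nat_lit 201)) (XT.lf (nat_lit 0) (nat_lit 14392978964) (nat_lit 76) (nat_lit 21474353771) (nat_lit 152) (nat_lit 37561468078) (nat_lit 21) (nat_lit 5) (nat_lit 22) (nat_lit 5) (nat_lit 23) (nat_lit 4) (nat_lit 383) (nat_lit 317) (nat_lit 200)))) (XT.nd (nat_lit 78) (nat_lit 152) (nat_lit 0) (XT.lf (nat_lit 0) (nat_lit 46688986798) (nat_lit 76) (nat_lit 4937068742) (nat_lit 152) (nat_lit 24631416325) (nat_lit 21) (nat_lit 5) (nat_lit 22) (nat_lit 5) (nat_lit 23) (nat_lit 4) (nat_lit 384) (nat_lit 317) (nat_lit 199)) (XT.nd (nat_lit 78) (nat_lit 76) (nat_lit 0) (XT.lf (nat_lit 0) (nat_lit 1206976442) (nat_lit 76) (nat_lit 67173373712) (nat_lit 76) (nat_lit 10836845523) (nat_lit 20) (nat_lit 4) (nat_lit 21) (nat_lit 5) (nat_lit 21) (nat_lit 4) (nat_lit 385) (nat_lit 317) (nat_lit 198)) (XT.lf (nat_lit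 0) (nat_lit 4115396304) (nat_lit 152) (nat_lit 47908063304) (nat_lit 76) (nat_lit 30269365431) (nat_lit 19) (nat_lit 5) (nat_lit 21) (nat_lit 5) (nat_lit 20) (nat_lit 4) (nat_lit 386) (nat_lit 317) (nat_lit 197)))))) (XT.nd (nat_lit 468) (nat_lit 228) (nat_lit 0) (XT.nd (nat_lit 234) (nat_lit 152) (nat_lit 0) (XT.nd (nat_lit 78) (nat_lit 76) (nat_lit 0) (XT.lf (nat_lit 0) (nat_lit 19446092112) (nat_lit 152) (nat_lit 16487848841) (nat_lit 76) (nat_lit 49579661567) (nat_lit 19) (nat_lit 5) (nat_lit 21) (nat_lit 5) (nat_lit 20) (nat_lit 4) (nat_lit 387) (nat_lit 317) (nat_lit 196)) (XT.nd (nat_lit 78) (nat_lit 0) (nat_lit 0) (XT.lf (nat_lit 0) (nat_lit 17039807988) (nat_lit 76) (nat_lit 18764821459) (nat_lit 152) (nat_lit 53077724905) (nat_lit 18) (nat_lit 5) (nat_lit 19) (nat_lit 5) (nat_lit 20) (nat_lit 4) (nat_lit 388) (nat_lit 317) (nat_lit 195)) (XT.lf (nat_lit 0) (nat_lit 52807464246)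 (nat_lit 76) (nat_lit 448214575) (nat_lit 152) (nat_lit 39150136473) (nat_lit 18) (nat_lit 5) (nat_lit 19) (nat_lit 5) (nat_lit 20) (nat_lit 4) (nat_lit 389) (nat_lit 317) (nat_lit 194)))) (XT.nd (nat_lit 78) (nat_lit 152) (nat_lit 0) (XT.lf (nat_lit 0) (nat_lit 71868069813) (nat_lit 152) (nat_lit 6043765423) (nat_lit 0) (nat_lit 18179175331) (nat_lit 18) (nat_lit 5) (nat_lit 20) (nat_lit 4) (nat_lit 18) (nat_lit 4) (nat_lit 390) (nat_lit 317) (nat_lit 193)) (XT.nd (nat_lit 78) (nat_lit 76) (nat_lit 0) (XT.lf (nat_lit 0) (nat_lit 30137656745) (nat_lit 76) (nat_lit 61747033041) (nat_lit 76) (nat_lit 8052096049) (nat_lit 17) (nat_lit 4) (nat_lit 18) (nat_lit 5) (nat_lit 18) (nat_lit 4) (nat_lit 391) (nat_lit 317) (nat_lit 192)) (XT.lf (nat_lit 0) (nat_lit 8741331237) (nat_lit 152) (nat_lit 35780962725) (nat_lit 76) (nat_lit 59440599071) (nat_lit 16) (nat_lit 5) (nat_lit 18) (nat_lit 5) (nat_lit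 17) (nat_lit 4) (nat_lit 392) (nat_lit 317) (nat_lit 191))))) (XT.nd (nat_lit 234) (nat_lit 152) (nat_lit 0) (XT.nd (nat_lit 78) (nat_lit 76) (nat_lit 0) (XT.lf (nat_lit 0) (nat_lit 26099767022) (nat_lit 152) (nat_lit 201650100) (nat_lit 76) (nat_lit 81882491982) (nat_lit 16) (nat_lit 5) (nat_lit 18) (nat_lit 5) (nat_lit 17) (nat_lit 4) (nat_lit 393) (nat_lit 317) (nat_lit 190)) (XT.nd (nat_lit 78) (nat_lit 0) (nat_lit 0) (XT.lf (nat_lit 0) (nat_lit 38377558773) (nat_lit 76) (nat_lit 6543880746) (nat_lit 152) (nat_lit 67664771293) (nat_lit 15) (nat_lit 5) (nat_lit 16) (nat_lit 5) (nat_lit 17) (nat_lit 4) (nat_lit 394) (nat_lit 317) (nat_lit 189)) (XT.lf (nat_lit 0) (nat_lit 64905542376) (nat_lit 152) (nat_lit 38544917430) (nat_lit 0) (nat_lit 13747101014) (nat_lit 15) (nat_lit 5) (nat_lit 17) (nat_lit 4) (nat_lit 15) (nat_lit 4) (nat_lit 395) (nat_lit 317) (nat_lit 188)))) (XT.nd (nat_lit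 156) (nat_lit 76) (nat_lit 0) (XT.nd (nat_lit 78) (nat_lit 76) (nat_lit 0) (XT.lf (nat_lit 0) (nat_lit 85992460429) (nat_lit 152) (nat_lit 1212327868) (nat_lit 0) (nat_lit 34829510054) (nat_lit 15) (nat_lit 5) (nat_lit 17) (nat_lit 4) (nat_lit 15) (nat_lit 4) (nat_lit 396) (nat_lit 317) (nat_lit 187)) (XT.lf (nat_lit 0) (nat_lit 39235968093) (nat_lit 76) (nat_lit 69506847637) (nat_lit 76) (nat_lit 18339602963) (nat_lit 14) (nat_lit 4) (nat_lit 15) (nat_lit 5) (nat_lit 15) (nat_lit 4) (nat_lit 397) (nat_lit 317) (nat_lit 186))) (XT.nd (nat_lit 78) (nat_lit 0) (nat_lit 0) (XT.lf (nat_lit 0) (nat_lit 257196661) (nat_lit 152) (nat_lit 50644081324) (nat_lit 76) (nat_lit 81480605009) (nat_lit 13) (nat_lit 5) (nat_lit 15) (nat_lit 5) (nat_lit 14) (nat_lit 4) (nat_lit 398) (nat_lit 317) (nat_lit 185)) (XT.lf (nat_lit 0) (nat_lit 19164185661) (nat_lit 152) (nat_lit 11888648930) (nat_lit 76) (nat_lit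 106878619875) (nat_lit 13) (nat_lit 5) (nat_lit 15) (nat_lit 5) (nat_lit 14) (nat_lit 4) (nat_lit 399) (nat_lit 317) (nat_lit 184))))))))
noncomputable def xc147 : XT := (XT.nd (nat_lit 1950) (nat_lit 152) (nat_lit 0) (XT.nd (nat_lit 936) (nat_lit 304) (nat_lit 0) (XT.nd (nat_lit 468) (nat_lit 152) (nat_lit 0) (XT.nd (nat_lit 234) (nat_lit 76) (nat_lit 0) (XT.nd (nat_lit 78) (nat_lit 0) (nat_lit 0) (XT.lf (nat_lit 0) (nat_lit 29750660964) (nat_lit 76) (nat_lit 9727192731) (nat_lit 152) (nat_lit 104257584748) (nat_lit 12) (nat_lit 5) (nat_lit 13) (nat_lit 5) (nat_lit 14) (nat_lit 4) (nat_lit 400) (nat_lit 317) (nat_lit 183)) (XT.nd (nat_lit 78) (nat_lit 0) (nat_lit 0) (XT.lf (nat_lit 0) (nat_lit 61206427741) (nat_lit 152) (nat_lit 76142016870) (nat_lit 0) (nat_lit 12461216271) (nat_lit 12) (nat_lit 5) (nat_lit 14) (nat_lit 4) (nat_lit 12) (nat_lit 4) (nat_lit 401) (nat_lit 317) (nat_lit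 182)) (XT.lf (nat_lit 0) (nat_lit 84177892647) (nat_lit 152) (nat_lit 36572402357) (nat_lit 0) (nat_lit 35429476705) (nat_lit 12) (nat_lit 5) (nat_lit 14) (nat_lit 4) (nat_lit 12) (nat_lit 4) (nat_lit 402) (nat_lit 317) (nat_lit 181)))) (XT.nd (nat_lit 78) (nat_lit 0) (nat_lit 0) (XT.lf (nat_lit 0) (nat_lit 5134483712) (nat_lit 76) (nat_lit 103240753607) (nat_lit 76) (nat_lit 54489285788) (nat_lit 11) (nat_lit 4) (nat_lit 12) (nat_lit 5) (nat_lit 12) (nat_lit 4) (nat_lit 403) (nat_lit 317) (nat_lit 180)) (XT.nd (nat_lit 78) (nat_lit 0) (nat_lit 0) (XT.lf (nat_lit 0) (nat_lit 50190970028) (nat_lit 76) (nat_lit 84208044250) (nat_lit 76) (nat_lit 35453669881) (nat_lit 11) (nat_lit 4) (nat_lit 12) (nat_lit 5) (nat_lit 12) (nat_lit 4) (nat_lit 404) (nat_lit 317) (nat_lit 179)) (XT.lf (nat_lit 0) (nat_lit 97495085152) (nat_lit 76) (nat_lit 64226222290) (nat_lit 76) (nat_lit 15469079778) (nat_lit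 11) (nat_lit 4) (nat_lit 12) (nat_lit 5) (nat_lit 12) (nat_lit 4) (nat_lit 405) (nat_lit 317) (nat_lit 178))))) (XT.nd (nat_lit 234) (nat_lit 0) (nat_lit 0) (XT.nd (nat_lit 78) (nat_lit 76) (nat_lit 0) (XT.lf (nat_lit 0) (nat_lit 5335646314) (nat_lit 152) (nat_lit 37821703894) (nat_lit 76) (nat_lit 141733449862) (nat_lit 10) (nat_lit 5) (nat_lit 12) (nat_lit 5) (nat_lit 11) (nat_lit 4) (nat_lit 406) (nat_lit 317) (nat_lit 177)) (XT.nd (nat_lit 78) (nat_lit 0) (nat_lit 0) (XT.lf (nat_lit 0) (nat_lit 6081845521) (nat_lit 76) (nat_lit 20671391135) (nat_lit 152) (nat_lit 166205693088) (nat_lit 9) (nat_lit 5) (nat_lit 10) (nat_lit 5) (nat_lit 11) (nat_lit 4) (nat_lit 407) (nat_lit 317) (nat_lit 176)) (XT.lf (nat_lit 0) (nat_lit 49936163433) (nat_lit 152) (nat_lit 147965969648) (nat_lit 0) (nat_lit 3493610241) (nat_lit 9) (nat_lit 5) (nat_lit 11) (nat_lit 4) (nat_lit 9) (nat_lit 4) (nat_lit 408)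 (nat_lit 317) (nat_lit 175)))) (XT.nd (nat_lit 78) (nat_lit 0) (nat_lit 0) (XT.lf (nat_lit 0) (nat_lit 74614772436) (nat_lit 152) (nat_lit 107452748270) (nat_lit 0) (nat_lit 28170050331) (nat_lit 9) (nat_lit 5) (nat_lit 11) (nat_lit 4) (nat_lit 9) (nat_lit 4) (nat_lit 409) (nat_lit 317) (nat_lit 174)) (XT.nd (nat_lit 78) (nat_lit 0) (nat_lit 0) (XT.lf (nat_lit 0) (nat_lit 100525083911) (nat_lit 152) (nat_lit 64918221693) (nat_lit 0) (nat_lit 54078296174) (nat_lit 9) (nat_lit 5) (nat_lit 11) (nat_lit 4) (nat_lit 9) (nat_lit 4) (nat_lit 410) (nat_lit 317) (nat_lit 173)) (XT.lf (nat_lit 0) (nat_lit 127728789075) (nat_lit 152) (nat_lit 20261117233) (nat_lit 0) (nat_lit 81280034071) (nat_lit 9) (nat_lit 5) (nat_lit 11) (nat_lit 4) (nat_lit 9) (nat_lit 4) (nat_lit 411) (nat_lit 317) (nat_lit 172)))))) (XT.nd (nat_lit 468) (nat_lit 76) (nat_lit 0) (XT.nd (nat_lit 234) (nat_lit 152) (nat_lit 0)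 (XT.nd (nat_lit 78) (nat_lit 0) (nat_lit 0) (XT.lf (nat_lit 0) (nat_lit 27505230704) (nat_lit 76) (nat_lit 129214861686) (nat_lit 76) (nat_lit 82764233094) (nat_lit 8) (nat_lit 4) (nat_lit 9) (nat_lit 5) (nat_lit 9) (nat_lit 4) (nat_lit 412) (nat_lit 317) (nat_lit 171)) (XT.nd (nat_lit 78) (nat_lit 0) (nat_lit 0) (XT.lf (nat_lit 0) (nat_lit 78359429101) (nat_lit 76) (nat_lit 109142678293) (nat_lit 76) (nat_lit 62690265332) (nat_lit 8) (nat_lit 4) (nat_lit 9) (nat_lit 5) (nat_lit 9) (nat_lit 4) (nat_lit 413) (nat_lit 317) (nat_lit 170)) (XT.lf (nat_lit 0) (nat_lit 131752635344) (nat_lit 76) (nat_lit 88068697042) (nat_lit 76) (nat_lit 41614584681) (nat_lit 8) (nat_lit 4) (nat_lit 9) (nat_lit 5) (nat_lit 9) (nat_lit 4) (nat_lit 414) (nat_lit 317) (nat_lit 169)))) (XT.nd (nat_lit 78) (nat_lit 152) (nat_lit 0) (XT.lf (nat_lit 0) (nat_lit 187811976114) (nat_lit 76) (nat_lit 65942741786) (nat_lit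 76) (nat_lit 19487010949) (nat_lit 8) (nat_lit 4) (nat_lit 9) (nat_lit 5) (nat_lit 9) (nat_lit 4) (nat_lit 415) (nat_lit 317) (nat_lit 168)) (XT.nd (nat_lit 78) (nat_lit 76) (nat_lit 0) (XT.lf (nat_lit 0) (nat_lit 3625272676) (nat_lit 152) (nat_lit 39025463256) (nat_lit 76) (nat_lit 242984257611) (nat_lit 7) (nat_lit 5) (nat_lit 9) (nat_lit 5) (nat_lit 8) (nat_lit 4) (nat_lit 416) (nat_lit 317) (nat_lit 167)) (XT.lf (nat_lit 0) (nat_lit 9686352215) (nat_lit 76) (nat_lit 17701497767) (nat_lit 152) (nat_lit 271236620150) (nat_lit 6) (nat_lit 5) (nat_lit 7) (nat_lit 5) (nat_lit 8) (nat_lit 4) (nat_lit 417) (nat_lit 317) (nat_lit 166))))) (XT.nd (nat_lit 234) (nat_lit 76) (nat_lit 0) (XT.nd (nat_lit 78) (nat_lit 0) (nat_lit 0) (XT.lf (nat_lit 0) (nat_lit 53141284179) (nat_lit 152) (nat_lit 250188466753) (nat_lit 0) (nat_lit 8893533371) (nat_lit 6) (nat_lit 5) (nat_lit 8) (nat_lit 4) (nat_lit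 6) (nat_lit 4) (nat_lit 418) (nat_lit 317) (nat_lit 165)) (XT.nd (nat_lit 78) (nat_lit 0) (nat_lit 0) (XT.lf (nat_lit 0) (nat_lit 80471001749) (nat_lit 152) (nat_lit 209794624177) (nat_lit 0) (nat_lit 36221982823) (nat_lit 6) (nat_lit 5) (nat_lit 8) (nat_lit 4) (nat_lit 6) (nat_lit 4) (nat_lit 419) (nat_lit 317) (nat_lit 164)) (XT.lf (nat_lit 0) (nat_lit 109165703460) (nat_lit 152) (nat_lit 167384044384) (nat_lit 0) (nat_lit 64915476801) (nat_lit 6) (nat_lit 5) (nat_lit 8) (nat_lit 4) (nat_lit 6) (nat_lit 4) (nat_lit 420) (nat_lit 317) (nat_lit 163)))) (XT.nd (nat_lit 156) (nat_lit 76) (nat_lit 0) (XT.nd (nat_lit 78) (nat_lit 0) (nat_lit 0) (XT.lf (nat_lit 0) (nat_lit 139293710028) (nat_lit 152) (nat_lit 122855749803) (nat_lit 0) (nat_lit 95042333149) (nat_lit 6) (nat_lit 5) (nat_lit 8) (nat_lit 4) (nat_lit 6) (nat_lit 4) (nat_lit 421) (nat_lit 317) (nat_lit 162)) (XT.lf (nat_lit 0) (nat_lit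 170926754804) (nat_lit 152) (nat_lit 76103720686) (nat_lit 0) (nat_lit 126674282477) (nat_lit 6) (nat_lit 5) (nat_lit 8) (nat_lit 4) (nat_lit 6) (nat_lit 4) (nat_lit 422) (nat_lit 317) (nat_lit 161))) (XT.nd (nat_lit 78) (nat_lit 76) (nat_lit 0) (XT.lf (nat_lit 0) (nat_lit 204140154560) (nat_lit 152) (nat_lit 27016642677) (nat_lit 0) (nat_lit 159886638949) (nat_lit 6) (nat_lit 5) (nat_lit 8) (nat_lit 4) (nat_lit 6) (nat_lit 4) (nat_lit 423) (nat_lit 317) (nat_lit 160)) (XT.lf (nat_lit 0) (nat_lit 25333178126) (nat_lit 76) (nat_lit 214075332601) (nat_lit 76) (nat_lit 169820823386) (nat_lit 5) (nat_lit 4) (nat_lit 6) (nat_lit 5) (nat_lit 6) (nat_lit 4) (nat_lit 424) (nat_lit 317) (nat_lit 159))))))) (XT.nd (nat_lit 38532) (nat_lit 0) (nat_lit 7448) (XT.nd (nat_lit 468) (nat_lit 152) (nat_lit 0) (XT.nd (nat_lit 234) (nat_lit 0) (nat_lit 0) (XT.nd (nat_lit 78) (nat_lit 0) (nat_lit 0) (XT.lf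 (nat_lit 0) (nat_lit 81236054995) (nat_lit 76) (nat_lit 195660555629) (nat_lit 76) (nat_lit 151405100125) (nat_lit 5) (nat_lit 4) (nat_lit 6) (nat_lit 5) (nat_lit 6) (nat_lit 4) (nat_lit 425) (nat_lit 317) (nat_lit 158)) (XT.nd (nat_lit 78) (nat_lit 0) (nat_lit 0) (XT.lf (nat_lit 0) (nat_lit 139931797800) (nat_lit 76) (nat_lit 176326161532) (nat_lit 76) (nat_lit 132069804800) (nat_lit 5) (nat_lit 4) (nat_lit 6) (nat_lit 5) (nat_lit 6) (nat_lit 4) (nat_lit 426) (nat_lit 317) (nat_lit 157)) (XT.lf (nat_lit 0) (nat_lit 201560158308) (nat_lit 76) (nat_lit 156026116038) (nat_lit 76) (nat_lit 111768900994) (nat_lit 5) (nat_lit 4) (nat_lit 6) (nat_lit 5) (nat_lit 6) (nat_lit 4) (nat_lit 427) (nat_lit 317) (nat_lit 156)))) (XT.nd (nat_lit 78) (nat_lit 0) (nat_lit 0) (XT.lf (nat_lit 0) (nat_lit 266267870712) (nat_lit 76) (nat_lit 134712085706) (nat_lit 76) (nat_lit 90454053221) (nat_lit 5) (nat_lit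 4) (nat_lit 6) (nat_lit 5) (nat_lit 6) (nat_lit 4) (nat_lit 428) (nat_lit 317) (nat_lit 155)) (XT.nd (nat_lit 78) (nat_lit 0) (nat_lit 0) (XT.lf (nat_lit 0) (nat_lit 334209000993) (nat_lit 76) (nat_lit 112333322844) (nat_lit 76) (nat_lit 68074511844) (nat_lit 5) (nat_lit 4) (nat_lit 6) (nat_lit 5) (nat_lit 6) (nat_lit 4) (nat_lit 429) (nat_lit 317) (nat_lit 154)) (XT.lf (nat_lit 0) (nat_lit 405545313747) (nat_lit 76) (nat_lit 88836544683) (nat_lit 76) (nat_lit 44576992241) (nat_lit 5) (nat_lit 4) (nat_lit 6) (nat_lit 5) (nat_lit 6) (nat_lit 4) (nat_lit 430) (nat_lit 317) (nat_lit 153))))) (XT.nd (nat_lit 234) (nat_lit 0) (nat_lit 0) (XT.nd (nat_lit 78) (nat_lit 152) (nat_lit 0) (XT.lf (nat_lit 0) (nat_lit 480446657339) (nat_lit 76) (nat_lit 64165806514) (nat_lit 76) (nat_lit 19905547936) (nat_lit 5) (nat_lit 4) (nat_lit 6) (nat_lit 5) (nat_lit 6) (nat_lit 4) (nat_lit 431) (nat_lit 317)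 (nat_lit 152)) (XT.nd (nat_lit 78) (nat_lit 76) (nat_lit 0) (XT.lf (nat_lit 0) (nat_lit 5806571138) (nat_lit 152) (nat_lit 32357460253) (nat_lit 76) (nat_lit 553186460069) (nat_lit 4) (nat_lit 5) (nat_lit 6) (nat_lit 5) (nat_lit 5) (nat_lit 4) (nat_lit 432) (nat_lit 317) (nat_lit 151)) (XT.lf (nat_lit 0) (nat_lit 22328823437) (nat_lit 76) (nat_lit 10154296079) (nat_lit 152) (nat_lit 587007770632) (nat_lit 3) (nat_lit 5) (nat_lit 4) (nat_lit 5) (nat_lit 5) (nat_lit 4) (nat_lit 433) (nat_lit 317) (nat_lit 150)))) (XT.nd (nat_lit 78) (nat_lit 0) (nat_lit 0) (XT.lf (nat_lit 0) (nat_lit 61350273741) (nat_lit 152) (nat_lit 568449381064) (nat_lit 0) (nat_lit 19195815112) (nat_lit 3) (nat_lit 5) (nat_lit 5) (nat_lit 4) (nat_lit 3) (nat_lit 4) (nat_lit 434) (nat_lit 317) (nat_lit 149)) (XT.nd (nat_lit 78) (nat_lit 0) (nat_lit 0) (XT.lf (nat_lit 0) (nat_lit 91826456003) (nat_lit 152) (nat_lit 538469095122)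 (nat_lit 0) (nat_lit 49671444099) (nat_lit 3) (nat_lit 5) (nat_lit 5) (nat_lit 4) (nat_lit 3) (nat_lit 4) (nat_lit 435) (nat_lit 317) (nat_lit 148)) (XT.lf (nat_lit 0) (nat_lit 123825691623) (nat_lit 152) (nat_lit 506991290232) (nat_lit 0) (nat_lit 81670152789) (nat_lit 3) (nat_lit 5) (nat_lit 5) (nat_lit 4) (nat_lit 3) (nat_lit 4) (nat_lit 436) (nat_lit 317) (nat_lit 147)))))) (XT.nd (nat_lit 468) (nat_lit 1216) (nat_lit 0) (XT.nd (nat_lit 234) (nat_lit 0) (nat_lit 76) (XT.nd (nat_lit 78) (nat_lit 0) (nat_lit 0) (XT.lf (nat_lit 0) (nat_lit 649489553) (nat_lit 0) (nat_lit 649489553) (nat_lit 684) (nat_lit 3829532198) (nat_lit 117) (nat_lit 5) (nat_lit 117) (nat_lit 3) (nat_lit 126) (nat_lit 3) (nat_lit 318) (nat_lit 318) (nat_lit 264)) (XT.nd (nat_lit 78) (nat_lit 0) (nat_lit 0) (XT.lf (nat_lit 0) (nat_lit 3361394426) (nat_lit 684) (nat_lit 4089127104) (nat_lit 760) (nat_lit 3027400880)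 (nat_lit 117) (nat_lit 5) (nat_lit 126) (nat_lit 3) (nat_lit 127) (nat_lit 5) (nat_lit 319) (nat_lit 318) (nat_lit 263)) (XT.lf (nat_lit 76) (nat_lit 1011065208) (nat_lit 0) (nat_lit 3147755940) (nat_lit 760) (nat_lit 6551293614) (nat_lit 118) (nat_lit 5) (nat_lit 117) (nat_lit 5) (nat_lit 127) (nat_lit 5) (nat_lit 320) (nat_lit 318) (nat_lit 262)))) (XT.nd (nat_lit 78) (nat_lit 0) (nat_lit 0) (XT.lf (nat_lit 0) (nat_lit 5048506171) (nat_lit 684) (nat_lit 4489891218) (nat_lit 760) (nat_lit 1412936659) (nat_lit 118) (nat_lit 5) (nat_lit 127) (nat_lit 5) (nat_lit 128) (nat_lit 5) (nat_lit 321) (nat_lit 318) (nat_lit 261)) (XT.nd (nat_lit 78) (nat_lit 0) (nat_lit 0) (XT.lf (nat_lit 76) (nat_lit 934073586) (nat_lit 0) (nat_lit 5077272206) (nat_lit 760) (nat_lit 5191869907) (nat_lit 119) (nat_lit 5) (nat_lit 118) (nat_lit 5) (nat_lit 128) (nat_lit 5) (nat_lit 322) (nat_lit 318) (nat_lit 260))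 (XT.lf (nat_lit 76) (nat_lit 6761556649) (nat_lit 0) (nat_lit 300712155) (nat_lit 760) (nat_lit 4403458813) (nat_lit 119) (nat_lit 5) (nat_lit 118) (nat_lit 5) (nat_lit 128) (nat_lit 5) (nat_lit 323) (nat_lit 318) (nat_lit 259))))) (XT.nd (nat_lit 234) (nat_lit 1368) (nat_lit 0) (XT.nd (nat_lit 78) (nat_lit 0) (nat_lit 0) (XT.lf (nat_lit 76) (nat_lit 1075487719) (nat_lit 0) (nat_lit 7146459199) (nat_lit 760) (nat_lit 3516639437) (nat_lit 120) (nat_lit 5) (nat_lit 119) (nat_lit 5) (nat_lit 129) (nat_lit 5) (nat_lit 324) (nat_lit 318) (nat_lit 258)) (XT.nd (nat_lit 78) (nat_lit 0) (nat_lit 76) (XT.lf (nat_lit 76) (nat_lit 7278373928) (nat_lit 0) (nat_lit 2212814658) (nat_lit 760) (nat_lit 2531350627) (nat_lit 120) (nat_lit 5) (nat_lit 119) (nat_lit 5) (nat_lit 129) (nat_lit 5) (nat_lit 325) (nat_lit 318) (nat_lit 257)) (XT.lf (nat_lit 76) (nat_lit 1446098392) (nat_lit 0) (nat_lit 9415466473)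 (nat_lit 760) (nat_lit 1457269948) (nat_lit 121) (nat_lit 5) (nat_lit 120) (nat_lit 5) (nat_lit 130) (nat_lit 5) (nat_lit 326) (nat_lit 318) (nat_lit 256)))) (XT.nd (nat_lit 156) (nat_lit 760) (nat_lit 0) (XT.nd (nat_lit 78) (nat_lit 684) (nat_lit 0) (XT.lf (nat_lit 76) (nat_lit 8048933810) (nat_lit 0) (nat_lit 4337435175) (nat_lit 760) (nat_lit 239308116) (nat_lit 121) (nat_lit 5) (nat_lit 120) (nat_lit 5) (nat_lit 130) (nat_lit 5) (nat_lit 327) (nat_lit 318) (nat_lit 255)) (XT.lf (nat_lit 0) (nat_lit 1025651532) (nat_lit 760) (nat_lit 10903595601) (nat_lit 76) (nat_lit 1016859077) (nat_lit 111) (nat_lit 5) (nat_lit 121) (nat_lit 5) (nat_lit 112) (nat_lit 5) (nat_lit 328) (nat_lit 318) (nat_lit 254))) (XT.nd (nat_lit 78) (nat_lit 760) (nat_lit 0) (XT.lf (nat_lit 0) (nat_lit 2467607015) (nat_lit 760) (nat_lit 4228486540) (nat_lit 76) (nat_lit 6580201190) (nat_lit 111) (nat_lit 5) (nat_lit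 121) (nat_lit 5) (nat_lit 112) (nat_lit 5) (nat_lit 329) (nat_lit 318) (nat_lit 253)) (XT.lf (nat_lit 0) (nat_lit 2847587697) (nat_lit 760) (nat_lit 1151773943) (nat_lit 836) (nat_lit 9622768507) (nat_lit 101) (nat_lit 5) (nat_lit 111) (nat_lit 5) (nat_lit 112) (nat_lit 5) (nat_lit 330) (nat_lit 318) (nat_lit 252))))))))
noncomputable def xc148 : XT := (XT.nd (nat_lit 1872) (nat_lit 2052) (nat_lit 0) (XT.nd (nat_lit 936) (nat_lit 1824) (nat_lit 0) (XT.nd (nat_lit 468) (nat_lit 836) (nat_lit 0) (XT.nd (nat_lit 234) (nat_lit 760) (nat_lit 0) (XT.nd (nat_lit 78) (nat_lit 380) (nat_lit 0) (XT.lf (nat_lit 0) (nat_lit 5727582599) (nat_lit 836) (nat_lit 3656384487) (nat_lit 76) (nat_lit 4595317739) (nat_lit 101) (nat_lit 5) (nat_lit 112) (nat_lit 5) (nat_lit 102) (nat_lit 5) (nat_lit 331) (nat_lit 318) (nat_lit 251)) (XT.nd (nat_lit 78) (nat_lit 0) (nat_lit 0) (XT.lf (nat_lit 0) (nat_lit 3899911972)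 (nat_lit 380) (nat_lit 3697487119) (nat_lit 456) (nat_lit 6754159339) (nat_lit 96) (nat_lit 5) (nat_lit 101) (nat_lit 5) (nat_lit 102) (nat_lit 5) (nat_lit 332) (nat_lit 318) (nat_lit 250)) (XT.lf (nat_lit 0) (nat_lit 9635365015) (nat_lit 456) (nat_lit 2839435330) (nat_lit 76) (nat_lit 2263931883) (nat_lit 96) (nat_lit 5) (nat_lit 102) (nat_lit 5) (nat_lit 97) (nat_lit 5) (nat_lit 333) (nat_lit 318) (nat_lit 249)))) (XT.nd (nat_lit 78) (nat_lit 456) (nat_lit 0) (XT.lf (nat_lit 0) (nat_lit 5237015249) (nat_lit 304) (nat_lit 6657953006) (nat_lit 380) (nat_lit 3244328028) (nat_lit 92) (nat_lit 5) (nat_lit 96) (nat_lit 5) (nat_lit 97) (nat_lit 5) (nat_lit 334) (nat_lit 318) (nat_lit 248)) (XT.nd (nat_lit 78) (nat_lit 456) (nat_lit 0) (XT.lf (nat_lit 0) (nat_lit 13792870380) (nat_lit 304) (nat_lit 500847534) (nat_lit 380) (nat_lit 1264879950) (nat_lit 92) (nat_lit 5) (nat_lit 96) (nat_lit 5)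 (nat_lit 97) (nat_lit 5) (nat_lit 335) (nat_lit 318) (nat_lit 247)) (XT.lf (nat_lit 0) (nat_lit 970099718) (nat_lit 456) (nat_lit 9123691498) (nat_lit 76) (nat_lit 5895324343) (nat_lit 86) (nat_lit 5) (nat_lit 92) (nat_lit 5) (nat_lit 87) (nat_lit 5) (nat_lit 336) (nat_lit 318) (nat_lit 246))))) (XT.nd (nat_lit 234) (nat_lit 228) (nat_lit 0) (XT.nd (nat_lit 78) (nat_lit 608) (nat_lit 0) (XT.lf (nat_lit 0) (nat_lit 3292326267) (nat_lit 456) (nat_lit 502937813) (nat_lit 76) (nat_lit 12643973198) (nat_lit 86) (nat_lit 5) (nat_lit 92) (nat_lit 5) (nat_lit 87) (nat_lit 5) (nat_lit 337) (nat_lit 318) (nat_lit 245)) (XT.nd (nat_lit 78) (nat_lit 304) (nat_lit 0) (XT.lf (nat_lit 0) (nat_lit 5894788738) (nat_lit 380) (nat_lit 8143578616) (nat_lit 76) (nat_lit 2865306010) (nat_lit 82) (nat_lit 5) (nat_lit 87) (nat_lit 5) (nat_lit 83) (nat_lit 5) (nat_lit 338) (nat_lit 318) (nat_lit 244)) (XT.lf (nat_lit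 0) (nat_lit 1061731003) (nat_lit 304) (nat_lit 7634027466) (nat_lit 380) (nat_lit 8692167397) (nat_lit 78) (nat_lit 5) (nat_lit 82) (nat_lit 5) (nat_lit 83) (nat_lit 5) (nat_lit 339) (nat_lit 318) (nat_lit 243)))) (XT.nd (nat_lit 78) (nat_lit 228) (nat_lit 0) (XT.lf (nat_lit 0) (nat_lit 10987670984) (nat_lit 304) (nat_lit 768512943) (nat_lit 380) (nat_lit 6134249864) (nat_lit 78) (nat_lit 5) (nat_lit 82) (nat_lit 5) (nat_lit 83) (nat_lit 5) (nat_lit 340) (nat_lit 318) (nat_lit 242)) (XT.nd (nat_lit 78) (nat_lit 0) (nat_lit 0) (XT.lf (nat_lit 0) (nat_lit 2964023833) (nat_lit 228) (nat_lit 12134750158) (nat_lit 304) (nat_lit 3312848489) (nat_lit 75) (nat_lit 5) (nat_lit 78) (nat_lit 5) (nat_lit 79) (nat_lit 5) (nat_lit 341) (nat_lit 318) (nat_lit 241)) (XT.lf (nat_lit 0) (nat_lit 13529006487) (nat_lit 228) (nat_lit 5191602017) (nat_lit 304) (nat_lit 232668287) (nat_lit 75) (nat_lit 5) (nat_lit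 78) (nat_lit 5) (nat_lit 79) (nat_lit 5) (nat_lit 342) (nat_lit 318) (nat_lit 240)))))) (XT.nd (nat_lit 468) (nat_lit 684) (nat_lit 0) (XT.nd (nat_lit 234) (nat_lit 532) (nat_lit 0) (XT.nd (nat_lit 78) (nat_lit 228) (nat_lit 0) (XT.lf (nat_lit 0) (nat_lit 3004765357) (nat_lit 380) (nat_lit 14352803952) (nat_lit 76) (nat_lit 2157146637) (nat_lit 70) (nat_lit 5) (nat_lit 75) (nat_lit 5) (nat_lit 71) (nat_lit 5) (nat_lit 343) (nat_lit 318) (nat_lit 239)) (XT.nd (nat_lit 78) (nat_lit 228) (nat_lit 0) (XT.lf (nat_lit 0) (nat_lit 6558475910) (nat_lit 380) (nat_lit 3746042199) (nat_lit 76) (nat_lit 9791417328) (nat_lit 70) (nat_lit 5) (nat_lit 75) (nat_lit 5) (nat_lit 71) (nat_lit 5) (nat_lit 344) (nat_lit 318) (nat_lit 238)) (XT.lf (nat_lit 0) (nat_lit 7614087722) (nat_lit 228) (nat_lit 2779183029) (nat_lit 304) (nat_lit 10307785035) (nat_lit 67) (nat_lit 5) (nat_lit 70) (nat_lit 5) (nat_lit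 71) (nat_lit 5) (nat_lit 345) (nat_lit 318) (nat_lit 237)))) (XT.nd (nat_lit 78) (nat_lit 532) (nat_lit 0) (XT.lf (nat_lit 0) (nat_lit 14549120427) (nat_lit 304) (nat_lit 1763012005) (nat_lit 76) (nat_lit 5017843318) (nat_lit 67) (nat_lit 5) (nat_lit 71) (nat_lit 5) (nat_lit 68) (nat_lit 5) (nat_lit 346) (nat_lit 318) (nat_lit 236)) (XT.nd (nat_lit 78) (nat_lit 304) (nat_lit 0) (XT.lf (nat_lit 0) (nat_lit 10394248200) (nat_lit 228) (nat_lit 8711937847) (nat_lit 304) (nat_lit 2874493401) (nat_lit 64) (nat_lit 5) (nat_lit 67) (nat_lit 5) (nat_lit 68) (nat_lit 5) (nat_lit 347) (nat_lit 318) (nat_lit 235)) (XT.lf (nat_lit 0) (nat_lit 535471346) (nat_lit 228) (nat_lit 676865360) (nat_lit 304) (nat_lit 21449410325) (nat_lit 60) (nat_lit 5) (nat_lit 63) (nat_lit 5) (nat_lit 64) (nat_lit 5) (nat_lit 348) (nat_lit 318) (nat_lit 234))))) (XT.nd (nat_lit 234) (nat_lit 456) (nat_lit 0) (XT.nd (nat_lit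 78) (nat_lit 228) (nat_lit 0) (XT.lf (nat_lit 0) (nat_lit 5713497812) (nat_lit 304) (nat_lit 9893284098) (nat_lit 76) (nat_lit 7752408070) (nat_lit 60) (nat_lit 5) (nat_lit 64) (nat_lit 5) (nat_lit 61) (nat_lit 5) (nat_lit 349) (nat_lit 318) (nat_lit 233)) (XT.nd (nat_lit 78) (nat_lit 0) (nat_lit 0) (XT.lf (nat_lit 0) (nat_lit 3017352498) (nat_lit 228) (nat_lit 7467234731) (nat_lit 304) (nat_lit 13604681664) (nat_lit 57) (nat_lit 5) (nat_lit 60) (nat_lit 5) (nat_lit 61) (nat_lit 5) (nat_lit 350) (nat_lit 318) (nat_lit 232)) (XT.lf (nat_lit 0) (nat_lit 15668280292) (nat_lit 304) (nat_lit 7969807330) (nat_lit 76) (nat_lit 1209068648) (nat_lit 57) (nat_lit 5) (nat_lit 61) (nat_lit 5) (nat_lit 58) (nat_lit 5) (nat_lit 351) (nat_lit 318) (nat_lit 231)))) (XT.nd (nat_lit 78) (nat_lit 304) (nat_lit 0) (XT.lf (nat_lit 0) (nat_lit 5832893035) (nat_lit 152) (nat_lit 15479274276) (nat_lit 228) (nat_lit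 4320726888) (nat_lit 55) (nat_lit 5) (nat_lit 57) (nat_lit 5) (nat_lit 58) (nat_lit 5) (nat_lit 352) (nat_lit 318) (nat_lit 230)) (XT.nd (nat_lit 78) (nat_lit 228) (nat_lit 0) (XT.lf (nat_lit 0) (nat_lit 880166958) (nat_lit 228) (nat_lit 5882045597) (nat_lit 76) (nat_lit 19688862704) (nat_lit 54) (nat_lit 5) (nat_lit 57) (nat_lit 5) (nat_lit 55) (nat_lit 5) (nat_lit 353) (nat_lit 318) (nat_lit 229)) (XT.lf (nat_lit 0) (nat_lit 6364195185) (nat_lit 304) (nat_lit 18412173035) (nat_lit 76) (nat_lit 2521846594) (nat_lit 51) (nat_lit 5) (nat_lit 55) (nat_lit 5) (nat_lit 52) (nat_lit 5) (nat_lit 354) (nat_lit 318) (nat_lit 228))))))) (XT.nd (nat_lit 936) (nat_lit 988) (nat_lit 0) (XT.nd (nat_lit 468) (nat_lit 532) (nat_lit 0) (XT.nd (nat_lit 234) (nat_lit 380) (nat_lit 0) (XT.nd (nat_lit 78) (nat_lit 152) (nat_lit 0) (XT.lf (nat_lit 0) (nat_lit 12322933371) (nat_lit 304) (nat_lit 3716669224)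 (nat_lit 76) (nat_lit 12138088792) (nat_lit 51) (nat_lit 5) (nat_lit 55) (nat_lit 5) (nat_lit 52) (nat_lit 5) (nat_lit 355) (nat_lit 318) (nat_lit 227)) (XT.nd (nat_lit 78) (nat_lit 0) (nat_lit 0) (XT.lf (nat_lit 0) (nat_lit 12083013548) (nat_lit 152) (nat_lit 6674201079) (nat_lit 228) (nat_lit 10335052061) (nat_lit 49) (nat_lit 5) (nat_lit 51) (nat_lit 5) (nat_lit 52) (nat_lit 5) (nat_lit 356) (nat_lit 318) (nat_lit 226)) (XT.lf (nat_lit 0) (nat_lit 25615631940) (nat_lit 228) (nat_lit 1315563783) (nat_lit 76) (nat_lit 3116258892) (nat_lit 49) (nat_lit 5) (nat_lit 52) (nat_lit 5) (nat_lit 50) (nat_lit 5) (nat_lit 357) (nat_lit 318) (nat_lit 225)))) (XT.nd (nat_lit 78) (nat_lit 152) (nat_lit 0) (XT.lf (nat_lit 0) (nat_lit 2057199667) (nat_lit 228) (nat_lit 15532591026) (nat_lit 76) (nat_lit 13441878056) (nat_lit 46) (nat_lit 5) (nat_lit 49) (nat_lit 5) (nat_lit 47) (nat_lit 5) (nat_lit 358)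 (nat_lit 318) (nat_lit 224)) (XT.nd (nat_lit 78) (nat_lit 0) (nat_lit 0) (XT.lf (nat_lit 0) (nat_lit 1080987515) (nat_lit 152) (nat_lit 7669973230) (nat_lit 228) (nat_lit 23309043189) (nat_lit 44) (nat_lit 5) (nat_lit 46) (nat_lit 5) (nat_lit 47) (nat_lit 5) (nat_lit 359) (nat_lit 318) (nat_lit 223)) (XT.lf (nat_lit 0) (nat_lit 16079481251) (nat_lit 228) (nat_lit 14126159461) (nat_lit 76) (nat_lit 2919115680) (nat_lit 44) (nat_lit 5) (nat_lit 47) (nat_lit 5) (nat_lit 45) (nat_lit 5) (nat_lit 360) (nat_lit 318) (nat_lit 222))))) (XT.nd (nat_lit 234) (nat_lit 152) (nat_lit 0) (XT.nd (nat_lit 78) (nat_lit 228) (nat_lit 0) (XT.lf (nat_lit 0) (nat_lit 3540861186) (nat_lit 152) (nat_lit 20404907503) (nat_lit 228) (nat_lit 10288414626) (nat_lit 42) (nat_lit 5) (nat_lit 44) (nat_lit 5) (nat_lit 45) (nat_lit 5) (nat_lit 361) (nat_lit 318) (nat_lit 221)) (XT.nd (nat_lit 78) (nat_lit 228) (nat_lit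 0) (XT.lf (nat_lit 0) (nat_lit 22565848881) (nat_lit 152) (nat_lit 9869289873) (nat_lit 228) (nat_lit 2952458116) (nat_lit 42) (nat_lit 5) (nat_lit 44) (nat_lit 5) (nat_lit 45) (nat_lit 5) (nat_lit 362) (nat_lit 318) (nat_lit 220)) (XT.lf (nat_lit 0) (nat_lit 4704803448) (nat_lit 228) (nat_lit 30564579090) (nat_lit 76) (nat_lit 1320266333) (nat_lit 39) (nat_lit 5) (nat_lit 42) (nat_lit 5) (nat_lit 40) (nat_lit 5) (nat_lit 363) (nat_lit 318) (nat_lit 219)))) (XT.nd (nat_lit 78) (nat_lit 152) (nat_lit 0) (XT.lf (nat_lit 0) (nat_lit 13019138795) (nat_lit 228) (nat_lit 11810801414) (nat_lit 76) (nat_lit 13000774780) (nat_lit 39) (nat_lit 5) (nat_lit 42) (nat_lit 5) (nat_lit 40) (nat_lit 5) (nat_lit 364) (nat_lit 318) (nat_lit 218)) (XT.nd (nat_lit 78) (nat_lit 0) (nat_lit 0) (XT.lf (nat_lit 0) (nat_lit 8126011752) (nat_lit 152) (nat_lit 13741419258) (nat_lit 228) (nat_lit 17260494442) (nat_lit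 37) (nat_lit 5) (nat_lit 39) (nat_lit 5) (nat_lit 40) (nat_lit 5) (nat_lit 365) (nat_lit 318) (nat_lit 217)) (XT.lf (nat_lit 0) (nat_lit 29455211101) (nat_lit 152) (nat_lit 1894503228) (nat_lit 228) (nat_lit 9130706184) (nat_lit 37) (nat_lit 5) (nat_lit 39) (nat_lit 5) (nat_lit 40) (nat_lit 5) (nat_lit 366) (nat_lit 318) (nat_lit 216)))))) (XT.nd (nat_lit 468) (nat_lit 532) (nat_lit 0) (XT.nd (nat_lit 234) (nat_lit 152) (nat_lit 0) (XT.nd (nat_lit 78) (nat_lit 228) (nat_lit 0) (XT.lf (nat_lit 0) (nat_lit 10094665897) (nat_lit 76) (nat_lit 31525552168) (nat_lit 152) (nat_lit 264619712) (nat_lit 36) (nat_lit 5) (nat_lit 37) (nat_lit 5) (nat_lit 38) (nat_lit 4) (nat_lit 367) (nat_lit 318) (nat_lit 215)) (XT.nd (nat_lit 78) (nat_lit 152) (nat_lit 0) (XT.lf (nat_lit 0) (nat_lit 8968021795) (nat_lit 152) (nat_lit 10886332987) (nat_lit 76) (nat_lit 23487425923) (nat_lit 35) (nat_lit 5) (nat_lit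 37) (nat_lit 5) (nat_lit 36) (nat_lit 5) (nat_lit 368) (nat_lit 318) (nat_lit 214)) (XT.lf (nat_lit 0) (nat_lit 11410061917) (nat_lit 152) (nat_lit 7413773307) (nat_lit 228) (nat_lit 26038999399) (nat_lit 33) (nat_lit 5) (nat_lit 35) (nat_lit 5) (nat_lit 36) (nat_lit 5) (nat_lit 369) (nat_lit 318) (nat_lit 213)))) (XT.nd (nat_lit 78) (nat_lit 152) (nat_lit 0) (XT.lf (nat_lit 0) (nat_lit 29440381526) (nat_lit 228) (nat_lit 11356278044) (nat_lit 76) (nat_lit 5649886829) (nat_lit 33) (nat_lit 5) (nat_lit 36) (nat_lit 5) (nat_lit 34) (nat_lit 4) (nat_lit 370) (nat_lit 318) (nat_lit 212)) (XT.nd (nat_lit 78) (nat_lit 76) (nat_lit 0) (XT.lf (nat_lit 0) (nat_lit 12097790870) (nat_lit 76) (nat_lit 28793106076) (nat_lit 152) (nat_lit 7203391892) (nat_lit 32) (nat_lit 5) (nat_lit 33) (nat_lit 5) (nat_lit 34) (nat_lit 4) (nat_lit 371) (nat_lit 318) (nat_lit 211)) (XT.lf (nat_lit 0) (nat_lit 3178866035)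 (nat_lit 152) (nat_lit 12760314839) (nat_lit 76) (nat_lit 33873416173) (nat_lit 31) (nat_lit 5) (nat_lit 33) (nat_lit 5) (nat_lit 32) (nat_lit 5) (nat_lit 372) (nat_lit 318) (nat_lit 210))))) (XT.nd (nat_lit 234) (nat_lit 304) (nat_lit 0) (XT.nd (nat_lit 78) (nat_lit 76) (nat_lit 0) (XT.lf (nat_lit 0) (nat_lit 11887736296) (nat_lit 152) (nat_lit 2129118628) (nat_lit 228) (nat_lit 37585128230) (nat_lit 29) (nat_lit 5) (nat_lit 31) (nat_lit 5) (nat_lit 32) (nat_lit 5) (nat_lit 373) (nat_lit 318) (nat_lit 209)) (XT.nd (nat_lit 78) (nat_lit 76) (nat_lit 0) (XT.lf (nat_lit 0) (nat_lit 25802694650) (nat_lit 228) (nat_lit 15467921394) (nat_lit 76) (nat_lit 12189926732) (nat_lit 29) (nat_lit 5) (nat_lit 32) (nat_lit 5) (nat_lit 30) (nat_lit 4) (nat_lit 374) (nat_lit 318) (nat_lit 208)) (XT.lf (nat_lit 0) (nat_lit 10272809259) (nat_lit 76) (nat_lit 28093787719) (nat_lit 152) (nat_lit 17035996566)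 (nat_lit 28) (nat_lit 5) (nat_lit 29) (nat_lit 5) (nat_lit 30) (nat_lit 4) (nat_lit 375) (nat_lit 318) (nat_lit 207)))) (XT.nd (nat_lit 156) (nat_lit 76) (nat_lit 0) (XT.nd (nat_lit 78) (nat_lit 228) (nat_lit 0) (XT.lf (nat_lit 0) (nat_lit 37825976547) (nat_lit 76) (nat_lit 13988283508) (nat_lit 152) (nat_lit 5614710129) (nat_lit 28) (nat_lit 5) (nat_lit 29) (nat_lit 5) (nat_lit 30) (nat_lit 4) (nat_lit 376) (nat_lit 318) (nat_lit 206)) (XT.lf (nat_lit 0) (nat_lit 6297940838) (nat_lit 228) (nat_lit 52238846146) (nat_lit 76) (nat_lit 1008680267) (nat_lit 25) (nat_lit 5) (nat_lit 28) (nat_lit 5) (nat_lit 26) (nat_lit 4) (nat_lit 377) (nat_lit 318) (nat_lit 205))) (XT.nd (nat_lit 78) (nat_lit 76) (nat_lit 0) (XT.lf (nat_lit 0) (nat_lit 19178133261) (nat_lit 228) (nat_lit 25847013622) (nat_lit 76) (nat_lit 16710011464) (nat_lit 25) (nat_lit 5) (nat_lit 28) (nat_lit 5) (nat_lit 26) (nat_lit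 4) (nat_lit 378) (nat_lit 318) (nat_lit 204)) (XT.lf (nat_lit 0) (nat_lit 1914929694) (nat_lit 76) (nat_lit 30811450918) (nat_lit 152) (nat_lit 31306752447) (nat_lit 24) (nat_lit 5) (nat_lit 25) (nat_lit 5) (nat_lit 26) (nat_lit 4) (nat_lit 379) (nat_lit 318) (nat_lit 203))))))))
noncomputable def xc149 : XT := (XT.nd (nat_lit 1950) (nat_lit 456) (nat_lit 0) (XT.nd (nat_lit 936) (nat_lit 532) (nat_lit 0) (XT.nd (nat_lit 468) (nat_lit 228) (nat_lit 0) (XT.nd (nat_lit 234) (nat_lit 76) (nat_lit 0) (XT.nd (nat_lit 78) (nat_lit 152) (nat_lit 0) (XT.lf (nat_lit 0) (nat_lit 31951723299) (nat_lit 76) (nat_lit 15432309829) (nat_lit 152) (nat_lit 19040375005) (nat_lit 24) (nat_lit 5) (nat_lit 25) (nat_lit 5) (nat_lit 26) (nat_lit 4) (nat_lit 380) (nat_lit 318) (nat_lit 202)) (XT.nd (nat_lit 78) (nat_lit 152) (nat_lit 0) (XT.lf (nat_lit 0) (nat_lit 62780205892) (nat_lit 152) (nat_lit 5466360303)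 (nat_lit 0) (nat_lit 688400089) (nat_lit 24) (nat_lit 5) (nat_lit 26) (nat_lit 4) (nat_lit 24) (nat_lit 4) (nat_lit 381) (nat_lit 318) (nat_lit 201)) (XT.lf (nat_lit 0) (nat_lit 7796227555) (nat_lit 152) (nat_lit 46119381924) (nat_lit 76) (nat_lit 17616829483) (nat_lit 22) (nat_lit 5) (nat_lit 24) (nat_lit 5) (nat_lit 23) (nat_lit 4) (nat_lit 382) (nat_lit 318) (nat_lit 200)))) (XT.nd (nat_lit 78) (nat_lit 76) (nat_lit 0) (XT.lf (nat_lit 0) (nat_lit 22326758223) (nat_lit 152) (nat_lit 16341167969) (nat_lit 76) (nat_lit 35582373554) (nat_lit 22) (nat_lit 5) (nat_lit 24) (nat_lit 5) (nat_lit 23) (nat_lit 4) (nat_lit 383) (nat_lit 318) (nat_lit 199)) (XT.nd (nat_lit 78) (nat_lit 0) (nat_lit 0) (XT.lf (nat_lit 0) (nat_lit 15409813560) (nat_lit 76) (nat_lit 22409583233) (nat_lit 152) (nat_lit 39272878700) (nat_lit 21) (nat_lit 5) (nat_lit 22) (nat_lit 5) (nat_lit 23) (nat_lit 4) (nat_lit 384)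 (nat_lit 318) (nat_lit 198)) (XT.lf (nat_lit 0) (nat_lit 49306470088) (nat_lit 76) (nat_lit 5052028629) (nat_lit 152) (nat_lit 25704260682) (nat_lit 21) (nat_lit 5) (nat_lit 22) (nat_lit 5) (nat_lit 23) (nat_lit 4) (nat_lit 385) (nat_lit 318) (nat_lit 197))))) (XT.nd (nat_lit 234) (nat_lit 76) (nat_lit 0) (XT.nd (nat_lit 78) (nat_lit 76) (nat_lit 0) (XT.lf (nat_lit 0) (nat_lit 1551231838) (nat_lit 76) (nat_lit 70398472808) (nat_lit 76) (nat_lit 11220806309) (nat_lit 20) (nat_lit 4) (nat_lit 21) (nat_lit 5) (nat_lit 21) (nat_lit 4) (nat_lit 386) (nat_lit 318) (nat_lit 196)) (XT.nd (nat_lit 78) (nat_lit 0) (nat_lit 0) (XT.lf (nat_lit 0) (nat_lit 4466716878) (nat_lit 152) (nat_lit 50028241606) (nat_lit 76) (nat_lit 31905205186) (nat_lit 19) (nat_lit 5) (nat_lit 21) (nat_lit 5) (nat_lit 20) (nat_lit 4) (nat_lit 387) (nat_lit 318) (nat_lit 195)) (XT.lf (nat_lit 0) (nat_lit 20557016488) (nat_lit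 152) (nat_lit 17050122365) (nat_lit 76) (nat_lit 52175188914) (nat_lit 19) (nat_lit 5) (nat_lit 21) (nat_lit 5) (nat_lit 20) (nat_lit 4) (nat_lit 388) (nat_lit 318) (nat_lit 194)))) (XT.nd (nat_lit 78) (nat_lit 0) (nat_lit 0) (XT.lf (nat_lit 0) (nat_lit 18149689581) (nat_lit 76) (nat_lit 19581216571) (nat_lit 152) (nat_lit 55588740904) (nat_lit 18) (nat_lit 5) (nat_lit 19) (nat_lit 5) (nat_lit 20) (nat_lit 4) (nat_lit 389) (nat_lit 318) (nat_lit 193)) (XT.nd (nat_lit 78) (nat_lit 0) (nat_lit 0) (XT.lf (nat_lit 0) (nat_lit 55693448119) (nat_lit 76) (nat_lit 354581532) (nat_lit 152) (nat_lit 40971576395) (nat_lit 18) (nat_lit 5) (nat_lit 19) (nat_lit 5) (nat_lit 20) (nat_lit 4) (nat_lit 390) (nat_lit 318) (nat_lit 192)) (XT.lf (nat_lit 0) (nat_lit 75586595834) (nat_lit 152) (nat_lit 6107573784) (nat_lit 0) (nat_lit 19195114713) (nat_lit 18) (nat_lit 5) (nat_lit 20) (nat_lit 4) (nat_lit 18)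 (nat_lit 4) (nat_lit 391) (nat_lit 318) (nat_lit 191)))))) (XT.nd (nat_lit 468) (nat_lit 304) (nat_lit 0) (XT.nd (nat_lit 234) (nat_lit 0) (nat_lit 0) (XT.nd (nat_lit 78) (nat_lit 152) (nat_lit 0) (XT.lf (nat_lit 0) (nat_lit 31879074654) (nat_lit 76) (nat_lit 64722675684) (nat_lit 76) (nat_lit 8325713830) (nat_lit 17) (nat_lit 4) (nat_lit 18) (nat_lit 5) (nat_lit 18) (nat_lit 4) (nat_lit 392) (nat_lit 318) (nat_lit 190)) (XT.nd (nat_lit 78) (nat_lit 76) (nat_lit 0) (XT.lf (nat_lit 0) (nat_lit 9297310781) (nat_lit 152) (nat_lit 37342694499) (nat_lit 76) (nat_lit 62515068929) (nat_lit 16) (nat_lit 5) (nat_lit 18) (nat_lit 5) (nat_lit 17) (nat_lit 4) (nat_lit 393) (nat_lit 318) (nat_lit 189)) (XT.lf (nat_lit 0) (nat_lit 4916528) (nat_lit 76) (nat_lit 27513166065) (nat_lit 152) (nat_lit 86069338627) (nat_lit 15) (nat_lit 5) (nat_lit 16) (nat_lit 5) (nat_lit 17) (nat_lit 4) (nat_lit 394) (nat_lit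 318) (nat_lit 188)))) (XT.nd (nat_lit 78) (nat_lit 0) (nat_lit 0) (XT.lf (nat_lit 0) (nat_lit 40509436683) (nat_lit 76) (nat_lit 6769257919) (nat_lit 152) (nat_lit 70931251425) (nat_lit 15) (nat_lit 5) (nat_lit 16) (nat_lit 5) (nat_lit 17) (nat_lit 4) (nat_lit 395) (nat_lit 318) (nat_lit 187)) (XT.nd (nat_lit 78) (nat_lit 0) (nat_lit 0) (XT.lf (nat_lit 0) (nat_lit 68258222117) (nat_lit 152) (nat_lit 40265510301) (nat_lit 0) (nat_lit 14528320912) (nat_lit 15) (nat_lit 5) (nat_lit 17) (nat_lit 4) (nat_lit 15) (nat_lit 4) (nat_lit 396) (nat_lit 318) (nat_lit 186)) (XT.lf (nat_lit 0) (nat_lit 90394371663) (nat_lit 152) (nat_lit 1076131880) (nat_lit 0) (nat_lit 36660380649) (nat_lit 15) (nat_lit 5) (nat_lit 17) (nat_lit 4) (nat_lit 15) (nat_lit 4) (nat_lit 397) (nat_lit 318) (nat_lit 185))))) (XT.nd (nat_lit 234) (nat_lit 152) (nat_lit 0) (XT.nd (nat_lit 78) (nat_lit 76) (nat_lit 0) (XT.lf (nat_lit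 0) (nat_lit 41391404485) (nat_lit 76) (nat_lit 72888992607) (nat_lit 76) (nat_lit 19151106539) (nat_lit 14) (nat_lit 4) (nat_lit 15) (nat_lit 5) (nat_lit 15) (nat_lit 4) (nat_lit 398) (nat_lit 318) (nat_lit 184)) (XT.nd (nat_lit 78) (nat_lit 0) (nat_lit 0) (XT.lf (nat_lit 0) (nat_lit 367295222) (nat_lit 152) (nat_lit 52988640438) (nat_lit 76) (nat_lit 85640166878) (nat_lit 13) (nat_lit 5) (nat_lit 15) (nat_lit 5) (nat_lit 14) (nat_lit 4) (nat_lit 399) (nat_lit 318) (nat_lit 183)) (XT.lf (nat_lit 0) (nat_lit 20215003256) (nat_lit 152) (nat_lit 12304371899) (nat_lit 76) (nat_lit 112304009553) (nat_lit 13) (nat_lit 5) (nat_lit 15) (nat_lit 5) (nat_lit 14) (nat_lit 4) (nat_lit 400) (nat_lit 318) (nat_lit 182)))) (XT.nd (nat_lit 156) (nat_lit 76) (nat_lit 0) (XT.nd (nat_lit 78) (nat_lit 0) (nat_lit 0) (XT.lf (nat_lit 0) (nat_lit 31414021080) (nat_lit 76) (nat_lit 10128668846) (nat_lit 152) (nat_lit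 109374961771) (nat_lit 12) (nat_lit 5) (nat_lit 13) (nat_lit 5) (nat_lit 14) (nat_lit 4) (nat_lit 401) (nat_lit 318) (nat_lit 181)) (XT.lf (nat_lit 0) (nat_lit 64354624190) (nat_lit 152) (nat_lit 79778583936) (nat_lit 0) (nat_lit 13162531102) (nat_lit 12) (nat_lit 5) (nat_lit 14) (nat_lit 4) (nat_lit 12) (nat_lit 4) (nat_lit 402) (nat_lit 318) (nat_lit 180))) (XT.nd (nat_lit 78) (nat_lit 76) (nat_lit 0) (XT.lf (nat_lit 0) (nat_lit 88470477814) (nat_lit 152) (nat_lit 38238609353) (nat_lit 0) (nat_lit 37275478177) (nat_lit 12) (nat_lit 5) (nat_lit 14) (nat_lit 4) (nat_lit 12) (nat_lit 4) (nat_lit 403) (nat_lit 318) (nat_lit 179)) (XT.lf (nat_lit 0) (nat_lit 5551001452) (nat_lit 76) (nat_lit 108325197829) (nat_lit 76) (nat_lit 57127430048) (nat_lit 11) (nat_lit 4) (nat_lit 12) (nat_lit 5) (nat_lit 12) (nat_lit 4) (nat_lit 404) (nat_lit 318) (nat_lit 178))))))) (XT.nd (nat_lit 936) (nat_lit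 228) (nat_lit 0) (XT.nd (nat_lit 468) (nat_lit 76) (nat_lit 0) (XT.nd (nat_lit 234) (nat_lit 76) (nat_lit 0) (XT.nd (nat_lit 78) (nat_lit 76) (nat_lit 0) (XT.lf (nat_lit 0) (nat_lit 52852702867) (nat_lit 76) (nat_lit 88344547932) (nat_lit 76) (nat_lit 37144143824) (nat_lit 11) (nat_lit 4) (nat_lit 12) (nat_lit 5) (nat_lit 12) (nat_lit 4) (nat_lit 405) (nat_lit 318) (nat_lit 177)) (XT.nd (nat_lit 78) (nat_lit 76) (nat_lit 0) (XT.lf (nat_lit 0) (nat_lit 102514776874) (nat_lit 76) (nat_lit 67367153851) (nat_lit 76) (nat_lit 16164238956) (nat_lit 11) (nat_lit 4) (nat_lit 12) (nat_lit 5) (nat_lit 12) (nat_lit 4) (nat_lit 406) (nat_lit 318) (nat_lit 176)) (XT.lf (nat_lit 0) (nat_lit 5674608523) (nat_lit 152) (nat_lit 39572358647) (nat_lit 76) (nat_lit 148884755742) (nat_lit 10) (nat_lit 5) (nat_lit 12) (nat_lit 5) (nat_lit 11) (nat_lit 4) (nat_lit 407) (nat_lit 318) (nat_lit 175)))) (XT.nd (nat_lit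 78) (nat_lit 0) (nat_lit 0) (XT.lf (nat_lit 0) (nat_lit 6524103231) (nat_lit 76) (nat_lit 21637695163) (nat_lit 152) (nat_lit 174441525064) (nat_lit 9) (nat_lit 5) (nat_lit 10) (nat_lit 5) (nat_lit 11) (nat_lit 4) (nat_lit 408) (nat_lit 318) (nat_lit 174)) (XT.nd (nat_lit 78) (nat_lit 0) (nat_lit 0) (XT.lf (nat_lit 0) (nat_lit 52501495518) (nat_lit 152) (nat_lit 155230298603) (nat_lit 0) (nat_lit 3730302764) (nat_lit 9) (nat_lit 5) (nat_lit 11) (nat_lit 4) (nat_lit 9) (nat_lit 4) (nat_lit 409) (nat_lit 318) (nat_lit 173)) (XT.lf (nat_lit 0) (nat_lit 78410771927) (nat_lit 152) (nat_lit 112697795658) (nat_lit 0) (nat_lit 29637611905) (nat_lit 9) (nat_lit 5) (nat_lit 11) (nat_lit 4) (nat_lit 9) (nat_lit 4) (nat_lit 410) (nat_lit 318) (nat_lit 172))))) (XT.nd (nat_lit 234) (nat_lit 0) (nat_lit 0) (XT.nd (nat_lit 78) (nat_lit 76) (nat_lit 0) (XT.lf (nat_lit 0) (nat_lit 105613491315) (nat_lit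 152) (nat_lit 68042618467) (nat_lit 0) (nat_lit 56838457705) (nat_lit 9) (nat_lit 5) (nat_lit 11) (nat_lit 4) (nat_lit 9) (nat_lit 4) (nat_lit 411) (nat_lit 318) (nat_lit 171)) (XT.nd (nat_lit 78) (nat_lit 76) (nat_lit 0) (XT.lf (nat_lit 0) (nat_lit 134174422061) (nat_lit 152) (nat_lit 21158445180) (nat_lit 0) (nat_lit 85397604081) (nat_lit 9) (nat_lit 5) (nat_lit 11) (nat_lit 4) (nat_lit 9) (nat_lit 4) (nat_lit 412) (nat_lit 318) (nat_lit 170)) (XT.lf (nat_lit 0) (nat_lit 28994353575) (nat_lit 76) (nat_lit 135619895922) (nat_lit 76) (nat_lit 86841378543) (nat_lit 8) (nat_lit 4) (nat_lit 9) (nat_lit 5) (nat_lit 9) (nat_lit 4) (nat_lit 413) (nat_lit 318) (nat_lit 169)))) (XT.nd (nat_lit 78) (nat_lit 0) (nat_lit 0) (XT.lf (nat_lit 0) (nat_lit 82385839923) (nat_lit 76) (nat_lit 114546756162) (nat_lit 76) (nat_lit 65766620307) (nat_lit 8) (nat_lit 4) (nat_lit 9) (nat_lit 5) (nat_lit 9) (nat_lit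 4) (nat_lit 414) (nat_lit 318) (nat_lit 168)) (XT.nd (nat_lit 78) (nat_lit 0) (nat_lit 0) (XT.lf (nat_lit 0) (nat_lit 138443542698) (nat_lit 76) (nat_lit 92421602327) (nat_lit 76) (nat_lit 43639925066) (nat_lit 8) (nat_lit 4) (nat_lit 9) (nat_lit 5) (nat_lit 9) (nat_lit 4) (nat_lit 415) (nat_lit 318) (nat_lit 167)) (XT.lf (nat_lit 0) (nat_lit 197300932623) (nat_lit 76) (nat_lit 69191755478) (nat_lit 76) (nat_lit 20408610212) (nat_lit 8) (nat_lit 4) (nat_lit 9) (nat_lit 5) (nat_lit 9) (nat_lit 4) (nat_lit 416) (nat_lit 318) (nat_lit 166)))))) (XT.nd (nat_lit 468) (nat_lit 76) (nat_lit 0) (XT.nd (nat_lit 234) (nat_lit 0) (nat_lit 0) (XT.nd (nat_lit 78) (nat_lit 76) (nat_lit 0) (XT.lf (nat_lit 0) (nat_lit 3855167656) (nat_lit 152) (nat_lit 40881449670) (nat_lit 76) (nat_lit 255177689552) (nat_lit 7) (nat_lit 5) (nat_lit 9) (nat_lit 5) (nat_lit 8) (nat_lit 4) (nat_lit 417) (nat_lit 318) (nat_lit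 165)) (XT.nd (nat_lit 78) (nat_lit 0) (nat_lit 0) (XT.lf (nat_lit 0) (nat_lit 10264419691) (nat_lit 76) (nat_lit 18540602055) (nat_lit 152) (nat_lit 284748278381) (nat_lit 6) (nat_lit 5) (nat_lit 7) (nat_lit 5) (nat_lit 8) (nat_lit 4) (nat_lit 418) (nat_lit 318) (nat_lit 164)) (XT.lf (nat_lit 0) (nat_lit 55844536004) (nat_lit 152) (nat_lit 262607008522) (nat_lit 0) (nat_lit 9380590281) (nat_lit 6) (nat_lit 5) (nat_lit 8) (nat_lit 4) (nat_lit 6) (nat_lit 4) (nat_lit 419) (nat_lit 318) (nat_lit 163)))) (XT.nd (nat_lit 78) (nat_lit 0) (nat_lit 0) (XT.lf (nat_lit 0) (nat_lit 84538540042) (nat_lit 152) (nat_lit 220197801511) (nat_lit 0) (nat_lit 38073444099) (nat_lit 6) (nat_lit 5) (nat_lit 8) (nat_lit 4) (nat_lit 6) (nat_lit 4) (nat_lit 420) (nat_lit 318) (nat_lit 162)) (XT.nd (nat_lit 78) (nat_lit 0) (nat_lit 0) (XT.lf (nat_lit 0) (nat_lit 114665882161) (nat_lit 152) (nat_lit 175670814341)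 (nat_lit 0) (nat_lit 68199690770) (nat_lit 6) (nat_lit 5) (nat_lit 8) (nat_lit 4) (nat_lit 6) (nat_lit 4) (nat_lit 421) (nat_lit 318) (nat_lit 161)) (XT.lf (nat_lit 0) (nat_lit 146298294128) (nat_lit 152) (nat_lit 128920030377) (nat_lit 0) (nat_lit 99831059453) (nat_lit 6) (nat_lit 5) (nat_lit 8) (nat_lit 4) (nat_lit 6) (nat_lit 4) (nat_lit 422) (nat_lit 318) (nat_lit 160))))) (XT.nd (nat_lit 234) (nat_lit 0) (nat_lit 0) (XT.nd (nat_lit 78) (nat_lit 76) (nat_lit 0) (XT.lf (nat_lit 0) (nat_lit 179511091210) (nat_lit 152) (nat_lit 79834138229) (nat_lit 0) (nat_lit 133042862930) (nat_lit 6) (nat_lit 5) (nat_lit 8) (nat_lit 4) (nat_lit 6) (nat_lit 4) (nat_lit 423) (nat_lit 318) (nat_lit 159)) (XT.nd (nat_lit 78) (nat_lit 76) (nat_lit 0) (XT.lf (nat_lit 0) (nat_lit 214383351494) (nat_lit 152) (nat_lit 28296266724) (nat_lit 0) (nat_lit 167914176925) (nat_lit 6) (nat_lit 5) (nat_lit 8) (nat_lit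 4) (nat_lit 6) (nat_lit 4) (nat_lit 424) (nat_lit 318) (nat_lit 158)) (XT.lf (nat_lit 0) (nat_lit 26669896602) (nat_lit 76) (nat_lit 224744599397) (nat_lit 76) (nat_lit 178274523600) (nat_lit 5) (nat_lit 4) (nat_lit 6) (nat_lit 5) (nat_lit 6) (nat_lit 4) (nat_lit 425) (nat_lit 318) (nat_lit 157)))) (XT.nd (nat_lit 156) (nat_lit 0) (nat_lit 0) (XT.nd (nat_lit 78) (nat_lit 0) (nat_lit 0) (XT.lf (nat_lit 0) (nat_lit 85364581145) (nat_lit 76) (nat_lit 205410726426) (nat_lit 76) (nat_lit 158939792317) (nat_lit 5) (nat_lit 4) (nat_lit 6) (nat_lit 5) (nat_lit 6) (nat_lit 4) (nat_lit 426) (nat_lit 318) (nat_lit 156)) (XT.lf (nat_lit 0) (nat_lit 146991933785) (nat_lit 76) (nat_lit 185111177243) (nat_lit 76) (nat_lit 138639425693) (nat_lit 5) (nat_lit 4) (nat_lit 6) (nat_lit 5) (nat_lit 6) (nat_lit 4) (nat_lit 427) (nat_lit 318) (nat_lit 155))) (XT.nd (nat_lit 78) (nat_lit 0) (nat_lit 0) (XT.lf (nat_lit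 0) (nat_lit 211698686314) (nat_lit 76) (nat_lit 163797619587) (nat_lit 76) (nat_lit 117325089523) (nat_lit 5) (nat_lit 4) (nat_lit 6) (nat_lit 5) (nat_lit 6) (nat_lit 4) (nat_lit 428) (nat_lit 318) (nat_lit 154)) (XT.lf (nat_lit 0) (nat_lit 279638902429) (nat_lit 76) (nat_lit 141419306893) (nat_lit 76) (nat_lit 94946035386) (nat_lit 5) (nat_lit 4) (nat_lit 6) (nat_lit 5) (nat_lit 6) (nat_lit 4) (nat_lit 429) (nat_lit 318) (nat_lit 153))))))))
noncomputable def xc150 : XT := (XT.nd (nat_lit 39546) (nat_lit 0) (nat_lit 3116) (XT.nd (nat_lit 38610) (nat_lit 0) (nat_lit 6764) (XT.nd (nat_lit 468) (nat_lit 0) (nat_lit 0) (XT.nd (nat_lit 234) (nat_lit 152) (nat_lit 0) (XT.nd (nat_lit 78) (nat_lit 0) (nat_lit 0) (XT.lf (nat_lit 0) (nat_lit 350974344549) (nat_lit 76) (nat_lit 117922957463) (nat_lit 76) (nat_lit 71448979821) (nat_lit 5) (nat_lit 4) (nat_lit 6) (nat_lit 5) (nat_lit 6) (nat_lit 4)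 (nat_lit 430) (nat_lit 318) (nat_lit 152)) (XT.nd (nat_lit 78) (nat_lit 0) (nat_lit 0) (XT.lf (nat_lit 0) (nat_lit 425874858964) (nat_lit 76) (nat_lit 93252627610) (nat_lit 76) (nat_lit 46777977458) (nat_lit 5) (nat_lit 4) (nat_lit 6) (nat_lit 5) (nat_lit 6) (nat_lit 4) (nat_lit 431) (nat_lit 318) (nat_lit 151)) (XT.lf (nat_lit 0) (nat_lit 504518780234) (nat_lit 76) (nat_lit 67349578452) (nat_lit 76) (nat_lit 20874287814) (nat_lit 5) (nat_lit 4) (nat_lit 6) (nat_lit 5) (nat_lit 6) (nat_lit 4) (nat_lit 432) (nat_lit 318) (nat_lit 150)))) (XT.nd (nat_lit 78) (nat_lit 76) (nat_lit 0) (XT.lf (nat_lit 0) (nat_lit 6121364603) (nat_lit 152) (nat_lit 33927103188) (nat_lit 76) (nat_lit 580868322914) (nat_lit 4) (nat_lit 5) (nat_lit 6) (nat_lit 5) (nat_lit 5) (nat_lit 4) (nat_lit 433) (nat_lit 318) (nat_lit 149)) (XT.nd (nat_lit 78) (nat_lit 0) (nat_lit 0) (XT.lf (nat_lit 0) (nat_lit 23492716783)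 (nat_lit 76) (nat_lit 10638599483) (nat_lit 152) (nat_lit 616332914367) (nat_lit 3) (nat_lit 5) (nat_lit 4) (nat_lit 5) (nat_lit 5) (nat_lit 4) (nat_lit 434) (nat_lit 318) (nat_lit 148)) (XT.lf (nat_lit 0) (nat_lit 64441031515) (nat_lit 152) (nat_lit 596825858995) (nat_lit 0) (nat_lit 20177188810) (nat_lit 3) (nat_lit 5) (nat_lit 5) (nat_lit 4) (nat_lit 3) (nat_lit 4) (nat_lit 435) (nat_lit 318) (nat_lit 147))))) (XT.nd (nat_lit 37908) (nat_lit 0) (nat_lit 8664) (XT.nd (nat_lit 37752) (nat_lit 0) (nat_lit 8664) (XT.lf (nat_lit 0) (nat_lit 96439916029) (nat_lit 152) (nat_lit 565348748809) (nat_lit 0) (nat_lit 52175571487) (nat_lit 3) (nat_lit 5) (nat_lit 5) (nat_lit 4) (nat_lit 3) (nat_lit 4) (nat_lit 436) (nat_lit 318) (nat_lit 146)) (XT.nd (nat_lit 78) (nat_lit 0) (nat_lit 0) (XT.lf (nat_lit 0) (nat_lit 1001721643) (nat_lit 0) (nat_lit 1001721643) (nat_lit 684) (nat_lit 3348925809) (nat_lit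 117) (nat_lit 5) (nat_lit 117) (nat_lit 3) (nat_lit 126) (nat_lit 3) (nat_lit 319) (nat_lit 319) (nat_lit 262)) (XT.lf (nat_lit 0) (nat_lit 4738079219) (nat_lit 684) (nat_lit 3612978318) (nat_lit 760) (nat_lit 2589202596) (nat_lit 117) (nat_lit 5) (nat_lit 126) (nat_lit 3) (nat_lit 127) (nat_lit 5) (nat_lit 320) (nat_lit 319) (nat_lit 261)))) (XT.nd (nat_lit 78) (nat_lit 0) (nat_lit 76) (XT.lf (nat_lit 76) (nat_lit 1731246108) (nat_lit 0) (nat_lit 3797032835) (nat_lit 760) (nat_lit 5658191774) (nat_lit 118) (nat_lit 5) (nat_lit 117) (nat_lit 5) (nat_lit 127) (nat_lit 5) (nat_lit 321) (nat_lit 319) (nat_lit 260)) (XT.nd (nat_lit 78) (nat_lit 0) (nat_lit 0) (XT.lf (nat_lit 0) (nat_lit 6399823832) (nat_lit 684) (nat_lit 4012997980) (nat_lit 760) (nat_lit 1030111515) (nat_lit 118) (nat_lit 5) (nat_lit 127) (nat_lit 5) (nat_lit 128) (nat_lit 5) (nat_lit 322) (nat_lit 319) (nat_lit 259)) (XT.lf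 (nat_lit 76) (nat_lit 1670852359) (nat_lit 0) (nat_lit 5698398875) (nat_lit 760) (nat_lit 4340284242) (nat_lit 119) (nat_lit 5) (nat_lit 118) (nat_lit 5) (nat_lit 128) (nat_lit 5) (nat_lit 323) (nat_lit 319) (nat_lit 258)))))) (XT.nd (nat_lit 468) (nat_lit 1368) (nat_lit 0) (XT.nd (nat_lit 234) (nat_lit 608) (nat_lit 0) (XT.nd (nat_lit 78) (nat_lit 0) (nat_lit 76) (XT.lf (nat_lit 76) (nat_lit 7756848856) (nat_lit 0) (nat_lit 665522104) (nat_lit 760) (nat_lit 3565365887) (nat_lit 119) (nat_lit 5) (nat_lit 118) (nat_lit 5) (nat_lit 128) (nat_lit 5) (nat_lit 324) (nat_lit 319) (nat_lit 257)) (XT.nd (nat_lit 78) (nat_lit 0) (nat_lit 0) (XT.lf (nat_lit 76) (nat_lit 1831699226) (nat_lit 0) (nat_lit 7766148011) (nat_lit 760) (nat_lit 2678544750) (nat_lit 120) (nat_lit 5) (nat_lit 119) (nat_lit 5) (nat_lit 129) (nat_lit 5) (nat_lit 325) (nat_lit 319) (nat_lit 256)) (XT.lf (nat_lit 76) (nat_lit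 8311280358) (nat_lit 0) (nat_lit 2573327630) (nat_lit 760) (nat_lit 1692273721) (nat_lit 120) (nat_lit 5) (nat_lit 119) (nat_lit 5) (nat_lit 129) (nat_lit 5) (nat_lit 326) (nat_lit 319) (nat_lit 255)))) (XT.nd (nat_lit 78) (nat_lit 760) (nat_lit 0) (XT.lf (nat_lit 76) (nat_lit 2226469079) (nat_lit 0) (nat_lit 10060618222) (nat_lit 760) (nat_lit 602765647) (nat_lit 121) (nat_lit 5) (nat_lit 120) (nat_lit 5) (nat_lit 130) (nat_lit 5) (nat_lit 327) (nat_lit 319) (nat_lit 254)) (XT.nd (nat_lit 78) (nat_lit 0) (nat_lit 76) (XT.lf (nat_lit 0) (nat_lit 611708073) (nat_lit 760) (nat_lit 4098313979) (nat_lit 836) (nat_lit 8503661205) (nat_lit 110) (nat_lit 5) (nat_lit 120) (nat_lit 5) (nat_lit 121) (nat_lit 5) (nat_lit 328) (nat_lit 319) (nat_lit 253)) (XT.lf (nat_lit 0) (nat_lit 1899889019) (nat_lit 760) (nat_lit 10712755350) (nat_lit 76) (nat_lit 938927130) (nat_lit 111) (nat_lit 5) (nat_lit 121)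 (nat_lit 5) (nat_lit 112) (nat_lit 5) (nat_lit 329) (nat_lit 319) (nat_lit 252))))) (XT.nd (nat_lit 234) (nat_lit 684) (nat_lit 0) (XT.nd (nat_lit 78) (nat_lit 760) (nat_lit 0) (XT.lf (nat_lit 0) (nat_lit 3374753947) (nat_lit 760) (nat_lit 3738939409) (nat_lit 76) (nat_lit 6786568486) (nat_lit 111) (nat_lit 5) (nat_lit 121) (nat_lit 5) (nat_lit 112) (nat_lit 5) (nat_lit 330) (nat_lit 319) (nat_lit 251)) (XT.nd (nat_lit 78) (nat_lit 0) (nat_lit 0) (XT.lf (nat_lit 0) (nat_lit 3679632549) (nat_lit 760) (nat_lit 1276909148) (nat_lit 836) (nat_lit 9308206445) (nat_lit 101) (nat_lit 5) (nat_lit 111) (nat_lit 5) (nat_lit 112) (nat_lit 5) (nat_lit 331) (nat_lit 319) (nat_lit 250)) (XT.lf (nat_lit 0) (nat_lit 6734111619) (nat_lit 836) (nat_lit 3144719360) (nat_lit 76) (nat_lit 4762812581) (nat_lit 101) (nat_lit 5) (nat_lit 112) (nat_lit 5) (nat_lit 102) (nat_lit 5) (nat_lit 332) (nat_lit 319) (nat_lit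 249)))) (XT.nd (nat_lit 78) (nat_lit 304) (nat_lit 0) (XT.lf (nat_lit 0) (nat_lit 4778190563) (nat_lit 380) (nat_lit 3895603484) (nat_lit 456) (nat_lit 6359946519) (nat_lit 96) (nat_lit 5) (nat_lit 101) (nat_lit 5) (nat_lit 102) (nat_lit 5) (nat_lit 333) (nat_lit 319) (nat_lit 248)) (XT.nd (nat_lit 78) (nat_lit 304) (nat_lit 0) (XT.lf (nat_lit 0) (nat_lit 10780293509) (nat_lit 456) (nat_lit 2296754217) (nat_lit 76) (nat_lit 2364920685) (nat_lit 96) (nat_lit 5) (nat_lit 102) (nat_lit 5) (nat_lit 97) (nat_lit 5) (nat_lit 334) (nat_lit 319) (nat_lit 247)) (XT.lf (nat_lit 0) (nat_lit 6172476102) (nat_lit 304) (nat_lit 6959338691) (nat_lit 380) (nat_lit 2731824811) (nat_lit 92) (nat_lit 5) (nat_lit 96) (nat_lit 5) (nat_lit 97) (nat_lit 5) (nat_lit 335) (nat_lit 319) (nat_lit 246))))))) (XT.nd (nat_lit 936) (nat_lit 1748) (nat_lit 0) (XT.nd (nat_lit 468) (nat_lit 836) (nat_lit 0) (XT.nd (nat_lit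 234) (nat_lit 304) (nat_lit 0) (XT.nd (nat_lit 78) (nat_lit 760) (nat_lit 0) (XT.lf (nat_lit 0) (nat_lit 15124047319) (nat_lit 304) (nat_lit 495878514) (nat_lit 380) (nat_lit 685533835) (nat_lit 92) (nat_lit 5) (nat_lit 96) (nat_lit 5) (nat_lit 97) (nat_lit 5) (nat_lit 336) (nat_lit 319) (nat_lit 245)) (XT.nd (nat_lit 78) (nat_lit 304) (nat_lit 0) (XT.lf (nat_lit 0) (nat_lit 1621955211) (nat_lit 456) (nat_lit 8898188241) (nat_lit 76) (nat_lit 6237814113) (nat_lit 86) (nat_lit 5) (nat_lit 92) (nat_lit 5) (nat_lit 87) (nat_lit 5) (nat_lit 337) (nat_lit 319) (nat_lit 244)) (XT.lf (nat_lit 0) (nat_lit 125147296) (nat_lit 304) (nat_lit 3908368714) (nat_lit 380) (nat_lit 13198429464) (nat_lit 82) (nat_lit 5) (nat_lit 86) (nat_lit 5) (nat_lit 87) (nat_lit 5) (nat_lit 338) (nat_lit 319) (nat_lit 243)))) (XT.nd (nat_lit 78) (nat_lit 304) (nat_lit 0) (XT.lf (nat_lit 0) (nat_lit 6748030472) (nat_lit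 380) (nat_lit 7885009049) (nat_lit 76) (nat_lit 3087487639) (nat_lit 82) (nat_lit 5) (nat_lit 87) (nat_lit 5) (nat_lit 83) (nat_lit 5) (nat_lit 339) (nat_lit 319) (nat_lit 242)) (XT.nd (nat_lit 78) (nat_lit 0) (nat_lit 0) (XT.lf (nat_lit 0) (nat_lit 1769828173) (nat_lit 304) (nat_lit 7902851721) (nat_lit 380) (nat_lit 8557150106) (nat_lit 78) (nat_lit 5) (nat_lit 82) (nat_lit 5) (nat_lit 83) (nat_lit 5) (nat_lit 340) (nat_lit 319) (nat_lit 241)) (XT.lf (nat_lit 0) (nat_lit 12160874171) (nat_lit 304) (nat_lit 699436572) (nat_lit 380) (nat_lit 5898461729) (nat_lit 78) (nat_lit 5) (nat_lit 82) (nat_lit 5) (nat_lit 83) (nat_lit 5) (nat_lit 341) (nat_lit 319) (nat_lit 240))))) (XT.nd (nat_lit 234) (nat_lit 228) (nat_lit 0) (XT.nd (nat_lit 78) (nat_lit 380) (nat_lit 0) (XT.lf (nat_lit 0) (nat_lit 3750092422) (nat_lit 228) (nat_lit 12606908716) (nat_lit 304) (nat_lit 2949688397) (nat_lit 75) (nat_lit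 5) (nat_lit 78) (nat_lit 5) (nat_lit 79) (nat_lit 5) (nat_lit 342) (nat_lit 319) (nat_lit 239)) (XT.nd (nat_lit 78) (nat_lit 304) (nat_lit 0) (XT.lf (nat_lit 0) (nat_lit 251019890) (nat_lit 304) (nat_lit 5067740656) (nat_lit 76) (nat_lit 14557678537) (nat_lit 74) (nat_lit 5) (nat_lit 78) (nat_lit 5) (nat_lit 75) (nat_lit 5) (nat_lit 343) (nat_lit 319) (nat_lit 238)) (XT.lf (nat_lit 0) (nat_lit 3631061488) (nat_lit 380) (nat_lit 14434768633) (nat_lit 76) (nat_lit 2400516692) (nat_lit 70) (nat_lit 5) (nat_lit 75) (nat_lit 5) (nat_lit 71) (nat_lit 5) (nat_lit 344) (nat_lit 319) (nat_lit 237)))) (XT.nd (nat_lit 78) (nat_lit 228) (nat_lit 0) (XT.lf (nat_lit 0) (nat_lit 7339788147) (nat_lit 380) (nat_lit 3327939055) (nat_lit 76) (nat_lit 10410047931) (nat_lit 70) (nat_lit 5) (nat_lit 75) (nat_lit 5) (nat_lit 71) (nat_lit 5) (nat_lit 345) (nat_lit 319) (nat_lit 236)) (XT.nd (nat_lit 78) (nat_lit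 0) (nat_lit 0) (XT.lf (nat_lit 0) (nat_lit 8590432762) (nat_lit 228) (nat_lit 2763599662) (nat_lit 304) (nat_lit 10359747289) (nat_lit 67) (nat_lit 5) (nat_lit 70) (nat_lit 5) (nat_lit 71) (nat_lit 5) (nat_lit 346) (nat_lit 319) (nat_lit 235)) (XT.lf (nat_lit 0) (nat_lit 15698967855) (nat_lit 304) (nat_lit 1264918153) (nat_lit 76) (nat_lit 5411208048) (nat_lit 67) (nat_lit 5) (nat_lit 71) (nat_lit 5) (nat_lit 68) (nat_lit 5) (nat_lit 347) (nat_lit 319) (nat_lit 234)))))) (XT.nd (nat_lit 468) (nat_lit 836) (nat_lit 0) (XT.nd (nat_lit 234) (nat_lit 380) (nat_lit 0) (XT.nd (nat_lit 78) (nat_lit 304) (nat_lit 0) (XT.lf (nat_lit 0) (nat_lit 11490749506) (nat_lit 228) (nat_lit 8982028664) (nat_lit 304) (nat_lit 2586122622) (nat_lit 64) (nat_lit 5) (nat_lit 67) (nat_lit 5) (nat_lit 68) (nat_lit 5) (nat_lit 348) (nat_lit 319) (nat_lit 233)) (XT.nd (nat_lit 78) (nat_lit 0) (nat_lit 0) (XT.lf (nat_lit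 0) (nat_lit 1143570293) (nat_lit 228) (nat_lit 536807649) (nat_lit 304) (nat_lit 22093859836) (nat_lit 60) (nat_lit 5) (nat_lit 63) (nat_lit 5) (nat_lit 64) (nat_lit 5) (nat_lit 349) (nat_lit 319) (nat_lit 232)) (XT.lf (nat_lit 0) (nat_lit 6389781733) (nat_lit 304) (nat_lit 9817275062) (nat_lit 76) (nat_lit 8300347580) (nat_lit 60) (nat_lit 5) (nat_lit 64) (nat_lit 5) (nat_lit 61) (nat_lit 5) (nat_lit 350) (nat_lit 319) (nat_lit 231)))) (XT.nd (nat_lit 78) (nat_lit 152) (nat_lit 0) (XT.lf (nat_lit 0) (nat_lit 3729688956) (nat_lit 228) (nat_lit 7659902336) (nat_lit 304) (nat_lit 13884897878) (nat_lit 57) (nat_lit 5) (nat_lit 60) (nat_lit 5) (nat_lit 61) (nat_lit 5) (nat_lit 351) (nat_lit 319) (nat_lit 230)) (XT.nd (nat_lit 78) (nat_lit 152) (nat_lit 0) (XT.lf (nat_lit 0) (nat_lit 16817023682) (nat_lit 304) (nat_lit 7817925451) (nat_lit 76) (nat_lit 1436103786) (nat_lit 57) (nat_lit 5) (nat_lit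 61) (nat_lit 5) (nat_lit 58) (nat_lit 5) (nat_lit 352) (nat_lit 319) (nat_lit 229)) (XT.lf (nat_lit 0) (nat_lit 6666032960) (nat_lit 152) (nat_lit 16068129714) (nat_lit 228) (nat_lit 4162371460) (nat_lit 55) (nat_lit 5) (nat_lit 57) (nat_lit 5) (nat_lit 58) (nat_lit 5) (nat_lit 353) (nat_lit 319) (nat_lit 228))))) (XT.nd (nat_lit 234) (nat_lit 532) (nat_lit 0) (XT.nd (nat_lit 78) (nat_lit 228) (nat_lit 0) (XT.lf (nat_lit 0) (nat_lit 1269326637) (nat_lit 228) (nat_lit 5648857645) (nat_lit 76) (nat_lit 20838018989) (nat_lit 54) (nat_lit 5) (nat_lit 57) (nat_lit 5) (nat_lit 55) (nat_lit 5) (nat_lit 354) (nat_lit 319) (nat_lit 227)) (XT.nd (nat_lit 78) (nat_lit 0) (nat_lit 0) (XT.lf (nat_lit 0) (nat_lit 7022061260) (nat_lit 304) (nat_lit 18799836262) (nat_lit 76) (nat_lit 2824085040) (nat_lit 51) (nat_lit 5) (nat_lit 55) (nat_lit 5) (nat_lit 52) (nat_lit 5) (nat_lit 355) (nat_lit 319) (nat_lit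 226)) (XT.lf (nat_lit 0) (nat_lit 13262562245) (nat_lit 304) (nat_lit 3394935614) (nat_lit 76) (nat_lit 12912751437) (nat_lit 51) (nat_lit 5) (nat_lit 55) (nat_lit 5) (nat_lit 52) (nat_lit 5) (nat_lit 356) (nat_lit 319) (nat_lit 225)))) (XT.nd (nat_lit 156) (nat_lit 380) (nat_lit 0) (XT.nd (nat_lit 78) (nat_lit 0) (nat_lit 0) (XT.lf (nat_lit 0) (nat_lit 13186544730) (nat_lit 152) (nat_lit 6824405648) (nat_lit 228) (nat_lit 10519990608) (nat_lit 49) (nat_lit 5) (nat_lit 51) (nat_lit 5) (nat_lit 52) (nat_lit 5) (nat_lit 357) (nat_lit 319) (nat_lit 224)) (XT.lf (nat_lit 0) (nat_lit 27199975494) (nat_lit 228) (nat_lit 893290061) (nat_lit 76) (nat_lit 3441245326) (nat_lit 49) (nat_lit 5) (nat_lit 52) (nat_lit 5) (nat_lit 50) (nat_lit 5) (nat_lit 358) (nat_lit 319) (nat_lit 223))) (XT.nd (nat_lit 78) (nat_lit 152) (nat_lit 0) (XT.lf (nat_lit 0) (nat_lit 2461653147) (nat_lit 228) (nat_lit 15818942926)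 (nat_lit 76) (nat_lit 14287450935) (nat_lit 46) (nat_lit 5) (nat_lit 49) (nat_lit 5) (nat_lit 47) (nat_lit 5) (nat_lit 359) (nat_lit 319) (nat_lit 222)) (XT.lf (nat_lit 0) (nat_lit 1617406839) (nat_lit 152) (nat_lit 7865864993) (nat_lit 228) (nat_lit 24164874621) (nat_lit 44) (nat_lit 5) (nat_lit 46) (nat_lit 5) (nat_lit 47) (nat_lit 5) (nat_lit 360) (nat_lit 319) (nat_lit 221))))))))
noncomputable def xc151 : XT := (XT.nd (nat_lit 1950) (nat_lit 912) (nat_lit 0) (XT.nd (nat_lit 936) (nat_lit 836) (nat_lit 0) (XT.nd (nat_lit 468) (nat_lit 380) (nat_lit 0) (XT.nd (nat_lit 234) (nat_lit 380) (nat_lit 0) (XT.nd (nat_lit 78) (nat_lit 152) (nat_lit 0) (XT.lf (nat_lit 0) (nat_lit 17166971617) (nat_lit 228) (nat_lit 14361706904) (nat_lit 76) (nat_lit 3238026041) (nat_lit 44) (nat_lit 5) (nat_lit 47) (nat_lit 5) (nat_lit 45) (nat_lit 5) (nat_lit 361) (nat_lit 319) (nat_lit 220)) (XT.nd (nat_lit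 78) (nat_lit 0) (nat_lit 0) (XT.lf (nat_lit 0) (nat_lit 4181071864) (nat_lit 152) (nat_lit 21239232131) (nat_lit 228) (nat_lit 10511617728) (nat_lit 42) (nat_lit 5) (nat_lit 44) (nat_lit 5) (nat_lit 45) (nat_lit 5) (nat_lit 362) (nat_lit 319) (nat_lit 219)) (XT.lf (nat_lit 0) (nat_lit 24135253343) (nat_lit 152) (nat_lit 10185686989) (nat_lit 228) (nat_lit 2822730899) (nat_lit 42) (nat_lit 5) (nat_lit 44) (nat_lit 5) (nat_lit 45) (nat_lit 5) (nat_lit 363) (nat_lit 319) (nat_lit 218)))) (XT.nd (nat_lit 78) (nat_lit 152) (nat_lit 0) (XT.lf (nat_lit 0) (nat_lit 5205459975) (nat_lit 228) (nat_lit 31639570272) (nat_lit 76) (nat_lit 1560736598) (nat_lit 39) (nat_lit 5) (nat_lit 42) (nat_lit 5) (nat_lit 40) (nat_lit 5) (nat_lit 364) (nat_lit 319) (nat_lit 217)) (XT.nd (nat_lit 78) (nat_lit 152) (nat_lit 0) (XT.lf (nat_lit 0) (nat_lit 13922873215) (nat_lit 228) (nat_lit 11969686463) (nat_lit 76)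 (nat_lit 13816962994) (nat_lit 39) (nat_lit 5) (nat_lit 42) (nat_lit 5) (nat_lit 40) (nat_lit 5) (nat_lit 365) (nat_lit 319) (nat_lit 216)) (XT.lf (nat_lit 0) (nat_lit 8957005184) (nat_lit 152) (nat_lit 14251168479) (nat_lit 228) (nat_lit 17863694561) (nat_lit 37) (nat_lit 5) (nat_lit 39) (nat_lit 5) (nat_lit 40) (nat_lit 5) (nat_lit 366) (nat_lit 319) (nat_lit 215))))) (XT.nd (nat_lit 234) (nat_lit 228) (nat_lit 0) (XT.nd (nat_lit 78) (nat_lit 152) (nat_lit 0) (XT.lf (nat_lit 0) (nat_lit 31332441031) (nat_lit 152) (nat_lit 1820350541) (nat_lit 228) (nat_lit 9339789490) (nat_lit 37) (nat_lit 5) (nat_lit 39) (nat_lit 5) (nat_lit 40) (nat_lit 5) (nat_lit 367) (nat_lit 319) (nat_lit 214)) (XT.nd (nat_lit 78) (nat_lit 76) (nat_lit 0) (XT.lf (nat_lit 0) (nat_lit 11006419916) (nat_lit 76) (nat_lit 32928047770) (nat_lit 152) (nat_lit 32872996) (nat_lit 36) (nat_lit 5) (nat_lit 37) (nat_lit 5)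 (nat_lit 38) (nat_lit 4) (nat_lit 368) (nat_lit 319) (nat_lit 213)) (XT.lf (nat_lit 0) (nat_lit 9642267537) (nat_lit 152) (nat_lit 11035473522) (nat_lit 76) (nat_lit 24819766563) (nat_lit 35) (nat_lit 5) (nat_lit 37) (nat_lit 5) (nat_lit 36) (nat_lit 5) (nat_lit 369) (nat_lit 319) (nat_lit 212)))) (XT.nd (nat_lit 78) (nat_lit 76) (nat_lit 0) (XT.lf (nat_lit 0) (nat_lit 12369367319) (nat_lit 152) (nat_lit 7616820105) (nat_lit 228) (nat_lit 27108664351) (nat_lit 33) (nat_lit 5) (nat_lit 35) (nat_lit 5) (nat_lit 36) (nat_lit 5) (nat_lit 370) (nat_lit 319) (nat_lit 211)) (XT.nd (nat_lit 78) (nat_lit 76) (nat_lit 0) (XT.lf (nat_lit 0) (nat_lit 31125522315) (nat_lit 228) (nat_lit 11545701922) (nat_lit 76) (nat_lit 6086930009) (nat_lit 33) (nat_lit 5) (nat_lit 36) (nat_lit 5) (nat_lit 34) (nat_lit 4) (nat_lit 371) (nat_lit 319) (nat_lit 210)) (XT.lf (nat_lit 0) (nat_lit 13074967372) (nat_lit 76)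 (nat_lit 30069259923) (nat_lit 152) (nat_lit 7344276340) (nat_lit 32) (nat_lit 5) (nat_lit 33) (nat_lit 5) (nat_lit 34) (nat_lit 4) (nat_lit 372) (nat_lit 319) (nat_lit 209)))))) (XT.nd (nat_lit 468) (nat_lit 304) (nat_lit 0) (XT.nd (nat_lit 234) (nat_lit 304) (nat_lit 0) (XT.nd (nat_lit 78) (nat_lit 152) (nat_lit 0) (XT.lf (nat_lit 0) (nat_lit 3539968053) (nat_lit 152) (nat_lit 13037032536) (nat_lit 76) (nat_lit 35716063618) (nat_lit 31) (nat_lit 5) (nat_lit 33) (nat_lit 5) (nat_lit 32) (nat_lit 5) (nat_lit 373) (nat_lit 319) (nat_lit 208)) (XT.nd (nat_lit 78) (nat_lit 0) (nat_lit 0) (XT.lf (nat_lit 0) (nat_lit 12837593768) (nat_lit 152) (nat_lit 2078185906) (nat_lit 228) (nat_lit 39256346388) (nat_lit 29) (nat_lit 5) (nat_lit 31) (nat_lit 5) (nat_lit 32) (nat_lit 5) (nat_lit 374) (nat_lit 319) (nat_lit 207)) (XT.lf (nat_lit 0) (nat_lit 27283819175) (nat_lit 228) (nat_lit 15895632103)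 (nat_lit 76) (nat_lit 12944519481) (nat_lit 29) (nat_lit 5) (nat_lit 32) (nat_lit 5) (nat_lit 30) (nat_lit 4) (nat_lit 375) (nat_lit 319) (nat_lit 206)))) (XT.nd (nat_lit 78) (nat_lit 228) (nat_lit 0) (XT.lf (nat_lit 0) (nat_lit 11126559513) (nat_lit 76) (nat_lit 29345572422) (nat_lit 152) (nat_lit 17691183730) (nat_lit 28) (nat_lit 5) (nat_lit 29) (nat_lit 5) (nat_lit 30) (nat_lit 4) (nat_lit 376) (nat_lit 319) (nat_lit 205)) (XT.nd (nat_lit 78) (nat_lit 228) (nat_lit 0) (XT.lf (nat_lit 0) (nat_lit 40041189460) (nat_lit 76) (nat_lit 14542074176) (nat_lit 152) (nat_lit 5708195480) (nat_lit 28) (nat_lit 5) (nat_lit 29) (nat_lit 5) (nat_lit 30) (nat_lit 4) (nat_lit 377) (nat_lit 319) (nat_lit 204)) (XT.lf (nat_lit 0) (nat_lit 6792825992) (nat_lit 228) (nat_lit 54519528561) (nat_lit 76) (nat_lit 1201345796) (nat_lit 25) (nat_lit 5) (nat_lit 28) (nat_lit 5) (nat_lit 26) (nat_lit 4) (nat_lit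 378) (nat_lit 319) (nat_lit 203))))) (XT.nd (nat_lit 234) (nat_lit 228) (nat_lit 0) (XT.nd (nat_lit 78) (nat_lit 76) (nat_lit 0) (XT.lf (nat_lit 0) (nat_lit 20308457173) (nat_lit 228) (nat_lit 26823878691) (nat_lit 76) (nat_lit 17680970623) (nat_lit 25) (nat_lit 5) (nat_lit 28) (nat_lit 5) (nat_lit 26) (nat_lit 4) (nat_lit 379) (nat_lit 319) (nat_lit 202)) (XT.nd (nat_lit 78) (nat_lit 0) (nat_lit 0) (XT.lf (nat_lit 0) (nat_lit 2321073313) (nat_lit 76) (nat_lit 32209727022) (nat_lit 152) (nat_lit 32695547281) (nat_lit 24) (nat_lit 5) (nat_lit 25) (nat_lit 5) (nat_lit 26) (nat_lit 4) (nat_lit 380) (nat_lit 319) (nat_lit 201)) (XT.lf (nat_lit 0) (nat_lit 33844925783) (nat_lit 76) (nat_lit 16068404899) (nat_lit 152) (nat_lit 19824257766) (nat_lit 24) (nat_lit 5) (nat_lit 25) (nat_lit 5) (nat_lit 26) (nat_lit 4) (nat_lit 381) (nat_lit 319) (nat_lit 200)))) (XT.nd (nat_lit 156) (nat_lit 76) (nat_lit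 0) (XT.nd (nat_lit 78) (nat_lit 152) (nat_lit 0) (XT.lf (nat_lit 0) (nat_lit 66073703569) (nat_lit 152) (nat_lit 5452496836) (nat_lit 0) (nat_lit 847756209) (nat_lit 24) (nat_lit 5) (nat_lit 26) (nat_lit 4) (nat_lit 24) (nat_lit 4) (nat_lit 382) (nat_lit 319) (nat_lit 199)) (XT.lf (nat_lit 0) (nat_lit 8340096452) (nat_lit 152) (nat_lit 48137677169) (nat_lit 76) (nat_lit 18623553922) (nat_lit 22) (nat_lit 5) (nat_lit 24) (nat_lit 5) (nat_lit 23) (nat_lit 4) (nat_lit 383) (nat_lit 319) (nat_lit 198))) (XT.nd (nat_lit 78) (nat_lit 76) (nat_lit 0) (XT.lf (nat_lit 0) (nat_lit 23589817582) (nat_lit 152) (nat_lit 16884251272) (nat_lit 76) (nat_lit 37481380770) (nat_lit 22) (nat_lit 5) (nat_lit 24) (nat_lit 5) (nat_lit 23) (nat_lit 4) (nat_lit 384) (nat_lit 319) (nat_lit 197)) (XT.lf (nat_lit 0) (nat_lit 16449860381) (nat_lit 76) (nat_lit 23404449490) (nat_lit 152) (nat_lit 41085354579) (nat_lit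 21) (nat_lit 5) (nat_lit 22) (nat_lit 5) (nat_lit 23) (nat_lit 4) (nat_lit 385) (nat_lit 319) (nat_lit 196))))))) (XT.nd (nat_lit 936) (nat_lit 456) (nat_lit 0) (XT.nd (nat_lit 468) (nat_lit 228) (nat_lit 0) (XT.nd (nat_lit 234) (nat_lit 76) (nat_lit 0) (XT.nd (nat_lit 78) (nat_lit 152) (nat_lit 0) (XT.lf (nat_lit 0) (nat_lit 52028513728) (nat_lit 76) (nat_lit 5184998723) (nat_lit 152) (nat_lit 26845504140) (nat_lit 21) (nat_lit 5) (nat_lit 22) (nat_lit 5) (nat_lit 23) (nat_lit 4) (nat_lit 386) (nat_lit 319) (nat_lit 195)) (XT.nd (nat_lit 78) (nat_lit 76) (nat_lit 0) (XT.lf (nat_lit 0) (nat_lit 1886305062) (nat_lit 76) (nat_lit 73797244894) (nat_lit 76) (nat_lit 11638643459) (nat_lit 20) (nat_lit 4) (nat_lit 21) (nat_lit 5) (nat_lit 21) (nat_lit 4) (nat_lit 387) (nat_lit 319) (nat_lit 194)) (XT.lf (nat_lit 0) (nat_lit 4822071550) (nat_lit 152) (nat_lit 52280016622) (nat_lit 76) (nat_lit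 33611459988) (nat_lit 19) (nat_lit 5) (nat_lit 21) (nat_lit 5) (nat_lit 20) (nat_lit 4) (nat_lit 388) (nat_lit 319) (nat_lit 193)))) (XT.nd (nat_lit 78) (nat_lit 76) (nat_lit 0) (XT.lf (nat_lit 0) (nat_lit 21710599530) (nat_lit 152) (nat_lit 17664878898) (nat_lit 76) (nat_lit 54889657448) (nat_lit 19) (nat_lit 5) (nat_lit 21) (nat_lit 5) (nat_lit 20) (nat_lit 4) (nat_lit 389) (nat_lit 319) (nat_lit 192)) (XT.nd (nat_lit 78) (nat_lit 0) (nat_lit 0) (XT.lf (nat_lit 0) (nat_lit 19291088975) (nat_lit 76) (nat_lit 20449759522) (nat_lit 152) (nat_lit 58238590423) (nat_lit 18) (nat_lit 5) (nat_lit 19) (nat_lit 5) (nat_lit 20) (nat_lit 4) (nat_lit 390) (nat_lit 319) (nat_lit 191)) (XT.lf (nat_lit 0) (nat_lit 58700896634) (nat_lit 76) (nat_lit 267055487) (nat_lit 152) (nat_lit 42896738524) (nat_lit 18) (nat_lit 5) (nat_lit 19) (nat_lit 5) (nat_lit 20) (nat_lit 4) (nat_lit 391) (nat_lit 319) (nat_lit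 190))))) (XT.nd (nat_lit 234) (nat_lit 76) (nat_lit 0) (XT.nd (nat_lit 78) (nat_lit 152) (nat_lit 0) (XT.lf (nat_lit 0) (nat_lit 79479415449) (nat_lit 152) (nat_lit 6196734868) (nat_lit 0) (nat_lit 20251905021) (nat_lit 18) (nat_lit 5) (nat_lit 20) (nat_lit 4) (nat_lit 18) (nat_lit 4) (nat_lit 392) (nat_lit 319) (nat_lit 189)) (XT.nd (nat_lit 78) (nat_lit 76) (nat_lit 0) (XT.lf (nat_lit 0) (nat_lit 33685758611) (nat_lit 76) (nat_lit 67857486105) (nat_lit 76) (nat_lit 8625004490) (nat_lit 17) (nat_lit 4) (nat_lit 18) (nat_lit 5) (nat_lit 18) (nat_lit 4) (nat_lit 393) (nat_lit 319) (nat_lit 188)) (XT.lf (nat_lit 0) (nat_lit 9870033901) (nat_lit 152) (nat_lit 39003646581) (nat_lit 76) (nat_lit 65733738389) (nat_lit 16) (nat_lit 5) (nat_lit 18) (nat_lit 5) (nat_lit 17) (nat_lit 4) (nat_lit 394) (nat_lit 319) (nat_lit 187)))) (XT.nd (nat_lit 78) (nat_lit 0) (nat_lit 0) (XT.lf (nat_lit 0) (nat_lit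 208019470) (nat_lit 76) (nat_lit 28791855925) (nat_lit 152) (nat_lit 90261607052) (nat_lit 15) (nat_lit 5) (nat_lit 16) (nat_lit 5) (nat_lit 17) (nat_lit 4) (nat_lit 395) (nat_lit 319) (nat_lit 186)) (XT.nd (nat_lit 78) (nat_lit 0) (nat_lit 0) (XT.lf (nat_lit 0) (nat_lit 42728105770) (nat_lit 76) (nat_lit 7015369917) (nat_lit 152) (nat_lit 74371910657) (nat_lit 15) (nat_lit 5) (nat_lit 16) (nat_lit 5) (nat_lit 17) (nat_lit 4) (nat_lit 396) (nat_lit 319) (nat_lit 185)) (XT.lf (nat_lit 0) (nat_lit 71768550568) (nat_lit 152) (nat_lit 42091345453) (nat_lit 0) (nat_lit 15339875140) (nat_lit 15) (nat_lit 5) (nat_lit 17) (nat_lit 4) (nat_lit 15) (nat_lit 4) (nat_lit 397) (nat_lit 319) (nat_lit 184)))))) (XT.nd (nat_lit 468) (nat_lit 228) (nat_lit 0) (XT.nd (nat_lit 234) (nat_lit 76) (nat_lit 0) (XT.nd (nat_lit 78) (nat_lit 152) (nat_lit 0) (XT.lf (nat_lit 0) (nat_lit 95006868669) (nat_lit 152)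 (nat_lit 951423843) (nat_lit 0) (nat_lit 38574483665) (nat_lit 15) (nat_lit 5) (nat_lit 17) (nat_lit 4) (nat_lit 15) (nat_lit 4) (nat_lit 398) (nat_lit 319) (nat_lit 183)) (XT.nd (nat_lit 78) (nat_lit 76) (nat_lit 0) (XT.lf (nat_lit 0) (nat_lit 43636610072) (nat_lit 76) (nat_lit 76448909438) (nat_lit 76) (nat_lit 20012991504) (nat_lit 14) (nat_lit 4) (nat_lit 15) (nat_lit 5) (nat_lit 15) (nat_lit 4) (nat_lit 399) (nat_lit 319) (nat_lit 182)) (XT.lf (nat_lit 0) (nat_lit 473858376) (nat_lit 152) (nat_lit 55467872957) (nat_lit 76) (nat_lit 89999754921) (nat_lit 13) (nat_lit 5) (nat_lit 15) (nat_lit 5) (nat_lit 14) (nat_lit 4) (nat_lit 400) (nat_lit 319) (nat_lit 181)))) (XT.nd (nat_lit 78) (nat_lit 76) (nat_lit 0) (XT.lf (nat_lit 0) (nat_lit 21309751888) (nat_lit 152) (nat_lit 12757495729) (nat_lit 76) (nat_lit 117993095458) (nat_lit 13) (nat_lit 5) (nat_lit 15) (nat_lit 5) (nat_lit 14) (nat_lit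 4) (nat_lit 401) (nat_lit 319) (nat_lit 180)) (XT.nd (nat_lit 78) (nat_lit 0) (nat_lit 0) (XT.lf (nat_lit 0) (nat_lit 33144202467) (nat_lit 76) (nat_lit 10558110433) (nat_lit 152) (nat_lit 114757086536) (nat_lit 12) (nat_lit 5) (nat_lit 13) (nat_lit 5) (nat_lit 14) (nat_lit 4) (nat_lit 402) (nat_lit 319) (nat_lit 179)) (XT.lf (nat_lit 0) (nat_lit 67652060672) (nat_lit 152) (nat_lit 83612833970) (nat_lit 0) (nat_lit 13891636358) (nat_lit 12) (nat_lit 5) (nat_lit 14) (nat_lit 4) (nat_lit 12) (nat_lit 4) (nat_lit 403) (nat_lit 319) (nat_lit 178))))) (XT.nd (nat_lit 234) (nat_lit 152) (nat_lit 0) (XT.nd (nat_lit 78) (nat_lit 76) (nat_lit 0) (XT.lf (nat_lit 0) (nat_lit 92969911488) (nat_lit 152) (nat_lit 40003226332) (nat_lit 0) (nat_lit 39206850848) (nat_lit 12) (nat_lit 5) (nat_lit 14) (nat_lit 4) (nat_lit 12) (nat_lit 4) (nat_lit 404) (nat_lit 319) (nat_lit 177)) (XT.nd (nat_lit 78) (nat_lit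 0) (nat_lit 0) (XT.lf (nat_lit 0) (nat_lit 5973488990) (nat_lit 76) (nat_lit 113671078167) (nat_lit 76) (nat_lit 59905506740) (nat_lit 11) (nat_lit 4) (nat_lit 12) (nat_lit 5) (nat_lit 12) (nat_lit 4) (nat_lit 405) (nat_lit 319) (nat_lit 176)) (XT.lf (nat_lit 0) (nat_lit 55633373692) (nat_lit 76) (nat_lit 92694747182) (nat_lit 76) (nat_lit 38926784529) (nat_lit 11) (nat_lit 4) (nat_lit 12) (nat_lit 5) (nat_lit 12) (nat_lit 4) (nat_lit 406) (nat_lit 319) (nat_lit 175)))) (XT.nd (nat_lit 156) (nat_lit 76) (nat_lit 0) (XT.nd (nat_lit 78) (nat_lit 76) (nat_lit 0) (XT.lf (nat_lit 0) (nat_lit 107771978271) (nat_lit 76) (nat_lit 70671675214) (nat_lit 76) (nat_lit 16901435203) (nat_lit 11) (nat_lit 4) (nat_lit 12) (nat_lit 5) (nat_lit 12) (nat_lit 4) (nat_lit 407) (nat_lit 319) (nat_lit 174)) (XT.lf (nat_lit 0) (nat_lit 6023808240) (nat_lit 152) (nat_lit 41423602030) (nat_lit 76) (nat_lit 156387617915)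 (nat_lit 10) (nat_lit 5) (nat_lit 12) (nat_lit 5) (nat_lit 11) (nat_lit 4) (nat_lit 408) (nat_lit 319) (nat_lit 173))) (XT.nd (nat_lit 78) (nat_lit 0) (nat_lit 0) (XT.lf (nat_lit 0) (nat_lit 6975628514) (nat_lit 76) (nat_lit 22658568104) (nat_lit 152) (nat_lit 183096070543) (nat_lit 9) (nat_lit 5) (nat_lit 10) (nat_lit 5) (nat_lit 11) (nat_lit 4) (nat_lit 409) (nat_lit 319) (nat_lit 172)) (XT.lf (nat_lit 0) (nat_lit 55188723503) (nat_lit 152) (nat_lit 162870299223) (nat_lit 0) (nat_lit 3973064624) (nat_lit 9) (nat_lit 5) (nat_lit 11) (nat_lit 4) (nat_lit 9) (nat_lit 4) (nat_lit 410) (nat_lit 319) (nat_lit 171))))))))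
noncomputable def xc152 : XT := (XT.nd (nat_lit 1872) (nat_lit 76) (nat_lit 0) (XT.nd (nat_lit 936) (nat_lit 152) (nat_lit 0) (XT.nd (nat_lit 468) (nat_lit 152) (nat_lit 0) (XT.nd (nat_lit 234) (nat_lit 76) (nat_lit 0) (XT.nd (nat_lit 78) (nat_lit 0) (nat_lit 0) (XT.lf (nat_lit 0) (nat_lit 82390504056) (nat_lit 152) (nat_lit 118216957526) (nat_lit 0) (nat_lit 31173060808) (nat_lit 9) (nat_lit 5) (nat_lit 11) (nat_lit 4) (nat_lit 9) (nat_lit 4) (nat_lit 411) (nat_lit 319) (nat_lit 170)) (XT.nd (nat_lit 78) (nat_lit 0) (nat_lit 0) (XT.lf (nat_lit 0) (nat_lit 110950540673) (nat_lit 152) (nat_lit 71334532329) (nat_lit 0) (nat_lit 59731398025) (nat_lit 9) (nat_lit 5) (nat_lit 11) (nat_lit 4) (nat_lit 9) (nat_lit 4) (nat_lit 412) (nat_lit 319) (nat_lit 169)) (XT.lf (nat_lit 0) (nat_lit 140936833443) (nat_lit 152) (nat_lit 22111398809) (nat_lit 0) (nat_lit 89716072319) (nat_lit 9) (nat_lit 5)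 (nat_lit 11) (nat_lit 4) (nat_lit 9) (nat_lit 4) (nat_lit 413) (nat_lit 319) (nat_lit 168)))) (XT.nd (nat_lit 78) (nat_lit 0) (nat_lit 0) (XT.lf (nat_lit 0) (nat_lit 30547346841) (nat_lit 76) (nat_lit 142350361151) (nat_lit 76) (nat_lit 91128058621) (nat_lit 8) (nat_lit 4) (nat_lit 9) (nat_lit 5) (nat_lit 9) (nat_lit 4) (nat_lit 414) (nat_lit 319) (nat_lit 167)) (XT.nd (nat_lit 78) (nat_lit 0) (nat_lit 0) (XT.lf (nat_lit 0) (nat_lit 86603489621) (nat_lit 76) (nat_lit 120225970573) (nat_lit 76) (nat_lit 69002200038) (nat_lit 8) (nat_lit 4) (nat_lit 9) (nat_lit 5) (nat_lit 9) (nat_lit 4) (nat_lit 415) (nat_lit 319) (nat_lit 166)) (XT.lf (nat_lit 0) (nat_lit 145459393836) (nat_lit 76) (nat_lit 96996850636) (nat_lit 76) (nat_lit 45771682001) (nat_lit 8) (nat_lit 4) (nat_lit 9) (nat_lit 5) (nat_lit 9) (nat_lit 4) (nat_lit 416) (nat_lit 319) (nat_lit 165))))) (XT.nd (nat_lit 234) (nat_lit 0)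 (nat_lit 0) (XT.nd (nat_lit 78) (nat_lit 152) (nat_lit 0) (XT.lf (nat_lit 0) (nat_lit 207255192589) (nat_lit 76) (nat_lit 72607693912) (nat_lit 76) (nat_lit 21381193752) (nat_lit 8) (nat_lit 4) (nat_lit 9) (nat_lit 5) (nat_lit 9) (nat_lit 4) (nat_lit 417) (nat_lit 319) (nat_lit 164)) (XT.nd (nat_lit 78) (nat_lit 76) (nat_lit 0) (XT.lf (nat_lit 0) (nat_lit 4092036104) (nat_lit 152) (nat_lit 42839094263) (nat_lit 76) (nat_lit 267976682020) (nat_lit 7) (nat_lit 5) (nat_lit 9) (nat_lit 5) (nat_lit 8) (nat_lit 4) (nat_lit 418) (nat_lit 319) (nat_lit 163)) (XT.lf (nat_lit 0) (nat_lit 10862674568) (nat_lit 76) (nat_lit 19425935469) (nat_lit 152) (nat_lit 298940184112) (nat_lit 6) (nat_lit 5) (nat_lit 7) (nat_lit 5) (nat_lit 8) (nat_lit 4) (nat_lit 419) (nat_lit 319) (nat_lit 162)))) (XT.nd (nat_lit 78) (nat_lit 0) (nat_lit 0) (XT.lf (nat_lit 0) (nat_lit 58678656333) (nat_lit 152) (nat_lit 275654926687)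 (nat_lit 0) (nat_lit 9888059923) (nat_lit 6) (nat_lit 5) (nat_lit 8) (nat_lit 4) (nat_lit 6) (nat_lit 4) (nat_lit 420) (nat_lit 319) (nat_lit 161)) (XT.nd (nat_lit 78) (nat_lit 0) (nat_lit 0) (XT.lf (nat_lit 0) (nat_lit 88805365643) (nat_lit 152) (nat_lit 231129184670) (nat_lit 0) (nat_lit 40013725950) (nat_lit 6) (nat_lit 5) (nat_lit 8) (nat_lit 4) (nat_lit 6) (nat_lit 4) (nat_lit 421) (nat_lit 319) (nat_lit 160)) (XT.lf (nat_lit 0) (nat_lit 120437174935) (nat_lit 152) (nat_lit 184379586567) (nat_lit 0) (nat_lit 71644541638) (nat_lit 6) (nat_lit 5) (nat_lit 8) (nat_lit 4) (nat_lit 6) (nat_lit 4) (nat_lit 422) (nat_lit 319) (nat_lit 159)))))) (XT.nd (nat_lit 468) (nat_lit 76) (nat_lit 0) (XT.nd (nat_lit 234) (nat_lit 76) (nat_lit 0) (XT.nd (nat_lit 78) (nat_lit 0) (nat_lit 0) (XT.lf (nat_lit 0) (nat_lit 153649398040) (nat_lit 152) (nat_lit 135294823809) (nat_lit 0) (nat_lit 104855818453)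 (nat_lit 6) (nat_lit 5) (nat_lit 8) (nat_lit 4) (nat_lit 6) (nat_lit 4) (nat_lit 423) (nat_lit 319) (nat_lit 158)) (XT.nd (nat_lit 78) (nat_lit 0) (nat_lit 0) (XT.lf (nat_lit 0) (nat_lit 188521111680) (nat_lit 152) (nat_lit 83758027914) (nat_lit 0) (nat_lit 139726630865) (nat_lit 6) (nat_lit 5) (nat_lit 8) (nat_lit 4) (nat_lit 6) (nat_lit 4) (nat_lit 424) (nat_lit 319) (nat_lit 157)) (XT.lf (nat_lit 0) (nat_lit 225135343744) (nat_lit 152) (nat_lit 29646492226) (nat_lit 0) (nat_lit 176340004618) (nat_lit 6) (nat_lit 5) (nat_lit 8) (nat_lit 4) (nat_lit 6) (nat_lit 4) (nat_lit 425) (nat_lit 319) (nat_lit 156)))) (XT.nd (nat_lit 78) (nat_lit 0) (nat_lit 0) (XT.lf (nat_lit 0) (nat_lit 28066937527) (nat_lit 76) (nat_lit 235950537001) (nat_lit 76) (nat_lit 187154380434) (nat_lit 5) (nat_lit 4) (nat_lit 6) (nat_lit 5) (nat_lit 6) (nat_lit 4) (nat_lit 426) (nat_lit 319) (nat_lit 155)) (XT.nd (nat_lit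 78) (nat_lit 0) (nat_lit 0) (XT.lf (nat_lit 0) (nat_lit 89693330293) (nat_lit 76) (nat_lit 215651460494) (nat_lit 76) (nat_lit 166854525412) (nat_lit 5) (nat_lit 4) (nat_lit 6) (nat_lit 5) (nat_lit 6) (nat_lit 4) (nat_lit 427) (nat_lit 319) (nat_lit 154)) (XT.lf (nat_lit 0) (nat_lit 154399168656) (nat_lit 76) (nat_lit 194338353006) (nat_lit 76) (nat_lit 145540676482) (nat_lit 5) (nat_lit 4) (nat_lit 6) (nat_lit 5) (nat_lit 6) (nat_lit 4) (nat_lit 428) (nat_lit 319) (nat_lit 153))))) (XT.nd (nat_lit 234) (nat_lit 76) (nat_lit 0) (XT.nd (nat_lit 78) (nat_lit 0) (nat_lit 0) (XT.lf (nat_lit 0) (nat_lit 222338514136) (nat_lit 76) (nat_lit 171960469044) (nat_lit 76) (nat_lit 123162086384) (nat_lit 5) (nat_lit 4) (nat_lit 6) (nat_lit 5) (nat_lit 6) (nat_lit 4) (nat_lit 429) (nat_lit 319) (nat_lit 152)) (XT.nd (nat_lit 78) (nat_lit 0) (nat_lit 0) (XT.lf (nat_lit 0) (nat_lit 293673127080) (nat_lit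 76) (nat_lit 148464527930) (nat_lit 76) (nat_lit 99665472760) (nat_lit 5) (nat_lit 4) (nat_lit 6) (nat_lit 5) (nat_lit 6) (nat_lit 4) (nat_lit 430) (nat_lit 319) (nat_lit 151)) (XT.lf (nat_lit 0) (nat_lit 368572851804) (nat_lit 76) (nat_lit 123794586949) (nat_lit 76) (nat_lit 74994891293) (nat_lit 5) (nat_lit 4) (nat_lit 6) (nat_lit 5) (nat_lit 6) (nat_lit 4) (nat_lit 431) (nat_lit 319) (nat_lit 150)))) (XT.nd (nat_lit 78) (nat_lit 76) (nat_lit 0) (XT.lf (nat_lit 0) (nat_lit 447216020987) (nat_lit 76) (nat_lit 97891908145) (nat_lit 76) (nat_lit 49091602503) (nat_lit 5) (nat_lit 4) (nat_lit 6) (nat_lit 5) (nat_lit 6) (nat_lit 4) (nat_lit 432) (nat_lit 319) (nat_lit 149)) (XT.nd (nat_lit 78) (nat_lit 76) (nat_lit 0) (XT.lf (nat_lit 0) (nat_lit 529789880269) (nat_lit 76) (nat_lit 70694818474) (nat_lit 76) (nat_lit 21893931892) (nat_lit 5) (nat_lit 4) (nat_lit 6) (nat_lit 5) (nat_lit 6) (nat_lit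 4) (nat_lit 433) (nat_lit 319) (nat_lit 148)) (XT.lf (nat_lit 0) (nat_lit 6449623225) (nat_lit 152) (nat_lit 35579712245) (nat_lit 76) (nat_lit 609932183361) (nat_lit 4) (nat_lit 5) (nat_lit 6) (nat_lit 5) (nat_lit 5) (nat_lit 4) (nat_lit 434) (nat_lit 319) (nat_lit 147))))))) (XT.nd (nat_lit 38688) (nat_lit 0) (nat_lit 5700) (XT.nd (nat_lit 38220) (nat_lit 0) (nat_lit 8132) (XT.nd (nat_lit 37986) (nat_lit 0) (nat_lit 8664) (XT.nd (nat_lit 78) (nat_lit 0) (nat_lit 0) (XT.lf (nat_lit 0) (nat_lit 24710393142) (nat_lit 76) (nat_lit 11149294627) (nat_lit 152) (nat_lit 647126662311) (nat_lit 3) (nat_lit 5) (nat_lit 4) (nat_lit 5) (nat_lit 5) (nat_lit 4) (nat_lit 435) (nat_lit 319) (nat_lit 146)) (XT.nd (nat_lit 37830) (nat_lit 0) (nat_lit 8664) (XT.lf (nat_lit 0) (nat_lit 67684166163) (nat_lit 152) (nat_lit 626625436641) (nat_lit 0) (nat_lit 21205624615) (nat_lit 3) (nat_lit 5) (nat_lit 5) (nat_lit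 4) (nat_lit 3) (nat_lit 4) (nat_lit 436) (nat_lit 319) (nat_lit 145)) (XT.lf (nat_lit 0) (nat_lit 1341837306) (nat_lit 0) (nat_lit 1341837306) (nat_lit 684) (nat_lit 2906773007) (nat_lit 117) (nat_lit 5) (nat_lit 117) (nat_lit 3) (nat_lit 126) (nat_lit 3) (nat_lit 320) (nat_lit 320) (nat_lit 260)))) (XT.nd (nat_lit 78) (nat_lit 0) (nat_lit 0) (XT.lf (nat_lit 0) (nat_lit 6071232679) (nat_lit 684) (nat_lit 3176298307) (nat_lit 760) (nat_lit 2183906873) (nat_lit 117) (nat_lit 5) (nat_lit 126) (nat_lit 3) (nat_lit 127) (nat_lit 5) (nat_lit 321) (nat_lit 320) (nat_lit 259)) (XT.nd (nat_lit 78) (nat_lit 0) (nat_lit 76) (XT.lf (nat_lit 76) (nat_lit 2425180422) (nat_lit 0) (nat_lit 4433042390) (nat_lit 760) (nat_lit 4833920845) (nat_lit 118) (nat_lit 5) (nat_lit 117) (nat_lit 5) (nat_lit 127) (nat_lit 5) (nat_lit 322) (nat_lit 320) (nat_lit 258)) (XT.lf (nat_lit 0) (nat_lit 7716542781) (nat_lit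 684) (nat_lit 3577468468) (nat_lit 760) (nat_lit 670304641) (nat_lit 118) (nat_lit 5) (nat_lit 127) (nat_lit 5) (nat_lit 128) (nat_lit 5) (nat_lit 323) (nat_lit 320) (nat_lit 257))))) (XT.nd (nat_lit 234) (nat_lit 608) (nat_lit 0) (XT.nd (nat_lit 78) (nat_lit 0) (nat_lit 0) (XT.lf (nat_lit 76) (nat_lit 2380313429) (nat_lit 0) (nat_lit 6316437239) (nat_lit 760) (nat_lit 3549426200) (nat_lit 119) (nat_lit 5) (nat_lit 118) (nat_lit 5) (nat_lit 128) (nat_lit 5) (nat_lit 324) (nat_lit 320) (nat_lit 256)) (XT.nd (nat_lit 78) (nat_lit 0) (nat_lit 76) (XT.lf (nat_lit 76) (nat_lit 8740804110) (nat_lit 0) (nat_lit 1016053848) (nat_lit 760) (nat_lit 2783755845) (nat_lit 119) (nat_lit 5) (nat_lit 118) (nat_lit 5) (nat_lit 128) (nat_lit 5) (nat_lit 325) (nat_lit 320) (nat_lit 255)) (XT.lf (nat_lit 76) (nat_lit 2560415362) (nat_lit 0) (nat_lit 8392428973) (nat_lit 760) (nat_lit 1892810619) (nat_lit 120)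 (nat_lit 5) (nat_lit 119) (nat_lit 5) (nat_lit 129) (nat_lit 5) (nat_lit 326) (nat_lit 320) (nat_lit 254)))) (XT.nd (nat_lit 78) (nat_lit 684) (nat_lit 0) (XT.lf (nat_lit 76) (nat_lit 9333635972) (nat_lit 0) (nat_lit 2928635499) (nat_lit 760) (nat_lit 901019437) (nat_lit 120) (nat_lit 5) (nat_lit 119) (nat_lit 5) (nat_lit 129) (nat_lit 5) (nat_lit 327) (nat_lit 320) (nat_lit 253)) (XT.nd (nat_lit 78) (nat_lit 0) (nat_lit 0) (XT.lf (nat_lit 0) (nat_lit 201580828) (nat_lit 760) (nat_lit 10516820809) (nat_lit 836) (nat_lit 2775034360) (nat_lit 110) (nat_lit 5) (nat_lit 120) (nat_lit 5) (nat_lit 121) (nat_lit 5) (nat_lit 328) (nat_lit 320) (nat_lit 252)) (XT.lf (nat_lit 0) (nat_lit 1417748600) (nat_lit 760) (nat_lit 3665276487) (nat_lit 836) (nat_lit 8751910267) (nat_lit 110) (nat_lit 5) (nat_lit 120) (nat_lit 5) (nat_lit 121) (nat_lit 5) (nat_lit 329) (nat_lit 320) (nat_lit 251)))))) (XT.nd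 (nat_lit 468) (nat_lit 1368) (nat_lit 0) (XT.nd (nat_lit 234) (nat_lit 380) (nat_lit 0) (XT.nd (nat_lit 78) (nat_lit 760) (nat_lit 0) (XT.lf (nat_lit 0) (nat_lit 2741327834) (nat_lit 760) (nat_lit 10580801253) (nat_lit 76) (nat_lit 869070855) (nat_lit 111) (nat_lit 5) (nat_lit 121) (nat_lit 5) (nat_lit 112) (nat_lit 5) (nat_lit 330) (nat_lit 320) (nat_lit 250)) (XT.nd (nat_lit 78) (nat_lit 760) (nat_lit 0) (XT.lf (nat_lit 0) (nat_lit 4254391039) (nat_lit 760) (nat_lit 3290084604) (nat_lit 76) (nat_lit 7014656310) (nat_lit 111) (nat_lit 5) (nat_lit 121) (nat_lit 5) (nat_lit 112) (nat_lit 5) (nat_lit 331) (nat_lit 320) (nat_lit 249)) (XT.lf (nat_lit 0) (nat_lit 4489161085) (nat_lit 760) (nat_lit 1402021279) (nat_lit 836) (nat_lit 9051892969) (nat_lit 101) (nat_lit 5) (nat_lit 111) (nat_lit 5) (nat_lit 112) (nat_lit 5) (nat_lit 332) (nat_lit 320) (nat_lit 248)))) (XT.nd (nat_lit 78) (nat_lit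 380) (nat_lit 0) (XT.lf (nat_lit 0) (nat_lit 7724014378) (nat_lit 836) (nat_lit 2672037548) (nat_lit 76) (nat_lit 4944471536) (nat_lit 101) (nat_lit 5) (nat_lit 112) (nat_lit 5) (nat_lit 102) (nat_lit 5) (nat_lit 333) (nat_lit 320) (nat_lit 247)) (XT.nd (nat_lit 78) (nat_lit 0) (nat_lit 0) (XT.lf (nat_lit 0) (nat_lit 5636857906) (nat_lit 380) (nat_lit 4102394550) (nat_lit 456) (nat_lit 6014070115) (nat_lit 96) (nat_lit 5) (nat_lit 101) (nat_lit 5) (nat_lit 102) (nat_lit 5) (nat_lit 334) (nat_lit 320) (nat_lit 246)) (XT.lf (nat_lit 0) (nat_lit 11920814074) (nat_lit 456) (nat_lit 1790591584) (nat_lit 76) (nat_lit 2472093892) (nat_lit 96) (nat_lit 5) (nat_lit 102) (nat_lit 5) (nat_lit 97) (nat_lit 5) (nat_lit 335) (nat_lit 320) (nat_lit 245))))) (XT.nd (nat_lit 234) (nat_lit 608) (nat_lit 0) (XT.nd (nat_lit 78) (nat_lit 456) (nat_lit 0) (XT.lf (nat_lit 0) (nat_lit 7092084116) (nat_lit 304)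 (nat_lit 7278723344) (nat_lit 380) (nat_lit 2256425469) (nat_lit 92) (nat_lit 5) (nat_lit 96) (nat_lit 5) (nat_lit 97) (nat_lit 5) (nat_lit 336) (nat_lit 320) (nat_lit 244)) (XT.nd (nat_lit 78) (nat_lit 456) (nat_lit 0) (XT.lf (nat_lit 0) (nat_lit 16462139408) (nat_lit 304) (nat_lit 493451220) (nat_lit 380) (nat_lit 136962352) (nat_lit 92) (nat_lit 5) (nat_lit 96) (nat_lit 5) (nat_lit 97) (nat_lit 5) (nat_lit 337) (nat_lit 320) (nat_lit 243)) (XT.lf (nat_lit 0) (nat_lit 2250309667) (nat_lit 456) (nat_lit 8724786695) (nat_lit 76) (nat_lit 6592991488) (nat_lit 86) (nat_lit 5) (nat_lit 92) (nat_lit 5) (nat_lit 87) (nat_lit 5) (nat_lit 338) (nat_lit 320) (nat_lit 242)))) (XT.nd (nat_lit 156) (nat_lit 304) (nat_lit 0) (XT.nd (nat_lit 78) (nat_lit 0) (nat_lit 0) (XT.lf (nat_lit 0) (nat_lit 739742862) (nat_lit 304) (nat_lit 4026143666) (nat_lit 380) (nat_lit 13300736000) (nat_lit 82) (nat_lit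 5) (nat_lit 86) (nat_lit 5) (nat_lit 87) (nat_lit 5) (nat_lit 339) (nat_lit 320) (nat_lit 241)) (XT.lf (nat_lit 0) (nat_lit 7592010043) (nat_lit 380) (nat_lit 7675405987) (nat_lit 76) (nat_lit 3313441457) (nat_lit 82) (nat_lit 5) (nat_lit 87) (nat_lit 5) (nat_lit 83) (nat_lit 5) (nat_lit 340) (nat_lit 320) (nat_lit 240))) (XT.nd (nat_lit 78) (nat_lit 0) (nat_lit 0) (XT.lf (nat_lit 0) (nat_lit 2452433523) (nat_lit 304) (nat_lit 8195611432) (nat_lit 380) (nat_lit 8468340346) (nat_lit 78) (nat_lit 5) (nat_lit 82) (nat_lit 5) (nat_lit 83) (nat_lit 5) (nat_lit 341) (nat_lit 320) (nat_lit 239)) (XT.lf (nat_lit 0) (nat_lit 13334740680) (nat_lit 304) (nat_lit 636900901) (nat_lit 380) (nat_lit 5701320752) (nat_lit 78) (nat_lit 5) (nat_lit 82) (nat_lit 5) (nat_lit 83) (nat_lit 5) (nat_lit 342) (nat_lit 320) (nat_lit 238))))))))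
noncomputable def xc153 : XT := (XT.nd (nat_lit 1950) (nat_lit 1444) (nat_lit 0) (XT.nd (nat_lit 936) (nat_lit 1368) (nat_lit 0) (XT.nd (nat_lit 468) (nat_lit 912) (nat_lit 0) (XT.nd (nat_lit 234) (nat_lit 228) (nat_lit 0) (XT.nd (nat_lit 78) (nat_lit 380) (nat_lit 0) (XT.lf (nat_lit 0) (nat_lit 4516161575) (nat_lit 228) (nat_lit 13115187078) (nat_lit 304) (nat_lit 2617533346) (nat_lit 75) (nat_lit 5) (nat_lit 78) (nat_lit 5) (nat_lit 79) (nat_lit 5) (nat_lit 343) (nat_lit 320) (nat_lit 237)) (XT.nd (nat_lit 78) (nat_lit 304) (nat_lit 0) (XT.lf (nat_lit 0) (nat_lit 705749944) (nat_lit 304) (nat_lit 4755205758) (nat_lit 76) (nat_lit 15386908729) (nat_lit 74) (nat_lit 5) (nat_lit 78) (nat_lit 5) (nat_lit 75) (nat_lit 5) (nat_lit 344) (nat_lit 320) (nat_lit 236)) (XT.lf (nat_lit 0) (nat_lit 4244413077) (nat_lit 380) (nat_lit 14579930632) (nat_lit 76) (nat_lit 2643456561) (nat_lit 70) (nat_lit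 5) (nat_lit 75) (nat_lit 5) (nat_lit 71) (nat_lit 5) (nat_lit 345) (nat_lit 320) (nat_lit 235)))) (XT.nd (nat_lit 78) (nat_lit 228) (nat_lit 0) (XT.lf (nat_lit 0) (nat_lit 8118014235) (nat_lit 380) (nat_lit 2945215596) (nat_lit 76) (nat_lit 11047611313) (nat_lit 70) (nat_lit 5) (nat_lit 75) (nat_lit 5) (nat_lit 71) (nat_lit 5) (nat_lit 346) (nat_lit 320) (nat_lit 234)) (XT.nd (nat_lit 78) (nat_lit 0) (nat_lit 0) (XT.lf (nat_lit 0) (nat_lit 9560218031) (nat_lit 228) (nat_lit 2761605025) (nat_lit 304) (nat_lit 10457392704) (nat_lit 67) (nat_lit 5) (nat_lit 70) (nat_lit 5) (nat_lit 71) (nat_lit 5) (nat_lit 347) (nat_lit 320) (nat_lit 233)) (XT.lf (nat_lit 0) (nat_lit 16867037705) (nat_lit 304) (nat_lit 796423061) (nat_lit 76) (nat_lit 5810995266) (nat_lit 67) (nat_lit 5) (nat_lit 71) (nat_lit 5) (nat_lit 68) (nat_lit 5) (nat_lit 348) (nat_lit 320) (nat_lit 232))))) (XT.nd (nat_lit 234) (nat_lit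 380) (nat_lit 0) (XT.nd (nat_lit 78) (nat_lit 304) (nat_lit 0) (XT.lf (nat_lit 0) (nat_lit 12588451514) (nat_lit 228) (nat_lit 9281011208) (nat_lit 304) (nat_lit 2323505443) (nat_lit 64) (nat_lit 5) (nat_lit 67) (nat_lit 5) (nat_lit 68) (nat_lit 5) (nat_lit 349) (nat_lit 320) (nat_lit 231)) (XT.nd (nat_lit 78) (nat_lit 0) (nat_lit 0) (XT.lf (nat_lit 0) (nat_lit 1728028063) (nat_lit 228) (nat_lit 405914717) (nat_lit 304) (nat_lit 22810325158) (nat_lit 60) (nat_lit 5) (nat_lit 63) (nat_lit 5) (nat_lit 64) (nat_lit 5) (nat_lit 350) (nat_lit 320) (nat_lit 230)) (XT.lf (nat_lit 0) (nat_lit 7063564725) (nat_lit 304) (nat_lit 9790521363) (nat_lit 76) (nat_lit 8860779115) (nat_lit 60) (nat_lit 5) (nat_lit 64) (nat_lit 5) (nat_lit 61) (nat_lit 5) (nat_lit 351) (nat_lit 320) (nat_lit 229)))) (XT.nd (nat_lit 78) (nat_lit 152) (nat_lit 0) (XT.lf (nat_lit 0) (nat_lit 4425442188) (nat_lit 228) (nat_lit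 7879002549) (nat_lit 304) (nat_lit 14216314774) (nat_lit 57) (nat_lit 5) (nat_lit 60) (nat_lit 5) (nat_lit 61) (nat_lit 5) (nat_lit 352) (nat_lit 320) (nat_lit 228)) (XT.nd (nat_lit 78) (nat_lit 152) (nat_lit 0) (XT.lf (nat_lit 0) (nat_lit 17989239379) (nat_lit 304) (nat_lit 7709617872) (nat_lit 76) (nat_lit 1659003492) (nat_lit 57) (nat_lit 5) (nat_lit 61) (nat_lit 5) (nat_lit 58) (nat_lit 5) (nat_lit 353) (nat_lit 320) (nat_lit 227)) (XT.lf (nat_lit 0) (nat_lit 7490486784) (nat_lit 152) (nat_lit 16703637536) (nat_lit 228) (nat_lit 4030905659) (nat_lit 55) (nat_lit 5) (nat_lit 57) (nat_lit 5) (nat_lit 58) (nat_lit 5) (nat_lit 354) (nat_lit 320) (nat_lit 226)))))) (XT.nd (nat_lit 468) (nat_lit 684) (nat_lit 0) (XT.nd (nat_lit 234) (nat_lit 380) (nat_lit 0) (XT.nd (nat_lit 78) (nat_lit 228) (nat_lit 0) (XT.lf (nat_lit 0) (nat_lit 1645855400) (nat_lit 228) (nat_lit 5453032743) (nat_lit 76)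 (nat_lit 22029319620) (nat_lit 54) (nat_lit 5) (nat_lit 57) (nat_lit 5) (nat_lit 55) (nat_lit 5) (nat_lit 355) (nat_lit 320) (nat_lit 225)) (XT.nd (nat_lit 78) (nat_lit 0) (nat_lit 0) (XT.lf (nat_lit 0) (nat_lit 7681242614) (nat_lit 304) (nat_lit 19256430866) (nat_lit 76) (nat_lit 3125059011) (nat_lit 51) (nat_lit 5) (nat_lit 55) (nat_lit 5) (nat_lit 52) (nat_lit 5) (nat_lit 356) (nat_lit 320) (nat_lit 224)) (XT.lf (nat_lit 0) (nat_lit 14219098254) (nat_lit 304) (nat_lit 3104304100) (nat_lit 76) (nat_lit 13710550646) (nat_lit 51) (nat_lit 5) (nat_lit 55) (nat_lit 5) (nat_lit 52) (nat_lit 5) (nat_lit 357) (nat_lit 320) (nat_lit 223)))) (XT.nd (nat_lit 78) (nat_lit 228) (nat_lit 0) (XT.lf (nat_lit 0) (nat_lit 14298824805) (nat_lit 152) (nat_lit 6999181047) (nat_lit 228) (nat_lit 10745025008) (nat_lit 49) (nat_lit 5) (nat_lit 51) (nat_lit 5) (nat_lit 52) (nat_lit 5) (nat_lit 358) (nat_lit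 320) (nat_lit 222)) (XT.nd (nat_lit 78) (nat_lit 228) (nat_lit 0) (XT.lf (nat_lit 0) (nat_lit 28835313913) (nat_lit 228) (nat_lit 495277095) (nat_lit 76) (nat_lit 3766752933) (nat_lit 49) (nat_lit 5) (nat_lit 52) (nat_lit 5) (nat_lit 50) (nat_lit 5) (nat_lit 359) (nat_lit 320) (nat_lit 221)) (XT.lf (nat_lit 0) (nat_lit 2858289997) (nat_lit 228) (nat_lit 16165193789) (nat_lit 76) (nat_lit 15159174028) (nat_lit 46) (nat_lit 5) (nat_lit 49) (nat_lit 5) (nat_lit 47) (nat_lit 5) (nat_lit 360) (nat_lit 320) (nat_lit 220))))) (XT.nd (nat_lit 234) (nat_lit 380) (nat_lit 0) (XT.nd (nat_lit 78) (nat_lit 152) (nat_lit 0) (XT.lf (nat_lit 0) (nat_lit 2135800942) (nat_lit 152) (nat_lit 8088993255) (nat_lit 228) (nat_lit 25092283225) (nat_lit 44) (nat_lit 5) (nat_lit 46) (nat_lit 5) (nat_lit 47) (nat_lit 5) (nat_lit 361) (nat_lit 320) (nat_lit 219)) (XT.nd (nat_lit 78) (nat_lit 152) (nat_lit 0) (XT.lf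 (nat_lit 0) (nat_lit 18282477842) (nat_lit 228) (nat_lit 14652798571) (nat_lit 76) (nat_lit 3556802243) (nat_lit 44) (nat_lit 5) (nat_lit 47) (nat_lit 5) (nat_lit 45) (nat_lit 5) (nat_lit 362) (nat_lit 320) (nat_lit 218)) (XT.lf (nat_lit 0) (nat_lit 4810232140) (nat_lit 152) (nat_lit 22132558139) (nat_lit 228) (nat_lit 10773055641) (nat_lit 42) (nat_lit 5) (nat_lit 44) (nat_lit 5) (nat_lit 45) (nat_lit 5) (nat_lit 363) (nat_lit 320) (nat_lit 217)))) (XT.nd (nat_lit 156) (nat_lit 152) (nat_lit 0) (XT.nd (nat_lit 78) (nat_lit 228) (nat_lit 0) (XT.lf (nat_lit 0) (nat_lit 25742117613) (nat_lit 152) (nat_lit 10534366006) (nat_lit 228) (nat_lit 2712302707) (nat_lit 42) (nat_lit 5) (nat_lit 44) (nat_lit 5) (nat_lit 45) (nat_lit 5) (nat_lit 364) (nat_lit 320) (nat_lit 216)) (XT.lf (nat_lit 0) (nat_lit 5706473431) (nat_lit 228) (nat_lit 32810448765) (nat_lit 76) (nat_lit 1797011023) (nat_lit 39)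 (nat_lit 5) (nat_lit 42) (nat_lit 5) (nat_lit 40) (nat_lit 5) (nat_lit 365) (nat_lit 320) (nat_lit 215))) (XT.nd (nat_lit 78) (nat_lit 152) (nat_lit 0) (XT.lf (nat_lit 0) (nat_lit 14848293501) (nat_lit 228) (nat_lit 12176646957) (nat_lit 76) (nat_lit 14658513616) (nat_lit 39) (nat_lit 5) (nat_lit 42) (nat_lit 5) (nat_lit 40) (nat_lit 5) (nat_lit 366) (nat_lit 320) (nat_lit 214)) (XT.lf (nat_lit 0) (nat_lit 9790064372) (nat_lit 152) (nat_lit 14802890857) (nat_lit 228) (nat_lit 18521210715) (nat_lit 37) (nat_lit 5) (nat_lit 39) (nat_lit 5) (nat_lit 40) (nat_lit 5) (nat_lit 367) (nat_lit 320) (nat_lit 213))))))) (XT.nd (nat_lit 936) (nat_lit 532) (nat_lit 0) (XT.nd (nat_lit 468) (nat_lit 532) (nat_lit 0) (XT.nd (nat_lit 234) (nat_lit 228) (nat_lit 0) (XT.nd (nat_lit 78) (nat_lit 152) (nat_lit 0) (XT.lf (nat_lit 0) (nat_lit 33265928729) (nat_lit 152) (nat_lit 1758190881) (nat_lit 228) (nat_lit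 9582332703) (nat_lit 37) (nat_lit 5) (nat_lit 39) (nat_lit 5) (nat_lit 40) (nat_lit 5) (nat_lit 368) (nat_lit 320) (nat_lit 212)) (XT.nd (nat_lit 78) (nat_lit 0) (nat_lit 0) (XT.lf (nat_lit 0) (nat_lit 181678247) (nat_lit 152) (nat_lit 34232069699) (nat_lit 76) (nat_lit 11741165652) (nat_lit 35) (nat_lit 5) (nat_lit 37) (nat_lit 5) (nat_lit 36) (nat_lit 5) (nat_lit 369) (nat_lit 320) (nat_lit 211)) (XT.lf (nat_lit 0) (nat_lit 10329228672) (nat_lit 152) (nat_lit 11228810814) (nat_lit 76) (nat_lit 26204037743) (nat_lit 35) (nat_lit 5) (nat_lit 37) (nat_lit 5) (nat_lit 36) (nat_lit 5) (nat_lit 370) (nat_lit 320) (nat_lit 210)))) (XT.nd (nat_lit 78) (nat_lit 76) (nat_lit 0) (XT.lf (nat_lit 0) (nat_lit 13340490837) (nat_lit 152) (nat_lit 7845604996) (nat_lit 228) (nat_lit 28253408210) (nat_lit 33) (nat_lit 5) (nat_lit 35) (nat_lit 5) (nat_lit 36) (nat_lit 5) (nat_lit 371) (nat_lit 320) (nat_lit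 209)) (XT.nd (nat_lit 78) (nat_lit 76) (nat_lit 0) (XT.lf (nat_lit 0) (nat_lit 32875106107) (nat_lit 228) (nat_lit 11779776112) (nat_lit 76) (nat_lit 6531456861) (nat_lit 33) (nat_lit 5) (nat_lit 36) (nat_lit 5) (nat_lit 34) (nat_lit 4) (nat_lit 372) (nat_lit 320) (nat_lit 208)) (XT.lf (nat_lit 0) (nat_lit 14066390987) (nat_lit 76) (nat_lit 31424422278) (nat_lit 152) (nat_lit 7512592065) (nat_lit 32) (nat_lit 5) (nat_lit 33) (nat_lit 5) (nat_lit 34) (nat_lit 4) (nat_lit 373) (nat_lit 320) (nat_lit 207))))) (XT.nd (nat_lit 234) (nat_lit 304) (nat_lit 0) (XT.nd (nat_lit 78) (nat_lit 152) (nat_lit 0) (XT.lf (nat_lit 0) (nat_lit 3900330371) (nat_lit 152) (nat_lit 13361176185) (nat_lit 76) (nat_lit 37636993000) (nat_lit 31) (nat_lit 5) (nat_lit 33) (nat_lit 5) (nat_lit 32) (nat_lit 5) (nat_lit 374) (nat_lit 320) (nat_lit 206)) (XT.nd (nat_lit 78) (nat_lit 0) (nat_lit 0) (XT.lf (nat_lit 0) (nat_lit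 13801895821) (nat_lit 152) (nat_lit 2039339053) (nat_lit 228) (nat_lit 41030466879) (nat_lit 29) (nat_lit 5) (nat_lit 31) (nat_lit 5) (nat_lit 32) (nat_lit 5) (nat_lit 375) (nat_lit 320) (nat_lit 205)) (XT.lf (nat_lit 0) (nat_lit 28821243506) (nat_lit 228) (nat_lit 16376866896) (nat_lit 76) (nat_lit 13723352179) (nat_lit 29) (nat_lit 5) (nat_lit 32) (nat_lit 5) (nat_lit 30) (nat_lit 4) (nat_lit 376) (nat_lit 320) (nat_lit 204)))) (XT.nd (nat_lit 78) (nat_lit 228) (nat_lit 0) (XT.lf (nat_lit 0) (nat_lit 11991377094) (nat_lit 76) (nat_lit 30674161989) (nat_lit 152) (nat_lit 18397409435) (nat_lit 28) (nat_lit 5) (nat_lit 29) (nat_lit 5) (nat_lit 30) (nat_lit 4) (nat_lit 377) (nat_lit 320) (nat_lit 203)) (XT.nd (nat_lit 78) (nat_lit 228) (nat_lit 0) (XT.lf (nat_lit 0) (nat_lit 42337048558) (nat_lit 76) (nat_lit 15137093071) (nat_lit 152) (nat_lit 5823763843) (nat_lit 28) (nat_lit 5) (nat_lit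 29) (nat_lit 5) (nat_lit 30) (nat_lit 4) (nat_lit 378) (nat_lit 320) (nat_lit 202)) (XT.lf (nat_lit 0) (nat_lit 7295721815) (nat_lit 228) (nat_lit 56945042501) (nat_lit 76) (nat_lit 1390421262) (nat_lit 25) (nat_lit 5) (nat_lit 28) (nat_lit 5) (nat_lit 26) (nat_lit 4) (nat_lit 379) (nat_lit 320) (nat_lit 201)))))) (XT.nd (nat_lit 468) (nat_lit 304) (nat_lit 0) (XT.nd (nat_lit 234) (nat_lit 152) (nat_lit 0) (XT.nd (nat_lit 78) (nat_lit 76) (nat_lit 0) (XT.lf (nat_lit 0) (nat_lit 21479360531) (nat_lit 228) (nat_lit 27878917875) (nat_lit 76) (nat_lit 18687884084) (nat_lit 25) (nat_lit 5) (nat_lit 28) (nat_lit 5) (nat_lit 26) (nat_lit 4) (nat_lit 380) (nat_lit 320) (nat_lit 200)) (XT.nd (nat_lit 78) (nat_lit 0) (nat_lit 0) (XT.lf (nat_lit 0) (nat_lit 2718666330) (nat_lit 76) (nat_lit 33691146306) (nat_lit 152) (nat_lit 34170195132) (nat_lit 24) (nat_lit 5) (nat_lit 25) (nat_lit 5) (nat_lit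 26) (nat_lit 4) (nat_lit 381) (nat_lit 320) (nat_lit 199)) (XT.lf (nat_lit 0) (nat_lit 35805304787) (nat_lit 76) (nat_lit 16748904128) (nat_lit 152) (nat_lit 20662966356) (nat_lit 24) (nat_lit 5) (nat_lit 25) (nat_lit 5) (nat_lit 26) (nat_lit 4) (nat_lit 382) (nat_lit 320) (nat_lit 198)))) (XT.nd (nat_lit 78) (nat_lit 152) (nat_lit 0) (XT.lf (nat_lit 0) (nat_lit 69517513357) (nat_lit 152) (nat_lit 5464639608) (nat_lit 0) (nat_lit 1003464759) (nat_lit 24) (nat_lit 5) (nat_lit 26) (nat_lit 4) (nat_lit 24) (nat_lit 4) (nat_lit 383) (nat_lit 320) (nat_lit 197)) (XT.nd (nat_lit 78) (nat_lit 0) (nat_lit 0) (XT.lf (nat_lit 0) (nat_lit 8896835986) (nat_lit 152) (nat_lit 50283632365) (nat_lit 76) (nat_lit 19668911178) (nat_lit 22) (nat_lit 5) (nat_lit 24) (nat_lit 5) (nat_lit 23) (nat_lit 4) (nat_lit 384) (nat_lit 320) (nat_lit 196)) (XT.lf (nat_lit 0) (nat_lit 24902389138) (nat_lit 152) (nat_lit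 17479960347) (nat_lit 76) (nat_lit 39464192246) (nat_lit 22) (nat_lit 5) (nat_lit 24) (nat_lit 5) (nat_lit 23) (nat_lit 4) (nat_lit 385) (nat_lit 320) (nat_lit 195))))) (XT.nd (nat_lit 234) (nat_lit 152) (nat_lit 0) (XT.nd (nat_lit 78) (nat_lit 76) (nat_lit 0) (XT.lf (nat_lit 0) (nat_lit 17516848768) (nat_lit 76) (nat_lit 24460737357) (nat_lit 152) (nat_lit 43002508425) (nat_lit 21) (nat_lit 5) (nat_lit 22) (nat_lit 5) (nat_lit 23) (nat_lit 4) (nat_lit 386) (nat_lit 320) (nat_lit 194)) (XT.nd (nat_lit 78) (nat_lit 76) (nat_lit 0) (XT.lf (nat_lit 0) (nat_lit 54862792146) (nat_lit 76) (nat_lit 5335739509) (nat_lit 152) (nat_lit 28057194696) (nat_lit 21) (nat_lit 5) (nat_lit 22) (nat_lit 5) (nat_lit 23) (nat_lit 4) (nat_lit 387) (nat_lit 320) (nat_lit 193)) (XT.lf (nat_lit 0) (nat_lit 2214190956) (nat_lit 76) (nat_lit 77377219107) (nat_lit 76) (nat_lit 12090686140) (nat_lit 20) (nat_lit 4)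 (nat_lit 21) (nat_lit 5) (nat_lit 21) (nat_lit 4) (nat_lit 388) (nat_lit 320) (nat_lit 192)))) (XT.nd (nat_lit 156) (nat_lit 76) (nat_lit 0) (XT.nd (nat_lit 78) (nat_lit 0) (nat_lit 0) (XT.lf (nat_lit 0) (nat_lit 5182920097) (nat_lit 152) (nat_lit 54667589277) (nat_lit 76) (nat_lit 35392708309) (nat_lit 19) (nat_lit 5) (nat_lit 21) (nat_lit 5) (nat_lit 20) (nat_lit 4) (nat_lit 389) (nat_lit 320) (nat_lit 191)) (XT.lf (nat_lit 0) (nat_lit 22910172334) (nat_lit 152) (nat_lit 18332476961) (nat_lit 76) (nat_lit 57730021579) (nat_lit 19) (nat_lit 5) (nat_lit 21) (nat_lit 5) (nat_lit 20) (nat_lit 4) (nat_lit 390) (nat_lit 320) (nat_lit 190))) (XT.nd (nat_lit 78) (nat_lit 0) (nat_lit 0) (XT.lf (nat_lit 0) (nat_lit 20467811146) (nat_lit 76) (nat_lit 21372004525) (nat_lit 152) (nat_lit 61032980239) (nat_lit 18) (nat_lit 5) (nat_lit 19) (nat_lit 5) (nat_lit 20) (nat_lit 4) (nat_lit 391) (nat_lit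 320) (nat_lit 189)) (XT.lf (nat_lit 0) (nat_lit 61838005964) (nat_lit 76) (nat_lit 184938763) (nat_lit 152) (nat_lit 44929632873) (nat_lit 18) (nat_lit 5) (nat_lit 19) (nat_lit 5) (nat_lit 20) (nat_lit 4) (nat_lit 392) (nat_lit 320) (nat_lit 188))))))))
noncomputable def xc154 : XT := (XT.nd (nat_lit 1872) (nat_lit 380) (nat_lit 0) (XT.nd (nat_lit 936) (nat_lit 304) (nat_lit 0) (XT.nd (nat_lit 468) (nat_lit 228) (nat_lit 0) (XT.nd (nat_lit 234) (nat_lit 76) (nat_lit 0) (XT.nd (nat_lit 78) (nat_lit 152) (nat_lit 0) (XT.lf (nat_lit 0) (nat_lit 83556324836) (nat_lit 152) (nat_lit 6310455870) (nat_lit 0) (nat_lit 21352513489) (nat_lit 18) (nat_lit 5) (nat_lit 20) (nat_lit 4) (nat_lit 18) (nat_lit 4) (nat_lit 393) (nat_lit 320) (nat_lit 187)) (XT.nd (nat_lit 78) (nat_lit 76) (nat_lit 0) (XT.lf (nat_lit 0) (nat_lit 35562999127) (nat_lit 76) (nat_lit 71158457133) (nat_lit 76) (nat_lit 8950136773)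 (nat_lit 17) (nat_lit 4) (nat_lit 18) (nat_lit 5) (nat_lit 18) (nat_lit 4) (nat_lit 394) (nat_lit 320) (nat_lit 186)) (XT.lf (nat_lit 0) (nat_lit 10461365601) (nat_lit 152) (nat_lit 40766815176) (nat_lit 76) (nat_lit 69104702871) (nat_lit 16) (nat_lit 5) (nat_lit 18) (nat_lit 5) (nat_lit 17) (nat_lit 4) (nat_lit 395) (nat_lit 320) (nat_lit 185)))) (XT.nd (nat_lit 78) (nat_lit 0) (nat_lit 0) (XT.lf (nat_lit 0) (nat_lit 402417828) (nat_lit 76) (nat_lit 30143495486) (nat_lit 152) (nat_lit 94673827081) (nat_lit 15) (nat_lit 5) (nat_lit 16) (nat_lit 5) (nat_lit 17) (nat_lit 4) (nat_lit 396) (nat_lit 320) (nat_lit 184)) (XT.nd (nat_lit 78) (nat_lit 0) (nat_lit 0) (XT.lf (nat_lit 0) (nat_lit 45039746662) (nat_lit 76) (nat_lit 7282373427) (nat_lit 152) (nat_lit 77994448739) (nat_lit 15) (nat_lit 5) (nat_lit 16) (nat_lit 5) (nat_lit 17) (nat_lit 4) (nat_lit 397) (nat_lit 320) (nat_lit 183)) (XT.lf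 (nat_lit 0) (nat_lit 75445338499) (nat_lit 152) (nat_lit 44025898792) (nat_lit 0) (nat_lit 16184091739) (nat_lit 15) (nat_lit 5) (nat_lit 17) (nat_lit 4) (nat_lit 15) (nat_lit 4) (nat_lit 398) (nat_lit 320) (nat_lit 182))))) (XT.nd (nat_lit 234) (nat_lit 76) (nat_lit 0) (XT.nd (nat_lit 78) (nat_lit 152) (nat_lit 0) (XT.lf (nat_lit 0) (nat_lit 99841364868) (nat_lit 152) (nat_lit 837077003) (nat_lit 0) (nat_lit 40576753412) (nat_lit 15) (nat_lit 5) (nat_lit 17) (nat_lit 4) (nat_lit 15) (nat_lit 4) (nat_lit 399) (nat_lit 320) (nat_lit 181)) (XT.nd (nat_lit 78) (nat_lit 76) (nat_lit 0) (XT.lf (nat_lit 0) (nat_lit 45977747028) (nat_lit 76) (nat_lit 80194681169) (nat_lit 76) (nat_lit 20926865242) (nat_lit 14) (nat_lit 4) (nat_lit 15) (nat_lit 5) (nat_lit 15) (nat_lit 4) (nat_lit 400) (nat_lit 320) (nat_lit 180)) (XT.lf (nat_lit 0) (nat_lit 577549837) (nat_lit 152) (nat_lit 58086890638) (nat_lit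 76) (nat_lit 94570109741) (nat_lit 13) (nat_lit 5) (nat_lit 15) (nat_lit 5) (nat_lit 14) (nat_lit 4) (nat_lit 401) (nat_lit 320) (nat_lit 179)))) (XT.nd (nat_lit 78) (nat_lit 76) (nat_lit 0) (XT.lf (nat_lit 0) (nat_lit 22451428570) (nat_lit 152) (nat_lit 13248345785) (nat_lit 76) (nat_lit 123959766492) (nat_lit 13) (nat_lit 5) (nat_lit 15) (nat_lit 5) (nat_lit 14) (nat_lit 4) (nat_lit 402) (nat_lit 320) (nat_lit 178)) (XT.nd (nat_lit 78) (nat_lit 0) (nat_lit 0) (XT.lf (nat_lit 0) (nat_lit 34946065954) (nat_lit 76) (nat_lit 11016182071) (nat_lit 152) (nat_lit 120416370954) (nat_lit 12) (nat_lit 5) (nat_lit 13) (nat_lit 5) (nat_lit 14) (nat_lit 4) (nat_lit 403) (nat_lit 320) (nat_lit 177)) (XT.lf (nat_lit 0) (nat_lit 71106958736) (nat_lit 152) (nat_lit 87653177108) (nat_lit 0) (nat_lit 14650597951) (nat_lit 12) (nat_lit 5) (nat_lit 14) (nat_lit 4) (nat_lit 12) (nat_lit 4) (nat_lit 404) (nat_lit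 320) (nat_lit 176)))))) (XT.nd (nat_lit 468) (nat_lit 76) (nat_lit 0) (XT.nd (nat_lit 234) (nat_lit 152) (nat_lit 0) (XT.nd (nat_lit 78) (nat_lit 76) (nat_lit 0) (XT.lf (nat_lit 0) (nat_lit 97687259473) (nat_lit 152) (nat_lit 41869769972) (nat_lit 0) (nat_lit 41228507461) (nat_lit 12) (nat_lit 5) (nat_lit 14) (nat_lit 4) (nat_lit 12) (nat_lit 4) (nat_lit 405) (nat_lit 320) (nat_lit 175)) (XT.nd (nat_lit 78) (nat_lit 0) (nat_lit 0) (XT.lf (nat_lit 0) (nat_lit 6403625992) (nat_lit 76) (nat_lit 119290795746) (nat_lit 76) (nat_lit 62829766376) (nat_lit 11) (nat_lit 4) (nat_lit 12) (nat_lit 5) (nat_lit 12) (nat_lit 4) (nat_lit 406) (nat_lit 320) (nat_lit 174)) (XT.lf (nat_lit 0) (nat_lit 58540244808) (nat_lit 76) (nat_lit 97268688037) (nat_lit 76) (nat_lit 40805489754) (nat_lit 11) (nat_lit 4) (nat_lit 12) (nat_lit 5) (nat_lit 12) (nat_lit 4) (nat_lit 407) (nat_lit 320) (nat_lit 173)))) (XT.nd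 (nat_lit 78) (nat_lit 152) (nat_lit 0) (XT.lf (nat_lit 0) (nat_lit 113279817596) (nat_lit 76) (nat_lit 74147357542) (nat_lit 76) (nat_lit 17682093628) (nat_lit 11) (nat_lit 4) (nat_lit 12) (nat_lit 5) (nat_lit 12) (nat_lit 4) (nat_lit 408) (nat_lit 320) (nat_lit 172)) (XT.nd (nat_lit 78) (nat_lit 76) (nat_lit 0) (XT.lf (nat_lit 0) (nat_lit 6384381229) (nat_lit 152) (nat_lit 43379249661) (nat_lit 76) (nat_lit 164260172858) (nat_lit 10) (nat_lit 5) (nat_lit 12) (nat_lit 5) (nat_lit 11) (nat_lit 4) (nat_lit 409) (nat_lit 320) (nat_lit 171)) (XT.lf (nat_lit 0) (nat_lit 7438078984) (nat_lit 76) (nat_lit 23736156993) (nat_lit 152) (nat_lit 192189621668) (nat_lit 9) (nat_lit 5) (nat_lit 10) (nat_lit 5) (nat_lit 11) (nat_lit 4) (nat_lit 410) (nat_lit 320) (nat_lit 170))))) (XT.nd (nat_lit 234) (nat_lit 76) (nat_lit 0) (XT.nd (nat_lit 78) (nat_lit 0) (nat_lit 0) (XT.lf (nat_lit 0) (nat_lit 58004534470)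 (nat_lit 152) (nat_lit 170903597123) (nat_lit 0) (nat_lit 4222735290) (nat_lit 9) (nat_lit 5) (nat_lit 11) (nat_lit 4) (nat_lit 9) (nat_lit 4) (nat_lit 411) (nat_lit 320) (nat_lit 169)) (XT.nd (nat_lit 78) (nat_lit 0) (nat_lit 0) (XT.lf (nat_lit 0) (nat_lit 86563719537) (nat_lit 152) (nat_lit 124022836773) (nat_lit 0) (nat_lit 32780301881) (nat_lit 9) (nat_lit 5) (nat_lit 11) (nat_lit 4) (nat_lit 9) (nat_lit 4) (nat_lit 412) (nat_lit 320) (nat_lit 168)) (XT.lf (nat_lit 0) (nat_lit 116549201306) (nat_lit 152) (nat_lit 74801288821) (nat_lit 0) (nat_lit 62764242244) (nat_lit 9) (nat_lit 5) (nat_lit 11) (nat_lit 4) (nat_lit 9) (nat_lit 4) (nat_lit 413) (nat_lit 320) (nat_lit 167)))) (XT.nd (nat_lit 78) (nat_lit 76) (nat_lit 0) (XT.lf (nat_lit 0) (nat_lit 148032373780) (nat_lit 152) (nat_lit 23121759107) (nat_lit 0) (nat_lit 94245946713) (nat_lit 9) (nat_lit 5) (nat_lit 11) (nat_lit 4) (nat_lit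 9) (nat_lit 4) (nat_lit 414) (nat_lit 320) (nat_lit 166)) (XT.nd (nat_lit 78) (nat_lit 0) (nat_lit 0) (XT.lf (nat_lit 0) (nat_lit 32168388185) (nat_lit 76) (nat_lit 149422047401) (nat_lit 76) (nat_lit 95634222234) (nat_lit 8) (nat_lit 4) (nat_lit 9) (nat_lit 5) (nat_lit 9) (nat_lit 4) (nat_lit 415) (nat_lit 320) (nat_lit 165)) (XT.lf (nat_lit 0) (nat_lit 91022877438) (nat_lit 76) (nat_lit 126193619761) (nat_lit 76) (nat_lit 72404463070) (nat_lit 8) (nat_lit 4) (nat_lit 9) (nat_lit 5) (nat_lit 9) (nat_lit 4) (nat_lit 416) (nat_lit 320) (nat_lit 164))))))) (XT.nd (nat_lit 936) (nat_lit 152) (nat_lit 0) (XT.nd (nat_lit 468) (nat_lit 76) (nat_lit 0) (XT.nd (nat_lit 234) (nat_lit 76) (nat_lit 0) (XT.nd (nat_lit 78) (nat_lit 76) (nat_lit 0) (XT.lf (nat_lit 0) (nat_lit 152817328609) (nat_lit 76) (nat_lit 101805122368) (nat_lit 76) (nat_lit 48014697558) (nat_lit 8) (nat_lit 4) (nat_lit 9) (nat_lit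 5) (nat_lit 9) (nat_lit 4) (nat_lit 417) (nat_lit 320) (nat_lit 163)) (XT.nd (nat_lit 78) (nat_lit 76) (nat_lit 0) (XT.lf (nat_lit 0) (nat_lit 217698871344) (nat_lit 76) (nat_lit 76198487369) (nat_lit 76) (nat_lit 22406854827) (nat_lit 8) (nat_lit 4) (nat_lit 9) (nat_lit 5) (nat_lit 9) (nat_lit 4) (nat_lit 418) (nat_lit 320) (nat_lit 162)) (XT.lf (nat_lit 0) (nat_lit 4336647039) (nat_lit 152) (nat_lit 44902656332) (nat_lit 76) (nat_lit 281411895252) (nat_lit 7) (nat_lit 5) (nat_lit 9) (nat_lit 5) (nat_lit 8) (nat_lit 4) (nat_lit 419) (nat_lit 320) (nat_lit 161)))) (XT.nd (nat_lit 78) (nat_lit 0) (nat_lit 0) (XT.lf (nat_lit 0) (nat_lit 11482936544) (nat_lit 76) (nat_lit 20359412116) (nat_lit 152) (nat_lit 313845916049) (nat_lit 6) (nat_lit 5) (nat_lit 7) (nat_lit 5) (nat_lit 8) (nat_lit 4) (nat_lit 420) (nat_lit 320) (nat_lit 160)) (XT.nd (nat_lit 78) (nat_lit 0) (nat_lit 0) (XT.lf (nat_lit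 0) (nat_lit 61650587815) (nat_lit 152) (nat_lit 289362904529) (nat_lit 0) (nat_lit 10417329249) (nat_lit 6) (nat_lit 5) (nat_lit 8) (nat_lit 4) (nat_lit 6) (nat_lit 4) (nat_lit 421) (nat_lit 320) (nat_lit 159)) (XT.lf (nat_lit 0) (nat_lit 93281823131) (nat_lit 152) (nat_lit 242614435817) (nat_lit 0) (nat_lit 42047618275) (nat_lit 6) (nat_lit 5) (nat_lit 8) (nat_lit 4) (nat_lit 6) (nat_lit 4) (nat_lit 422) (nat_lit 320) (nat_lit 158))))) (XT.nd (nat_lit 234) (nat_lit 76) (nat_lit 0) (XT.nd (nat_lit 78) (nat_lit 0) (nat_lit 0) (XT.lf (nat_lit 0) (nat_lit 126493499592) (nat_lit 152) (nat_lit 193530748669) (nat_lit 0) (nat_lit 75258393508) (nat_lit 6) (nat_lit 5) (nat_lit 8) (nat_lit 4) (nat_lit 6) (nat_lit 4) (nat_lit 423) (nat_lit 320) (nat_lit 157)) (XT.nd (nat_lit 78) (nat_lit 0) (nat_lit 0) (XT.lf (nat_lit 0) (nat_lit 161364692618) (nat_lit 152) (nat_lit 141994977165) (nat_lit 0) (nat_lit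 110128728223) (nat_lit 6) (nat_lit 5) (nat_lit 8) (nat_lit 4) (nat_lit 6) (nat_lit 4) (nat_lit 424) (nat_lit 320) (nat_lit 156)) (XT.lf (nat_lit 0) (nat_lit 197978428860) (nat_lit 152) (nat_lit 87884417087) (nat_lit 0) (nat_lit 146741647024) (nat_lit 6) (nat_lit 5) (nat_lit 8) (nat_lit 4) (nat_lit 6) (nat_lit 4) (nat_lit 425) (nat_lit 320) (nat_lit 155)))) (XT.nd (nat_lit 78) (nat_lit 76) (nat_lit 0) (XT.lf (nat_lit 0) (nat_lit 236421883880) (nat_lit 152) (nat_lit 31070233768) (nat_lit 0) (nat_lit 185184323530) (nat_lit 6) (nat_lit 5) (nat_lit 8) (nat_lit 4) (nat_lit 6) (nat_lit 4) (nat_lit 426) (nat_lit 320) (nat_lit 154)) (XT.nd (nat_lit 78) (nat_lit 0) (nat_lit 0) (XT.lf (nat_lit 0) (nat_lit 29527922585) (nat_lit 76) (nat_lit 247719680753) (nat_lit 76) (nat_lit 196481378960) (nat_lit 5) (nat_lit 4) (nat_lit 6) (nat_lit 5) (nat_lit 6) (nat_lit 4) (nat_lit 427) (nat_lit 320) (nat_lit 153))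 (XT.lf (nat_lit 0) (nat_lit 94232890313) (nat_lit 76) (nat_lit 226407001996) (nat_lit 76) (nat_lit 175167994068) (nat_lit 5) (nat_lit 4) (nat_lit 6) (nat_lit 5) (nat_lit 6) (nat_lit 4) (nat_lit 428) (nat_lit 320) (nat_lit 152)))))) (XT.nd (nat_lit 468) (nat_lit 152) (nat_lit 0) (XT.nd (nat_lit 234) (nat_lit 0) (nat_lit 0) (XT.nd (nat_lit 78) (nat_lit 0) (nat_lit 0) (XT.lf (nat_lit 0) (nat_lit 162171406618) (nat_lit 76) (nat_lit 204029526350) (nat_lit 76) (nat_lit 152789845911) (nat_lit 5) (nat_lit 4) (nat_lit 6) (nat_lit 5) (nat_lit 6) (nat_lit 4) (nat_lit 429) (nat_lit 320) (nat_lit 151)) (XT.nd (nat_lit 78) (nat_lit 0) (nat_lit 0) (XT.lf (nat_lit 0) (nat_lit 233505229871) (nat_lit 76) (nat_lit 180533974108) (nat_lit 76) (nat_lit 129293653184) (nat_lit 5) (nat_lit 4) (nat_lit 6) (nat_lit 5) (nat_lit 6) (nat_lit 4) (nat_lit 430) (nat_lit 320) (nat_lit 150)) (XT.lf (nat_lit 0) (nat_lit 308404202508)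 (nat_lit 76) (nat_lit 155864403481) (nat_lit 76) (nat_lit 104623472570) (nat_lit 5) (nat_lit 4) (nat_lit 6) (nat_lit 5) (nat_lit 6) (nat_lit 4) (nat_lit 431) (nat_lit 320) (nat_lit 149)))) (XT.nd (nat_lit 78) (nat_lit 0) (nat_lit 0) (XT.lf (nat_lit 0) (nat_lit 387046655418) (nat_lit 76) (nat_lit 129962077396) (nat_lit 76) (nat_lit 78720565545) (nat_lit 5) (nat_lit 4) (nat_lit 6) (nat_lit 5) (nat_lit 6) (nat_lit 4) (nat_lit 432) (nat_lit 320) (nat_lit 148)) (XT.nd (nat_lit 78) (nat_lit 0) (nat_lit 0) (XT.lf (nat_lit 0) (nat_lit 469619832535) (nat_lit 76) (nat_lit 102765323647) (nat_lit 76) (nat_lit 51523258521) (nat_lit 5) (nat_lit 4) (nat_lit 6) (nat_lit 5) (nat_lit 6) (nat_lit 4) (nat_lit 433) (nat_lit 320) (nat_lit 147)) (XT.lf (nat_lit 0) (nat_lit 556320336662) (nat_lit 76) (nat_lit 74209388060) (nat_lit 76) (nat_lit 22966796004) (nat_lit 5) (nat_lit 4) (nat_lit 6) (nat_lit 5) (nat_lit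 6) (nat_lit 4) (nat_lit 434) (nat_lit 320) (nat_lit 146))))) (XT.nd (nat_lit 38064) (nat_lit 0) (nat_lit 8664) (XT.nd (nat_lit 78) (nat_lit 76) (nat_lit 0) (XT.lf (nat_lit 0) (nat_lit 6792231727) (nat_lit 152) (nat_lit 37319018852) (nat_lit 76) (nat_lit 640447336112) (nat_lit 4) (nat_lit 5) (nat_lit 6) (nat_lit 5) (nat_lit 5) (nat_lit 4) (nat_lit 435) (nat_lit 320) (nat_lit 145)) (XT.nd (nat_lit 37908) (nat_lit 0) (nat_lit 8664) (XT.lf (nat_lit 0) (nat_lit 25984951820) (nat_lit 76) (nat_lit 11687498742) (nat_lit 152) (nat_lit 679462226470) (nat_lit 3) (nat_lit 5) (nat_lit 4) (nat_lit 5) (nat_lit 5) (nat_lit 4) (nat_lit 436) (nat_lit 320) (nat_lit 144)) (XT.lf (nat_lit 0) (nat_lit 1671994551) (nat_lit 0) (nat_lit 1671994551) (nat_lit 684) (nat_lit 2499187310) (nat_lit 117) (nat_lit 5) (nat_lit 117) (nat_lit 3) (nat_lit 126) (nat_lit 3) (nat_lit 321) (nat_lit 321) (nat_lit 258)))) (XT.nd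 (nat_lit 156) (nat_lit 0) (nat_lit 76) (XT.nd (nat_lit 78) (nat_lit 0) (nat_lit 0) (XT.lf (nat_lit 0) (nat_lit 7369124924) (nat_lit 684) (nat_lit 2775177688) (nat_lit 760) (nat_lit 1808062894) (nat_lit 117) (nat_lit 5) (nat_lit 126) (nat_lit 3) (nat_lit 127) (nat_lit 5) (nat_lit 322) (nat_lit 321) (nat_lit 257)) (XT.lf (nat_lit 76) (nat_lit 3097343759) (nat_lit 0) (nat_lit 5059372888) (nat_lit 760) (nat_lit 4071371520) (nat_lit 118) (nat_lit 5) (nat_lit 117) (nat_lit 5) (nat_lit 127) (nat_lit 5) (nat_lit 323) (nat_lit 321) (nat_lit 256))) (XT.nd (nat_lit 78) (nat_lit 0) (nat_lit 0) (XT.lf (nat_lit 0) (nat_lit 9006431379) (nat_lit 684) (nat_lit 3179308413) (nat_lit 760) (nat_lit 330747355) (nat_lit 118) (nat_lit 5) (nat_lit 127) (nat_lit 5) (nat_lit 128) (nat_lit 5) (nat_lit 324) (nat_lit 321) (nat_lit 255)) (XT.lf (nat_lit 76) (nat_lit 3067055587) (nat_lit 0) (nat_lit 6934407328) (nat_lit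 760) (nat_lit 2812727665) (nat_lit 119) (nat_lit 5) (nat_lit 118) (nat_lit 5) (nat_lit 128) (nat_lit 5) (nat_lit 325) (nat_lit 321) (nat_lit 254))))))))
noncomputable def xc155 : XT := (XT.nd (nat_lit 1950) (nat_lit 2508) (nat_lit 0) (XT.nd (nat_lit 936) (nat_lit 2128) (nat_lit 0) (XT.nd (nat_lit 468) (nat_lit 1368) (nat_lit 0) (XT.nd (nat_lit 234) (nat_lit 608) (nat_lit 0) (XT.nd (nat_lit 78) (nat_lit 0) (nat_lit 76) (XT.lf (nat_lit 76) (nat_lit 9718536208) (nat_lit 0) (nat_lit 1354616756) (nat_lit 760) (nat_lit 2052305689) (nat_lit 119) (nat_lit 5) (nat_lit 118) (nat_lit 5) (nat_lit 128) (nat_lit 5) (nat_lit 326) (nat_lit 321) (nat_lit 253)) (XT.nd (nat_lit 78) (nat_lit 0) (nat_lit 0) (XT.lf (nat_lit 76) (nat_lit 3266332887) (nat_lit 0) (nat_lit 9027899457) (nat_lit 760) (nat_lit 1153291179) (nat_lit 120) (nat_lit 5) (nat_lit 119) (nat_lit 5) (nat_lit 129) (nat_lit 5) (nat_lit 327) (nat_lit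 321) (nat_lit 252)) (XT.lf (nat_lit 76) (nat_lit 10350695634) (nat_lit 0) (nat_lit 3280637783) (nat_lit 760) (nat_lit 151632341) (nat_lit 120) (nat_lit 5) (nat_lit 119) (nat_lit 5) (nat_lit 129) (nat_lit 5) (nat_lit 328) (nat_lit 321) (nat_lit 251)))) (XT.nd (nat_lit 78) (nat_lit 0) (nat_lit 0) (XT.lf (nat_lit 0) (nat_lit 950188558) (nat_lit 760) (nat_lit 10435087382) (nat_lit 836) (nat_lit 2745277508) (nat_lit 110) (nat_lit 5) (nat_lit 120) (nat_lit 5) (nat_lit 121) (nat_lit 5) (nat_lit 329) (nat_lit 321) (nat_lit 250)) (XT.nd (nat_lit 78) (nat_lit 0) (nat_lit 76) (XT.lf (nat_lit 0) (nat_lit 2191996686) (nat_lit 760) (nat_lit 3269897962) (nat_lit 836) (nat_lit 9029021428) (nat_lit 110) (nat_lit 5) (nat_lit 120) (nat_lit 5) (nat_lit 121) (nat_lit 5) (nat_lit 330) (nat_lit 321) (nat_lit 249)) (XT.lf (nat_lit 0) (nat_lit 3555441268) (nat_lit 760) (nat_lit 10504315815) (nat_lit 76) (nat_lit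 806580968) (nat_lit 111) (nat_lit 5) (nat_lit 121) (nat_lit 5) (nat_lit 112) (nat_lit 5) (nat_lit 331) (nat_lit 321) (nat_lit 248))))) (XT.nd (nat_lit 234) (nat_lit 684) (nat_lit 0) (XT.nd (nat_lit 78) (nat_lit 760) (nat_lit 0) (XT.lf (nat_lit 0) (nat_lit 5111917297) (nat_lit 760) (nat_lit 2877897881) (nat_lit 76) (nat_lit 7264490620) (nat_lit 111) (nat_lit 5) (nat_lit 121) (nat_lit 5) (nat_lit 112) (nat_lit 5) (nat_lit 332) (nat_lit 321) (nat_lit 247)) (XT.nd (nat_lit 78) (nat_lit 0) (nat_lit 0) (XT.lf (nat_lit 0) (nat_lit 5281008625) (nat_lit 760) (nat_lit 1527693022) (nat_lit 836) (nat_lit 8849862857) (nat_lit 101) (nat_lit 5) (nat_lit 111) (nat_lit 5) (nat_lit 112) (nat_lit 5) (nat_lit 333) (nat_lit 321) (nat_lit 246)) (XT.lf (nat_lit 0) (nat_lit 8702684194) (nat_lit 836) (nat_lit 2234285430) (nat_lit 76) (nat_lit 5140464569) (nat_lit 101) (nat_lit 5) (nat_lit 112) (nat_lit 5) (nat_lit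 102) (nat_lit 5) (nat_lit 334) (nat_lit 321) (nat_lit 245)))) (XT.nd (nat_lit 78) (nat_lit 304) (nat_lit 0) (XT.lf (nat_lit 0) (nat_lit 6480839410) (nat_lit 380) (nat_lit 4318408510) (nat_lit 456) (nat_lit 5712620578) (nat_lit 96) (nat_lit 5) (nat_lit 101) (nat_lit 5) (nat_lit 102) (nat_lit 5) (nat_lit 335) (nat_lit 321) (nat_lit 244)) (XT.nd (nat_lit 78) (nat_lit 304) (nat_lit 0) (XT.lf (nat_lit 0) (nat_lit 13062438351) (nat_lit 456) (nat_lit 1316855545) (nat_lit 76) (nat_lit 2585655206) (nat_lit 96) (nat_lit 5) (nat_lit 102) (nat_lit 5) (nat_lit 97) (nat_lit 5) (nat_lit 336) (nat_lit 321) (nat_lit 243)) (XT.lf (nat_lit 0) (nat_lit 8000869011) (nat_lit 304) (nat_lit 7616734539) (nat_lit 380) (nat_lit 1814153243) (nat_lit 92) (nat_lit 5) (nat_lit 96) (nat_lit 5) (nat_lit 97) (nat_lit 5) (nat_lit 337) (nat_lit 321) (nat_lit 242)))))) (XT.nd (nat_lit 468) (nat_lit 1064) (nat_lit 0) (XT.nd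 (nat_lit 234) (nat_lit 304) (nat_lit 0) (XT.nd (nat_lit 78) (nat_lit 684) (nat_lit 0) (XT.lf (nat_lit 0) (nat_lit 372532401) (nat_lit 380) (nat_lit 114591913) (nat_lit 76) (nat_lit 17434196092) (nat_lit 91) (nat_lit 5) (nat_lit 96) (nat_lit 5) (nat_lit 92) (nat_lit 5) (nat_lit 338) (nat_lit 321) (nat_lit 241)) (XT.nd (nat_lit 78) (nat_lit 304) (nat_lit 0) (XT.lf (nat_lit 0) (nat_lit 2859203105) (nat_lit 456) (nat_lit 8600199763) (nat_lit 76) (nat_lit 6961903347) (nat_lit 86) (nat_lit 5) (nat_lit 92) (nat_lit 5) (nat_lit 87) (nat_lit 5) (nat_lit 339) (nat_lit 321) (nat_lit 240)) (XT.lf (nat_lit 0) (nat_lit 1328510686) (nat_lit 304) (nat_lit 4157025920) (nat_lit 380) (nat_lit 13459999614) (nat_lit 82) (nat_lit 5) (nat_lit 86) (nat_lit 5) (nat_lit 87) (nat_lit 5) (nat_lit 340) (nat_lit 321) (nat_lit 239)))) (XT.nd (nat_lit 78) (nat_lit 304) (nat_lit 0) (XT.lf (nat_lit 0) (nat_lit 8431091766)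 (nat_lit 380) (nat_lit 7511463349) (nat_lit 76) (nat_lit 3544038188) (nat_lit 82) (nat_lit 5) (nat_lit 87) (nat_lit 5) (nat_lit 83) (nat_lit 5) (nat_lit 341) (nat_lit 321) (nat_lit 238)) (XT.nd (nat_lit 78) (nat_lit 0) (nat_lit 0) (XT.lf (nat_lit 0) (nat_lit 3113934057) (nat_lit 304) (nat_lit 8512527719) (nat_lit 380) (nat_lit 8423124922) (nat_lit 78) (nat_lit 5) (nat_lit 82) (nat_lit 5) (nat_lit 83) (nat_lit 5) (nat_lit 342) (nat_lit 321) (nat_lit 237)) (XT.lf (nat_lit 0) (nat_lit 14514695674) (nat_lit 304) (nat_lit 580303770) (nat_lit 380) (nat_lit 5540070180) (nat_lit 78) (nat_lit 5) (nat_lit 82) (nat_lit 5) (nat_lit 83) (nat_lit 5) (nat_lit 343) (nat_lit 321) (nat_lit 236))))) (XT.nd (nat_lit 234) (nat_lit 456) (nat_lit 0) (XT.nd (nat_lit 78) (nat_lit 380) (nat_lit 0) (XT.lf (nat_lit 0) (nat_lit 5266744740) (nat_lit 228) (nat_lit 13660227998) (nat_lit 304) (nat_lit 2313362875) (nat_lit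 75) (nat_lit 5) (nat_lit 78) (nat_lit 5) (nat_lit 79) (nat_lit 5) (nat_lit 344) (nat_lit 321) (nat_lit 235)) (XT.nd (nat_lit 78) (nat_lit 304) (nat_lit 0) (XT.lf (nat_lit 0) (nat_lit 1142106882) (nat_lit 304) (nat_lit 4479658171) (nat_lit 76) (nat_lit 16248178215) (nat_lit 74) (nat_lit 5) (nat_lit 78) (nat_lit 5) (nat_lit 75) (nat_lit 5) (nat_lit 345) (nat_lit 321) (nat_lit 234)) (XT.lf (nat_lit 0) (nat_lit 4848287713) (nat_lit 380) (nat_lit 14785955343) (nat_lit 76) (nat_lit 2887116042) (nat_lit 70) (nat_lit 5) (nat_lit 75) (nat_lit 5) (nat_lit 71) (nat_lit 5) (nat_lit 346) (nat_lit 321) (nat_lit 233)))) (XT.nd (nat_lit 156) (nat_lit 228) (nat_lit 0) (XT.nd (nat_lit 78) (nat_lit 228) (nat_lit 0) (XT.lf (nat_lit 0) (nat_lit 8896918739) (nat_lit 380) (nat_lit 2594407975) (nat_lit 76) (nat_lit 11706169644) (nat_lit 70) (nat_lit 5) (nat_lit 75) (nat_lit 5) (nat_lit 71) (nat_lit 5) (nat_lit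 347) (nat_lit 321) (nat_lit 232)) (XT.lf (nat_lit 0) (nat_lit 10528263972) (nat_lit 228) (nat_lit 2772542764) (nat_lit 304) (nat_lit 10598999801) (nat_lit 67) (nat_lit 5) (nat_lit 70) (nat_lit 5) (nat_lit 71) (nat_lit 5) (nat_lit 348) (nat_lit 321) (nat_lit 231))) (XT.nd (nat_lit 78) (nat_lit 228) (nat_lit 0) (XT.lf (nat_lit 0) (nat_lit 18057892046) (nat_lit 304) (nat_lit 353939452) (nat_lit 76) (nat_lit 6218757561) (nat_lit 67) (nat_lit 5) (nat_lit 71) (nat_lit 5) (nat_lit 68) (nat_lit 5) (nat_lit 349) (nat_lit 321) (nat_lit 230)) (XT.lf (nat_lit 0) (nat_lit 13692399742) (nat_lit 228) (nat_lit 9608899510) (nat_lit 304) (nat_lit 2084194720) (nat_lit 64) (nat_lit 5) (nat_lit 67) (nat_lit 5) (nat_lit 68) (nat_lit 5) (nat_lit 350) (nat_lit 321) (nat_lit 229))))))) (XT.nd (nat_lit 936) (nat_lit 988) (nat_lit 0) (XT.nd (nat_lit 468) (nat_lit 760) (nat_lit 0) (XT.nd (nat_lit 234) (nat_lit 228)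 (nat_lit 0) (XT.nd (nat_lit 78) (nat_lit 228) (nat_lit 0) (XT.lf (nat_lit 0) (nat_lit 2292687295) (nat_lit 228) (nat_lit 283141687) (nat_lit 304) (nat_lit 23598707476) (nat_lit 60) (nat_lit 5) (nat_lit 63) (nat_lit 5) (nat_lit 64) (nat_lit 5) (nat_lit 351) (nat_lit 321) (nat_lit 228)) (XT.nd (nat_lit 78) (nat_lit 228) (nat_lit 0) (XT.lf (nat_lit 0) (nat_lit 7738097977) (nat_lit 304) (nat_lit 9810553144) (nat_lit 76) (nat_lit 9435712996) (nat_lit 60) (nat_lit 5) (nat_lit 64) (nat_lit 5) (nat_lit 61) (nat_lit 5) (nat_lit 352) (nat_lit 321) (nat_lit 227)) (XT.lf (nat_lit 0) (nat_lit 5108636096) (nat_lit 228) (nat_lit 8124295168) (nat_lit 304) (nat_lit 14598034822) (nat_lit 57) (nat_lit 5) (nat_lit 60) (nat_lit 5) (nat_lit 61) (nat_lit 5) (nat_lit 353) (nat_lit 321) (nat_lit 226)))) (XT.nd (nat_lit 78) (nat_lit 228) (nat_lit 0) (XT.lf (nat_lit 0) (nat_lit 19189258730) (nat_lit 304) (nat_lit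 7642306157) (nat_lit 76) (nat_lit 1879000848) (nat_lit 57) (nat_lit 5) (nat_lit 61) (nat_lit 5) (nat_lit 58) (nat_lit 5) (nat_lit 354) (nat_lit 321) (nat_lit 225)) (XT.nd (nat_lit 78) (nat_lit 76) (nat_lit 0) (XT.lf (nat_lit 0) (nat_lit 8310500626) (nat_lit 152) (nat_lit 17386530375) (nat_lit 228) (nat_lit 3924437905) (nat_lit 55) (nat_lit 5) (nat_lit 57) (nat_lit 5) (nat_lit 58) (nat_lit 5) (nat_lit 355) (nat_lit 321) (nat_lit 224)) (XT.lf (nat_lit 0) (nat_lit 2012105024) (nat_lit 228) (nat_lit 5291881401) (nat_lit 76) (nat_lit 23266295516) (nat_lit 54) (nat_lit 5) (nat_lit 57) (nat_lit 5) (nat_lit 55) (nat_lit 5) (nat_lit 356) (nat_lit 321) (nat_lit 223))))) (XT.nd (nat_lit 234) (nat_lit 380) (nat_lit 0) (XT.nd (nat_lit 78) (nat_lit 152) (nat_lit 0) (XT.lf (nat_lit 0) (nat_lit 8344740836) (nat_lit 304) (nat_lit 19780796890) (nat_lit 76) (nat_lit 3426227807) (nat_lit 51) (nat_lit 5) (nat_lit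 55) (nat_lit 5) (nat_lit 52) (nat_lit 5) (nat_lit 357) (nat_lit 321) (nat_lit 222)) (XT.nd (nat_lit 78) (nat_lit 152) (nat_lit 0) (XT.lf (nat_lit 0) (nat_lit 15196182777) (nat_lit 304) (nat_lit 2841942620) (nat_lit 76) (nat_lit 14534093269) (nat_lit 51) (nat_lit 5) (nat_lit 55) (nat_lit 5) (nat_lit 52) (nat_lit 5) (nat_lit 358) (nat_lit 321) (nat_lit 221)) (XT.lf (nat_lit 0) (nat_lit 15424607623) (nat_lit 152) (nat_lit 7198169683) (nat_lit 228) (nat_lit 11009292014) (nat_lit 49) (nat_lit 5) (nat_lit 51) (nat_lit 5) (nat_lit 52) (nat_lit 5) (nat_lit 359) (nat_lit 321) (nat_lit 220)))) (XT.nd (nat_lit 78) (nat_lit 380) (nat_lit 0) (XT.lf (nat_lit 0) (nat_lit 30526820782) (nat_lit 228) (nat_lit 118519435) (nat_lit 76) (nat_lit 4094270028) (nat_lit 49) (nat_lit 5) (nat_lit 52) (nat_lit 5) (nat_lit 50) (nat_lit 5) (nat_lit 360) (nat_lit 321) (nat_lit 219)) (XT.nd (nat_lit 78) (nat_lit 152) (nat_lit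 0) (XT.lf (nat_lit 0) (nat_lit 3249326213) (nat_lit 228) (nat_lit 16570100842) (nat_lit 76) (nat_lit 16059854313) (nat_lit 46) (nat_lit 5) (nat_lit 49) (nat_lit 5) (nat_lit 47) (nat_lit 5) (nat_lit 361) (nat_lit 321) (nat_lit 218)) (XT.lf (nat_lit 0) (nat_lit 2639437939) (nat_lit 152) (nat_lit 8339098258) (nat_lit 228) (nat_lit 26092171647) (nat_lit 44) (nat_lit 5) (nat_lit 46) (nat_lit 5) (nat_lit 47) (nat_lit 5) (nat_lit 362) (nat_lit 321) (nat_lit 217)))))) (XT.nd (nat_lit 468) (nat_lit 456) (nat_lit 0) (XT.nd (nat_lit 234) (nat_lit 380) (nat_lit 0) (XT.nd (nat_lit 78) (nat_lit 152) (nat_lit 0) (XT.lf (nat_lit 0) (nat_lit 19429851299) (nat_lit 228) (nat_lit 14998142647) (nat_lit 76) (nat_lit 3876932515) (nat_lit 44) (nat_lit 5) (nat_lit 47) (nat_lit 5) (nat_lit 45) (nat_lit 5) (nat_lit 363) (nat_lit 321) (nat_lit 216)) (XT.nd (nat_lit 78) (nat_lit 0) (nat_lit 0) (XT.lf (nat_lit 0) (nat_lit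 5431792893) (nat_lit 152) (nat_lit 23086228587) (nat_lit 228) (nat_lit 11072122959) (nat_lit 42) (nat_lit 5) (nat_lit 44) (nat_lit 5) (nat_lit 45) (nat_lit 5) (nat_lit 364) (nat_lit 321) (nat_lit 215)) (XT.lf (nat_lit 0) (nat_lit 27392127443) (nat_lit 152) (nat_lit 10915410536) (nat_lit 228) (nat_lit 2619741210) (nat_lit 42) (nat_lit 5) (nat_lit 44) (nat_lit 5) (nat_lit 45) (nat_lit 5) (nat_lit 365) (nat_lit 321) (nat_lit 214)))) (XT.nd (nat_lit 78) (nat_lit 152) (nat_lit 0) (XT.lf (nat_lit 0) (nat_lit 6210155794) (nat_lit 228) (nat_lit 34078091366) (nat_lit 76) (nat_lit 2030387738) (nat_lit 39) (nat_lit 5) (nat_lit 42) (nat_lit 5) (nat_lit 40) (nat_lit 5) (nat_lit 366) (nat_lit 321) (nat_lit 213)) (XT.nd (nat_lit 78) (nat_lit 152) (nat_lit 0) (XT.lf (nat_lit 0) (nat_lit 15798668835) (nat_lit 228) (nat_lit 12430355650) (nat_lit 76) (nat_lit 15528130881) (nat_lit 39) (nat_lit 5) (nat_lit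 42) (nat_lit 5) (nat_lit 40) (nat_lit 5) (nat_lit 367) (nat_lit 321) (nat_lit 212)) (XT.lf (nat_lit 0) (nat_lit 10628963444) (nat_lit 152) (nat_lit 15397152364) (nat_lit 228) (nat_lit 19233512906) (nat_lit 37) (nat_lit 5) (nat_lit 39) (nat_lit 5) (nat_lit 40) (nat_lit 5) (nat_lit 368) (nat_lit 321) (nat_lit 211))))) (XT.nd (nat_lit 234) (nat_lit 304) (nat_lit 0) (XT.nd (nat_lit 78) (nat_lit 152) (nat_lit 0) (XT.lf (nat_lit 0) (nat_lit 35261983122) (nat_lit 152) (nat_lit 1707164201) (nat_lit 228) (nat_lit 9857869963) (nat_lit 37) (nat_lit 5) (nat_lit 39) (nat_lit 5) (nat_lit 40) (nat_lit 5) (nat_lit 369) (nat_lit 321) (nat_lit 210)) (XT.nd (nat_lit 78) (nat_lit 0) (nat_lit 0) (XT.lf (nat_lit 0) (nat_lit 385855262) (nat_lit 152) (nat_lit 35602305199) (nat_lit 76) (nat_lit 12464683793) (nat_lit 35) (nat_lit 5) (nat_lit 37) (nat_lit 5) (nat_lit 36) (nat_lit 5) (nat_lit 370) (nat_lit 321) (nat_lit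 209)) (XT.lf (nat_lit 0) (nat_lit 11031493060) (nat_lit 152) (nat_lit 11465138988) (nat_lit 76) (nat_lit 27644201400) (nat_lit 35) (nat_lit 5) (nat_lit 37) (nat_lit 5) (nat_lit 36) (nat_lit 5) (nat_lit 371) (nat_lit 321) (nat_lit 208)))) (XT.nd (nat_lit 156) (nat_lit 152) (nat_lit 0) (XT.nd (nat_lit 78) (nat_lit 0) (nat_lit 0) (XT.lf (nat_lit 0) (nat_lit 14327383998) (nat_lit 152) (nat_lit 8099965867) (nat_lit 228) (nat_lit 29474977162) (nat_lit 33) (nat_lit 5) (nat_lit 35) (nat_lit 5) (nat_lit 36) (nat_lit 5) (nat_lit 372) (nat_lit 321) (nat_lit 207)) (XT.lf (nat_lit 0) (nat_lit 34694197173) (nat_lit 228) (nat_lit 12057462509) (nat_lit 76) (nat_lit 6985177416) (nat_lit 33) (nat_lit 5) (nat_lit 36) (nat_lit 5) (nat_lit 34) (nat_lit 4) (nat_lit 373) (nat_lit 321) (nat_lit 206))) (XT.nd (nat_lit 78) (nat_lit 76) (nat_lit 0) (XT.lf (nat_lit 0) (nat_lit 15075991939) (nat_lit 76) (nat_lit 32861130339)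 (nat_lit 152) (nat_lit 7707815236) (nat_lit 32) (nat_lit 5) (nat_lit 33) (nat_lit 5) (nat_lit 34) (nat_lit 4) (nat_lit 374) (nat_lit 321) (nat_lit 205)) (XT.lf (nat_lit 0) (nat_lit 4261663367) (nat_lit 152) (nat_lit 13731994198) (nat_lit 76) (nat_lit 39641406097) (nat_lit 31) (nat_lit 5) (nat_lit 33) (nat_lit 5) (nat_lit 32) (nat_lit 5) (nat_lit 375) (nat_lit 321) (nat_lit 204))))))))
noncomputable def xc156 : XT := (XT.nd (nat_lit 1872) (nat_lit 684) (nat_lit 0) (XT.nd (nat_lit 936) (nat_lit 456) (nat_lit 0) (XT.nd (nat_lit 468) (nat_lit 304) (nat_lit 0) (XT.nd (nat_lit 234) (nat_lit 228) (nat_lit 0) (XT.nd (nat_lit 78) (nat_lit 76) (nat_lit 0) (XT.lf (nat_lit 0) (nat_lit 14784437202) (nat_lit 152) (nat_lit 2011821972) (nat_lit 228) (nat_lit 42910836637) (nat_lit 29) (nat_lit 5) (nat_lit 31) (nat_lit 5) (nat_lit 32) (nat_lit 5) (nat_lit 376) (nat_lit 321) (nat_lit 203)) (XT.nd (nat_lit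 78) (nat_lit 76) (nat_lit 0) (XT.lf (nat_lit 0) (nat_lit 30419433456) (nat_lit 228) (nat_lit 16911314039) (nat_lit 76) (nat_lit 14528890965) (nat_lit 29) (nat_lit 5) (nat_lit 32) (nat_lit 5) (nat_lit 30) (nat_lit 4) (nat_lit 377) (nat_lit 321) (nat_lit 202)) (XT.lf (nat_lit 0) (nat_lit 12870755115) (nat_lit 76) (nat_lit 32082075027) (nat_lit 152) (nat_lit 19155526182) (nat_lit 28) (nat_lit 5) (nat_lit 29) (nat_lit 5) (nat_lit 30) (nat_lit 4) (nat_lit 378) (nat_lit 321) (nat_lit 201)))) (XT.nd (nat_lit 78) (nat_lit 228) (nat_lit 0) (XT.lf (nat_lit 0) (nat_lit 44720385906) (nat_lit 76) (nat_lit 15774142904) (nat_lit 152) (nat_lit 5960900868) (nat_lit 28) (nat_lit 5) (nat_lit 29) (nat_lit 5) (nat_lit 30) (nat_lit 4) (nat_lit 379) (nat_lit 321) (nat_lit 200)) (XT.nd (nat_lit 78) (nat_lit 0) (nat_lit 0) (XT.lf (nat_lit 0) (nat_lit 7808584571) (nat_lit 228) (nat_lit 59519766293) (nat_lit 76)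 (nat_lit 1576956545) (nat_lit 25) (nat_lit 5) (nat_lit 28) (nat_lit 5) (nat_lit 26) (nat_lit 4) (nat_lit 380) (nat_lit 321) (nat_lit 199)) (XT.lf (nat_lit 0) (nat_lit 22694353953) (nat_lit 228) (nat_lit 29013312975) (nat_lit 76) (nat_lit 19733720402) (nat_lit 25) (nat_lit 5) (nat_lit 28) (nat_lit 5) (nat_lit 26) (nat_lit 4) (nat_lit 381) (nat_lit 321) (nat_lit 198))))) (XT.nd (nat_lit 234) (nat_lit 228) (nat_lit 0) (XT.nd (nat_lit 78) (nat_lit 0) (nat_lit 0) (XT.lf (nat_lit 0) (nat_lit 3109964137) (nat_lit 76) (nat_lit 35258635986) (nat_lit 152) (nat_lit 35733462699) (nat_lit 24) (nat_lit 5) (nat_lit 25) (nat_lit 5) (nat_lit 26) (nat_lit 4) (nat_lit 382) (nat_lit 321) (nat_lit 197)) (XT.nd (nat_lit 78) (nat_lit 0) (nat_lit 0) (XT.lf (nat_lit 0) (nat_lit 37838774304) (nat_lit 76) (nat_lit 17474856348) (nat_lit 152) (nat_lit 21557788780) (nat_lit 24) (nat_lit 5) (nat_lit 25) (nat_lit 5) (nat_lit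 26) (nat_lit 4) (nat_lit 383) (nat_lit 321) (nat_lit 196)) (XT.lf (nat_lit 0) (nat_lit 73120486177) (nat_lit 152) (nat_lit 5501606672) (nat_lit 0) (nat_lit 1156423248) (nat_lit 24) (nat_lit 5) (nat_lit 26) (nat_lit 4) (nat_lit 24) (nat_lit 4) (nat_lit 384) (nat_lit 321) (nat_lit 195)))) (XT.nd (nat_lit 78) (nat_lit 76) (nat_lit 0) (XT.lf (nat_lit 0) (nat_lit 9468421288) (nat_lit 152) (nat_lit 52561143994) (nat_lit 76) (nat_lit 20755920964) (nat_lit 22) (nat_lit 5) (nat_lit 24) (nat_lit 5) (nat_lit 23) (nat_lit 4) (nat_lit 385) (nat_lit 321) (nat_lit 194)) (XT.nd (nat_lit 78) (nat_lit 76) (nat_lit 0) (XT.lf (nat_lit 0) (nat_lit 26268216693) (nat_lit 152) (nat_lit 18128558375) (nat_lit 76) (nat_lit 41536034456) (nat_lit 22) (nat_lit 5) (nat_lit 24) (nat_lit 5) (nat_lit 23) (nat_lit 4) (nat_lit 386) (nat_lit 321) (nat_lit 193)) (XT.lf (nat_lit 0) (nat_lit 18614455712) (nat_lit 76) (nat_lit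 25580432177) (nat_lit 152) (nat_lit 45028267513) (nat_lit 21) (nat_lit 5) (nat_lit 22) (nat_lit 5) (nat_lit 23) (nat_lit 4) (nat_lit 387) (nat_lit 321) (nat_lit 192)))))) (XT.nd (nat_lit 468) (nat_lit 228) (nat_lit 0) (XT.nd (nat_lit 234) (nat_lit 76) (nat_lit 0) (XT.nd (nat_lit 78) (nat_lit 152) (nat_lit 0) (XT.lf (nat_lit 0) (nat_lit 57817136044) (nat_lit 76) (nat_lit 5504105487) (nat_lit 152) (nat_lit 29341610304) (nat_lit 21) (nat_lit 5) (nat_lit 22) (nat_lit 5) (nat_lit 23) (nat_lit 4) (nat_lit 388) (nat_lit 321) (nat_lit 191)) (XT.nd (nat_lit 78) (nat_lit 76) (nat_lit 0) (XT.lf (nat_lit 0) (nat_lit 2536755961) (nat_lit 76) (nat_lit 81146408378) (nat_lit 76) (nat_lit 12577406848) (nat_lit 20) (nat_lit 4) (nat_lit 21) (nat_lit 5) (nat_lit 21) (nat_lit 4) (nat_lit 389) (nat_lit 321) (nat_lit 190)) (XT.lf (nat_lit 0) (nat_lit 5550678318) (nat_lit 152) (nat_lit 57195591710) (nat_lit 76)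 (nat_lit 37253659209) (nat_lit 19) (nat_lit 5) (nat_lit 21) (nat_lit 5) (nat_lit 20) (nat_lit 4) (nat_lit 390) (nat_lit 321) (nat_lit 189)))) (XT.nd (nat_lit 78) (nat_lit 76) (nat_lit 0) (XT.lf (nat_lit 0) (nat_lit 24159121157) (nat_lit 152) (nat_lit 19053503637) (nat_lit 76) (nat_lit 60703489786) (nat_lit 19) (nat_lit 5) (nat_lit 21) (nat_lit 5) (nat_lit 20) (nat_lit 4) (nat_lit 391) (nat_lit 321) (nat_lit 188)) (XT.nd (nat_lit 78) (nat_lit 0) (nat_lit 0) (XT.lf (nat_lit 0) (nat_lit 21683644083) (nat_lit 76) (nat_lit 22349681419) (nat_lit 152) (nat_lit 63978017273) (nat_lit 18) (nat_lit 5) (nat_lit 19) (nat_lit 5) (nat_lit 20) (nat_lit 4) (nat_lit 392) (nat_lit 321) (nat_lit 187)) (XT.lf (nat_lit 0) (nat_lit 65113184718) (nat_lit 76) (nat_lit 107592052) (nat_lit 152) (nat_lit 47074579300) (nat_lit 18) (nat_lit 5) (nat_lit 19) (nat_lit 5) (nat_lit 20) (nat_lit 4) (nat_lit 393) (nat_lit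 321) (nat_lit 186))))) (XT.nd (nat_lit 234) (nat_lit 76) (nat_lit 0) (XT.nd (nat_lit 78) (nat_lit 152) (nat_lit 0) (XT.lf (nat_lit 0) (nat_lit 87827509437) (nat_lit 152) (nat_lit 6448095905) (nat_lit 0) (nat_lit 22499969747) (nat_lit 18) (nat_lit 5) (nat_lit 20) (nat_lit 4) (nat_lit 18) (nat_lit 4) (nat_lit 394) (nat_lit 321) (nat_lit 185)) (XT.nd (nat_lit 78) (nat_lit 76) (nat_lit 0) (XT.lf (nat_lit 0) (nat_lit 37516162765) (nat_lit 76) (nat_lit 74633021008) (nat_lit 76) (nat_lit 9301391510) (nat_lit 17) (nat_lit 4) (nat_lit 18) (nat_lit 5) (nat_lit 18) (nat_lit 4) (nat_lit 395) (nat_lit 321) (nat_lit 184)) (XT.lf (nat_lit 0) (nat_lit 11073168579) (nat_lit 152) (nat_lit 42635528965) (nat_lit 76) (nat_lit 72636380248) (nat_lit 16) (nat_lit 5) (nat_lit 18) (nat_lit 5) (nat_lit 17) (nat_lit 4) (nat_lit 396) (nat_lit 321) (nat_lit 183)))) (XT.nd (nat_lit 78) (nat_lit 0) (nat_lit 0) (XT.lf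 (nat_lit 0) (nat_lit 589429770) (nat_lit 76) (nat_lit 31570894083) (nat_lit 152) (nat_lit 99316035148) (nat_lit 15) (nat_lit 5) (nat_lit 16) (nat_lit 5) (nat_lit 17) (nat_lit 4) (nat_lit 397) (nat_lit 321) (nat_lit 182)) (XT.nd (nat_lit 78) (nat_lit 0) (nat_lit 0) (XT.lf (nat_lit 0) (nat_lit 47450677853) (nat_lit 76) (nat_lit 7570514786) (nat_lit 152) (nat_lit 81807044236) (nat_lit 15) (nat_lit 5) (nat_lit 16) (nat_lit 5) (nat_lit 17) (nat_lit 4) (nat_lit 398) (nat_lit 321) (nat_lit 181)) (XT.lf (nat_lit 0) (nat_lit 79297750915) (nat_lit 152) (nat_lit 46072986081) (nat_lit 0) (nat_lit 17063339719) (nat_lit 15) (nat_lit 5) (nat_lit 17) (nat_lit 4) (nat_lit 15) (nat_lit 4) (nat_lit 399) (nat_lit 321) (nat_lit 180))))))) (XT.nd (nat_lit 936) (nat_lit 228) (nat_lit 0) (XT.nd (nat_lit 468) (nat_lit 228) (nat_lit 0) (XT.nd (nat_lit 234) (nat_lit 76) (nat_lit 0) (XT.nd (nat_lit 78) (nat_lit 152)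 (nat_lit 0) (XT.lf (nat_lit 0) (nat_lit 104909762150) (nat_lit 152) (nat_lit 732066424) (nat_lit 0) (nat_lit 42672299077) (nat_lit 15) (nat_lit 5) (nat_lit 17) (nat_lit 4) (nat_lit 15) (nat_lit 4) (nat_lit 400) (nat_lit 321) (nat_lit 179)) (XT.nd (nat_lit 78) (nat_lit 76) (nat_lit 0) (XT.lf (nat_lit 0) (nat_lit 48421130027) (nat_lit 76) (nat_lit 84134869884) (nat_lit 76) (nat_lit 21894500261) (nat_lit 14) (nat_lit 4) (nat_lit 15) (nat_lit 5) (nat_lit 15) (nat_lit 4) (nat_lit 401) (nat_lit 321) (nat_lit 178)) (XT.lf (nat_lit 0) (nat_lit 678988364) (nat_lit 152) (nat_lit 60851211618) (nat_lit 76) (nat_lit 99362440239) (nat_lit 13) (nat_lit 5) (nat_lit 15) (nat_lit 5) (nat_lit 14) (nat_lit 4) (nat_lit 402) (nat_lit 321) (nat_lit 177)))) (XT.nd (nat_lit 78) (nat_lit 76) (nat_lit 0) (XT.lf (nat_lit 0) (nat_lit 23643105747) (nat_lit 152) (nat_lit 13777407311) (nat_lit 76) (nat_lit 130218540541)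 (nat_lit 13) (nat_lit 5) (nat_lit 15) (nat_lit 5) (nat_lit 14) (nat_lit 4) (nat_lit 403) (nat_lit 321) (nat_lit 176)) (XT.nd (nat_lit 78) (nat_lit 0) (nat_lit 0) (XT.lf (nat_lit 0) (nat_lit 36824574116) (nat_lit 76) (nat_lit 11503649784) (nat_lit 152) (nat_lit 126365924279) (nat_lit 12) (nat_lit 5) (nat_lit 13) (nat_lit 5) (nat_lit 14) (nat_lit 4) (nat_lit 404) (nat_lit 321) (nat_lit 175)) (XT.lf (nat_lit 0) (nat_lit 74727880398) (nat_lit 152) (nat_lit 91908581033) (nat_lit 0) (nat_lit 15441522201) (nat_lit 12) (nat_lit 5) (nat_lit 14) (nat_lit 4) (nat_lit 12) (nat_lit 4) (nat_lit 405) (nat_lit 321) (nat_lit 174))))) (XT.nd (nat_lit 234) (nat_lit 152) (nat_lit 0) (XT.nd (nat_lit 78) (nat_lit 76) (nat_lit 0) (XT.lf (nat_lit 0) (nat_lit 102634073613) (nat_lit 152) (nat_lit 43842063298) (nat_lit 0) (nat_lit 43345546504) (nat_lit 12) (nat_lit 5) (nat_lit 14) (nat_lit 4) (nat_lit 12) (nat_lit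 4) (nat_lit 406) (nat_lit 321) (nat_lit 173)) (XT.nd (nat_lit 78) (nat_lit 0) (nat_lit 0) (XT.lf (nat_lit 0) (nat_lit 6843047703) (nat_lit 76) (nat_lit 125197434100) (nat_lit 76) (nat_lit 65906841360) (nat_lit 11) (nat_lit 4) (nat_lit 12) (nat_lit 5) (nat_lit 12) (nat_lit 4) (nat_lit 407) (nat_lit 321) (nat_lit 172)) (XT.lf (nat_lit 0) (nat_lit 61580819344) (nat_lit 76) (nat_lit 102076978217) (nat_lit 76) (nat_lit 42784418209) (nat_lit 11) (nat_lit 4) (nat_lit 12) (nat_lit 5) (nat_lit 12) (nat_lit 4) (nat_lit 408) (nat_lit 321) (nat_lit 171)))) (XT.nd (nat_lit 78) (nat_lit 152) (nat_lit 0) (XT.lf (nat_lit 0) (nat_lit 119051963043) (nat_lit 76) (nat_lit 77802207113) (nat_lit 76) (nat_lit 18507773517) (nat_lit 11) (nat_lit 4) (nat_lit 12) (nat_lit 5) (nat_lit 12) (nat_lit 4) (nat_lit 409) (nat_lit 321) (nat_lit 170)) (XT.nd (nat_lit 78) (nat_lit 76) (nat_lit 0) (XT.lf (nat_lit 0) (nat_lit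 6757462038) (nat_lit 152) (nat_lit 45443420787) (nat_lit 76) (nat_lit 172521411929) (nat_lit 10) (nat_lit 5) (nat_lit 12) (nat_lit 5) (nat_lit 11) (nat_lit 4) (nat_lit 410) (nat_lit 321) (nat_lit 169)) (XT.lf (nat_lit 0) (nat_lit 7913084107) (nat_lit 76) (nat_lit 24872770269) (nat_lit 152) (nat_lit 201743545016) (nat_lit 9) (nat_lit 5) (nat_lit 10) (nat_lit 5) (nat_lit 11) (nat_lit 4) (nat_lit 411) (nat_lit 321) (nat_lit 168)))))) (XT.nd (nat_lit 468) (nat_lit 152) (nat_lit 0) (XT.nd (nat_lit 234) (nat_lit 76) (nat_lit 0) (XT.nd (nat_lit 78) (nat_lit 0) (nat_lit 0) (XT.lf (nat_lit 0) (nat_lit 60955894793) (nat_lit 152) (nat_lit 179348806855) (nat_lit 0) (nat_lit 4480146372) (nat_lit 9) (nat_lit 5) (nat_lit 11) (nat_lit 4) (nat_lit 9) (nat_lit 4) (nat_lit 412) (nat_lit 321) (nat_lit 167)) (XT.nd (nat_lit 78) (nat_lit 0) (nat_lit 0) (XT.lf (nat_lit 0) (nat_lit 90940604180) (nat_lit 152) (nat_lit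 130128768970) (nat_lit 0) (nat_lit 34463387754) (nat_lit 9) (nat_lit 5) (nat_lit 11) (nat_lit 4) (nat_lit 9) (nat_lit 4) (nat_lit 413) (nat_lit 321) (nat_lit 166)) (XT.lf (nat_lit 0) (nat_lit 122423041053) (nat_lit 152) (nat_lit 78450677413) (nat_lit 0) (nat_lit 65944426527) (nat_lit 9) (nat_lit 5) (nat_lit 11) (nat_lit 4) (nat_lit 9) (nat_lit 4) (nat_lit 414) (nat_lit 321) (nat_lit 165)))) (XT.nd (nat_lit 78) (nat_lit 76) (nat_lit 0) (XT.lf (nat_lit 0) (nat_lit 155478163595) (nat_lit 152) (nat_lit 24191489111) (nat_lit 0) (nat_lit 98998217544) (nat_lit 9) (nat_lit 5) (nat_lit 11) (nat_lit 4) (nat_lit 9) (nat_lit 4) (nat_lit 415) (nat_lit 321) (nat_lit 164)) (XT.nd (nat_lit 78) (nat_lit 0) (nat_lit 0) (XT.lf (nat_lit 0) (nat_lit 33861772676) (nat_lit 76) (nat_lit 156851578971) (nat_lit 76) (nat_lit 100370364802) (nat_lit 8) (nat_lit 4) (nat_lit 9) (nat_lit 5) (nat_lit 9) (nat_lit 4) (nat_lit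 416) (nat_lit 321) (nat_lit 163)) (XT.lf (nat_lit 0) (nat_lit 95654940435) (nat_lit 76) (nat_lit 132463709511) (nat_lit 76) (nat_lit 75981287611) (nat_lit 8) (nat_lit 4) (nat_lit 9) (nat_lit 5) (nat_lit 9) (nat_lit 4) (nat_lit 417) (nat_lit 321) (nat_lit 162))))) (XT.nd (nat_lit 234) (nat_lit 76) (nat_lit 0) (XT.nd (nat_lit 78) (nat_lit 76) (nat_lit 0) (XT.lf (nat_lit 0) (nat_lit 160535260873) (nat_lit 76) (nat_lit 106857672545) (nat_lit 76) (nat_lit 50374100424) (nat_lit 8) (nat_lit 4) (nat_lit 9) (nat_lit 5) (nat_lit 9) (nat_lit 4) (nat_lit 418) (nat_lit 321) (nat_lit 161)) (XT.nd (nat_lit 78) (nat_lit 76) (nat_lit 0) (XT.lf (nat_lit 0) (nat_lit 228657210943) (nat_lit 76) (nat_lit 79972501317) (nat_lit 76) (nat_lit 23487833748) (nat_lit 8) (nat_lit 4) (nat_lit 9) (nat_lit 5) (nat_lit 9) (nat_lit 4) (nat_lit 419) (nat_lit 321) (nat_lit 160)) (XT.lf (nat_lit 0) (nat_lit 4589768850) (nat_lit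 152) (nat_lit 47076684709) (nat_lit 76) (nat_lit 295515486958) (nat_lit 7) (nat_lit 5) (nat_lit 9) (nat_lit 5) (nat_lit 8) (nat_lit 4) (nat_lit 420) (nat_lit 321) (nat_lit 159)))) (XT.nd (nat_lit 156) (nat_lit 0) (nat_lit 0) (XT.nd (nat_lit 78) (nat_lit 0) (nat_lit 0) (XT.lf (nat_lit 0) (nat_lit 12127040964) (nat_lit 76) (nat_lit 21343078753) (nat_lit 152) (nat_lit 329500772153) (nat_lit 6) (nat_lit 5) (nat_lit 7) (nat_lit 5) (nat_lit 8) (nat_lit 4) (nat_lit 421) (nat_lit 321) (nat_lit 158)) (XT.lf (nat_lit 0) (nat_lit 64767583116) (nat_lit 152) (nat_lit 303763232530) (nat_lit 0) (nat_lit 10969820500) (nat_lit 6) (nat_lit 5) (nat_lit 8) (nat_lit 4) (nat_lit 6) (nat_lit 4) (nat_lit 422) (nat_lit 321) (nat_lit 157))) (XT.nd (nat_lit 78) (nat_lit 0) (nat_lit 0) (XT.lf (nat_lit 0) (nat_lit 97978738963) (nat_lit 152) (nat_lit 254680569773) (nat_lit 0) (nat_lit 44180118035) (nat_lit 6) (nat_lit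 5) (nat_lit 8) (nat_lit 4) (nat_lit 6) (nat_lit 4) (nat_lit 423) (nat_lit 321) (nat_lit 156)) (XT.lf (nat_lit 0) (nat_lit 132849436167) (nat_lit 152) (nat_lit 203145773880) (nat_lit 0) (nat_lit 79049997799) (nat_lit 6) (nat_lit 5) (nat_lit 8) (nat_lit 4) (nat_lit 6) (nat_lit 4) (nat_lit 424) (nat_lit 321) (nat_lit 155))))))))
noncomputable def xc157 : XT := (XT.nd (nat_lit 39858) (nat_lit 0) (nat_lit 3572) (XT.nd (nat_lit 38844) (nat_lit 0) (nat_lit 7372) (XT.nd (nat_lit 468) (nat_lit 76) (nat_lit 0) (XT.nd (nat_lit 234) (nat_lit 76) (nat_lit 0) (XT.nd (nat_lit 78) (nat_lit 0) (nat_lit 0) (XT.lf (nat_lit 0) (nat_lit 169462700198) (nat_lit 152) (nat_lit 149036142954) (nat_lit 0) (nat_lit 115662483315) (nat_lit 6) (nat_lit 5) (nat_lit 8) (nat_lit 4) (nat_lit 6) (nat_lit 4) (nat_lit 425) (nat_lit 321) (nat_lit 154)) (XT.nd (nat_lit 78) (nat_lit 0) (nat_lit 0) (XT.lf (nat_lit 0) (nat_lit 207905705493)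 (nat_lit 152) (nat_lit 92222844542) (nat_lit 0) (nat_lit 154104747167) (nat_lit 6) (nat_lit 5) (nat_lit 8) (nat_lit 4) (nat_lit 6) (nat_lit 4) (nat_lit 426) (nat_lit 321) (nat_lit 153)) (XT.lf (nat_lit 0) (nat_lit 248269983017) (nat_lit 152) (nat_lit 32570608885) (nat_lit 0) (nat_lit 194468318556) (nat_lit 6) (nat_lit 5) (nat_lit 8) (nat_lit 4) (nat_lit 6) (nat_lit 4) (nat_lit 427) (nat_lit 321) (nat_lit 152)))) (XT.nd (nat_lit 78) (nat_lit 0) (nat_lit 0) (XT.lf (nat_lit 0) (nat_lit 31056598244) (nat_lit 76) (nat_lit 260079920483) (nat_lit 76) (nat_lit 206277583512) (nat_lit 5) (nat_lit 4) (nat_lit 6) (nat_lit 5) (nat_lit 6) (nat_lit 4) (nat_lit 428) (nat_lit 321) (nat_lit 151)) (XT.nd (nat_lit 78) (nat_lit 0) (nat_lit 0) (XT.lf (nat_lit 0) (nat_lit 98994324857) (nat_lit 76) (nat_lit 237702833709) (nat_lit 76) (nat_lit 183899856252) (nat_lit 5) (nat_lit 4) (nat_lit 6) (nat_lit 5) (nat_lit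 6) (nat_lit 4) (nat_lit 429) (nat_lit 321) (nat_lit 150)) (XT.lf (nat_lit 0) (nat_lit 170327396023) (nat_lit 76) (nat_lit 214207651822) (nat_lit 76) (nat_lit 160404064378) (nat_lit 5) (nat_lit 4) (nat_lit 6) (nat_lit 5) (nat_lit 6) (nat_lit 4) (nat_lit 430) (nat_lit 321) (nat_lit 149))))) (XT.nd (nat_lit 234) (nat_lit 76) (nat_lit 0) (XT.nd (nat_lit 78) (nat_lit 0) (nat_lit 0) (XT.lf (nat_lit 0) (nat_lit 245225652388) (nat_lit 76) (nat_lit 189538433913) (nat_lit 76) (nat_lit 135734265530) (nat_lit 5) (nat_lit 4) (nat_lit 6) (nat_lit 5) (nat_lit 6) (nat_lit 4) (nat_lit 431) (nat_lit 321) (nat_lit 148)) (XT.nd (nat_lit 78) (nat_lit 0) (nat_lit 0) (XT.lf (nat_lit 0) (nat_lit 323867423132) (nat_lit 76) (nat_lit 163636443750) (nat_lit 76) (nat_lit 109831722092) (nat_lit 5) (nat_lit 4) (nat_lit 6) (nat_lit 5) (nat_lit 6) (nat_lit 4) (nat_lit 432) (nat_lit 321) (nat_lit 147)) (XT.lf (nat_lit 0)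 (nat_lit 406439950568) (nat_lit 76) (nat_lit 136440009928) (nat_lit 76) (nat_lit 82634761340) (nat_lit 5) (nat_lit 4) (nat_lit 6) (nat_lit 5) (nat_lit 6) (nat_lit 4) (nat_lit 433) (nat_lit 321) (nat_lit 146)))) (XT.nd (nat_lit 78) (nat_lit 76) (nat_lit 0) (XT.lf (nat_lit 0) (nat_lit 493139835951) (nat_lit 76) (nat_lit 107884379032) (nat_lit 76) (nat_lit 54078628606) (nat_lit 5) (nat_lit 4) (nat_lit 6) (nat_lit 5) (nat_lit 6) (nat_lit 4) (nat_lit 434) (nat_lit 321) (nat_lit 145)) (XT.nd (nat_lit 78) (nat_lit 76) (nat_lit 0) (XT.lf (nat_lit 0) (nat_lit 584173507580) (nat_lit 76) (nat_lit 77901561464) (nat_lit 76) (nat_lit 24095333098) (nat_lit 5) (nat_lit 4) (nat_lit 6) (nat_lit 5) (nat_lit 6) (nat_lit 4) (nat_lit 435) (nat_lit 321) (nat_lit 144)) (XT.lf (nat_lit 0) (nat_lit 7150099404) (nat_lit 152) (nat_lit 39148979768) (nat_lit 76) (nat_lit 672486522495) (nat_lit 4) (nat_lit 5) (nat_lit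 6) (nat_lit 5) (nat_lit 5) (nat_lit 4) (nat_lit 436) (nat_lit 321) (nat_lit 143)))))) (XT.nd (nat_lit 468) (nat_lit 1216) (nat_lit 0) (XT.nd (nat_lit 234) (nat_lit 0) (nat_lit 76) (XT.nd (nat_lit 78) (nat_lit 0) (nat_lit 0) (XT.lf (nat_lit 0) (nat_lit 1994202332) (nat_lit 0) (nat_lit 1994202332) (nat_lit 684) (nat_lit 2122627994) (nat_lit 117) (nat_lit 5) (nat_lit 117) (nat_lit 3) (nat_lit 126) (nat_lit 3) (nat_lit 322) (nat_lit 322) (nat_lit 256)) (XT.nd (nat_lit 78) (nat_lit 0) (nat_lit 0) (XT.lf (nat_lit 0) (nat_lit 8639468346) (nat_lit 684) (nat_lit 2406058537) (nat_lit 760) (nat_lit 1458521076) (nat_lit 117) (nat_lit 5) (nat_lit 126) (nat_lit 3) (nat_lit 127) (nat_lit 5) (nat_lit 323) (nat_lit 322) (nat_lit 255)) (XT.lf (nat_lit 76) (nat_lit 3751897401) (nat_lit 0) (nat_lit 5679396751) (nat_lit 760) (nat_lit 3364059944) (nat_lit 118) (nat_lit 5) (nat_lit 117) (nat_lit 5) (nat_lit 127)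 (nat_lit 5) (nat_lit 324) (nat_lit 322) (nat_lit 254)))) (XT.nd (nat_lit 78) (nat_lit 0) (nat_lit 0) (XT.lf (nat_lit 0) (nat_lit 10276763340) (nat_lit 684) (nat_lit 2814887459) (nat_lit 760) (nat_lit 8896952) (nat_lit 118) (nat_lit 5) (nat_lit 127) (nat_lit 5) (nat_lit 128) (nat_lit 5) (nat_lit 325) (nat_lit 322) (nat_lit 253)) (XT.nd (nat_lit 78) (nat_lit 0) (nat_lit 0) (XT.lf (nat_lit 76) (nat_lit 3735353026) (nat_lit 0) (nat_lit 7555185043) (nat_lit 760) (nat_lit 2124185051) (nat_lit 119) (nat_lit 5) (nat_lit 118) (nat_lit 5) (nat_lit 128) (nat_lit 5) (nat_lit 326) (nat_lit 322) (nat_lit 252)) (XT.lf (nat_lit 76) (nat_lit 10694886503) (nat_lit 0) (nat_lit 1683354593) (nat_lit 760) (nat_lit 1365226691) (nat_lit 119) (nat_lit 5) (nat_lit 118) (nat_lit 5) (nat_lit 128) (nat_lit 5) (nat_lit 327) (nat_lit 322) (nat_lit 251))))) (XT.nd (nat_lit 234) (nat_lit 608) (nat_lit 0) (XT.nd (nat_lit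 78) (nat_lit 760) (nat_lit 0) (XT.lf (nat_lit 76) (nat_lit 3953818926) (nat_lit 0) (nat_lit 9675075868) (nat_lit 760) (nat_lit 454348054) (nat_lit 120) (nat_lit 5) (nat_lit 119) (nat_lit 5) (nat_lit 129) (nat_lit 5) (nat_lit 328) (nat_lit 322) (nat_lit 250)) (XT.nd (nat_lit 78) (nat_lit 0) (nat_lit 76) (XT.lf (nat_lit 0) (nat_lit 543397609) (nat_lit 760) (nat_lit 3078527874) (nat_lit 836) (nat_lit 10814839053) (nat_lit 109) (nat_lit 5) (nat_lit 119) (nat_lit 5) (nat_lit 120) (nat_lit 5) (nat_lit 329) (nat_lit 322) (nat_lit 249)) (XT.lf (nat_lit 0) (nat_lit 1667565277) (nat_lit 760) (nat_lit 10405753799) (nat_lit 836) (nat_lit 2729699143) (nat_lit 110) (nat_lit 5) (nat_lit 120) (nat_lit 5) (nat_lit 121) (nat_lit 5) (nat_lit 330) (nat_lit 322) (nat_lit 248)))) (XT.nd (nat_lit 156) (nat_lit 684) (nat_lit 0) (XT.nd (nat_lit 78) (nat_lit 0) (nat_lit 76) (XT.lf (nat_lit 0) (nat_lit 2939565369)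 (nat_lit 760) (nat_lit 2908547191) (nat_lit 836) (nat_lit 9334908461) (nat_lit 110) (nat_lit 5) (nat_lit 120) (nat_lit 5) (nat_lit 121) (nat_lit 5) (nat_lit 331) (nat_lit 322) (nat_lit 247)) (XT.lf (nat_lit 0) (nat_lit 4347314956) (nat_lit 760) (nat_lit 10480302126) (nat_lit 76) (nat_lit 750816202) (nat_lit 111) (nat_lit 5) (nat_lit 121) (nat_lit 5) (nat_lit 112) (nat_lit 5) (nat_lit 332) (nat_lit 322) (nat_lit 246))) (XT.nd (nat_lit 78) (nat_lit 760) (nat_lit 0) (XT.lf (nat_lit 0) (nat_lit 5952371853) (nat_lit 760) (nat_lit 2498717081) (nat_lit 76) (nat_lit 7536197234) (nat_lit 111) (nat_lit 5) (nat_lit 121) (nat_lit 5) (nat_lit 112) (nat_lit 5) (nat_lit 333) (nat_lit 322) (nat_lit 245)) (XT.lf (nat_lit 0) (nat_lit 6059698046) (nat_lit 760) (nat_lit 1654481917) (nat_lit 836) (nat_lit 8698592046) (nat_lit 101) (nat_lit 5) (nat_lit 111) (nat_lit 5) (nat_lit 112) (nat_lit 5) (nat_lit 334)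 (nat_lit 322) (nat_lit 244))))))) (XT.nd (nat_lit 936) (nat_lit 1748) (nat_lit 0) (XT.nd (nat_lit 468) (nat_lit 912) (nat_lit 0) (XT.nd (nat_lit 234) (nat_lit 760) (nat_lit 0) (XT.nd (nat_lit 78) (nat_lit 380) (nat_lit 0) (XT.lf (nat_lit 0) (nat_lit 9675205339) (nat_lit 836) (nat_lit 1827764785) (nat_lit 76) (nat_lit 5351020185) (nat_lit 101) (nat_lit 5) (nat_lit 112) (nat_lit 5) (nat_lit 102) (nat_lit 5) (nat_lit 335) (nat_lit 322) (nat_lit 243)) (XT.nd (nat_lit 78) (nat_lit 0) (nat_lit 0) (XT.lf (nat_lit 0) (nat_lit 7314757669) (nat_lit 380) (nat_lit 4544210327) (nat_lit 456) (nat_lit 5452081047) (nat_lit 96) (nat_lit 5) (nat_lit 101) (nat_lit 5) (nat_lit 102) (nat_lit 5) (nat_lit 336) (nat_lit 322) (nat_lit 242)) (XT.lf (nat_lit 0) (nat_lit 14210420652) (nat_lit 456) (nat_lit 871799803) (nat_lit 76) (nat_lit 2705828325) (nat_lit 96) (nat_lit 5) (nat_lit 102) (nat_lit 5) (nat_lit 97)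 (nat_lit 5) (nat_lit 337) (nat_lit 322) (nat_lit 241)))) (XT.nd (nat_lit 78) (nat_lit 456) (nat_lit 0) (XT.lf (nat_lit 0) (nat_lit 8903570683) (nat_lit 304) (nat_lit 7974056552) (nat_lit 380) (nat_lit 1401374737) (nat_lit 92) (nat_lit 5) (nat_lit 96) (nat_lit 5) (nat_lit 97) (nat_lit 5) (nat_lit 338) (nat_lit 322) (nat_lit 240)) (XT.nd (nat_lit 78) (nat_lit 0) (nat_lit 0) (XT.lf (nat_lit 0) (nat_lit 386466942) (nat_lit 380) (nat_lit 474889211) (nat_lit 456) (nat_lit 17932170771) (nat_lit 86) (nat_lit 5) (nat_lit 91) (nat_lit 5) (nat_lit 92) (nat_lit 5) (nat_lit 339) (nat_lit 322) (nat_lit 239)) (XT.lf (nat_lit 0) (nat_lit 3452392698) (nat_lit 456) (nat_lit 8521523796) (nat_lit 76) (nat_lit 7345610565) (nat_lit 86) (nat_lit 5) (nat_lit 92) (nat_lit 5) (nat_lit 87) (nat_lit 5) (nat_lit 340) (nat_lit 322) (nat_lit 238))))) (XT.nd (nat_lit 234) (nat_lit 304) (nat_lit 0) (XT.nd (nat_lit 78)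 (nat_lit 304) (nat_lit 0) (XT.lf (nat_lit 0) (nat_lit 1895417564) (nat_lit 304) (nat_lit 4300999730) (nat_lit 380) (nat_lit 13674248406) (nat_lit 82) (nat_lit 5) (nat_lit 86) (nat_lit 5) (nat_lit 87) (nat_lit 5) (nat_lit 341) (nat_lit 322) (nat_lit 237)) (XT.nd (nat_lit 78) (nat_lit 304) (nat_lit 0) (XT.lf (nat_lit 0) (nat_lit 9269409368) (nat_lit 380) (nat_lit 7390244737) (nat_lit 76) (nat_lit 3780128677) (nat_lit 82) (nat_lit 5) (nat_lit 87) (nat_lit 5) (nat_lit 83) (nat_lit 5) (nat_lit 342) (nat_lit 322) (nat_lit 236)) (XT.lf (nat_lit 0) (nat_lit 3758409769) (nat_lit 304) (nat_lit 8853923461) (nat_lit 380) (nat_lit 8419217730) (nat_lit 78) (nat_lit 5) (nat_lit 82) (nat_lit 5) (nat_lit 83) (nat_lit 5) (nat_lit 343) (nat_lit 322) (nat_lit 235)))) (XT.nd (nat_lit 78) (nat_lit 304) (nat_lit 0) (XT.lf (nat_lit 0) (nat_lit 15705934276) (nat_lit 304) (nat_lit 529099298) (nat_lit 380) (nat_lit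 5412251367) (nat_lit 78) (nat_lit 5) (nat_lit 82) (nat_lit 5) (nat_lit 83) (nat_lit 5) (nat_lit 344) (nat_lit 322) (nat_lit 234)) (XT.nd (nat_lit 78) (nat_lit 76) (nat_lit 0) (XT.lf (nat_lit 0) (nat_lit 6006068450) (nat_lit 228) (nat_lit 14242814514) (nat_lit 304) (nat_lit 2034430439) (nat_lit 75) (nat_lit 5) (nat_lit 78) (nat_lit 5) (nat_lit 79) (nat_lit 5) (nat_lit 345) (nat_lit 322) (nat_lit 233)) (XT.lf (nat_lit 0) (nat_lit 1562994032) (nat_lit 304) (nat_lit 4238055706) (nat_lit 76) (nat_lit 17143964949) (nat_lit 74) (nat_lit 5) (nat_lit 78) (nat_lit 5) (nat_lit 75) (nat_lit 5) (nat_lit 346) (nat_lit 322) (nat_lit 232)))))) (XT.nd (nat_lit 468) (nat_lit 684) (nat_lit 0) (XT.nd (nat_lit 234) (nat_lit 532) (nat_lit 0) (XT.nd (nat_lit 78) (nat_lit 228) (nat_lit 0) (XT.lf (nat_lit 0) (nat_lit 5445943806) (nat_lit 380) (nat_lit 15050902252) (nat_lit 76) (nat_lit 3132593525) (nat_lit 70)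 (nat_lit 5) (nat_lit 75) (nat_lit 5) (nat_lit 71) (nat_lit 5) (nat_lit 347) (nat_lit 322) (nat_lit 231)) (XT.nd (nat_lit 78) (nat_lit 228) (nat_lit 0) (XT.lf (nat_lit 0) (nat_lit 9680090111) (nat_lit 380) (nat_lit 2272365652) (nat_lit 76) (nat_lit 12387784488) (nat_lit 70) (nat_lit 5) (nat_lit 75) (nat_lit 5) (nat_lit 71) (nat_lit 5) (nat_lit 348) (nat_lit 322) (nat_lit 230)) (XT.lf (nat_lit 0) (nat_lit 11499153397) (nat_lit 228) (nat_lit 2795847896) (nat_lit 304) (nat_lit 10783133430) (nat_lit 67) (nat_lit 5) (nat_lit 70) (nat_lit 5) (nat_lit 71) (nat_lit 5) (nat_lit 349) (nat_lit 322) (nat_lit 229)))) (XT.nd (nat_lit 78) (nat_lit 304) (nat_lit 0) (XT.lf (nat_lit 0) (nat_lit 68004789) (nat_lit 228) (nat_lit 19209038575) (nat_lit 304) (nat_lit 6569067616) (nat_lit 64) (nat_lit 5) (nat_lit 67) (nat_lit 5) (nat_lit 68) (nat_lit 5) (nat_lit 350) (nat_lit 322) (nat_lit 228)) (XT.nd (nat_lit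 78) (nat_lit 304) (nat_lit 0) (XT.lf (nat_lit 0) (nat_lit 14807428485) (nat_lit 228) (nat_lit 9965841304) (nat_lit 304) (nat_lit 1865968179) (nat_lit 64) (nat_lit 5) (nat_lit 67) (nat_lit 5) (nat_lit 68) (nat_lit 5) (nat_lit 351) (nat_lit 322) (nat_lit 227)) (XT.lf (nat_lit 0) (nat_lit 2841115608) (nat_lit 228) (nat_lit 167531184) (nat_lit 304) (nat_lit 24459246985) (nat_lit 60) (nat_lit 5) (nat_lit 63) (nat_lit 5) (nat_lit 64) (nat_lit 5) (nat_lit 352) (nat_lit 322) (nat_lit 226))))) (XT.nd (nat_lit 234) (nat_lit 456) (nat_lit 0) (XT.nd (nat_lit 78) (nat_lit 228) (nat_lit 0) (XT.lf (nat_lit 0) (nat_lit 8416481348) (nat_lit 304) (nat_lit 9875235643) (nat_lit 76) (nat_lit 10027131232) (nat_lit 60) (nat_lit 5) (nat_lit 64) (nat_lit 5) (nat_lit 61) (nat_lit 5) (nat_lit 353) (nat_lit 322) (nat_lit 225)) (XT.nd (nat_lit 78) (nat_lit 0) (nat_lit 0) (XT.lf (nat_lit 0) (nat_lit 5783044589) (nat_lit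 228) (nat_lit 8395673183) (nat_lit 304) (nat_lit 15029437071) (nat_lit 57) (nat_lit 5) (nat_lit 60) (nat_lit 5) (nat_lit 61) (nat_lit 5) (nat_lit 354) (nat_lit 322) (nat_lit 224)) (XT.lf (nat_lit 0) (nat_lit 20421336071) (nat_lit 304) (nat_lit 7613725222) (nat_lit 76) (nat_lit 2097256724) (nat_lit 57) (nat_lit 5) (nat_lit 61) (nat_lit 5) (nat_lit 58) (nat_lit 5) (nat_lit 355) (nat_lit 322) (nat_lit 223)))) (XT.nd (nat_lit 156) (nat_lit 228) (nat_lit 0) (XT.nd (nat_lit 78) (nat_lit 76) (nat_lit 0) (XT.lf (nat_lit 0) (nat_lit 9130097767) (nat_lit 152) (nat_lit 18117726248) (nat_lit 228) (nat_lit 3841282895) (nat_lit 55) (nat_lit 5) (nat_lit 57) (nat_lit 5) (nat_lit 58) (nat_lit 5) (nat_lit 356) (nat_lit 322) (nat_lit 222)) (XT.lf (nat_lit 0) (nat_lit 2370267512) (nat_lit 228) (nat_lit 5163003382) (nat_lit 76) (nat_lit 24552521780) (nat_lit 54) (nat_lit 5) (nat_lit 57) (nat_lit 5) (nat_lit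 55) (nat_lit 5) (nat_lit 357) (nat_lit 322) (nat_lit 221))) (XT.nd (nat_lit 78) (nat_lit 0) (nat_lit 0) (XT.lf (nat_lit 0) (nat_lit 9015434650) (nat_lit 304) (nat_lit 20372144653) (nat_lit 76) (nat_lit 3728982141) (nat_lit 51) (nat_lit 5) (nat_lit 55) (nat_lit 5) (nat_lit 52) (nat_lit 5) (nat_lit 358) (nat_lit 322) (nat_lit 220)) (XT.lf (nat_lit 0) (nat_lit 16197379319) (nat_lit 304) (nat_lit 2605285388) (nat_lit 76) (nat_lit 15385981688) (nat_lit 51) (nat_lit 5) (nat_lit 55) (nat_lit 5) (nat_lit 52) (nat_lit 5) (nat_lit 359) (nat_lit 322) (nat_lit 219))))))))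
noncomputable def xc158 : XT := (XT.nd (nat_lit 1872) (nat_lit 988) (nat_lit 0) (XT.nd (nat_lit 936) (nat_lit 836) (nat_lit 0) (XT.nd (nat_lit 468) (nat_lit 532) (nat_lit 0) (XT.nd (nat_lit 234) (nat_lit 304) (nat_lit 0) (XT.nd (nat_lit 78) (nat_lit 228) (nat_lit 0) (XT.lf (nat_lit 0) (nat_lit 16568483425) (nat_lit 152) (nat_lit 7421143549) (nat_lit 228) (nat_lit 11312151857) (nat_lit 49) (nat_lit 5) (nat_lit 51) (nat_lit 5) (nat_lit 52) (nat_lit 5) (nat_lit 360) (nat_lit 322) (nat_lit 218)) (XT.nd (nat_lit 78) (nat_lit 76) (nat_lit 0) (XT.lf (nat_lit 0) (nat_lit 247673543) (nat_lit 152) (nat_lit 32035877762) (nat_lit 228) (nat_lit 4181416726) (nat_lit 47) (nat_lit 5) (nat_lit 49) (nat_lit 5) (nat_lit 50) (nat_lit 5) (nat_lit 361) (nat_lit 322) (nat_lit 217)) (XT.lf (nat_lit 0) (nat_lit 3636846235) (nat_lit 228) (nat_lit 17032753152) (nat_lit 76) (nat_lit 16992299712) (nat_lit 46) (nat_lit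 5) (nat_lit 49) (nat_lit 5) (nat_lit 47) (nat_lit 5) (nat_lit 362) (nat_lit 322) (nat_lit 216)))) (XT.nd (nat_lit 78) (nat_lit 152) (nat_lit 0) (XT.lf (nat_lit 0) (nat_lit 3131361718) (nat_lit 152) (nat_lit 8616058015) (nat_lit 228) (nat_lit 27165736476) (nat_lit 44) (nat_lit 5) (nat_lit 46) (nat_lit 5) (nat_lit 47) (nat_lit 5) (nat_lit 363) (nat_lit 322) (nat_lit 215)) (XT.nd (nat_lit 78) (nat_lit 152) (nat_lit 0) (XT.lf (nat_lit 0) (nat_lit 20612908094) (nat_lit 228) (nat_lit 15396761023) (nat_lit 76) (nat_lit 4199840509) (nat_lit 44) (nat_lit 5) (nat_lit 47) (nat_lit 5) (nat_lit 45) (nat_lit 5) (nat_lit 364) (nat_lit 322) (nat_lit 214)) (XT.lf (nat_lit 0) (nat_lit 6049005346) (nat_lit 152) (nat_lit 24101803092) (nat_lit 228) (nat_lit 11408418029) (nat_lit 42) (nat_lit 5) (nat_lit 44) (nat_lit 5) (nat_lit 45) (nat_lit 5) (nat_lit 365) (nat_lit 322) (nat_lit 213))))) (XT.nd (nat_lit 234)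 (nat_lit 304) (nat_lit 0) (XT.nd (nat_lit 78) (nat_lit 228) (nat_lit 0) (XT.lf (nat_lit 0) (nat_lit 29090898394) (nat_lit 152) (nat_lit 11329050659) (nat_lit 228) (nat_lit 2543765339) (nat_lit 42) (nat_lit 5) (nat_lit 44) (nat_lit 5) (nat_lit 45) (nat_lit 5) (nat_lit 366) (nat_lit 322) (nat_lit 212)) (XT.nd (nat_lit 78) (nat_lit 0) (nat_lit 0) (XT.lf (nat_lit 0) (nat_lit 6718721353) (nat_lit 228) (nat_lit 35443782929) (nat_lit 76) (nat_lit 2262089587) (nat_lit 39) (nat_lit 5) (nat_lit 42) (nat_lit 5) (nat_lit 40) (nat_lit 5) (nat_lit 367) (nat_lit 322) (nat_lit 211)) (XT.lf (nat_lit 0) (nat_lit 16777228724) (nat_lit 228) (nat_lit 12729765809) (nat_lit 76) (nat_lit 16428520722) (nat_lit 39) (nat_lit 5) (nat_lit 42) (nat_lit 5) (nat_lit 40) (nat_lit 5) (nat_lit 368) (nat_lit 322) (nat_lit 210)))) (XT.nd (nat_lit 78) (nat_lit 152) (nat_lit 0) (XT.lf (nat_lit 0) (nat_lit 11477323956) (nat_lit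 152) (nat_lit 16034689769) (nat_lit 228) (nat_lit 20001303432) (nat_lit 37) (nat_lit 5) (nat_lit 39) (nat_lit 5) (nat_lit 40) (nat_lit 5) (nat_lit 369) (nat_lit 322) (nat_lit 209)) (XT.nd (nat_lit 78) (nat_lit 152) (nat_lit 0) (XT.lf (nat_lit 0) (nat_lit 37326903553) (nat_lit 152) (nat_lit 1666503160) (nat_lit 228) (nat_lit 10166110967) (nat_lit 37) (nat_lit 5) (nat_lit 39) (nat_lit 5) (nat_lit 40) (nat_lit 5) (nat_lit 370) (nat_lit 322) (nat_lit 208)) (XT.lf (nat_lit 0) (nat_lit 582103220) (nat_lit 152) (nat_lit 37072789633) (nat_lit 76) (nat_lit 13211691097) (nat_lit 35) (nat_lit 5) (nat_lit 37) (nat_lit 5) (nat_lit 36) (nat_lit 5) (nat_lit 371) (nat_lit 322) (nat_lit 207)))))) (XT.nd (nat_lit 468) (nat_lit 380) (nat_lit 0) (XT.nd (nat_lit 234) (nat_lit 304) (nat_lit 0) (XT.nd (nat_lit 78) (nat_lit 152) (nat_lit 0) (XT.lf (nat_lit 0) (nat_lit 11751596470) (nat_lit 152) (nat_lit 11743509436)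 (nat_lit 76) (nat_lit 29144290627) (nat_lit 35) (nat_lit 5) (nat_lit 37) (nat_lit 5) (nat_lit 36) (nat_lit 5) (nat_lit 372) (nat_lit 322) (nat_lit 206)) (XT.nd (nat_lit 78) (nat_lit 0) (nat_lit 0) (XT.lf (nat_lit 0) (nat_lit 15333883465) (nat_lit 152) (nat_lit 8379867218) (nat_lit 228) (nat_lit 30775391363) (nat_lit 33) (nat_lit 5) (nat_lit 35) (nat_lit 5) (nat_lit 36) (nat_lit 5) (nat_lit 373) (nat_lit 322) (nat_lit 205)) (XT.lf (nat_lit 0) (nat_lit 36587941735) (nat_lit 228) (nat_lit 12377975172) (nat_lit 76) (nat_lit 7449763009) (nat_lit 33) (nat_lit 5) (nat_lit 36) (nat_lit 5) (nat_lit 34) (nat_lit 4) (nat_lit 374) (nat_lit 322) (nat_lit 204)))) (XT.nd (nat_lit 78) (nat_lit 228) (nat_lit 0) (XT.lf (nat_lit 0) (nat_lit 16107597797) (nat_lit 76) (nat_lit 34382179552) (nat_lit 152) (nat_lit 7929572045) (nat_lit 32) (nat_lit 5) (nat_lit 33) (nat_lit 5) (nat_lit 34) (nat_lit 4) (nat_lit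 375) (nat_lit 322) (nat_lit 203)) (XT.nd (nat_lit 78) (nat_lit 152) (nat_lit 0) (XT.lf (nat_lit 0) (nat_lit 4625600482) (nat_lit 152) (nat_lit 14148987744) (nat_lit 76) (nat_lit 41734645062) (nat_lit 31) (nat_lit 5) (nat_lit 33) (nat_lit 5) (nat_lit 32) (nat_lit 5) (nat_lit 376) (nat_lit 322) (nat_lit 202)) (XT.lf (nat_lit 0) (nat_lit 15788916740) (nat_lit 152) (nat_lit 1994967234) (nat_lit 228) (nat_lit 44901137121) (nat_lit 29) (nat_lit 5) (nat_lit 31) (nat_lit 5) (nat_lit 32) (nat_lit 5) (nat_lit 377) (nat_lit 322) (nat_lit 201))))) (XT.nd (nat_lit 234) (nat_lit 304) (nat_lit 0) (XT.nd (nat_lit 78) (nat_lit 76) (nat_lit 0) (XT.lf (nat_lit 0) (nat_lit 32082924653) (nat_lit 228) (nat_lit 17498924003) (nat_lit 76) (nat_lit 15363608691) (nat_lit 29) (nat_lit 5) (nat_lit 32) (nat_lit 5) (nat_lit 30) (nat_lit 4) (nat_lit 378) (nat_lit 322) (nat_lit 200)) (XT.nd (nat_lit 78) (nat_lit 0) (nat_lit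 0) (XT.lf (nat_lit 0) (nat_lit 13768088033) (nat_lit 76) (nat_lit 33572078950) (nat_lit 152) (nat_lit 19966587094) (nat_lit 28) (nat_lit 5) (nat_lit 29) (nat_lit 5) (nat_lit 30) (nat_lit 4) (nat_lit 379) (nat_lit 322) (nat_lit 199)) (XT.lf (nat_lit 0) (nat_lit 47198114880) (nat_lit 76) (nat_lit 16454183546) (nat_lit 152) (nat_lit 6119216962) (nat_lit 28) (nat_lit 5) (nat_lit 29) (nat_lit 5) (nat_lit 30) (nat_lit 4) (nat_lit 380) (nat_lit 322) (nat_lit 198)))) (XT.nd (nat_lit 78) (nat_lit 76) (nat_lit 0) (XT.lf (nat_lit 0) (nat_lit 8333323700) (nat_lit 228) (nat_lit 62248563375) (nat_lit 76) (nat_lit 1761939718) (nat_lit 25) (nat_lit 5) (nat_lit 28) (nat_lit 5) (nat_lit 26) (nat_lit 4) (nat_lit 381) (nat_lit 322) (nat_lit 197)) (XT.nd (nat_lit 78) (nat_lit 76) (nat_lit 0) (XT.lf (nat_lit 0) (nat_lit 23956985841) (nat_lit 228) (nat_lit 30228558402) (nat_lit 76) (nat_lit 20821487704) (nat_lit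 25) (nat_lit 5) (nat_lit 28) (nat_lit 5) (nat_lit 26) (nat_lit 4) (nat_lit 382) (nat_lit 322) (nat_lit 196)) (XT.lf (nat_lit 0) (nat_lit 3497085465) (nat_lit 76) (nat_lit 36915383990) (nat_lit 152) (nat_lit 37388396887) (nat_lit 24) (nat_lit 5) (nat_lit 25) (nat_lit 5) (nat_lit 26) (nat_lit 4) (nat_lit 383) (nat_lit 322) (nat_lit 195))))))) (XT.nd (nat_lit 936) (nat_lit 532) (nat_lit 0) (XT.nd (nat_lit 468) (nat_lit 228) (nat_lit 0) (XT.nd (nat_lit 234) (nat_lit 76) (nat_lit 0) (XT.nd (nat_lit 78) (nat_lit 152) (nat_lit 0) (XT.lf (nat_lit 0) (nat_lit 39951306467) (nat_lit 76) (nat_lit 18247471741) (nat_lit 152) (nat_lit 22510212555) (nat_lit 24) (nat_lit 5) (nat_lit 25) (nat_lit 5) (nat_lit 26) (nat_lit 4) (nat_lit 384) (nat_lit 322) (nat_lit 194)) (XT.nd (nat_lit 78) (nat_lit 152) (nat_lit 0) (XT.lf (nat_lit 0) (nat_lit 76891791349) (nat_lit 152) (nat_lit 5562387762) (nat_lit 0) (nat_lit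 1307473664) (nat_lit 24) (nat_lit 5) (nat_lit 26) (nat_lit 4) (nat_lit 24) (nat_lit 4) (nat_lit 385) (nat_lit 322) (nat_lit 193)) (XT.lf (nat_lit 0) (nat_lit 10056802445) (nat_lit 152) (nat_lit 54974534537) (nat_lit 76) (nat_lit 21887652819) (nat_lit 22) (nat_lit 5) (nat_lit 24) (nat_lit 5) (nat_lit 23) (nat_lit 4) (nat_lit 386) (nat_lit 322) (nat_lit 192)))) (XT.nd (nat_lit 78) (nat_lit 76) (nat_lit 0) (XT.lf (nat_lit 0) (nat_lit 27691113330) (nat_lit 152) (nat_lit 18830541859) (nat_lit 76) (nat_lit 43702298852) (nat_lit 22) (nat_lit 5) (nat_lit 24) (nat_lit 5) (nat_lit 23) (nat_lit 4) (nat_lit 387) (nat_lit 322) (nat_lit 191)) (XT.nd (nat_lit 78) (nat_lit 0) (nat_lit 0) (XT.lf (nat_lit 0) (nat_lit 19746325441) (nat_lit 76) (nat_lit 26765719503) (nat_lit 152) (nat_lit 47166876958) (nat_lit 21) (nat_lit 5) (nat_lit 22) (nat_lit 5) (nat_lit 23) (nat_lit 4) (nat_lit 388) (nat_lit 322) (nat_lit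 190)) (XT.lf (nat_lit 0) (nat_lit 60899561365) (nat_lit 76) (nat_lit 5690040015) (nat_lit 152) (nat_lit 30701258504) (nat_lit 21) (nat_lit 5) (nat_lit 22) (nat_lit 5) (nat_lit 23) (nat_lit 4) (nat_lit 389) (nat_lit 322) (nat_lit 189))))) (XT.nd (nat_lit 234) (nat_lit 76) (nat_lit 0) (XT.nd (nat_lit 78) (nat_lit 76) (nat_lit 0) (XT.lf (nat_lit 0) (nat_lit 2855752904) (nat_lit 76) (nat_lit 85113323641) (nat_lit 76) (nat_lit 13099416784) (nat_lit 20) (nat_lit 4) (nat_lit 21) (nat_lit 5) (nat_lit 21) (nat_lit 4) (nat_lit 390) (nat_lit 322) (nat_lit 188)) (XT.nd (nat_lit 78) (nat_lit 0) (nat_lit 0) (XT.lf (nat_lit 0) (nat_lit 5926726717) (nat_lit 152) (nat_lit 59869088274) (nat_lit 76) (nat_lit 39199168006) (nat_lit 19) (nat_lit 5) (nat_lit 21) (nat_lit 5) (nat_lit 20) (nat_lit 4) (nat_lit 391) (nat_lit 322) (nat_lit 187)) (XT.lf (nat_lit 0) (nat_lit 25460900531) (nat_lit 152) (nat_lit 19828766418)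 (nat_lit 76) (nat_lit 63817546025) (nat_lit 19) (nat_lit 5) (nat_lit 21) (nat_lit 5) (nat_lit 20) (nat_lit 4) (nat_lit 392) (nat_lit 322) (nat_lit 186)))) (XT.nd (nat_lit 78) (nat_lit 0) (nat_lit 0) (XT.lf (nat_lit 0) (nat_lit 22942377198) (nat_lit 76) (nat_lit 23384695348) (nat_lit 152) (nat_lit 67080217930) (nat_lit 18) (nat_lit 5) (nat_lit 19) (nat_lit 5) (nat_lit 20) (nat_lit 4) (nat_lit 393) (nat_lit 322) (nat_lit 185)) (XT.nd (nat_lit 78) (nat_lit 0) (nat_lit 0) (XT.lf (nat_lit 0) (nat_lit 68535082917) (nat_lit 76) (nat_lit 34428662) (nat_lit 152) (nat_lit 49336212830) (nat_lit 18) (nat_lit 5) (nat_lit 19) (nat_lit 5) (nat_lit 20) (nat_lit 4) (nat_lit 394) (nat_lit 322) (nat_lit 184)) (XT.lf (nat_lit 0) (nat_lit 92303572762) (nat_lit 152) (nat_lit 6609155794) (nat_lit 0) (nat_lit 23697376926) (nat_lit 18) (nat_lit 5) (nat_lit 20) (nat_lit 4) (nat_lit 18) (nat_lit 4) (nat_lit 395)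 (nat_lit 322) (nat_lit 183)))))) (XT.nd (nat_lit 468) (nat_lit 304) (nat_lit 0) (XT.nd (nat_lit 234) (nat_lit 0) (nat_lit 0) (XT.nd (nat_lit 78) (nat_lit 152) (nat_lit 0) (XT.lf (nat_lit 0) (nat_lit 39550713472) (nat_lit 76) (nat_lit 78289063005) (nat_lit 76) (nat_lit 9679157592) (nat_lit 17) (nat_lit 4) (nat_lit 18) (nat_lit 5) (nat_lit 18) (nat_lit 4) (nat_lit 396) (nat_lit 322) (nat_lit 182)) (XT.nd (nat_lit 78) (nat_lit 76) (nat_lit 0) (XT.lf (nat_lit 0) (nat_lit 11707311995) (nat_lit 152) (nat_lit 44613448751) (nat_lit 76) (nat_lit 76337534620) (nat_lit 16) (nat_lit 5) (nat_lit 18) (nat_lit 5) (nat_lit 17) (nat_lit 4) (nat_lit 397) (nat_lit 322) (nat_lit 181)) (XT.lf (nat_lit 0) (nat_lit 770276362) (nat_lit 76) (nat_lit 33077079442) (nat_lit 152) (nat_lit 104198858868) (nat_lit 15) (nat_lit 5) (nat_lit 16) (nat_lit 5) (nat_lit 17) (nat_lit 4) (nat_lit 398) (nat_lit 322) (nat_lit 180))))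 (XT.nd (nat_lit 78) (nat_lit 0) (nat_lit 0) (XT.lf (nat_lit 0) (nat_lit 49967378511) (nat_lit 76) (nat_lit 7880126864) (nat_lit 152) (nat_lit 85818369745) (nat_lit 15) (nat_lit 5) (nat_lit 16) (nat_lit 5) (nat_lit 17) (nat_lit 4) (nat_lit 399) (nat_lit 322) (nat_lit 179)) (XT.nd (nat_lit 78) (nat_lit 0) (nat_lit 0) (XT.lf (nat_lit 0) (nat_lit 83335332783) (nat_lit 152) (nat_lit 48236764500) (nat_lit 0) (nat_lit 17980038128) (nat_lit 15) (nat_lit 5) (nat_lit 17) (nat_lit 4) (nat_lit 15) (nat_lit 4) (nat_lit 400) (nat_lit 322) (nat_lit 178)) (XT.lf (nat_lit 0) (nat_lit 110224482945) (nat_lit 152) (nat_lit 635459379) (nat_lit 0) (nat_lit 44866420148) (nat_lit 15) (nat_lit 5) (nat_lit 17) (nat_lit 4) (nat_lit 15) (nat_lit 4) (nat_lit 401) (nat_lit 322) (nat_lit 177))))) (XT.nd (nat_lit 234) (nat_lit 152) (nat_lit 0) (XT.nd (nat_lit 78) (nat_lit 76) (nat_lit 0) (XT.lf (nat_lit 0) (nat_lit 50973248340)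 (nat_lit 76) (nat_lit 88278533702) (nat_lit 76) (nat_lit 22917834578) (nat_lit 14) (nat_lit 4) (nat_lit 15) (nat_lit 5) (nat_lit 15) (nat_lit 4) (nat_lit 402) (nat_lit 322) (nat_lit 176)) (XT.nd (nat_lit 78) (nat_lit 0) (nat_lit 0) (XT.lf (nat_lit 0) (nat_lit 778752781) (nat_lit 152) (nat_lit 63766766709) (nat_lit 76) (nat_lit 104388453417) (nat_lit 13) (nat_lit 5) (nat_lit 15) (nat_lit 5) (nat_lit 14) (nat_lit 4) (nat_lit 403) (nat_lit 322) (nat_lit 175)) (XT.lf (nat_lit 0) (nat_lit 24887941985) (nat_lit 152) (nat_lit 14345320067) (nat_lit 76) (nat_lit 136784602012) (nat_lit 13) (nat_lit 5) (nat_lit 15) (nat_lit 5) (nat_lit 14) (nat_lit 4) (nat_lit 404) (nat_lit 322) (nat_lit 174)))) (XT.nd (nat_lit 156) (nat_lit 76) (nat_lit 0) (XT.nd (nat_lit 78) (nat_lit 0) (nat_lit 0) (XT.lf (nat_lit 0) (nat_lit 38784809502) (nat_lit 76) (nat_lit 12021379765) (nat_lit 152) (nat_lit 132619580835) (nat_lit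 12) (nat_lit 5) (nat_lit 13) (nat_lit 5) (nat_lit 14) (nat_lit 4) (nat_lit 405) (nat_lit 322) (nat_lit 173)) (XT.lf (nat_lit 0) (nat_lit 78523751719) (nat_lit 152) (nat_lit 96388586111) (nat_lit 0) (nat_lit 16266563710) (nat_lit 12) (nat_lit 5) (nat_lit 14) (nat_lit 4) (nat_lit 12) (nat_lit 4) (nat_lit 406) (nat_lit 322) (nat_lit 172))) (XT.nd (nat_lit 78) (nat_lit 76) (nat_lit 0) (XT.lf (nat_lit 0) (nat_lit 107822422342) (nat_lit 152) (nat_lit 45924238870) (nat_lit 0) (nat_lit 45563267066) (nat_lit 12) (nat_lit 5) (nat_lit 14) (nat_lit 4) (nat_lit 12) (nat_lit 4) (nat_lit 407) (nat_lit 322) (nat_lit 171)) (XT.lf (nat_lit 0) (nat_lit 7293354656) (nat_lit 76) (nat_lit 131404787499) (nat_lit 76) (nat_lit 69143758635) (nat_lit 11) (nat_lit 4) (nat_lit 12) (nat_lit 5) (nat_lit 12) (nat_lit 4) (nat_lit 408) (nat_lit 322) (nat_lit 170))))))))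
noncomputable def xc159 : XT := (XT.nd (nat_lit 1950) (nat_lit 0) (nat_lit 0) (XT.nd (nat_lit 936) (nat_lit 228) (nat_lit 0) (XT.nd (nat_lit 468) (nat_lit 76) (nat_lit 0) (XT.nd (nat_lit 234) (nat_lit 76) (nat_lit 0) (XT.nd (nat_lit 78) (nat_lit 76) (nat_lit 0) (XT.lf (nat_lit 0) (nat_lit 64762864662) (nat_lit 76) (nat_lit 107130809693) (nat_lit 76) (nat_lit 44867996459) (nat_lit 11) (nat_lit 4) (nat_lit 12) (nat_lit 5) (nat_lit 12) (nat_lit 4) (nat_lit 409) (nat_lit 322) (nat_lit 169)) (XT.nd (nat_lit 78) (nat_lit 76) (nat_lit 0) (XT.lf (nat_lit 0) (nat_lit 125102660577) (nat_lit 76) (nat_lit 81644681816) (nat_lit 76) (nat_lit 19380169183) (nat_lit 11) (nat_lit 4) (nat_lit 12) (nat_lit 5) (nat_lit 12) (nat_lit 4) (nat_lit 410) (nat_lit 322) (nat_lit 168)) (XT.lf (nat_lit 0) (nat_lit 7144189333) (nat_lit 152) (nat_lit 47620542976) (nat_lit 76) (nat_lit 181191228945) (nat_lit 10) (nat_lit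 5) (nat_lit 12) (nat_lit 5) (nat_lit 11) (nat_lit 4) (nat_lit 411) (nat_lit 322) (nat_lit 167)))) (XT.nd (nat_lit 78) (nat_lit 0) (nat_lit 0) (XT.lf (nat_lit 0) (nat_lit 8402254116) (nat_lit 76) (nat_lit 26070880825) (nat_lit 152) (nat_lit 211780329764) (nat_lit 9) (nat_lit 5) (nat_lit 10) (nat_lit 5) (nat_lit 11) (nat_lit 4) (nat_lit 412) (nat_lit 322) (nat_lit 166)) (XT.nd (nat_lit 78) (nat_lit 0) (nat_lit 0) (XT.lf (nat_lit 0) (nat_lit 64050069214) (nat_lit 152) (nat_lit 188225571349) (nat_lit 0) (nat_lit 4746125861) (nat_lit 9) (nat_lit 5) (nat_lit 11) (nat_lit 4) (nat_lit 9) (nat_lit 4) (nat_lit 413) (nat_lit 322) (nat_lit 165)) (XT.lf (nat_lit 0) (nat_lit 95531805514) (nat_lit 152) (nat_lit 136548849466) (nat_lit 0) (nat_lit 36226530637) (nat_lit 9) (nat_lit 5) (nat_lit 11) (nat_lit 4) (nat_lit 9) (nat_lit 4) (nat_lit 414) (nat_lit 322) (nat_lit 164))))) (XT.nd (nat_lit 234) (nat_lit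 0) (nat_lit 0) (XT.nd (nat_lit 78) (nat_lit 76) (nat_lit 0) (XT.lf (nat_lit 0) (nat_lit 128586260844) (nat_lit 152) (nat_lit 82290965616) (nat_lit 0) (nat_lit 69279717848) (nat_lit 9) (nat_lit 5) (nat_lit 11) (nat_lit 4) (nat_lit 9) (nat_lit 4) (nat_lit 415) (nat_lit 322) (nat_lit 163)) (XT.nd (nat_lit 78) (nat_lit 76) (nat_lit 0) (XT.lf (nat_lit 0) (nat_lit 163292136287) (nat_lit 152) (nat_lit 25322734359) (nat_lit 0) (nat_lit 103984385560) (nat_lit 9) (nat_lit 5) (nat_lit 11) (nat_lit 4) (nat_lit 9) (nat_lit 4) (nat_lit 416) (nat_lit 322) (nat_lit 162)) (XT.lf (nat_lit 0) (nat_lit 35631927143) (nat_lit 76) (nat_lit 164656451978) (nat_lit 76) (nat_lit 105347551031) (nat_lit 8) (nat_lit 4) (nat_lit 9) (nat_lit 5) (nat_lit 9) (nat_lit 4) (nat_lit 417) (nat_lit 322) (nat_lit 161)))) (XT.nd (nat_lit 78) (nat_lit 0) (nat_lit 0) (XT.lf (nat_lit 0) (nat_lit 100511083489) (nat_lit 76) (nat_lit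 139050984567) (nat_lit 76) (nat_lit 79740988171) (nat_lit 8) (nat_lit 4) (nat_lit 9) (nat_lit 5) (nat_lit 9) (nat_lit 4) (nat_lit 418) (nat_lit 322) (nat_lit 160)) (XT.nd (nat_lit 78) (nat_lit 0) (nat_lit 0) (XT.lf (nat_lit 0) (nat_lit 168631924900) (nat_lit 76) (nat_lit 112166355772) (nat_lit 76) (nat_lit 52855316092) (nat_lit 8) (nat_lit 4) (nat_lit 9) (nat_lit 5) (nat_lit 9) (nat_lit 4) (nat_lit 419) (nat_lit 322) (nat_lit 159)) (XT.lf (nat_lit 0) (nat_lit 240156643855) (nat_lit 76) (nat_lit 83938554573) (nat_lit 76) (nat_lit 24626521290) (nat_lit 8) (nat_lit 4) (nat_lit 9) (nat_lit 5) (nat_lit 9) (nat_lit 4) (nat_lit 420) (nat_lit 322) (nat_lit 158)))))) (XT.nd (nat_lit 468) (nat_lit 76) (nat_lit 0) (XT.nd (nat_lit 234) (nat_lit 0) (nat_lit 0) (XT.nd (nat_lit 78) (nat_lit 76) (nat_lit 0) (XT.lf (nat_lit 0) (nat_lit 4852172902) (nat_lit 152) (nat_lit 49366025122) (nat_lit 76) (nat_lit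 310321190507) (nat_lit 7) (nat_lit 5) (nat_lit 9) (nat_lit 5) (nat_lit 8) (nat_lit 4) (nat_lit 421) (nat_lit 322) (nat_lit 157)) (XT.nd (nat_lit 78) (nat_lit 0) (nat_lit 0) (XT.lf (nat_lit 0) (nat_lit 12796846612) (nat_lit 76) (nat_lit 22379117979) (nat_lit 152) (nat_lit 345941851850) (nat_lit 6) (nat_lit 5) (nat_lit 7) (nat_lit 5) (nat_lit 8) (nat_lit 4) (nat_lit 422) (nat_lit 322) (nat_lit 156)) (XT.lf (nat_lit 0) (nat_lit 68037223868) (nat_lit 152) (nat_lit 318889881933) (nat_lit 0) (nat_lit 11546996141) (nat_lit 6) (nat_lit 5) (nat_lit 8) (nat_lit 4) (nat_lit 6) (nat_lit 4) (nat_lit 423) (nat_lit 322) (nat_lit 155)))) (XT.nd (nat_lit 78) (nat_lit 0) (nat_lit 0) (XT.lf (nat_lit 0) (nat_lit 102907448860) (nat_lit 152) (nat_lit 267356015192) (nat_lit 0) (nat_lit 46416442619) (nat_lit 6) (nat_lit 5) (nat_lit 8) (nat_lit 4) (nat_lit 6) (nat_lit 4) (nat_lit 424) (nat_lit 322) (nat_lit 154))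 (XT.nd (nat_lit 78) (nat_lit 0) (nat_lit 0) (XT.lf (nat_lit 0) (nat_lit 139520263165) (nat_lit 152) (nat_lit 213247269174) (nat_lit 0) (nat_lit 83028515481) (nat_lit 6) (nat_lit 5) (nat_lit 8) (nat_lit 4) (nat_lit 6) (nat_lit 4) (nat_lit 425) (nat_lit 322) (nat_lit 153)) (XT.lf (nat_lit 0) (nat_lit 177962840150) (nat_lit 152) (nat_lit 156434813531) (nat_lit 0) (nat_lit 121470386330) (nat_lit 6) (nat_lit 5) (nat_lit 8) (nat_lit 4) (nat_lit 6) (nat_lit 4) (nat_lit 426) (nat_lit 322) (nat_lit 152))))) (XT.nd (nat_lit 234) (nat_lit 0) (nat_lit 0) (XT.nd (nat_lit 78) (nat_lit 76) (nat_lit 0) (XT.lf (nat_lit 0) (nat_lit 218326709760) (nat_lit 152) (nat_lit 96783380511) (nat_lit 0) (nat_lit 161833583430) (nat_lit 6) (nat_lit 5) (nat_lit 8) (nat_lit 4) (nat_lit 6) (nat_lit 4) (nat_lit 427) (nat_lit 322) (nat_lit 151)) (XT.nd (nat_lit 78) (nat_lit 76) (nat_lit 0) (XT.lf (nat_lit 0) (nat_lit 260707976446)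 (nat_lit 152) (nat_lit 34150942893) (nat_lit 0) (nat_lit 204214209631) (nat_lit 6) (nat_lit 5) (nat_lit 8) (nat_lit 4) (nat_lit 6) (nat_lit 4) (nat_lit 428) (nat_lit 322) (nat_lit 150)) (XT.lf (nat_lit 0) (nat_lit 32656847230) (nat_lit 76) (nat_lit 273060565662) (nat_lit 76) (nat_lit 216566188860) (nat_lit 5) (nat_lit 4) (nat_lit 6) (nat_lit 5) (nat_lit 6) (nat_lit 4) (nat_lit 429) (nat_lit 322) (nat_lit 149)))) (XT.nd (nat_lit 156) (nat_lit 0) (nat_lit 0) (XT.nd (nat_lit 78) (nat_lit 0) (nat_lit 0) (XT.lf (nat_lit 0) (nat_lit 103989202123) (nat_lit 76) (nat_lit 249565736494) (nat_lit 76) (nat_lit 193070778752) (nat_lit 5) (nat_lit 4) (nat_lit 6) (nat_lit 5) (nat_lit 6) (nat_lit 4) (nat_lit 430) (nat_lit 322) (nat_lit 148)) (XT.lf (nat_lit 0) (nat_lit 178886776323) (nat_lit 76) (nat_lit 224896854508) (nat_lit 76) (nat_lit 168401343490) (nat_lit 5) (nat_lit 4) (nat_lit 6) (nat_lit 5) (nat_lit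 6) (nat_lit 4) (nat_lit 431) (nat_lit 322) (nat_lit 147))) (XT.nd (nat_lit 78) (nat_lit 0) (nat_lit 0) (XT.lf (nat_lit 0) (nat_lit 257527897386) (nat_lit 76) (nat_lit 198995184271) (nat_lit 76) (nat_lit 142499146324) (nat_lit 5) (nat_lit 4) (nat_lit 6) (nat_lit 5) (nat_lit 6) (nat_lit 4) (nat_lit 432) (nat_lit 322) (nat_lit 146)) (XT.lf (nat_lit 0) (nat_lit 340099806079) (nat_lit 76) (nat_lit 171799055140) (nat_lit 76) (nat_lit 115302515356) (nat_lit 5) (nat_lit 4) (nat_lit 6) (nat_lit 5) (nat_lit 6) (nat_lit 4) (nat_lit 433) (nat_lit 322) (nat_lit 145))))))) (XT.nd (nat_lit 39000) (nat_lit 0) (nat_lit 5548) (XT.nd (nat_lit 38532) (nat_lit 0) (nat_lit 7904) (XT.nd (nat_lit 38298) (nat_lit 0) (nat_lit 8512) (XT.nd (nat_lit 78) (nat_lit 0) (nat_lit 0) (XT.lf (nat_lit 0) (nat_lit 426799102182) (nat_lit 76) (nat_lit 143243714426) (nat_lit 76) (nat_lit 86746696701) (nat_lit 5) (nat_lit 4) (nat_lit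 6) (nat_lit 5) (nat_lit 6) (nat_lit 4) (nat_lit 434) (nat_lit 322) (nat_lit 144)) (XT.nd (nat_lit 38142) (nat_lit 0) (nat_lit 8512) (XT.lf (nat_lit 0) (nat_lit 517832212592) (nat_lit 76) (nat_lit 113261173223) (nat_lit 76) (nat_lit 56763700317) (nat_lit 5) (nat_lit 4) (nat_lit 6) (nat_lit 5) (nat_lit 6) (nat_lit 4) (nat_lit 435) (nat_lit 322) (nat_lit 143)) (XT.lf (nat_lit 0) (nat_lit 2310336987) (nat_lit 0) (nat_lit 2310336987) (nat_lit 684) (nat_lit 1773867165) (nat_lit 117) (nat_lit 5) (nat_lit 117) (nat_lit 3) (nat_lit 126) (nat_lit 3) (nat_lit 323) (nat_lit 323) (nat_lit 254)))) (XT.nd (nat_lit 78) (nat_lit 0) (nat_lit 0) (XT.lf (nat_lit 0) (nat_lit 9889480017) (nat_lit 684) (nat_lit 2065701114) (nat_lit 760) (nat_lit 1132404078) (nat_lit 117) (nat_lit 5) (nat_lit 126) (nat_lit 3) (nat_lit 127) (nat_lit 5) (nat_lit 324) (nat_lit 323) (nat_lit 253)) (XT.nd (nat_lit 78) (nat_lit 0) (nat_lit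 0) (XT.lf (nat_lit 76) (nat_lit 4392722615) (nat_lit 0) (nat_lit 6296296492) (nat_lit 760) (nat_lit 2706067792) (nat_lit 118) (nat_lit 5) (nat_lit 117) (nat_lit 5) (nat_lit 127) (nat_lit 5) (nat_lit 325) (nat_lit 323) (nat_lit 252)) (XT.lf (nat_lit 76) (nat_lit 11231749462) (nat_lit 0) (nat_lit 307425416) (nat_lit 760) (nat_lit 2178279317) (nat_lit 118) (nat_lit 5) (nat_lit 117) (nat_lit 5) (nat_lit 127) (nat_lit 5) (nat_lit 326) (nat_lit 323) (nat_lit 251))))) (XT.nd (nat_lit 234) (nat_lit 0) (nat_lit 0) (XT.nd (nat_lit 78) (nat_lit 684) (nat_lit 0) (XT.lf (nat_lit 76) (nat_lit 4389190663) (nat_lit 0) (nat_lit 8181522389) (nat_lit 760) (nat_lit 1478304510) (nat_lit 119) (nat_lit 5) (nat_lit 118) (nat_lit 5) (nat_lit 128) (nat_lit 5) (nat_lit 327) (nat_lit 323) (nat_lit 250)) (XT.nd (nat_lit 78) (nat_lit 684) (nat_lit 0) (XT.lf (nat_lit 76) (nat_lit 11674459386) (nat_lit 0) (nat_lit 2004263365)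 (nat_lit 760) (nat_lit 717212031) (nat_lit 119) (nat_lit 5) (nat_lit 118) (nat_lit 5) (nat_lit 128) (nat_lit 5) (nat_lit 328) (nat_lit 323) (nat_lit 249)) (XT.lf (nat_lit 0) (nat_lit 202504308) (nat_lit 760) (nat_lit 10130475379) (nat_lit 836) (nat_lit 4421013148) (nat_lit 109) (nat_lit 5) (nat_lit 119) (nat_lit 5) (nat_lit 120) (nat_lit 5) (nat_lit 329) (nat_lit 323) (nat_lit 248)))) (XT.nd (nat_lit 78) (nat_lit 0) (nat_lit 76) (XT.lf (nat_lit 0) (nat_lit 1203234815) (nat_lit 760) (nat_lit 2758195782) (nat_lit 836) (nat_lit 11164996383) (nat_lit 109) (nat_lit 5) (nat_lit 119) (nat_lit 5) (nat_lit 120) (nat_lit 5) (nat_lit 330) (nat_lit 323) (nat_lit 247)) (XT.nd (nat_lit 78) (nat_lit 0) (nat_lit 0) (XT.lf (nat_lit 0) (nat_lit 2358532921) (nat_lit 760) (nat_lit 10426188471) (nat_lit 836) (nat_lit 2727551683) (nat_lit 110) (nat_lit 5) (nat_lit 120) (nat_lit 5) (nat_lit 121) (nat_lit 5) (nat_lit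 331) (nat_lit 323) (nat_lit 246)) (XT.lf (nat_lit 0) (nat_lit 3665200190) (nat_lit 760) (nat_lit 2577924057) (nat_lit 836) (nat_lit 9669623010) (nat_lit 110) (nat_lit 5) (nat_lit 120) (nat_lit 5) (nat_lit 121) (nat_lit 5) (nat_lit 332) (nat_lit 323) (nat_lit 245)))))) (XT.nd (nat_lit 468) (nat_lit 1368) (nat_lit 0) (XT.nd (nat_lit 234) (nat_lit 380) (nat_lit 0) (XT.nd (nat_lit 78) (nat_lit 760) (nat_lit 0) (XT.lf (nat_lit 0) (nat_lit 5121688981) (nat_lit 760) (nat_lit 10506149905) (nat_lit 76) (nat_lit 701197091) (nat_lit 111) (nat_lit 5) (nat_lit 121) (nat_lit 5) (nat_lit 112) (nat_lit 5) (nat_lit 333) (nat_lit 323) (nat_lit 244)) (XT.nd (nat_lit 78) (nat_lit 760) (nat_lit 0) (XT.lf (nat_lit 0) (nat_lit 6780474519) (nat_lit 760) (nat_lit 2149207860) (nat_lit 76) (nat_lit 7829997646) (nat_lit 111) (nat_lit 5) (nat_lit 121) (nat_lit 5) (nat_lit 112) (nat_lit 5) (nat_lit 334) (nat_lit 323)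 (nat_lit 243)) (XT.lf (nat_lit 0) (nat_lit 6829475683) (nat_lit 760) (nat_lit 1782924149) (nat_lit 836) (nat_lit 8594960238) (nat_lit 101) (nat_lit 5) (nat_lit 111) (nat_lit 5) (nat_lit 112) (nat_lit 5) (nat_lit 335) (nat_lit 323) (nat_lit 242)))) (XT.nd (nat_lit 78) (nat_lit 380) (nat_lit 0) (XT.lf (nat_lit 0) (nat_lit 10646391398) (nat_lit 836) (nat_lit 1449098679) (nat_lit 76) (nat_lit 5576423700) (nat_lit 101) (nat_lit 5) (nat_lit 112) (nat_lit 5) (nat_lit 102) (nat_lit 5) (nat_lit 336) (nat_lit 323) (nat_lit 241)) (XT.nd (nat_lit 78) (nat_lit 0) (nat_lit 0) (XT.lf (nat_lit 0) (nat_lit 8142968377) (nat_lit 380) (nat_lit 4780383556) (nat_lit 456) (nat_lit 5229292301) (nat_lit 96) (nat_lit 5) (nat_lit 101) (nat_lit 5) (nat_lit 102) (nat_lit 5) (nat_lit 337) (nat_lit 323) (nat_lit 240)) (XT.lf (nat_lit 0) (nat_lit 15369794641) (nat_lit 456) (nat_lit 451989775) (nat_lit 76) (nat_lit 2832857027)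 (nat_lit 96) (nat_lit 5) (nat_lit 102) (nat_lit 5) (nat_lit 97) (nat_lit 5) (nat_lit 338) (nat_lit 323) (nat_lit 239))))) (XT.nd (nat_lit 234) (nat_lit 608) (nat_lit 0) (XT.nd (nat_lit 78) (nat_lit 456) (nat_lit 0) (XT.lf (nat_lit 0) (nat_lit 9804675041) (nat_lit 304) (nat_lit 8351430841) (nat_lit 380) (nat_lit 1014766678) (nat_lit 92) (nat_lit 5) (nat_lit 96) (nat_lit 5) (nat_lit 97) (nat_lit 5) (nat_lit 339) (nat_lit 323) (nat_lit 238)) (XT.nd (nat_lit 78) (nat_lit 0) (nat_lit 0) (XT.lf (nat_lit 0) (nat_lit 869070856) (nat_lit 380) (nat_lit 463596010) (nat_lit 456) (nat_lit 18378807120) (nat_lit 86) (nat_lit 5) (nat_lit 91) (nat_lit 5) (nat_lit 92) (nat_lit 5) (nat_lit 340) (nat_lit 323) (nat_lit 237)) (XT.lf (nat_lit 0) (nat_lit 4033383705) (nat_lit 456) (nat_lit 8486206829) (nat_lit 76) (nat_lit 7745192272) (nat_lit 86) (nat_lit 5) (nat_lit 92) (nat_lit 5) (nat_lit 87) (nat_lit 5) (nat_lit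 341) (nat_lit 323) (nat_lit 236)))) (XT.nd (nat_lit 156) (nat_lit 304) (nat_lit 0) (XT.nd (nat_lit 78) (nat_lit 0) (nat_lit 0) (XT.lf (nat_lit 0) (nat_lit 2444139774) (nat_lit 304) (nat_lit 4458110953) (nat_lit 380) (nat_lit 13941859974) (nat_lit 82) (nat_lit 5) (nat_lit 86) (nat_lit 5) (nat_lit 87) (nat_lit 5) (nat_lit 342) (nat_lit 323) (nat_lit 235)) (XT.lf (nat_lit 0) (nat_lit 10110896174) (nat_lit 380) (nat_lit 7309152185) (nat_lit 76) (nat_lit 4022548788) (nat_lit 82) (nat_lit 5) (nat_lit 87) (nat_lit 5) (nat_lit 83) (nat_lit 5) (nat_lit 343) (nat_lit 323) (nat_lit 234))) (XT.nd (nat_lit 78) (nat_lit 0) (nat_lit 0) (XT.lf (nat_lit 0) (nat_lit 4389667227) (nat_lit 304) (nat_lit 9220219957) (nat_lit 380) (nat_lit 8454633548) (nat_lit 78) (nat_lit 5) (nat_lit 82) (nat_lit 5) (nat_lit 83) (nat_lit 5) (nat_lit 344) (nat_lit 323) (nat_lit 233)) (XT.lf (nat_lit 0) (nat_lit 16913456676) (nat_lit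 304) (nat_lit 482792665) (nat_lit 380) (nat_lit 5315678155) (nat_lit 78) (nat_lit 5) (nat_lit 82) (nat_lit 5) (nat_lit 83) (nat_lit 5) (nat_lit 345) (nat_lit 323) (nat_lit 232))))))))
noncomputable def xc160 : XT := (XT.nd (nat_lit 1872) (nat_lit 1596) (nat_lit 0) (XT.nd (nat_lit 936) (nat_lit 1216) (nat_lit 0) (XT.nd (nat_lit 468) (nat_lit 684) (nat_lit 0) (XT.nd (nat_lit 234) (nat_lit 456) (nat_lit 0) (XT.nd (nat_lit 78) (nat_lit 380) (nat_lit 0) (XT.lf (nat_lit 0) (nat_lit 6738105634) (nat_lit 228) (nat_lit 14863866909) (nat_lit 304) (nat_lit 1778237604) (nat_lit 75) (nat_lit 5) (nat_lit 78) (nat_lit 5) (nat_lit 79) (nat_lit 5) (nat_lit 346) (nat_lit 323) (nat_lit 231)) (XT.nd (nat_lit 78) (nat_lit 304) (nat_lit 0) (XT.lf (nat_lit 0) (nat_lit 1971104556) (nat_lit 304) (nat_lit 4027658833) (nat_lit 76) (nat_lit 18076789339) (nat_lit 74) (nat_lit 5) (nat_lit 78) (nat_lit 5) (nat_lit 75)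 (nat_lit 5) (nat_lit 347) (nat_lit 323) (nat_lit 230)) (XT.lf (nat_lit 0) (nat_lit 6040455696) (nat_lit 380) (nat_lit 15373197154) (nat_lit 76) (nat_lit 3380943547) (nat_lit 70) (nat_lit 5) (nat_lit 75) (nat_lit 5) (nat_lit 71) (nat_lit 5) (nat_lit 348) (nat_lit 323) (nat_lit 229)))) (XT.nd (nat_lit 78) (nat_lit 456) (nat_lit 0) (XT.lf (nat_lit 0) (nat_lit 10470965760) (nat_lit 380) (nat_lit 1976221829) (nat_lit 76) (nat_lit 13094526423) (nat_lit 70) (nat_lit 5) (nat_lit 75) (nat_lit 5) (nat_lit 71) (nat_lit 5) (nat_lit 349) (nat_lit 323) (nat_lit 228)) (XT.nd (nat_lit 78) (nat_lit 228) (nat_lit 0) (XT.lf (nat_lit 0) (nat_lit 12477264106) (nat_lit 228) (nat_lit 2831039831) (nat_lit 304) (nat_lit 11008624467) (nat_lit 67) (nat_lit 5) (nat_lit 70) (nat_lit 5) (nat_lit 71) (nat_lit 5) (nat_lit 350) (nat_lit 323) (nat_lit 227)) (XT.lf (nat_lit 0) (nat_lit 481318128) (nat_lit 228) (nat_lit 20051868426)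 (nat_lit 304) (nat_lit 6590438829) (nat_lit 64) (nat_lit 5) (nat_lit 67) (nat_lit 5) (nat_lit 68) (nat_lit 5) (nat_lit 351) (nat_lit 323) (nat_lit 226))))) (XT.nd (nat_lit 234) (nat_lit 380) (nat_lit 0) (XT.nd (nat_lit 78) (nat_lit 304) (nat_lit 0) (XT.lf (nat_lit 0) (nat_lit 15938193338) (nat_lit 228) (nat_lit 10352112342) (nat_lit 304) (nat_lit 1666807380) (nat_lit 64) (nat_lit 5) (nat_lit 67) (nat_lit 5) (nat_lit 68) (nat_lit 5) (nat_lit 352) (nat_lit 323) (nat_lit 225)) (XT.nd (nat_lit 78) (nat_lit 0) (nat_lit 0) (XT.lf (nat_lit 0) (nat_lit 3376635287) (nat_lit 228) (nat_lit 58204715) (nat_lit 304) (nat_lit 25392507870) (nat_lit 60) (nat_lit 5) (nat_lit 63) (nat_lit 5) (nat_lit 64) (nat_lit 5) (nat_lit 353) (nat_lit 323) (nat_lit 224)) (XT.lf (nat_lit 0) (nat_lit 9101684983) (nat_lit 304) (nat_lit 9982743312) (nat_lit 76) (nat_lit 10636998075) (nat_lit 60) (nat_lit 5) (nat_lit 64) (nat_lit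 5) (nat_lit 61) (nat_lit 5) (nat_lit 354) (nat_lit 323) (nat_lit 223)))) (XT.nd (nat_lit 78) (nat_lit 152) (nat_lit 0) (XT.lf (nat_lit 0) (nat_lit 6452221026) (nat_lit 228) (nat_lit 8693155942) (nat_lit 304) (nat_lit 15510161086) (nat_lit 57) (nat_lit 5) (nat_lit 60) (nat_lit 5) (nat_lit 61) (nat_lit 5) (nat_lit 355) (nat_lit 323) (nat_lit 222)) (XT.nd (nat_lit 78) (nat_lit 152) (nat_lit 0) (XT.lf (nat_lit 0) (nat_lit 21689672176) (nat_lit 304) (nat_lit 7621897883) (nat_lit 76) (nat_lit 2314868615) (nat_lit 57) (nat_lit 5) (nat_lit 61) (nat_lit 5) (nat_lit 58) (nat_lit 5) (nat_lit 356) (nat_lit 323) (nat_lit 221)) (XT.lf (nat_lit 0) (nat_lit 9953107972) (nat_lit 152) (nat_lit 18898323993) (nat_lit 228) (nat_lit 3779943952) (nat_lit 55) (nat_lit 5) (nat_lit 57) (nat_lit 5) (nat_lit 58) (nat_lit 5) (nat_lit 357) (nat_lit 323) (nat_lit 220)))))) (XT.nd (nat_lit 468) (nat_lit 532) (nat_lit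 0) (XT.nd (nat_lit 234) (nat_lit 380) (nat_lit 0) (XT.nd (nat_lit 78) (nat_lit 228) (nat_lit 0) (XT.lf (nat_lit 0) (nat_lit 2722392894) (nat_lit 228) (nat_lit 5064262767) (nat_lit 76) (nat_lit 25891632212) (nat_lit 54) (nat_lit 5) (nat_lit 57) (nat_lit 5) (nat_lit 55) (nat_lit 5) (nat_lit 358) (nat_lit 323) (nat_lit 219)) (XT.nd (nat_lit 78) (nat_lit 0) (nat_lit 0) (XT.lf (nat_lit 0) (nat_lit 9696099147) (nat_lit 304) (nat_lit 21030033445) (nat_lit 76) (nat_lit 4034653872) (nat_lit 51) (nat_lit 5) (nat_lit 55) (nat_lit 5) (nat_lit 52) (nat_lit 5) (nat_lit 359) (nat_lit 323) (nat_lit 218)) (XT.lf (nat_lit 0) (nat_lit 17226193774) (nat_lit 304) (nat_lit 2392008286) (nat_lit 76) (nat_lit 16268826129) (nat_lit 51) (nat_lit 5) (nat_lit 55) (nat_lit 5) (nat_lit 52) (nat_lit 5) (nat_lit 360) (nat_lit 323) (nat_lit 217)))) (XT.nd (nat_lit 78) (nat_lit 228) (nat_lit 0) (XT.lf (nat_lit 0) (nat_lit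 17734907979) (nat_lit 152) (nat_lit 7667996991) (nat_lit 228) (nat_lit 11653174635) (nat_lit 49) (nat_lit 5) (nat_lit 51) (nat_lit 5) (nat_lit 52) (nat_lit 5) (nat_lit 361) (nat_lit 323) (nat_lit 216)) (XT.nd (nat_lit 78) (nat_lit 76) (nat_lit 0) (XT.lf (nat_lit 0) (nat_lit 601312256) (nat_lit 152) (nat_lit 33507207243) (nat_lit 228) (nat_lit 4169063750) (nat_lit 47) (nat_lit 5) (nat_lit 49) (nat_lit 5) (nat_lit 50) (nat_lit 5) (nat_lit 362) (nat_lit 323) (nat_lit 215)) (XT.lf (nat_lit 0) (nat_lit 4022818897) (nat_lit 228) (nat_lit 17552551597) (nat_lit 76) (nat_lit 17959332097) (nat_lit 46) (nat_lit 5) (nat_lit 49) (nat_lit 5) (nat_lit 47) (nat_lit 5) (nat_lit 363) (nat_lit 323) (nat_lit 214))))) (XT.nd (nat_lit 234) (nat_lit 228) (nat_lit 0) (XT.nd (nat_lit 78) (nat_lit 152) (nat_lit 0) (XT.lf (nat_lit 0) (nat_lit 3614416771) (nat_lit 152) (nat_lit 8919881182) (nat_lit 228) (nat_lit 28314459804)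 (nat_lit 44) (nat_lit 5) (nat_lit 46) (nat_lit 5) (nat_lit 47) (nat_lit 5) (nat_lit 364) (nat_lit 323) (nat_lit 213)) (XT.nd (nat_lit 78) (nat_lit 152) (nat_lit 0) (XT.lf (nat_lit 0) (nat_lit 21835448492) (nat_lit 228) (nat_lit 15847969817) (nat_lit 76) (nat_lit 4526895000) (nat_lit 44) (nat_lit 5) (nat_lit 47) (nat_lit 5) (nat_lit 45) (nat_lit 5) (nat_lit 365) (nat_lit 323) (nat_lit 212)) (XT.lf (nat_lit 0) (nat_lit 6664945689) (nat_lit 152) (nat_lit 25181054766) (nat_lit 228) (nat_lit 11781731376) (nat_lit 42) (nat_lit 5) (nat_lit 44) (nat_lit 5) (nat_lit 45) (nat_lit 5) (nat_lit 366) (nat_lit 323) (nat_lit 211)))) (XT.nd (nat_lit 78) (nat_lit 228) (nat_lit 0) (XT.lf (nat_lit 0) (nat_lit 30844005290) (nat_lit 152) (nat_lit 11775657020) (nat_lit 228) (nat_lit 2483232126) (nat_lit 42) (nat_lit 5) (nat_lit 44) (nat_lit 5) (nat_lit 45) (nat_lit 5) (nat_lit 367) (nat_lit 323) (nat_lit 210))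 (XT.nd (nat_lit 78) (nat_lit 0) (nat_lit 0) (XT.lf (nat_lit 0) (nat_lit 7234301657) (nat_lit 228) (nat_lit 36909202911) (nat_lit 76) (nat_lit 2493273396) (nat_lit 39) (nat_lit 5) (nat_lit 42) (nat_lit 5) (nat_lit 40) (nat_lit 5) (nat_lit 368) (nat_lit 323) (nat_lit 209)) (XT.lf (nat_lit 0) (nat_lit 17787179909) (nat_lit 228) (nat_lit 13074092990) (nat_lit 76) (nat_lit 17362403262) (nat_lit 39) (nat_lit 5) (nat_lit 42) (nat_lit 5) (nat_lit 40) (nat_lit 5) (nat_lit 369) (nat_lit 323) (nat_lit 208))))))) (XT.nd (nat_lit 936) (nat_lit 760) (nat_lit 0) (XT.nd (nat_lit 468) (nat_lit 380) (nat_lit 0) (XT.nd (nat_lit 234) (nat_lit 152) (nat_lit 0) (XT.nd (nat_lit 78) (nat_lit 152) (nat_lit 0) (XT.lf (nat_lit 0) (nat_lit 12338638987) (nat_lit 152) (nat_lit 16716405923) (nat_lit 228) (nat_lit 20825509085) (nat_lit 37) (nat_lit 5) (nat_lit 39) (nat_lit 5) (nat_lit 40) (nat_lit 5) (nat_lit 370) (nat_lit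 323) (nat_lit 207)) (XT.nd (nat_lit 78) (nat_lit 152) (nat_lit 0) (XT.lf (nat_lit 0) (nat_lit 39467009525) (nat_lit 152) (nat_lit 1635525142) (nat_lit 228) (nat_lit 10506931259) (nat_lit 37) (nat_lit 5) (nat_lit 39) (nat_lit 5) (nat_lit 40) (nat_lit 5) (nat_lit 371) (nat_lit 323) (nat_lit 206)) (XT.lf (nat_lit 0) (nat_lit 771711959) (nat_lit 152) (nat_lit 38645584829) (nat_lit 76) (nat_lit 13984541516) (nat_lit 35) (nat_lit 5) (nat_lit 37) (nat_lit 5) (nat_lit 36) (nat_lit 5) (nat_lit 372) (nat_lit 323) (nat_lit 205)))) (XT.nd (nat_lit 78) (nat_lit 152) (nat_lit 0) (XT.lf (nat_lit 0) (nat_lit 12492036844) (nat_lit 152) (nat_lit 12063214159) (nat_lit 76) (nat_lit 30708425028) (nat_lit 35) (nat_lit 5) (nat_lit 37) (nat_lit 5) (nat_lit 36) (nat_lit 5) (nat_lit 373) (nat_lit 323) (nat_lit 204)) (XT.nd (nat_lit 78) (nat_lit 0) (nat_lit 0) (XT.lf (nat_lit 0) (nat_lit 16363734343) (nat_lit 152)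 (nat_lit 8685393965) (nat_lit 228) (nat_lit 32156941288) (nat_lit 33) (nat_lit 5) (nat_lit 35) (nat_lit 5) (nat_lit 36) (nat_lit 5) (nat_lit 374) (nat_lit 323) (nat_lit 203)) (XT.lf (nat_lit 0) (nat_lit 38561587986) (nat_lit 228) (nat_lit 12740764669) (nat_lit 76) (nat_lit 7926855897) (nat_lit 33) (nat_lit 5) (nat_lit 36) (nat_lit 5) (nat_lit 34) (nat_lit 4) (nat_lit 375) (nat_lit 323) (nat_lit 202))))) (XT.nd (nat_lit 234) (nat_lit 76) (nat_lit 0) (XT.nd (nat_lit 78) (nat_lit 228) (nat_lit 0) (XT.lf (nat_lit 0) (nat_lit 17164956155) (nat_lit 76) (nat_lit 35990624308) (nat_lit 152) (nat_lit 8177629828) (nat_lit 32) (nat_lit 5) (nat_lit 33) (nat_lit 5) (nat_lit 34) (nat_lit 4) (nat_lit 376) (nat_lit 323) (nat_lit 201)) (XT.nd (nat_lit 78) (nat_lit 152) (nat_lit 0) (XT.lf (nat_lit 0) (nat_lit 4993709483) (nat_lit 152) (nat_lit 14611896393) (nat_lit 76) (nat_lit 43922210566) (nat_lit 31) (nat_lit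 5) (nat_lit 33) (nat_lit 5) (nat_lit 32) (nat_lit 5) (nat_lit 377) (nat_lit 323) (nat_lit 200)) (XT.lf (nat_lit 0) (nat_lit 16818959110) (nat_lit 152) (nat_lit 1988188760) (nat_lit 228) (nat_lit 47005385498) (nat_lit 29) (nat_lit 5) (nat_lit 31) (nat_lit 5) (nat_lit 32) (nat_lit 5) (nat_lit 378) (nat_lit 323) (nat_lit 199)))) (XT.nd (nat_lit 78) (nat_lit 76) (nat_lit 0) (XT.lf (nat_lit 0) (nat_lit 33816340295) (nat_lit 228) (nat_lit 18139896744) (nat_lit 76) (nat_lit 16229996089) (nat_lit 29) (nat_lit 5) (nat_lit 32) (nat_lit 5) (nat_lit 30) (nat_lit 4) (nat_lit 379) (nat_lit 323) (nat_lit 198)) (XT.nd (nat_lit 78) (nat_lit 0) (nat_lit 0) (XT.lf (nat_lit 0) (nat_lit 14686692128) (nat_lit 76) (nat_lit 35147190990) (nat_lit 152) (nat_lit 20831841259) (nat_lit 28) (nat_lit 5) (nat_lit 29) (nat_lit 5) (nat_lit 30) (nat_lit 4) (nat_lit 380) (nat_lit 323) (nat_lit 197)) (XT.lf (nat_lit 0) (nat_lit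 49777258427) (nat_lit 76) (nat_lit 17178329002) (nat_lit 152) (nat_lit 6298439534) (nat_lit 28) (nat_lit 5) (nat_lit 29) (nat_lit 5) (nat_lit 30) (nat_lit 4) (nat_lit 381) (nat_lit 323) (nat_lit 196)))))) (XT.nd (nat_lit 468) (nat_lit 304) (nat_lit 0) (XT.nd (nat_lit 234) (nat_lit 152) (nat_lit 0) (XT.nd (nat_lit 78) (nat_lit 76) (nat_lit 0) (XT.lf (nat_lit 0) (nat_lit 8871812924) (nat_lit 228) (nat_lit 65136781809) (nat_lit 76) (nat_lit 1946304592) (nat_lit 25) (nat_lit 5) (nat_lit 28) (nat_lit 5) (nat_lit 26) (nat_lit 4) (nat_lit 382) (nat_lit 323) (nat_lit 195)) (XT.nd (nat_lit 78) (nat_lit 76) (nat_lit 0) (XT.lf (nat_lit 0) (nat_lit 25270857075) (nat_lit 228) (nat_lit 31526453242) (nat_lit 76) (nat_lit 21954245792) (nat_lit 25) (nat_lit 5) (nat_lit 28) (nat_lit 5) (nat_lit 26) (nat_lit 4) (nat_lit 383) (nat_lit 323) (nat_lit 194)) (XT.lf (nat_lit 0) (nat_lit 3882028737) (nat_lit 76)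 (nat_lit 38664841357) (nat_lit 152) (nat_lit 39138325623) (nat_lit 24) (nat_lit 5) (nat_lit 25) (nat_lit 5) (nat_lit 26) (nat_lit 4) (nat_lit 384) (nat_lit 323) (nat_lit 193)))) (XT.nd (nat_lit 78) (nat_lit 152) (nat_lit 0) (XT.lf (nat_lit 0) (nat_lit 42148956551) (nat_lit 76) (nat_lit 19068119773) (nat_lit 152) (nat_lit 23521922127) (nat_lit 24) (nat_lit 5) (nat_lit 25) (nat_lit 5) (nat_lit 26) (nat_lit 4) (nat_lit 385) (nat_lit 323) (nat_lit 192)) (XT.nd (nat_lit 78) (nat_lit 152) (nat_lit 0) (XT.lf (nat_lit 0) (nat_lit 80840944058) (nat_lit 152) (nat_lit 5646131419) (nat_lit 0) (nat_lit 1457409027) (nat_lit 24) (nat_lit 5) (nat_lit 26) (nat_lit 4) (nat_lit 24) (nat_lit 4) (nat_lit 386) (nat_lit 323) (nat_lit 191)) (XT.lf (nat_lit 0) (nat_lit 10663914761) (nat_lit 152) (nat_lit 57528552279) (nat_lit 76) (nat_lit 23067238006) (nat_lit 22) (nat_lit 5) (nat_lit 24) (nat_lit 5) (nat_lit 23)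 (nat_lit 4) (nat_lit 387) (nat_lit 323) (nat_lit 190))))) (XT.nd (nat_lit 234) (nat_lit 228) (nat_lit 0) (XT.nd (nat_lit 78) (nat_lit 76) (nat_lit 0) (XT.lf (nat_lit 0) (nat_lit 29174975847) (nat_lit 152) (nat_lit 19586631822) (nat_lit 76) (nat_lit 45968559076) (nat_lit 22) (nat_lit 5) (nat_lit 24) (nat_lit 5) (nat_lit 23) (nat_lit 4) (nat_lit 388) (nat_lit 323) (nat_lit 189)) (XT.nd (nat_lit 78) (nat_lit 0) (nat_lit 0) (XT.lf (nat_lit 0) (nat_lit 20916087921) (nat_lit 76) (nat_lit 28018985720) (nat_lit 152) (nat_lit 49422904316) (nat_lit 21) (nat_lit 5) (nat_lit 22) (nat_lit 5) (nat_lit 23) (nat_lit 4) (nat_lit 389) (nat_lit 323) (nat_lit 188)) (XT.lf (nat_lit 0) (nat_lit 64118297726) (nat_lit 76) (nat_lit 5893570818) (nat_lit 152) (nat_lit 32138877153) (nat_lit 21) (nat_lit 5) (nat_lit 22) (nat_lit 5) (nat_lit 23) (nat_lit 4) (nat_lit 390) (nat_lit 323) (nat_lit 187)))) (XT.nd (nat_lit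 156) (nat_lit 76) (nat_lit 0) (XT.nd (nat_lit 78) (nat_lit 76) (nat_lit 0) (XT.lf (nat_lit 0) (nat_lit 3172834558) (nat_lit 76) (nat_lit 89286989682) (nat_lit 76) (nat_lit 13657462084) (nat_lit 20) (nat_lit 4) (nat_lit 21) (nat_lit 5) (nat_lit 21) (nat_lit 4) (nat_lit 391) (nat_lit 323) (nat_lit 186)) (XT.lf (nat_lit 0) (nat_lit 6312418592) (nat_lit 152) (nat_lit 62693578496) (nat_lit 76) (nat_lit 41234251881) (nat_lit 19) (nat_lit 5) (nat_lit 21) (nat_lit 5) (nat_lit 20) (nat_lit 4) (nat_lit 392) (nat_lit 323) (nat_lit 185))) (XT.nd (nat_lit 78) (nat_lit 76) (nat_lit 0) (XT.lf (nat_lit 0) (nat_lit 26819046072) (nat_lit 152) (nat_lit 20659286461) (nat_lit 76) (nat_lit 67079971398) (nat_lit 19) (nat_lit 5) (nat_lit 21) (nat_lit 5) (nat_lit 20) (nat_lit 4) (nat_lit 393) (nat_lit 323) (nat_lit 184)) (XT.lf (nat_lit 0) (nat_lit 24247818879) (nat_lit 76) (nat_lit 24479127265) (nat_lit 152) (nat_lit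 70346518889) (nat_lit 18) (nat_lit 5) (nat_lit 19) (nat_lit 5) (nat_lit 20) (nat_lit 4) (nat_lit 394) (nat_lit 323) (nat_lit 183))))))))
noncomputable def xc161 : XT := (XT.nd (nat_lit 1950) (nat_lit 228) (nat_lit 0) (XT.nd (nat_lit 936) (nat_lit 304) (nat_lit 0) (XT.nd (nat_lit 468) (nat_lit 228) (nat_lit 0) (XT.nd (nat_lit 234) (nat_lit 152) (nat_lit 0) (XT.nd (nat_lit 78) (nat_lit 76) (nat_lit 0) (XT.lf (nat_lit 0) (nat_lit 72078077852) (nat_lit 152) (nat_lit 51684947347) (nat_lit 0) (nat_lit 33967592) (nat_lit 18) (nat_lit 5) (nat_lit 20) (nat_lit 4) (nat_lit 18) (nat_lit 4) (nat_lit 395) (nat_lit 323) (nat_lit 182)) (XT.nd (nat_lit 78) (nat_lit 76) (nat_lit 0) (XT.lf (nat_lit 0) (nat_lit 96995565780) (nat_lit 152) (nat_lit 6793268998) (nat_lit 0) (nat_lit 24947922590) (nat_lit 18) (nat_lit 5) (nat_lit 20) (nat_lit 4) (nat_lit 18) (nat_lit 4) (nat_lit 396) (nat_lit 323) (nat_lit 181))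 (XT.lf (nat_lit 0) (nat_lit 41672233335) (nat_lit 76) (nat_lit 82134936514) (nat_lit 76) (nat_lit 10083928629) (nat_lit 17) (nat_lit 4) (nat_lit 18) (nat_lit 5) (nat_lit 18) (nat_lit 4) (nat_lit 397) (nat_lit 323) (nat_lit 180)))) (XT.nd (nat_lit 78) (nat_lit 76) (nat_lit 0) (XT.lf (nat_lit 0) (nat_lit 12365679851) (nat_lit 152) (nat_lit 46704568661) (nat_lit 76) (nat_lit 80217300566) (nat_lit 16) (nat_lit 5) (nat_lit 18) (nat_lit 5) (nat_lit 17) (nat_lit 4) (nat_lit 398) (nat_lit 323) (nat_lit 179)) (XT.nd (nat_lit 78) (nat_lit 0) (nat_lit 0) (XT.lf (nat_lit 0) (nat_lit 946091860) (nat_lit 76) (nat_lit 34665301356) (nat_lit 152) (nat_lit 109333538285) (nat_lit 15) (nat_lit 5) (nat_lit 16) (nat_lit 5) (nat_lit 17) (nat_lit 4) (nat_lit 399) (nat_lit 323) (nat_lit 178)) (XT.lf (nat_lit 0) (nat_lit 52596510942) (nat_lit 76) (nat_lit 8211626485) (nat_lit 152) (nat_lit 90037608683) (nat_lit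 15) (nat_lit 5) (nat_lit 16) (nat_lit 5) (nat_lit 17) (nat_lit 4) (nat_lit 400) (nat_lit 323) (nat_lit 177))))) (XT.nd (nat_lit 234) (nat_lit 152) (nat_lit 0) (XT.nd (nat_lit 78) (nat_lit 76) (nat_lit 0) (XT.lf (nat_lit 0) (nat_lit 87568035316) (nat_lit 152) (nat_lit 50521735710) (nat_lit 0) (nat_lit 18936664908) (nat_lit 15) (nat_lit 5) (nat_lit 17) (nat_lit 4) (nat_lit 15) (nat_lit 4) (nat_lit 401) (nat_lit 323) (nat_lit 176)) (XT.nd (nat_lit 78) (nat_lit 76) (nat_lit 0) (XT.lf (nat_lit 0) (nat_lit 115798503182) (nat_lit 152) (nat_lit 546406619) (nat_lit 0) (nat_lit 47164621987) (nat_lit 15) (nat_lit 5) (nat_lit 17) (nat_lit 4) (nat_lit 15) (nat_lit 4) (nat_lit 402) (nat_lit 323) (nat_lit 175)) (XT.lf (nat_lit 0) (nat_lit 53640787684) (nat_lit 76) (nat_lit 92635245261) (nat_lit 76) (nat_lit 23998972840) (nat_lit 14) (nat_lit 4) (nat_lit 15) (nat_lit 5) (nat_lit 15) (nat_lit 4) (nat_lit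 403) (nat_lit 323) (nat_lit 174)))) (XT.nd (nat_lit 78) (nat_lit 76) (nat_lit 0) (XT.lf (nat_lit 0) (nat_lit 877386564) (nat_lit 152) (nat_lit 66839907322) (nat_lit 76) (nat_lit 109660385082) (nat_lit 13) (nat_lit 5) (nat_lit 15) (nat_lit 5) (nat_lit 14) (nat_lit 4) (nat_lit 404) (nat_lit 323) (nat_lit 173)) (XT.nd (nat_lit 78) (nat_lit 76) (nat_lit 0) (XT.lf (nat_lit 0) (nat_lit 26189192555) (nat_lit 152) (nat_lit 14952873953) (nat_lit 76) (nat_lit 143673840679) (nat_lit 13) (nat_lit 5) (nat_lit 15) (nat_lit 5) (nat_lit 14) (nat_lit 4) (nat_lit 405) (nat_lit 323) (nat_lit 172)) (XT.lf (nat_lit 0) (nat_lit 40831992544) (nat_lit 76) (nat_lit 12570337634) (nat_lit 152) (nat_lit 139191929801) (nat_lit 12) (nat_lit 5) (nat_lit 13) (nat_lit 5) (nat_lit 14) (nat_lit 4) (nat_lit 406) (nat_lit 323) (nat_lit 171)))))) (XT.nd (nat_lit 468) (nat_lit 152) (nat_lit 0) (XT.nd (nat_lit 234) (nat_lit 76)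 (nat_lit 0) (XT.nd (nat_lit 78) (nat_lit 76) (nat_lit 0) (XT.lf (nat_lit 0) (nat_lit 82503886970) (nat_lit 152) (nat_lit 101103322471) (nat_lit 0) (nat_lit 17127933075) (nat_lit 12) (nat_lit 5) (nat_lit 14) (nat_lit 4) (nat_lit 12) (nat_lit 4) (nat_lit 407) (nat_lit 323) (nat_lit 170)) (XT.nd (nat_lit 78) (nat_lit 76) (nat_lit 0) (XT.lf (nat_lit 0) (nat_lit 113264922188) (nat_lit 152) (nat_lit 48120743246) (nat_lit 0) (nat_lit 47887183923) (nat_lit 12) (nat_lit 5) (nat_lit 14) (nat_lit 4) (nat_lit 12) (nat_lit 4) (nat_lit 408) (nat_lit 323) (nat_lit 169)) (XT.lf (nat_lit 0) (nat_lit 7756121770) (nat_lit 76) (nat_lit 137927391222) (nat_lit 76) (nat_lit 72547953557) (nat_lit 11) (nat_lit 4) (nat_lit 12) (nat_lit 5) (nat_lit 12) (nat_lit 4) (nat_lit 409) (nat_lit 323) (nat_lit 168)))) (XT.nd (nat_lit 78) (nat_lit 76) (nat_lit 0) (XT.lf (nat_lit 0) (nat_lit 68094435877) (nat_lit 76) (nat_lit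 112441982890) (nat_lit 76) (nat_lit 47060926749) (nat_lit 11) (nat_lit 4) (nat_lit 12) (nat_lit 5) (nat_lit 12) (nat_lit 4) (nat_lit 410) (nat_lit 323) (nat_lit 167)) (XT.nd (nat_lit 78) (nat_lit 76) (nat_lit 0) (XT.lf (nat_lit 0) (nat_lit 131446772636) (nat_lit 76) (nat_lit 85683708966) (nat_lit 76) (nat_lit 20301111420) (nat_lit 11) (nat_lit 4) (nat_lit 12) (nat_lit 5) (nat_lit 12) (nat_lit 4) (nat_lit 411) (nat_lit 323) (nat_lit 166)) (XT.lf (nat_lit 0) (nat_lit 7545710992) (nat_lit 152) (nat_lit 49915358016) (nat_lit 76) (nat_lit 190290469685) (nat_lit 10) (nat_lit 5) (nat_lit 12) (nat_lit 5) (nat_lit 11) (nat_lit 4) (nat_lit 412) (nat_lit 323) (nat_lit 165))))) (XT.nd (nat_lit 234) (nat_lit 76) (nat_lit 0) (XT.nd (nat_lit 78) (nat_lit 0) (nat_lit 0) (XT.lf (nat_lit 0) (nat_lit 8907188413) (nat_lit 76) (nat_lit 27333129667) (nat_lit 152) (nat_lit 222323638766) (nat_lit 9) (nat_lit 5)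 (nat_lit 10) (nat_lit 5) (nat_lit 11) (nat_lit 4) (nat_lit 413) (nat_lit 323) (nat_lit 164)) (XT.nd (nat_lit 78) (nat_lit 0) (nat_lit 0) (XT.lf (nat_lit 0) (nat_lit 67294640413) (nat_lit 152) (nat_lit 197554604248) (nat_lit 0) (nat_lit 5021502150) (nat_lit 9) (nat_lit 5) (nat_lit 11) (nat_lit 4) (nat_lit 9) (nat_lit 4) (nat_lit 414) (nat_lit 323) (nat_lit 163)) (XT.lf (nat_lit 0) (nat_lit 100348460302) (nat_lit 152) (nat_lit 143297962732) (nat_lit 0) (nat_lit 38074114307) (nat_lit 9) (nat_lit 5) (nat_lit 11) (nat_lit 4) (nat_lit 9) (nat_lit 4) (nat_lit 415) (nat_lit 323) (nat_lit 162)))) (XT.nd (nat_lit 156) (nat_lit 76) (nat_lit 0) (XT.nd (nat_lit 78) (nat_lit 0) (nat_lit 0) (XT.lf (nat_lit 0) (nat_lit 135053730564) (nat_lit 152) (nat_lit 86330914651) (nat_lit 0) (nat_lit 72778234349) (nat_lit 9) (nat_lit 5) (nat_lit 11) (nat_lit 4) (nat_lit 9) (nat_lit 4) (nat_lit 416) (nat_lit 323) (nat_lit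 161)) (XT.lf (nat_lit 0) (nat_lit 171493082795) (nat_lit 152) (nat_lit 26517824176) (nat_lit 0) (nat_lit 109216491132) (nat_lit 9) (nat_lit 5) (nat_lit 11) (nat_lit 4) (nat_lit 9) (nat_lit 4) (nat_lit 417) (nat_lit 323) (nat_lit 160))) (XT.nd (nat_lit 78) (nat_lit 0) (nat_lit 0) (XT.lf (nat_lit 0) (nat_lit 37483424483) (nat_lit 76) (nat_lit 172855074177) (nat_lit 76) (nat_lit 110577439229) (nat_lit 8) (nat_lit 4) (nat_lit 9) (nat_lit 5) (nat_lit 9) (nat_lit 4) (nat_lit 418) (nat_lit 323) (nat_lit 159)) (XT.lf (nat_lit 0) (nat_lit 105603210028) (nat_lit 76) (nat_lit 145970961985) (nat_lit 76) (nat_lit 83692333434) (nat_lit 8) (nat_lit 4) (nat_lit 9) (nat_lit 5) (nat_lit 9) (nat_lit 4) (nat_lit 419) (nat_lit 323) (nat_lit 158))))))) (XT.nd (nat_lit 936) (nat_lit 0) (nat_lit 0) (XT.nd (nat_lit 468) (nat_lit 76) (nat_lit 0) (XT.nd (nat_lit 234) (nat_lit 76) (nat_lit 0) (XT.nd (nat_lit 78) (nat_lit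 76) (nat_lit 0) (XT.lf (nat_lit 0) (nat_lit 177126923397) (nat_lit 76) (nat_lit 117743652789) (nat_lit 76) (nat_lit 55464077949) (nat_lit 8) (nat_lit 4) (nat_lit 9) (nat_lit 5) (nat_lit 9) (nat_lit 4) (nat_lit 420) (nat_lit 323) (nat_lit 157)) (XT.nd (nat_lit 78) (nat_lit 76) (nat_lit 0) (XT.lf (nat_lit 0) (nat_lit 252224859145) (nat_lit 76) (nat_lit 88105938710) (nat_lit 76) (nat_lit 25825462642) (nat_lit 8) (nat_lit 4) (nat_lit 9) (nat_lit 5) (nat_lit 9) (nat_lit 4) (nat_lit 421) (nat_lit 323) (nat_lit 156)) (XT.lf (nat_lit 0) (nat_lit 5124636976) (nat_lit 152) (nat_lit 51775828580) (nat_lit 76) (nat_lit 325864396699) (nat_lit 7) (nat_lit 5) (nat_lit 9) (nat_lit 5) (nat_lit 8) (nat_lit 4) (nat_lit 422) (nat_lit 323) (nat_lit 155)))) (XT.nd (nat_lit 78) (nat_lit 0) (nat_lit 0) (XT.lf (nat_lit 0) (nat_lit 13494243228) (nat_lit 76) (nat_lit 23469851917) (nat_lit 152) (nat_lit 363208142709)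 (nat_lit 6) (nat_lit 5) (nat_lit 7) (nat_lit 5) (nat_lit 8) (nat_lit 4) (nat_lit 423) (nat_lit 323) (nat_lit 154)) (XT.nd (nat_lit 78) (nat_lit 0) (nat_lit 0) (XT.lf (nat_lit 0) (nat_lit 71467440250) (nat_lit 152) (nat_lit 334778582631) (nat_lit 0) (nat_lit 12150363740) (nat_lit 6) (nat_lit 5) (nat_lit 8) (nat_lit 4) (nat_lit 6) (nat_lit 4) (nat_lit 424) (nat_lit 323) (nat_lit 153)) (XT.lf (nat_lit 0) (nat_lit 108079826245) (nat_lit 152) (nat_lit 280670679381) (nat_lit 0) (nat_lit 48762043599) (nat_lit 6) (nat_lit 5) (nat_lit 8) (nat_lit 4) (nat_lit 6) (nat_lit 4) (nat_lit 425) (nat_lit 323) (nat_lit 152))))) (XT.nd (nat_lit 234) (nat_lit 76) (nat_lit 0) (XT.nd (nat_lit 78) (nat_lit 0) (nat_lit 0) (XT.lf (nat_lit 0) (nat_lit 146521995316) (nat_lit 152) (nat_lit 223859026375) (nat_lit 0) (nat_lit 87203540160) (nat_lit 6) (nat_lit 5) (nat_lit 8) (nat_lit 4) (nat_lit 6) (nat_lit 4) (nat_lit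 426) (nat_lit 323) (nat_lit 151)) (XT.nd (nat_lit 78) (nat_lit 0) (nat_lit 0) (XT.lf (nat_lit 0) (nat_lit 186885476436) (nat_lit 152) (nat_lit 164208357771) (nat_lit 0) (nat_lit 127566380794) (nat_lit 6) (nat_lit 5) (nat_lit 8) (nat_lit 4) (nat_lit 6) (nat_lit 4) (nat_lit 427) (nat_lit 323) (nat_lit 150)) (XT.lf (nat_lit 0) (nat_lit 229266373132) (nat_lit 152) (nat_lit 101576648169) (nat_lit 0) (nat_lit 169946667503) (nat_lit 6) (nat_lit 5) (nat_lit 8) (nat_lit 4) (nat_lit 6) (nat_lit 4) (nat_lit 428) (nat_lit 323) (nat_lit 149)))) (XT.nd (nat_lit 78) (nat_lit 76) (nat_lit 0) (XT.lf (nat_lit 0) (nat_lit 273765592301) (nat_lit 152) (nat_lit 35814774449) (nat_lit 0) (nat_lit 214445305733) (nat_lit 6) (nat_lit 5) (nat_lit 8) (nat_lit 4) (nat_lit 6) (nat_lit 4) (nat_lit 429) (nat_lit 323) (nat_lit 148)) (XT.nd (nat_lit 78) (nat_lit 0) (nat_lit 0) (XT.lf (nat_lit 0) (nat_lit 34332700090) (nat_lit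 76) (nat_lit 286692414040) (nat_lit 76) (nat_lit 227371574196) (nat_lit 5) (nat_lit 4) (nat_lit 6) (nat_lit 5) (nat_lit 6) (nat_lit 4) (nat_lit 430) (nat_lit 323) (nat_lit 147)) (XT.lf (nat_lit 0) (nat_lit 109229624609) (nat_lit 76) (nat_lit 262023851980) (nat_lit 76) (nat_lit 202702485207) (nat_lit 5) (nat_lit 4) (nat_lit 6) (nat_lit 5) (nat_lit 6) (nat_lit 4) (nat_lit 431) (nat_lit 323) (nat_lit 146)))))) (XT.nd (nat_lit 38610) (nat_lit 0) (nat_lit 7904) (XT.nd (nat_lit 234) (nat_lit 0) (nat_lit 0) (XT.nd (nat_lit 78) (nat_lit 0) (nat_lit 0) (XT.lf (nat_lit 0) (nat_lit 187870126929) (nat_lit 76) (nat_lit 236122486435) (nat_lit 76) (nat_lit 176800617824) (nat_lit 5) (nat_lit 4) (nat_lit 6) (nat_lit 5) (nat_lit 6) (nat_lit 4) (nat_lit 432) (nat_lit 323) (nat_lit 145)) (XT.nd (nat_lit 78) (nat_lit 0) (nat_lit 0) (XT.lf (nat_lit 0) (nat_lit 270441446341) (nat_lit 76) (nat_lit 208926647486)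 (nat_lit 76) (nat_lit 149604300935) (nat_lit 5) (nat_lit 4) (nat_lit 6) (nat_lit 5) (nat_lit 6) (nat_lit 4) (nat_lit 433) (nat_lit 323) (nat_lit 144)) (XT.lf (nat_lit 0) (nat_lit 357140181226) (nat_lit 76) (nat_lit 180371583136) (nat_lit 76) (nat_lit 121048781404) (nat_lit 5) (nat_lit 4) (nat_lit 6) (nat_lit 5) (nat_lit 6) (nat_lit 4) (nat_lit 434) (nat_lit 323) (nat_lit 143)))) (XT.nd (nat_lit 38220) (nat_lit 0) (nat_lit 8512) (XT.lf (nat_lit 0) (nat_lit 448172757142) (nat_lit 76) (nat_lit 150389305137) (nat_lit 76) (nat_lit 91066069899) (nat_lit 5) (nat_lit 4) (nat_lit 6) (nat_lit 5) (nat_lit 6) (nat_lit 4) (nat_lit 435) (nat_lit 323) (nat_lit 142)) (XT.nd (nat_lit 78) (nat_lit 0) (nat_lit 0) (XT.lf (nat_lit 0) (nat_lit 2622157273) (nat_lit 0) (nat_lit 2622157273) (nat_lit 684) (nat_lit 1449959862) (nat_lit 117) (nat_lit 5) (nat_lit 117) (nat_lit 3) (nat_lit 126) (nat_lit 3) (nat_lit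 324) (nat_lit 324) (nat_lit 252)) (XT.lf (nat_lit 0) (nat_lit 11125938830) (nat_lit 684) (nat_lit 1751153653) (nat_lit 760) (nat_lit 827080472) (nat_lit 117) (nat_lit 5) (nat_lit 126) (nat_lit 3) (nat_lit 127) (nat_lit 5) (nat_lit 325) (nat_lit 324) (nat_lit 251))))) (XT.nd (nat_lit 234) (nat_lit 608) (nat_lit 0) (XT.nd (nat_lit 78) (nat_lit 0) (nat_lit 0) (XT.lf (nat_lit 76) (nat_lit 5023452029) (nat_lit 0) (nat_lit 6913088553) (nat_lit 760) (nat_lit 2091987826) (nat_lit 118) (nat_lit 5) (nat_lit 117) (nat_lit 5) (nat_lit 127) (nat_lit 5) (nat_lit 326) (nat_lit 324) (nat_lit 250)) (XT.nd (nat_lit 78) (nat_lit 0) (nat_lit 76) (XT.lf (nat_lit 76) (nat_lit 12184854348) (nat_lit 0) (nat_lit 610394055) (nat_lit 760) (nat_lit 1573494850) (nat_lit 118) (nat_lit 5) (nat_lit 117) (nat_lit 5) (nat_lit 127) (nat_lit 5) (nat_lit 327) (nat_lit 324) (nat_lit 249)) (XT.lf (nat_lit 76) (nat_lit 5032296442)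 (nat_lit 0) (nat_lit 8816066167) (nat_lit 760) (nat_lit 870052122) (nat_lit 119) (nat_lit 5) (nat_lit 118) (nat_lit 5) (nat_lit 128) (nat_lit 5) (nat_lit 328) (nat_lit 324) (nat_lit 248)))) (XT.nd (nat_lit 156) (nat_lit 0) (nat_lit 0) (XT.nd (nat_lit 78) (nat_lit 684) (nat_lit 0) (XT.lf (nat_lit 76) (nat_lit 12661654971) (nat_lit 0) (nat_lit 2319207637) (nat_lit 760) (nat_lit 103389191) (nat_lit 119) (nat_lit 5) (nat_lit 118) (nat_lit 5) (nat_lit 128) (nat_lit 5) (nat_lit 329) (nat_lit 324) (nat_lit 247)) (XT.lf (nat_lit 0) (nat_lit 815169834) (nat_lit 760) (nat_lit 10185324400) (nat_lit 836) (nat_lit 4460554642) (nat_lit 109) (nat_lit 5) (nat_lit 119) (nat_lit 5) (nat_lit 120) (nat_lit 5) (nat_lit 330) (nat_lit 324) (nat_lit 246))) (XT.nd (nat_lit 78) (nat_lit 0) (nat_lit 76) (XT.lf (nat_lit 0) (nat_lit 1837244470) (nat_lit 760) (nat_lit 2465939144) (nat_lit 836) (nat_lit 11550380332)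 (nat_lit 109) (nat_lit 5) (nat_lit 119) (nat_lit 5) (nat_lit 120) (nat_lit 5) (nat_lit 331) (nat_lit 324) (nat_lit 245)) (XT.lf (nat_lit 0) (nat_lit 3027561046) (nat_lit 760) (nat_lit 10494116472) (nat_lit 836) (nat_lit 2738185578) (nat_lit 110) (nat_lit 5) (nat_lit 120) (nat_lit 5) (nat_lit 121) (nat_lit 5) (nat_lit 332) (nat_lit 324) (nat_lit 244))))))))
noncomputable def xc162 : XT := (XT.nd (nat_lit 1872) (nat_lit 2204) (nat_lit 0) (XT.nd (nat_lit 936) (nat_lit 1900) (nat_lit 0) (XT.nd (nat_lit 468) (nat_lit 1064) (nat_lit 0) (XT.nd (nat_lit 234) (nat_lit 1064) (nat_lit 0) (XT.nd (nat_lit 78) (nat_lit 0) (nat_lit 76) (XT.lf (nat_lit 0) (nat_lit 4373318751) (nat_lit 760) (nat_lit 2275028430) (nat_lit 836) (nat_lit 10033348266) (nat_lit 110) (nat_lit 5) (nat_lit 120) (nat_lit 5) (nat_lit 121) (nat_lit 5) (nat_lit 333) (nat_lit 324) (nat_lit 243)) (XT.nd (nat_lit 78) (nat_lit 0) (nat_lit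 0) (XT.lf (nat_lit 0) (nat_lit 5882996357) (nat_lit 760) (nat_lit 10579604948) (nat_lit 76) (nat_lit 657200327) (nat_lit 111) (nat_lit 5) (nat_lit 121) (nat_lit 5) (nat_lit 112) (nat_lit 5) (nat_lit 334) (nat_lit 324) (nat_lit 242)) (XT.lf (nat_lit 0) (nat_lit 7600662937) (nat_lit 760) (nat_lit 1826332585) (nat_lit 76) (nat_lit 8146205511) (nat_lit 111) (nat_lit 5) (nat_lit 121) (nat_lit 5) (nat_lit 112) (nat_lit 5) (nat_lit 335) (nat_lit 324) (nat_lit 241)))) (XT.nd (nat_lit 78) (nat_lit 380) (nat_lit 0) (XT.lf (nat_lit 0) (nat_lit 7594344237) (nat_lit 760) (nat_lit 1913538052) (nat_lit 836) (nat_lit 8536217175) (nat_lit 101) (nat_lit 5) (nat_lit 111) (nat_lit 5) (nat_lit 112) (nat_lit 5) (nat_lit 336) (nat_lit 324) (nat_lit 240)) (XT.nd (nat_lit 78) (nat_lit 380) (nat_lit 0) (XT.lf (nat_lit 0) (nat_lit 11620820529) (nat_lit 836) (nat_lit 1095200465) (nat_lit 76) (nat_lit 5817015865) (nat_lit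 101) (nat_lit 5) (nat_lit 112) (nat_lit 5) (nat_lit 102) (nat_lit 5) (nat_lit 337) (nat_lit 324) (nat_lit 239)) (XT.lf (nat_lit 0) (nat_lit 8969593280) (nat_lit 380) (nat_lit 5027532178) (nat_lit 456) (nat_lit 5041421045) (nat_lit 96) (nat_lit 5) (nat_lit 101) (nat_lit 5) (nat_lit 102) (nat_lit 5) (nat_lit 338) (nat_lit 324) (nat_lit 238))))) (XT.nd (nat_lit 234) (nat_lit 304) (nat_lit 0) (XT.nd (nat_lit 78) (nat_lit 760) (nat_lit 0) (XT.lf (nat_lit 0) (nat_lit 16545407235) (nat_lit 456) (nat_lit 54271787) (nat_lit 76) (nat_lit 2967005353) (nat_lit 96) (nat_lit 5) (nat_lit 102) (nat_lit 5) (nat_lit 97) (nat_lit 5) (nat_lit 339) (nat_lit 324) (nat_lit 237)) (XT.nd (nat_lit 78) (nat_lit 456) (nat_lit 0) (XT.lf (nat_lit 0) (nat_lit 10708446955) (nat_lit 304) (nat_lit 8749656770) (nat_lit 380) (nat_lit 651285696) (nat_lit 92) (nat_lit 5) (nat_lit 96) (nat_lit 5) (nat_lit 97) (nat_lit 5) (nat_lit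 340) (nat_lit 324) (nat_lit 236)) (XT.lf (nat_lit 0) (nat_lit 1332733529) (nat_lit 380) (nat_lit 454995618) (nat_lit 456) (nat_lit 18889609436) (nat_lit 86) (nat_lit 5) (nat_lit 91) (nat_lit 5) (nat_lit 92) (nat_lit 5) (nat_lit 341) (nat_lit 324) (nat_lit 235)))) (XT.nd (nat_lit 78) (nat_lit 304) (nat_lit 0) (XT.lf (nat_lit 0) (nat_lit 4605457763) (nat_lit 456) (nat_lit 8492019976) (nat_lit 76) (nat_lit 8161750007) (nat_lit 86) (nat_lit 5) (nat_lit 92) (nat_lit 5) (nat_lit 87) (nat_lit 5) (nat_lit 342) (nat_lit 324) (nat_lit 234)) (XT.nd (nat_lit 78) (nat_lit 0) (nat_lit 0) (XT.lf (nat_lit 0) (nat_lit 2978094003) (nat_lit 304) (nat_lit 4628464335) (nat_lit 380) (nat_lit 14261537234) (nat_lit 82) (nat_lit 5) (nat_lit 86) (nat_lit 5) (nat_lit 87) (nat_lit 5) (nat_lit 343) (nat_lit 324) (nat_lit 233)) (XT.lf (nat_lit 0) (nat_lit 10959312945) (nat_lit 380) (nat_lit 7265897967) (nat_lit 76)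 (nat_lit 4272124007) (nat_lit 82) (nat_lit 5) (nat_lit 87) (nat_lit 5) (nat_lit 83) (nat_lit 5) (nat_lit 344) (nat_lit 324) (nat_lit 232)))))) (XT.nd (nat_lit 468) (nat_lit 988) (nat_lit 0) (XT.nd (nat_lit 234) (nat_lit 380) (nat_lit 0) (XT.nd (nat_lit 78) (nat_lit 228) (nat_lit 0) (XT.lf (nat_lit 0) (nat_lit 5011270289) (nat_lit 304) (nat_lit 9611934195) (nat_lit 380) (nat_lit 8527664483) (nat_lit 78) (nat_lit 5) (nat_lit 82) (nat_lit 5) (nat_lit 83) (nat_lit 5) (nat_lit 345) (nat_lit 324) (nat_lit 231)) (XT.nd (nat_lit 78) (nat_lit 228) (nat_lit 0) (XT.lf (nat_lit 0) (nat_lit 18142100653) (nat_lit 304) (nat_lit 440935385) (nat_lit 380) (nat_lit 5248413737) (nat_lit 78) (nat_lit 5) (nat_lit 82) (nat_lit 5) (nat_lit 83) (nat_lit 5) (nat_lit 346) (nat_lit 324) (nat_lit 230)) (XT.lf (nat_lit 0) (nat_lit 7466606165) (nat_lit 228) (nat_lit 15524440454) (nat_lit 304) (nat_lit 1542510611) (nat_lit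 75) (nat_lit 5) (nat_lit 78) (nat_lit 5) (nat_lit 79) (nat_lit 5) (nat_lit 347) (nat_lit 324) (nat_lit 229)))) (XT.nd (nat_lit 78) (nat_lit 304) (nat_lit 0) (XT.lf (nat_lit 0) (nat_lit 2368943976) (nat_lit 304) (nat_lit 3846003535) (nat_lit 76) (nat_lit 19049223947) (nat_lit 74) (nat_lit 5) (nat_lit 78) (nat_lit 5) (nat_lit 75) (nat_lit 5) (nat_lit 348) (nat_lit 324) (nat_lit 228)) (XT.nd (nat_lit 78) (nat_lit 0) (nat_lit 0) (XT.lf (nat_lit 0) (nat_lit 6634736712) (nat_lit 380) (nat_lit 15751607387) (nat_lit 76) (nat_lit 3633183781) (nat_lit 70) (nat_lit 5) (nat_lit 75) (nat_lit 5) (nat_lit 71) (nat_lit 5) (nat_lit 349) (nat_lit 324) (nat_lit 227)) (XT.lf (nat_lit 0) (nat_lit 11272855220) (nat_lit 380) (nat_lit 1703366611) (nat_lit 76) (nat_lit 13828484227) (nat_lit 70) (nat_lit 5) (nat_lit 75) (nat_lit 5) (nat_lit 71) (nat_lit 5) (nat_lit 350) (nat_lit 324) (nat_lit 226))))) (XT.nd (nat_lit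 234) (nat_lit 532) (nat_lit 0) (XT.nd (nat_lit 78) (nat_lit 228) (nat_lit 0) (XT.lf (nat_lit 0) (nat_lit 13466799003) (nat_lit 228) (nat_lit 2877716123) (nat_lit 304) (nat_lit 11274551714) (nat_lit 67) (nat_lit 5) (nat_lit 70) (nat_lit 5) (nat_lit 71) (nat_lit 5) (nat_lit 351) (nat_lit 324) (nat_lit 225)) (XT.nd (nat_lit 78) (nat_lit 0) (nat_lit 0) (XT.lf (nat_lit 0) (nat_lit 877187300) (nat_lit 228) (nat_lit 20947775155) (nat_lit 304) (nat_lit 6641428191) (nat_lit 64) (nat_lit 5) (nat_lit 67) (nat_lit 5) (nat_lit 68) (nat_lit 5) (nat_lit 352) (nat_lit 324) (nat_lit 224)) (XT.lf (nat_lit 0) (nat_lit 17089201353) (nat_lit 228) (nat_lit 10768111586) (nat_lit 304) (nat_lit 1484878626) (nat_lit 64) (nat_lit 5) (nat_lit 67) (nat_lit 5) (nat_lit 68) (nat_lit 5) (nat_lit 353) (nat_lit 324) (nat_lit 223)))) (XT.nd (nat_lit 78) (nat_lit 228) (nat_lit 0) (XT.lf (nat_lit 0) (nat_lit 3857417891) (nat_lit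 304) (nat_lit 26354432980) (nat_lit 76) (nat_lit 44184234) (nat_lit 60) (nat_lit 5) (nat_lit 64) (nat_lit 5) (nat_lit 61) (nat_lit 5) (nat_lit 354) (nat_lit 324) (nat_lit 222)) (XT.nd (nat_lit 78) (nat_lit 228) (nat_lit 0) (XT.lf (nat_lit 0) (nat_lit 9796569293) (nat_lit 304) (nat_lit 10131536612) (nat_lit 76) (nat_lit 11267270003) (nat_lit 60) (nat_lit 5) (nat_lit 64) (nat_lit 5) (nat_lit 61) (nat_lit 5) (nat_lit 355) (nat_lit 324) (nat_lit 221)) (XT.lf (nat_lit 0) (nat_lit 7119525236) (nat_lit 228) (nat_lit 9016883217) (nat_lit 304) (nat_lit 16040092869) (nat_lit 57) (nat_lit 5) (nat_lit 60) (nat_lit 5) (nat_lit 61) (nat_lit 5) (nat_lit 356) (nat_lit 324) (nat_lit 220))))))) (XT.nd (nat_lit 936) (nat_lit 1064) (nat_lit 0) (XT.nd (nat_lit 468) (nat_lit 532) (nat_lit 0) (XT.nd (nat_lit 234) (nat_lit 380) (nat_lit 0) (XT.nd (nat_lit 78) (nat_lit 228) (nat_lit 0) (XT.lf (nat_lit 0) (nat_lit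 22998436331) (nat_lit 304) (nat_lit 7665111962) (nat_lit 76) (nat_lit 2532878763) (nat_lit 57) (nat_lit 5) (nat_lit 61) (nat_lit 5) (nat_lit 58) (nat_lit 5) (nat_lit 357) (nat_lit 324) (nat_lit 219)) (XT.nd (nat_lit 78) (nat_lit 76) (nat_lit 0) (XT.lf (nat_lit 0) (nat_lit 10783194496) (nat_lit 152) (nat_lit 19729599768) (nat_lit 228) (nat_lit 3739097079) (nat_lit 55) (nat_lit 5) (nat_lit 57) (nat_lit 5) (nat_lit 58) (nat_lit 5) (nat_lit 358) (nat_lit 324) (nat_lit 218)) (XT.lf (nat_lit 0) (nat_lit 3070405515) (nat_lit 228) (nat_lit 4993765443) (nat_lit 76) (nat_lit 27287333408) (nat_lit 54) (nat_lit 5) (nat_lit 57) (nat_lit 5) (nat_lit 55) (nat_lit 5) (nat_lit 359) (nat_lit 324) (nat_lit 217)))) (XT.nd (nat_lit 78) (nat_lit 152) (nat_lit 0) (XT.lf (nat_lit 0) (nat_lit 10389423618) (nat_lit 304) (nat_lit 21754352858) (nat_lit 76) (nat_lit 4344525001) (nat_lit 51) (nat_lit 5) (nat_lit 55)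 (nat_lit 5) (nat_lit 52) (nat_lit 5) (nat_lit 360) (nat_lit 324) (nat_lit 216)) (XT.nd (nat_lit 78) (nat_lit 152) (nat_lit 0) (XT.lf (nat_lit 0) (nat_lit 18286093476) (nat_lit 304) (nat_lit 2200006548) (nat_lit 76) (nat_lit 17185256421) (nat_lit 51) (nat_lit 5) (nat_lit 55) (nat_lit 5) (nat_lit 52) (nat_lit 5) (nat_lit 361) (nat_lit 324) (nat_lit 215)) (XT.lf (nat_lit 0) (nat_lit 18928229688) (nat_lit 152) (nat_lit 7938740391) (nat_lit 228) (nat_lit 12032128320) (nat_lit 49) (nat_lit 5) (nat_lit 51) (nat_lit 5) (nat_lit 52) (nat_lit 5) (nat_lit 362) (nat_lit 324) (nat_lit 214))))) (XT.nd (nat_lit 234) (nat_lit 152) (nat_lit 0) (XT.nd (nat_lit 78) (nat_lit 228) (nat_lit 0) (XT.lf (nat_lit 0) (nat_lit 940906246) (nat_lit 152) (nat_lit 35064232542) (nat_lit 228) (nat_lit 4176679013) (nat_lit 47) (nat_lit 5) (nat_lit 49) (nat_lit 5) (nat_lit 50) (nat_lit 5) (nat_lit 363) (nat_lit 324) (nat_lit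 213)) (XT.nd (nat_lit 78) (nat_lit 152) (nat_lit 0) (XT.lf (nat_lit 0) (nat_lit 4409112086) (nat_lit 228) (nat_lit 18129191228) (nat_lit 76) (nat_lit 18963799745) (nat_lit 46) (nat_lit 5) (nat_lit 49) (nat_lit 5) (nat_lit 47) (nat_lit 5) (nat_lit 364) (nat_lit 324) (nat_lit 212)) (XT.lf (nat_lit 0) (nat_lit 4091270913) (nat_lit 152) (nat_lit 9250700880) (nat_lit 228) (nat_lit 29540102526) (nat_lit 44) (nat_lit 5) (nat_lit 46) (nat_lit 5) (nat_lit 47) (nat_lit 5) (nat_lit 365) (nat_lit 324) (nat_lit 211)))) (XT.nd (nat_lit 78) (nat_lit 152) (nat_lit 0) (XT.lf (nat_lit 0) (nat_lit 23101275333) (nat_lit 228) (nat_lit 16351362179) (nat_lit 76) (nat_lit 4859418858) (nat_lit 44) (nat_lit 5) (nat_lit 47) (nat_lit 5) (nat_lit 45) (nat_lit 5) (nat_lit 366) (nat_lit 324) (nat_lit 210)) (XT.nd (nat_lit 78) (nat_lit 0) (nat_lit 0) (XT.lf (nat_lit 0) (nat_lit 7282537713) (nat_lit 152) (nat_lit 26325968294)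 (nat_lit 228) (nat_lit 12192035583) (nat_lit 42) (nat_lit 5) (nat_lit 44) (nat_lit 5) (nat_lit 45) (nat_lit 5) (nat_lit 367) (nat_lit 324) (nat_lit 209)) (XT.lf (nat_lit 0) (nat_lit 32657010069) (nat_lit 152) (nat_lit 12255735861) (nat_lit 228) (nat_lit 2437124816) (nat_lit 42) (nat_lit 5) (nat_lit 44) (nat_lit 5) (nat_lit 45) (nat_lit 5) (nat_lit 368) (nat_lit 324) (nat_lit 208)))))) (XT.nd (nat_lit 468) (nat_lit 532) (nat_lit 0) (XT.nd (nat_lit 234) (nat_lit 152) (nat_lit 0) (XT.nd (nat_lit 78) (nat_lit 152) (nat_lit 0) (XT.lf (nat_lit 0) (nat_lit 7758959357) (nat_lit 228) (nat_lit 38476414381) (nat_lit 76) (nat_lit 2725038499) (nat_lit 39) (nat_lit 5) (nat_lit 42) (nat_lit 5) (nat_lit 40) (nat_lit 5) (nat_lit 369) (nat_lit 324) (nat_lit 207)) (XT.nd (nat_lit 78) (nat_lit 152) (nat_lit 0) (XT.lf (nat_lit 0) (nat_lit 18831722350) (nat_lit 228) (nat_lit 13462798900) (nat_lit 76) (nat_lit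 18332524791) (nat_lit 39) (nat_lit 5) (nat_lit 42) (nat_lit 5) (nat_lit 40) (nat_lit 5) (nat_lit 370) (nat_lit 324) (nat_lit 206)) (XT.lf (nat_lit 0) (nat_lit 13216295502) (nat_lit 152) (nat_lit 17443366052) (nat_lit 228) (nat_lit 21707274772) (nat_lit 37) (nat_lit 5) (nat_lit 39) (nat_lit 5) (nat_lit 40) (nat_lit 5) (nat_lit 371) (nat_lit 324) (nat_lit 205)))) (XT.nd (nat_lit 78) (nat_lit 152) (nat_lit 0) (XT.lf (nat_lit 0) (nat_lit 41688669111) (nat_lit 152) (nat_lit 1613625050) (nat_lit 228) (nat_lit 10880363758) (nat_lit 37) (nat_lit 5) (nat_lit 39) (nat_lit 5) (nat_lit 40) (nat_lit 5) (nat_lit 372) (nat_lit 324) (nat_lit 204)) (XT.nd (nat_lit 78) (nat_lit 0) (nat_lit 0) (XT.lf (nat_lit 0) (nat_lit 955879033) (nat_lit 152) (nat_lit 40323130023) (nat_lit 76) (nat_lit 14785597039) (nat_lit 35) (nat_lit 5) (nat_lit 37) (nat_lit 5) (nat_lit 36) (nat_lit 5) (nat_lit 373) (nat_lit 324) (nat_lit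 203)) (XT.lf (nat_lit 0) (nat_lit 13255287712) (nat_lit 152) (nat_lit 12423771014) (nat_lit 76) (nat_lit 32340825754) (nat_lit 35) (nat_lit 5) (nat_lit 37) (nat_lit 5) (nat_lit 36) (nat_lit 5) (nat_lit 374) (nat_lit 324) (nat_lit 202))))) (XT.nd (nat_lit 234) (nat_lit 304) (nat_lit 0) (XT.nd (nat_lit 78) (nat_lit 76) (nat_lit 0) (XT.lf (nat_lit 0) (nat_lit 17420611949) (nat_lit 152) (nat_lit 9016746099) (nat_lit 228) (nat_lit 33622185502) (nat_lit 33) (nat_lit 5) (nat_lit 35) (nat_lit 5) (nat_lit 36) (nat_lit 5) (nat_lit 375) (nat_lit 324) (nat_lit 201)) (XT.nd (nat_lit 78) (nat_lit 76) (nat_lit 0) (XT.lf (nat_lit 0) (nat_lit 40620505629) (nat_lit 228) (nat_lit 13145504251) (nat_lit 76) (nat_lit 8418078271) (nat_lit 33) (nat_lit 5) (nat_lit 36) (nat_lit 5) (nat_lit 34) (nat_lit 4) (nat_lit 376) (nat_lit 324) (nat_lit 200)) (XT.lf (nat_lit 0) (nat_lit 18251755861) (nat_lit 76) (nat_lit 37689779813)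 (nat_lit 152) (nat_lit 8451889262) (nat_lit 32) (nat_lit 5) (nat_lit 33) (nat_lit 5) (nat_lit 34) (nat_lit 4) (nat_lit 377) (nat_lit 324) (nat_lit 199)))) (XT.nd (nat_lit 156) (nat_lit 76) (nat_lit 0) (XT.nd (nat_lit 78) (nat_lit 152) (nat_lit 0) (XT.lf (nat_lit 0) (nat_lit 5367502872) (nat_lit 152) (nat_lit 15120685554) (nat_lit 76) (nat_lit 46209779826) (nat_lit 31) (nat_lit 5) (nat_lit 33) (nat_lit 5) (nat_lit 32) (nat_lit 5) (nat_lit 378) (nat_lit 324) (nat_lit 198)) (XT.lf (nat_lit 0) (nat_lit 17878135213) (nat_lit 152) (nat_lit 1990975218) (nat_lit 228) (nat_lit 49227937332) (nat_lit 29) (nat_lit 5) (nat_lit 31) (nat_lit 5) (nat_lit 32) (nat_lit 5) (nat_lit 379) (nat_lit 324) (nat_lit 197))) (XT.nd (nat_lit 78) (nat_lit 76) (nat_lit 0) (XT.lf (nat_lit 0) (nat_lit 35624408475) (nat_lit 228) (nat_lit 18834670757) (nat_lit 76) (nat_lit 17130572504) (nat_lit 29) (nat_lit 5) (nat_lit 32)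 (nat_lit 5) (nat_lit 30) (nat_lit 4) (nat_lit 380) (nat_lit 324) (nat_lit 196)) (XT.lf (nat_lit 0) (nat_lit 15629824642) (nat_lit 76) (nat_lit 36810680328) (nat_lit 152) (nat_lit 21752730202) (nat_lit 28) (nat_lit 5) (nat_lit 29) (nat_lit 5) (nat_lit 30) (nat_lit 4) (nat_lit 381) (nat_lit 324) (nat_lit 195))))))))
noncomputable def xc163 : XT := (XT.nd (nat_lit 1950) (nat_lit 608) (nat_lit 0) (XT.nd (nat_lit 936) (nat_lit 456) (nat_lit 0) (XT.nd (nat_lit 468) (nat_lit 380) (nat_lit 0) (XT.nd (nat_lit 234) (nat_lit 76) (nat_lit 0) (XT.nd (nat_lit 78) (nat_lit 228) (nat_lit 0) (XT.lf (nat_lit 0) (nat_lit 52464976499) (nat_lit 76) (nat_lit 17947845251) (nat_lit 152) (nat_lit 6498406159) (nat_lit 28) (nat_lit 5) (nat_lit 29) (nat_lit 5) (nat_lit 30) (nat_lit 4) (nat_lit 382) (nat_lit 324) (nat_lit 194)) (XT.nd (nat_lit 78) (nat_lit 0) (nat_lit 0) (XT.lf (nat_lit 0) (nat_lit 9425900658) (nat_lit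 228) (nat_lit 68190256061) (nat_lit 76) (nat_lit 2130937634) (nat_lit 25) (nat_lit 5) (nat_lit 28) (nat_lit 5) (nat_lit 26) (nat_lit 4) (nat_lit 383) (nat_lit 324) (nat_lit 193)) (XT.lf (nat_lit 0) (nat_lit 26639635251) (nat_lit 228) (nat_lit 32909095105) (nat_lit 76) (nat_lit 23135117903) (nat_lit 25) (nat_lit 5) (nat_lit 28) (nat_lit 5) (nat_lit 26) (nat_lit 4) (nat_lit 384) (nat_lit 324) (nat_lit 192)))) (XT.nd (nat_lit 78) (nat_lit 0) (nat_lit 0) (XT.lf (nat_lit 0) (nat_lit 4266687088) (nat_lit 76) (nat_lit 40510725753) (nat_lit 152) (nat_lit 40986859946) (nat_lit 24) (nat_lit 5) (nat_lit 25) (nat_lit 5) (nat_lit 26) (nat_lit 4) (nat_lit 385) (nat_lit 324) (nat_lit 191)) (XT.nd (nat_lit 78) (nat_lit 0) (nat_lit 0) (XT.lf (nat_lit 0) (nat_lit 44437887155) (nat_lit 76) (nat_lit 19938327979) (nat_lit 152) (nat_lit 24594797321) (nat_lit 24) (nat_lit 5) (nat_lit 25) (nat_lit 5) (nat_lit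 26) (nat_lit 4) (nat_lit 386) (nat_lit 324) (nat_lit 190)) (XT.lf (nat_lit 0) (nat_lit 84977833112) (nat_lit 152) (nat_lit 5752133472) (nat_lit 0) (nat_lit 1606979416) (nat_lit 24) (nat_lit 5) (nat_lit 26) (nat_lit 4) (nat_lit 24) (nat_lit 4) (nat_lit 387) (nat_lit 324) (nat_lit 189))))) (XT.nd (nat_lit 234) (nat_lit 152) (nat_lit 0) (XT.nd (nat_lit 78) (nat_lit 76) (nat_lit 0) (XT.lf (nat_lit 0) (nat_lit 11291688452) (nat_lit 152) (nat_lit 60228373103) (nat_lit 76) (nat_lit 24297881127) (nat_lit 22) (nat_lit 5) (nat_lit 24) (nat_lit 5) (nat_lit 23) (nat_lit 4) (nat_lit 388) (nat_lit 324) (nat_lit 188)) (XT.nd (nat_lit 78) (nat_lit 76) (nat_lit 0) (XT.lf (nat_lit 0) (nat_lit 30723798880) (nat_lit 152) (nat_lit 20397766471) (nat_lit 76) (nat_lit 48340588192) (nat_lit 22) (nat_lit 5) (nat_lit 24) (nat_lit 5) (nat_lit 23) (nat_lit 4) (nat_lit 389) (nat_lit 324) (nat_lit 187)) (XT.lf (nat_lit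 0) (nat_lit 22127376406) (nat_lit 76) (nat_lit 29342819579) (nat_lit 152) (nat_lit 51801245458) (nat_lit 21) (nat_lit 5) (nat_lit 22) (nat_lit 5) (nat_lit 23) (nat_lit 4) (nat_lit 390) (nat_lit 324) (nat_lit 186)))) (XT.nd (nat_lit 78) (nat_lit 152) (nat_lit 0) (XT.lf (nat_lit 0) (nat_lit 67481816506) (nat_lit 76) (nat_lit 6114806095) (nat_lit 152) (nat_lit 33657436179) (nat_lit 21) (nat_lit 5) (nat_lit 22) (nat_lit 5) (nat_lit 23) (nat_lit 4) (nat_lit 391) (nat_lit 324) (nat_lit 185)) (XT.nd (nat_lit 78) (nat_lit 76) (nat_lit 0) (XT.lf (nat_lit 0) (nat_lit 3489566090) (nat_lit 76) (nat_lit 93676962621) (nat_lit 76) (nat_lit 14252420867) (nat_lit 20) (nat_lit 4) (nat_lit 21) (nat_lit 5) (nat_lit 21) (nat_lit 4) (nat_lit 392) (nat_lit 324) (nat_lit 184)) (XT.lf (nat_lit 0) (nat_lit 6709087630) (nat_lit 152) (nat_lit 65675001919) (nat_lit 76) (nat_lit 43364105496) (nat_lit 19) (nat_lit 5)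 (nat_lit 21) (nat_lit 5) (nat_lit 20) (nat_lit 4) (nat_lit 393) (nat_lit 324) (nat_lit 183)))))) (XT.nd (nat_lit 468) (nat_lit 228) (nat_lit 0) (XT.nd (nat_lit 234) (nat_lit 152) (nat_lit 0) (XT.nd (nat_lit 78) (nat_lit 76) (nat_lit 0) (XT.lf (nat_lit 0) (nat_lit 28237187050) (nat_lit 152) (nat_lit 21546293163) (nat_lit 76) (nat_lit 70498866178) (nat_lit 19) (nat_lit 5) (nat_lit 21) (nat_lit 5) (nat_lit 20) (nat_lit 4) (nat_lit 394) (nat_lit 324) (nat_lit 182)) (XT.nd (nat_lit 78) (nat_lit 0) (nat_lit 0) (XT.lf (nat_lit 0) (nat_lit 25603813289) (nat_lit 76) (nat_lit 25635235238) (nat_lit 152) (nat_lit 73784289334) (nat_lit 18) (nat_lit 5) (nat_lit 19) (nat_lit 5) (nat_lit 20) (nat_lit 4) (nat_lit 395) (nat_lit 324) (nat_lit 181)) (XT.lf (nat_lit 0) (nat_lit 75755138297) (nat_lit 152) (nat_lit 54129818918) (nat_lit 0) (nat_lit 98215322) (nat_lit 18) (nat_lit 5) (nat_lit 20) (nat_lit 4) (nat_lit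 18) (nat_lit 4) (nat_lit 396) (nat_lit 324) (nat_lit 180)))) (XT.nd (nat_lit 78) (nat_lit 152) (nat_lit 0) (XT.lf (nat_lit 0) (nat_lit 101915016976) (nat_lit 152) (nat_lit 7000193594) (nat_lit 0) (nat_lit 26254889529) (nat_lit 18) (nat_lit 5) (nat_lit 20) (nat_lit 4) (nat_lit 18) (nat_lit 4) (nat_lit 397) (nat_lit 324) (nat_lit 179)) (XT.nd (nat_lit 78) (nat_lit 76) (nat_lit 0) (XT.lf (nat_lit 0) (nat_lit 43886442906) (nat_lit 76) (nat_lit 86179479584) (nat_lit 76) (nat_lit 10516300260) (nat_lit 17) (nat_lit 4) (nat_lit 18) (nat_lit 5) (nat_lit 18) (nat_lit 4) (nat_lit 398) (nat_lit 324) (nat_lit 178)) (XT.lf (nat_lit 0) (nat_lit 13050179042) (nat_lit 152) (nat_lit 48913218837) (nat_lit 76) (nat_lit 84285207966) (nat_lit 16) (nat_lit 5) (nat_lit 18) (nat_lit 5) (nat_lit 17) (nat_lit 4) (nat_lit 399) (nat_lit 324) (nat_lit 177))))) (XT.nd (nat_lit 234) (nat_lit 152) (nat_lit 0) (XT.nd (nat_lit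 78) (nat_lit 0) (nat_lit 0) (XT.lf (nat_lit 0) (nat_lit 1117933125) (nat_lit 76) (nat_lit 36339036212) (nat_lit 152) (nat_lit 114731948962) (nat_lit 15) (nat_lit 5) (nat_lit 16) (nat_lit 5) (nat_lit 17) (nat_lit 4) (nat_lit 400) (nat_lit 324) (nat_lit 176)) (XT.nd (nat_lit 78) (nat_lit 0) (nat_lit 0) (XT.lf (nat_lit 0) (nat_lit 55344942843) (nat_lit 76) (nat_lit 8565512369) (nat_lit 152) (nat_lit 94474473654) (nat_lit 15) (nat_lit 5) (nat_lit 16) (nat_lit 5) (nat_lit 17) (nat_lit 4) (nat_lit 401) (nat_lit 324) (nat_lit 175)) (XT.lf (nat_lit 0) (nat_lit 92006242881) (nat_lit 152) (nat_lit 52932750372) (nat_lit 0) (nat_lit 19935765612) (nat_lit 15) (nat_lit 5) (nat_lit 17) (nat_lit 4) (nat_lit 15) (nat_lit 4) (nat_lit 402) (nat_lit 324) (nat_lit 174)))) (XT.nd (nat_lit 156) (nat_lit 76) (nat_lit 0) (XT.nd (nat_lit 78) (nat_lit 76) (nat_lit 0) (XT.lf (nat_lit 0) (nat_lit 121645386245) (nat_lit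 152) (nat_lit 464134451) (nat_lit 0) (nat_lit 49572631618) (nat_lit 15) (nat_lit 5) (nat_lit 17) (nat_lit 4) (nat_lit 15) (nat_lit 4) (nat_lit 403) (nat_lit 324) (nat_lit 173)) (XT.lf (nat_lit 0) (nat_lit 56430651946) (nat_lit 76) (nat_lit 97215111719) (nat_lit 76) (nat_lit 25140188180) (nat_lit 14) (nat_lit 4) (nat_lit 15) (nat_lit 5) (nat_lit 15) (nat_lit 4) (nat_lit 404) (nat_lit 324) (nat_lit 172))) (XT.nd (nat_lit 78) (nat_lit 0) (nat_lit 0) (XT.lf (nat_lit 0) (nat_lit 975402054) (nat_lit 152) (nat_lit 70077414957) (nat_lit 76) (nat_lit 115191031542) (nat_lit 13) (nat_lit 5) (nat_lit 15) (nat_lit 5) (nat_lit 14) (nat_lit 4) (nat_lit 405) (nat_lit 324) (nat_lit 171)) (XT.lf (nat_lit 0) (nat_lit 27550219956) (nat_lit 152) (nat_lit 15601005527) (nat_lit 76) (nat_lit 150902891956) (nat_lit 13) (nat_lit 5) (nat_lit 15) (nat_lit 5) (nat_lit 14) (nat_lit 4) (nat_lit 406) (nat_lit 324) (nat_lit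 170))))))) (XT.nd (nat_lit 936) (nat_lit 304) (nat_lit 0) (XT.nd (nat_lit 468) (nat_lit 152) (nat_lit 0) (XT.nd (nat_lit 234) (nat_lit 76) (nat_lit 0) (XT.nd (nat_lit 78) (nat_lit 0) (nat_lit 0) (XT.lf (nat_lit 0) (nat_lit 42971499261) (nat_lit 76) (nat_lit 13151588195) (nat_lit 152) (nat_lit 146098347085) (nat_lit 12) (nat_lit 5) (nat_lit 13) (nat_lit 5) (nat_lit 14) (nat_lit 4) (nat_lit 407) (nat_lit 324) (nat_lit 169)) (XT.nd (nat_lit 78) (nat_lit 0) (nat_lit 0) (XT.lf (nat_lit 0) (nat_lit 86678013441) (nat_lit 152) (nat_lit 106063529006) (nat_lit 0) (nat_lit 18027904494) (nat_lit 12) (nat_lit 5) (nat_lit 14) (nat_lit 4) (nat_lit 12) (nat_lit 4) (nat_lit 408) (nat_lit 324) (nat_lit 168)) (XT.lf (nat_lit 0) (nat_lit 118974770320) (nat_lit 152) (nat_lit 50436342705) (nat_lit 0) (nat_lit 50323042896) (nat_lit 12) (nat_lit 5) (nat_lit 14) (nat_lit 4) (nat_lit 12) (nat_lit 4) (nat_lit 409)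 (nat_lit 324) (nat_lit 167)))) (XT.nd (nat_lit 78) (nat_lit 0) (nat_lit 0) (XT.lf (nat_lit 0) (nat_lit 8232906889) (nat_lit 76) (nat_lit 144780553842) (nat_lit 76) (nat_lit 76127285013) (nat_lit 11) (nat_lit 4) (nat_lit 12) (nat_lit 5) (nat_lit 12) (nat_lit 4) (nat_lit 410) (nat_lit 324) (nat_lit 166)) (XT.nd (nat_lit 78) (nat_lit 0) (nat_lit 0) (XT.lf (nat_lit 0) (nat_lit 71583899605) (nat_lit 76) (nat_lit 118022932567) (nat_lit 76) (nat_lit 49368195732) (nat_lit 11) (nat_lit 4) (nat_lit 12) (nat_lit 5) (nat_lit 12) (nat_lit 4) (nat_lit 411) (nat_lit 324) (nat_lit 165)) (XT.lf (nat_lit 0) (nat_lit 138099817871) (nat_lit 76) (nat_lit 89928704446) (nat_lit 76) (nat_lit 21272569511) (nat_lit 11) (nat_lit 4) (nat_lit 12) (nat_lit 5) (nat_lit 12) (nat_lit 4) (nat_lit 412) (nat_lit 324) (nat_lit 164))))) (XT.nd (nat_lit 234) (nat_lit 0) (nat_lit 0) (XT.nd (nat_lit 78) (nat_lit 76) (nat_lit 0)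 (XT.lf (nat_lit 0) (nat_lit 7963189007) (nat_lit 152) (nat_lit 52332928993) (nat_lit 76) (nat_lit 199840983457) (nat_lit 10) (nat_lit 5) (nat_lit 12) (nat_lit 5) (nat_lit 11) (nat_lit 4) (nat_lit 413) (nat_lit 324) (nat_lit 163)) (XT.nd (nat_lit 78) (nat_lit 0) (nat_lit 0) (XT.lf (nat_lit 0) (nat_lit 9429483517) (nat_lit 76) (nat_lit 28662330187) (nat_lit 152) (nat_lit 233398362668) (nat_lit 9) (nat_lit 5) (nat_lit 10) (nat_lit 5) (nat_lit 11) (nat_lit 4) (nat_lit 414) (nat_lit 324) (nat_lit 162)) (XT.lf (nat_lit 0) (nat_lit 70697529112) (nat_lit 152) (nat_lit 207357735215) (nat_lit 0) (nat_lit 5307107865) (nat_lit 9) (nat_lit 5) (nat_lit 11) (nat_lit 4) (nat_lit 9) (nat_lit 4) (nat_lit 415) (nat_lit 324) (nat_lit 161)))) (XT.nd (nat_lit 78) (nat_lit 0) (nat_lit 0) (XT.lf (nat_lit 0) (nat_lit 105402223011) (nat_lit 152) (nat_lit 150391813968) (nat_lit 0) (nat_lit 40010706316) (nat_lit 9)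 (nat_lit 5) (nat_lit 11) (nat_lit 4) (nat_lit 9) (nat_lit 4) (nat_lit 416) (nat_lit 324) (nat_lit 160)) (XT.nd (nat_lit 78) (nat_lit 0) (nat_lit 0) (XT.lf (nat_lit 0) (nat_lit 141841026325) (nat_lit 152) (nat_lit 90579796669) (nat_lit 0) (nat_lit 76448466346) (nat_lit 9) (nat_lit 5) (nat_lit 11) (nat_lit 4) (nat_lit 9) (nat_lit 4) (nat_lit 417) (nat_lit 324) (nat_lit 159)) (XT.lf (nat_lit 0) (nat_lit 180100698109) (nat_lit 152) (nat_lit 27779273752) (nat_lit 0) (nat_lit 114707144526) (nat_lit 9) (nat_lit 5) (nat_lit 11) (nat_lit 4) (nat_lit 9) (nat_lit 4) (nat_lit 418) (nat_lit 324) (nat_lit 158)))))) (XT.nd (nat_lit 468) (nat_lit 76) (nat_lit 0) (XT.nd (nat_lit 234) (nat_lit 152) (nat_lit 0) (XT.nd (nat_lit 78) (nat_lit 0) (nat_lit 0) (XT.lf (nat_lit 0) (nat_lit 39420997960) (nat_lit 76) (nat_lit 181466807115) (nat_lit 76) (nat_lit 116072307243) (nat_lit 8) (nat_lit 4) (nat_lit 9) (nat_lit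 5) (nat_lit 9) (nat_lit 4) (nat_lit 419) (nat_lit 324) (nat_lit 157)) (XT.nd (nat_lit 78) (nat_lit 0) (nat_lit 0) (XT.lf (nat_lit 0) (nat_lit 110943753626) (nat_lit 76) (nat_lit 153239966493) (nat_lit 76) (nat_lit 87844565393) (nat_lit 8) (nat_lit 4) (nat_lit 9) (nat_lit 5) (nat_lit 9) (nat_lit 4) (nat_lit 420) (nat_lit 324) (nat_lit 156)) (XT.lf (nat_lit 0) (nat_lit 186040777278) (nat_lit 76) (nat_lit 123602698675) (nat_lit 76) (nat_lit 58206439262) (nat_lit 8) (nat_lit 4) (nat_lit 9) (nat_lit 5) (nat_lit 9) (nat_lit 4) (nat_lit 421) (nat_lit 324) (nat_lit 155)))) (XT.nd (nat_lit 78) (nat_lit 152) (nat_lit 0) (XT.lf (nat_lit 0) (nat_lit 264890871351) (nat_lit 76) (nat_lit 92484438738) (nat_lit 76) (nat_lit 27087361885) (nat_lit 8) (nat_lit 4) (nat_lit 9) (nat_lit 5) (nat_lit 9) (nat_lit 4) (nat_lit 422) (nat_lit 324) (nat_lit 154)) (XT.nd (nat_lit 78) (nat_lit 76) (nat_lit 0) (XT.lf (nat_lit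 0) (nat_lit 5407948578) (nat_lit 152) (nat_lit 54311560781) (nat_lit 76) (nat_lit 342182239361) (nat_lit 7) (nat_lit 5) (nat_lit 9) (nat_lit 5) (nat_lit 8) (nat_lit 4) (nat_lit 423) (nat_lit 324) (nat_lit 153)) (XT.lf (nat_lit 0) (nat_lit 14221158823) (nat_lit 76) (nat_lit 24617746363) (nat_lit 152) (nat_lit 381340611765) (nat_lit 6) (nat_lit 5) (nat_lit 7) (nat_lit 5) (nat_lit 8) (nat_lit 4) (nat_lit 424) (nat_lit 324) (nat_lit 152))))) (XT.nd (nat_lit 234) (nat_lit 76) (nat_lit 0) (XT.nd (nat_lit 78) (nat_lit 0) (nat_lit 0) (XT.lf (nat_lit 0) (nat_lit 75066531255) (nat_lit 152) (nat_lit 351466905504) (nat_lit 0) (nat_lit 12781480831) (nat_lit 6) (nat_lit 5) (nat_lit 8) (nat_lit 4) (nat_lit 6) (nat_lit 4) (nat_lit 425) (nat_lit 324) (nat_lit 151)) (XT.nd (nat_lit 78) (nat_lit 0) (nat_lit 0) (XT.lf (nat_lit 0) (nat_lit 113508311836) (nat_lit 152) (nat_lit 294656016914) (nat_lit 0) (nat_lit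 51222620926) (nat_lit 6) (nat_lit 5) (nat_lit 8) (nat_lit 4) (nat_lit 6) (nat_lit 4) (nat_lit 426) (nat_lit 324) (nat_lit 150)) (XT.lf (nat_lit 0) (nat_lit 153871422966) (nat_lit 152) (nat_lit 235006076325) (nat_lit 0) (nat_lit 91585122069) (nat_lit 6) (nat_lit 5) (nat_lit 8) (nat_lit 4) (nat_lit 6) (nat_lit 4) (nat_lit 427) (nat_lit 324) (nat_lit 149)))) (XT.nd (nat_lit 156) (nat_lit 76) (nat_lit 0) (XT.nd (nat_lit 78) (nat_lit 0) (nat_lit 0) (XT.lf (nat_lit 0) (nat_lit 196251967291) (nat_lit 152) (nat_lit 172375060071) (nat_lit 0) (nat_lit 133965085454) (nat_lit 6) (nat_lit 5) (nat_lit 8) (nat_lit 4) (nat_lit 6) (nat_lit 4) (nat_lit 428) (nat_lit 324) (nat_lit 148)) (XT.lf (nat_lit 0) (nat_lit 240750850868) (nat_lit 152) (nat_lit 106613846683) (nat_lit 0) (nat_lit 178463415756) (nat_lit 6) (nat_lit 5) (nat_lit 8) (nat_lit 4) (nat_lit 6) (nat_lit 4) (nat_lit 429) (nat_lit 324) (nat_lit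 147))) (XT.nd (nat_lit 78) (nat_lit 76) (nat_lit 0) (XT.lf (nat_lit 0) (nat_lit 287474023420) (nat_lit 152) (nat_lit 37565861845) (nat_lit 0) (nat_lit 225186061379) (nat_lit 6) (nat_lit 5) (nat_lit 8) (nat_lit 4) (nat_lit 6) (nat_lit 4) (nat_lit 430) (nat_lit 324) (nat_lit 146)) (XT.lf (nat_lit 0) (nat_lit 36088346885) (nat_lit 76) (nat_lit 301007823944) (nat_lit 76) (nat_lit 238719360065) (nat_lit 5) (nat_lit 4) (nat_lit 6) (nat_lit 5) (nat_lit 6) (nat_lit 4) (nat_lit 431) (nat_lit 324) (nat_lit 145))))))))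
noncomputable def xc164 : XT := (XT.nd (nat_lit 40092) (nat_lit 0) (nat_lit 2812) (XT.nd (nat_lit 39156) (nat_lit 0) (nat_lit 5852) (XT.nd (nat_lit 38688) (nat_lit 0) (nat_lit 7828) (XT.nd (nat_lit 234) (nat_lit 0) (nat_lit 0) (XT.nd (nat_lit 78) (nat_lit 0) (nat_lit 0) (XT.lf (nat_lit 0) (nat_lit 114728259925) (nat_lit 76) (nat_lit 275106748581) (nat_lit 76) (nat_lit 212817806762) (nat_lit 5) (nat_lit 4) (nat_lit 6) (nat_lit 5) (nat_lit 6) (nat_lit 4) (nat_lit 432) (nat_lit 324) (nat_lit 144)) (XT.nd (nat_lit 78) (nat_lit 0) (nat_lit 0) (XT.lf (nat_lit 0) (nat_lit 197299018119) (nat_lit 76) (nat_lit 247911185996) (nat_lit 76) (nat_lit 185621788996) (nat_lit 5) (nat_lit 4) (nat_lit 6) (nat_lit 5) (nat_lit 6) (nat_lit 4) (nat_lit 433) (nat_lit 324) (nat_lit 143)) (XT.lf (nat_lit 0) (nat_lit 283997218509) (nat_lit 76) (nat_lit 219356384851) (nat_lit 76) (nat_lit 157066554344) (nat_lit 5)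 (nat_lit 4) (nat_lit 6) (nat_lit 5) (nat_lit 6) (nat_lit 4) (nat_lit 434) (nat_lit 324) (nat_lit 142)))) (XT.nd (nat_lit 38298) (nat_lit 0) (nat_lit 8512) (XT.lf (nat_lit 0) (nat_lit 375029285383) (nat_lit 76) (nat_lit 189374357522) (nat_lit 76) (nat_lit 127084114152) (nat_lit 5) (nat_lit 4) (nat_lit 6) (nat_lit 5) (nat_lit 6) (nat_lit 4) (nat_lit 435) (nat_lit 324) (nat_lit 141)) (XT.nd (nat_lit 78) (nat_lit 0) (nat_lit 0) (XT.lf (nat_lit 0) (nat_lit 2931318140) (nat_lit 0) (nat_lit 2931318140) (nat_lit 684) (nat_lit 1148216893) (nat_lit 117) (nat_lit 5) (nat_lit 117) (nat_lit 3) (nat_lit 126) (nat_lit 3) (nat_lit 325) (nat_lit 325) (nat_lit 250)) (XT.lf (nat_lit 0) (nat_lit 12355237867) (nat_lit 684) (nat_lit 1459724926) (nat_lit 760) (nat_lit 540140790) (nat_lit 117) (nat_lit 5) (nat_lit 126) (nat_lit 3) (nat_lit 127) (nat_lit 5) (nat_lit 326) (nat_lit 325) (nat_lit 249))))) (XT.nd (nat_lit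 234) (nat_lit 684) (nat_lit 0) (XT.nd (nat_lit 78) (nat_lit 0) (nat_lit 0) (XT.lf (nat_lit 76) (nat_lit 5647498356) (nat_lit 0) (nat_lit 7532645237) (nat_lit 760) (nat_lit 1516874424) (nat_lit 118) (nat_lit 5) (nat_lit 117) (nat_lit 5) (nat_lit 127) (nat_lit 5) (nat_lit 327) (nat_lit 325) (nat_lit 248)) (XT.nd (nat_lit 78) (nat_lit 0) (nat_lit 76) (XT.lf (nat_lit 76) (nat_lit 13149214899) (nat_lit 0) (nat_lit 901773049) (nat_lit 760) (nat_lit 1004824074) (nat_lit 118) (nat_lit 5) (nat_lit 117) (nat_lit 5) (nat_lit 127) (nat_lit 5) (nat_lit 328) (nat_lit 325) (nat_lit 247)) (XT.lf (nat_lit 76) (nat_lit 5668170897) (nat_lit 0) (nat_lit 9461375289) (nat_lit 760) (nat_lit 294808594) (nat_lit 119) (nat_lit 5) (nat_lit 118) (nat_lit 5) (nat_lit 128) (nat_lit 5) (nat_lit 329) (nat_lit 325) (nat_lit 246)))) (XT.nd (nat_lit 78) (nat_lit 0) (nat_lit 76) (XT.lf (nat_lit 0) (nat_lit 465337231) (nat_lit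 760) (nat_lit 2156717517) (nat_lit 836) (nat_lit 13187481332) (nat_lit 108) (nat_lit 5) (nat_lit 118) (nat_lit 5) (nat_lit 119) (nat_lit 5) (nat_lit 330) (nat_lit 325) (nat_lit 245)) (XT.nd (nat_lit 78) (nat_lit 0) (nat_lit 0) (XT.lf (nat_lit 0) (nat_lit 1402450149) (nat_lit 760) (nat_lit 10284908308) (nat_lit 836) (nat_lit 4518948212) (nat_lit 109) (nat_lit 5) (nat_lit 119) (nat_lit 5) (nat_lit 120) (nat_lit 5) (nat_lit 331) (nat_lit 325) (nat_lit 244)) (XT.lf (nat_lit 0) (nat_lit 2449603668) (nat_lit 760) (nat_lit 2199062472) (nat_lit 836) (nat_lit 11971104909) (nat_lit 109) (nat_lit 5) (nat_lit 119) (nat_lit 5) (nat_lit 120) (nat_lit 5) (nat_lit 332) (nat_lit 325) (nat_lit 243)))))) (XT.nd (nat_lit 468) (nat_lit 1444) (nat_lit 0) (XT.nd (nat_lit 234) (nat_lit 684) (nat_lit 0) (XT.nd (nat_lit 78) (nat_lit 0) (nat_lit 0) (XT.lf (nat_lit 0) (nat_lit 3678804385) (nat_lit 760) (nat_lit 10607591981)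 (nat_lit 836) (nat_lit 2761041624) (nat_lit 110) (nat_lit 5) (nat_lit 120) (nat_lit 5) (nat_lit 121) (nat_lit 5) (nat_lit 333) (nat_lit 325) (nat_lit 242)) (XT.nd (nat_lit 78) (nat_lit 0) (nat_lit 76) (XT.lf (nat_lit 0) (nat_lit 5068046866) (nat_lit 760) (nat_lit 1997131932) (nat_lit 836) (nat_lit 10426393553) (nat_lit 110) (nat_lit 5) (nat_lit 120) (nat_lit 5) (nat_lit 121) (nat_lit 5) (nat_lit 334) (nat_lit 325) (nat_lit 241)) (XT.lf (nat_lit 0) (nat_lit 6635398263) (nat_lit 760) (nat_lit 10698741702) (nat_lit 76) (nat_lit 618353660) (nat_lit 111) (nat_lit 5) (nat_lit 121) (nat_lit 5) (nat_lit 112) (nat_lit 5) (nat_lit 335) (nat_lit 325) (nat_lit 240)))) (XT.nd (nat_lit 78) (nat_lit 760) (nat_lit 0) (XT.lf (nat_lit 0) (nat_lit 8417126644) (nat_lit 760) (nat_lit 1527322077) (nat_lit 76) (nat_lit 8485223707) (nat_lit 111) (nat_lit 5) (nat_lit 121) (nat_lit 5) (nat_lit 112) (nat_lit 5) (nat_lit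 336) (nat_lit 325) (nat_lit 239)) (XT.nd (nat_lit 78) (nat_lit 0) (nat_lit 0) (XT.lf (nat_lit 0) (nat_lit 8358092987) (nat_lit 760) (nat_lit 2046827378) (nat_lit 836) (nat_lit 8519952229) (nat_lit 101) (nat_lit 5) (nat_lit 111) (nat_lit 5) (nat_lit 112) (nat_lit 5) (nat_lit 337) (nat_lit 325) (nat_lit 238)) (XT.lf (nat_lit 0) (nat_lit 12602867961) (nat_lit 836) (nat_lit 763245614) (nat_lit 76) (nat_lit 6073191810) (nat_lit 101) (nat_lit 5) (nat_lit 112) (nat_lit 5) (nat_lit 102) (nat_lit 5) (nat_lit 338) (nat_lit 325) (nat_lit 237))))) (XT.nd (nat_lit 234) (nat_lit 760) (nat_lit 0) (XT.nd (nat_lit 78) (nat_lit 304) (nat_lit 0) (XT.lf (nat_lit 0) (nat_lit 9798550481) (nat_lit 380) (nat_lit 5286282433) (nat_lit 456) (nat_lit 4885931216) (nat_lit 96) (nat_lit 5) (nat_lit 101) (nat_lit 5) (nat_lit 102) (nat_lit 5) (nat_lit 339) (nat_lit 325) (nat_lit 236)) (XT.nd (nat_lit 78) (nat_lit 0) (nat_lit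 0) (XT.lf (nat_lit 0) (nat_lit 334976297) (nat_lit 304) (nat_lit 17412203655) (nat_lit 380) (nat_lit 2778811486) (nat_lit 92) (nat_lit 5) (nat_lit 96) (nat_lit 5) (nat_lit 97) (nat_lit 5) (nat_lit 340) (nat_lit 325) (nat_lit 235)) (XT.lf (nat_lit 0) (nat_lit 11618960607) (nat_lit 304) (nat_lit 9169592567) (nat_lit 380) (nat_lit 308140851) (nat_lit 92) (nat_lit 5) (nat_lit 96) (nat_lit 5) (nat_lit 97) (nat_lit 5) (nat_lit 341) (nat_lit 325) (nat_lit 234)))) (XT.nd (nat_lit 78) (nat_lit 304) (nat_lit 0) (XT.lf (nat_lit 0) (nat_lit 1780512274) (nat_lit 380) (nat_lit 448919827) (nat_lit 456) (nat_lit 19463896675) (nat_lit 86) (nat_lit 5) (nat_lit 91) (nat_lit 5) (nat_lit 92) (nat_lit 5) (nat_lit 342) (nat_lit 325) (nat_lit 233)) (XT.nd (nat_lit 78) (nat_lit 304) (nat_lit 0) (XT.lf (nat_lit 0) (nat_lit 5171698789) (nat_lit 456) (nat_lit 8537031682) (nat_lit 76) (nat_lit 8596411767) (nat_lit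 86) (nat_lit 5) (nat_lit 92) (nat_lit 5) (nat_lit 87) (nat_lit 5) (nat_lit 343) (nat_lit 325) (nat_lit 232)) (XT.lf (nat_lit 0) (nat_lit 3500465587) (nat_lit 304) (nat_lit 4812221188) (nat_lit 380) (nat_lit 14632286896) (nat_lit 82) (nat_lit 5) (nat_lit 86) (nat_lit 5) (nat_lit 87) (nat_lit 5) (nat_lit 344) (nat_lit 325) (nat_lit 231))))))) (XT.nd (nat_lit 936) (nat_lit 1368) (nat_lit 0) (XT.nd (nat_lit 468) (nat_lit 760) (nat_lit 0) (XT.nd (nat_lit 234) (nat_lit 608) (nat_lit 0) (XT.nd (nat_lit 78) (nat_lit 304) (nat_lit 0) (XT.lf (nat_lit 0) (nat_lit 11818273569) (nat_lit 380) (nat_lit 7258479190) (nat_lit 76) (nat_lit 4529673771) (nat_lit 82) (nat_lit 5) (nat_lit 87) (nat_lit 5) (nat_lit 83) (nat_lit 5) (nat_lit 345) (nat_lit 325) (nat_lit 230)) (XT.nd (nat_lit 78) (nat_lit 0) (nat_lit 0) (XT.lf (nat_lit 0) (nat_lit 5626568226) (nat_lit 304) (nat_lit 10029676701) (nat_lit 380) (nat_lit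 8636858825) (nat_lit 78) (nat_lit 5) (nat_lit 82) (nat_lit 5) (nat_lit 83) (nat_lit 5) (nat_lit 346) (nat_lit 325) (nat_lit 229)) (XT.lf (nat_lit 0) (nat_lit 19396571802) (nat_lit 304) (nat_lit 403121008) (nat_lit 380) (nat_lit 5208749774) (nat_lit 78) (nat_lit 5) (nat_lit 82) (nat_lit 5) (nat_lit 83) (nat_lit 5) (nat_lit 347) (nat_lit 325) (nat_lit 228)))) (XT.nd (nat_lit 78) (nat_lit 380) (nat_lit 0) (XT.lf (nat_lit 0) (nat_lit 8195124907) (nat_lit 228) (nat_lit 16225723882) (nat_lit 304) (nat_lit 1325179114) (nat_lit 75) (nat_lit 5) (nat_lit 78) (nat_lit 5) (nat_lit 79) (nat_lit 5) (nat_lit 348) (nat_lit 325) (nat_lit 227)) (XT.nd (nat_lit 78) (nat_lit 304) (nat_lit 0) (XT.lf (nat_lit 0) (nat_lit 2758850760) (nat_lit 304) (nat_lit 3690876738) (nat_lit 76) (nat_lit 20063902960) (nat_lit 74) (nat_lit 5) (nat_lit 78) (nat_lit 5) (nat_lit 75) (nat_lit 5) (nat_lit 349) (nat_lit 325) (nat_lit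 226)) (XT.lf (nat_lit 0) (nat_lit 7231560379) (nat_lit 380) (nat_lit 16185219843) (nat_lit 76) (nat_lit 3890301525) (nat_lit 70) (nat_lit 5) (nat_lit 75) (nat_lit 5) (nat_lit 71) (nat_lit 5) (nat_lit 350) (nat_lit 325) (nat_lit 225))))) (XT.nd (nat_lit 234) (nat_lit 304) (nat_lit 0) (XT.nd (nat_lit 78) (nat_lit 456) (nat_lit 0) (XT.lf (nat_lit 0) (nat_lit 12088961630) (nat_lit 380) (nat_lit 1451422643) (nat_lit 76) (nat_lit 14591773728) (nat_lit 70) (nat_lit 5) (nat_lit 75) (nat_lit 5) (nat_lit 71) (nat_lit 5) (nat_lit 351) (nat_lit 325) (nat_lit 224)) (XT.nd (nat_lit 78) (nat_lit 228) (nat_lit 0) (XT.lf (nat_lit 0) (nat_lit 14471813956) (nat_lit 228) (nat_lit 2935546872) (nat_lit 304) (nat_lit 11580225806) (nat_lit 67) (nat_lit 5) (nat_lit 70) (nat_lit 5) (nat_lit 71) (nat_lit 5) (nat_lit 352) (nat_lit 325) (nat_lit 223)) (XT.lf (nat_lit 0) (nat_lit 1258283187) (nat_lit 228) (nat_lit 21898395938)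 (nat_lit 304) (nat_lit 6720862341) (nat_lit 64) (nat_lit 5) (nat_lit 67) (nat_lit 5) (nat_lit 68) (nat_lit 5) (nat_lit 353) (nat_lit 325) (nat_lit 222)))) (XT.nd (nat_lit 78) (nat_lit 304) (nat_lit 0) (XT.lf (nat_lit 0) (nat_lit 18264839061) (nat_lit 228) (nat_lit 11214357189) (nat_lit 304) (nat_lit 1318515643) (nat_lit 64) (nat_lit 5) (nat_lit 67) (nat_lit 5) (nat_lit 68) (nat_lit 5) (nat_lit 354) (nat_lit 325) (nat_lit 221)) (XT.nd (nat_lit 78) (nat_lit 0) (nat_lit 0) (XT.lf (nat_lit 0) (nat_lit 4278669796) (nat_lit 304) (nat_lit 27338493804) (nat_lit 76) (nat_lit 140128707) (nat_lit 60) (nat_lit 5) (nat_lit 64) (nat_lit 5) (nat_lit 61) (nat_lit 5) (nat_lit 355) (nat_lit 325) (nat_lit 220)) (XT.lf (nat_lit 0) (nat_lit 10503903482) (nat_lit 304) (nat_lit 10320341229) (nat_lit 76) (nat_lit 11919905180) (nat_lit 60) (nat_lit 5) (nat_lit 64) (nat_lit 5) (nat_lit 61) (nat_lit 5) (nat_lit 356)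 (nat_lit 325) (nat_lit 219)))))) (XT.nd (nat_lit 468) (nat_lit 684) (nat_lit 0) (XT.nd (nat_lit 234) (nat_lit 304) (nat_lit 0) (XT.nd (nat_lit 78) (nat_lit 152) (nat_lit 0) (XT.lf (nat_lit 0) (nat_lit 7788148353) (nat_lit 228) (nat_lit 9367110124) (nat_lit 304) (nat_lit 16619352595) (nat_lit 57) (nat_lit 5) (nat_lit 60) (nat_lit 5) (nat_lit 61) (nat_lit 5) (nat_lit 357) (nat_lit 325) (nat_lit 218)) (XT.nd (nat_lit 78) (nat_lit 152) (nat_lit 0) (XT.lf (nat_lit 0) (nat_lit 24351787213) (nat_lit 304) (nat_lit 7741899699) (nat_lit 76) (nat_lit 2752281627) (nat_lit 57) (nat_lit 5) (nat_lit 61) (nat_lit 5) (nat_lit 58) (nat_lit 5) (nat_lit 358) (nat_lit 325) (nat_lit 217)) (XT.lf (nat_lit 0) (nat_lit 11623879051) (nat_lit 152) (nat_lit 20613004542) (nat_lit 228) (nat_lit 3717576585) (nat_lit 55) (nat_lit 5) (nat_lit 57) (nat_lit 5) (nat_lit 58) (nat_lit 5) (nat_lit 359) (nat_lit 325) (nat_lit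 216)))) (XT.nd (nat_lit 78) (nat_lit 228) (nat_lit 0) (XT.lf (nat_lit 0) (nat_lit 3416118967) (nat_lit 228) (nat_lit 4949838784) (nat_lit 76) (nat_lit 28743418523) (nat_lit 54) (nat_lit 5) (nat_lit 57) (nat_lit 5) (nat_lit 55) (nat_lit 5) (nat_lit 360) (nat_lit 325) (nat_lit 215)) (XT.nd (nat_lit 78) (nat_lit 0) (nat_lit 0) (XT.lf (nat_lit 0) (nat_lit 11098028145) (nat_lit 304) (nat_lit 22545306547) (nat_lit 76) (nat_lit 4659835999) (nat_lit 51) (nat_lit 5) (nat_lit 55) (nat_lit 5) (nat_lit 52) (nat_lit 5) (nat_lit 361) (nat_lit 325) (nat_lit 214)) (XT.lf (nat_lit 0) (nat_lit 19380525146) (nat_lit 304) (nat_lit 2027374539) (nat_lit 76) (nat_lit 18137933288) (nat_lit 51) (nat_lit 5) (nat_lit 55) (nat_lit 5) (nat_lit 52) (nat_lit 5) (nat_lit 362) (nat_lit 325) (nat_lit 213))))) (XT.nd (nat_lit 234) (nat_lit 304) (nat_lit 0) (XT.nd (nat_lit 78) (nat_lit 228) (nat_lit 0) (XT.lf (nat_lit 0)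 (nat_lit 20152714924) (nat_lit 152) (nat_lit 8233494691) (nat_lit 228) (nat_lit 12448968254) (nat_lit 49) (nat_lit 5) (nat_lit 51) (nat_lit 5) (nat_lit 52) (nat_lit 5) (nat_lit 363) (nat_lit 325) (nat_lit 212)) (XT.nd (nat_lit 78) (nat_lit 76) (nat_lit 0) (XT.lf (nat_lit 0) (nat_lit 1268702921) (nat_lit 152) (nat_lit 36710110778) (nat_lit 228) (nat_lit 4203347045) (nat_lit 47) (nat_lit 5) (nat_lit 49) (nat_lit 5) (nat_lit 50) (nat_lit 5) (nat_lit 364) (nat_lit 325) (nat_lit 211)) (XT.lf (nat_lit 0) (nat_lit 4797506235) (nat_lit 228) (nat_lit 18762645848) (nat_lit 76) (nat_lit 20008589318) (nat_lit 46) (nat_lit 5) (nat_lit 49) (nat_lit 5) (nat_lit 47) (nat_lit 5) (nat_lit 365) (nat_lit 325) (nat_lit 210)))) (XT.nd (nat_lit 156) (nat_lit 152) (nat_lit 0) (XT.nd (nat_lit 78) (nat_lit 0) (nat_lit 0) (XT.lf (nat_lit 0) (nat_lit 4564436095) (nat_lit 152) (nat_lit 9608769383) (nat_lit 228) (nat_lit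 30844699246) (nat_lit 44) (nat_lit 5) (nat_lit 46) (nat_lit 5) (nat_lit 47) (nat_lit 5) (nat_lit 366) (nat_lit 325) (nat_lit 209)) (XT.lf (nat_lit 0) (nat_lit 24414211586) (nat_lit 228) (nat_lit 16906793210) (nat_lit 76) (nat_lit 5198697381) (nat_lit 44) (nat_lit 5) (nat_lit 47) (nat_lit 5) (nat_lit 45) (nat_lit 5) (nat_lit 367) (nat_lit 325) (nat_lit 208))) (XT.nd (nat_lit 78) (nat_lit 0) (nat_lit 0) (XT.lf (nat_lit 0) (nat_lit 7904573660) (nat_lit 152) (nat_lit 27538739080) (nat_lit 228) (nat_lit 12639476489) (nat_lit 42) (nat_lit 5) (nat_lit 44) (nat_lit 5) (nat_lit 45) (nat_lit 5) (nat_lit 368) (nat_lit 325) (nat_lit 207)) (XT.lf (nat_lit 0) (nat_lit 34535488249) (nat_lit 152) (nat_lit 12769924912) (nat_lit 228) (nat_lit 2404542131) (nat_lit 42) (nat_lit 5) (nat_lit 44) (nat_lit 5) (nat_lit 45) (nat_lit 5) (nat_lit 369) (nat_lit 325) (nat_lit 206))))))))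
noncomputable def xc165 : XT := (XT.nd (nat_lit 1950) (nat_lit 760) (nat_lit 0) (XT.nd (nat_lit 936) (nat_lit 760) (nat_lit 0) (XT.nd (nat_lit 468) (nat_lit 456) (nat_lit 0) (XT.nd (nat_lit 234) (nat_lit 152) (nat_lit 0) (XT.nd (nat_lit 78) (nat_lit 152) (nat_lit 0) (XT.lf (nat_lit 0) (nat_lit 8294701083) (nat_lit 228) (nat_lit 40147855348) (nat_lit 76) (nat_lit 2958434581) (nat_lit 39) (nat_lit 5) (nat_lit 42) (nat_lit 5) (nat_lit 40) (nat_lit 5) (nat_lit 370) (nat_lit 325) (nat_lit 205)) (XT.nd (nat_lit 78) (nat_lit 152) (nat_lit 0) (XT.lf (nat_lit 0) (nat_lit 19914064426) (nat_lit 228) (nat_lit 13895577177) (nat_lit 76) (nat_lit 19341669275) (nat_lit 39) (nat_lit 5) (nat_lit 42) (nat_lit 5) (nat_lit 40) (nat_lit 5) (nat_lit 371) (nat_lit 325) (nat_lit 204)) (XT.lf (nat_lit 0) (nat_lit 14113595144) (nat_lit 152) (nat_lit 18216794974) (nat_lit 228) (nat_lit 22647958450) (nat_lit 37) (nat_lit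 5) (nat_lit 39) (nat_lit 5) (nat_lit 40) (nat_lit 5) (nat_lit 372) (nat_lit 325) (nat_lit 203)))) (XT.nd (nat_lit 78) (nat_lit 152) (nat_lit 0) (XT.lf (nat_lit 0) (nat_lit 43998326250) (nat_lit 152) (nat_lit 1600268797) (nat_lit 228) (nat_lit 11286591412) (nat_lit 37) (nat_lit 5) (nat_lit 39) (nat_lit 5) (nat_lit 40) (nat_lit 5) (nat_lit 373) (nat_lit 325) (nat_lit 202)) (XT.nd (nat_lit 78) (nat_lit 0) (nat_lit 0) (XT.lf (nat_lit 0) (nat_lit 1135719676) (nat_lit 152) (nat_lit 42108235235) (nat_lit 76) (nat_lit 15617238295) (nat_lit 35) (nat_lit 5) (nat_lit 37) (nat_lit 5) (nat_lit 36) (nat_lit 5) (nat_lit 374) (nat_lit 325) (nat_lit 201)) (XT.lf (nat_lit 0) (nat_lit 14043810851) (nat_lit 152) (nat_lit 12824910717) (nat_lit 76) (nat_lit 34045830283) (nat_lit 35) (nat_lit 5) (nat_lit 37) (nat_lit 5) (nat_lit 36) (nat_lit 5) (nat_lit 375) (nat_lit 325) (nat_lit 200))))) (XT.nd (nat_lit 234)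 (nat_lit 228) (nat_lit 0) (XT.nd (nat_lit 78) (nat_lit 76) (nat_lit 0) (XT.lf (nat_lit 0) (nat_lit 18508142218) (nat_lit 152) (nat_lit 9374234140) (nat_lit 228) (nat_lit 35173949787) (nat_lit 33) (nat_lit 5) (nat_lit 35) (nat_lit 5) (nat_lit 36) (nat_lit 5) (nat_lit 376) (nat_lit 325) (nat_lit 199)) (XT.nd (nat_lit 78) (nat_lit 76) (nat_lit 0) (XT.lf (nat_lit 0) (nat_lit 42770205055) (nat_lit 228) (nat_lit 13592077740) (nat_lit 76) (nat_lit 8925040761) (nat_lit 33) (nat_lit 5) (nat_lit 36) (nat_lit 5) (nat_lit 34) (nat_lit 4) (nat_lit 377) (nat_lit 325) (nat_lit 198)) (XT.lf (nat_lit 0) (nat_lit 19371646963) (nat_lit 76) (nat_lit 39483225074) (nat_lit 152) (nat_lit 8752377550) (nat_lit 32) (nat_lit 5) (nat_lit 33) (nat_lit 5) (nat_lit 34) (nat_lit 4) (nat_lit 378) (nat_lit 325) (nat_lit 197)))) (XT.nd (nat_lit 78) (nat_lit 152) (nat_lit 0) (XT.lf (nat_lit 0) (nat_lit 5748447554) (nat_lit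 152) (nat_lit 15675535561) (nat_lit 76) (nat_lit 48603224583) (nat_lit 31) (nat_lit 5) (nat_lit 33) (nat_lit 5) (nat_lit 32) (nat_lit 5) (nat_lit 379) (nat_lit 325) (nat_lit 196)) (XT.nd (nat_lit 78) (nat_lit 0) (nat_lit 0) (XT.lf (nat_lit 0) (nat_lit 18969981337) (nat_lit 152) (nat_lit 2002884088) (nat_lit 228) (nat_lit 51573490715) (nat_lit 29) (nat_lit 5) (nat_lit 31) (nat_lit 5) (nat_lit 32) (nat_lit 5) (nat_lit 380) (nat_lit 325) (nat_lit 195)) (XT.lf (nat_lit 0) (nat_lit 37511979161) (nat_lit 228) (nat_lit 19583913751) (nat_lit 76) (nat_lit 18067896241) (nat_lit 29) (nat_lit 5) (nat_lit 32) (nat_lit 5) (nat_lit 30) (nat_lit 4) (nat_lit 381) (nat_lit 325) (nat_lit 194)))))) (XT.nd (nat_lit 468) (nat_lit 380) (nat_lit 0) (XT.nd (nat_lit 234) (nat_lit 76) (nat_lit 0) (XT.nd (nat_lit 78) (nat_lit 228) (nat_lit 0) (XT.lf (nat_lit 0) (nat_lit 16600701732) (nat_lit 76) (nat_lit 38566071296)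 (nat_lit 152) (nat_lit 22730885425) (nat_lit 28) (nat_lit 5) (nat_lit 29) (nat_lit 5) (nat_lit 30) (nat_lit 4) (nat_lit 382) (nat_lit 325) (nat_lit 193)) (XT.nd (nat_lit 78) (nat_lit 228) (nat_lit 0) (XT.lf (nat_lit 0) (nat_lit 55268592807) (nat_lit 76) (nat_lit 18764148895) (nat_lit 152) (nat_lit 6719058573) (nat_lit 28) (nat_lit 5) (nat_lit 29) (nat_lit 5) (nat_lit 30) (nat_lit 4) (nat_lit 383) (nat_lit 325) (nat_lit 192)) (XT.lf (nat_lit 0) (nat_lit 9997419806) (nat_lit 228) (nat_lit 71415310961) (nat_lit 76) (nat_lit 2316684345) (nat_lit 25) (nat_lit 5) (nat_lit 28) (nat_lit 5) (nat_lit 26) (nat_lit 4) (nat_lit 384) (nat_lit 325) (nat_lit 191)))) (XT.nd (nat_lit 78) (nat_lit 76) (nat_lit 0) (XT.lf (nat_lit 0) (nat_lit 28067068552) (nat_lit 228) (nat_lit 34378875667) (nat_lit 76) (nat_lit 24367302207) (nat_lit 25) (nat_lit 5) (nat_lit 28) (nat_lit 5) (nat_lit 26) (nat_lit 4) (nat_lit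 385) (nat_lit 325) (nat_lit 190)) (XT.nd (nat_lit 78) (nat_lit 0) (nat_lit 0) (XT.lf (nat_lit 0) (nat_lit 4652862182) (nat_lit 76) (nat_lit 42457026057) (nat_lit 152) (nat_lit 42937897313) (nat_lit 24) (nat_lit 5) (nat_lit 25) (nat_lit 5) (nat_lit 26) (nat_lit 4) (nat_lit 386) (nat_lit 325) (nat_lit 189)) (XT.lf (nat_lit 0) (nat_lit 46824391740) (nat_lit 76) (nat_lit 20859781537) (nat_lit 152) (nat_lit 25730912777) (nat_lit 24) (nat_lit 5) (nat_lit 25) (nat_lit 5) (nat_lit 26) (nat_lit 4) (nat_lit 387) (nat_lit 325) (nat_lit 188))))) (XT.nd (nat_lit 234) (nat_lit 228) (nat_lit 0) (XT.nd (nat_lit 78) (nat_lit 152) (nat_lit 0) (XT.lf (nat_lit 0) (nat_lit 89312749123) (nat_lit 152) (nat_lit 5879826750) (nat_lit 0) (nat_lit 1756897490) (nat_lit 24) (nat_lit 5) (nat_lit 26) (nat_lit 4) (nat_lit 24) (nat_lit 4) (nat_lit 388) (nat_lit 325) (nat_lit 187)) (XT.nd (nat_lit 78) (nat_lit 0) (nat_lit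 0) (XT.lf (nat_lit 0) (nat_lit 11942057865) (nat_lit 152) (nat_lit 63079604194) (nat_lit 76) (nat_lit 25582871528) (nat_lit 22) (nat_lit 5) (nat_lit 24) (nat_lit 5) (nat_lit 23) (nat_lit 4) (nat_lit 389) (nat_lit 325) (nat_lit 186)) (XT.lf (nat_lit 0) (nat_lit 32341688816) (nat_lit 152) (nat_lit 21265095209) (nat_lit 76) (nat_lit 50824376026) (nat_lit 22) (nat_lit 5) (nat_lit 24) (nat_lit 5) (nat_lit 23) (nat_lit 4) (nat_lit 390) (nat_lit 325) (nat_lit 185)))) (XT.nd (nat_lit 156) (nat_lit 152) (nat_lit 0) (XT.nd (nat_lit 78) (nat_lit 0) (nat_lit 0) (XT.lf (nat_lit 0) (nat_lit 23383844173) (nat_lit 76) (nat_lit 30740014592) (nat_lit 152) (nat_lit 54307131701) (nat_lit 21) (nat_lit 5) (nat_lit 22) (nat_lit 5) (nat_lit 23) (nat_lit 4) (nat_lit 391) (nat_lit 325) (nat_lit 184)) (XT.lf (nat_lit 0) (nat_lit 70998858709) (nat_lit 76) (nat_lit 6353931195) (nat_lit 152) (nat_lit 35260140340) (nat_lit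 21) (nat_lit 5) (nat_lit 22) (nat_lit 5) (nat_lit 23) (nat_lit 4) (nat_lit 392) (nat_lit 325) (nat_lit 183))) (XT.nd (nat_lit 78) (nat_lit 76) (nat_lit 0) (XT.lf (nat_lit 0) (nat_lit 3807436507) (nat_lit 76) (nat_lit 98293349033) (nat_lit 76) (nat_lit 14885301029) (nat_lit 20) (nat_lit 4) (nat_lit 21) (nat_lit 5) (nat_lit 21) (nat_lit 4) (nat_lit 393) (nat_lit 325) (nat_lit 182)) (XT.lf (nat_lit 0) (nat_lit 7118055035) (nat_lit 152) (nat_lit 68819744756) (nat_lit 76) (nat_lit 45594116685) (nat_lit 19) (nat_lit 5) (nat_lit 21) (nat_lit 5) (nat_lit 20) (nat_lit 4) (nat_lit 394) (nat_lit 325) (nat_lit 181))))))) (XT.nd (nat_lit 936) (nat_lit 304) (nat_lit 0) (XT.nd (nat_lit 468) (nat_lit 228) (nat_lit 0) (XT.nd (nat_lit 234) (nat_lit 152) (nat_lit 0) (XT.nd (nat_lit 78) (nat_lit 76) (nat_lit 0) (XT.lf (nat_lit 0) (nat_lit 29719058806) (nat_lit 152) (nat_lit 22491219956) (nat_lit 76) (nat_lit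 74082672262) (nat_lit 19) (nat_lit 5) (nat_lit 21) (nat_lit 5) (nat_lit 20) (nat_lit 4) (nat_lit 395) (nat_lit 325) (nat_lit 180)) (XT.nd (nat_lit 78) (nat_lit 0) (nat_lit 0) (XT.lf (nat_lit 0) (nat_lit 27014256531) (nat_lit 76) (nat_lit 26855456510) (nat_lit 152) (nat_lit 77401344617) (nat_lit 18) (nat_lit 5) (nat_lit 19) (nat_lit 5) (nat_lit 20) (nat_lit 4) (nat_lit 396) (nat_lit 325) (nat_lit 179)) (XT.lf (nat_lit 0) (nat_lit 79609250361) (nat_lit 152) (nat_lit 56709891909) (nat_lit 0) (nat_lit 159860193) (nat_lit 18) (nat_lit 5) (nat_lit 20) (nat_lit 4) (nat_lit 18) (nat_lit 4) (nat_lit 397) (nat_lit 325) (nat_lit 178)))) (XT.nd (nat_lit 78) (nat_lit 152) (nat_lit 0) (XT.lf (nat_lit 0) (nat_lit 107073963205) (nat_lit 152) (nat_lit 7229805221) (nat_lit 0) (nat_lit 27621666486) (nat_lit 18) (nat_lit 5) (nat_lit 20) (nat_lit 4) (nat_lit 18) (nat_lit 4) (nat_lit 398) (nat_lit 325) (nat_lit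 177)) (XT.nd (nat_lit 78) (nat_lit 76) (nat_lit 0) (XT.lf (nat_lit 0) (nat_lit 46199221200) (nat_lit 76) (nat_lit 90432032923) (nat_lit 76) (nat_lit 10976968062) (nat_lit 17) (nat_lit 4) (nat_lit 18) (nat_lit 5) (nat_lit 18) (nat_lit 4) (nat_lit 399) (nat_lit 325) (nat_lit 176)) (XT.lf (nat_lit 0) (nat_lit 13762747131) (nat_lit 152) (nat_lit 51244069569) (nat_lit 76) (nat_lit 88551207477) (nat_lit 16) (nat_lit 5) (nat_lit 18) (nat_lit 5) (nat_lit 17) (nat_lit 4) (nat_lit 400) (nat_lit 325) (nat_lit 175))))) (XT.nd (nat_lit 234) (nat_lit 152) (nat_lit 0) (XT.nd (nat_lit 78) (nat_lit 0) (nat_lit 0) (XT.lf (nat_lit 0) (nat_lit 1286788214) (nat_lit 76) (nat_lit 38101992365) (nat_lit 152) (nat_lit 120406626921) (nat_lit 15) (nat_lit 5) (nat_lit 16) (nat_lit 5) (nat_lit 17) (nat_lit 4) (nat_lit 401) (nat_lit 325) (nat_lit 174)) (XT.nd (nat_lit 78) (nat_lit 0) (nat_lit 0) (XT.lf (nat_lit 0) (nat_lit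 58219769445) (nat_lit 76) (nat_lit 8942363552) (nat_lit 152) (nat_lit 99139226394) (nat_lit 15) (nat_lit 5) (nat_lit 16) (nat_lit 5) (nat_lit 17) (nat_lit 4) (nat_lit 402) (nat_lit 325) (nat_lit 173)) (XT.lf (nat_lit 0) (nat_lit 96660800647) (nat_lit 152) (nat_lit 55475014083) (nat_lit 0) (nat_lit 20979962019) (nat_lit 15) (nat_lit 5) (nat_lit 17) (nat_lit 4) (nat_lit 15) (nat_lit 4) (nat_lit 403) (nat_lit 325) (nat_lit 172)))) (XT.nd (nat_lit 78) (nat_lit 152) (nat_lit 0) (XT.lf (nat_lit 0) (nat_lit 127779318055) (nat_lit 152) (nat_lit 387937548) (nat_lit 0) (nat_lit 52096413795) (nat_lit 15) (nat_lit 5) (nat_lit 17) (nat_lit 4) (nat_lit 15) (nat_lit 4) (nat_lit 404) (nat_lit 325) (nat_lit 171)) (XT.nd (nat_lit 78) (nat_lit 76) (nat_lit 0) (XT.lf (nat_lit 0) (nat_lit 59349984885) (nat_lit 76) (nat_lit 102028796279) (nat_lit 76) (nat_lit 26343924752) (nat_lit 14) (nat_lit 4) (nat_lit 15)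 (nat_lit 5) (nat_lit 15) (nat_lit 4) (nat_lit 405) (nat_lit 325) (nat_lit 170)) (XT.lf (nat_lit 0) (nat_lit 1073284322) (nat_lit 152) (nat_lit 73486512254) (nat_lit 76) (nat_lit 120993782399) (nat_lit 13) (nat_lit 5) (nat_lit 15) (nat_lit 5) (nat_lit 14) (nat_lit 4) (nat_lit 406) (nat_lit 325) (nat_lit 169)))))) (XT.nd (nat_lit 468) (nat_lit 152) (nat_lit 0) (XT.nd (nat_lit 234) (nat_lit 76) (nat_lit 0) (XT.nd (nat_lit 78) (nat_lit 76) (nat_lit 0) (XT.lf (nat_lit 0) (nat_lit 28974504444) (nat_lit 152) (nat_lit 16290795373) (nat_lit 76) (nat_lit 158489178725) (nat_lit 13) (nat_lit 5) (nat_lit 15) (nat_lit 5) (nat_lit 14) (nat_lit 4) (nat_lit 407) (nat_lit 325) (nat_lit 168)) (XT.nd (nat_lit 78) (nat_lit 0) (nat_lit 0) (XT.lf (nat_lit 0) (nat_lit 45208878841) (nat_lit 76) (nat_lit 13766295658) (nat_lit 152) (nat_lit 153355029331) (nat_lit 12) (nat_lit 5) (nat_lit 13) (nat_lit 5) (nat_lit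 14) (nat_lit 4) (nat_lit 408) (nat_lit 325) (nat_lit 167)) (XT.lf (nat_lit 0) (nat_lit 91056296991) (nat_lit 152) (nat_lit 111280574310) (nat_lit 0) (nat_lit 18968823315) (nat_lit 12) (nat_lit 5) (nat_lit 14) (nat_lit 4) (nat_lit 12) (nat_lit 4) (nat_lit 409) (nat_lit 325) (nat_lit 166)))) (XT.nd (nat_lit 78) (nat_lit 76) (nat_lit 0) (XT.lf (nat_lit 0) (nat_lit 124965778243) (nat_lit 152) (nat_lit 52876130177) (nat_lit 0) (nat_lit 52876836561) (nat_lit 12) (nat_lit 5) (nat_lit 14) (nat_lit 4) (nat_lit 12) (nat_lit 4) (nat_lit 410) (nat_lit 325) (nat_lit 165)) (XT.nd (nat_lit 78) (nat_lit 0) (nat_lit 0) (XT.lf (nat_lit 0) (nat_lit 8725258837) (nat_lit 76) (nat_lit 151980391565) (nat_lit 76) (nat_lit 79890051783) (nat_lit 11) (nat_lit 4) (nat_lit 12) (nat_lit 5) (nat_lit 12) (nat_lit 4) (nat_lit 411) (nat_lit 325) (nat_lit 164)) (XT.lf (nat_lit 0) (nat_lit 75239958017) (nat_lit 76) (nat_lit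 123886755415) (nat_lit 76) (nat_lit 51795084109) (nat_lit 11) (nat_lit 4) (nat_lit 12) (nat_lit 5) (nat_lit 12) (nat_lit 4) (nat_lit 412) (nat_lit 325) (nat_lit 163))))) (XT.nd (nat_lit 234) (nat_lit 0) (nat_lit 0) (XT.nd (nat_lit 78) (nat_lit 152) (nat_lit 0) (XT.lf (nat_lit 0) (nat_lit 145078012034) (nat_lit 76) (nat_lit 94389593211) (nat_lit 76) (nat_lit 22296653787) (nat_lit 11) (nat_lit 4) (nat_lit 12) (nat_lit 5) (nat_lit 12) (nat_lit 4) (nat_lit 413) (nat_lit 325) (nat_lit 162)) (XT.nd (nat_lit 78) (nat_lit 76) (nat_lit 0) (XT.lf (nat_lit 0) (nat_lit 8397804208) (nat_lit 152) (nat_lit 54878648527) (nat_lit 76) (nat_lit 209865676882) (nat_lit 10) (nat_lit 5) (nat_lit 12) (nat_lit 5) (nat_lit 11) (nat_lit 4) (nat_lit 414) (nat_lit 325) (nat_lit 161)) (XT.lf (nat_lit 0) (nat_lit 9970740626) (nat_lit 76) (nat_lit 30061473033) (nat_lit 152) (nat_lit 245030677139) (nat_lit 9) (nat_lit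 5) (nat_lit 10) (nat_lit 5) (nat_lit 11) (nat_lit 4) (nat_lit 415) (nat_lit 325) (nat_lit 160)))) (XT.nd (nat_lit 156) (nat_lit 0) (nat_lit 0) (XT.nd (nat_lit 78) (nat_lit 0) (nat_lit 0) (XT.lf (nat_lit 0) (nat_lit 74267014800) (nat_lit 152) (nat_lit 217657958261) (nat_lit 0) (nat_lit 5603783538) (nat_lit 9) (nat_lit 5) (nat_lit 11) (nat_lit 4) (nat_lit 9) (nat_lit 4) (nat_lit 416) (nat_lit 325) (nat_lit 159)) (XT.lf (nat_lit 0) (nat_lit 110705295336) (nat_lit 152) (nat_lit 157846963033) (nat_lit 0) (nat_lit 42041070470) (nat_lit 9) (nat_lit 5) (nat_lit 11) (nat_lit 4) (nat_lit 9) (nat_lit 4) (nat_lit 417) (nat_lit 325) (nat_lit 158))) (XT.nd (nat_lit 78) (nat_lit 0) (nat_lit 0) (XT.lf (nat_lit 0) (nat_lit 148964469235) (nat_lit 152) (nat_lit 95047413518) (nat_lit 0) (nat_lit 80299298080) (nat_lit 9) (nat_lit 5) (nat_lit 11) (nat_lit 4) (nat_lit 9) (nat_lit 4) (nat_lit 418) (nat_lit 325)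 (nat_lit 157)) (XT.lf (nat_lit 0) (nat_lit 189135629771) (nat_lit 152) (nat_lit 29109786979) (nat_lit 0) (nat_lit 120469557387) (nat_lit 9) (nat_lit 5) (nat_lit 11) (nat_lit 4) (nat_lit 9) (nat_lit 4) (nat_lit 419) (nat_lit 325) (nat_lit 156))))))))
noncomputable def xc166 : XT := (XT.nd (nat_lit 40170) (nat_lit 0) (nat_lit 3952) (XT.nd (nat_lit 936) (nat_lit 76) (nat_lit 0) (XT.nd (nat_lit 468) (nat_lit 0) (nat_lit 0) (XT.nd (nat_lit 234) (nat_lit 152) (nat_lit 0) (XT.nd (nat_lit 78) (nat_lit 0) (nat_lit 0) (XT.lf (nat_lit 0) (nat_lit 41449555569) (nat_lit 76) (nat_lit 190512010717) (nat_lit 76) (nat_lit 121845080021) (nat_lit 8) (nat_lit 4) (nat_lit 9) (nat_lit 5) (nat_lit 9) (nat_lit 4) (nat_lit 420) (nat_lit 325) (nat_lit 155)) (XT.nd (nat_lit 78) (nat_lit 0) (nat_lit 0) (XT.lf (nat_lit 0) (nat_lit 116545710557) (nat_lit 76) (nat_lit 160875167909) (nat_lit 76) (nat_lit 92207419773)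 (nat_lit 8) (nat_lit 4) (nat_lit 9) (nat_lit 5) (nat_lit 9) (nat_lit 4) (nat_lit 421) (nat_lit 325) (nat_lit 154)) (XT.lf (nat_lit 0) (nat_lit 195394977331) (nat_lit 76) (nat_lit 129757312744) (nat_lit 76) (nat_lit 61088786093) (nat_lit 8) (nat_lit 4) (nat_lit 9) (nat_lit 5) (nat_lit 9) (nat_lit 4) (nat_lit 422) (nat_lit 325) (nat_lit 153)))) (XT.nd (nat_lit 78) (nat_lit 152) (nat_lit 0) (XT.lf (nat_lit 0) (nat_lit 278185092242) (nat_lit 76) (nat_lit 97084355089) (nat_lit 76) (nat_lit 28415086996) (nat_lit 8) (nat_lit 4) (nat_lit 9) (nat_lit 5) (nat_lit 9) (nat_lit 4) (nat_lit 423) (nat_lit 325) (nat_lit 152)) (XT.nd (nat_lit 78) (nat_lit 76) (nat_lit 0) (XT.lf (nat_lit 0) (nat_lit 5702908142) (nat_lit 152) (nat_lit 56979012537) (nat_lit 76) (nat_lit 359313684960) (nat_lit 7) (nat_lit 5) (nat_lit 9) (nat_lit 5) (nat_lit 8) (nat_lit 4) (nat_lit 424) (nat_lit 325) (nat_lit 151)) (XT.lf (nat_lit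 0) (nat_lit 14979566817) (nat_lit 76) (nat_lit 25825415404) (nat_lit 152) (nat_lit 400382301692) (nat_lit 6) (nat_lit 5) (nat_lit 7) (nat_lit 5) (nat_lit 8) (nat_lit 4) (nat_lit 425) (nat_lit 325) (nat_lit 150))))) (XT.nd (nat_lit 234) (nat_lit 0) (nat_lit 0) (XT.nd (nat_lit 78) (nat_lit 0) (nat_lit 0) (XT.lf (nat_lit 0) (nat_lit 78843185703) (nat_lit 152) (nat_lit 368994349411) (nat_lit 0) (nat_lit 13441959774) (nat_lit 6) (nat_lit 5) (nat_lit 8) (nat_lit 4) (nat_lit 6) (nat_lit 4) (nat_lit 426) (nat_lit 325) (nat_lit 149)) (XT.nd (nat_lit 78) (nat_lit 0) (nat_lit 0) (XT.lf (nat_lit 0) (nat_lit 119205944461) (nat_lit 152) (nat_lit 309345102171) (nat_lit 0) (nat_lit 53804137593) (nat_lit 6) (nat_lit 5) (nat_lit 8) (nat_lit 4) (nat_lit 6) (nat_lit 4) (nat_lit 427) (nat_lit 325) (nat_lit 148)) (XT.lf (nat_lit 0) (nat_lit 161586153193) (nat_lit 152) (nat_lit 246714746248) (nat_lit 0) (nat_lit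 96183793050) (nat_lit 6) (nat_lit 5) (nat_lit 8) (nat_lit 4) (nat_lit 6) (nat_lit 4) (nat_lit 428) (nat_lit 325) (nat_lit 147)))) (XT.nd (nat_lit 78) (nat_lit 0) (nat_lit 0) (XT.lf (nat_lit 0) (nat_lit 206084717159) (nat_lit 152) (nat_lit 180954161747) (nat_lit 0) (nat_lit 140681830086) (nat_lit 6) (nat_lit 5) (nat_lit 8) (nat_lit 4) (nat_lit 6) (nat_lit 4) (nat_lit 429) (nat_lit 325) (nat_lit 146)) (XT.nd (nat_lit 78) (nat_lit 0) (nat_lit 0) (XT.lf (nat_lit 0) (nat_lit 252807585319) (nat_lit 152) (nat_lit 111906775849) (nat_lit 0) (nat_lit 187404196409) (nat_lit 6) (nat_lit 5) (nat_lit 8) (nat_lit 4) (nat_lit 6) (nat_lit 4) (nat_lit 430) (nat_lit 325) (nat_lit 145)) (XT.lf (nat_lit 0) (nat_lit 301866002599) (nat_lit 152) (nat_lit 39408190014) (nat_lit 0) (nat_lit 236462135748) (nat_lit 6) (nat_lit 5) (nat_lit 8) (nat_lit 4) (nat_lit 6) (nat_lit 4) (nat_lit 431) (nat_lit 325) (nat_lit 144))))))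 (XT.nd (nat_lit 38766) (nat_lit 0) (nat_lit 7828) (XT.nd (nat_lit 234) (nat_lit 0) (nat_lit 0) (XT.nd (nat_lit 78) (nat_lit 0) (nat_lit 0) (XT.lf (nat_lit 0) (nat_lit 37928149072) (nat_lit 76) (nat_lit 316040790381) (nat_lit 76) (nat_lit 250636468349) (nat_lit 5) (nat_lit 4) (nat_lit 6) (nat_lit 5) (nat_lit 6) (nat_lit 4) (nat_lit 432) (nat_lit 325) (nat_lit 143)) (XT.nd (nat_lit 78) (nat_lit 0) (nat_lit 0) (XT.lf (nat_lit 0) (nat_lit 120498372772) (nat_lit 76) (nat_lit 288845491000) (nat_lit 76) (nat_lit 223440735462) (nat_lit 5) (nat_lit 4) (nat_lit 6) (nat_lit 5) (nat_lit 6) (nat_lit 4) (nat_lit 433) (nat_lit 325) (nat_lit 142)) (XT.lf (nat_lit 0) (nat_lit 207196064121) (nat_lit 76) (nat_lit 260290940525) (nat_lit 76) (nat_lit 194885772124) (nat_lit 5) (nat_lit 4) (nat_lit 6) (nat_lit 5) (nat_lit 6) (nat_lit 4) (nat_lit 434) (nat_lit 325) (nat_lit 141)))) (XT.nd (nat_lit 38376) (nat_lit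 0) (nat_lit 8512) (XT.lf (nat_lit 0) (nat_lit 298227646193) (nat_lit 76) (nat_lit 230309151930) (nat_lit 76) (nat_lit 164903590326) (nat_lit 5) (nat_lit 4) (nat_lit 6) (nat_lit 5) (nat_lit 6) (nat_lit 4) (nat_lit 435) (nat_lit 325) (nat_lit 140)) (XT.nd (nat_lit 78) (nat_lit 0) (nat_lit 0) (XT.lf (nat_lit 0) (nat_lit 3239383370) (nat_lit 0) (nat_lit 3239383370) (nat_lit 684) (nat_lit 866180153) (nat_lit 117) (nat_lit 5) (nat_lit 117) (nat_lit 3) (nat_lit 126) (nat_lit 3) (nat_lit 326) (nat_lit 326) (nat_lit 248)) (XT.lf (nat_lit 0) (nat_lit 13583432501) (nat_lit 684) (nat_lit 1188959327) (nat_lit 760) (nat_lit 269375761) (nat_lit 117) (nat_lit 5) (nat_lit 126) (nat_lit 3) (nat_lit 127) (nat_lit 5) (nat_lit 327) (nat_lit 326) (nat_lit 247))))) (XT.nd (nat_lit 234) (nat_lit 0) (nat_lit 0) (XT.nd (nat_lit 78) (nat_lit 684) (nat_lit 0) (XT.lf (nat_lit 76) (nat_lit 6268080735) (nat_lit 0) (nat_lit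 8157714918) (nat_lit 760) (nat_lit 976198604) (nat_lit 118) (nat_lit 5) (nat_lit 117) (nat_lit 5) (nat_lit 127) (nat_lit 5) (nat_lit 328) (nat_lit 326) (nat_lit 246)) (XT.nd (nat_lit 78) (nat_lit 684) (nat_lit 0) (XT.lf (nat_lit 76) (nat_lit 14128777988) (nat_lit 0) (nat_lit 1183468768) (nat_lit 760) (nat_lit 467903810) (nat_lit 118) (nat_lit 5) (nat_lit 117) (nat_lit 5) (nat_lit 127) (nat_lit 5) (nat_lit 329) (nat_lit 326) (nat_lit 245)) (XT.lf (nat_lit 0) (nat_lit 243616885) (nat_lit 760) (nat_lit 9872194199) (nat_lit 836) (nat_lit 6052371602) (nat_lit 108) (nat_lit 5) (nat_lit 118) (nat_lit 5) (nat_lit 119) (nat_lit 5) (nat_lit 330) (nat_lit 326) (nat_lit 244)))) (XT.nd (nat_lit 78) (nat_lit 0) (nat_lit 76) (XT.lf (nat_lit 0) (nat_lit 1005993052) (nat_lit 760) (nat_lit 1915062012) (nat_lit 836) (nat_lit 13652642126) (nat_lit 108) (nat_lit 5) (nat_lit 118) (nat_lit 5) (nat_lit 119) (nat_lit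 5) (nat_lit 331) (nat_lit 326) (nat_lit 243)) (XT.nd (nat_lit 78) (nat_lit 0) (nat_lit 0) (XT.lf (nat_lit 0) (nat_lit 1968284061) (nat_lit 760) (nat_lit 10427559791) (nat_lit 836) (nat_lit 4595567584) (nat_lit 109) (nat_lit 5) (nat_lit 119) (nat_lit 5) (nat_lit 120) (nat_lit 5) (nat_lit 332) (nat_lit 326) (nat_lit 242)) (XT.lf (nat_lit 0) (nat_lit 3044189951) (nat_lit 760) (nat_lit 1955116611) (nat_lit 836) (nat_lit 12427442975) (nat_lit 109) (nat_lit 5) (nat_lit 119) (nat_lit 5) (nat_lit 120) (nat_lit 5) (nat_lit 333) (nat_lit 326) (nat_lit 241))))))) (XT.nd (nat_lit 936) (nat_lit 1900) (nat_lit 0) (XT.nd (nat_lit 468) (nat_lit 1444) (nat_lit 0) (XT.nd (nat_lit 234) (nat_lit 684) (nat_lit 0) (XT.nd (nat_lit 78) (nat_lit 0) (nat_lit 0) (XT.lf (nat_lit 0) (nat_lit 4316137154) (nat_lit 760) (nat_lit 10764973562) (nat_lit 836) (nat_lit 2795644060) (nat_lit 110) (nat_lit 5) (nat_lit 120) (nat_lit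 5) (nat_lit 121) (nat_lit 5) (nat_lit 334) (nat_lit 326) (nat_lit 240)) (XT.nd (nat_lit 78) (nat_lit 0) (nat_lit 76) (XT.lf (nat_lit 0) (nat_lit 5753251638) (nat_lit 760) (nat_lit 1741752321) (nat_lit 836) (nat_lit 10849189759) (nat_lit 110) (nat_lit 5) (nat_lit 120) (nat_lit 5) (nat_lit 121) (nat_lit 5) (nat_lit 335) (nat_lit 326) (nat_lit 239)) (XT.lf (nat_lit 0) (nat_lit 7382816328) (nat_lit 760) (nat_lit 10861938657) (nat_lit 76) (nat_lit 584231267) (nat_lit 111) (nat_lit 5) (nat_lit 121) (nat_lit 5) (nat_lit 112) (nat_lit 5) (nat_lit 336) (nat_lit 326) (nat_lit 238)))) (XT.nd (nat_lit 78) (nat_lit 760) (nat_lit 0) (XT.lf (nat_lit 0) (nat_lit 9233838359) (nat_lit 760) (nat_lit 1249649962) (nat_lit 76) (nat_lit 8847541963) (nat_lit 111) (nat_lit 5) (nat_lit 121) (nat_lit 5) (nat_lit 112) (nat_lit 5) (nat_lit 337) (nat_lit 326) (nat_lit 237)) (XT.nd (nat_lit 78) (nat_lit 0) (nat_lit 0)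 (XT.lf (nat_lit 0) (nat_lit 9124325562) (nat_lit 760) (nat_lit 2183284323) (nat_lit 836) (nat_lit 8544067024) (nat_lit 101) (nat_lit 5) (nat_lit 111) (nat_lit 5) (nat_lit 112) (nat_lit 5) (nat_lit 338) (nat_lit 326) (nat_lit 236)) (XT.lf (nat_lit 0) (nat_lit 13596735990) (nat_lit 836) (nat_lit 450646105) (nat_lit 76) (nat_lit 6345400291) (nat_lit 101) (nat_lit 5) (nat_lit 112) (nat_lit 5) (nat_lit 102) (nat_lit 5) (nat_lit 339) (nat_lit 326) (nat_lit 235))))) (XT.nd (nat_lit 234) (nat_lit 684) (nat_lit 0) (XT.nd (nat_lit 78) (nat_lit 380) (nat_lit 0) (XT.lf (nat_lit 0) (nat_lit 10633582347) (nat_lit 380) (nat_lit 5557284668) (nat_lit 456) (nat_lit 4760558043) (nat_lit 96) (nat_lit 5) (nat_lit 101) (nat_lit 5) (nat_lit 102) (nat_lit 5) (nat_lit 340) (nat_lit 326) (nat_lit 234)) (XT.nd (nat_lit 78) (nat_lit 76) (nat_lit 0) (XT.lf (nat_lit 0) (nat_lit 708954926) (nat_lit 304) (nat_lit 18266102370)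 (nat_lit 380) (nat_lit 2559933841) (nat_lit 92) (nat_lit 5) (nat_lit 96) (nat_lit 5) (nat_lit 97) (nat_lit 5) (nat_lit 341) (nat_lit 326) (nat_lit 233)) (XT.lf (nat_lit 0) (nat_lit 16679850) (nat_lit 380) (nat_lit 9595194179) (nat_lit 76) (nat_lit 12523165175) (nat_lit 91) (nat_lit 5) (nat_lit 96) (nat_lit 5) (nat_lit 92) (nat_lit 5) (nat_lit 342) (nat_lit 326) (nat_lit 232)))) (XT.nd (nat_lit 78) (nat_lit 304) (nat_lit 0) (XT.lf (nat_lit 0) (nat_lit 2215244980) (nat_lit 380) (nat_lit 445220176) (nat_lit 456) (nat_lit 20101315333) (nat_lit 86) (nat_lit 5) (nat_lit 91) (nat_lit 5) (nat_lit 92) (nat_lit 5) (nat_lit 343) (nat_lit 326) (nat_lit 231)) (XT.nd (nat_lit 78) (nat_lit 304) (nat_lit 0) (XT.lf (nat_lit 0) (nat_lit 5735016734) (nat_lit 456) (nat_lit 8619584589) (nat_lit 76) (nat_lit 9050335993) (nat_lit 86) (nat_lit 5) (nat_lit 92) (nat_lit 5) (nat_lit 87) (nat_lit 5) (nat_lit 344)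 (nat_lit 326) (nat_lit 230)) (XT.lf (nat_lit 0) (nat_lit 4014234340) (nat_lit 304) (nat_lit 5009597450) (nat_lit 380) (nat_lit 15053400378) (nat_lit 82) (nat_lit 5) (nat_lit 86) (nat_lit 5) (nat_lit 87) (nat_lit 5) (nat_lit 345) (nat_lit 326) (nat_lit 229)))))) (XT.nd (nat_lit 468) (nat_lit 988) (nat_lit 0) (XT.nd (nat_lit 234) (nat_lit 608) (nat_lit 0) (XT.nd (nat_lit 78) (nat_lit 304) (nat_lit 0) (XT.lf (nat_lit 0) (nat_lit 12691268860) (nat_lit 380) (nat_lit 7285154918) (nat_lit 76) (nat_lit 4796015568) (nat_lit 82) (nat_lit 5) (nat_lit 87) (nat_lit 5) (nat_lit 83) (nat_lit 5) (nat_lit 346) (nat_lit 326) (nat_lit 228)) (XT.nd (nat_lit 78) (nat_lit 0) (nat_lit 0) (XT.lf (nat_lit 0) (nat_lit 6238721511) (nat_lit 304) (nat_lit 10474149921) (nat_lit 380) (nat_lit 8781002100) (nat_lit 78) (nat_lit 5) (nat_lit 82) (nat_lit 5) (nat_lit 83) (nat_lit 5) (nat_lit 347) (nat_lit 326) (nat_lit 227))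 (XT.lf (nat_lit 0) (nat_lit 20681471700) (nat_lit 304) (nat_lit 368981234) (nat_lit 380) (nat_lit 5195187581) (nat_lit 78) (nat_lit 5) (nat_lit 82) (nat_lit 5) (nat_lit 83) (nat_lit 5) (nat_lit 348) (nat_lit 326) (nat_lit 226)))) (XT.nd (nat_lit 78) (nat_lit 380) (nat_lit 0) (XT.lf (nat_lit 0) (nat_lit 8927047533) (nat_lit 228) (nat_lit 16969038562) (nat_lit 304) (nat_lit 1124356865) (nat_lit 75) (nat_lit 5) (nat_lit 78) (nat_lit 5) (nat_lit 79) (nat_lit 5) (nat_lit 349) (nat_lit 326) (nat_lit 225)) (XT.nd (nat_lit 78) (nat_lit 304) (nat_lit 0) (XT.lf (nat_lit 0) (nat_lit 3143015143) (nat_lit 304) (nat_lit 3560294067) (nat_lit 76) (nat_lit 21123531501) (nat_lit 74) (nat_lit 5) (nat_lit 78) (nat_lit 5) (nat_lit 75) (nat_lit 5) (nat_lit 350) (nat_lit 326) (nat_lit 224)) (XT.lf (nat_lit 0) (nat_lit 7833579969) (nat_lit 380) (nat_lit 16673421503) (nat_lit 76) (nat_lit 4153259735) (nat_lit 70)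 (nat_lit 5) (nat_lit 75) (nat_lit 5) (nat_lit 71) (nat_lit 5) (nat_lit 351) (nat_lit 326) (nat_lit 223))))) (XT.nd (nat_lit 234) (nat_lit 532) (nat_lit 0) (XT.nd (nat_lit 78) (nat_lit 456) (nat_lit 0) (XT.lf (nat_lit 0) (nat_lit 12922401683) (nat_lit 380) (nat_lit 1218222983) (nat_lit 76) (nat_lit 15386546352) (nat_lit 70) (nat_lit 5) (nat_lit 75) (nat_lit 5) (nat_lit 71) (nat_lit 5) (nat_lit 352) (nat_lit 326) (nat_lit 222)) (XT.nd (nat_lit 78) (nat_lit 228) (nat_lit 0) (XT.lf (nat_lit 0) (nat_lit 15496243660) (nat_lit 228) (nat_lit 3004269742) (nat_lit 304) (nat_lit 11925174971) (nat_lit 67) (nat_lit 5) (nat_lit 70) (nat_lit 5) (nat_lit 71) (nat_lit 5) (nat_lit 353) (nat_lit 326) (nat_lit 221)) (XT.lf (nat_lit 0) (nat_lit 1627080814) (nat_lit 228) (nat_lit 22905544330) (nat_lit 304) (nat_lit 6827756016) (nat_lit 64) (nat_lit 5) (nat_lit 67) (nat_lit 5) (nat_lit 68) (nat_lit 5) (nat_lit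 354) (nat_lit 326) (nat_lit 220)))) (XT.nd (nat_lit 156) (nat_lit 228) (nat_lit 0) (XT.nd (nat_lit 78) (nat_lit 304) (nat_lit 0) (XT.lf (nat_lit 0) (nat_lit 19469398601) (nat_lit 228) (nat_lit 11691483234) (nat_lit 304) (nat_lit 1166203861) (nat_lit 64) (nat_lit 5) (nat_lit 67) (nat_lit 5) (nat_lit 68) (nat_lit 5) (nat_lit 355) (nat_lit 326) (nat_lit 219)) (XT.lf (nat_lit 0) (nat_lit 4699751595) (nat_lit 304) (nat_lit 28402778291) (nat_lit 76) (nat_lit 232155787) (nat_lit 60) (nat_lit 5) (nat_lit 64) (nat_lit 5) (nat_lit 61) (nat_lit 5) (nat_lit 356) (nat_lit 326) (nat_lit 218))) (XT.nd (nat_lit 78) (nat_lit 228) (nat_lit 0) (XT.lf (nat_lit 0) (nat_lit 11226382759) (nat_lit 304) (nat_lit 10548129525) (nat_lit 76) (nat_lit 12596872482) (nat_lit 60) (nat_lit 5) (nat_lit 64) (nat_lit 5) (nat_lit 61) (nat_lit 5) (nat_lit 357) (nat_lit 326) (nat_lit 217)) (XT.lf (nat_lit 0) (nat_lit 8461135686)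 (nat_lit 228) (nat_lit 9744202816) (nat_lit 304) (nat_lit 17248284019) (nat_lit 57) (nat_lit 5) (nat_lit 60) (nat_lit 5) (nat_lit 61) (nat_lit 5) (nat_lit 358) (nat_lit 326) (nat_lit 216))))))))
noncomputable def xc167 : XT := (XT.nd (nat_lit 1950) (nat_lit 1140) (nat_lit 0) (XT.nd (nat_lit 936) (nat_lit 1064) (nat_lit 0) (XT.nd (nat_lit 468) (nat_lit 532) (nat_lit 0) (XT.nd (nat_lit 234) (nat_lit 380) (nat_lit 0) (XT.nd (nat_lit 78) (nat_lit 228) (nat_lit 0) (XT.lf (nat_lit 0) (nat_lit 25753892734) (nat_lit 304) (nat_lit 7851019301) (nat_lit 76) (nat_lit 2974030790) (nat_lit 57) (nat_lit 5) (nat_lit 61) (nat_lit 5) (nat_lit 58) (nat_lit 5) (nat_lit 359) (nat_lit 326) (nat_lit 215)) (XT.nd (nat_lit 78) (nat_lit 76) (nat_lit 0) (XT.lf (nat_lit 0) (nat_lit 12478564913) (nat_lit 152) (nat_lit 21550162510) (nat_lit 228) (nat_lit 3714362129) (nat_lit 55) (nat_lit 5) (nat_lit 57) (nat_lit 5)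 (nat_lit 58) (nat_lit 5) (nat_lit 360) (nat_lit 326) (nat_lit 214)) (XT.lf (nat_lit 0) (nat_lit 3761249791) (nat_lit 228) (nat_lit 4931013325) (nat_lit 76) (nat_lit 30263780783) (nat_lit 54) (nat_lit 5) (nat_lit 57) (nat_lit 5) (nat_lit 55) (nat_lit 5) (nat_lit 361) (nat_lit 326) (nat_lit 213)))) (XT.nd (nat_lit 78) (nat_lit 152) (nat_lit 0) (XT.lf (nat_lit 0) (nat_lit 11824479072) (nat_lit 304) (nat_lit 23403398220) (nat_lit 76) (nat_lit 4981793557) (nat_lit 51) (nat_lit 5) (nat_lit 55) (nat_lit 5) (nat_lit 52) (nat_lit 5) (nat_lit 362) (nat_lit 326) (nat_lit 212)) (XT.nd (nat_lit 78) (nat_lit 152) (nat_lit 0) (XT.lf (nat_lit 0) (nat_lit 20512931899) (nat_lit 304) (nat_lit 1872387404) (nat_lit 76) (nat_lit 19129559246) (nat_lit 51) (nat_lit 5) (nat_lit 55) (nat_lit 5) (nat_lit 52) (nat_lit 5) (nat_lit 363) (nat_lit 326) (nat_lit 211)) (XT.lf (nat_lit 0) (nat_lit 21412571759) (nat_lit 152)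 (nat_lit 8552486686) (nat_lit 228) (nat_lit 12903828020) (nat_lit 49) (nat_lit 5) (nat_lit 51) (nat_lit 5) (nat_lit 52) (nat_lit 5) (nat_lit 364) (nat_lit 326) (nat_lit 210))))) (XT.nd (nat_lit 234) (nat_lit 152) (nat_lit 0) (XT.nd (nat_lit 78) (nat_lit 228) (nat_lit 0) (XT.lf (nat_lit 0) (nat_lit 1586787830) (nat_lit 152) (nat_lit 38448261767) (nat_lit 228) (nat_lit 4248284539) (nat_lit 47) (nat_lit 5) (nat_lit 49) (nat_lit 5) (nat_lit 50) (nat_lit 5) (nat_lit 365) (nat_lit 326) (nat_lit 209)) (XT.nd (nat_lit 78) (nat_lit 152) (nat_lit 0) (XT.lf (nat_lit 0) (nat_lit 5189706757) (nat_lit 228) (nat_lit 19453154611) (nat_lit 76) (nat_lit 21096637456) (nat_lit 46) (nat_lit 5) (nat_lit 49) (nat_lit 5) (nat_lit 47) (nat_lit 5) (nat_lit 366) (nat_lit 326) (nat_lit 208)) (XT.lf (nat_lit 0) (nat_lit 5036287502) (nat_lit 152) (nat_lit 9994453619) (nat_lit 228) (nat_lit 32230554701) (nat_lit 44)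 (nat_lit 5) (nat_lit 46) (nat_lit 5) (nat_lit 47) (nat_lit 5) (nat_lit 367) (nat_lit 326) (nat_lit 207)))) (XT.nd (nat_lit 78) (nat_lit 152) (nat_lit 0) (XT.lf (nat_lit 0) (nat_lit 25778117164) (nat_lit 228) (nat_lit 17514366813) (nat_lit 76) (nat_lit 5545986064) (nat_lit 44) (nat_lit 5) (nat_lit 47) (nat_lit 5) (nat_lit 45) (nat_lit 5) (nat_lit 368) (nat_lit 326) (nat_lit 206)) (XT.nd (nat_lit 78) (nat_lit 0) (nat_lit 0) (XT.lf (nat_lit 0) (nat_lit 8533733464) (nat_lit 152) (nat_lit 28821773422) (nat_lit 228) (nat_lit 13124365622) (nat_lit 42) (nat_lit 5) (nat_lit 44) (nat_lit 5) (nat_lit 45) (nat_lit 5) (nat_lit 369) (nat_lit 326) (nat_lit 205)) (XT.lf (nat_lit 0) (nat_lit 36485054205) (nat_lit 152) (nat_lit 13318990100) (nat_lit 228) (nat_lit 2384688579) (nat_lit 42) (nat_lit 5) (nat_lit 44) (nat_lit 5) (nat_lit 45) (nat_lit 5) (nat_lit 370) (nat_lit 326) (nat_lit 204)))))) (XT.nd (nat_lit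 468) (nat_lit 532) (nat_lit 0) (XT.nd (nat_lit 234) (nat_lit 152) (nat_lit 0) (XT.nd (nat_lit 78) (nat_lit 152) (nat_lit 0) (XT.lf (nat_lit 0) (nat_lit 8843489431) (nat_lit 228) (nat_lit 41926332242) (nat_lit 76) (nat_lit 3194468924) (nat_lit 39) (nat_lit 5) (nat_lit 42) (nat_lit 5) (nat_lit 40) (nat_lit 5) (nat_lit 371) (nat_lit 326) (nat_lit 203)) (XT.nd (nat_lit 78) (nat_lit 152) (nat_lit 0) (XT.lf (nat_lit 0) (nat_lit 21037437452) (nat_lit 228) (nat_lit 14372340918) (nat_lit 76) (nat_lit 20392669514) (nat_lit 39) (nat_lit 5) (nat_lit 42) (nat_lit 5) (nat_lit 40) (nat_lit 5) (nat_lit 372) (nat_lit 326) (nat_lit 202)) (XT.lf (nat_lit 0) (nat_lit 15033773647) (nat_lit 152) (nat_lit 19038075194) (nat_lit 228) (nat_lit 23649127292) (nat_lit 37) (nat_lit 5) (nat_lit 39) (nat_lit 5) (nat_lit 40) (nat_lit 5) (nat_lit 373) (nat_lit 326) (nat_lit 201)))) (XT.nd (nat_lit 78) (nat_lit 152) (nat_lit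 0) (XT.lf (nat_lit 0) (nat_lit 46402527082) (nat_lit 152) (nat_lit 1594987447) (nat_lit 228) (nat_lit 11725940906) (nat_lit 37) (nat_lit 5) (nat_lit 39) (nat_lit 5) (nat_lit 40) (nat_lit 5) (nat_lit 374) (nat_lit 326) (nat_lit 200)) (XT.nd (nat_lit 78) (nat_lit 0) (nat_lit 0) (XT.lf (nat_lit 0) (nat_lit 1312275901) (nat_lit 152) (nat_lit 44004076667) (nat_lit 76) (nat_lit 16481874725) (nat_lit 35) (nat_lit 5) (nat_lit 37) (nat_lit 5) (nat_lit 36) (nat_lit 5) (nat_lit 375) (nat_lit 326) (nat_lit 199)) (XT.lf (nat_lit 0) (nat_lit 14860068290) (nat_lit 152) (nat_lit 13266565462) (nat_lit 76) (nat_lit 35827907051) (nat_lit 35) (nat_lit 5) (nat_lit 37) (nat_lit 5) (nat_lit 36) (nat_lit 5) (nat_lit 376) (nat_lit 326) (nat_lit 198))))) (XT.nd (nat_lit 234) (nat_lit 304) (nat_lit 0) (XT.nd (nat_lit 78) (nat_lit 76) (nat_lit 0) (XT.lf (nat_lit 0) (nat_lit 19629920914) (nat_lit 152) (nat_lit 9758275313)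 (nat_lit 228) (nat_lit 36815327558) (nat_lit 33) (nat_lit 5) (nat_lit 35) (nat_lit 5) (nat_lit 36) (nat_lit 5) (nat_lit 377) (nat_lit 326) (nat_lit 197)) (XT.nd (nat_lit 78) (nat_lit 76) (nat_lit 0) (XT.lf (nat_lit 0) (nat_lit 45016356255) (nat_lit 228) (nat_lit 14080568952) (nat_lit 76) (nat_lit 9449350464) (nat_lit 33) (nat_lit 5) (nat_lit 36) (nat_lit 5) (nat_lit 34) (nat_lit 4) (nat_lit 378) (nat_lit 326) (nat_lit 196)) (XT.lf (nat_lit 0) (nat_lit 20528259523) (nat_lit 76) (nat_lit 41374806982) (nat_lit 152) (nat_lit 9079242528) (nat_lit 32) (nat_lit 5) (nat_lit 33) (nat_lit 5) (nat_lit 34) (nat_lit 4) (nat_lit 379) (nat_lit 326) (nat_lit 195)))) (XT.nd (nat_lit 156) (nat_lit 76) (nat_lit 0) (XT.nd (nat_lit 78) (nat_lit 152) (nat_lit 0) (XT.lf (nat_lit 0) (nat_lit 6137973821) (nat_lit 152) (nat_lit 16276832275) (nat_lit 76) (nat_lit 51108629137) (nat_lit 31) (nat_lit 5) (nat_lit 33)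 (nat_lit 5) (nat_lit 32) (nat_lit 5) (nat_lit 380) (nat_lit 326) (nat_lit 194)) (XT.lf (nat_lit 0) (nat_lit 20098017241) (nat_lit 152) (nat_lit 2023536327) (nat_lit 228) (nat_lit 54047091796) (nat_lit 29) (nat_lit 5) (nat_lit 31) (nat_lit 5) (nat_lit 32) (nat_lit 5) (nat_lit 381) (nat_lit 326) (nat_lit 193))) (XT.nd (nat_lit 78) (nat_lit 76) (nat_lit 0) (XT.lf (nat_lit 0) (nat_lit 39484040943) (nat_lit 228) (nat_lit 20388514841) (nat_lit 76) (nat_lit 19044574601) (nat_lit 29) (nat_lit 5) (nat_lit 32) (nat_lit 5) (nat_lit 30) (nat_lit 4) (nat_lit 382) (nat_lit 326) (nat_lit 192)) (XT.lf (nat_lit 0) (nat_lit 17602515374) (nat_lit 76) (nat_lit 40417147606) (nat_lit 152) (nat_lit 23768126940) (nat_lit 28) (nat_lit 5) (nat_lit 29) (nat_lit 5) (nat_lit 30) (nat_lit 4) (nat_lit 383) (nat_lit 326) (nat_lit 191))))))) (XT.nd (nat_lit 936) (nat_lit 456) (nat_lit 0) (XT.nd (nat_lit 468) (nat_lit 380)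 (nat_lit 0) (XT.nd (nat_lit 234) (nat_lit 76) (nat_lit 0) (XT.nd (nat_lit 78) (nat_lit 228) (nat_lit 0) (XT.lf (nat_lit 0) (nat_lit 58195621072) (nat_lit 76) (nat_lit 19628806573) (nat_lit 152) (nat_lit 6960437449) (nat_lit 28) (nat_lit 5) (nat_lit 29) (nat_lit 5) (nat_lit 30) (nat_lit 4) (nat_lit 384) (nat_lit 326) (nat_lit 190)) (XT.nd (nat_lit 78) (nat_lit 0) (nat_lit 0) (XT.lf (nat_lit 0) (nat_lit 10588197024) (nat_lit 228) (nat_lit 74818767753) (nat_lit 76) (nat_lit 2504355142) (nat_lit 25) (nat_lit 5) (nat_lit 28) (nat_lit 5) (nat_lit 26) (nat_lit 4) (nat_lit 385) (nat_lit 326) (nat_lit 189)) (XT.lf (nat_lit 0) (nat_lit 29556999339) (nat_lit 228) (nat_lit 35938477778) (nat_lit 76) (nat_lit 25654083108) (nat_lit 25) (nat_lit 5) (nat_lit 28) (nat_lit 5) (nat_lit 26) (nat_lit 4) (nat_lit 386) (nat_lit 326) (nat_lit 188)))) (XT.nd (nat_lit 78) (nat_lit 0) (nat_lit 0) (XT.lf (nat_lit 0)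 (nat_lit 5042276936) (nat_lit 76) (nat_lit 44508007987) (nat_lit 152) (nat_lit 44995626074) (nat_lit 24) (nat_lit 5) (nat_lit 25) (nat_lit 5) (nat_lit 26) (nat_lit 4) (nat_lit 387) (nat_lit 326) (nat_lit 187)) (XT.nd (nat_lit 78) (nat_lit 0) (nat_lit 0) (XT.lf (nat_lit 0) (nat_lit 49314917656) (nat_lit 76) (nat_lit 21834323592) (nat_lit 152) (nat_lit 26932538316) (nat_lit 24) (nat_lit 5) (nat_lit 25) (nat_lit 5) (nat_lit 26) (nat_lit 4) (nat_lit 388) (nat_lit 326) (nat_lit 186)) (XT.lf (nat_lit 0) (nat_lit 93856413205) (nat_lit 152) (nat_lit 6028771924) (nat_lit 0) (nat_lit 1907843593) (nat_lit 24) (nat_lit 5) (nat_lit 26) (nat_lit 4) (nat_lit 24) (nat_lit 4) (nat_lit 389) (nat_lit 326) (nat_lit 185))))) (XT.nd (nat_lit 234) (nat_lit 152) (nat_lit 0) (XT.nd (nat_lit 78) (nat_lit 76) (nat_lit 0) (XT.lf (nat_lit 0) (nat_lit 12616970275) (nat_lit 152) (nat_lit 66088289561) (nat_lit 76) (nat_lit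 26925594556) (nat_lit 22) (nat_lit 5) (nat_lit 24) (nat_lit 5) (nat_lit 23) (nat_lit 4) (nat_lit 390) (nat_lit 326) (nat_lit 184)) (XT.nd (nat_lit 78) (nat_lit 76) (nat_lit 0) (XT.lf (nat_lit 0) (nat_lit 34032877558) (nat_lit 152) (nat_lit 22189973929) (nat_lit 76) (nat_lit 53426146686) (nat_lit 22) (nat_lit 5) (nat_lit 24) (nat_lit 5) (nat_lit 23) (nat_lit 4) (nat_lit 391) (nat_lit 326) (nat_lit 183)) (XT.lf (nat_lit 0) (nat_lit 24689180551) (nat_lit 76) (nat_lit 32213572269) (nat_lit 152) (nat_lit 56946138146) (nat_lit 21) (nat_lit 5) (nat_lit 22) (nat_lit 5) (nat_lit 23) (nat_lit 4) (nat_lit 392) (nat_lit 326) (nat_lit 182)))) (XT.nd (nat_lit 78) (nat_lit 152) (nat_lit 0) (XT.lf (nat_lit 0) (nat_lit 74678462758) (nat_lit 76) (nat_lit 6611205799) (nat_lit 152) (nat_lit 36950432938) (nat_lit 21) (nat_lit 5) (nat_lit 22) (nat_lit 5) (nat_lit 23) (nat_lit 4) (nat_lit 393) (nat_lit 326) (nat_lit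 181)) (XT.nd (nat_lit 78) (nat_lit 76) (nat_lit 0) (XT.lf (nat_lit 0) (nat_lit 4127869205) (nat_lit 76) (nat_lit 103146826716) (nat_lit 76) (nat_lit 15557238751) (nat_lit 20) (nat_lit 4) (nat_lit 21) (nat_lit 5) (nat_lit 21) (nat_lit 4) (nat_lit 394) (nat_lit 326) (nat_lit 180)) (XT.lf (nat_lit 0) (nat_lit 7540636266) (nat_lit 152) (nat_lit 72134648313) (nat_lit 76) (nat_lit 47929882306) (nat_lit 19) (nat_lit 5) (nat_lit 21) (nat_lit 5) (nat_lit 20) (nat_lit 4) (nat_lit 395) (nat_lit 326) (nat_lit 179)))))) (XT.nd (nat_lit 468) (nat_lit 228) (nat_lit 0) (XT.nd (nat_lit 234) (nat_lit 152) (nat_lit 0) (XT.nd (nat_lit 78) (nat_lit 76) (nat_lit 0) (XT.lf (nat_lit 0) (nat_lit 31268515060) (nat_lit 152) (nat_lit 23495701257) (nat_lit 76) (nat_lit 77840196148) (nat_lit 19) (nat_lit 5) (nat_lit 21) (nat_lit 5) (nat_lit 20) (nat_lit 4) (nat_lit 396) (nat_lit 326) (nat_lit 178)) (XT.nd (nat_lit 78)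 (nat_lit 0) (nat_lit 0) (XT.lf (nat_lit 0) (nat_lit 28483112284) (nat_lit 76) (nat_lit 28142410297) (nat_lit 152) (nat_lit 81205961342) (nat_lit 18) (nat_lit 5) (nat_lit 19) (nat_lit 5) (nat_lit 20) (nat_lit 4) (nat_lit 397) (nat_lit 326) (nat_lit 177)) (XT.lf (nat_lit 0) (nat_lit 83649898955) (nat_lit 152) (nat_lit 59430721692) (nat_lit 0) (nat_lit 219312708) (nat_lit 18) (nat_lit 5) (nat_lit 20) (nat_lit 4) (nat_lit 18) (nat_lit 4) (nat_lit 398) (nat_lit 326) (nat_lit 176)))) (XT.nd (nat_lit 78) (nat_lit 152) (nat_lit 0) (XT.lf (nat_lit 0) (nat_lit 112484981438) (nat_lit 152) (nat_lit 7482090899) (nat_lit 0) (nat_lit 29051758863) (nat_lit 18) (nat_lit 5) (nat_lit 20) (nat_lit 4) (nat_lit 18) (nat_lit 4) (nat_lit 399) (nat_lit 326) (nat_lit 175)) (XT.nd (nat_lit 78) (nat_lit 76) (nat_lit 0) (XT.lf (nat_lit 0) (nat_lit 48616625479) (nat_lit 76) (nat_lit 94902459386) (nat_lit 76) (nat_lit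 11466726024) (nat_lit 17) (nat_lit 4) (nat_lit 18) (nat_lit 5) (nat_lit 18) (nat_lit 4) (nat_lit 400) (nat_lit 326) (nat_lit 174)) (XT.lf (nat_lit 0) (nat_lit 14505359895) (nat_lit 152) (nat_lit 53702136802) (nat_lit 76) (nat_lit 93025696751) (nat_lit 16) (nat_lit 5) (nat_lit 18) (nat_lit 5) (nat_lit 17) (nat_lit 4) (nat_lit 401) (nat_lit 326) (nat_lit 173))))) (XT.nd (nat_lit 234) (nat_lit 152) (nat_lit 0) (XT.nd (nat_lit 78) (nat_lit 0) (nat_lit 0) (XT.lf (nat_lit 0) (nat_lit 1453584253) (nat_lit 76) (nat_lit 39958116331) (nat_lit 152) (nat_lit 126370795465) (nat_lit 15) (nat_lit 5) (nat_lit 16) (nat_lit 5) (nat_lit 17) (nat_lit 4) (nat_lit 402) (nat_lit 326) (nat_lit 172)) (XT.nd (nat_lit 78) (nat_lit 0) (nat_lit 0) (XT.lf (nat_lit 0) (nat_lit 61228335659) (nat_lit 76) (nat_lit 9342838251) (nat_lit 152) (nat_lit 104042699331) (nat_lit 15) (nat_lit 5) (nat_lit 16) (nat_lit 5) (nat_lit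 17) (nat_lit 4) (nat_lit 403) (nat_lit 326) (nat_lit 171)) (XT.lf (nat_lit 0) (nat_lit 101543043059) (nat_lit 152) (nat_lit 58154094667) (nat_lit 0) (nat_lit 22071960688) (nat_lit 15) (nat_lit 5) (nat_lit 17) (nat_lit 4) (nat_lit 15) (nat_lit 4) (nat_lit 404) (nat_lit 326) (nat_lit 170)))) (XT.nd (nat_lit 156) (nat_lit 76) (nat_lit 0) (XT.nd (nat_lit 78) (nat_lit 76) (nat_lit 0) (XT.lf (nat_lit 0) (nat_lit 134215143366) (nat_lit 152) (nat_lit 317172406) (nat_lit 0) (nat_lit 54742187407) (nat_lit 15) (nat_lit 5) (nat_lit 17) (nat_lit 4) (nat_lit 15) (nat_lit 4) (nat_lit 405) (nat_lit 326) (nat_lit 169)) (XT.lf (nat_lit 0) (nat_lit 62406191923) (nat_lit 76) (nat_lit 107087541285) (nat_lit 76) (nat_lit 27612800956) (nat_lit 14) (nat_lit 4) (nat_lit 15) (nat_lit 5) (nat_lit 15) (nat_lit 4) (nat_lit 406) (nat_lit 326) (nat_lit 168))) (XT.nd (nat_lit 78) (nat_lit 0) (nat_lit 0) (XT.lf (nat_lit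 0) (nat_lit 1171494720) (nat_lit 152) (nat_lit 77074875552) (nat_lit 76) (nat_lit 127082654539) (nat_lit 13) (nat_lit 5) (nat_lit 15) (nat_lit 5) (nat_lit 14) (nat_lit 4) (nat_lit 407) (nat_lit 326) (nat_lit 167)) (XT.lf (nat_lit 0) (nat_lit 30465654601) (nat_lit 152) (nat_lit 17023466270) (nat_lit 76) (nat_lit 166450954823) (nat_lit 13) (nat_lit 5) (nat_lit 15) (nat_lit 5) (nat_lit 14) (nat_lit 4) (nat_lit 408) (nat_lit 326) (nat_lit 166))))))))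
noncomputable def xc168 : XT := (XT.nd (nat_lit 1872) (nat_lit 76) (nat_lit 0) (XT.nd (nat_lit 936) (nat_lit 228) (nat_lit 0) (XT.nd (nat_lit 468) (nat_lit 152) (nat_lit 0) (XT.nd (nat_lit 234) (nat_lit 76) (nat_lit 0) (XT.nd (nat_lit 78) (nat_lit 0) (nat_lit 0) (XT.lf (nat_lit 0) (nat_lit 47549871188) (nat_lit 76) (nat_lit 14415724322) (nat_lit 152) (nat_lit 160979030133) (nat_lit 12) (nat_lit 5) (nat_lit 13) (nat_lit 5) (nat_lit 14) (nat_lit 4) (nat_lit 409) (nat_lit 326) (nat_lit 165)) (XT.nd (nat_lit 78) (nat_lit 0) (nat_lit 0) (XT.lf (nat_lit 0) (nat_lit 95649368419) (nat_lit 152) (nat_lit 116766479538) (nat_lit 0) (nat_lit 19953113548) (nat_lit 12) (nat_lit 5) (nat_lit 14) (nat_lit 4) (nat_lit 12) (nat_lit 4) (nat_lit 410) (nat_lit 326) (nat_lit 164)) (XT.lf (nat_lit 0) (nat_lit 131252406754) (nat_lit 152) (nat_lit 55445533364) (nat_lit 0) (nat_lit 55554820358) (nat_lit 12) (nat_lit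 5) (nat_lit 14) (nat_lit 4) (nat_lit 12) (nat_lit 4) (nat_lit 411) (nat_lit 326) (nat_lit 163)))) (XT.nd (nat_lit 78) (nat_lit 0) (nat_lit 0) (XT.lf (nat_lit 0) (nat_lit 9234725048) (nat_lit 76) (nat_lit 159543864686) (nat_lit 76) (nat_lit 83845010172) (nat_lit 11) (nat_lit 4) (nat_lit 12) (nat_lit 5) (nat_lit 12) (nat_lit 4) (nat_lit 412) (nat_lit 326) (nat_lit 162)) (XT.nd (nat_lit 78) (nat_lit 0) (nat_lit 0) (XT.lf (nat_lit 0) (nat_lit 79071673316) (nat_lit 76) (nat_lit 130047239418) (nat_lit 76) (nat_lit 54347177172) (nat_lit 11) (nat_lit 4) (nat_lit 12) (nat_lit 5) (nat_lit 12) (nat_lit 4) (nat_lit 413) (nat_lit 326) (nat_lit 161)) (XT.lf (nat_lit 0) (nat_lit 152398310158) (nat_lit 76) (nat_lit 99076831187) (nat_lit 76) (nat_lit 23375618721) (nat_lit 11) (nat_lit 4) (nat_lit 12) (nat_lit 5) (nat_lit 12) (nat_lit 4) (nat_lit 414) (nat_lit 326) (nat_lit 160))))) (XT.nd (nat_lit 234)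 (nat_lit 0) (nat_lit 0) (XT.nd (nat_lit 78) (nat_lit 76) (nat_lit 0) (XT.lf (nat_lit 0) (nat_lit 8850760860) (nat_lit 152) (nat_lit 57558248151) (nat_lit 76) (nat_lit 220388570025) (nat_lit 10) (nat_lit 5) (nat_lit 12) (nat_lit 5) (nat_lit 11) (nat_lit 4) (nat_lit 415) (nat_lit 326) (nat_lit 159)) (XT.nd (nat_lit 78) (nat_lit 0) (nat_lit 0) (XT.lf (nat_lit 0) (nat_lit 10532572834) (nat_lit 76) (nat_lit 31533731571) (nat_lit 152) (nat_lit 257248103366) (nat_lit 9) (nat_lit 5) (nat_lit 10) (nat_lit 5) (nat_lit 11) (nat_lit 4) (nat_lit 416) (nat_lit 326) (nat_lit 158)) (XT.lf (nat_lit 0) (nat_lit 78011757134) (nat_lit 152) (nat_lit 228479483190) (nat_lit 0) (nat_lit 5912381132) (nat_lit 9) (nat_lit 5) (nat_lit 11) (nat_lit 4) (nat_lit 9) (nat_lit 4) (nat_lit 417) (nat_lit 326) (nat_lit 157)))) (XT.nd (nat_lit 78) (nat_lit 0) (nat_lit 0) (XT.lf (nat_lit 0) (nat_lit 116270456859) (nat_lit 152)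 (nat_lit 165680860724) (nat_lit 0) (nat_lit 44170179628) (nat_lit 9) (nat_lit 5) (nat_lit 11) (nat_lit 4) (nat_lit 9) (nat_lit 4) (nat_lit 418) (nat_lit 326) (nat_lit 156)) (XT.nd (nat_lit 78) (nat_lit 0) (nat_lit 0) (XT.lf (nat_lit 0) (nat_lit 156441165798) (nat_lit 152) (nat_lit 99744117089) (nat_lit 0) (nat_lit 84340030256) (nat_lit 9) (nat_lit 5) (nat_lit 11) (nat_lit 4) (nat_lit 9) (nat_lit 4) (nat_lit 419) (nat_lit 326) (nat_lit 155)) (XT.lf (nat_lit 0) (nat_lit 198619528498) (nat_lit 152) (nat_lit 30512260037) (nat_lit 0) (nat_lit 126517575515) (nat_lit 9) (nat_lit 5) (nat_lit 11) (nat_lit 4) (nat_lit 9) (nat_lit 4) (nat_lit 420) (nat_lit 326) (nat_lit 154)))))) (XT.nd (nat_lit 468) (nat_lit 0) (nat_lit 0) (XT.nd (nat_lit 234) (nat_lit 152) (nat_lit 0) (XT.nd (nat_lit 78) (nat_lit 0) (nat_lit 0) (XT.lf (nat_lit 0) (nat_lit 43574194537) (nat_lit 76) (nat_lit 200012090387) (nat_lit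 76) (nat_lit 127909358890) (nat_lit 8) (nat_lit 4) (nat_lit 9) (nat_lit 5) (nat_lit 9) (nat_lit 4) (nat_lit 421) (nat_lit 326) (nat_lit 153)) (XT.nd (nat_lit 78) (nat_lit 0) (nat_lit 0) (XT.lf (nat_lit 0) (nat_lit 122422673408) (nat_lit 76) (nat_lit 168894620719) (nat_lit 76) (nat_lit 96791147779) (nat_lit 8) (nat_lit 4) (nat_lit 9) (nat_lit 5) (nat_lit 9) (nat_lit 4) (nat_lit 422) (nat_lit 326) (nat_lit 152)) (XT.lf (nat_lit 0) (nat_lit 205212037935) (nat_lit 76) (nat_lit 136222030204) (nat_lit 76) (nat_lit 64117851128) (nat_lit 8) (nat_lit 4) (nat_lit 9) (nat_lit 5) (nat_lit 9) (nat_lit 4) (nat_lit 423) (nat_lit 326) (nat_lit 151)))) (XT.nd (nat_lit 78) (nat_lit 152) (nat_lit 0) (XT.lf (nat_lit 0) (nat_lit 292139405651) (nat_lit 76) (nat_lit 101916526960) (nat_lit 76) (nat_lit 29811675374) (nat_lit 8) (nat_lit 4) (nat_lit 9) (nat_lit 5) (nat_lit 9) (nat_lit 4) (nat_lit 424) (nat_lit 326)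 (nat_lit 150)) (XT.nd (nat_lit 78) (nat_lit 76) (nat_lit 0) (XT.lf (nat_lit 0) (nat_lit 6010332129) (nat_lit 152) (nat_lit 59784311206) (nat_lit 76) (nat_lit 377299626469) (nat_lit 7) (nat_lit 5) (nat_lit 9) (nat_lit 5) (nat_lit 8) (nat_lit 4) (nat_lit 425) (nat_lit 326) (nat_lit 149)) (XT.lf (nat_lit 0) (nat_lit 15771493052) (nat_lit 76) (nat_lit 27095626513) (nat_lit 152) (nat_lit 420378432049) (nat_lit 6) (nat_lit 5) (nat_lit 7) (nat_lit 5) (nat_lit 8) (nat_lit 4) (nat_lit 426) (nat_lit 326) (nat_lit 148))))) (XT.nd (nat_lit 234) (nat_lit 0) (nat_lit 0) (XT.nd (nat_lit 78) (nat_lit 0) (nat_lit 0) (XT.lf (nat_lit 0) (nat_lit 82806504067) (nat_lit 152) (nat_lit 387402432988) (nat_lit 0) (nat_lit 14133472640) (nat_lit 6) (nat_lit 5) (nat_lit 8) (nat_lit 4) (nat_lit 6) (nat_lit 4) (nat_lit 427) (nat_lit 326) (nat_lit 147)) (XT.nd (nat_lit 78) (nat_lit 0) (nat_lit 0) (XT.lf (nat_lit 0) (nat_lit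 125186393188) (nat_lit 152) (nat_lit 324772705952) (nat_lit 0) (nat_lit 56512834832) (nat_lit 6) (nat_lit 5) (nat_lit 8) (nat_lit 4) (nat_lit 6) (nat_lit 4) (nat_lit 428) (nat_lit 326) (nat_lit 146)) (XT.lf (nat_lit 0) (nat_lit 169684652761) (nat_lit 152) (nat_lit 259012720391) (nat_lit 0) (nat_lit 101010592568) (nat_lit 6) (nat_lit 5) (nat_lit 8) (nat_lit 4) (nat_lit 6) (nat_lit 4) (nat_lit 429) (nat_lit 326) (nat_lit 145)))) (XT.nd (nat_lit 78) (nat_lit 0) (nat_lit 0) (XT.lf (nat_lit 0) (nat_lit 216407231025) (nat_lit 152) (nat_lit 189965904912) (nat_lit 0) (nat_lit 147732692891) (nat_lit 6) (nat_lit 5) (nat_lit 8) (nat_lit 4) (nat_lit 6) (nat_lit 4) (nat_lit 430) (nat_lit 326) (nat_lit 144)) (XT.nd (nat_lit 78) (nat_lit 0) (nat_lit 0) (XT.lf (nat_lit 0) (nat_lit 265465372212) (nat_lit 152) (nat_lit 117467862334) (nat_lit 0) (nat_lit 196790378897) (nat_lit 6) (nat_lit 5) (nat_lit 8) (nat_lit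 4) (nat_lit 6) (nat_lit 4) (nat_lit 431) (nat_lit 326) (nat_lit 143)) (XT.lf (nat_lit 0) (nat_lit 316975881421) (nat_lit 152) (nat_lit 41345978269) (nat_lit 0) (nat_lit 248300454600) (nat_lit 6) (nat_lit 5) (nat_lit 8) (nat_lit 4) (nat_lit 6) (nat_lit 4) (nat_lit 432) (nat_lit 326) (nat_lit 142))))))) (XT.nd (nat_lit 39312) (nat_lit 0) (nat_lit 5548) (XT.nd (nat_lit 38844) (nat_lit 0) (nat_lit 7752) (XT.nd (nat_lit 38610) (nat_lit 0) (nat_lit 8512) (XT.nd (nat_lit 78) (nat_lit 0) (nat_lit 0) (XT.lf (nat_lit 0) (nat_lit 39856651622) (nat_lit 76) (nat_lit 331827025129) (nat_lit 76) (nat_lit 263151185445) (nat_lit 5) (nat_lit 4) (nat_lit 6) (nat_lit 5) (nat_lit 6) (nat_lit 4) (nat_lit 433) (nat_lit 326) (nat_lit 141)) (XT.nd (nat_lit 78) (nat_lit 0) (nat_lit 0) (XT.lf (nat_lit 0) (nat_lit 126553858169) (nat_lit 76) (nat_lit 303272713387) (nat_lit 76) (nat_lit 234596480500) (nat_lit 5) (nat_lit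 4) (nat_lit 6) (nat_lit 5) (nat_lit 6) (nat_lit 4) (nat_lit 434) (nat_lit 326) (nat_lit 140)) (XT.lf (nat_lit 0) (nat_lit 217584978525) (nat_lit 76) (nat_lit 273291152158) (nat_lit 76) (nat_lit 204614544792) (nat_lit 5) (nat_lit 4) (nat_lit 6) (nat_lit 5) (nat_lit 6) (nat_lit 4) (nat_lit 435) (nat_lit 326) (nat_lit 139)))) (XT.nd (nat_lit 78) (nat_lit 0) (nat_lit 0) (XT.lf (nat_lit 0) (nat_lit 3547837185) (nat_lit 0) (nat_lit 3547837185) (nat_lit 684) (nat_lit 601600195) (nat_lit 117) (nat_lit 5) (nat_lit 117) (nat_lit 3) (nat_lit 126) (nat_lit 3) (nat_lit 327) (nat_lit 327) (nat_lit 246)) (XT.nd (nat_lit 78) (nat_lit 0) (nat_lit 0) (XT.lf (nat_lit 0) (nat_lit 14816284617) (nat_lit 684) (nat_lit 936614236) (nat_lit 760) (nat_lit 12756505) (nat_lit 117) (nat_lit 5) (nat_lit 126) (nat_lit 3) (nat_lit 127) (nat_lit 5) (nat_lit 328) (nat_lit 327) (nat_lit 245)) (XT.lf (nat_lit 76) (nat_lit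 6888248909) (nat_lit 0) (nat_lit 8790940728) (nat_lit 760) (nat_lit 465807137) (nat_lit 118) (nat_lit 5) (nat_lit 117) (nat_lit 5) (nat_lit 127) (nat_lit 5) (nat_lit 329) (nat_lit 327) (nat_lit 244))))) (XT.nd (nat_lit 234) (nat_lit 0) (nat_lit 152) (XT.nd (nat_lit 78) (nat_lit 0) (nat_lit 76) (XT.lf (nat_lit 0) (nat_lit 39952740) (nat_lit 760) (nat_lit 1416622431) (nat_lit 836) (nat_lit 15086743849) (nat_lit 107) (nat_lit 5) (nat_lit 117) (nat_lit 5) (nat_lit 118) (nat_lit 5) (nat_lit 330) (nat_lit 327) (nat_lit 243)) (XT.nd (nat_lit 78) (nat_lit 0) (nat_lit 0) (XT.lf (nat_lit 0) (nat_lit 748549119) (nat_lit 760) (nat_lit 10032954974) (nat_lit 836) (nat_lit 6170025160) (nat_lit 108) (nat_lit 5) (nat_lit 118) (nat_lit 5) (nat_lit 119) (nat_lit 5) (nat_lit 331) (nat_lit 327) (nat_lit 242)) (XT.lf (nat_lit 0) (nat_lit 1525579742) (nat_lit 760) (nat_lit 1693816127) (nat_lit 836) (nat_lit 14159117069)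 (nat_lit 108) (nat_lit 5) (nat_lit 118) (nat_lit 5) (nat_lit 119) (nat_lit 5) (nat_lit 332) (nat_lit 327) (nat_lit 241)))) (XT.nd (nat_lit 78) (nat_lit 0) (nat_lit 0) (XT.lf (nat_lit 0) (nat_lit 2516323120) (nat_lit 760) (nat_lit 10611891129) (nat_lit 836) (nat_lit 4689901030) (nat_lit 109) (nat_lit 5) (nat_lit 119) (nat_lit 5) (nat_lit 120) (nat_lit 5) (nat_lit 333) (nat_lit 327) (nat_lit 240)) (XT.nd (nat_lit 78) (nat_lit 0) (nat_lit 76) (XT.lf (nat_lit 0) (nat_lit 3624613598) (nat_lit 760) (nat_lit 1731875631) (nat_lit 836) (nat_lit 12919819950) (nat_lit 109) (nat_lit 5) (nat_lit 119) (nat_lit 5) (nat_lit 120) (nat_lit 5) (nat_lit 334) (nat_lit 327) (nat_lit 239)) (XT.lf (nat_lit 0) (nat_lit 4943184420) (nat_lit 760) (nat_lit 10964902042) (nat_lit 836) (nat_lit 2841594386) (nat_lit 110) (nat_lit 5) (nat_lit 120) (nat_lit 5) (nat_lit 121) (nat_lit 5) (nat_lit 335) (nat_lit 327) (nat_lit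 238)))))) (XT.nd (nat_lit 468) (nat_lit 1368) (nat_lit 0) (XT.nd (nat_lit 234) (nat_lit 1064) (nat_lit 0) (XT.nd (nat_lit 78) (nat_lit 0) (nat_lit 76) (XT.lf (nat_lit 0) (nat_lit 6432571752) (nat_lit 760) (nat_lit 1506630225) (nat_lit 836) (nat_lit 11302285555) (nat_lit 110) (nat_lit 5) (nat_lit 120) (nat_lit 5) (nat_lit 121) (nat_lit 5) (nat_lit 336) (nat_lit 327) (nat_lit 237)) (XT.nd (nat_lit 78) (nat_lit 0) (nat_lit 0) (XT.lf (nat_lit 0) (nat_lit 8128962271) (nat_lit 760) (nat_lit 11067856333) (nat_lit 76) (nat_lit 554449564) (nat_lit 111) (nat_lit 5) (nat_lit 121) (nat_lit 5) (nat_lit 112) (nat_lit 5) (nat_lit 337) (nat_lit 327) (nat_lit 236)) (XT.lf (nat_lit 0) (nat_lit 10054582779) (nat_lit 760) (nat_lit 991009359) (nat_lit 76) (nat_lit 9233734998) (nat_lit 111) (nat_lit 5) (nat_lit 121) (nat_lit 5) (nat_lit 112) (nat_lit 5) (nat_lit 338) (nat_lit 327) (nat_lit 235)))) (XT.nd (nat_lit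 78) (nat_lit 380) (nat_lit 0) (XT.lf (nat_lit 0) (nat_lit 9896485537) (nat_lit 760) (nat_lit 2323392373) (nat_lit 836) (nat_lit 8606750814) (nat_lit 101) (nat_lit 5) (nat_lit 111) (nat_lit 5) (nat_lit 112) (nat_lit 5) (nat_lit 339) (nat_lit 327) (nat_lit 234)) (XT.nd (nat_lit 78) (nat_lit 380) (nat_lit 0) (XT.lf (nat_lit 0) (nat_lit 14606481751) (nat_lit 836) (nat_lit 155027127) (nat_lit 76) (nat_lit 6634143222) (nat_lit 101) (nat_lit 5) (nat_lit 112) (nat_lit 5) (nat_lit 102) (nat_lit 5) (nat_lit 340) (nat_lit 327) (nat_lit 233)) (XT.lf (nat_lit 0) (nat_lit 11478281275) (nat_lit 380) (nat_lit 5841215219) (nat_lit 456) (nat_lit 4663284600) (nat_lit 96) (nat_lit 5) (nat_lit 101) (nat_lit 5) (nat_lit 102) (nat_lit 5) (nat_lit 341) (nat_lit 327) (nat_lit 232))))) (XT.nd (nat_lit 234) (nat_lit 608) (nat_lit 0) (XT.nd (nat_lit 78) (nat_lit 456) (nat_lit 0) (XT.lf (nat_lit 0) (nat_lit 1068420643)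 (nat_lit 304) (nat_lit 19164249694) (nat_lit 380) (nat_lit 2363378860) (nat_lit 92) (nat_lit 5) (nat_lit 96) (nat_lit 5) (nat_lit 97) (nat_lit 5) (nat_lit 342) (nat_lit 327) (nat_lit 231)) (XT.nd (nat_lit 78) (nat_lit 380) (nat_lit 0) (XT.lf (nat_lit 0) (nat_lit 316717645) (nat_lit 380) (nat_lit 9756246930) (nat_lit 76) (nat_lit 13153641014) (nat_lit 91) (nat_lit 5) (nat_lit 96) (nat_lit 5) (nat_lit 92) (nat_lit 5) (nat_lit 343) (nat_lit 327) (nat_lit 230)) (XT.lf (nat_lit 0) (nat_lit 2639573752) (nat_lit 380) (nat_lit 443766316) (nat_lit 456) (nat_lit 20801822210) (nat_lit 86) (nat_lit 5) (nat_lit 91) (nat_lit 5) (nat_lit 92) (nat_lit 5) (nat_lit 344) (nat_lit 327) (nat_lit 229)))) (XT.nd (nat_lit 156) (nat_lit 304) (nat_lit 0) (XT.nd (nat_lit 78) (nat_lit 304) (nat_lit 0) (XT.lf (nat_lit 0) (nat_lit 6298169390) (nat_lit 456) (nat_lit 8738274768) (nat_lit 76) (nat_lit 9524715502) (nat_lit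 86) (nat_lit 5) (nat_lit 92) (nat_lit 5) (nat_lit 87) (nat_lit 5) (nat_lit 345) (nat_lit 327) (nat_lit 228)) (XT.lf (nat_lit 0) (nat_lit 4522198187) (nat_lit 304) (nat_lit 5220862087) (nat_lit 380) (nat_lit 15524436962) (nat_lit 82) (nat_lit 5) (nat_lit 86) (nat_lit 5) (nat_lit 87) (nat_lit 5) (nat_lit 346) (nat_lit 327) (nat_lit 227))) (XT.nd (nat_lit 78) (nat_lit 304) (nat_lit 0) (XT.lf (nat_lit 0) (nat_lit 13581688640) (nat_lit 380) (nat_lit 7344425606) (nat_lit 76) (nat_lit 5071968826) (nat_lit 82) (nat_lit 5) (nat_lit 87) (nat_lit 5) (nat_lit 83) (nat_lit 5) (nat_lit 347) (nat_lit 327) (nat_lit 226)) (XT.lf (nat_lit 0) (nat_lit 6850725498) (nat_lit 304) (nat_lit 10946147108) (nat_lit 380) (nat_lit 8959100127) (nat_lit 78) (nat_lit 5) (nat_lit 82) (nat_lit 5) (nat_lit 83) (nat_lit 5) (nat_lit 348) (nat_lit 327) (nat_lit 225))))))))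
noncomputable def xc169 : XT := (XT.nd (nat_lit 1950) (nat_lit 1596) (nat_lit 0) (XT.nd (nat_lit 936) (nat_lit 1368) (nat_lit 0) (XT.nd (nat_lit 468) (nat_lit 760) (nat_lit 0) (XT.nd (nat_lit 234) (nat_lit 532) (nat_lit 0) (XT.nd (nat_lit 78) (nat_lit 304) (nat_lit 0) (XT.lf (nat_lit 0) (nat_lit 22001324249) (nat_lit 304) (nat_lit 338182383) (nat_lit 380) (nat_lit 5206421171) (nat_lit 78) (nat_lit 5) (nat_lit 82) (nat_lit 5) (nat_lit 83) (nat_lit 5) (nat_lit 349) (nat_lit 327) (nat_lit 224)) (XT.nd (nat_lit 78) (nat_lit 76) (nat_lit 0) (XT.lf (nat_lit 0) (nat_lit 9665614314) (nat_lit 228) (nat_lit 17755838323) (nat_lit 304) (nat_lit 938324183) (nat_lit 75) (nat_lit 5) (nat_lit 78) (nat_lit 5) (nat_lit 79) (nat_lit 5) (nat_lit 350) (nat_lit 327) (nat_lit 223)) (XT.lf (nat_lit 0) (nat_lit 3523496373) (nat_lit 304) (nat_lit 3452479739) (nat_lit 76) (nat_lit 22230894826) (nat_lit 74) (nat_lit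 5) (nat_lit 78) (nat_lit 5) (nat_lit 75) (nat_lit 5) (nat_lit 351) (nat_lit 327) (nat_lit 222)))) (XT.nd (nat_lit 78) (nat_lit 228) (nat_lit 0) (XT.lf (nat_lit 0) (nat_lit 8443346559) (nat_lit 380) (nat_lit 17215882299) (nat_lit 76) (nat_lit 4423002662) (nat_lit 70) (nat_lit 5) (nat_lit 75) (nat_lit 5) (nat_lit 71) (nat_lit 5) (nat_lit 352) (nat_lit 327) (nat_lit 221)) (XT.nd (nat_lit 78) (nat_lit 228) (nat_lit 0) (XT.lf (nat_lit 0) (nat_lit 13776224236) (nat_lit 380) (nat_lit 1001791010) (nat_lit 76) (nat_lit 16214997422) (nat_lit 70) (nat_lit 5) (nat_lit 75) (nat_lit 5) (nat_lit 71) (nat_lit 5) (nat_lit 353) (nat_lit 327) (nat_lit 220)) (XT.lf (nat_lit 0) (nat_lit 16543925689) (nat_lit 228) (nat_lit 3083685521) (nat_lit 304) (nat_lit 12309132472) (nat_lit 67) (nat_lit 5) (nat_lit 70) (nat_lit 5) (nat_lit 71) (nat_lit 5) (nat_lit 354) (nat_lit 327) (nat_lit 219))))) (XT.nd (nat_lit 234)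 (nat_lit 228) (nat_lit 0) (XT.nd (nat_lit 78) (nat_lit 304) (nat_lit 0) (XT.lf (nat_lit 0) (nat_lit 1985880176) (nat_lit 228) (nat_lit 23971210294) (nat_lit 304) (nat_lit 6961298517) (nat_lit 64) (nat_lit 5) (nat_lit 67) (nat_lit 5) (nat_lit 68) (nat_lit 5) (nat_lit 355) (nat_lit 327) (nat_lit 218)) (XT.nd (nat_lit 78) (nat_lit 304) (nat_lit 0) (XT.lf (nat_lit 0) (nat_lit 20707102171) (nat_lit 228) (nat_lit 12200237155) (nat_lit 304) (nat_lit 1026566151) (nat_lit 64) (nat_lit 5) (nat_lit 67) (nat_lit 5) (nat_lit 68) (nat_lit 5) (nat_lit 356) (nat_lit 327) (nat_lit 217)) (XT.lf (nat_lit 0) (nat_lit 5122628797) (nat_lit 304) (nat_lit 29548413619) (nat_lit 76) (nat_lit 320879808) (nat_lit 60) (nat_lit 5) (nat_lit 64) (nat_lit 5) (nat_lit 61) (nat_lit 5) (nat_lit 357) (nat_lit 327) (nat_lit 216)))) (XT.nd (nat_lit 78) (nat_lit 228) (nat_lit 0) (XT.lf (nat_lit 0) (nat_lit 11966644395) (nat_lit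 304) (nat_lit 10814104014) (nat_lit 76) (nat_lit 13300160136) (nat_lit 60) (nat_lit 5) (nat_lit 64) (nat_lit 5) (nat_lit 61) (nat_lit 5) (nat_lit 358) (nat_lit 327) (nat_lit 215)) (XT.nd (nat_lit 78) (nat_lit 0) (nat_lit 0) (XT.lf (nat_lit 0) (nat_lit 9141407812) (nat_lit 228) (nat_lit 10148634893) (nat_lit 304) (nat_lit 17927445425) (nat_lit 57) (nat_lit 5) (nat_lit 60) (nat_lit 5) (nat_lit 61) (nat_lit 5) (nat_lit 359) (nat_lit 327) (nat_lit 214)) (XT.lf (nat_lit 0) (nat_lit 27208948967) (nat_lit 304) (nat_lit 7991438399) (nat_lit 76) (nat_lit 3199045328) (nat_lit 57) (nat_lit 5) (nat_lit 61) (nat_lit 5) (nat_lit 58) (nat_lit 5) (nat_lit 360) (nat_lit 327) (nat_lit 213)))))) (XT.nd (nat_lit 468) (nat_lit 608) (nat_lit 0) (XT.nd (nat_lit 234) (nat_lit 304) (nat_lit 0) (XT.nd (nat_lit 78) (nat_lit 304) (nat_lit 0) (XT.lf (nat_lit 0) (nat_lit 13350558382) (nat_lit 152) (nat_lit 22542870402)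 (nat_lit 228) (nat_lit 3728567051) (nat_lit 55) (nat_lit 5) (nat_lit 57) (nat_lit 5) (nat_lit 58) (nat_lit 5) (nat_lit 361) (nat_lit 327) (nat_lit 212)) (XT.nd (nat_lit 78) (nat_lit 228) (nat_lit 0) (XT.lf (nat_lit 0) (nat_lit 4107430082) (nat_lit 228) (nat_lit 4936006260) (nat_lit 76) (nat_lit 31852426813) (nat_lit 54) (nat_lit 5) (nat_lit 57) (nat_lit 5) (nat_lit 55) (nat_lit 5) (nat_lit 362) (nat_lit 327) (nat_lit 211)) (XT.lf (nat_lit 0) (nat_lit 12571303498) (nat_lit 304) (nat_lit 24329419692) (nat_lit 76) (nat_lit 5311577800) (nat_lit 51) (nat_lit 5) (nat_lit 55) (nat_lit 5) (nat_lit 52) (nat_lit 5) (nat_lit 363) (nat_lit 327) (nat_lit 210)))) (XT.nd (nat_lit 78) (nat_lit 304) (nat_lit 0) (XT.lf (nat_lit 0) (nat_lit 21686769419) (nat_lit 304) (nat_lit 1733484451) (nat_lit 76) (nat_lit 20162889175) (nat_lit 51) (nat_lit 5) (nat_lit 55) (nat_lit 5) (nat_lit 52) (nat_lit 5) (nat_lit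 364) (nat_lit 327) (nat_lit 209)) (XT.nd (nat_lit 78) (nat_lit 152) (nat_lit 0) (XT.lf (nat_lit 0) (nat_lit 22711972310) (nat_lit 152) (nat_lit 8896045043) (nat_lit 228) (nat_lit 13397011579) (nat_lit 49) (nat_lit 5) (nat_lit 51) (nat_lit 5) (nat_lit 52) (nat_lit 5) (nat_lit 365) (nat_lit 327) (nat_lit 208)) (XT.lf (nat_lit 0) (nat_lit 1897102062) (nat_lit 152) (nat_lit 40282371410) (nat_lit 228) (nat_lit 4310830414) (nat_lit 47) (nat_lit 5) (nat_lit 49) (nat_lit 5) (nat_lit 50) (nat_lit 5) (nat_lit 366) (nat_lit 327) (nat_lit 207))))) (XT.nd (nat_lit 234) (nat_lit 380) (nat_lit 0) (XT.nd (nat_lit 78) (nat_lit 152) (nat_lit 0) (XT.lf (nat_lit 0) (nat_lit 5587355551) (nat_lit 228) (nat_lit 20201210500) (nat_lit 76) (nat_lit 22230942047) (nat_lit 46) (nat_lit 5) (nat_lit 49) (nat_lit 5) (nat_lit 47) (nat_lit 5) (nat_lit 367) (nat_lit 327) (nat_lit 206)) (XT.nd (nat_lit 78) (nat_lit 0) (nat_lit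 0) (XT.lf (nat_lit 0) (nat_lit 5509081107) (nat_lit 152) (nat_lit 10408231419) (nat_lit 228) (nat_lit 33700241613) (nat_lit 44) (nat_lit 5) (nat_lit 46) (nat_lit 5) (nat_lit 47) (nat_lit 5) (nat_lit 368) (nat_lit 327) (nat_lit 205)) (XT.lf (nat_lit 0) (nat_lit 27196905107) (nat_lit 228) (nat_lit 18174424331) (nat_lit 76) (nat_lit 5902517852) (nat_lit 44) (nat_lit 5) (nat_lit 47) (nat_lit 5) (nat_lit 45) (nat_lit 5) (nat_lit 369) (nat_lit 327) (nat_lit 204)))) (XT.nd (nat_lit 156) (nat_lit 228) (nat_lit 0) (XT.nd (nat_lit 78) (nat_lit 0) (nat_lit 0) (XT.lf (nat_lit 0) (nat_lit 9172602559) (nat_lit 152) (nat_lit 30177689657) (nat_lit 228) (nat_lit 13647173752) (nat_lit 42) (nat_lit 5) (nat_lit 44) (nat_lit 5) (nat_lit 45) (nat_lit 5) (nat_lit 370) (nat_lit 327) (nat_lit 203)) (XT.lf (nat_lit 0) (nat_lit 38511385413) (nat_lit 152) (nat_lit 13903822998) (nat_lit 228) (nat_lit 2376865721) (nat_lit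 42) (nat_lit 5) (nat_lit 44) (nat_lit 5) (nat_lit 45) (nat_lit 5) (nat_lit 371) (nat_lit 327) (nat_lit 202))) (XT.nd (nat_lit 78) (nat_lit 0) (nat_lit 0) (XT.lf (nat_lit 0) (nat_lit 9407254193) (nat_lit 228) (nat_lit 43815015408) (nat_lit 76) (nat_lit 3434113109) (nat_lit 39) (nat_lit 5) (nat_lit 42) (nat_lit 5) (nat_lit 40) (nat_lit 5) (nat_lit 372) (nat_lit 327) (nat_lit 201)) (XT.lf (nat_lit 0) (nat_lit 22205109601) (nat_lit 228) (nat_lit 14893211825) (nat_lit 76) (nat_lit 21488417979) (nat_lit 39) (nat_lit 5) (nat_lit 42) (nat_lit 5) (nat_lit 40) (nat_lit 5) (nat_lit 373) (nat_lit 327) (nat_lit 200))))))) (XT.nd (nat_lit 936) (nat_lit 760) (nat_lit 0) (XT.nd (nat_lit 468) (nat_lit 380) (nat_lit 0) (XT.nd (nat_lit 234) (nat_lit 152) (nat_lit 0) (XT.nd (nat_lit 78) (nat_lit 152) (nat_lit 0) (XT.lf (nat_lit 0) (nat_lit 15980019014) (nat_lit 152) (nat_lit 19908745821) (nat_lit 228) (nat_lit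 24712555012) (nat_lit 37) (nat_lit 5) (nat_lit 39) (nat_lit 5) (nat_lit 40) (nat_lit 5) (nat_lit 374) (nat_lit 327) (nat_lit 199)) (XT.nd (nat_lit 78) (nat_lit 152) (nat_lit 0) (XT.lf (nat_lit 0) (nat_lit 48907945517) (nat_lit 152) (nat_lit 1597371931) (nat_lit 228) (nat_lit 12198877337) (nat_lit 37) (nat_lit 5) (nat_lit 39) (nat_lit 5) (nat_lit 40) (nat_lit 5) (nat_lit 375) (nat_lit 327) (nat_lit 198)) (XT.lf (nat_lit 0) (nat_lit 1486524836) (nat_lit 152) (nat_lit 46014194032) (nat_lit 76) (nat_lit 17381954417) (nat_lit 35) (nat_lit 5) (nat_lit 37) (nat_lit 5) (nat_lit 36) (nat_lit 5) (nat_lit 376) (nat_lit 327) (nat_lit 197)))) (XT.nd (nat_lit 78) (nat_lit 152) (nat_lit 0) (XT.lf (nat_lit 0) (nat_lit 15706533742) (nat_lit 152) (nat_lit 13748859004) (nat_lit 76) (nat_lit 37691669980) (nat_lit 35) (nat_lit 5) (nat_lit 37) (nat_lit 5) (nat_lit 36) (nat_lit 5) (nat_lit 377) (nat_lit 327)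 (nat_lit 196)) (XT.nd (nat_lit 78) (nat_lit 0) (nat_lit 0) (XT.lf (nat_lit 0) (nat_lit 20789531776) (nat_lit 152) (nat_lit 10169390408) (nat_lit 228) (nat_lit 38549681493) (nat_lit 33) (nat_lit 5) (nat_lit 35) (nat_lit 5) (nat_lit 36) (nat_lit 5) (nat_lit 378) (nat_lit 327) (nat_lit 195)) (XT.lf (nat_lit 0) (nat_lit 47364807580) (nat_lit 228) (nat_lit 14611252570) (nat_lit 76) (nat_lit 9992618591) (nat_lit 33) (nat_lit 5) (nat_lit 36) (nat_lit 5) (nat_lit 34) (nat_lit 4) (nat_lit 379) (nat_lit 327) (nat_lit 194))))) (XT.nd (nat_lit 234) (nat_lit 76) (nat_lit 0) (XT.nd (nat_lit 78) (nat_lit 228) (nat_lit 0) (XT.lf (nat_lit 0) (nat_lit 21725221445) (nat_lit 76) (nat_lit 43368645430) (nat_lit 152) (nat_lit 9432747602) (nat_lit 32) (nat_lit 5) (nat_lit 33) (nat_lit 5) (nat_lit 34) (nat_lit 4) (nat_lit 380) (nat_lit 327) (nat_lit 193)) (XT.nd (nat_lit 78) (nat_lit 152) (nat_lit 0) (XT.lf (nat_lit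 0) (nat_lit 6537483749) (nat_lit 152) (nat_lit 16925159092) (nat_lit 76) (nat_lit 53732308507) (nat_lit 31) (nat_lit 5) (nat_lit 33) (nat_lit 5) (nat_lit 32) (nat_lit 5) (nat_lit 381) (nat_lit 327) (nat_lit 192)) (XT.lf (nat_lit 0) (nat_lit 21265763307) (nat_lit 152) (nat_lit 2052611588) (nat_lit 228) (nat_lit 56654141665) (nat_lit 29) (nat_lit 5) (nat_lit 31) (nat_lit 5) (nat_lit 32) (nat_lit 5) (nat_lit 382) (nat_lit 327) (nat_lit 191)))) (XT.nd (nat_lit 78) (nat_lit 76) (nat_lit 0) (XT.lf (nat_lit 0) (nat_lit 41545737615) (nat_lit 228) (nat_lit 21249578136) (nat_lit 76) (nat_lit 20063273670) (nat_lit 29) (nat_lit 5) (nat_lit 32) (nat_lit 5) (nat_lit 30) (nat_lit 4) (nat_lit 383) (nat_lit 327) (nat_lit 190)) (XT.nd (nat_lit 78) (nat_lit 0) (nat_lit 0) (XT.lf (nat_lit 0) (nat_lit 18638449356) (nat_lit 76) (nat_lit 42367957589) (nat_lit 152) (nat_lit 24866462761) (nat_lit 28) (nat_lit 5)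 (nat_lit 29) (nat_lit 5) (nat_lit 30) (nat_lit 4) (nat_lit 384) (nat_lit 327) (nat_lit 189)) (XT.lf (nat_lit 0) (nat_lit 61253790900) (nat_lit 76) (nat_lit 20543535095) (nat_lit 152) (nat_lit 7222677868) (nat_lit 28) (nat_lit 5) (nat_lit 29) (nat_lit 5) (nat_lit 30) (nat_lit 4) (nat_lit 385) (nat_lit 327) (nat_lit 188)))))) (XT.nd (nat_lit 468) (nat_lit 304) (nat_lit 0) (XT.nd (nat_lit 234) (nat_lit 152) (nat_lit 0) (XT.nd (nat_lit 78) (nat_lit 76) (nat_lit 0) (XT.lf (nat_lit 0) (nat_lit 11200061503) (nat_lit 228) (nat_lit 78407952167) (nat_lit 76) (nat_lit 2694730795) (nat_lit 25) (nat_lit 5) (nat_lit 28) (nat_lit 5) (nat_lit 26) (nat_lit 4) (nat_lit 386) (nat_lit 327) (nat_lit 187)) (XT.nd (nat_lit 78) (nat_lit 76) (nat_lit 0) (XT.lf (nat_lit 0) (nat_lit 31113377523) (nat_lit 228) (nat_lit 37590874073) (nat_lit 76) (nat_lit 26998842403) (nat_lit 25) (nat_lit 5) (nat_lit 28) (nat_lit 5)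 (nat_lit 26) (nat_lit 4) (nat_lit 387) (nat_lit 327) (nat_lit 186)) (XT.lf (nat_lit 0) (nat_lit 5436587287) (nat_lit 76) (nat_lit 46668220747) (nat_lit 152) (nat_lit 47164531092) (nat_lit 24) (nat_lit 5) (nat_lit 25) (nat_lit 5) (nat_lit 26) (nat_lit 4) (nat_lit 388) (nat_lit 327) (nat_lit 185)))) (XT.nd (nat_lit 78) (nat_lit 152) (nat_lit 0) (XT.lf (nat_lit 0) (nat_lit 51916088781) (nat_lit 76) (nat_lit 22863956306) (nat_lit 152) (nat_lit 28202140198) (nat_lit 24) (nat_lit 5) (nat_lit 25) (nat_lit 5) (nat_lit 26) (nat_lit 4) (nat_lit 389) (nat_lit 327) (nat_lit 184)) (XT.nd (nat_lit 78) (nat_lit 152) (nat_lit 0) (XT.lf (nat_lit 0) (nat_lit 98620006315) (nat_lit 152) (nat_lit 6198649374) (nat_lit 0) (nat_lit 2060470447) (nat_lit 24) (nat_lit 5) (nat_lit 26) (nat_lit 4) (nat_lit 24) (nat_lit 4) (nat_lit 390) (nat_lit 327) (nat_lit 183)) (XT.lf (nat_lit 0) (nat_lit 13318394313) (nat_lit 152)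 (nat_lit 69260917333) (nat_lit 76) (nat_lit 28329542721) (nat_lit 22) (nat_lit 5) (nat_lit 24) (nat_lit 5) (nat_lit 23) (nat_lit 4) (nat_lit 391) (nat_lit 327) (nat_lit 182))))) (XT.nd (nat_lit 234) (nat_lit 228) (nat_lit 0) (XT.nd (nat_lit 78) (nat_lit 76) (nat_lit 0) (XT.lf (nat_lit 0) (nat_lit 35801736221) (nat_lit 152) (nat_lit 23173961477) (nat_lit 76) (nat_lit 56152376341) (nat_lit 22) (nat_lit 5) (nat_lit 24) (nat_lit 5) (nat_lit 23) (nat_lit 4) (nat_lit 392) (nat_lit 327) (nat_lit 181)) (XT.nd (nat_lit 78) (nat_lit 0) (nat_lit 0) (XT.lf (nat_lit 0) (nat_lit 26047126353) (nat_lit 76) (nat_lit 33766706164) (nat_lit 152) (nat_lit 59724193225) (nat_lit 21) (nat_lit 5) (nat_lit 22) (nat_lit 5) (nat_lit 23) (nat_lit 4) (nat_lit 393) (nat_lit 327) (nat_lit 180)) (XT.lf (nat_lit 0) (nat_lit 78529992349) (nat_lit 76) (nat_lit 6886961595) (nat_lit 152) (nat_lit 38732000463) (nat_lit 21) (nat_lit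 5) (nat_lit 22) (nat_lit 5) (nat_lit 23) (nat_lit 4) (nat_lit 394) (nat_lit 327) (nat_lit 179)))) (XT.nd (nat_lit 156) (nat_lit 76) (nat_lit 0) (XT.nd (nat_lit 78) (nat_lit 76) (nat_lit 0) (XT.lf (nat_lit 0) (nat_lit 4452231711) (nat_lit 76) (nat_lit 108248667129) (nat_lit 76) (nat_lit 16269497669) (nat_lit 20) (nat_lit 4) (nat_lit 21) (nat_lit 5) (nat_lit 21) (nat_lit 4) (nat_lit 395) (nat_lit 327) (nat_lit 178)) (XT.lf (nat_lit 0) (nat_lit 7978147426) (nat_lit 152) (nat_lit 75627019113) (nat_lit 76) (nat_lit 50377224300) (nat_lit 19) (nat_lit 5) (nat_lit 21) (nat_lit 5) (nat_lit 20) (nat_lit 4) (nat_lit 396) (nat_lit 327) (nat_lit 177))) (XT.nd (nat_lit 78) (nat_lit 76) (nat_lit 0) (XT.lf (nat_lit 0) (nat_lit 32889540191) (nat_lit 152) (nat_lit 24561570496) (nat_lit 76) (nat_lit 81780632506) (nat_lit 19) (nat_lit 5) (nat_lit 21) (nat_lit 5) (nat_lit 20) (nat_lit 4) (nat_lit 397) (nat_lit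 327) (nat_lit 176)) (XT.lf (nat_lit 0) (nat_lit 30014427016) (nat_lit 76) (nat_lit 29498901299) (nat_lit 152) (nat_lit 85206893871) (nat_lit 18) (nat_lit 5) (nat_lit 19) (nat_lit 5) (nat_lit 20) (nat_lit 4) (nat_lit 398) (nat_lit 327) (nat_lit 175))))))))
noncomputable def xc170 : XT := (XT.nd (nat_lit 1872) (nat_lit 228) (nat_lit 0) (XT.nd (nat_lit 936) (nat_lit 304) (nat_lit 0) (XT.nd (nat_lit 468) (nat_lit 228) (nat_lit 0) (XT.nd (nat_lit 234) (nat_lit 152) (nat_lit 0) (XT.nd (nat_lit 78) (nat_lit 76) (nat_lit 0) (XT.lf (nat_lit 0) (nat_lit 87886984449) (nat_lit 152) (nat_lit 62298253411) (nat_lit 0) (nat_lit 276953632) (nat_lit 18) (nat_lit 5) (nat_lit 20) (nat_lit 4) (nat_lit 18) (nat_lit 4) (nat_lit 399) (nat_lit 327) (nat_lit 174)) (XT.nd (nat_lit 78) (nat_lit 76) (nat_lit 0) (XT.lf (nat_lit 0) (nat_lit 118161221505) (nat_lit 152) (nat_lit 7757143668) (nat_lit 0) (nat_lit 30548799462)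 (nat_lit 18) (nat_lit 5) (nat_lit 20) (nat_lit 4) (nat_lit 18) (nat_lit 4) (nat_lit 400) (nat_lit 327) (nat_lit 173)) (XT.lf (nat_lit 0) (nat_lit 51144910920) (nat_lit 76) (nat_lit 99601164955) (nat_lit 76) (nat_lit 11986465554) (nat_lit 17) (nat_lit 4) (nat_lit 18) (nat_lit 5) (nat_lit 18) (nat_lit 4) (nat_lit 401) (nat_lit 327) (nat_lit 172)))) (XT.nd (nat_lit 78) (nat_lit 76) (nat_lit 0) (XT.lf (nat_lit 0) (nat_lit 15280038690) (nat_lit 152) (nat_lit 56292788998) (nat_lit 76) (nat_lit 97719547485) (nat_lit 16) (nat_lit 5) (nat_lit 18) (nat_lit 5) (nat_lit 17) (nat_lit 4) (nat_lit 402) (nat_lit 327) (nat_lit 171)) (XT.nd (nat_lit 78) (nat_lit 0) (nat_lit 0) (XT.lf (nat_lit 0) (nat_lit 1619194648) (nat_lit 76) (nat_lit 41911599787) (nat_lit 152) (nat_lit 132638393921) (nat_lit 15) (nat_lit 5) (nat_lit 16) (nat_lit 5) (nat_lit 17) (nat_lit 4) (nat_lit 403) (nat_lit 327) (nat_lit 170)) (XT.lf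 (nat_lit 0) (nat_lit 64378258329) (nat_lit 76) (nat_lit 9767673154) (nat_lit 152) (nat_lit 109196318757) (nat_lit 15) (nat_lit 5) (nat_lit 16) (nat_lit 5) (nat_lit 17) (nat_lit 4) (nat_lit 404) (nat_lit 327) (nat_lit 169))))) (XT.nd (nat_lit 234) (nat_lit 152) (nat_lit 0) (XT.nd (nat_lit 78) (nat_lit 76) (nat_lit 0) (XT.lf (nat_lit 0) (nat_lit 106664823220) (nat_lit 152) (nat_lit 60975930811) (nat_lit 0) (nat_lit 23214561505) (nat_lit 15) (nat_lit 5) (nat_lit 17) (nat_lit 4) (nat_lit 15) (nat_lit 4) (nat_lit 405) (nat_lit 327) (nat_lit 168)) (XT.nd (nat_lit 78) (nat_lit 76) (nat_lit 0) (XT.lf (nat_lit 0) (nat_lit 140968403399) (nat_lit 152) (nat_lit 251251417) (nat_lit 0) (nat_lit 57516442284) (nat_lit 15) (nat_lit 5) (nat_lit 17) (nat_lit 4) (nat_lit 15) (nat_lit 4) (nat_lit 406) (nat_lit 327) (nat_lit 167)) (XT.lf (nat_lit 0) (nat_lit 65606962102) (nat_lit 76) (nat_lit 112403192900) (nat_lit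 76) (nat_lit 28949613309) (nat_lit 14) (nat_lit 4) (nat_lit 15) (nat_lit 5) (nat_lit 15) (nat_lit 4) (nat_lit 407) (nat_lit 327) (nat_lit 166)))) (XT.nd (nat_lit 78) (nat_lit 76) (nat_lit 0) (XT.lf (nat_lit 0) (nat_lit 1270474155) (nat_lit 152) (nat_lit 80850648976) (nat_lit 76) (nat_lit 133472327420) (nat_lit 13) (nat_lit 5) (nat_lit 15) (nat_lit 5) (nat_lit 14) (nat_lit 4) (nat_lit 408) (nat_lit 327) (nat_lit 165)) (XT.nd (nat_lit 78) (nat_lit 76) (nat_lit 0) (XT.lf (nat_lit 0) (nat_lit 32027417998) (nat_lit 152) (nat_lit 17800382104) (nat_lit 76) (nat_lit 174807350330) (nat_lit 13) (nat_lit 5) (nat_lit 15) (nat_lit 5) (nat_lit 14) (nat_lit 4) (nat_lit 409) (nat_lit 327) (nat_lit 164)) (XT.lf (nat_lit 0) (nat_lit 50000424526) (nat_lit 76) (nat_lit 15101239682) (nat_lit 152) (nat_lit 168988298497) (nat_lit 12) (nat_lit 5) (nat_lit 13) (nat_lit 5) (nat_lit 14) (nat_lit 4) (nat_lit 410)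 (nat_lit 327) (nat_lit 163)))))) (XT.nd (nat_lit 468) (nat_lit 152) (nat_lit 0) (XT.nd (nat_lit 234) (nat_lit 76) (nat_lit 0) (XT.nd (nat_lit 78) (nat_lit 76) (nat_lit 0) (XT.lf (nat_lit 0) (nat_lit 100468350744) (nat_lit 152) (nat_lit 122533943208) (nat_lit 0) (nat_lit 20983285386) (nat_lit 12) (nat_lit 5) (nat_lit 14) (nat_lit 4) (nat_lit 12) (nat_lit 4) (nat_lit 411) (nat_lit 327) (nat_lit 162)) (XT.nd (nat_lit 78) (nat_lit 76) (nat_lit 0) (XT.lf (nat_lit 0) (nat_lit 137849802238) (nat_lit 152) (nat_lit 58150324026) (nat_lit 0) (nat_lit 58363529148) (nat_lit 12) (nat_lit 5) (nat_lit 14) (nat_lit 4) (nat_lit 12) (nat_lit 4) (nat_lit 412) (nat_lit 327) (nat_lit 161)) (XT.lf (nat_lit 0) (nat_lit 9762858823) (nat_lit 76) (nat_lit 167488816236) (nat_lit 76) (nat_lit 88001392926) (nat_lit 11) (nat_lit 4) (nat_lit 12) (nat_lit 5) (nat_lit 12) (nat_lit 4) (nat_lit 413) (nat_lit 327) (nat_lit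 160)))) (XT.nd (nat_lit 78) (nat_lit 76) (nat_lit 0) (XT.lf (nat_lit 0) (nat_lit 83088492718) (nat_lit 76) (nat_lit 136518895022) (nat_lit 76) (nat_lit 57030376264) (nat_lit 11) (nat_lit 4) (nat_lit 12) (nat_lit 5) (nat_lit 12) (nat_lit 4) (nat_lit 414) (nat_lit 327) (nat_lit 159)) (XT.nd (nat_lit 78) (nat_lit 76) (nat_lit 0) (XT.lf (nat_lit 0) (nat_lit 160078450176) (nat_lit 76) (nat_lit 104001428589) (nat_lit 76) (nat_lit 24511866546) (nat_lit 11) (nat_lit 4) (nat_lit 12) (nat_lit 5) (nat_lit 12) (nat_lit 4) (nat_lit 415) (nat_lit 327) (nat_lit 158)) (XT.lf (nat_lit 0) (nat_lit 9323291139) (nat_lit 152) (nat_lit 60377808810) (nat_lit 76) (nat_lit 231434855033) (nat_lit 10) (nat_lit 5) (nat_lit 12) (nat_lit 5) (nat_lit 11) (nat_lit 4) (nat_lit 416) (nat_lit 327) (nat_lit 157))))) (XT.nd (nat_lit 234) (nat_lit 76) (nat_lit 0) (XT.nd (nat_lit 78) (nat_lit 0) (nat_lit 0) (XT.lf (nat_lit 0)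 (nat_lit 11116612067) (nat_lit 76) (nat_lit 33082467933) (nat_lit 152) (nat_lit 270079571909) (nat_lit 9) (nat_lit 5) (nat_lit 10) (nat_lit 5) (nat_lit 11) (nat_lit 4) (nat_lit 417) (nat_lit 327) (nat_lit 156)) (XT.nd (nat_lit 78) (nat_lit 0) (nat_lit 0) (XT.lf (nat_lit 0) (nat_lit 81940818092) (nat_lit 152) (nat_lit 239847790244) (nat_lit 0) (nat_lit 6233767460) (nat_lit 9) (nat_lit 5) (nat_lit 11) (nat_lit 4) (nat_lit 9) (nat_lit 4) (nat_lit 418) (nat_lit 327) (nat_lit 155)) (XT.lf (nat_lit 0) (nat_lit 122111096941) (nat_lit 152) (nat_lit 173911887469) (nat_lit 0) (nat_lit 46403228868) (nat_lit 9) (nat_lit 5) (nat_lit 11) (nat_lit 4) (nat_lit 9) (nat_lit 4) (nat_lit 419) (nat_lit 327) (nat_lit 154)))) (XT.nd (nat_lit 78) (nat_lit 76) (nat_lit 0) (XT.lf (nat_lit 0) (nat_lit 164289050030) (nat_lit 152) (nat_lit 104680831237) (nat_lit 0) (nat_lit 88580403443) (nat_lit 9) (nat_lit 5) (nat_lit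 11) (nat_lit 4) (nat_lit 9) (nat_lit 4) (nat_lit 420) (nat_lit 327) (nat_lit 153)) (XT.nd (nat_lit 78) (nat_lit 76) (nat_lit 0) (XT.lf (nat_lit 0) (nat_lit 208575101058) (nat_lit 152) (nat_lit 31989785700) (nat_lit 0) (nat_lit 132865713029) (nat_lit 9) (nat_lit 5) (nat_lit 11) (nat_lit 4) (nat_lit 9) (nat_lit 4) (nat_lit 421) (nat_lit 327) (nat_lit 152)) (XT.lf (nat_lit 0) (nat_lit 45800216001) (nat_lit 76) (nat_lit 209989546730) (nat_lit 76) (nat_lit 134279452565) (nat_lit 8) (nat_lit 4) (nat_lit 9) (nat_lit 5) (nat_lit 9) (nat_lit 4) (nat_lit 422) (nat_lit 327) (nat_lit 151))))))) (XT.nd (nat_lit 936) (nat_lit 0) (nat_lit 0) (XT.nd (nat_lit 468) (nat_lit 76) (nat_lit 0) (XT.nd (nat_lit 234) (nat_lit 152) (nat_lit 0) (XT.nd (nat_lit 78) (nat_lit 0) (nat_lit 0) (XT.lf (nat_lit 0) (nat_lit 128588865875) (nat_lit 76) (nat_lit 177317305872) (nat_lit 76) (nat_lit 101606539197) (nat_lit 8) (nat_lit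 4) (nat_lit 9) (nat_lit 5) (nat_lit 9) (nat_lit 4) (nat_lit 423) (nat_lit 327) (nat_lit 150)) (XT.nd (nat_lit 78) (nat_lit 0) (nat_lit 0) (XT.lf (nat_lit 0) (nat_lit 215515552971) (nat_lit 76) (nat_lit 143012135635) (nat_lit 76) (nat_lit 67300728474) (nat_lit 8) (nat_lit 4) (nat_lit 9) (nat_lit 5) (nat_lit 9) (nat_lit 4) (nat_lit 424) (nat_lit 327) (nat_lit 149)) (XT.lf (nat_lit 0) (nat_lit 306787245591) (nat_lit 76) (nat_lit 106992357042) (nat_lit 76) (nat_lit 31280339895) (nat_lit 8) (nat_lit 4) (nat_lit 9) (nat_lit 5) (nat_lit 9) (nat_lit 4) (nat_lit 425) (nat_lit 327) (nat_lit 148)))) (XT.nd (nat_lit 78) (nat_lit 76) (nat_lit 0) (XT.lf (nat_lit 0) (nat_lit 6331056064) (nat_lit 152) (nat_lit 62733933154) (nat_lit 76) (nat_lit 396182981725) (nat_lit 7) (nat_lit 5) (nat_lit 9) (nat_lit 5) (nat_lit 8) (nat_lit 4) (nat_lit 426) (nat_lit 327) (nat_lit 147)) (XT.nd (nat_lit 78) (nat_lit 0)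 (nat_lit 0) (XT.lf (nat_lit 0) (nat_lit 16599022711) (nat_lit 76) (nat_lit 28431306105) (nat_lit 152) (nat_lit 441376505826) (nat_lit 6) (nat_lit 5) (nat_lit 7) (nat_lit 5) (nat_lit 8) (nat_lit 4) (nat_lit 427) (nat_lit 327) (nat_lit 146)) (XT.lf (nat_lit 0) (nat_lit 86966021178) (nat_lit 152) (nat_lit 406734791469) (nat_lit 0) (nat_lit 14857756138) (nat_lit 6) (nat_lit 5) (nat_lit 8) (nat_lit 4) (nat_lit 6) (nat_lit 4) (nat_lit 428) (nat_lit 327) (nat_lit 145))))) (XT.nd (nat_lit 234) (nat_lit 76) (nat_lit 0) (XT.nd (nat_lit 78) (nat_lit 0) (nat_lit 0) (XT.lf (nat_lit 0) (nat_lit 131463990855) (nat_lit 152) (nat_lit 340975376327) (nat_lit 0) (nat_lit 59355247874) (nat_lit 6) (nat_lit 5) (nat_lit 8) (nat_lit 4) (nat_lit 6) (nat_lit 4) (nat_lit 429) (nat_lit 327) (nat_lit 144)) (XT.nd (nat_lit 78) (nat_lit 0) (nat_lit 0) (XT.lf (nat_lit 0) (nat_lit 178186293026) (nat_lit 152) (nat_lit 271929104104)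 (nat_lit 0) (nat_lit 106077094864) (nat_lit 6) (nat_lit 5) (nat_lit 8) (nat_lit 4) (nat_lit 6) (nat_lit 4) (nat_lit 430) (nat_lit 327) (nat_lit 143)) (XT.lf (nat_lit 0) (nat_lit 227244171268) (nat_lit 152) (nat_lit 199431578912) (nat_lit 0) (nat_lit 155134539600) (nat_lit 6) (nat_lit 5) (nat_lit 8) (nat_lit 4) (nat_lit 6) (nat_lit 4) (nat_lit 431) (nat_lit 327) (nat_lit 142)))) (XT.nd (nat_lit 78) (nat_lit 76) (nat_lit 0) (XT.lf (nat_lit 0) (nat_lit 278754430053) (nat_lit 152) (nat_lit 123310187598) (nat_lit 0) (nat_lit 206644385522) (nat_lit 6) (nat_lit 5) (nat_lit 8) (nat_lit 4) (nat_lit 6) (nat_lit 4) (nat_lit 432) (nat_lit 327) (nat_lit 141)) (XT.nd (nat_lit 78) (nat_lit 76) (nat_lit 0) (XT.lf (nat_lit 0) (nat_lit 332839712854) (nat_lit 152) (nat_lit 43383688752) (nat_lit 0) (nat_lit 260729275120) (nat_lit 6) (nat_lit 5) (nat_lit 8) (nat_lit 4) (nat_lit 6) (nat_lit 4) (nat_lit 433)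 (nat_lit 327) (nat_lit 140)) (XT.lf (nat_lit 0) (nat_lit 41878595401) (nat_lit 76) (nat_lit 348404040992) (nat_lit 76) (nat_lit 276293228779) (nat_lit 5) (nat_lit 4) (nat_lit 6) (nat_lit 5) (nat_lit 6) (nat_lit 4) (nat_lit 434) (nat_lit 327) (nat_lit 139)))))) (XT.nd (nat_lit 38922) (nat_lit 0) (nat_lit 7828) (XT.nd (nat_lit 38688) (nat_lit 0) (nat_lit 7752) (XT.nd (nat_lit 38532) (nat_lit 0) (nat_lit 8512) (XT.lf (nat_lit 0) (nat_lit 132909276028) (nat_lit 76) (nat_lit 318422696301) (nat_lit 76) (nat_lit 246311527442) (nat_lit 5) (nat_lit 4) (nat_lit 6) (nat_lit 5) (nat_lit 6) (nat_lit 4) (nat_lit 435) (nat_lit 327) (nat_lit 138)) (XT.nd (nat_lit 78) (nat_lit 0) (nat_lit 0) (XT.lf (nat_lit 0) (nat_lit 3858094937) (nat_lit 0) (nat_lit 3858094937) (nat_lit 684) (nat_lit 352415837) (nat_lit 117) (nat_lit 5) (nat_lit 117) (nat_lit 3) (nat_lit 126) (nat_lit 3) (nat_lit 328) (nat_lit 328) (nat_lit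 244)) (XT.lf (nat_lit 0) (nat_lit 15823797909) (nat_lit 0) (nat_lit 239240682) (nat_lit 684) (nat_lit 465133989) (nat_lit 117) (nat_lit 5) (nat_lit 117) (nat_lit 3) (nat_lit 126) (nat_lit 3) (nat_lit 329) (nat_lit 328) (nat_lit 243)))) (XT.nd (nat_lit 78) (nat_lit 0) (nat_lit 0) (XT.lf (nat_lit 0) (nat_lit 17534875) (nat_lit 760) (nat_lit 9417046007) (nat_lit 836) (nat_lit 7493073632) (nat_lit 107) (nat_lit 5) (nat_lit 117) (nat_lit 5) (nat_lit 118) (nat_lit 5) (nat_lit 330) (nat_lit 328) (nat_lit 242)) (XT.nd (nat_lit 78) (nat_lit 0) (nat_lit 76) (XT.lf (nat_lit 0) (nat_lit 509548658) (nat_lit 760) (nat_lit 1206593487) (nat_lit 836) (nat_lit 15630558152) (nat_lit 107) (nat_lit 5) (nat_lit 117) (nat_lit 5) (nat_lit 118) (nat_lit 5) (nat_lit 331) (nat_lit 328) (nat_lit 241)) (XT.lf (nat_lit 0) (nat_lit 1232916611) (nat_lit 760) (nat_lit 10232698928) (nat_lit 836) (nat_lit 6310757691) (nat_lit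 108) (nat_lit 5) (nat_lit 118) (nat_lit 5) (nat_lit 119) (nat_lit 5) (nat_lit 332) (nat_lit 328) (nat_lit 240))))) (XT.nd (nat_lit 234) (nat_lit 0) (nat_lit 152) (XT.nd (nat_lit 78) (nat_lit 0) (nat_lit 76) (XT.lf (nat_lit 0) (nat_lit 2027515907) (nat_lit 760) (nat_lit 1490979509) (nat_lit 836) (nat_lit 14707293182) (nat_lit 108) (nat_lit 5) (nat_lit 118) (nat_lit 5) (nat_lit 119) (nat_lit 5) (nat_lit 333) (nat_lit 328) (nat_lit 239)) (XT.nd (nat_lit 78) (nat_lit 0) (nat_lit 0) (XT.lf (nat_lit 0) (nat_lit 3049962276) (nat_lit 760) (nat_lit 10836774437) (nat_lit 836) (nat_lit 4801543535) (nat_lit 109) (nat_lit 5) (nat_lit 119) (nat_lit 5) (nat_lit 120) (nat_lit 5) (nat_lit 334) (nat_lit 328) (nat_lit 238)) (XT.lf (nat_lit 0) (nat_lit 4194247134) (nat_lit 760) (nat_lit 1527315842) (nat_lit 836) (nat_lit 13448808522) (nat_lit 109) (nat_lit 5) (nat_lit 119) (nat_lit 5) (nat_lit 120) (nat_lit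 5) (nat_lit 335) (nat_lit 328) (nat_lit 237)))) (XT.nd (nat_lit 156) (nat_lit 0) (nat_lit 76) (XT.nd (nat_lit 78) (nat_lit 0) (nat_lit 0) (XT.lf (nat_lit 0) (nat_lit 5563350815) (nat_lit 760) (nat_lit 11206280752) (nat_lit 836) (nat_lit 2898565827) (nat_lit 110) (nat_lit 5) (nat_lit 120) (nat_lit 5) (nat_lit 121) (nat_lit 5) (nat_lit 336) (nat_lit 328) (nat_lit 236)) (XT.lf (nat_lit 0) (nat_lit 7109445266) (nat_lit 760) (nat_lit 1289708029) (nat_lit 836) (nat_lit 11786344329) (nat_lit 110) (nat_lit 5) (nat_lit 120) (nat_lit 5) (nat_lit 121) (nat_lit 5) (nat_lit 337) (nat_lit 328) (nat_lit 235))) (XT.nd (nat_lit 78) (nat_lit 0) (nat_lit 0) (XT.lf (nat_lit 0) (nat_lit 8877365148) (nat_lit 760) (nat_lit 11315417625) (nat_lit 76) (nat_lit 528663411) (nat_lit 111) (nat_lit 5) (nat_lit 121) (nat_lit 5) (nat_lit 112) (nat_lit 5) (nat_lit 338) (nat_lit 328) (nat_lit 234)) (XT.lf (nat_lit 0) (nat_lit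 10882983121) (nat_lit 760) (nat_lit 749291707) (nat_lit 76) (nat_lit 9644461147) (nat_lit 111) (nat_lit 5) (nat_lit 121) (nat_lit 5) (nat_lit 112) (nat_lit 5) (nat_lit 339) (nat_lit 328) (nat_lit 233))))))))
noncomputable def xc171 : XT := (XT.nd (nat_lit 1950) (nat_lit 2052) (nat_lit 0) (XT.nd (nat_lit 936) (nat_lit 1824) (nat_lit 0) (XT.nd (nat_lit 468) (nat_lit 836) (nat_lit 0) (XT.nd (nat_lit 234) (nat_lit 760) (nat_lit 0) (XT.nd (nat_lit 78) (nat_lit 380) (nat_lit 0) (XT.lf (nat_lit 0) (nat_lit 10677880060) (nat_lit 760) (nat_lit 2467628961) (nat_lit 836) (nat_lit 8706458367) (nat_lit 101) (nat_lit 5) (nat_lit 111) (nat_lit 5) (nat_lit 112) (nat_lit 5) (nat_lit 340) (nat_lit 328) (nat_lit 232)) (XT.nd (nat_lit 78) (nat_lit 0) (nat_lit 0) (XT.lf (nat_lit 0) (nat_lit 129953430) (nat_lit 380) (nat_lit 15508118499) (nat_lit 456) (nat_lit 6812050984) (nat_lit 96) (nat_lit 5) (nat_lit 101)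 (nat_lit 5) (nat_lit 102) (nat_lit 5) (nat_lit 341) (nat_lit 328) (nat_lit 231)) (XT.lf (nat_lit 0) (nat_lit 12336113535) (nat_lit 380) (nat_lit 6138778308) (nat_lit 456) (nat_lit 4592320625) (nat_lit 96) (nat_lit 5) (nat_lit 101) (nat_lit 5) (nat_lit 102) (nat_lit 5) (nat_lit 342) (nat_lit 328) (nat_lit 230)))) (XT.nd (nat_lit 78) (nat_lit 456) (nat_lit 0) (XT.lf (nat_lit 0) (nat_lit 1415735526) (nat_lit 304) (nat_lit 20108713613) (nat_lit 380) (nat_lit 2187169869) (nat_lit 92) (nat_lit 5) (nat_lit 96) (nat_lit 5) (nat_lit 97) (nat_lit 5) (nat_lit 343) (nat_lit 328) (nat_lit 229)) (XT.nd (nat_lit 78) (nat_lit 380) (nat_lit 0) (XT.lf (nat_lit 0) (nat_lit 603940196) (nat_lit 380) (nat_lit 9954982671) (nat_lit 76) (nat_lit 13815239238) (nat_lit 91) (nat_lit 5) (nat_lit 96) (nat_lit 5) (nat_lit 92) (nat_lit 5) (nat_lit 344) (nat_lit 328) (nat_lit 228)) (XT.lf (nat_lit 0) (nat_lit 3055966519)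 (nat_lit 380) (nat_lit 444444547) (nat_lit 456) (nat_lit 21565669430) (nat_lit 86) (nat_lit 5) (nat_lit 91) (nat_lit 5) (nat_lit 92) (nat_lit 5) (nat_lit 345) (nat_lit 328) (nat_lit 227))))) (XT.nd (nat_lit 234) (nat_lit 532) (nat_lit 0) (XT.nd (nat_lit 78) (nat_lit 304) (nat_lit 0) (XT.lf (nat_lit 0) (nat_lit 6863782457) (nat_lit 456) (nat_lit 8891933132) (nat_lit 76) (nat_lit 10020781399) (nat_lit 86) (nat_lit 5) (nat_lit 92) (nat_lit 5) (nat_lit 87) (nat_lit 5) (nat_lit 346) (nat_lit 328) (nat_lit 226)) (XT.nd (nat_lit 78) (nat_lit 0) (nat_lit 0) (XT.lf (nat_lit 0) (nat_lit 5026994835) (nat_lit 304) (nat_lit 5446335816) (nat_lit 380) (nat_lit 16045208982) (nat_lit 82) (nat_lit 5) (nat_lit 86) (nat_lit 5) (nat_lit 87) (nat_lit 5) (nat_lit 347) (nat_lit 328) (nat_lit 225)) (XT.lf (nat_lit 0) (nat_lit 14492842312) (nat_lit 380) (nat_lit 7435014634) (nat_lit 76) (nat_lit 5358358632) (nat_lit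 82) (nat_lit 5) (nat_lit 87) (nat_lit 5) (nat_lit 83) (nat_lit 5) (nat_lit 348) (nat_lit 328) (nat_lit 224)))) (XT.nd (nat_lit 78) (nat_lit 228) (nat_lit 0) (XT.lf (nat_lit 0) (nat_lit 7465432215) (nat_lit 304) (nat_lit 11446551690) (nat_lit 380) (nat_lit 9170363905) (nat_lit 78) (nat_lit 5) (nat_lit 82) (nat_lit 5) (nat_lit 83) (nat_lit 5) (nat_lit 349) (nat_lit 328) (nat_lit 223)) (XT.nd (nat_lit 78) (nat_lit 228) (nat_lit 0) (XT.lf (nat_lit 0) (nat_lit 23360600406) (nat_lit 304) (nat_lit 310422193) (nat_lit 380) (nat_lit 5241322013) (nat_lit 78) (nat_lit 5) (nat_lit 82) (nat_lit 5) (nat_lit 83) (nat_lit 5) (nat_lit 350) (nat_lit 328) (nat_lit 222)) (XT.lf (nat_lit 0) (nat_lit 10413942108) (nat_lit 228) (nat_lit 18587709906) (nat_lit 304) (nat_lit 765512024) (nat_lit 75) (nat_lit 5) (nat_lit 78) (nat_lit 5) (nat_lit 79) (nat_lit 5) (nat_lit 351) (nat_lit 328) (nat_lit 221)))))) (XT.nd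 (nat_lit 468) (nat_lit 988) (nat_lit 0) (XT.nd (nat_lit 234) (nat_lit 456) (nat_lit 0) (XT.nd (nat_lit 78) (nat_lit 304) (nat_lit 0) (XT.lf (nat_lit 0) (nat_lit 3902238513) (nat_lit 304) (nat_lit 3365848369) (nat_lit 76) (nat_lit 23388867459) (nat_lit 74) (nat_lit 5) (nat_lit 78) (nat_lit 5) (nat_lit 75) (nat_lit 5) (nat_lit 352) (nat_lit 328) (nat_lit 220)) (XT.nd (nat_lit 78) (nat_lit 0) (nat_lit 0) (XT.lf (nat_lit 0) (nat_lit 9063325762) (nat_lit 380) (nat_lit 17812540107) (nat_lit 76) (nat_lit 4700461131) (nat_lit 70) (nat_lit 5) (nat_lit 75) (nat_lit 5) (nat_lit 71) (nat_lit 5) (nat_lit 353) (nat_lit 328) (nat_lit 219)) (XT.lf (nat_lit 0) (nat_lit 14653427710) (nat_lit 380) (nat_lit 800322172) (nat_lit 76) (nat_lit 17079374279) (nat_lit 70) (nat_lit 5) (nat_lit 75) (nat_lit 5) (nat_lit 71) (nat_lit 5) (nat_lit 354) (nat_lit 328) (nat_lit 218)))) (XT.nd (nat_lit 78) (nat_lit 228) (nat_lit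 0) (XT.lf (nat_lit 0) (nat_lit 17618622968) (nat_lit 228) (nat_lit 3173654189) (nat_lit 304) (nat_lit 12732025606) (nat_lit 67) (nat_lit 5) (nat_lit 70) (nat_lit 5) (nat_lit 71) (nat_lit 5) (nat_lit 355) (nat_lit 328) (nat_lit 217)) (XT.nd (nat_lit 78) (nat_lit 0) (nat_lit 0) (XT.lf (nat_lit 0) (nat_lit 2336825269) (nat_lit 228) (nat_lit 25097561056) (nat_lit 304) (nat_lit 7120841630) (nat_lit 64) (nat_lit 5) (nat_lit 67) (nat_lit 5) (nat_lit 68) (nat_lit 5) (nat_lit 356) (nat_lit 328) (nat_lit 216)) (XT.lf (nat_lit 0) (nat_lit 21982124979) (nat_lit 228) (nat_lit 12741477820) (nat_lit 304) (nat_lit 898349874) (nat_lit 64) (nat_lit 5) (nat_lit 67) (nat_lit 5) (nat_lit 68) (nat_lit 5) (nat_lit 357) (nat_lit 328) (nat_lit 215))))) (XT.nd (nat_lit 234) (nat_lit 456) (nat_lit 0) (XT.nd (nat_lit 78) (nat_lit 228) (nat_lit 0) (XT.lf (nat_lit 0) (nat_lit 5549181663) (nat_lit 304) (nat_lit 30776851455)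 (nat_lit 76) (nat_lit 406870493) (nat_lit 60) (nat_lit 5) (nat_lit 64) (nat_lit 5) (nat_lit 61) (nat_lit 5) (nat_lit 358) (nat_lit 328) (nat_lit 214)) (XT.nd (nat_lit 78) (nat_lit 228) (nat_lit 0) (XT.lf (nat_lit 0) (nat_lit 12727282734) (nat_lit 304) (nat_lit 11117682696) (nat_lit 76) (nat_lit 14031784043) (nat_lit 60) (nat_lit 5) (nat_lit 64) (nat_lit 5) (nat_lit 61) (nat_lit 5) (nat_lit 359) (nat_lit 328) (nat_lit 213)) (XT.lf (nat_lit 0) (nat_lit 9831780100) (nat_lit 228) (nat_lit 10580984494) (nat_lit 304) (nat_lit 18657602010) (nat_lit 57) (nat_lit 5) (nat_lit 60) (nat_lit 5) (nat_lit 61) (nat_lit 5) (nat_lit 360) (nat_lit 328) (nat_lit 212)))) (XT.nd (nat_lit 156) (nat_lit 304) (nat_lit 0) (XT.nd (nat_lit 78) (nat_lit 152) (nat_lit 0) (XT.lf (nat_lit 0) (nat_lit 28721198317) (nat_lit 304) (nat_lit 8162319283) (nat_lit 76) (nat_lit 3428215733) (nat_lit 57) (nat_lit 5) (nat_lit 61)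 (nat_lit 5) (nat_lit 58) (nat_lit 5) (nat_lit 361) (nat_lit 328) (nat_lit 211)) (XT.lf (nat_lit 0) (nat_lit 14243088772) (nat_lit 152) (nat_lit 23593097609) (nat_lit 228) (nat_lit 3759427889) (nat_lit 55) (nat_lit 5) (nat_lit 57) (nat_lit 5) (nat_lit 58) (nat_lit 5) (nat_lit 362) (nat_lit 328) (nat_lit 210))) (XT.nd (nat_lit 78) (nat_lit 228) (nat_lit 0) (XT.lf (nat_lit 0) (nat_lit 4456219093) (nat_lit 228) (nat_lit 4963706590) (nat_lit 76) (nat_lit 33513489870) (nat_lit 54) (nat_lit 5) (nat_lit 57) (nat_lit 5) (nat_lit 55) (nat_lit 5) (nat_lit 363) (nat_lit 328) (nat_lit 209)) (XT.lf (nat_lit 0) (nat_lit 13341002887) (nat_lit 304) (nat_lit 25324440845) (nat_lit 76) (nat_lit 5650349039) (nat_lit 51) (nat_lit 5) (nat_lit 55) (nat_lit 5) (nat_lit 52) (nat_lit 5) (nat_lit 364) (nat_lit 328) (nat_lit 208))))))) (XT.nd (nat_lit 936) (nat_lit 988) (nat_lit 0) (XT.nd (nat_lit 468) (nat_lit 532)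 (nat_lit 0) (XT.nd (nat_lit 234) (nat_lit 228) (nat_lit 0) (XT.nd (nat_lit 78) (nat_lit 304) (nat_lit 0) (XT.lf (nat_lit 0) (nat_lit 22905521428) (nat_lit 304) (nat_lit 1609254072) (nat_lit 76) (nat_lit 21240740633) (nat_lit 51) (nat_lit 5) (nat_lit 55) (nat_lit 5) (nat_lit 52) (nat_lit 5) (nat_lit 365) (nat_lit 328) (nat_lit 207)) (XT.nd (nat_lit 78) (nat_lit 152) (nat_lit 0) (XT.lf (nat_lit 0) (nat_lit 24055073840) (nat_lit 152) (nat_lit 9264596976) (nat_lit 228) (nat_lit 13928986564) (nat_lit 49) (nat_lit 5) (nat_lit 51) (nat_lit 5) (nat_lit 52) (nat_lit 5) (nat_lit 366) (nat_lit 328) (nat_lit 206)) (XT.lf (nat_lit 0) (nat_lit 2201458155) (nat_lit 152) (nat_lit 42216396151) (nat_lit 228) (nat_lit 4390436922) (nat_lit 47) (nat_lit 5) (nat_lit 49) (nat_lit 5) (nat_lit 50) (nat_lit 5) (nat_lit 367) (nat_lit 328) (nat_lit 205)))) (XT.nd (nat_lit 78) (nat_lit 152) (nat_lit 0) (XT.lf (nat_lit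 0) (nat_lit 5992041656) (nat_lit 228) (nat_lit 21007550535) (nat_lit 76) (nat_lit 23414573247) (nat_lit 46) (nat_lit 5) (nat_lit 49) (nat_lit 5) (nat_lit 47) (nat_lit 5) (nat_lit 368) (nat_lit 328) (nat_lit 204)) (XT.nd (nat_lit 78) (nat_lit 0) (nat_lit 0) (XT.lf (nat_lit 0) (nat_lit 5984969839) (nat_lit 152) (nat_lit 10850688448) (nat_lit 228) (nat_lit 35256599886) (nat_lit 44) (nat_lit 5) (nat_lit 46) (nat_lit 5) (nat_lit 47) (nat_lit 5) (nat_lit 369) (nat_lit 328) (nat_lit 203)) (XT.lf (nat_lit 0) (nat_lit 28674557242) (nat_lit 228) (nat_lit 18887534824) (nat_lit 76) (nat_lit 6269509944) (nat_lit 44) (nat_lit 5) (nat_lit 47) (nat_lit 5) (nat_lit 45) (nat_lit 5) (nat_lit 370) (nat_lit 328) (nat_lit 202))))) (XT.nd (nat_lit 234) (nat_lit 152) (nat_lit 0) (XT.nd (nat_lit 78) (nat_lit 228) (nat_lit 0) (XT.lf (nat_lit 0) (nat_lit 9823688400) (nat_lit 152) (nat_lit 31609320229) (nat_lit 228)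 (nat_lit 14208525500) (nat_lit 42) (nat_lit 5) (nat_lit 44) (nat_lit 5) (nat_lit 45) (nat_lit 5) (nat_lit 371) (nat_lit 328) (nat_lit 201)) (XT.nd (nat_lit 78) (nat_lit 228) (nat_lit 0) (XT.lf (nat_lit 0) (nat_lit 40620245839) (nat_lit 152) (nat_lit 14525438995) (nat_lit 228) (nat_lit 2380464302) (nat_lit 42) (nat_lit 5) (nat_lit 44) (nat_lit 5) (nat_lit 45) (nat_lit 5) (nat_lit 372) (nat_lit 328) (nat_lit 200)) (XT.lf (nat_lit 0) (nat_lit 9987902880) (nat_lit 228) (nat_lit 45817436522) (nat_lit 76) (nat_lit 3678309230) (nat_lit 39) (nat_lit 5) (nat_lit 42) (nat_lit 5) (nat_lit 40) (nat_lit 5) (nat_lit 373) (nat_lit 328) (nat_lit 199)))) (XT.nd (nat_lit 78) (nat_lit 152) (nat_lit 0) (XT.lf (nat_lit 0) (nat_lit 23420399345) (nat_lit 228) (nat_lit 15458510839) (nat_lit 76) (nat_lit 22631877416) (nat_lit 39) (nat_lit 5) (nat_lit 42) (nat_lit 5) (nat_lit 40) (nat_lit 5) (nat_lit 374) (nat_lit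 328) (nat_lit 198)) (XT.nd (nat_lit 78) (nat_lit 0) (nat_lit 0) (XT.lf (nat_lit 0) (nat_lit 16955488614) (nat_lit 152) (nat_lit 20830502266) (nat_lit 228) (nat_lit 25840220273) (nat_lit 37) (nat_lit 5) (nat_lit 39) (nat_lit 5) (nat_lit 40) (nat_lit 5) (nat_lit 375) (nat_lit 328) (nat_lit 197)) (XT.lf (nat_lit 0) (nat_lit 51521408172) (nat_lit 152) (nat_lit 1607068294) (nat_lit 228) (nat_lit 12705999786) (nat_lit 37) (nat_lit 5) (nat_lit 39) (nat_lit 5) (nat_lit 40) (nat_lit 5) (nat_lit 376) (nat_lit 328) (nat_lit 196)))))) (XT.nd (nat_lit 468) (nat_lit 532) (nat_lit 0) (XT.nd (nat_lit 234) (nat_lit 152) (nat_lit 0) (XT.nd (nat_lit 78) (nat_lit 152) (nat_lit 0) (XT.lf (nat_lit 0) (nat_lit 1659386351) (nat_lit 152) (nat_lit 48142489704) (nat_lit 76) (nat_lit 18319973640) (nat_lit 35) (nat_lit 5) (nat_lit 37) (nat_lit 5) (nat_lit 36) (nat_lit 5) (nat_lit 377) (nat_lit 328) (nat_lit 195)) (XT.nd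 (nat_lit 78) (nat_lit 152) (nat_lit 0) (XT.lf (nat_lit 0) (nat_lit 16585703547) (nat_lit 152) (nat_lit 14272098117) (nat_lit 76) (nat_lit 39641893004) (nat_lit 35) (nat_lit 5) (nat_lit 37) (nat_lit 5) (nat_lit 36) (nat_lit 5) (nat_lit 378) (nat_lit 328) (nat_lit 194)) (XT.lf (nat_lit 0) (nat_lit 21990563753) (nat_lit 152) (nat_lit 10608201270) (nat_lit 228) (nat_lit 40380646345) (nat_lit 33) (nat_lit 5) (nat_lit 35) (nat_lit 5) (nat_lit 36) (nat_lit 5) (nat_lit 379) (nat_lit 328) (nat_lit 193)))) (XT.nd (nat_lit 78) (nat_lit 152) (nat_lit 0) (XT.lf (nat_lit 0) (nat_lit 49821604433) (nat_lit 228) (nat_lit 15184586328) (nat_lit 76) (nat_lit 10556467755) (nat_lit 33) (nat_lit 5) (nat_lit 36) (nat_lit 5) (nat_lit 34) (nat_lit 4) (nat_lit 380) (nat_lit 328) (nat_lit 192)) (XT.nd (nat_lit 78) (nat_lit 76) (nat_lit 0) (XT.lf (nat_lit 0) (nat_lit 22966175438) (nat_lit 76) (nat_lit 45469139469)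 (nat_lit 152) (nat_lit 9813267474) (nat_lit 32) (nat_lit 5) (nat_lit 33) (nat_lit 5) (nat_lit 34) (nat_lit 4) (nat_lit 381) (nat_lit 328) (nat_lit 191)) (XT.lf (nat_lit 0) (nat_lit 6948359059) (nat_lit 152) (nat_lit 17621290246) (nat_lit 76) (nat_lit 56480826802) (nat_lit 31) (nat_lit 5) (nat_lit 33) (nat_lit 5) (nat_lit 32) (nat_lit 5) (nat_lit 382) (nat_lit 328) (nat_lit 190))))) (XT.nd (nat_lit 234) (nat_lit 304) (nat_lit 0) (XT.nd (nat_lit 78) (nat_lit 76) (nat_lit 0) (XT.lf (nat_lit 0) (nat_lit 22476756872) (nat_lit 152) (nat_lit 2089843932) (nat_lit 228) (nat_lit 59400404557) (nat_lit 29) (nat_lit 5) (nat_lit 31) (nat_lit 5) (nat_lit 32) (nat_lit 5) (nat_lit 383) (nat_lit 328) (nat_lit 189)) (XT.nd (nat_lit 78) (nat_lit 76) (nat_lit 0) (XT.lf (nat_lit 0) (nat_lit 43702384699) (nat_lit 228) (nat_lit 22168417636) (nat_lit 76) (nat_lit 21126727910) (nat_lit 29) (nat_lit 5) (nat_lit 32)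 (nat_lit 5) (nat_lit 30) (nat_lit 4) (nat_lit 384) (nat_lit 328) (nat_lit 188)) (XT.lf (nat_lit 0) (nat_lit 19711694467) (nat_lit 76) (nat_lit 44422820415) (nat_lit 152) (nat_lit 26028089276) (nat_lit 28) (nat_lit 5) (nat_lit 29) (nat_lit 5) (nat_lit 30) (nat_lit 4) (nat_lit 385) (nat_lit 328) (nat_lit 187)))) (XT.nd (nat_lit 156) (nat_lit 76) (nat_lit 0) (XT.nd (nat_lit 78) (nat_lit 228) (nat_lit 0) (XT.lf (nat_lit 0) (nat_lit 64451073438) (nat_lit 76) (nat_lit 21510202275) (nat_lit 152) (nat_lit 7506005454) (nat_lit 28) (nat_lit 5) (nat_lit 29) (nat_lit 5) (nat_lit 30) (nat_lit 4) (nat_lit 386) (nat_lit 328) (nat_lit 186)) (XT.lf (nat_lit 0) (nat_lit 11834853357) (nat_lit 228) (nat_lit 82190704448) (nat_lit 76) (nat_lit 2888567467) (nat_lit 25) (nat_lit 5) (nat_lit 28) (nat_lit 5) (nat_lit 26) (nat_lit 4) (nat_lit 387) (nat_lit 328) (nat_lit 185))) (XT.nd (nat_lit 78) (nat_lit 76) (nat_lit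 0) (XT.lf (nat_lit 0) (nat_lit 32740273807) (nat_lit 228) (nat_lit 39339326988) (nat_lit 76) (nat_lit 28405070363) (nat_lit 25) (nat_lit 5) (nat_lit 28) (nat_lit 5) (nat_lit 26) (nat_lit 4) (nat_lit 388) (nat_lit 328) (nat_lit 184)) (XT.lf (nat_lit 0) (nat_lit 5837393072) (nat_lit 76) (nat_lit 48942504674) (nat_lit 152) (nat_lit 49449400472) (nat_lit 24) (nat_lit 5) (nat_lit 25) (nat_lit 5) (nat_lit 26) (nat_lit 4) (nat_lit 389) (nat_lit 328) (nat_lit 183))))))))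
noncomputable def xc172 : XT := (XT.nd (nat_lit 1872) (nat_lit 456) (nat_lit 0) (XT.nd (nat_lit 936) (nat_lit 456) (nat_lit 0) (XT.nd (nat_lit 468) (nat_lit 228) (nat_lit 0) (XT.nd (nat_lit 234) (nat_lit 76) (nat_lit 0) (XT.nd (nat_lit 78) (nat_lit 152) (nat_lit 0) (XT.lf (nat_lit 0) (nat_lit 54634727906) (nat_lit 76) (nat_lit 23950842587) (nat_lit 152) (nat_lit 29542383232) (nat_lit 24) (nat_lit 5) (nat_lit 25) (nat_lit 5) (nat_lit 26) (nat_lit 4) (nat_lit 390) (nat_lit 328) (nat_lit 182)) (XT.nd (nat_lit 78) (nat_lit 152) (nat_lit 0) (XT.lf (nat_lit 0) (nat_lit 103615199329) (nat_lit 152) (nat_lit 6389252005) (nat_lit 0) (nat_lit 2215407505) (nat_lit 24) (nat_lit 5) (nat_lit 26) (nat_lit 4) (nat_lit 24) (nat_lit 4) (nat_lit 391) (nat_lit 328) (nat_lit 181)) (XT.lf (nat_lit 0) (nat_lit 14048328110) (nat_lit 152) (nat_lit 72604428773) (nat_lit 76) (nat_lit 29798326829) (nat_lit 22) (nat_lit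 5) (nat_lit 24) (nat_lit 5) (nat_lit 23) (nat_lit 4) (nat_lit 392) (nat_lit 328) (nat_lit 180)))) (XT.nd (nat_lit 78) (nat_lit 76) (nat_lit 0) (XT.lf (nat_lit 0) (nat_lit 37652788824) (nat_lit 152) (nat_lit 24218817240) (nat_lit 76) (nat_lit 59009811322) (nat_lit 22) (nat_lit 5) (nat_lit 24) (nat_lit 5) (nat_lit 23) (nat_lit 4) (nat_lit 393) (nat_lit 328) (nat_lit 179)) (XT.nd (nat_lit 78) (nat_lit 0) (nat_lit 0) (XT.lf (nat_lit 0) (nat_lit 27461488816) (nat_lit 76) (nat_lit 35402846716) (nat_lit 152) (nat_lit 62647589437) (nat_lit 21) (nat_lit 5) (nat_lit 22) (nat_lit 5) (nat_lit 23) (nat_lit 4) (nat_lit 394) (nat_lit 328) (nat_lit 178)) (XT.lf (nat_lit 0) (nat_lit 82563164485) (nat_lit 76) (nat_lit 7181600383) (nat_lit 152) (nat_lit 40608778153) (nat_lit 21) (nat_lit 5) (nat_lit 22) (nat_lit 5) (nat_lit 23) (nat_lit 4) (nat_lit 395) (nat_lit 328) (nat_lit 177))))) (XT.nd (nat_lit 234)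 (nat_lit 76) (nat_lit 0) (XT.nd (nat_lit 78) (nat_lit 76) (nat_lit 0) (XT.lf (nat_lit 0) (nat_lit 4781844699) (nat_lit 76) (nat_lit 113610759512) (nat_lit 76) (nat_lit 17023468679) (nat_lit 20) (nat_lit 4) (nat_lit 21) (nat_lit 5) (nat_lit 21) (nat_lit 4) (nat_lit 396) (nat_lit 328) (nat_lit 176)) (XT.nd (nat_lit 78) (nat_lit 0) (nat_lit 0) (XT.lf (nat_lit 0) (nat_lit 8431911347) (nat_lit 152) (nat_lit 79304640712) (nat_lit 76) (nat_lit 52942206039) (nat_lit 19) (nat_lit 5) (nat_lit 21) (nat_lit 5) (nat_lit 20) (nat_lit 4) (nat_lit 397) (nat_lit 328) (nat_lit 175)) (XT.lf (nat_lit 0) (nat_lit 34586261534) (nat_lit 152) (nat_lit 25690859157) (nat_lit 76) (nat_lit 85913588441) (nat_lit 19) (nat_lit 5) (nat_lit 21) (nat_lit 5) (nat_lit 20) (nat_lit 4) (nat_lit 398) (nat_lit 328) (nat_lit 174)))) (XT.nd (nat_lit 78) (nat_lit 0) (nat_lit 0) (XT.lf (nat_lit 0) (nat_lit 31612344845) (nat_lit 76)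 (nat_lit 30927923903) (nat_lit 152) (nat_lit 89413392271) (nat_lit 18) (nat_lit 5) (nat_lit 19) (nat_lit 5) (nat_lit 20) (nat_lit 4) (nat_lit 399) (nat_lit 328) (nat_lit 173)) (XT.nd (nat_lit 78) (nat_lit 0) (nat_lit 0) (XT.lf (nat_lit 0) (nat_lit 92330848905) (nat_lit 152) (nat_lit 65318831057) (nat_lit 0) (nat_lit 333137176) (nat_lit 18) (nat_lit 5) (nat_lit 20) (nat_lit 4) (nat_lit 18) (nat_lit 4) (nat_lit 400) (nat_lit 328) (nat_lit 172)) (XT.lf (nat_lit 0) (nat_lit 124116439946) (nat_lit 152) (nat_lit 8055157970) (nat_lit 0) (nat_lit 32116559304) (nat_lit 18) (nat_lit 5) (nat_lit 20) (nat_lit 4) (nat_lit 18) (nat_lit 4) (nat_lit 401) (nat_lit 328) (nat_lit 171)))))) (XT.nd (nat_lit 468) (nat_lit 228) (nat_lit 0) (XT.nd (nat_lit 234) (nat_lit 0) (nat_lit 0) (XT.nd (nat_lit 78) (nat_lit 152) (nat_lit 0) (XT.lf (nat_lit 0) (nat_lit 53790550268) (nat_lit 76) (nat_lit 104539121252) (nat_lit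 76) (nat_lit 12537174979) (nat_lit 17) (nat_lit 4) (nat_lit 18) (nat_lit 5) (nat_lit 18) (nat_lit 4) (nat_lit 402) (nat_lit 328) (nat_lit 170)) (XT.nd (nat_lit 78) (nat_lit 76) (nat_lit 0) (XT.lf (nat_lit 0) (nat_lit 16088857677) (nat_lit 152) (nat_lit 59021755302) (nat_lit 76) (nat_lit 102644133382) (nat_lit 16) (nat_lit 5) (nat_lit 18) (nat_lit 5) (nat_lit 17) (nat_lit 4) (nat_lit 403) (nat_lit 328) (nat_lit 169)) (XT.lf (nat_lit 0) (nat_lit 1784445702) (nat_lit 76) (nat_lit 43966887385) (nat_lit 152) (nat_lit 139224108341) (nat_lit 15) (nat_lit 5) (nat_lit 16) (nat_lit 5) (nat_lit 17) (nat_lit 4) (nat_lit 404) (nat_lit 328) (nat_lit 168)))) (XT.nd (nat_lit 78) (nat_lit 0) (nat_lit 0) (XT.lf (nat_lit 0) (nat_lit 67677448695) (nat_lit 76) (nat_lit 10217683106) (nat_lit 152) (nat_lit 114612129670) (nat_lit 15) (nat_lit 5) (nat_lit 16) (nat_lit 5) (nat_lit 17) (nat_lit 4) (nat_lit 405) (nat_lit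 328) (nat_lit 167)) (XT.nd (nat_lit 78) (nat_lit 0) (nat_lit 0) (XT.lf (nat_lit 0) (nat_lit 112038543299) (nat_lit 152) (nat_lit 63946842009) (nat_lit 0) (nat_lit 24410666253) (nat_lit 15) (nat_lit 5) (nat_lit 17) (nat_lit 4) (nat_lit 15) (nat_lit 4) (nat_lit 406) (nat_lit 328) (nat_lit 166)) (XT.lf (nat_lit 0) (nat_lit 148055374920) (nat_lit 152) (nat_lit 189637471) (nat_lit 0) (nat_lit 60425956469) (nat_lit 15) (nat_lit 5) (nat_lit 17) (nat_lit 4) (nat_lit 15) (nat_lit 4) (nat_lit 407) (nat_lit 328) (nat_lit 165))))) (XT.nd (nat_lit 234) (nat_lit 76) (nat_lit 0) (XT.nd (nat_lit 78) (nat_lit 76) (nat_lit 0) (XT.lf (nat_lit 0) (nat_lit 68960290329) (nat_lit 76) (nat_lit 117988227420) (nat_lit 76) (nat_lit 30357340964) (nat_lit 14) (nat_lit 4) (nat_lit 15) (nat_lit 5) (nat_lit 15) (nat_lit 4) (nat_lit 408) (nat_lit 328) (nat_lit 164)) (XT.nd (nat_lit 78) (nat_lit 0) (nat_lit 0) (XT.lf (nat_lit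 0) (nat_lit 1370646117) (nat_lit 152) (nat_lit 84822460016) (nat_lit 76) (nat_lit 140178179758) (nat_lit 13) (nat_lit 5) (nat_lit 15) (nat_lit 5) (nat_lit 14) (nat_lit 4) (nat_lit 409) (nat_lit 328) (nat_lit 163)) (XT.lf (nat_lit 0) (nat_lit 33663691997) (nat_lit 152) (nat_lit 18623047487) (nat_lit 76) (nat_lit 183578418768) (nat_lit 13) (nat_lit 5) (nat_lit 15) (nat_lit 5) (nat_lit 14) (nat_lit 4) (nat_lit 410) (nat_lit 328) (nat_lit 162)))) (XT.nd (nat_lit 78) (nat_lit 0) (nat_lit 0) (XT.lf (nat_lit 0) (nat_lit 52566713125) (nat_lit 76) (nat_lit 15824309960) (nat_lit 152) (nat_lit 177401719641) (nat_lit 12) (nat_lit 5) (nat_lit 13) (nat_lit 5) (nat_lit 14) (nat_lit 4) (nat_lit 411) (nat_lit 328) (nat_lit 161)) (XT.nd (nat_lit 78) (nat_lit 0) (nat_lit 0) (XT.lf (nat_lit 0) (nat_lit 105524887468) (nat_lit 152) (nat_lit 128596367981) (nat_lit 0) (nat_lit 22061942771) (nat_lit 12) (nat_lit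 5) (nat_lit 14) (nat_lit 4) (nat_lit 12) (nat_lit 4) (nat_lit 412) (nat_lit 328) (nat_lit 160)) (XT.lf (nat_lit 0) (nat_lit 144773834432) (nat_lit 152) (nat_lit 60996628430) (nat_lit 0) (nat_lit 61309794288) (nat_lit 12) (nat_lit 5) (nat_lit 14) (nat_lit 4) (nat_lit 12) (nat_lit 4) (nat_lit 413) (nat_lit 328) (nat_lit 159))))))) (XT.nd (nat_lit 936) (nat_lit 152) (nat_lit 0) (XT.nd (nat_lit 468) (nat_lit 76) (nat_lit 0) (XT.nd (nat_lit 234) (nat_lit 152) (nat_lit 0) (XT.nd (nat_lit 78) (nat_lit 0) (nat_lit 0) (XT.lf (nat_lit 0) (nat_lit 10311226274) (nat_lit 76) (nat_lit 175834012890) (nat_lit 76) (nat_lit 92368929461) (nat_lit 11) (nat_lit 4) (nat_lit 12) (nat_lit 5) (nat_lit 12) (nat_lit 4) (nat_lit 414) (nat_lit 328) (nat_lit 158)) (XT.nd (nat_lit 78) (nat_lit 0) (nat_lit 0) (XT.lf (nat_lit 0) (nat_lit 87300274031) (nat_lit 76) (nat_lit 143316988194) (nat_lit 76) (nat_lit 59850911162)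 (nat_lit 11) (nat_lit 4) (nat_lit 12) (nat_lit 5) (nat_lit 12) (nat_lit 4) (nat_lit 415) (nat_lit 328) (nat_lit 157)) (XT.lf (nat_lit 0) (nat_lit 168136998091) (nat_lit 76) (nat_lit 109174974704) (nat_lit 76) (nat_lit 25707951383) (nat_lit 11) (nat_lit 4) (nat_lit 12) (nat_lit 5) (nat_lit 12) (nat_lit 4) (nat_lit 416) (nat_lit 328) (nat_lit 156)))) (XT.nd (nat_lit 78) (nat_lit 76) (nat_lit 0) (XT.lf (nat_lit 0) (nat_lit 9816659539) (nat_lit 152) (nat_lit 63343772494) (nat_lit 76) (nat_lit 243030957428) (nat_lit 10) (nat_lit 5) (nat_lit 12) (nat_lit 5) (nat_lit 11) (nat_lit 4) (nat_lit 417) (nat_lit 328) (nat_lit 155)) (XT.nd (nat_lit 78) (nat_lit 0) (nat_lit 0) (XT.lf (nat_lit 0) (nat_lit 11724515770) (nat_lit 76) (nat_lit 34711239660) (nat_lit 152) (nat_lit 283555490073) (nat_lit 9) (nat_lit 5) (nat_lit 10) (nat_lit 5) (nat_lit 11) (nat_lit 4) (nat_lit 418) (nat_lit 328) (nat_lit 154))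 (XT.lf (nat_lit 0) (nat_lit 86063684939) (nat_lit 152) (nat_lit 251789688050) (nat_lit 0) (nat_lit 6568827508) (nat_lit 9) (nat_lit 5) (nat_lit 11) (nat_lit 4) (nat_lit 9) (nat_lit 4) (nat_lit 419) (nat_lit 328) (nat_lit 153))))) (XT.nd (nat_lit 234) (nat_lit 76) (nat_lit 0) (XT.nd (nat_lit 78) (nat_lit 0) (nat_lit 0) (XT.lf (nat_lit 0) (nat_lit 128241247923) (nat_lit 152) (nat_lit 182559394504) (nat_lit 0) (nat_lit 48745649050) (nat_lit 9) (nat_lit 5) (nat_lit 11) (nat_lit 4) (nat_lit 9) (nat_lit 4) (nat_lit 420) (nat_lit 328) (nat_lit 152)) (XT.nd (nat_lit 78) (nat_lit 0) (nat_lit 0) (XT.lf (nat_lit 0) (nat_lit 172526927422) (nat_lit 152) (nat_lit 109869075334) (nat_lit 0) (nat_lit 93030622413) (nat_lit 9) (nat_lit 5) (nat_lit 11) (nat_lit 4) (nat_lit 9) (nat_lit 4) (nat_lit 421) (nat_lit 328) (nat_lit 151)) (XT.lf (nat_lit 0) (nat_lit 219026165531) (nat_lit 152) (nat_lit 33545658351)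 (nat_lit 0) (nat_lit 139529188012) (nat_lit 9) (nat_lit 5) (nat_lit 11) (nat_lit 4) (nat_lit 9) (nat_lit 4) (nat_lit 422) (nat_lit 328) (nat_lit 150)))) (XT.nd (nat_lit 78) (nat_lit 0) (nat_lit 0) (XT.lf (nat_lit 0) (nat_lit 48133139941) (nat_lit 76) (nat_lit 220468027987) (nat_lit 76) (nat_lit 140970409982) (nat_lit 8) (nat_lit 4) (nat_lit 9) (nat_lit 5) (nat_lit 9) (nat_lit 4) (nat_lit 423) (nat_lit 328) (nat_lit 149)) (XT.nd (nat_lit 78) (nat_lit 0) (nat_lit 0) (XT.lf (nat_lit 0) (nat_lit 135059178826) (nat_lit 76) (nat_lit 186163174900) (nat_lit 76) (nat_lit 106664946908) (nat_lit 8) (nat_lit 4) (nat_lit 9) (nat_lit 5) (nat_lit 9) (nat_lit 4) (nat_lit 424) (nat_lit 328) (nat_lit 148)) (XT.lf (nat_lit 0) (nat_lit 226330254103) (nat_lit 76) (nat_lit 150143698354) (nat_lit 76) (nat_lit 70644889423) (nat_lit 8) (nat_lit 4) (nat_lit 9) (nat_lit 5) (nat_lit 9) (nat_lit 4) (nat_lit 425) (nat_lit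 328) (nat_lit 147)))))) (XT.nd (nat_lit 468) (nat_lit 0) (nat_lit 0) (XT.nd (nat_lit 234) (nat_lit 0) (nat_lit 0) (XT.nd (nat_lit 78) (nat_lit 152) (nat_lit 0) (XT.lf (nat_lit 0) (nat_lit 322163677854) (nat_lit 76) (nat_lit 112323837692) (nat_lit 76) (nat_lit 32824475485) (nat_lit 8) (nat_lit 4) (nat_lit 9) (nat_lit 5) (nat_lit 9) (nat_lit 4) (nat_lit 426) (nat_lit 328) (nat_lit 146)) (XT.nd (nat_lit 78) (nat_lit 76) (nat_lit 0) (XT.lf (nat_lit 0) (nat_lit 6665937511) (nat_lit 152) (nat_lit 65834717238) (nat_lit 76) (nat_lit 416008796510) (nat_lit 7) (nat_lit 5) (nat_lit 9) (nat_lit 5) (nat_lit 8) (nat_lit 4) (nat_lit 427) (nat_lit 328) (nat_lit 145)) (XT.lf (nat_lit 0) (nat_lit 17464307185) (nat_lit 76) (nat_lit 29835545575) (nat_lit 152) (nat_lit 463426421525) (nat_lit 6) (nat_lit 5) (nat_lit 7) (nat_lit 5) (nat_lit 8) (nat_lit 4) (nat_lit 428) (nat_lit 328) (nat_lit 144)))) (XT.nd (nat_lit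 78) (nat_lit 0) (nat_lit 0) (XT.lf (nat_lit 0) (nat_lit 91331729864) (nat_lit 152) (nat_lit 427037278735) (nat_lit 0) (nat_lit 15616616612) (nat_lit 6) (nat_lit 5) (nat_lit 8) (nat_lit 4) (nat_lit 6) (nat_lit 4) (nat_lit 429) (nat_lit 328) (nat_lit 143)) (XT.nd (nat_lit 78) (nat_lit 0) (nat_lit 0) (XT.lf (nat_lit 0) (nat_lit 138053769090) (nat_lit 152) (nat_lit 357991523898) (nat_lit 0) (nat_lit 62338222332) (nat_lit 6) (nat_lit 5) (nat_lit 8) (nat_lit 4) (nat_lit 6) (nat_lit 4) (nat_lit 430) (nat_lit 328) (nat_lit 142)) (XT.lf (nat_lit 0) (nat_lit 187111396908) (nat_lit 152) (nat_lit 285494491456) (nat_lit 0) (nat_lit 111395437287) (nat_lit 6) (nat_lit 5) (nat_lit 8) (nat_lit 4) (nat_lit 6) (nat_lit 4) (nat_lit 431) (nat_lit 328) (nat_lit 141))))) (XT.nd (nat_lit 38844) (nat_lit 0) (nat_lit 7676) (XT.nd (nat_lit 78) (nat_lit 0) (nat_lit 0) (XT.lf (nat_lit 0) (nat_lit 238621417194) (nat_lit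 152) (nat_lit 209373569427) (nat_lit 0) (nat_lit 162905064370) (nat_lit 6) (nat_lit 5) (nat_lit 8) (nat_lit 4) (nat_lit 6) (nat_lit 4) (nat_lit 432) (nat_lit 328) (nat_lit 140)) (XT.nd (nat_lit 78) (nat_lit 0) (nat_lit 0) (XT.lf (nat_lit 0) (nat_lit 292706472853) (nat_lit 152) (nat_lit 129447517519) (nat_lit 0) (nat_lit 216989745551) (nat_lit 6) (nat_lit 5) (nat_lit 8) (nat_lit 4) (nat_lit 6) (nat_lit 4) (nat_lit 433) (nat_lit 328) (nat_lit 139)) (XT.lf (nat_lit 0) (nat_lit 349495337828) (nat_lit 152) (nat_lit 45526035610) (nat_lit 0) (nat_lit 273778253879) (nat_lit 6) (nat_lit 5) (nat_lit 8) (nat_lit 4) (nat_lit 6) (nat_lit 4) (nat_lit 434) (nat_lit 328) (nat_lit 138)))) (XT.nd (nat_lit 156) (nat_lit 760) (nat_lit 0) (XT.nd (nat_lit 78) (nat_lit 0) (nat_lit 0) (XT.lf (nat_lit 0) (nat_lit 4171512965) (nat_lit 0) (nat_lit 4171512965) (nat_lit 684) (nat_lit 116735614) (nat_lit 117) (nat_lit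 5) (nat_lit 117) (nat_lit 3) (nat_lit 126) (nat_lit 3) (nat_lit 329) (nat_lit 329) (nat_lit 242)) (XT.lf (nat_lit 0) (nat_lit 16844536911) (nat_lit 0) (nat_lit 480751824) (nat_lit 684) (nat_lit 5912566) (nat_lit 117) (nat_lit 5) (nat_lit 117) (nat_lit 3) (nat_lit 126) (nat_lit 3) (nat_lit 330) (nat_lit 329) (nat_lit 241))) (XT.nd (nat_lit 78) (nat_lit 0) (nat_lit 0) (XT.lf (nat_lit 0) (nat_lit 463743316) (nat_lit 760) (nat_lit 9620412531) (nat_lit 836) (nat_lit 7667229324) (nat_lit 107) (nat_lit 5) (nat_lit 117) (nat_lit 5) (nat_lit 118) (nat_lit 5) (nat_lit 331) (nat_lit 329) (nat_lit 240)) (XT.lf (nat_lit 0) (nat_lit 959151517) (nat_lit 760) (nat_lit 1012174803) (nat_lit 836) (nat_lit 16221135593) (nat_lit 107) (nat_lit 5) (nat_lit 117) (nat_lit 5) (nat_lit 118) (nat_lit 5) (nat_lit 332) (nat_lit 329) (nat_lit 239))))))))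
noncomputable def xc173 : XT := (XT.nd (nat_lit 1950) (nat_lit 2432) (nat_lit 0) (XT.nd (nat_lit 936) (nat_lit 2128) (nat_lit 0) (XT.nd (nat_lit 468) (nat_lit 1216) (nat_lit 0) (XT.nd (nat_lit 234) (nat_lit 0) (nat_lit 76) (XT.nd (nat_lit 78) (nat_lit 0) (nat_lit 0) (XT.lf (nat_lit 0) (nat_lit 1699950230) (nat_lit 760) (nat_lit 10470498232) (nat_lit 836) (nat_lit 6474124394) (nat_lit 108) (nat_lit 5) (nat_lit 118) (nat_lit 5) (nat_lit 119) (nat_lit 5) (nat_lit 333) (nat_lit 329) (nat_lit 238)) (XT.nd (nat_lit 78) (nat_lit 0) (nat_lit 76) (XT.lf (nat_lit 0) (nat_lit 2514975310) (nat_lit 760) (nat_lit 1304732635) (nat_lit 836) (nat_lit 15297732907) (nat_lit 108) (nat_lit 5) (nat_lit 118) (nat_lit 5) (nat_lit 119) (nat_lit 5) (nat_lit 334) (nat_lit 329) (nat_lit 237)) (XT.lf (nat_lit 0) (nat_lit 3572367872) (nat_lit 760) (nat_lit 11101324044) (nat_lit 836) (nat_lit 4930189831) (nat_lit 109)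 (nat_lit 5) (nat_lit 119) (nat_lit 5) (nat_lit 120) (nat_lit 5) (nat_lit 335) (nat_lit 329) (nat_lit 236)))) (XT.nd (nat_lit 78) (nat_lit 0) (nat_lit 76) (XT.lf (nat_lit 0) (nat_lit 4756252331) (nat_lit 760) (nat_lit 1339596764) (nat_lit 836) (nat_lit 14015124299) (nat_lit 109) (nat_lit 5) (nat_lit 119) (nat_lit 5) (nat_lit 120) (nat_lit 5) (nat_lit 336) (nat_lit 329) (nat_lit 235)) (XT.nd (nat_lit 78) (nat_lit 0) (nat_lit 0) (XT.lf (nat_lit 0) (nat_lit 6179846857) (nat_lit 760) (nat_lit 11488257925) (nat_lit 836) (nat_lit 2966298401) (nat_lit 110) (nat_lit 5) (nat_lit 120) (nat_lit 5) (nat_lit 121) (nat_lit 5) (nat_lit 337) (nat_lit 329) (nat_lit 234)) (XT.lf (nat_lit 0) (nat_lit 7787135150) (nat_lit 760) (nat_lit 1089110703) (nat_lit 836) (nat_lit 12302141815) (nat_lit 110) (nat_lit 5) (nat_lit 120) (nat_lit 5) (nat_lit 121) (nat_lit 5) (nat_lit 338) (nat_lit 329) (nat_lit 233))))) (XT.nd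 (nat_lit 234) (nat_lit 684) (nat_lit 0) (XT.nd (nat_lit 78) (nat_lit 760) (nat_lit 0) (XT.lf (nat_lit 0) (nat_lit 9631396457) (nat_lit 760) (nat_lit 11603790297) (nat_lit 76) (nat_lit 506562676) (nat_lit 111) (nat_lit 5) (nat_lit 121) (nat_lit 5) (nat_lit 112) (nat_lit 5) (nat_lit 339) (nat_lit 329) (nat_lit 232)) (XT.nd (nat_lit 78) (nat_lit 760) (nat_lit 0) (XT.lf (nat_lit 0) (nat_lit 11722525659) (nat_lit 760) (nat_lit 522567523) (nat_lit 76) (nat_lit 10080461437) (nat_lit 111) (nat_lit 5) (nat_lit 121) (nat_lit 5) (nat_lit 112) (nat_lit 5) (nat_lit 340) (nat_lit 329) (nat_lit 231)) (XT.lf (nat_lit 0) (nat_lit 11471701724) (nat_lit 760) (nat_lit 2616467977) (nat_lit 836) (nat_lit 8841890140) (nat_lit 101) (nat_lit 5) (nat_lit 111) (nat_lit 5) (nat_lit 112) (nat_lit 5) (nat_lit 341) (nat_lit 329) (nat_lit 230)))) (XT.nd (nat_lit 78) (nat_lit 304) (nat_lit 0) (XT.lf (nat_lit 0) (nat_lit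 406849384) (nat_lit 380) (nat_lit 16288764737) (nat_lit 456) (nat_lit 6863007624) (nat_lit 96) (nat_lit 5) (nat_lit 101) (nat_lit 5) (nat_lit 102) (nat_lit 5) (nat_lit 342) (nat_lit 329) (nat_lit 229)) (XT.nd (nat_lit 78) (nat_lit 304) (nat_lit 0) (XT.lf (nat_lit 0) (nat_lit 13210441385) (nat_lit 380) (nat_lit 6450707997) (nat_lit 456) (nat_lit 4546083409) (nat_lit 96) (nat_lit 5) (nat_lit 101) (nat_lit 5) (nat_lit 102) (nat_lit 5) (nat_lit 343) (nat_lit 329) (nat_lit 228)) (XT.lf (nat_lit 0) (nat_lit 1753092689) (nat_lit 304) (nat_lit 21101678939) (nat_lit 380) (nat_lit 2029518898) (nat_lit 92) (nat_lit 5) (nat_lit 96) (nat_lit 5) (nat_lit 97) (nat_lit 5) (nat_lit 344) (nat_lit 329) (nat_lit 227)))))) (XT.nd (nat_lit 468) (nat_lit 1064) (nat_lit 0) (XT.nd (nat_lit 234) (nat_lit 608) (nat_lit 0) (XT.nd (nat_lit 78) (nat_lit 380) (nat_lit 0) (XT.lf (nat_lit 0) (nat_lit 880292914) (nat_lit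 380) (nat_lit 10190530802) (nat_lit 76) (nat_lit 14509553284) (nat_lit 91) (nat_lit 5) (nat_lit 96) (nat_lit 5) (nat_lit 92) (nat_lit 5) (nat_lit 345) (nat_lit 329) (nat_lit 226)) (XT.nd (nat_lit 78) (nat_lit 0) (nat_lit 0) (XT.lf (nat_lit 0) (nat_lit 3466736800) (nat_lit 380) (nat_lit 447156493) (nat_lit 456) (nat_lit 22393391550) (nat_lit 86) (nat_lit 5) (nat_lit 91) (nat_lit 5) (nat_lit 92) (nat_lit 5) (nat_lit 346) (nat_lit 329) (nat_lit 225)) (XT.lf (nat_lit 0) (nat_lit 7434368040) (nat_lit 456) (nat_lit 9079608815) (nat_lit 76) (nat_lit 10539806974) (nat_lit 86) (nat_lit 5) (nat_lit 92) (nat_lit 5) (nat_lit 87) (nat_lit 5) (nat_lit 347) (nat_lit 329) (nat_lit 224)))) (XT.nd (nat_lit 78) (nat_lit 304) (nat_lit 0) (XT.lf (nat_lit 0) (nat_lit 5531121665) (nat_lit 304) (nat_lit 5686390136) (nat_lit 380) (nat_lit 16615768908) (nat_lit 82) (nat_lit 5) (nat_lit 86) (nat_lit 5) (nat_lit 87)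 (nat_lit 5) (nat_lit 348) (nat_lit 329) (nat_lit 223)) (XT.nd (nat_lit 78) (nat_lit 304) (nat_lit 0) (XT.lf (nat_lit 0) (nat_lit 15427978069) (nat_lit 380) (nat_lit 7555851759) (nat_lit 76) (nat_lit 5656019297) (nat_lit 82) (nat_lit 5) (nat_lit 87) (nat_lit 5) (nat_lit 83) (nat_lit 5) (nat_lit 349) (nat_lit 329) (nat_lit 222)) (XT.lf (nat_lit 0) (nat_lit 8085570439) (nat_lit 304) (nat_lit 11976337075) (nat_lit 380) (nat_lit 9414196180) (nat_lit 78) (nat_lit 5) (nat_lit 82) (nat_lit 5) (nat_lit 83) (nat_lit 5) (nat_lit 350) (nat_lit 329) (nat_lit 221))))) (XT.nd (nat_lit 234) (nat_lit 760) (nat_lit 0) (XT.nd (nat_lit 78) (nat_lit 304) (nat_lit 0) (XT.lf (nat_lit 0) (nat_lit 24763741487) (nat_lit 304) (nat_lit 285426923) (nat_lit 380) (nat_lit 5298925332) (nat_lit 78) (nat_lit 5) (nat_lit 82) (nat_lit 5) (nat_lit 83) (nat_lit 5) (nat_lit 351) (nat_lit 329) (nat_lit 220)) (XT.nd (nat_lit 78)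 (nat_lit 76) (nat_lit 0) (XT.lf (nat_lit 0) (nat_lit 11175044727) (nat_lit 228) (nat_lit 19466374011) (nat_lit 304) (nat_lit 604487518) (nat_lit 75) (nat_lit 5) (nat_lit 78) (nat_lit 5) (nat_lit 79) (nat_lit 5) (nat_lit 352) (nat_lit 329) (nat_lit 219)) (XT.lf (nat_lit 0) (nat_lit 4281084971) (nat_lit 304) (nat_lit 3298988535) (nat_lit 76) (nat_lit 24600422299) (nat_lit 74) (nat_lit 5) (nat_lit 78) (nat_lit 5) (nat_lit 75) (nat_lit 5) (nat_lit 353) (nat_lit 329) (nat_lit 218)))) (XT.nd (nat_lit 156) (nat_lit 456) (nat_lit 0) (XT.nd (nat_lit 78) (nat_lit 0) (nat_lit 0) (XT.lf (nat_lit 0) (nat_lit 9695913252) (nat_lit 380) (nat_lit 18463587696) (nat_lit 76) (nat_lit 4986557507) (nat_lit 70) (nat_lit 5) (nat_lit 75) (nat_lit 5) (nat_lit 71) (nat_lit 5) (nat_lit 354) (nat_lit 329) (nat_lit 217)) (XT.lf (nat_lit 0) (nat_lit 15556976430) (nat_lit 380) (nat_lit 612167408) (nat_lit 76) (nat_lit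 17981984251) (nat_lit 70) (nat_lit 5) (nat_lit 75) (nat_lit 5) (nat_lit 71) (nat_lit 5) (nat_lit 355) (nat_lit 329) (nat_lit 216))) (XT.nd (nat_lit 78) (nat_lit 228) (nat_lit 0) (XT.lf (nat_lit 0) (nat_lit 18724044814) (nat_lit 228) (nat_lit 3274091448) (nat_lit 304) (nat_lit 13193966124) (nat_lit 67) (nat_lit 5) (nat_lit 70) (nat_lit 5) (nat_lit 71) (nat_lit 5) (nat_lit 356) (nat_lit 329) (nat_lit 215)) (XT.lf (nat_lit 0) (nat_lit 2681921485) (nat_lit 228) (nat_lit 26286942735) (nat_lit 304) (nat_lit 7305888870) (nat_lit 64) (nat_lit 5) (nat_lit 67) (nat_lit 5) (nat_lit 68) (nat_lit 5) (nat_lit 357) (nat_lit 329) (nat_lit 214))))))) (XT.nd (nat_lit 936) (nat_lit 1064) (nat_lit 0) (XT.nd (nat_lit 468) (nat_lit 684) (nat_lit 0) (XT.nd (nat_lit 234) (nat_lit 380) (nat_lit 0) (XT.nd (nat_lit 78) (nat_lit 304) (nat_lit 0) (XT.lf (nat_lit 0) (nat_lit 23298616897) (nat_lit 228) (nat_lit 13316174212)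 (nat_lit 304) (nat_lit 780415138) (nat_lit 64) (nat_lit 5) (nat_lit 67) (nat_lit 5) (nat_lit 68) (nat_lit 5) (nat_lit 358) (nat_lit 329) (nat_lit 213)) (XT.nd (nat_lit 78) (nat_lit 0) (nat_lit 0) (XT.lf (nat_lit 0) (nat_lit 5981218003) (nat_lit 304) (nat_lit 32089859248) (nat_lit 76) (nat_lit 490657732) (nat_lit 60) (nat_lit 5) (nat_lit 64) (nat_lit 5) (nat_lit 61) (nat_lit 5) (nat_lit 359) (nat_lit 329) (nat_lit 212)) (XT.lf (nat_lit 0) (nat_lit 13510863307) (nat_lit 304) (nat_lit 11458486088) (nat_lit 76) (nat_lit 14793795831) (nat_lit 60) (nat_lit 5) (nat_lit 64) (nat_lit 5) (nat_lit 61) (nat_lit 5) (nat_lit 360) (nat_lit 329) (nat_lit 211)))) (XT.nd (nat_lit 78) (nat_lit 152) (nat_lit 0) (XT.lf (nat_lit 0) (nat_lit 10534980804) (nat_lit 228) (nat_lit 11041932001) (nat_lit 304) (nat_lit 19439719583) (nat_lit 57) (nat_lit 5) (nat_lit 60) (nat_lit 5) (nat_lit 61) (nat_lit 5) (nat_lit 361)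 (nat_lit 329) (nat_lit 210)) (XT.nd (nat_lit 78) (nat_lit 152) (nat_lit 0) (XT.lf (nat_lit 0) (nat_lit 30294947032) (nat_lit 304) (nat_lit 8363005736) (nat_lit 76) (nat_lit 3662409413) (nat_lit 57) (nat_lit 5) (nat_lit 61) (nat_lit 5) (nat_lit 58) (nat_lit 5) (nat_lit 362) (nat_lit 329) (nat_lit 209)) (XT.lf (nat_lit 0) (nat_lit 15159327085) (nat_lit 152) (nat_lit 24702987127) (nat_lit 228) (nat_lit 3806294962) (nat_lit 55) (nat_lit 5) (nat_lit 57) (nat_lit 5) (nat_lit 58) (nat_lit 5) (nat_lit 363) (nat_lit 329) (nat_lit 208))))) (XT.nd (nat_lit 234) (nat_lit 380) (nat_lit 0) (XT.nd (nat_lit 78) (nat_lit 228) (nat_lit 0) (XT.lf (nat_lit 0) (nat_lit 4809113954) (nat_lit 228) (nat_lit 5013161777) (nat_lit 76) (nat_lit 35251243017) (nat_lit 54) (nat_lit 5) (nat_lit 57) (nat_lit 5) (nat_lit 55) (nat_lit 5) (nat_lit 364) (nat_lit 329) (nat_lit 207)) (XT.nd (nat_lit 78) (nat_lit 0) (nat_lit 0)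 (XT.lf (nat_lit 0) (nat_lit 14136065925) (nat_lit 304) (nat_lit 26389801362) (nat_lit 76) (nat_lit 5999254110) (nat_lit 51) (nat_lit 5) (nat_lit 55) (nat_lit 5) (nat_lit 52) (nat_lit 5) (nat_lit 365) (nat_lit 329) (nat_lit 206)) (XT.lf (nat_lit 0) (nat_lit 24172714540) (nat_lit 304) (nat_lit 1498420085) (nat_lit 76) (nat_lit 22366003968) (nat_lit 51) (nat_lit 5) (nat_lit 55) (nat_lit 5) (nat_lit 52) (nat_lit 5) (nat_lit 366) (nat_lit 329) (nat_lit 205)))) (XT.nd (nat_lit 78) (nat_lit 228) (nat_lit 0) (XT.lf (nat_lit 0) (nat_lit 25446038793) (nat_lit 152) (nat_lit 9658665538) (nat_lit 228) (nat_lit 14500378664) (nat_lit 49) (nat_lit 5) (nat_lit 51) (nat_lit 5) (nat_lit 52) (nat_lit 5) (nat_lit 367) (nat_lit 329) (nat_lit 204)) (XT.nd (nat_lit 78) (nat_lit 76) (nat_lit 0) (XT.lf (nat_lit 0) (nat_lit 2501554636) (nat_lit 152) (nat_lit 44254568495) (nat_lit 228) (nat_lit 4486661704) (nat_lit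 47) (nat_lit 5) (nat_lit 49) (nat_lit 5) (nat_lit 50) (nat_lit 5) (nat_lit 368) (nat_lit 329) (nat_lit 203)) (XT.lf (nat_lit 0) (nat_lit 6405311156) (nat_lit 228) (nat_lit 21873147571) (nat_lit 76) (nat_lit 24650684311) (nat_lit 46) (nat_lit 5) (nat_lit 49) (nat_lit 5) (nat_lit 47) (nat_lit 5) (nat_lit 369) (nat_lit 329) (nat_lit 202)))))) (XT.nd (nat_lit 468) (nat_lit 532) (nat_lit 0) (XT.nd (nat_lit 234) (nat_lit 228) (nat_lit 0) (XT.nd (nat_lit 78) (nat_lit 152) (nat_lit 0) (XT.lf (nat_lit 0) (nat_lit 6466018491) (nat_lit 152) (nat_lit 11322515803) (nat_lit 228) (nat_lit 36902737085) (nat_lit 44) (nat_lit 5) (nat_lit 46) (nat_lit 5) (nat_lit 47) (nat_lit 5) (nat_lit 370) (nat_lit 329) (nat_lit 201)) (XT.nd (nat_lit 78) (nat_lit 152) (nat_lit 0) (XT.lf (nat_lit 0) (nat_lit 30215139417) (nat_lit 228) (nat_lit 19654486872) (nat_lit 76) (nat_lit 6648170203) (nat_lit 44) (nat_lit 5) (nat_lit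 47) (nat_lit 5) (nat_lit 45) (nat_lit 5) (nat_lit 371) (nat_lit 329) (nat_lit 200)) (XT.lf (nat_lit 0) (nat_lit 10489435824) (nat_lit 152) (nat_lit 33119714666) (nat_lit 228) (nat_lit 14809194914) (nat_lit 42) (nat_lit 5) (nat_lit 44) (nat_lit 5) (nat_lit 45) (nat_lit 5) (nat_lit 372) (nat_lit 329) (nat_lit 199)))) (XT.nd (nat_lit 78) (nat_lit 228) (nat_lit 0) (XT.lf (nat_lit 0) (nat_lit 42817508611) (nat_lit 152) (nat_lit 15184976112) (nat_lit 228) (nat_lit 2394957173) (nat_lit 42) (nat_lit 5) (nat_lit 44) (nat_lit 5) (nat_lit 45) (nat_lit 5) (nat_lit 373) (nat_lit 329) (nat_lit 198)) (XT.nd (nat_lit 78) (nat_lit 0) (nat_lit 0) (XT.lf (nat_lit 0) (nat_lit 10587330656) (nat_lit 228) (nat_lit 47937487798) (nat_lit 76) (nat_lit 3927975681) (nat_lit 39) (nat_lit 5) (nat_lit 42) (nat_lit 5) (nat_lit 40) (nat_lit 5) (nat_lit 374) (nat_lit 329) (nat_lit 197)) (XT.lf (nat_lit 0) (nat_lit 24686688486)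 (nat_lit 228) (nat_lit 16068750143) (nat_lit 76) (nat_lit 23826091277) (nat_lit 39) (nat_lit 5) (nat_lit 42) (nat_lit 5) (nat_lit 40) (nat_lit 5) (nat_lit 375) (nat_lit 329) (nat_lit 196))))) (XT.nd (nat_lit 234) (nat_lit 228) (nat_lit 0) (XT.nd (nat_lit 78) (nat_lit 152) (nat_lit 0) (XT.lf (nat_lit 0) (nat_lit 17963325311) (nat_lit 152) (nat_lit 21805196680) (nat_lit 228) (nat_lit 27034306127) (nat_lit 37) (nat_lit 5) (nat_lit 39) (nat_lit 5) (nat_lit 40) (nat_lit 5) (nat_lit 376) (nat_lit 329) (nat_lit 195)) (XT.nd (nat_lit 78) (nat_lit 152) (nat_lit 0) (XT.lf (nat_lit 0) (nat_lit 54249918835) (nat_lit 152) (nat_lit 1623773423) (nat_lit 228) (nat_lit 13248037718) (nat_lit 37) (nat_lit 5) (nat_lit 39) (nat_lit 5) (nat_lit 40) (nat_lit 5) (nat_lit 377) (nat_lit 329) (nat_lit 194)) (XT.lf (nat_lit 0) (nat_lit 1831730067) (nat_lit 152) (nat_lit 50393229582) (nat_lit 76) (nat_lit 19298486155)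 (nat_lit 35) (nat_lit 5) (nat_lit 37) (nat_lit 5) (nat_lit 36) (nat_lit 5) (nat_lit 378) (nat_lit 329) (nat_lit 193)))) (XT.nd (nat_lit 156) (nat_lit 76) (nat_lit 0) (XT.nd (nat_lit 78) (nat_lit 152) (nat_lit 0) (XT.lf (nat_lit 0) (nat_lit 17500107199) (nat_lit 152) (nat_lit 14836765301) (nat_lit 76) (nat_lit 41683524639) (nat_lit 35) (nat_lit 5) (nat_lit 37) (nat_lit 5) (nat_lit 36) (nat_lit 5) (nat_lit 379) (nat_lit 329) (nat_lit 192)) (XT.lf (nat_lit 0) (nat_lit 23236627441) (nat_lit 152) (nat_lit 11075428877) (nat_lit 228) (nat_lit 42312132882) (nat_lit 33) (nat_lit 5) (nat_lit 35) (nat_lit 5) (nat_lit 36) (nat_lit 5) (nat_lit 380) (nat_lit 329) (nat_lit 191))) (XT.nd (nat_lit 78) (nat_lit 76) (nat_lit 0) (XT.lf (nat_lit 0) (nat_lit 52393007986) (nat_lit 228) (nat_lit 15801204424) (nat_lit 76) (nat_lit 11142538975) (nat_lit 33) (nat_lit 5) (nat_lit 36) (nat_lit 5) (nat_lit 34) (nat_lit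 4) (nat_lit 381) (nat_lit 329) (nat_lit 190)) (XT.lf (nat_lit 0) (nat_lit 24254795250) (nat_lit 76) (nat_lit 47680974463) (nat_lit 152) (nat_lit 10221284582) (nat_lit 32) (nat_lit 5) (nat_lit 33) (nat_lit 5) (nat_lit 34) (nat_lit 4) (nat_lit 382) (nat_lit 329) (nat_lit 189))))))))
noncomputable def xc174 : XT := (XT.nd (nat_lit 1872) (nat_lit 684) (nat_lit 0) (XT.nd (nat_lit 936) (nat_lit 532) (nat_lit 0) (XT.nd (nat_lit 468) (nat_lit 228) (nat_lit 0) (XT.nd (nat_lit 234) (nat_lit 304) (nat_lit 0) (XT.nd (nat_lit 78) (nat_lit 152) (nat_lit 0) (XT.lf (nat_lit 0) (nat_lit 7371968506) (nat_lit 152) (nat_lit 18366185325) (nat_lit 76) (nat_lit 59361015870) (nat_lit 31) (nat_lit 5) (nat_lit 33) (nat_lit 5) (nat_lit 32) (nat_lit 5) (nat_lit 383) (nat_lit 329) (nat_lit 188)) (XT.nd (nat_lit 78) (nat_lit 0) (nat_lit 0) (XT.lf (nat_lit 0) (nat_lit 23734567868) (nat_lit 152) (nat_lit 2135018000) (nat_lit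 228) (nat_lit 62292017355) (nat_lit 29) (nat_lit 5) (nat_lit 31) (nat_lit 5) (nat_lit 32) (nat_lit 5) (nat_lit 384) (nat_lit 329) (nat_lit 187)) (XT.lf (nat_lit 0) (nat_lit 45959485978) (nat_lit 228) (nat_lit 23146553341) (nat_lit 76) (nat_lit 22237749617) (nat_lit 29) (nat_lit 5) (nat_lit 32) (nat_lit 5) (nat_lit 30) (nat_lit 4) (nat_lit 385) (nat_lit 329) (nat_lit 186)))) (XT.nd (nat_lit 78) (nat_lit 228) (nat_lit 0) (XT.lf (nat_lit 0) (nat_lit 20825462993) (nat_lit 76) (nat_lit 46586333269) (nat_lit 152) (nat_lit 27255392495) (nat_lit 28) (nat_lit 5) (nat_lit 29) (nat_lit 5) (nat_lit 30) (nat_lit 4) (nat_lit 386) (nat_lit 329) (nat_lit 185)) (XT.nd (nat_lit 78) (nat_lit 228) (nat_lit 0) (XT.lf (nat_lit 0) (nat_lit 67795706923) (nat_lit 76) (nat_lit 22530828420) (nat_lit 152) (nat_lit 7810733112) (nat_lit 28) (nat_lit 5) (nat_lit 29) (nat_lit 5) (nat_lit 30) (nat_lit 4) (nat_lit 387)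 (nat_lit 329) (nat_lit 184)) (XT.lf (nat_lit 0) (nat_lit 12494431651) (nat_lit 228) (nat_lit 86175391300) (nat_lit 76) (nat_lit 3086601403) (nat_lit 25) (nat_lit 5) (nat_lit 28) (nat_lit 5) (nat_lit 26) (nat_lit 4) (nat_lit 388) (nat_lit 329) (nat_lit 183))))) (XT.nd (nat_lit 234) (nat_lit 152) (nat_lit 0) (XT.nd (nat_lit 78) (nat_lit 76) (nat_lit 0) (XT.lf (nat_lit 0) (nat_lit 34441892856) (nat_lit 228) (nat_lit 41187390129) (nat_lit 76) (nat_lit 29876376797) (nat_lit 25) (nat_lit 5) (nat_lit 28) (nat_lit 5) (nat_lit 26) (nat_lit 4) (nat_lit 389) (nat_lit 329) (nat_lit 182)) (XT.nd (nat_lit 78) (nat_lit 0) (nat_lit 0) (XT.lf (nat_lit 0) (nat_lit 6246248141) (nat_lit 76) (nat_lit 51335999875) (nat_lit 152) (nat_lit 51855333375) (nat_lit 24) (nat_lit 5) (nat_lit 25) (nat_lit 5) (nat_lit 26) (nat_lit 4) (nat_lit 390) (nat_lit 329) (nat_lit 181)) (XT.lf (nat_lit 0) (nat_lit 57477878983) (nat_lit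 76) (nat_lit 25097308495) (nat_lit 152) (nat_lit 30956133707) (nat_lit 24) (nat_lit 5) (nat_lit 25) (nat_lit 5) (nat_lit 26) (nat_lit 4) (nat_lit 391) (nat_lit 329) (nat_lit 180)))) (XT.nd (nat_lit 78) (nat_lit 152) (nat_lit 0) (XT.lf (nat_lit 0) (nat_lit 108854183965) (nat_lit 152) (nat_lit 6600478925) (nat_lit 0) (nat_lit 2373264989) (nat_lit 24) (nat_lit 5) (nat_lit 26) (nat_lit 4) (nat_lit 24) (nat_lit 4) (nat_lit 392) (nat_lit 329) (nat_lit 179)) (XT.nd (nat_lit 78) (nat_lit 0) (nat_lit 0) (XT.lf (nat_lit 0) (nat_lit 14808807174) (nat_lit 152) (nat_lit 76126228963) (nat_lit 76) (nat_lit 31335687136) (nat_lit 22) (nat_lit 5) (nat_lit 24) (nat_lit 5) (nat_lit 23) (nat_lit 4) (nat_lit 393) (nat_lit 329) (nat_lit 178)) (XT.lf (nat_lit 0) (nat_lit 39590726035) (nat_lit 152) (nat_lit 25326499770) (nat_lit 76) (nat_lit 62005486617) (nat_lit 22) (nat_lit 5) (nat_lit 24) (nat_lit 5) (nat_lit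 23) (nat_lit 4) (nat_lit 394) (nat_lit 329) (nat_lit 177)))))) (XT.nd (nat_lit 468) (nat_lit 228) (nat_lit 0) (XT.nd (nat_lit 234) (nat_lit 152) (nat_lit 0) (XT.nd (nat_lit 78) (nat_lit 76) (nat_lit 0) (XT.lf (nat_lit 0) (nat_lit 28936156132) (nat_lit 76) (nat_lit 37125646869) (nat_lit 152) (nat_lit 65722995258) (nat_lit 21) (nat_lit 5) (nat_lit 22) (nat_lit 5) (nat_lit 23) (nat_lit 4) (nat_lit 395) (nat_lit 329) (nat_lit 176)) (XT.nd (nat_lit 78) (nat_lit 76) (nat_lit 0) (XT.lf (nat_lit 0) (nat_lit 86788077829) (nat_lit 76) (nat_lit 7495592609) (nat_lit 152) (nat_lit 42584956441) (nat_lit 21) (nat_lit 5) (nat_lit 22) (nat_lit 5) (nat_lit 23) (nat_lit 4) (nat_lit 396) (nat_lit 329) (nat_lit 175)) (XT.lf (nat_lit 0) (nat_lit 5117990359) (nat_lit 76) (nat_lit 119245636740) (nat_lit 76) (nat_lit 17820670346) (nat_lit 20) (nat_lit 4) (nat_lit 21) (nat_lit 5) (nat_lit 21) (nat_lit 4) (nat_lit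 397) (nat_lit 329) (nat_lit 174)))) (XT.nd (nat_lit 78) (nat_lit 76) (nat_lit 0) (XT.lf (nat_lit 0) (nat_lit 8903263423) (nat_lit 152) (nat_lit 83175787163) (nat_lit 76) (nat_lit 55631149017) (nat_lit 19) (nat_lit 5) (nat_lit 21) (nat_lit 5) (nat_lit 20) (nat_lit 4) (nat_lit 398) (nat_lit 329) (nat_lit 173)) (XT.nd (nat_lit 78) (nat_lit 76) (nat_lit 0) (XT.lf (nat_lit 0) (nat_lit 36362961761) (nat_lit 152) (nat_lit 26885796797) (nat_lit 76) (nat_lit 90249108507) (nat_lit 19) (nat_lit 5) (nat_lit 21) (nat_lit 5) (nat_lit 20) (nat_lit 4) (nat_lit 399) (nat_lit 329) (nat_lit 172)) (XT.lf (nat_lit 0) (nat_lit 33281122159) (nat_lit 76) (nat_lit 32432667072) (nat_lit 152) (nat_lit 93835221709) (nat_lit 18) (nat_lit 5) (nat_lit 19) (nat_lit 5) (nat_lit 20) (nat_lit 4) (nat_lit 400) (nat_lit 329) (nat_lit 171))))) (XT.nd (nat_lit 234) (nat_lit 152) (nat_lit 0) (XT.nd (nat_lit 78) (nat_lit 76) (nat_lit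 0) (XT.lf (nat_lit 0) (nat_lit 96992303127) (nat_lit 152) (nat_lit 68499207961) (nat_lit 0) (nat_lit 388193910) (nat_lit 18) (nat_lit 5) (nat_lit 20) (nat_lit 4) (nat_lit 18) (nat_lit 4) (nat_lit 401) (nat_lit 329) (nat_lit 170)) (XT.nd (nat_lit 78) (nat_lit 76) (nat_lit 0) (XT.lf (nat_lit 0) (nat_lit 130365035064) (nat_lit 152) (nat_lit 8376425727) (nat_lit 0) (nat_lit 33758958579) (nat_lit 18) (nat_lit 5) (nat_lit 20) (nat_lit 4) (nat_lit 18) (nat_lit 4) (nat_lit 402) (nat_lit 329) (nat_lit 169)) (XT.lf (nat_lit 0) (nat_lit 56560253566) (nat_lit 76) (nat_lit 109727889605) (nat_lit 76) (nat_lit 13119939532) (nat_lit 17) (nat_lit 4) (nat_lit 18) (nat_lit 5) (nat_lit 18) (nat_lit 4) (nat_lit 403) (nat_lit 329) (nat_lit 168)))) (XT.nd (nat_lit 78) (nat_lit 76) (nat_lit 0) (XT.lf (nat_lit 0) (nat_lit 16933950948) (nat_lit 152) (nat_lit 61895134997) (nat_lit 76) (nat_lit 107811359119) (nat_lit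 16) (nat_lit 5) (nat_lit 18) (nat_lit 5) (nat_lit 17) (nat_lit 4) (nat_lit 404) (nat_lit 329) (nat_lit 167)) (XT.nd (nat_lit 78) (nat_lit 0) (nat_lit 0) (XT.lf (nat_lit 0) (nat_lit 1950122700) (nat_lit 76) (nat_lit 46128685369) (nat_lit 152) (nat_lit 146143404210) (nat_lit 15) (nat_lit 5) (nat_lit 16) (nat_lit 5) (nat_lit 17) (nat_lit 4) (nat_lit 405) (nat_lit 329) (nat_lit 166)) (XT.lf (nat_lit 0) (nat_lit 71134135142) (nat_lit 76) (nat_lit 10693761179) (nat_lit 152) (nat_lit 120302822299) (nat_lit 15) (nat_lit 5) (nat_lit 16) (nat_lit 5) (nat_lit 17) (nat_lit 4) (nat_lit 406) (nat_lit 329) (nat_lit 165))))))) (XT.nd (nat_lit 936) (nat_lit 304) (nat_lit 0) (XT.nd (nat_lit 468) (nat_lit 152) (nat_lit 0) (XT.nd (nat_lit 234) (nat_lit 152) (nat_lit 0) (XT.nd (nat_lit 78) (nat_lit 76) (nat_lit 0) (XT.lf (nat_lit 0) (nat_lit 117677186037) (nat_lit 152) (nat_lit 67073539808) (nat_lit 0) (nat_lit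 25663287252) (nat_lit 15) (nat_lit 5) (nat_lit 17) (nat_lit 4) (nat_lit 15) (nat_lit 4) (nat_lit 407) (nat_lit 329) (nat_lit 164)) (XT.nd (nat_lit 78) (nat_lit 76) (nat_lit 0) (XT.lf (nat_lit 0) (nat_lit 155493110878) (nat_lit 152) (nat_lit 131839058) (nat_lit 0) (nat_lit 63477813993) (nat_lit 15) (nat_lit 5) (nat_lit 17) (nat_lit 4) (nat_lit 15) (nat_lit 4) (nat_lit 408) (nat_lit 329) (nat_lit 163)) (XT.lf (nat_lit 0) (nat_lit 72474499966) (nat_lit 76) (nat_lit 123855779268) (nat_lit 76) (nat_lit 31839150859) (nat_lit 14) (nat_lit 4) (nat_lit 15) (nat_lit 5) (nat_lit 15) (nat_lit 4) (nat_lit 409) (nat_lit 329) (nat_lit 162)))) (XT.nd (nat_lit 78) (nat_lit 76) (nat_lit 0) (XT.lf (nat_lit 0) (nat_lit 1472419469) (nat_lit 152) (nat_lit 88999436614) (nat_lit 76) (nat_lit 147216327719) (nat_lit 13) (nat_lit 5) (nat_lit 15) (nat_lit 5) (nat_lit 14) (nat_lit 4) (nat_lit 410) (nat_lit 329) (nat_lit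 161)) (XT.nd (nat_lit 78) (nat_lit 76) (nat_lit 0) (XT.lf (nat_lit 0) (nat_lit 35378534736) (nat_lit 152) (nat_lit 19493108049) (nat_lit 76) (nat_lit 192785186347) (nat_lit 13) (nat_lit 5) (nat_lit 15) (nat_lit 5) (nat_lit 14) (nat_lit 4) (nat_lit 411) (nat_lit 329) (nat_lit 160)) (XT.lf (nat_lit 0) (nat_lit 55255155241) (nat_lit 76) (nat_lit 16586508037) (nat_lit 152) (nat_lit 186239158204) (nat_lit 12) (nat_lit 5) (nat_lit 13) (nat_lit 5) (nat_lit 14) (nat_lit 4) (nat_lit 412) (nat_lit 329) (nat_lit 159))))) (XT.nd (nat_lit 234) (nat_lit 76) (nat_lit 0) (XT.nd (nat_lit 78) (nat_lit 76) (nat_lit 0) (XT.lf (nat_lit 0) (nat_lit 110831171920) (nat_lit 152) (nat_lit 134967889430) (nat_lit 0) (nat_lit 23191791036) (nat_lit 12) (nat_lit 5) (nat_lit 14) (nat_lit 4) (nat_lit 12) (nat_lit 4) (nat_lit 413) (nat_lit 329) (nat_lit 158)) (XT.nd (nat_lit 78) (nat_lit 76) (nat_lit 0) (XT.lf (nat_lit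 0) (nat_lit 152041135753) (nat_lit 152) (nat_lit 63990938947) (nat_lit 0) (nat_lit 64400761265) (nat_lit 12) (nat_lit 5) (nat_lit 14) (nat_lit 4) (nat_lit 12) (nat_lit 4) (nat_lit 414) (nat_lit 329) (nat_lit 157)) (XT.lf (nat_lit 0) (nat_lit 10881412994) (nat_lit 76) (nat_lit 184599188221) (nat_lit 76) (nat_lit 96957867444) (nat_lit 11) (nat_lit 4) (nat_lit 12) (nat_lit 5) (nat_lit 12) (nat_lit 4) (nat_lit 415) (nat_lit 329) (nat_lit 156)))) (XT.nd (nat_lit 78) (nat_lit 76) (nat_lit 0) (XT.lf (nat_lit 0) (nat_lit 91717311928) (nat_lit 76) (nat_lit 150457575401) (nat_lit 76) (nat_lit 62815353395) (nat_lit 11) (nat_lit 4) (nat_lit 12) (nat_lit 5) (nat_lit 12) (nat_lit 4) (nat_lit 416) (nat_lit 329) (nat_lit 155)) (XT.nd (nat_lit 78) (nat_lit 76) (nat_lit 0) (XT.lf (nat_lit 0) (nat_lit 176593394849) (nat_lit 76) (nat_lit 114609664198) (nat_lit 76) (nat_lit 26966583881) (nat_lit 11) (nat_lit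 4) (nat_lit 12) (nat_lit 5) (nat_lit 12) (nat_lit 4) (nat_lit 417) (nat_lit 329) (nat_lit 154)) (XT.lf (nat_lit 0) (nat_lit 10332167203) (nat_lit 152) (nat_lit 66462954991) (nat_lit 76) (nat_lit 255204600214) (nat_lit 10) (nat_lit 5) (nat_lit 12) (nat_lit 5) (nat_lit 11) (nat_lit 4) (nat_lit 418) (nat_lit 329) (nat_lit 153)))))) (XT.nd (nat_lit 468) (nat_lit 152) (nat_lit 0) (XT.nd (nat_lit 234) (nat_lit 76) (nat_lit 0) (XT.nd (nat_lit 78) (nat_lit 0) (nat_lit 0) (XT.lf (nat_lit 0) (nat_lit 12357973394) (nat_lit 76) (nat_lit 36423806930) (nat_lit 152) (nat_lit 297707812939) (nat_lit 9) (nat_lit 5) (nat_lit 10) (nat_lit 5) (nat_lit 11) (nat_lit 4) (nat_lit 419) (nat_lit 329) (nat_lit 152)) (XT.nd (nat_lit 78) (nat_lit 0) (nat_lit 0) (XT.lf (nat_lit 0) (nat_lit 90390294076) (nat_lit 152) (nat_lit 264333374987) (nat_lit 0) (nat_lit 6918467681) (nat_lit 9) (nat_lit 5) (nat_lit 11) (nat_lit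 4) (nat_lit 9) (nat_lit 4) (nat_lit 420) (nat_lit 329) (nat_lit 151)) (XT.lf (nat_lit 0) (nat_lit 134675619739) (nat_lit 152) (nat_lit 191643747595) (nat_lit 0) (nat_lit 51203120834) (nat_lit 9) (nat_lit 5) (nat_lit 11) (nat_lit 4) (nat_lit 9) (nat_lit 4) (nat_lit 421) (nat_lit 329) (nat_lit 150)))) (XT.nd (nat_lit 78) (nat_lit 76) (nat_lit 0) (XT.lf (nat_lit 0) (nat_lit 181174520860) (nat_lit 152) (nat_lit 115320989449) (nat_lit 0) (nat_lit 97701381469) (nat_lit 9) (nat_lit 5) (nat_lit 11) (nat_lit 4) (nat_lit 9) (nat_lit 4) (nat_lit 422) (nat_lit 329) (nat_lit 149)) (XT.nd (nat_lit 78) (nat_lit 76) (nat_lit 0) (XT.lf (nat_lit 0) (nat_lit 229997709109) (nat_lit 152) (nat_lit 35183379696) (nat_lit 0) (nat_lit 146523959731) (nat_lit 9) (nat_lit 5) (nat_lit 11) (nat_lit 4) (nat_lit 9) (nat_lit 4) (nat_lit 423) (nat_lit 329) (nat_lit 148)) (XT.lf (nat_lit 0) (nat_lit 50578720420) (nat_lit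 76) (nat_lit 231472385324) (nat_lit 76) (nat_lit 147998055007) (nat_lit 8) (nat_lit 4) (nat_lit 9) (nat_lit 5) (nat_lit 9) (nat_lit 4) (nat_lit 424) (nat_lit 329) (nat_lit 147))))) (XT.nd (nat_lit 234) (nat_lit 152) (nat_lit 0) (XT.nd (nat_lit 78) (nat_lit 0) (nat_lit 0) (XT.lf (nat_lit 0) (nat_lit 141849207751) (nat_lit 76) (nat_lit 195453196442) (nat_lit 76) (nat_lit 111978312849) (nat_lit 8) (nat_lit 4) (nat_lit 9) (nat_lit 5) (nat_lit 9) (nat_lit 4) (nat_lit 425) (nat_lit 329) (nat_lit 146)) (XT.nd (nat_lit 78) (nat_lit 0) (nat_lit 0) (XT.lf (nat_lit 0) (nat_lit 237682071554) (nat_lit 76) (nat_lit 157633609746) (nat_lit 76) (nat_lit 74158199223) (nat_lit 8) (nat_lit 4) (nat_lit 9) (nat_lit 5) (nat_lit 9) (nat_lit 4) (nat_lit 426) (nat_lit 329) (nat_lit 145)) (XT.lf (nat_lit 0) (nat_lit 338305485314) (nat_lit 76) (nat_lit 117923578600) (nat_lit 76) (nat_lit 34447666240) (nat_lit 8) (nat_lit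 4) (nat_lit 9) (nat_lit 5) (nat_lit 9) (nat_lit 4) (nat_lit 427) (nat_lit 329) (nat_lit 144)))) (XT.nd (nat_lit 156) (nat_lit 0) (nat_lit 0) (XT.nd (nat_lit 78) (nat_lit 76) (nat_lit 0) (XT.lf (nat_lit 0) (nat_lit 7015859006) (nat_lit 152) (nat_lit 69093879337) (nat_lit 76) (nat_lit 436824352616) (nat_lit 7) (nat_lit 5) (nat_lit 9) (nat_lit 5) (nat_lit 8) (nat_lit 4) (nat_lit 428) (nat_lit 329) (nat_lit 143)) (XT.lf (nat_lit 0) (nat_lit 18369570924) (nat_lit 76) (nat_lit 31311607810) (nat_lit 152) (nat_lit 486580591044) (nat_lit 6) (nat_lit 5) (nat_lit 7) (nat_lit 5) (nat_lit 8) (nat_lit 4) (nat_lit 429) (nat_lit 329) (nat_lit 142))) (XT.nd (nat_lit 78) (nat_lit 0) (nat_lit 0) (XT.lf (nat_lit 0) (nat_lit 95914105587) (nat_lit 152) (nat_lit 448358074819) (nat_lit 0) (nat_lit 16411935123) (nat_lit 6) (nat_lit 5) (nat_lit 8) (nat_lit 4) (nat_lit 6) (nat_lit 4) (nat_lit 430) (nat_lit 329) (nat_lit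 141)) (XT.lf (nat_lit 0) (nat_lit 144971494906) (nat_lit 152) (nat_lit 375861511662) (nat_lit 0) (nat_lit 65468931239) (nat_lit 6) (nat_lit 5) (nat_lit 8) (nat_lit 4) (nat_lit 6) (nat_lit 4) (nat_lit 431) (nat_lit 329) (nat_lit 140))))))))
noncomputable def xc175 : XT := (XT.nd (nat_lit 40638) (nat_lit 0) (nat_lit 2508) (XT.nd (nat_lit 39624) (nat_lit 0) (nat_lit 5472) (XT.nd (nat_lit 39156) (nat_lit 0) (nat_lit 7676) (XT.nd (nat_lit 38922) (nat_lit 0) (nat_lit 7600) (XT.nd (nat_lit 78) (nat_lit 0) (nat_lit 0) (XT.lf (nat_lit 0) (nat_lit 196481288050) (nat_lit 152) (nat_lit 299741036571) (nat_lit 0) (nat_lit 116978349904) (nat_lit 6) (nat_lit 5) (nat_lit 8) (nat_lit 4) (nat_lit 6) (nat_lit 4) (nat_lit 432) (nat_lit 329) (nat_lit 139)) (XT.nd (nat_lit 78) (nat_lit 0) (nat_lit 0) (XT.lf (nat_lit 0) (nat_lit 250566127384) (nat_lit 152) (nat_lit 219815410319) (nat_lit 0) (nat_lit 171062832592)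 (nat_lit 6) (nat_lit 5) (nat_lit 8) (nat_lit 4) (nat_lit 6) (nat_lit 4) (nat_lit 433) (nat_lit 329) (nat_lit 138)) (XT.lf (nat_lit 0) (nat_lit 307354786335) (nat_lit 152) (nat_lit 135894333796) (nat_lit 0) (nat_lit 227851151879) (nat_lit 6) (nat_lit 5) (nat_lit 8) (nat_lit 4) (nat_lit 6) (nat_lit 4) (nat_lit 434) (nat_lit 329) (nat_lit 137)))) (XT.nd (nat_lit 78) (nat_lit 0) (nat_lit 0) (XT.lf (nat_lit 0) (nat_lit 103748690) (nat_lit 836) (nat_lit 4383891987) (nat_lit 836) (nat_lit 4383891987) (nat_lit 106) (nat_lit 3) (nat_lit 117) (nat_lit 3) (nat_lit 117) (nat_lit 5) (nat_lit 330) (nat_lit 330) (nat_lit 240)) (XT.nd (nat_lit 78) (nat_lit 0) (nat_lit 76) (XT.lf (nat_lit 0) (nat_lit 417605752) (nat_lit 836) (nat_lit 288319114) (nat_lit 836) (nat_lit 17470293456) (nat_lit 106) (nat_lit 3) (nat_lit 117) (nat_lit 3) (nat_lit 117) (nat_lit 5) (nat_lit 331) (nat_lit 330) (nat_lit 239)) (XT.lf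 (nat_lit 0) (nat_lit 890859458) (nat_lit 760) (nat_lit 9858815673) (nat_lit 836) (nat_lit 7868733203) (nat_lit 107) (nat_lit 5) (nat_lit 117) (nat_lit 5) (nat_lit 118) (nat_lit 5) (nat_lit 332) (nat_lit 330) (nat_lit 238))))) (XT.nd (nat_lit 234) (nat_lit 0) (nat_lit 152) (XT.nd (nat_lit 78) (nat_lit 0) (nat_lit 76) (XT.lf (nat_lit 0) (nat_lit 1391803356) (nat_lit 760) (nat_lit 831719272) (nat_lit 836) (nat_lit 16858994671) (nat_lit 107) (nat_lit 5) (nat_lit 117) (nat_lit 5) (nat_lit 118) (nat_lit 5) (nat_lit 333) (nat_lit 330) (nat_lit 237)) (XT.nd (nat_lit 78) (nat_lit 0) (nat_lit 0) (XT.lf (nat_lit 0) (nat_lit 2152646415) (nat_lit 760) (nat_lit 10745646144) (nat_lit 836) (nat_lit 6659806867) (nat_lit 108) (nat_lit 5) (nat_lit 118) (nat_lit 5) (nat_lit 119) (nat_lit 5) (nat_lit 334) (nat_lit 330) (nat_lit 236)) (XT.lf (nat_lit 0) (nat_lit 2990913288) (nat_lit 760) (nat_lit 1133419743)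 (nat_lit 836) (nat_lit 15931168364) (nat_lit 108) (nat_lit 5) (nat_lit 118) (nat_lit 5) (nat_lit 119) (nat_lit 5) (nat_lit 335) (nat_lit 330) (nat_lit 235)))) (XT.nd (nat_lit 78) (nat_lit 0) (nat_lit 0) (XT.lf (nat_lit 0) (nat_lit 4086503256) (nat_lit 760) (nat_lit 11404880846) (nat_lit 836) (nat_lit 5075628228) (nat_lit 109) (nat_lit 5) (nat_lit 119) (nat_lit 5) (nat_lit 120) (nat_lit 5) (nat_lit 336) (nat_lit 330) (nat_lit 234)) (XT.nd (nat_lit 78) (nat_lit 0) (nat_lit 76) (XT.lf (nat_lit 0) (nat_lit 5313604939) (nat_lit 760) (nat_lit 1167043839) (nat_lit 836) (nat_lit 14619622329) (nat_lit 109) (nat_lit 5) (nat_lit 119) (nat_lit 5) (nat_lit 120) (nat_lit 5) (nat_lit 337) (nat_lit 330) (nat_lit 233)) (XT.lf (nat_lit 0) (nat_lit 6795713124) (nat_lit 760) (nat_lit 11810211081) (nat_lit 836) (nat_lit 3044594530) (nat_lit 110) (nat_lit 5) (nat_lit 120) (nat_lit 5) (nat_lit 121) (nat_lit 5)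 (nat_lit 338) (nat_lit 330) (nat_lit 232)))))) (XT.nd (nat_lit 468) (nat_lit 1368) (nat_lit 0) (XT.nd (nat_lit 234) (nat_lit 1064) (nat_lit 0) (XT.nd (nat_lit 78) (nat_lit 0) (nat_lit 76) (XT.lf (nat_lit 0) (nat_lit 8468752788) (nat_lit 760) (nat_lit 903128390) (nat_lit 836) (nat_lit 12850564342) (nat_lit 110) (nat_lit 5) (nat_lit 120) (nat_lit 5) (nat_lit 121) (nat_lit 5) (nat_lit 339) (nat_lit 330) (nat_lit 231)) (XT.nd (nat_lit 78) (nat_lit 0) (nat_lit 0) (XT.lf (nat_lit 0) (nat_lit 10394293310) (nat_lit 760) (nat_lit 11932371459) (nat_lit 76) (nat_lit 487869127) (nat_lit 111) (nat_lit 5) (nat_lit 121) (nat_lit 5) (nat_lit 112) (nat_lit 5) (nat_lit 340) (nat_lit 330) (nat_lit 230)) (XT.lf (nat_lit 0) (nat_lit 12576582447) (nat_lit 760) (nat_lit 309068896) (nat_lit 76) (nat_lit 10542559096) (nat_lit 111) (nat_lit 5) (nat_lit 121) (nat_lit 5) (nat_lit 112) (nat_lit 5) (nat_lit 341) (nat_lit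 330) (nat_lit 229)))) (XT.nd (nat_lit 78) (nat_lit 380) (nat_lit 0) (XT.lf (nat_lit 0) (nat_lit 12281048861) (nat_lit 760) (nat_lit 2770382141) (nat_lit 836) (nat_lit 9011974538) (nat_lit 101) (nat_lit 5) (nat_lit 111) (nat_lit 5) (nat_lit 112) (nat_lit 5) (nat_lit 342) (nat_lit 330) (nat_lit 228)) (XT.nd (nat_lit 78) (nat_lit 0) (nat_lit 0) (XT.lf (nat_lit 0) (nat_lit 672451065) (nat_lit 380) (nat_lit 17107956092) (nat_lit 456) (nat_lit 6943440628) (nat_lit 96) (nat_lit 5) (nat_lit 101) (nat_lit 5) (nat_lit 102) (nat_lit 5) (nat_lit 343) (nat_lit 330) (nat_lit 227)) (XT.lf (nat_lit 0) (nat_lit 14104543657) (nat_lit 380) (nat_lit 6777770176) (nat_lit 456) (nat_lit 4523180553) (nat_lit 96) (nat_lit 5) (nat_lit 101) (nat_lit 5) (nat_lit 102) (nat_lit 5) (nat_lit 344) (nat_lit 330) (nat_lit 226))))) (XT.nd (nat_lit 234) (nat_lit 608) (nat_lit 0) (XT.nd (nat_lit 78) (nat_lit 456) (nat_lit 0)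 (XT.lf (nat_lit 0) (nat_lit 2082534523) (nat_lit 304) (nat_lit 22145451906) (nat_lit 380) (nat_lit 1888809388) (nat_lit 92) (nat_lit 5) (nat_lit 96) (nat_lit 5) (nat_lit 97) (nat_lit 5) (nat_lit 345) (nat_lit 330) (nat_lit 225)) (XT.nd (nat_lit 78) (nat_lit 380) (nat_lit 0) (XT.lf (nat_lit 0) (nat_lit 1147578044) (nat_lit 380) (nat_lit 10462233303) (nat_lit 76) (nat_lit 15238252793) (nat_lit 91) (nat_lit 5) (nat_lit 96) (nat_lit 5) (nat_lit 92) (nat_lit 5) (nat_lit 346) (nat_lit 330) (nat_lit 224)) (XT.lf (nat_lit 0) (nat_lit 3874061807) (nat_lit 380) (nat_lit 451817917) (nat_lit 456) (nat_lit 23285794595) (nat_lit 86) (nat_lit 5) (nat_lit 91) (nat_lit 5) (nat_lit 92) (nat_lit 5) (nat_lit 347) (nat_lit 330) (nat_lit 223)))) (XT.nd (nat_lit 156) (nat_lit 304) (nat_lit 0) (XT.nd (nat_lit 78) (nat_lit 304) (nat_lit 0) (XT.lf (nat_lit 0) (nat_lit 8012341735) (nat_lit 456) (nat_lit 9300554358)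 (nat_lit 76) (nat_lit 11083111613) (nat_lit 86) (nat_lit 5) (nat_lit 92) (nat_lit 5) (nat_lit 87) (nat_lit 5) (nat_lit 348) (nat_lit 330) (nat_lit 222)) (XT.lf (nat_lit 0) (nat_lit 6036954018) (nat_lit 304) (nat_lit 5941446630) (nat_lit 380) (nat_lit 17236398148) (nat_lit 82) (nat_lit 5) (nat_lit 86) (nat_lit 5) (nat_lit 87) (nat_lit 5) (nat_lit 349) (nat_lit 330) (nat_lit 221))) (XT.nd (nat_lit 78) (nat_lit 304) (nat_lit 0) (XT.lf (nat_lit 0) (nat_lit 16390300911) (nat_lit 380) (nat_lit 7706058308) (nat_lit 76) (nat_lit 5965797799) (nat_lit 82) (nat_lit 5) (nat_lit 87) (nat_lit 5) (nat_lit 83) (nat_lit 5) (nat_lit 350) (nat_lit 330) (nat_lit 220)) (XT.lf (nat_lit 0) (nat_lit 8713764257) (nat_lit 304) (nat_lit 12536566900) (nat_lit 380) (nat_lit 9690179530) (nat_lit 78) (nat_lit 5) (nat_lit 82) (nat_lit 5) (nat_lit 83) (nat_lit 5) (nat_lit 351) (nat_lit 330) (nat_lit 219))))))) (XT.nd (nat_lit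 936) (nat_lit 1368) (nat_lit 0) (XT.nd (nat_lit 468) (nat_lit 760) (nat_lit 0) (XT.nd (nat_lit 234) (nat_lit 532) (nat_lit 0) (XT.nd (nat_lit 78) (nat_lit 304) (nat_lit 0) (XT.lf (nat_lit 0) (nat_lit 26215181224) (nat_lit 304) (nat_lit 262948718) (nat_lit 380) (nat_lit 5378417828) (nat_lit 78) (nat_lit 5) (nat_lit 82) (nat_lit 5) (nat_lit 83) (nat_lit 5) (nat_lit 352) (nat_lit 330) (nat_lit 218)) (XT.nd (nat_lit 78) (nat_lit 76) (nat_lit 0) (XT.lf (nat_lit 0) (nat_lit 11951851850) (nat_lit 228) (nat_lit 20393686915) (nat_lit 304) (nat_lit 453940822) (nat_lit 75) (nat_lit 5) (nat_lit 78) (nat_lit 5) (nat_lit 79) (nat_lit 5) (nat_lit 353) (nat_lit 330) (nat_lit 217)) (XT.lf (nat_lit 0) (nat_lit 4661791856) (nat_lit 304) (nat_lit 3250647938) (nat_lit 76) (nat_lit 25868639755) (nat_lit 74) (nat_lit 5) (nat_lit 78) (nat_lit 5) (nat_lit 75) (nat_lit 5) (nat_lit 354) (nat_lit 330) (nat_lit 216))))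 (XT.nd (nat_lit 78) (nat_lit 228) (nat_lit 0) (XT.lf (nat_lit 0) (nat_lit 10343449233) (nat_lit 380) (nat_lit 19169461487) (nat_lit 76) (nat_lit 5282210390) (nat_lit 70) (nat_lit 5) (nat_lit 75) (nat_lit 5) (nat_lit 71) (nat_lit 5) (nat_lit 355) (nat_lit 330) (nat_lit 215)) (XT.nd (nat_lit 78) (nat_lit 228) (nat_lit 0) (XT.lf (nat_lit 0) (nat_lit 16489816032) (nat_lit 380) (nat_lit 435818070) (nat_lit 76) (nat_lit 18925202517) (nat_lit 70) (nat_lit 5) (nat_lit 75) (nat_lit 5) (nat_lit 71) (nat_lit 5) (nat_lit 356) (nat_lit 330) (nat_lit 214)) (XT.lf (nat_lit 0) (nat_lit 19863866735) (nat_lit 228) (nat_lit 3384965681) (nat_lit 304) (nat_lit 13695241971) (nat_lit 67) (nat_lit 5) (nat_lit 70) (nat_lit 5) (nat_lit 71) (nat_lit 5) (nat_lit 357) (nat_lit 330) (nat_lit 213))))) (XT.nd (nat_lit 234) (nat_lit 228) (nat_lit 0) (XT.nd (nat_lit 78) (nat_lit 304) (nat_lit 0) (XT.lf (nat_lit 0) (nat_lit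 3023051530) (nat_lit 228) (nat_lit 27541882729) (nat_lit 304) (nat_lit 7516085951) (nat_lit 64) (nat_lit 5) (nat_lit 67) (nat_lit 5) (nat_lit 68) (nat_lit 5) (nat_lit 358) (nat_lit 330) (nat_lit 212)) (XT.nd (nat_lit 78) (nat_lit 304) (nat_lit 0) (XT.lf (nat_lit 0) (nat_lit 24660722952) (nat_lit 228) (nat_lit 13925404692) (nat_lit 304) (nat_lit 671724121) (nat_lit 64) (nat_lit 5) (nat_lit 67) (nat_lit 5) (nat_lit 68) (nat_lit 5) (nat_lit 359) (nat_lit 330) (nat_lit 211)) (XT.lf (nat_lit 0) (nat_lit 6420485032) (nat_lit 304) (nat_lit 33489513408) (nat_lit 76) (nat_lit 572735938) (nat_lit 60) (nat_lit 5) (nat_lit 64) (nat_lit 5) (nat_lit 61) (nat_lit 5) (nat_lit 360) (nat_lit 330) (nat_lit 210)))) (XT.nd (nat_lit 78) (nat_lit 228) (nat_lit 0) (XT.lf (nat_lit 0) (nat_lit 14319936119) (nat_lit 304) (nat_lit 11836325819) (nat_lit 76) (nat_lit 15588290688) (nat_lit 60) (nat_lit 5) (nat_lit 64)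 (nat_lit 5) (nat_lit 61) (nat_lit 5) (nat_lit 361) (nat_lit 330) (nat_lit 209)) (XT.nd (nat_lit 78) (nat_lit 0) (nat_lit 0) (XT.lf (nat_lit 0) (nat_lit 11253667892) (nat_lit 228) (nat_lit 11532258336) (nat_lit 304) (nat_lit 20274959505) (nat_lit 57) (nat_lit 5) (nat_lit 60) (nat_lit 5) (nat_lit 61) (nat_lit 5) (nat_lit 362) (nat_lit 330) (nat_lit 208)) (XT.lf (nat_lit 0) (nat_lit 31934582183) (nat_lit 304) (nat_lit 8593011342) (nat_lit 76) (nat_lit 3902475818) (nat_lit 57) (nat_lit 5) (nat_lit 61) (nat_lit 5) (nat_lit 58) (nat_lit 5) (nat_lit 363) (nat_lit 330) (nat_lit 207)))))) (XT.nd (nat_lit 468) (nat_lit 608) (nat_lit 0) (XT.nd (nat_lit 234) (nat_lit 304) (nat_lit 0) (XT.nd (nat_lit 78) (nat_lit 304) (nat_lit 0) (XT.lf (nat_lit 0) (nat_lit 16102403529) (nat_lit 152) (nat_lit 25874857243) (nat_lit 228) (nat_lit 3868623931) (nat_lit 55) (nat_lit 5) (nat_lit 57) (nat_lit 5) (nat_lit 58)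 (nat_lit 5) (nat_lit 364) (nat_lit 330) (nat_lit 206)) (XT.nd (nat_lit 78) (nat_lit 228) (nat_lit 0) (XT.lf (nat_lit 0) (nat_lit 5167559590) (nat_lit 228) (nat_lit 5083565768) (nat_lit 76) (nat_lit 37070112337) (nat_lit 54) (nat_lit 5) (nat_lit 57) (nat_lit 5) (nat_lit 55) (nat_lit 5) (nat_lit 365) (nat_lit 330) (nat_lit 205)) (XT.lf (nat_lit 0) (nat_lit 14958980689) (nat_lit 304) (nat_lit 27527104106) (nat_lit 76) (nat_lit 6359432342) (nat_lit 51) (nat_lit 5) (nat_lit 55) (nat_lit 5) (nat_lit 52) (nat_lit 5) (nat_lit 366) (nat_lit 330) (nat_lit 204)))) (XT.nd (nat_lit 78) (nat_lit 304) (nat_lit 0) (XT.lf (nat_lit 0) (nat_lit 25491932618) (nat_lit 304) (nat_lit 1399829352) (nat_lit 76) (nat_lit 23541652288) (nat_lit 51) (nat_lit 5) (nat_lit 55) (nat_lit 5) (nat_lit 52) (nat_lit 5) (nat_lit 367) (nat_lit 330) (nat_lit 203)) (XT.nd (nat_lit 78) (nat_lit 152) (nat_lit 0) (XT.lf (nat_lit 0)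 (nat_lit 26889053894) (nat_lit 152) (nat_lit 10078867488) (nat_lit 228) (nat_lit 15111967005) (nat_lit 49) (nat_lit 5) (nat_lit 51) (nat_lit 5) (nat_lit 52) (nat_lit 5) (nat_lit 368) (nat_lit 330) (nat_lit 202)) (XT.lf (nat_lit 0) (nat_lit 2798989350) (nat_lit 152) (nat_lit 46401403529) (nat_lit 228) (nat_lit 4599160717) (nat_lit 47) (nat_lit 5) (nat_lit 49) (nat_lit 5) (nat_lit 50) (nat_lit 5) (nat_lit 369) (nat_lit 330) (nat_lit 201))))) (XT.nd (nat_lit 234) (nat_lit 380) (nat_lit 0) (XT.nd (nat_lit 78) (nat_lit 152) (nat_lit 0) (XT.lf (nat_lit 0) (nat_lit 6828676412) (nat_lit 228) (nat_lit 22799203598) (nat_lit 76) (nat_lit 25942522293) (nat_lit 46) (nat_lit 5) (nat_lit 49) (nat_lit 5) (nat_lit 47) (nat_lit 5) (nat_lit 370) (nat_lit 330) (nat_lit 200)) (XT.nd (nat_lit 78) (nat_lit 0) (nat_lit 0) (XT.lf (nat_lit 0) (nat_lit 6954217520) (nat_lit 152) (nat_lit 11824508200) (nat_lit 228)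 (nat_lit 38642030133) (nat_lit 44) (nat_lit 5) (nat_lit 46) (nat_lit 5) (nat_lit 47) (nat_lit 5) (nat_lit 371) (nat_lit 330) (nat_lit 199)) (XT.lf (nat_lit 0) (nat_lit 31822816400) (nat_lit 228) (nat_lit 20476281789) (nat_lit 76) (nat_lit 7039703213) (nat_lit 44) (nat_lit 5) (nat_lit 47) (nat_lit 5) (nat_lit 45) (nat_lit 5) (nat_lit 372) (nat_lit 330) (nat_lit 198)))) (XT.nd (nat_lit 156) (nat_lit 228) (nat_lit 0) (XT.nd (nat_lit 78) (nat_lit 0) (nat_lit 0) (XT.lf (nat_lit 0) (nat_lit 11172241406) (nat_lit 152) (nat_lit 34712143416) (nat_lit 228) (nat_lit 15450101950) (nat_lit 42) (nat_lit 5) (nat_lit 44) (nat_lit 5) (nat_lit 45) (nat_lit 5) (nat_lit 373) (nat_lit 330) (nat_lit 197)) (XT.lf (nat_lit 0) (nat_lit 45109178128) (nat_lit 152) (nat_lit 15883694458) (nat_lit 228) (nat_lit 2419892928) (nat_lit 42) (nat_lit 5) (nat_lit 44) (nat_lit 5) (nat_lit 45) (nat_lit 5) (nat_lit 374) (nat_lit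 330) (nat_lit 196))) (XT.nd (nat_lit 78) (nat_lit 0) (nat_lit 0) (XT.lf (nat_lit 0) (nat_lit 11207429736) (nat_lit 228) (nat_lit 50179422914) (nat_lit 76) (nat_lit 4184012550) (nat_lit 39) (nat_lit 5) (nat_lit 42) (nat_lit 5) (nat_lit 40) (nat_lit 5) (nat_lit 375) (nat_lit 330) (nat_lit 195)) (XT.lf (nat_lit 0) (nat_lit 26007434860) (nat_lit 228) (nat_lit 16724626436) (nat_lit 76) (nat_lit 25074194018) (nat_lit 39) (nat_lit 5) (nat_lit 42) (nat_lit 5) (nat_lit 40) (nat_lit 5) (nat_lit 376) (nat_lit 330) (nat_lit 194))))))))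
noncomputable def xc176 : XT := (XT.nd (nat_lit 1872) (nat_lit 836) (nat_lit 0) (XT.nd (nat_lit 936) (nat_lit 684) (nat_lit 0) (XT.nd (nat_lit 468) (nat_lit 380) (nat_lit 0) (XT.nd (nat_lit 234) (nat_lit 152) (nat_lit 0) (XT.nd (nat_lit 78) (nat_lit 152) (nat_lit 0) (XT.lf (nat_lit 0) (nat_lit 19006672770) (nat_lit 152) (nat_lit 22834839099) (nat_lit 228) (nat_lit 28297200426) (nat_lit 37) (nat_lit 5) (nat_lit 39) (nat_lit 5) (nat_lit 40) (nat_lit 5) (nat_lit 377) (nat_lit 330) (nat_lit 193)) (XT.nd (nat_lit 78) (nat_lit 152) (nat_lit 0) (XT.lf (nat_lit 0) (nat_lit 57100682580) (nat_lit 152) (nat_lit 1647231224) (nat_lit 228) (nat_lit 13825848168) (nat_lit 37) (nat_lit 5) (nat_lit 39) (nat_lit 5) (nat_lit 40) (nat_lit 5) (nat_lit 378) (nat_lit 330) (nat_lit 192)) (XT.lf (nat_lit 0) (nat_lit 2004381784) (nat_lit 152) (nat_lit 52771045613) (nat_lit 76) (nat_lit 20320112353) (nat_lit 35) (nat_lit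 5) (nat_lit 37) (nat_lit 5) (nat_lit 36) (nat_lit 5) (nat_lit 379) (nat_lit 330) (nat_lit 191)))) (XT.nd (nat_lit 78) (nat_lit 152) (nat_lit 0) (XT.lf (nat_lit 0) (nat_lit 18452317524) (nat_lit 152) (nat_lit 15443512663) (nat_lit 76) (nat_lit 43821702671) (nat_lit 35) (nat_lit 5) (nat_lit 37) (nat_lit 5) (nat_lit 36) (nat_lit 5) (nat_lit 380) (nat_lit 330) (nat_lit 190)) (XT.nd (nat_lit 78) (nat_lit 0) (nat_lit 0) (XT.lf (nat_lit 0) (nat_lit 24531370831) (nat_lit 152) (nat_lit 11571891970) (nat_lit 228) (nat_lit 44348332923) (nat_lit 33) (nat_lit 5) (nat_lit 35) (nat_lit 5) (nat_lit 36) (nat_lit 5) (nat_lit 381) (nat_lit 330) (nat_lit 189)) (XT.lf (nat_lit 0) (nat_lit 55085514016) (nat_lit 228) (nat_lit 16461912064) (nat_lit 76) (nat_lit 11752498424) (nat_lit 33) (nat_lit 5) (nat_lit 36) (nat_lit 5) (nat_lit 34) (nat_lit 4) (nat_lit 382) (nat_lit 330) (nat_lit 188))))) (XT.nd (nat_lit 234)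 (nat_lit 76) (nat_lit 0) (XT.nd (nat_lit 78) (nat_lit 228) (nat_lit 0) (XT.lf (nat_lit 0) (nat_lit 25594801261) (nat_lit 76) (nat_lit 50009130235) (nat_lit 152) (nat_lit 10657386213) (nat_lit 32) (nat_lit 5) (nat_lit 33) (nat_lit 5) (nat_lit 34) (nat_lit 4) (nat_lit 383) (nat_lit 330) (nat_lit 187)) (XT.nd (nat_lit 78) (nat_lit 152) (nat_lit 0) (XT.lf (nat_lit 0) (nat_lit 7809674863) (nat_lit 152) (nat_lit 19160984901) (nat_lit 76) (nat_lit 62379994307) (nat_lit 31) (nat_lit 5) (nat_lit 33) (nat_lit 5) (nat_lit 32) (nat_lit 5) (nat_lit 384) (nat_lit 330) (nat_lit 186)) (XT.lf (nat_lit 0) (nat_lit 25042813860) (nat_lit 152) (nat_lit 2187965609) (nat_lit 228) (nat_lit 65335500373) (nat_lit 29) (nat_lit 5) (nat_lit 31) (nat_lit 5) (nat_lit 32) (nat_lit 5) (nat_lit 385) (nat_lit 330) (nat_lit 185)))) (XT.nd (nat_lit 78) (nat_lit 76) (nat_lit 0) (XT.lf (nat_lit 0) (nat_lit 48322750113) (nat_lit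 228) (nat_lit 24185708512) (nat_lit 76) (nat_lit 23399238288) (nat_lit 29) (nat_lit 5) (nat_lit 32) (nat_lit 5) (nat_lit 30) (nat_lit 4) (nat_lit 386) (nat_lit 330) (nat_lit 184)) (XT.nd (nat_lit 78) (nat_lit 0) (nat_lit 0) (XT.lf (nat_lit 0) (nat_lit 21983002631) (nat_lit 76) (nat_lit 48863379486) (nat_lit 152) (nat_lit 28550950106) (nat_lit 28) (nat_lit 5) (nat_lit 29) (nat_lit 5) (nat_lit 30) (nat_lit 4) (nat_lit 387) (nat_lit 330) (nat_lit 183)) (XT.lf (nat_lit 0) (nat_lit 71296222257) (nat_lit 76) (nat_lit 23607588464) (nat_lit 152) (nat_lit 8137258326) (nat_lit 28) (nat_lit 5) (nat_lit 29) (nat_lit 5) (nat_lit 30) (nat_lit 4) (nat_lit 388) (nat_lit 330) (nat_lit 182)))))) (XT.nd (nat_lit 468) (nat_lit 228) (nat_lit 0) (XT.nd (nat_lit 234) (nat_lit 152) (nat_lit 0) (XT.nd (nat_lit 78) (nat_lit 76) (nat_lit 0) (XT.lf (nat_lit 0) (nat_lit 13180682147) (nat_lit 228) (nat_lit 90370919714)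 (nat_lit 76) (nat_lit 3289553298) (nat_lit 25) (nat_lit 5) (nat_lit 28) (nat_lit 5) (nat_lit 26) (nat_lit 4) (nat_lit 389) (nat_lit 330) (nat_lit 181)) (XT.nd (nat_lit 78) (nat_lit 76) (nat_lit 0) (XT.lf (nat_lit 0) (nat_lit 36222586464) (nat_lit 228) (nat_lit 43138910919) (nat_lit 76) (nat_lit 31416502137) (nat_lit 25) (nat_lit 5) (nat_lit 28) (nat_lit 5) (nat_lit 26) (nat_lit 4) (nat_lit 390) (nat_lit 330) (nat_lit 180)) (XT.lf (nat_lit 0) (nat_lit 6664669768) (nat_lit 76) (nat_lit 53854155848) (nat_lit 152) (nat_lit 54387748914) (nat_lit 24) (nat_lit 5) (nat_lit 25) (nat_lit 5) (nat_lit 26) (nat_lit 4) (nat_lit 391) (nat_lit 330) (nat_lit 179)))) (XT.nd (nat_lit 78) (nat_lit 152) (nat_lit 0) (XT.lf (nat_lit 0) (nat_lit 60452829333) (nat_lit 76) (nat_lit 26305846281) (nat_lit 152) (nat_lit 32446463126) (nat_lit 24) (nat_lit 5) (nat_lit 25) (nat_lit 5) (nat_lit 26) (nat_lit 4) (nat_lit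 392) (nat_lit 330) (nat_lit 178)) (XT.nd (nat_lit 78) (nat_lit 152) (nat_lit 0) (XT.lf (nat_lit 0) (nat_lit 114349704655) (nat_lit 152) (nat_lit 6832329919) (nat_lit 0) (nat_lit 2534637633) (nat_lit 24) (nat_lit 5) (nat_lit 26) (nat_lit 4) (nat_lit 24) (nat_lit 4) (nat_lit 393) (nat_lit 330) (nat_lit 177)) (XT.lf (nat_lit 0) (nat_lit 15601912076) (nat_lit 152) (nat_lit 79834199142) (nat_lit 76) (nat_lit 32945504568) (nat_lit 22) (nat_lit 5) (nat_lit 24) (nat_lit 5) (nat_lit 23) (nat_lit 4) (nat_lit 394) (nat_lit 330) (nat_lit 176))))) (XT.nd (nat_lit 234) (nat_lit 152) (nat_lit 0) (XT.nd (nat_lit 78) (nat_lit 76) (nat_lit 0) (XT.lf (nat_lit 0) (nat_lit 41620419045) (nat_lit 152) (nat_lit 26499166407) (nat_lit 76) (nat_lit 65146744829) (nat_lit 22) (nat_lit 5) (nat_lit 24) (nat_lit 5) (nat_lit 23) (nat_lit 4) (nat_lit 395) (nat_lit 330) (nat_lit 175)) (XT.nd (nat_lit 78) (nat_lit 0) (nat_lit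 0) (XT.lf (nat_lit 0) (nat_lit 30475111671) (nat_lit 76) (nat_lit 38938988457) (nat_lit 152) (nat_lit 68957468241) (nat_lit 21) (nat_lit 5) (nat_lit 22) (nat_lit 5) (nat_lit 23) (nat_lit 4) (nat_lit 396) (nat_lit 330) (nat_lit 174)) (XT.lf (nat_lit 0) (nat_lit 91215241466) (nat_lit 76) (nat_lit 7829476283) (nat_lit 152) (nat_lit 44664988282) (nat_lit 21) (nat_lit 5) (nat_lit 22) (nat_lit 5) (nat_lit 23) (nat_lit 4) (nat_lit 397) (nat_lit 330) (nat_lit 173)))) (XT.nd (nat_lit 78) (nat_lit 76) (nat_lit 0) (XT.lf (nat_lit 0) (nat_lit 5461920196) (nat_lit 76) (nat_lit 125166502934) (nat_lit 76) (nat_lit 18662749880) (nat_lit 20) (nat_lit 4) (nat_lit 21) (nat_lit 5) (nat_lit 21) (nat_lit 4) (nat_lit 398) (nat_lit 330) (nat_lit 172)) (XT.nd (nat_lit 78) (nat_lit 0) (nat_lit 0) (XT.lf (nat_lit 0) (nat_lit 9393557213) (nat_lit 152) (nat_lit 87249238123) (nat_lit 76) (nat_lit 58450649938) (nat_lit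 19) (nat_lit 5) (nat_lit 21) (nat_lit 5) (nat_lit 20) (nat_lit 4) (nat_lit 399) (nat_lit 330) (nat_lit 171)) (XT.lf (nat_lit 0) (nat_lit 38224091391) (nat_lit 152) (nat_lit 28148811971) (nat_lit 76) (nat_lit 94797700570) (nat_lit 19) (nat_lit 5) (nat_lit 21) (nat_lit 5) (nat_lit 20) (nat_lit 4) (nat_lit 400) (nat_lit 330) (nat_lit 170))))))) (XT.nd (nat_lit 936) (nat_lit 380) (nat_lit 0) (XT.nd (nat_lit 468) (nat_lit 152) (nat_lit 0) (XT.nd (nat_lit 234) (nat_lit 228) (nat_lit 0) (XT.nd (nat_lit 78) (nat_lit 0) (nat_lit 0) (XT.lf (nat_lit 0) (nat_lit 35025142050) (nat_lit 76) (nat_lit 34016519903) (nat_lit 152) (nat_lit 98482683316) (nat_lit 18) (nat_lit 5) (nat_lit 19) (nat_lit 5) (nat_lit 20) (nat_lit 4) (nat_lit 401) (nat_lit 330) (nat_lit 169)) (XT.nd (nat_lit 78) (nat_lit 0) (nat_lit 0) (XT.lf (nat_lit 0) (nat_lit 101882654589) (nat_lit 152) (nat_lit 71846558701) (nat_lit 0) (nat_lit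 442433424) (nat_lit 18) (nat_lit 5) (nat_lit 20) (nat_lit 4) (nat_lit 18) (nat_lit 4) (nat_lit 402) (nat_lit 330) (nat_lit 168)) (XT.lf (nat_lit 0) (nat_lit 136922083299) (nat_lit 152) (nat_lit 8721333053) (nat_lit 0) (nat_lit 35480077764) (nat_lit 18) (nat_lit 5) (nat_lit 20) (nat_lit 4) (nat_lit 18) (nat_lit 4) (nat_lit 403) (nat_lit 330) (nat_lit 167)))) (XT.nd (nat_lit 78) (nat_lit 152) (nat_lit 0) (XT.lf (nat_lit 0) (nat_lit 59460988044) (nat_lit 76) (nat_lit 115179646706) (nat_lit 76) (nat_lit 13735941772) (nat_lit 17) (nat_lit 4) (nat_lit 18) (nat_lit 5) (nat_lit 18) (nat_lit 4) (nat_lit 404) (nat_lit 330) (nat_lit 166)) (XT.nd (nat_lit 78) (nat_lit 76) (nat_lit 0) (XT.lf (nat_lit 0) (nat_lit 17817519596) (nat_lit 152) (nat_lit 64919408238) (nat_lit 76) (nat_lit 113233690402) (nat_lit 16) (nat_lit 5) (nat_lit 18) (nat_lit 5) (nat_lit 17) (nat_lit 4) (nat_lit 405) (nat_lit 330) (nat_lit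 165)) (XT.lf (nat_lit 0) (nat_lit 2116975514) (nat_lit 76) (nat_lit 48401970988) (nat_lit 152) (nat_lit 153412561225) (nat_lit 15) (nat_lit 5) (nat_lit 16) (nat_lit 5) (nat_lit 17) (nat_lit 4) (nat_lit 406) (nat_lit 330) (nat_lit 164))))) (XT.nd (nat_lit 234) (nat_lit 152) (nat_lit 0) (XT.nd (nat_lit 78) (nat_lit 0) (nat_lit 0) (XT.lf (nat_lit 0) (nat_lit 74756886355) (nat_lit 76) (nat_lit 11196879096) (nat_lit 152) (nat_lit 126281760370) (nat_lit 15) (nat_lit 5) (nat_lit 16) (nat_lit 5) (nat_lit 17) (nat_lit 4) (nat_lit 407) (nat_lit 330) (nat_lit 163)) (XT.nd (nat_lit 78) (nat_lit 0) (nat_lit 0) (XT.lf (nat_lit 0) (nat_lit 123594347446) (nat_lit 152) (nat_lit 70363140335) (nat_lit 0) (nat_lit 26975556091) (nat_lit 15) (nat_lit 5) (nat_lit 17) (nat_lit 4) (nat_lit 15) (nat_lit 4) (nat_lit 408) (nat_lit 330) (nat_lit 162)) (XT.lf (nat_lit 0) (nat_lit 163299482714) (nat_lit 152) (nat_lit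 77405807) (nat_lit 0) (nat_lit 66679423242) (nat_lit 15) (nat_lit 5) (nat_lit 17) (nat_lit 4) (nat_lit 15) (nat_lit 4) (nat_lit 409) (nat_lit 330) (nat_lit 161)))) (XT.nd (nat_lit 78) (nat_lit 76) (nat_lit 0) (XT.lf (nat_lit 0) (nat_lit 76158265891) (nat_lit 76) (nat_lit 130019670705) (nat_lit 76) (nat_lit 33398403501) (nat_lit 14) (nat_lit 4) (nat_lit 15) (nat_lit 5) (nat_lit 15) (nat_lit 4) (nat_lit 410) (nat_lit 330) (nat_lit 160)) (XT.nd (nat_lit 78) (nat_lit 0) (nat_lit 0) (XT.lf (nat_lit 0) (nat_lit 1576191052) (nat_lit 152) (nat_lit 93391225767) (nat_lit 76) (nat_lit 154603664715) (nat_lit 13) (nat_lit 5) (nat_lit 15) (nat_lit 5) (nat_lit 14) (nat_lit 4) (nat_lit 411) (nat_lit 330) (nat_lit 159)) (XT.lf (nat_lit 0) (nat_lit 37176176339) (nat_lit 152) (nat_lit 20412351377) (nat_lit 76) (nat_lit 202449703389) (nat_lit 13) (nat_lit 5) (nat_lit 15) (nat_lit 5) (nat_lit 14) (nat_lit 4)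 (nat_lit 412) (nat_lit 330) (nat_lit 158)))))) (XT.nd (nat_lit 468) (nat_lit 228) (nat_lit 0) (XT.nd (nat_lit 234) (nat_lit 76) (nat_lit 0) (XT.nd (nat_lit 78) (nat_lit 0) (nat_lit 0) (XT.lf (nat_lit 0) (nat_lit 58072431335) (nat_lit 76) (nat_lit 17389513782) (nat_lit 152) (nat_lit 195521503942) (nat_lit 12) (nat_lit 5) (nat_lit 13) (nat_lit 5) (nat_lit 14) (nat_lit 4) (nat_lit 413) (nat_lit 330) (nat_lit 157)) (XT.nd (nat_lit 78) (nat_lit 0) (nat_lit 0) (XT.lf (nat_lit 0) (nat_lit 116399977753) (nat_lit 152) (nat_lit 141663406850) (nat_lit 0) (nat_lit 24375644648) (nat_lit 12) (nat_lit 5) (nat_lit 14) (nat_lit 4) (nat_lit 12) (nat_lit 4) (nat_lit 414) (nat_lit 330) (nat_lit 156)) (XT.lf (nat_lit 0) (nat_lit 159669142290) (nat_lit 152) (nat_lit 67140126797) (nat_lit 0) (nat_lit 67643907956) (nat_lit 12) (nat_lit 5) (nat_lit 14) (nat_lit 4) (nat_lit 12) (nat_lit 4) (nat_lit 415) (nat_lit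 330) (nat_lit 155)))) (XT.nd (nat_lit 78) (nat_lit 0) (nat_lit 0) (XT.lf (nat_lit 0) (nat_lit 11475030497) (nat_lit 76) (nat_lit 193805088391) (nat_lit 76) (nat_lit 101778995745) (nat_lit 11) (nat_lit 4) (nat_lit 12) (nat_lit 5) (nat_lit 12) (nat_lit 4) (nat_lit 416) (nat_lit 330) (nat_lit 154)) (XT.nd (nat_lit 78) (nat_lit 0) (nat_lit 0) (XT.lf (nat_lit 0) (nat_lit 96350365005) (nat_lit 76) (nat_lit 157957540608) (nat_lit 76) (nat_lit 65930630521) (nat_lit 11) (nat_lit 4) (nat_lit 12) (nat_lit 5) (nat_lit 12) (nat_lit 4) (nat_lit 417) (nat_lit 330) (nat_lit 153)) (XT.lf (nat_lit 0) (nat_lit 185468005049) (nat_lit 76) (nat_lit 120318324967) (nat_lit 76) (nat_lit 28290636367) (nat_lit 11) (nat_lit 4) (nat_lit 12) (nat_lit 5) (nat_lit 12) (nat_lit 4) (nat_lit 418) (nat_lit 330) (nat_lit 152))))) (XT.nd (nat_lit 234) (nat_lit 76) (nat_lit 0) (XT.nd (nat_lit 78) (nat_lit 76) (nat_lit 0) (XT.lf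 (nat_lit 0) (nat_lit 10871156232) (nat_lit 152) (nat_lit 69742559767) (nat_lit 76) (nat_lit 267984870964) (nat_lit 10) (nat_lit 5) (nat_lit 12) (nat_lit 5) (nat_lit 11) (nat_lit 4) (nat_lit 419) (nat_lit 330) (nat_lit 151)) (XT.nd (nat_lit 78) (nat_lit 0) (nat_lit 0) (XT.lf (nat_lit 0) (nat_lit 13018712731) (nat_lit 76) (nat_lit 38224140395) (nat_lit 152) (nat_lit 312570118199) (nat_lit 9) (nat_lit 5) (nat_lit 10) (nat_lit 5) (nat_lit 11) (nat_lit 4) (nat_lit 420) (nat_lit 330) (nat_lit 150)) (XT.lf (nat_lit 0) (nat_lit 94931055847) (nat_lit 152) (nat_lit 277508504085) (nat_lit 0) (nat_lit 7283619000) (nat_lit 9) (nat_lit 5) (nat_lit 11) (nat_lit 4) (nat_lit 9) (nat_lit 4) (nat_lit 421) (nat_lit 330) (nat_lit 149)))) (XT.nd (nat_lit 156) (nat_lit 76) (nat_lit 0) (XT.nd (nat_lit 78) (nat_lit 0) (nat_lit 0) (XT.lf (nat_lit 0) (nat_lit 141429636027) (nat_lit 152) (nat_lit 201186373402) (nat_lit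 0) (nat_lit 53781589194) (nat_lit 9) (nat_lit 5) (nat_lit 11) (nat_lit 4) (nat_lit 9) (nat_lit 4) (nat_lit 422) (nat_lit 330) (nat_lit 148)) (XT.lf (nat_lit 0) (nat_lit 190252518619) (nat_lit 152) (nat_lit 121049361233) (nat_lit 0) (nat_lit 102603890846) (nat_lit 9) (nat_lit 5) (nat_lit 11) (nat_lit 4) (nat_lit 9) (nat_lit 4) (nat_lit 423) (nat_lit 330) (nat_lit 147))) (XT.nd (nat_lit 78) (nat_lit 76) (nat_lit 0) (XT.lf (nat_lit 0) (nat_lit 241515948579) (nat_lit 152) (nat_lit 36906665168) (nat_lit 0) (nat_lit 153866767531) (nat_lit 9) (nat_lit 5) (nat_lit 11) (nat_lit 4) (nat_lit 9) (nat_lit 4) (nat_lit 424) (nat_lit 330) (nat_lit 146)) (XT.lf (nat_lit 0) (nat_lit 53142961188) (nat_lit 76) (nat_lit 243028731064) (nat_lit 76) (nat_lit 155379023086) (nat_lit 8) (nat_lit 4) (nat_lit 9) (nat_lit 5) (nat_lit 9) (nat_lit 4) (nat_lit 425) (nat_lit 330) (nat_lit 145))))))))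
noncomputable def xc177 : XT := (XT.nd (nat_lit 40716) (nat_lit 0) (nat_lit 3040) (XT.nd (nat_lit 39702) (nat_lit 0) (nat_lit 6536) (XT.nd (nat_lit 468) (nat_lit 0) (nat_lit 0) (XT.nd (nat_lit 234) (nat_lit 152) (nat_lit 0) (XT.nd (nat_lit 78) (nat_lit 0) (nat_lit 0) (XT.lf (nat_lit 0) (nat_lit 148975291706) (nat_lit 76) (nat_lit 205209405287) (nat_lit 76) (nat_lit 117559195472) (nat_lit 8) (nat_lit 4) (nat_lit 9) (nat_lit 5) (nat_lit 9) (nat_lit 4) (nat_lit 426) (nat_lit 330) (nat_lit 144)) (XT.nd (nat_lit 78) (nat_lit 0) (nat_lit 0) (XT.lf (nat_lit 0) (nat_lit 249598197577) (nat_lit 76) (nat_lit 165499622636) (nat_lit 76) (nat_lit 77848934880) (nat_lit 8) (nat_lit 4) (nat_lit 9) (nat_lit 5) (nat_lit 9) (nat_lit 4) (nat_lit 427) (nat_lit 330) (nat_lit 143)) (XT.lf (nat_lit 0) (nat_lit 355251257147) (nat_lit 76) (nat_lit 123804836008) (nat_lit 76) (nat_lit 36153693071) (nat_lit 8) (nat_lit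 4) (nat_lit 9) (nat_lit 5) (nat_lit 9) (nat_lit 4) (nat_lit 428) (nat_lit 330) (nat_lit 142)))) (XT.nd (nat_lit 78) (nat_lit 76) (nat_lit 0) (XT.lf (nat_lit 0) (nat_lit 7381730976) (nat_lit 152) (nat_lit 72519027941) (nat_lit 76) (nat_lit 458679281158) (nat_lit 7) (nat_lit 5) (nat_lit 9) (nat_lit 5) (nat_lit 8) (nat_lit 4) (nat_lit 429) (nat_lit 330) (nat_lit 141)) (XT.nd (nat_lit 78) (nat_lit 0) (nat_lit 0) (XT.lf (nat_lit 0) (nat_lit 19317118295) (nat_lit 76) (nat_lit 32862934193) (nat_lit 152) (nat_lit 510894063628) (nat_lit 6) (nat_lit 5) (nat_lit 7) (nat_lit 5) (nat_lit 8) (nat_lit 4) (nat_lit 430) (nat_lit 330) (nat_lit 140)) (XT.lf (nat_lit 0) (nat_lit 100724132164) (nat_lit 152) (nat_lit 470747799102) (nat_lit 0) (nat_lit 17245672632) (nat_lit 6) (nat_lit 5) (nat_lit 8) (nat_lit 4) (nat_lit 6) (nat_lit 4) (nat_lit 431) (nat_lit 330) (nat_lit 139))))) (XT.nd (nat_lit 39000) (nat_lit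 0) (nat_lit 7600) (XT.nd (nat_lit 78) (nat_lit 0) (nat_lit 0) (XT.lf (nat_lit 0) (nat_lit 152233708983) (nat_lit 152) (nat_lit 394627749666) (nat_lit 0) (nat_lit 68754892804) (nat_lit 6) (nat_lit 5) (nat_lit 8) (nat_lit 4) (nat_lit 6) (nat_lit 4) (nat_lit 432) (nat_lit 330) (nat_lit 138)) (XT.nd (nat_lit 78) (nat_lit 0) (nat_lit 0) (XT.lf (nat_lit 0) (nat_lit 206318342292) (nat_lit 152) (nat_lit 314702528800) (nat_lit 0) (nat_lit 122839186450) (nat_lit 6) (nat_lit 5) (nat_lit 8) (nat_lit 4) (nat_lit 6) (nat_lit 4) (nat_lit 433) (nat_lit 330) (nat_lit 137)) (XT.lf (nat_lit 0) (nat_lit 263106805029) (nat_lit 152) (nat_lit 230781838360) (nat_lit 0) (nat_lit 179627325698) (nat_lit 6) (nat_lit 5) (nat_lit 8) (nat_lit 4) (nat_lit 6) (nat_lit 4) (nat_lit 434) (nat_lit 330) (nat_lit 136)))) (XT.nd (nat_lit 78) (nat_lit 0) (nat_lit 0) (XT.lf (nat_lit 0) (nat_lit 310657671) (nat_lit 836) (nat_lit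 4497095363) (nat_lit 836) (nat_lit 4497095363) (nat_lit 106) (nat_lit 3) (nat_lit 117) (nat_lit 3) (nat_lit 117) (nat_lit 5) (nat_lit 331) (nat_lit 331) (nat_lit 238)) (XT.nd (nat_lit 78) (nat_lit 0) (nat_lit 76) (XT.lf (nat_lit 0) (nat_lit 822717556) (nat_lit 836) (nat_lit 100847025) (nat_lit 836) (nat_lit 18141920085) (nat_lit 106) (nat_lit 3) (nat_lit 117) (nat_lit 3) (nat_lit 117) (nat_lit 5) (nat_lit 332) (nat_lit 331) (nat_lit 237)) (XT.lf (nat_lit 0) (nat_lit 1301777920) (nat_lit 760) (nat_lit 10131695247) (nat_lit 836) (nat_lit 8097219671) (nat_lit 107) (nat_lit 5) (nat_lit 117) (nat_lit 5) (nat_lit 118) (nat_lit 5) (nat_lit 333) (nat_lit 331) (nat_lit 236)))))) (XT.nd (nat_lit 468) (nat_lit 1140) (nat_lit 0) (XT.nd (nat_lit 234) (nat_lit 0) (nat_lit 152) (XT.nd (nat_lit 78) (nat_lit 0) (nat_lit 76) (XT.lf (nat_lit 0) (nat_lit 1810322561) (nat_lit 760) (nat_lit 663723131) (nat_lit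 836) (nat_lit 17544848983) (nat_lit 107) (nat_lit 5) (nat_lit 117) (nat_lit 5) (nat_lit 118) (nat_lit 5) (nat_lit 334) (nat_lit 331) (nat_lit 235)) (XT.nd (nat_lit 78) (nat_lit 0) (nat_lit 0) (XT.lf (nat_lit 0) (nat_lit 2593792272) (nat_lit 760) (nat_lit 11057643191) (nat_lit 836) (nat_lit 6867605603) (nat_lit 108) (nat_lit 5) (nat_lit 118) (nat_lit 5) (nat_lit 119) (nat_lit 5) (nat_lit 335) (nat_lit 331) (nat_lit 234)) (XT.lf (nat_lit 0) (nat_lit 3458090892) (nat_lit 760) (nat_lit 975533340) (nat_lit 836) (nat_lit 16608496680) (nat_lit 108) (nat_lit 5) (nat_lit 118) (nat_lit 5) (nat_lit 119) (nat_lit 5) (nat_lit 336) (nat_lit 331) (nat_lit 233)))) (XT.nd (nat_lit 78) (nat_lit 0) (nat_lit 0) (XT.lf (nat_lit 0) (nat_lit 4595152220) (nat_lit 760) (nat_lit 11746998447) (nat_lit 836) (nat_lit 5237735178) (nat_lit 109) (nat_lit 5) (nat_lit 119) (nat_lit 5) (nat_lit 120) (nat_lit 5) (nat_lit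 337) (nat_lit 331) (nat_lit 232)) (XT.nd (nat_lit 78) (nat_lit 0) (nat_lit 76) (XT.lf (nat_lit 0) (nat_lit 5869117377) (nat_lit 760) (nat_lit 1008132754) (nat_lit 836) (nat_lit 15263294434) (nat_lit 109) (nat_lit 5) (nat_lit 119) (nat_lit 5) (nat_lit 120) (nat_lit 5) (nat_lit 338) (nat_lit 331) (nat_lit 231)) (XT.lf (nat_lit 0) (nat_lit 7413842476) (nat_lit 760) (nat_lit 12171733208) (nat_lit 836) (nat_lit 3133315148) (nat_lit 110) (nat_lit 5) (nat_lit 120) (nat_lit 5) (nat_lit 121) (nat_lit 5) (nat_lit 339) (nat_lit 331) (nat_lit 230))))) (XT.nd (nat_lit 234) (nat_lit 1368) (nat_lit 0) (XT.nd (nat_lit 78) (nat_lit 0) (nat_lit 76) (XT.lf (nat_lit 0) (nat_lit 9157279662) (nat_lit 760) (nat_lit 730200593) (nat_lit 836) (nat_lit 13432607695) (nat_lit 110) (nat_lit 5) (nat_lit 120) (nat_lit 5) (nat_lit 121) (nat_lit 5) (nat_lit 340) (nat_lit 331) (nat_lit 229)) (XT.nd (nat_lit 78) (nat_lit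 0) (nat_lit 0) (XT.lf (nat_lit 0) (nat_lit 11169179885) (nat_lit 760) (nat_lit 12300773840) (nat_lit 76) (nat_lit 472333619) (nat_lit 111) (nat_lit 5) (nat_lit 121) (nat_lit 5) (nat_lit 112) (nat_lit 5) (nat_lit 341) (nat_lit 331) (nat_lit 228)) (XT.lf (nat_lit 0) (nat_lit 13448432435) (nat_lit 760) (nat_lit 107173586) (nat_lit 76) (nat_lit 11031659466) (nat_lit 111) (nat_lit 5) (nat_lit 121) (nat_lit 5) (nat_lit 112) (nat_lit 5) (nat_lit 342) (nat_lit 331) (nat_lit 227)))) (XT.nd (nat_lit 156) (nat_lit 304) (nat_lit 0) (XT.nd (nat_lit 78) (nat_lit 380) (nat_lit 0) (XT.lf (nat_lit 0) (nat_lit 13108944434) (nat_lit 760) (nat_lit 2929845253) (nat_lit 836) (nat_lit 9215852078) (nat_lit 101) (nat_lit 5) (nat_lit 111) (nat_lit 5) (nat_lit 112) (nat_lit 5) (nat_lit 343) (nat_lit 331) (nat_lit 226)) (XT.lf (nat_lit 0) (nat_lit 928530955) (nat_lit 380) (nat_lit 17967665114) (nat_lit 456) (nat_lit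 7052320253) (nat_lit 96) (nat_lit 5) (nat_lit 101) (nat_lit 5) (nat_lit 102) (nat_lit 5) (nat_lit 344) (nat_lit 331) (nat_lit 225))) (XT.nd (nat_lit 78) (nat_lit 304) (nat_lit 0) (XT.lf (nat_lit 0) (nat_lit 15021634970) (nat_lit 380) (nat_lit 7120764606) (nat_lit 456) (nat_lit 4522394432) (nat_lit 96) (nat_lit 5) (nat_lit 101) (nat_lit 5) (nat_lit 102) (nat_lit 5) (nat_lit 345) (nat_lit 331) (nat_lit 224)) (XT.lf (nat_lit 0) (nat_lit 2405969366) (nat_lit 304) (nat_lit 23242465110) (nat_lit 380) (nat_lit 1763580510) (nat_lit 92) (nat_lit 5) (nat_lit 96) (nat_lit 5) (nat_lit 97) (nat_lit 5) (nat_lit 346) (nat_lit 331) (nat_lit 223))))))) (XT.nd (nat_lit 936) (nat_lit 1596) (nat_lit 0) (XT.nd (nat_lit 468) (nat_lit 836) (nat_lit 0) (XT.nd (nat_lit 234) (nat_lit 608) (nat_lit 0) (XT.nd (nat_lit 78) (nat_lit 380) (nat_lit 0) (XT.lf (nat_lit 0) (nat_lit 1407469857) (nat_lit 380) (nat_lit 10769631554)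 (nat_lit 76) (nat_lit 16003087741) (nat_lit 91) (nat_lit 5) (nat_lit 96) (nat_lit 5) (nat_lit 92) (nat_lit 5) (nat_lit 347) (nat_lit 331) (nat_lit 222)) (XT.nd (nat_lit 78) (nat_lit 0) (nat_lit 0) (XT.lf (nat_lit 0) (nat_lit 4279999063) (nat_lit 380) (nat_lit 458357657) (nat_lit 456) (nat_lit 24243946880) (nat_lit 86) (nat_lit 5) (nat_lit 91) (nat_lit 5) (nat_lit 92) (nat_lit 5) (nat_lit 348) (nat_lit 331) (nat_lit 221)) (XT.lf (nat_lit 0) (nat_lit 8600038452) (nat_lit 456) (nat_lit 9554212555) (nat_lit 76) (nat_lit 11652064736) (nat_lit 86) (nat_lit 5) (nat_lit 92) (nat_lit 5) (nat_lit 87) (nat_lit 5) (nat_lit 349) (nat_lit 331) (nat_lit 220)))) (XT.nd (nat_lit 78) (nat_lit 304) (nat_lit 0) (XT.lf (nat_lit 0) (nat_lit 6546762054) (nat_lit 304) (nat_lit 6211976547) (nat_lit 380) (nat_lit 17907597460) (nat_lit 82) (nat_lit 5) (nat_lit 86) (nat_lit 5) (nat_lit 87) (nat_lit 5) (nat_lit 350)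 (nat_lit 331) (nat_lit 219)) (XT.nd (nat_lit 78) (nat_lit 304) (nat_lit 0) (XT.lf (nat_lit 0) (nat_lit 17382989597) (nat_lit 380) (nat_lit 7884933978) (nat_lit 76) (nat_lit 6288557110) (nat_lit 82) (nat_lit 5) (nat_lit 87) (nat_lit 5) (nat_lit 83) (nat_lit 5) (nat_lit 351) (nat_lit 331) (nat_lit 218)) (XT.lf (nat_lit 0) (nat_lit 9352550244) (nat_lit 304) (nat_lit 13128395673) (nat_lit 380) (nat_lit 9998065869) (nat_lit 78) (nat_lit 5) (nat_lit 82) (nat_lit 5) (nat_lit 83) (nat_lit 5) (nat_lit 352) (nat_lit 331) (nat_lit 217))))) (XT.nd (nat_lit 234) (nat_lit 532) (nat_lit 0) (XT.nd (nat_lit 78) (nat_lit 304) (nat_lit 0) (XT.lf (nat_lit 0) (nat_lit 27719366737) (nat_lit 304) (nat_lit 242763228) (nat_lit 380) (nat_lit 5479126683) (nat_lit 78) (nat_lit 5) (nat_lit 82) (nat_lit 5) (nat_lit 83) (nat_lit 5) (nat_lit 353) (nat_lit 331) (nat_lit 216)) (XT.nd (nat_lit 78) (nat_lit 76) (nat_lit 0)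 (XT.lf (nat_lit 0) (nat_lit 12747226654) (nat_lit 228) (nat_lit 21371642647) (nat_lit 304) (nat_lit 312673172) (nat_lit 75) (nat_lit 5) (nat_lit 78) (nat_lit 5) (nat_lit 79) (nat_lit 5) (nat_lit 354) (nat_lit 331) (nat_lit 215)) (XT.lf (nat_lit 0) (nat_lit 5046040303) (nat_lit 304) (nat_lit 3219719996) (nat_lit 76) (nat_lit 27196716950) (nat_lit 74) (nat_lit 5) (nat_lit 78) (nat_lit 5) (nat_lit 75) (nat_lit 5) (nat_lit 355) (nat_lit 331) (nat_lit 214)))) (XT.nd (nat_lit 78) (nat_lit 228) (nat_lit 0) (XT.lf (nat_lit 0) (nat_lit 11008231962) (nat_lit 380) (nat_lit 19930831983) (nat_lit 76) (nat_lit 5588339056) (nat_lit 70) (nat_lit 5) (nat_lit 75) (nat_lit 5) (nat_lit 71) (nat_lit 5) (nat_lit 356) (nat_lit 331) (nat_lit 213)) (XT.nd (nat_lit 78) (nat_lit 228) (nat_lit 0) (XT.lf (nat_lit 0) (nat_lit 17454888040) (nat_lit 380) (nat_lit 269892232) (nat_lit 76) (nat_lit 19911479926) (nat_lit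 70) (nat_lit 5) (nat_lit 75) (nat_lit 5) (nat_lit 71) (nat_lit 5) (nat_lit 357) (nat_lit 331) (nat_lit 212)) (XT.lf (nat_lit 0) (nat_lit 21041749124) (nat_lit 228) (nat_lit 3506295289) (nat_lit 304) (nat_lit 14236310229) (nat_lit 67) (nat_lit 5) (nat_lit 70) (nat_lit 5) (nat_lit 71) (nat_lit 5) (nat_lit 358) (nat_lit 331) (nat_lit 211)))))) (XT.nd (nat_lit 468) (nat_lit 836) (nat_lit 0) (XT.nd (nat_lit 234) (nat_lit 228) (nat_lit 0) (XT.nd (nat_lit 78) (nat_lit 304) (nat_lit 0) (XT.lf (nat_lit 0) (nat_lit 3361990021) (nat_lit 228) (nat_lit 28865092837) (nat_lit 304) (nat_lit 7751212369) (nat_lit 64) (nat_lit 5) (nat_lit 67) (nat_lit 5) (nat_lit 68) (nat_lit 5) (nat_lit 359) (nat_lit 331) (nat_lit 210)) (XT.nd (nat_lit 78) (nat_lit 304) (nat_lit 0) (XT.lf (nat_lit 0) (nat_lit 26072602827) (nat_lit 228) (nat_lit 14570356804) (nat_lit 304) (nat_lit 571331394) (nat_lit 64) (nat_lit 5) (nat_lit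 67) (nat_lit 5) (nat_lit 68) (nat_lit 5) (nat_lit 360) (nat_lit 331) (nat_lit 209)) (XT.lf (nat_lit 0) (nat_lit 6868680376) (nat_lit 304) (nat_lit 34978194247) (nat_lit 76) (nat_lit 653568036) (nat_lit 60) (nat_lit 5) (nat_lit 64) (nat_lit 5) (nat_lit 61) (nat_lit 5) (nat_lit 361) (nat_lit 331) (nat_lit 208)))) (XT.nd (nat_lit 78) (nat_lit 228) (nat_lit 0) (XT.lf (nat_lit 0) (nat_lit 15157048251) (nat_lit 304) (nat_lit 12251194650) (nat_lit 76) (nat_lit 16417415033) (nat_lit 60) (nat_lit 5) (nat_lit 64) (nat_lit 5) (nat_lit 61) (nat_lit 5) (nat_lit 362) (nat_lit 331) (nat_lit 207)) (XT.nd (nat_lit 78) (nat_lit 0) (nat_lit 0) (XT.lf (nat_lit 0) (nat_lit 11990444755) (nat_lit 228) (nat_lit 12052843801) (nat_lit 304) (nat_lit 21164674776) (nat_lit 57) (nat_lit 5) (nat_lit 60) (nat_lit 5) (nat_lit 61) (nat_lit 5) (nat_lit 363) (nat_lit 331) (nat_lit 206)) (XT.lf (nat_lit 0) (nat_lit 33644588209)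 (nat_lit 304) (nat_lit 8852009137) (nat_lit 76) (nat_lit 4149251250) (nat_lit 57) (nat_lit 5) (nat_lit 61) (nat_lit 5) (nat_lit 58) (nat_lit 5) (nat_lit 364) (nat_lit 331) (nat_lit 205))))) (XT.nd (nat_lit 234) (nat_lit 380) (nat_lit 0) (XT.nd (nat_lit 78) (nat_lit 304) (nat_lit 0) (XT.lf (nat_lit 0) (nat_lit 17075424013) (nat_lit 152) (nat_lit 27111203969) (nat_lit 228) (nat_lit 3945968253) (nat_lit 55) (nat_lit 5) (nat_lit 57) (nat_lit 5) (nat_lit 58) (nat_lit 5) (nat_lit 365) (nat_lit 331) (nat_lit 204)) (XT.nd (nat_lit 78) (nat_lit 228) (nat_lit 0) (XT.lf (nat_lit 0) (nat_lit 5532957921) (nat_lit 228) (nat_lit 5174248276) (nat_lit 76) (nat_lit 38974690215) (nat_lit 54) (nat_lit 5) (nat_lit 57) (nat_lit 5) (nat_lit 55) (nat_lit 5) (nat_lit 366) (nat_lit 331) (nat_lit 203)) (XT.lf (nat_lit 0) (nat_lit 15812246247) (nat_lit 304) (nat_lit 28738210037) (nat_lit 76) (nat_lit 6732021217) (nat_lit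 51) (nat_lit 5) (nat_lit 55) (nat_lit 5) (nat_lit 52) (nat_lit 5) (nat_lit 367) (nat_lit 331) (nat_lit 202)))) (XT.nd (nat_lit 156) (nat_lit 228) (nat_lit 0) (XT.nd (nat_lit 78) (nat_lit 152) (nat_lit 0) (XT.lf (nat_lit 0) (nat_lit 26866830700) (nat_lit 304) (nat_lit 1312440559) (nat_lit 76) (nat_lit 24770751338) (nat_lit 51) (nat_lit 5) (nat_lit 55) (nat_lit 5) (nat_lit 52) (nat_lit 5) (nat_lit 368) (nat_lit 331) (nat_lit 201)) (XT.lf (nat_lit 0) (nat_lit 28388348458) (nat_lit 152) (nat_lit 10525911701) (nat_lit 228) (nat_lit 15764680464) (nat_lit 49) (nat_lit 5) (nat_lit 51) (nat_lit 5) (nat_lit 52) (nat_lit 5) (nat_lit 369) (nat_lit 331) (nat_lit 200))) (XT.nd (nat_lit 78) (nat_lit 76) (nat_lit 0) (XT.lf (nat_lit 0) (nat_lit 3095271682) (nat_lit 152) (nat_lit 48661706457) (nat_lit 228) (nat_lit 4727681953) (nat_lit 47) (nat_lit 5) (nat_lit 49) (nat_lit 5) (nat_lit 50) (nat_lit 5) (nat_lit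 370) (nat_lit 331) (nat_lit 199)) (XT.lf (nat_lit 0) (nat_lit 7263624698) (nat_lit 228) (nat_lit 23787144411) (nat_lit 76) (nat_lit 27293438671) (nat_lit 46) (nat_lit 5) (nat_lit 49) (nat_lit 5) (nat_lit 47) (nat_lit 5) (nat_lit 371) (nat_lit 331) (nat_lit 198))))))))
noncomputable def xc178 : XT := (XT.nd (nat_lit 1872) (nat_lit 912) (nat_lit 0) (XT.nd (nat_lit 936) (nat_lit 836) (nat_lit 0) (XT.nd (nat_lit 468) (nat_lit 456) (nat_lit 0) (XT.nd (nat_lit 234) (nat_lit 228) (nat_lit 0) (XT.nd (nat_lit 78) (nat_lit 152) (nat_lit 0) (XT.lf (nat_lit 0) (nat_lit 7451495838) (nat_lit 152) (nat_lit 12357562731) (nat_lit 228) (nat_lit 40478128188) (nat_lit 44) (nat_lit 5) (nat_lit 46) (nat_lit 5) (nat_lit 47) (nat_lit 5) (nat_lit 372) (nat_lit 331) (nat_lit 197)) (XT.nd (nat_lit 78) (nat_lit 152) (nat_lit 0) (XT.lf (nat_lit 0) (nat_lit 33501866527) (nat_lit 228) (nat_lit 21354128145) (nat_lit 76)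 (nat_lit 7445316038) (nat_lit 44) (nat_lit 5) (nat_lit 47) (nat_lit 5) (nat_lit 45) (nat_lit 5) (nat_lit 373) (nat_lit 331) (nat_lit 196)) (XT.lf (nat_lit 0) (nat_lit 11874466892) (nat_lit 152) (nat_lit 36390102530) (nat_lit 228) (nat_lit 16132309806) (nat_lit 42) (nat_lit 5) (nat_lit 44) (nat_lit 5) (nat_lit 45) (nat_lit 5) (nat_lit 374) (nat_lit 331) (nat_lit 195)))) (XT.nd (nat_lit 78) (nat_lit 228) (nat_lit 0) (XT.lf (nat_lit 0) (nat_lit 47501411715) (nat_lit 152) (nat_lit 16622976269) (nat_lit 228) (nat_lit 2454890202) (nat_lit 42) (nat_lit 5) (nat_lit 44) (nat_lit 5) (nat_lit 45) (nat_lit 5) (nat_lit 375) (nat_lit 331) (nat_lit 194)) (XT.nd (nat_lit 78) (nat_lit 0) (nat_lit 0) (XT.lf (nat_lit 0) (nat_lit 11850098317) (nat_lit 228) (nat_lit 52547859570) (nat_lit 76) (nat_lit 4447306679) (nat_lit 39) (nat_lit 5) (nat_lit 42) (nat_lit 5) (nat_lit 40) (nat_lit 5) (nat_lit 376) (nat_lit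 331) (nat_lit 193)) (XT.lf (nat_lit 0) (nat_lit 27386184788) (nat_lit 228) (nat_lit 17427015388) (nat_lit 76) (nat_lit 26379421339) (nat_lit 39) (nat_lit 5) (nat_lit 42) (nat_lit 5) (nat_lit 40) (nat_lit 5) (nat_lit 377) (nat_lit 331) (nat_lit 192))))) (XT.nd (nat_lit 234) (nat_lit 152) (nat_lit 0) (XT.nd (nat_lit 78) (nat_lit 152) (nat_lit 0) (XT.lf (nat_lit 0) (nat_lit 20088690031) (nat_lit 152) (nat_lit 23921599273) (nat_lit 228) (nat_lit 29631497176) (nat_lit 37) (nat_lit 5) (nat_lit 39) (nat_lit 5) (nat_lit 40) (nat_lit 5) (nat_lit 378) (nat_lit 331) (nat_lit 191)) (XT.nd (nat_lit 78) (nat_lit 152) (nat_lit 0) (XT.lf (nat_lit 0) (nat_lit 60081129683) (nat_lit 152) (nat_lit 1677229183) (nat_lit 228) (nat_lit 14440413651) (nat_lit 37) (nat_lit 5) (nat_lit 39) (nat_lit 5) (nat_lit 40) (nat_lit 5) (nat_lit 379) (nat_lit 331) (nat_lit 190)) (XT.lf (nat_lit 0) (nat_lit 2178129412) (nat_lit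 152) (nat_lit 55280939890) (nat_lit 76) (nat_lit 21387548256) (nat_lit 35) (nat_lit 5) (nat_lit 37) (nat_lit 5) (nat_lit 36) (nat_lit 5) (nat_lit 380) (nat_lit 331) (nat_lit 189)))) (XT.nd (nat_lit 78) (nat_lit 152) (nat_lit 0) (XT.lf (nat_lit 0) (nat_lit 19444960580) (nat_lit 152) (nat_lit 16093156864) (nat_lit 76) (nat_lit 46061769029) (nat_lit 35) (nat_lit 5) (nat_lit 37) (nat_lit 5) (nat_lit 36) (nat_lit 5) (nat_lit 381) (nat_lit 331) (nat_lit 188)) (XT.nd (nat_lit 78) (nat_lit 0) (nat_lit 0) (XT.lf (nat_lit 0) (nat_lit 25878494491) (nat_lit 152) (nat_lit 12098506205) (nat_lit 228) (nat_lit 46493725439) (nat_lit 33) (nat_lit 5) (nat_lit 35) (nat_lit 5) (nat_lit 36) (nat_lit 5) (nat_lit 382) (nat_lit 331) (nat_lit 187)) (XT.lf (nat_lit 0) (nat_lit 57905871921) (nat_lit 228) (nat_lit 17167681064) (nat_lit 76) (nat_lit 12388043980) (nat_lit 33) (nat_lit 5) (nat_lit 36) (nat_lit 5) (nat_lit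 34) (nat_lit 4) (nat_lit 383) (nat_lit 331) (nat_lit 186)))))) (XT.nd (nat_lit 468) (nat_lit 456) (nat_lit 0) (XT.nd (nat_lit 234) (nat_lit 76) (nat_lit 0) (XT.nd (nat_lit 78) (nat_lit 228) (nat_lit 0) (XT.lf (nat_lit 0) (nat_lit 26989975564) (nat_lit 76) (nat_lit 52458890192) (nat_lit 152) (nat_lit 11122262236) (nat_lit 32) (nat_lit 5) (nat_lit 33) (nat_lit 5) (nat_lit 34) (nat_lit 4) (nat_lit 384) (nat_lit 331) (nat_lit 185)) (XT.nd (nat_lit 78) (nat_lit 152) (nat_lit 0) (XT.lf (nat_lit 0) (nat_lit 8262841537) (nat_lit 152) (nat_lit 20007007216) (nat_lit 76) (nat_lit 65545186897) (nat_lit 31) (nat_lit 5) (nat_lit 33) (nat_lit 5) (nat_lit 32) (nat_lit 5) (nat_lit 385) (nat_lit 331) (nat_lit 184)) (XT.lf (nat_lit 0) (nat_lit 26405174597) (nat_lit 152) (nat_lit 2248562719) (nat_lit 228) (nat_lit 68537769405) (nat_lit 29) (nat_lit 5) (nat_lit 31) (nat_lit 5) (nat_lit 32) (nat_lit 5) (nat_lit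 386) (nat_lit 331) (nat_lit 183)))) (XT.nd (nat_lit 78) (nat_lit 76) (nat_lit 0) (XT.lf (nat_lit 0) (nat_lit 50798107425) (nat_lit 228) (nat_lit 25287808000) (nat_lit 76) (nat_lit 24614189944) (nat_lit 29) (nat_lit 5) (nat_lit 32) (nat_lit 5) (nat_lit 30) (nat_lit 4) (nat_lit 387) (nat_lit 331) (nat_lit 182)) (XT.nd (nat_lit 78) (nat_lit 0) (nat_lit 0) (XT.lf (nat_lit 0) (nat_lit 23187609894) (nat_lit 76) (nat_lit 51259137625) (nat_lit 152) (nat_lit 29917534333) (nat_lit 28) (nat_lit 5) (nat_lit 29) (nat_lit 5) (nat_lit 30) (nat_lit 4) (nat_lit 388) (nat_lit 331) (nat_lit 181)) (XT.lf (nat_lit 0) (nat_lit 74961468734) (nat_lit 76) (nat_lit 24742814711) (nat_lit 152) (nat_lit 8486060978) (nat_lit 28) (nat_lit 5) (nat_lit 29) (nat_lit 5) (nat_lit 30) (nat_lit 4) (nat_lit 389) (nat_lit 331) (nat_lit 180))))) (XT.nd (nat_lit 234) (nat_lit 152) (nat_lit 0) (XT.nd (nat_lit 78) (nat_lit 76) (nat_lit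 0) (XT.lf (nat_lit 0) (nat_lit 13895524792) (nat_lit 228) (nat_lit 94786752637) (nat_lit 76) (nat_lit 3498132392) (nat_lit 25) (nat_lit 5) (nat_lit 28) (nat_lit 5) (nat_lit 26) (nat_lit 4) (nat_lit 390) (nat_lit 331) (nat_lit 179)) (XT.nd (nat_lit 78) (nat_lit 76) (nat_lit 0) (XT.lf (nat_lit 0) (nat_lit 38086866775) (nat_lit 228) (nat_lit 45198034501) (nat_lit 76) (nat_lit 33029328605) (nat_lit 25) (nat_lit 5) (nat_lit 28) (nat_lit 5) (nat_lit 26) (nat_lit 4) (nat_lit 391) (nat_lit 331) (nat_lit 178)) (XT.lf (nat_lit 0) (nat_lit 7094147448) (nat_lit 76) (nat_lit 56502742081) (nat_lit 152) (nat_lit 57052396106) (nat_lit 24) (nat_lit 5) (nat_lit 25) (nat_lit 5) (nat_lit 26) (nat_lit 4) (nat_lit 392) (nat_lit 331) (nat_lit 177)))) (XT.nd (nat_lit 78) (nat_lit 152) (nat_lit 0) (XT.lf (nat_lit 0) (nat_lit 63567131933) (nat_lit 76) (nat_lit 27579118062) (nat_lit 152) (nat_lit 34016652708) (nat_lit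 24) (nat_lit 5) (nat_lit 25) (nat_lit 5) (nat_lit 26) (nat_lit 4) (nat_lit 393) (nat_lit 331) (nat_lit 176)) (XT.nd (nat_lit 78) (nat_lit 152) (nat_lit 0) (XT.lf (nat_lit 0) (nat_lit 120115091467) (nat_lit 152) (nat_lit 7084900653) (nat_lit 0) (nat_lit 2700108195) (nat_lit 24) (nat_lit 5) (nat_lit 26) (nat_lit 4) (nat_lit 24) (nat_lit 4) (nat_lit 394) (nat_lit 331) (nat_lit 175)) (XT.lf (nat_lit 0) (nat_lit 16429775973) (nat_lit 152) (nat_lit 83736710669) (nat_lit 76) (nat_lit 34631812065) (nat_lit 22) (nat_lit 5) (nat_lit 24) (nat_lit 5) (nat_lit 23) (nat_lit 4) (nat_lit 395) (nat_lit 331) (nat_lit 174))))))) (XT.nd (nat_lit 936) (nat_lit 380) (nat_lit 0) (XT.nd (nat_lit 468) (nat_lit 304) (nat_lit 0) (XT.nd (nat_lit 234) (nat_lit 152) (nat_lit 0) (XT.nd (nat_lit 78) (nat_lit 76) (nat_lit 0) (XT.lf (nat_lit 0) (nat_lit 43746933609) (nat_lit 152) (nat_lit 27739173842) (nat_lit 76) (nat_lit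 68441255659) (nat_lit 22) (nat_lit 5) (nat_lit 24) (nat_lit 5) (nat_lit 23) (nat_lit 4) (nat_lit 396) (nat_lit 331) (nat_lit 173)) (XT.nd (nat_lit 78) (nat_lit 0) (nat_lit 0) (XT.lf (nat_lit 0) (nat_lit 32082447965) (nat_lit 76) (nat_lit 40846989349) (nat_lit 152) (nat_lit 72358469290) (nat_lit 21) (nat_lit 5) (nat_lit 22) (nat_lit 5) (nat_lit 23) (nat_lit 4) (nat_lit 397) (nat_lit 331) (nat_lit 172)) (XT.lf (nat_lit 0) (nat_lit 95855604215) (nat_lit 76) (nat_lit 8183856258) (nat_lit 152) (nat_lit 46853597350) (nat_lit 21) (nat_lit 5) (nat_lit 22) (nat_lit 5) (nat_lit 23) (nat_lit 4) (nat_lit 398) (nat_lit 331) (nat_lit 171)))) (XT.nd (nat_lit 78) (nat_lit 76) (nat_lit 0) (XT.lf (nat_lit 0) (nat_lit 5814862299) (nat_lit 76) (nat_lit 131387262871) (nat_lit 76) (nat_lit 19551484668) (nat_lit 20) (nat_lit 4) (nat_lit 21) (nat_lit 5) (nat_lit 21) (nat_lit 4) (nat_lit 399) (nat_lit 331) (nat_lit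 170)) (XT.nd (nat_lit 78) (nat_lit 0) (nat_lit 0) (XT.lf (nat_lit 0) (nat_lit 9904169876) (nat_lit 152) (nat_lit 91534295586) (nat_lit 76) (nat_lit 61407598281) (nat_lit 19) (nat_lit 5) (nat_lit 21) (nat_lit 5) (nat_lit 20) (nat_lit 4) (nat_lit 400) (nat_lit 331) (nat_lit 169)) (XT.lf (nat_lit 0) (nat_lit 40174281487) (nat_lit 152) (nat_lit 29482534053) (nat_lit 76) (nat_lit 99570362595) (nat_lit 19) (nat_lit 5) (nat_lit 21) (nat_lit 5) (nat_lit 20) (nat_lit 4) (nat_lit 401) (nat_lit 331) (nat_lit 168))))) (XT.nd (nat_lit 234) (nat_lit 228) (nat_lit 0) (XT.nd (nat_lit 78) (nat_lit 0) (nat_lit 0) (XT.lf (nat_lit 0) (nat_lit 36848928662) (nat_lit 76) (nat_lit 35683077851) (nat_lit 152) (nat_lit 103366636548) (nat_lit 18) (nat_lit 5) (nat_lit 19) (nat_lit 5) (nat_lit 20) (nat_lit 4) (nat_lit 402) (nat_lit 331) (nat_lit 167)) (XT.nd (nat_lit 78) (nat_lit 0) (nat_lit 0) (XT.lf (nat_lit 0) (nat_lit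 107013736349) (nat_lit 152) (nat_lit 75368492388) (nat_lit 0) (nat_lit 496146767) (nat_lit 18) (nat_lit 5) (nat_lit 20) (nat_lit 4) (nat_lit 18) (nat_lit 4) (nat_lit 403) (nat_lit 331) (nat_lit 166)) (XT.lf (nat_lit 0) (nat_lit 143803377017) (nat_lit 152) (nat_lit 9090357565) (nat_lit 0) (nat_lit 37284168960) (nat_lit 18) (nat_lit 5) (nat_lit 20) (nat_lit 4) (nat_lit 18) (nat_lit 4) (nat_lit 404) (nat_lit 331) (nat_lit 165)))) (XT.nd (nat_lit 78) (nat_lit 152) (nat_lit 0) (XT.lf (nat_lit 0) (nat_lit 62499998263) (nat_lit 76) (nat_lit 120907211918) (nat_lit 76) (nat_lit 14386462456) (nat_lit 17) (nat_lit 4) (nat_lit 18) (nat_lit 5) (nat_lit 18) (nat_lit 4) (nat_lit 405) (nat_lit 331) (nat_lit 164)) (XT.nd (nat_lit 78) (nat_lit 76) (nat_lit 0) (XT.lf (nat_lit 0) (nat_lit 18741838750) (nat_lit 152) (nat_lit 68101448029) (nat_lit 76) (nat_lit 118924185196) (nat_lit 16) (nat_lit 5) (nat_lit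 18) (nat_lit 5) (nat_lit 17) (nat_lit 4) (nat_lit 406) (nat_lit 331) (nat_lit 163)) (XT.lf (nat_lit 0) (nat_lit 2285723772) (nat_lit 76) (nat_lit 50792002735) (nat_lit 152) (nat_lit 161048710198) (nat_lit 15) (nat_lit 5) (nat_lit 16) (nat_lit 5) (nat_lit 17) (nat_lit 4) (nat_lit 407) (nat_lit 331) (nat_lit 162)))))) (XT.nd (nat_lit 468) (nat_lit 228) (nat_lit 0) (XT.nd (nat_lit 234) (nat_lit 152) (nat_lit 0) (XT.nd (nat_lit 78) (nat_lit 0) (nat_lit 0) (XT.lf (nat_lit 0) (nat_lit 78554634942) (nat_lit 76) (nat_lit 11728088001) (nat_lit 152) (nat_lit 132563011162) (nat_lit 15) (nat_lit 5) (nat_lit 16) (nat_lit 5) (nat_lit 17) (nat_lit 4) (nat_lit 408) (nat_lit 331) (nat_lit 161)) (XT.nd (nat_lit 78) (nat_lit 0) (nat_lit 0) (XT.lf (nat_lit 0) (nat_lit 129804270810) (nat_lit 152) (nat_lit 73823178110) (nat_lit 0) (nat_lit 28350732514) (nat_lit 15) (nat_lit 5) (nat_lit 17) (nat_lit 4) (nat_lit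 15) (nat_lit 4) (nat_lit 409) (nat_lit 331) (nat_lit 160)) (XT.lf (nat_lit 0) (nat_lit 171493224462) (nat_lit 152) (nat_lit 25924438) (nat_lit 0) (nat_lit 70038535945) (nat_lit 15) (nat_lit 5) (nat_lit 17) (nat_lit 4) (nat_lit 15) (nat_lit 4) (nat_lit 410) (nat_lit 331) (nat_lit 159)))) (XT.nd (nat_lit 78) (nat_lit 76) (nat_lit 0) (XT.lf (nat_lit 0) (nat_lit 80020638075) (nat_lit 76) (nat_lit 136494443332) (nat_lit 76) (nat_lit 35038659367) (nat_lit 14) (nat_lit 4) (nat_lit 15) (nat_lit 5) (nat_lit 15) (nat_lit 4) (nat_lit 411) (nat_lit 331) (nat_lit 158)) (XT.nd (nat_lit 78) (nat_lit 0) (nat_lit 0) (XT.lf (nat_lit 0) (nat_lit 1682348096) (nat_lit 152) (nat_lit 98008013651) (nat_lit 76) (nat_lit 162357902926) (nat_lit 13) (nat_lit 5) (nat_lit 15) (nat_lit 5) (nat_lit 14) (nat_lit 4) (nat_lit 412) (nat_lit 331) (nat_lit 157)) (XT.lf (nat_lit 0) (nat_lit 39061030385) (nat_lit 152) (nat_lit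 21382708561) (nat_lit 76) (nat_lit 212595098059) (nat_lit 13) (nat_lit 5) (nat_lit 15) (nat_lit 5) (nat_lit 14) (nat_lit 4) (nat_lit 413) (nat_lit 331) (nat_lit 156))))) (XT.nd (nat_lit 234) (nat_lit 152) (nat_lit 0) (XT.nd (nat_lit 78) (nat_lit 0) (nat_lit 0) (XT.lf (nat_lit 0) (nat_lit 61025502635) (nat_lit 76) (nat_lit 18235116768) (nat_lit 152) (nat_lit 205270720026) (nat_lit 12) (nat_lit 5) (nat_lit 13) (nat_lit 5) (nat_lit 14) (nat_lit 4) (nat_lit 414) (nat_lit 331) (nat_lit 155)) (XT.nd (nat_lit 78) (nat_lit 0) (nat_lit 0) (XT.lf (nat_lit 0) (nat_lit 122244690688) (nat_lit 152) (nat_lit 148698616147) (nat_lit 0) (nat_lit 25616435097) (nat_lit 12) (nat_lit 5) (nat_lit 14) (nat_lit 4) (nat_lit 12) (nat_lit 4) (nat_lit 415) (nat_lit 331) (nat_lit 154)) (XT.lf (nat_lit 0) (nat_lit 167676136592) (nat_lit 152) (nat_lit 70451455951) (nat_lit 0) (nat_lit 71047063561) (nat_lit 12) (nat_lit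 5) (nat_lit 14) (nat_lit 4) (nat_lit 12) (nat_lit 4) (nat_lit 416) (nat_lit 331) (nat_lit 153)))) (XT.nd (nat_lit 156) (nat_lit 76) (nat_lit 0) (XT.nd (nat_lit 78) (nat_lit 0) (nat_lit 0) (XT.lf (nat_lit 0) (nat_lit 12093722479) (nat_lit 76) (nat_lit 203473520369) (nat_lit 76) (nat_lit 106843668824) (nat_lit 11) (nat_lit 4) (nat_lit 12) (nat_lit 5) (nat_lit 12) (nat_lit 4) (nat_lit 417) (nat_lit 331) (nat_lit 152)) (XT.lf (nat_lit 0) (nat_lit 101210683690) (nat_lit 76) (nat_lit 165834634361) (nat_lit 76) (nat_lit 69204041373) (nat_lit 11) (nat_lit 4) (nat_lit 12) (nat_lit 5) (nat_lit 12) (nat_lit 4) (nat_lit 418) (nat_lit 331) (nat_lit 151))) (XT.nd (nat_lit 78) (nat_lit 76) (nat_lit 0) (XT.lf (nat_lit 0) (nat_lit 194782167620) (nat_lit 76) (nat_lit 126314447618) (nat_lit 76) (nat_lit 29683148495) (nat_lit 11) (nat_lit 4) (nat_lit 12) (nat_lit 5) (nat_lit 12) (nat_lit 4) (nat_lit 419) (nat_lit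 331) (nat_lit 150)) (XT.lf (nat_lit 0) (nat_lit 11435013969) (nat_lit 152) (nat_lit 73190192995) (nat_lit 76) (nat_lit 281402292053) (nat_lit 10) (nat_lit 5) (nat_lit 12) (nat_lit 5) (nat_lit 11) (nat_lit 4) (nat_lit 420) (nat_lit 331) (nat_lit 149))))))))
noncomputable def xc179 : XT := (XT.nd (nat_lit 40794) (nat_lit 0) (nat_lit 3648) (XT.nd (nat_lit 936) (nat_lit 0) (nat_lit 0) (XT.nd (nat_lit 468) (nat_lit 152) (nat_lit 0) (XT.nd (nat_lit 234) (nat_lit 76) (nat_lit 0) (XT.nd (nat_lit 78) (nat_lit 0) (nat_lit 0) (XT.lf (nat_lit 0) (nat_lit 13708506115) (nat_lit 76) (nat_lit 40116429608) (nat_lit 152) (nat_lit 328177684983) (nat_lit 9) (nat_lit 5) (nat_lit 10) (nat_lit 5) (nat_lit 11) (nat_lit 4) (nat_lit 421) (nat_lit 331) (nat_lit 148)) (XT.nd (nat_lit 78) (nat_lit 0) (nat_lit 0) (XT.lf (nat_lit 0) (nat_lit 99696880355) (nat_lit 152) (nat_lit 291346251601) (nat_lit 0) (nat_lit 7665240254)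 (nat_lit 9) (nat_lit 5) (nat_lit 11) (nat_lit 4) (nat_lit 9) (nat_lit 4) (nat_lit 422) (nat_lit 331) (nat_lit 147)) (XT.lf (nat_lit 0) (nat_lit 148519471844) (nat_lit 152) (nat_lit 211209808560) (nat_lit 0) (nat_lit 56487278467) (nat_lit 9) (nat_lit 5) (nat_lit 11) (nat_lit 4) (nat_lit 9) (nat_lit 4) (nat_lit 423) (nat_lit 331) (nat_lit 146)))) (XT.nd (nat_lit 78) (nat_lit 76) (nat_lit 0) (XT.lf (nat_lit 0) (nat_lit 199782624564) (nat_lit 152) (nat_lit 127067654521) (nat_lit 0) (nat_lit 107749904258) (nat_lit 9) (nat_lit 5) (nat_lit 11) (nat_lit 4) (nat_lit 9) (nat_lit 4) (nat_lit 424) (nat_lit 331) (nat_lit 145)) (XT.nd (nat_lit 78) (nat_lit 76) (nat_lit 0) (XT.lf (nat_lit 0) (nat_lit 253608393641) (nat_lit 152) (nat_lit 38719451022) (nat_lit 0) (nat_lit 161575171497) (nat_lit 9) (nat_lit 5) (nat_lit 11) (nat_lit 4) (nat_lit 9) (nat_lit 4) (nat_lit 425) (nat_lit 331) (nat_lit 144)) (XT.lf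 (nat_lit 0) (nat_lit 55832131693) (nat_lit 76) (nat_lit 255164500020) (nat_lit 76) (nat_lit 163130799936) (nat_lit 8) (nat_lit 4) (nat_lit 9) (nat_lit 5) (nat_lit 9) (nat_lit 4) (nat_lit 426) (nat_lit 331) (nat_lit 143))))) (XT.nd (nat_lit 234) (nat_lit 152) (nat_lit 0) (XT.nd (nat_lit 78) (nat_lit 0) (nat_lit 0) (XT.lf (nat_lit 0) (nat_lit 156454553859) (nat_lit 76) (nat_lit 215454954030) (nat_lit 76) (nat_lit 123420798765) (nat_lit 8) (nat_lit 4) (nat_lit 9) (nat_lit 5) (nat_lit 9) (nat_lit 4) (nat_lit 427) (nat_lit 331) (nat_lit 142)) (XT.nd (nat_lit 78) (nat_lit 0) (nat_lit 0) (XT.lf (nat_lit 0) (nat_lit 262107152758) (nat_lit 76) (nat_lit 173760392795) (nat_lit 76) (nat_lit 81725804023) (nat_lit 8) (nat_lit 4) (nat_lit 9) (nat_lit 5) (nat_lit 9) (nat_lit 4) (nat_lit 428) (nat_lit 331) (nat_lit 141)) (XT.lf (nat_lit 0) (nat_lit 373041482197) (nat_lit 76) (nat_lit 129981543549) (nat_lit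 76) (nat_lit 37946541915) (nat_lit 8) (nat_lit 4) (nat_lit 9) (nat_lit 5) (nat_lit 9) (nat_lit 4) (nat_lit 429) (nat_lit 331) (nat_lit 140)))) (XT.nd (nat_lit 78) (nat_lit 76) (nat_lit 0) (XT.lf (nat_lit 0) (nat_lit 7764494641) (nat_lit 152) (nat_lit 76118180822) (nat_lit 76) (nat_lit 481625681417) (nat_lit 7) (nat_lit 5) (nat_lit 9) (nat_lit 5) (nat_lit 8) (nat_lit 4) (nat_lit 430) (nat_lit 331) (nat_lit 139)) (XT.nd (nat_lit 78) (nat_lit 0) (nat_lit 0) (XT.lf (nat_lit 0) (nat_lit 20309340491) (nat_lit 76) (nat_lit 34493152097) (nat_lit 152) (nat_lit 536424656181) (nat_lit 6) (nat_lit 5) (nat_lit 7) (nat_lit 5) (nat_lit 8) (nat_lit 4) (nat_lit 431) (nat_lit 331) (nat_lit 138)) (XT.lf (nat_lit 0) (nat_lit 105773328611) (nat_lit 152) (nat_lit 494259629458) (nat_lit 0) (nat_lit 18119875314) (nat_lit 6) (nat_lit 5) (nat_lit 8) (nat_lit 4) (nat_lit 6) (nat_lit 4) (nat_lit 432) (nat_lit 331)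 (nat_lit 137)))))) (XT.nd (nat_lit 39312) (nat_lit 0) (nat_lit 7752) (XT.nd (nat_lit 39078) (nat_lit 0) (nat_lit 7600) (XT.nd (nat_lit 78) (nat_lit 0) (nat_lit 0) (XT.lf (nat_lit 0) (nat_lit 159857765707) (nat_lit 152) (nat_lit 414334794674) (nat_lit 0) (nat_lit 72203988920) (nat_lit 6) (nat_lit 5) (nat_lit 8) (nat_lit 4) (nat_lit 6) (nat_lit 4) (nat_lit 433) (nat_lit 331) (nat_lit 136)) (XT.nd (nat_lit 38922) (nat_lit 0) (nat_lit 7600) (XT.lf (nat_lit 0) (nat_lit 216646041573) (nat_lit 152) (nat_lit 330414471930) (nat_lit 0) (nat_lit 128991956702) (nat_lit 6) (nat_lit 5) (nat_lit 8) (nat_lit 4) (nat_lit 6) (nat_lit 4) (nat_lit 434) (nat_lit 331) (nat_lit 135)) (XT.lf (nat_lit 0) (nat_lit 509157943) (nat_lit 836) (nat_lit 4625812968) (nat_lit 836) (nat_lit 4625812968) (nat_lit 106) (nat_lit 3) (nat_lit 117) (nat_lit 3) (nat_lit 117) (nat_lit 5) (nat_lit 332) (nat_lit 332) (nat_lit 236))))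 (XT.nd (nat_lit 78) (nat_lit 0) (nat_lit 76) (XT.lf (nat_lit 76) (nat_lit 79782570) (nat_lit 0) (nat_lit 1133825804) (nat_lit 836) (nat_lit 18787360741) (nat_lit 107) (nat_lit 5) (nat_lit 106) (nat_lit 3) (nat_lit 117) (nat_lit 5) (nat_lit 333) (nat_lit 332) (nat_lit 235)) (XT.nd (nat_lit 78) (nat_lit 0) (nat_lit 0) (XT.lf (nat_lit 0) (nat_lit 1699180185) (nat_lit 760) (nat_lit 10438678004) (nat_lit 836) (nat_lit 8352465967) (nat_lit 107) (nat_lit 5) (nat_lit 117) (nat_lit 5) (nat_lit 118) (nat_lit 5) (nat_lit 334) (nat_lit 332) (nat_lit 234)) (XT.lf (nat_lit 0) (nat_lit 2217327612) (nat_lit 760) (nat_lit 506812140) (nat_lit 836) (nat_lit 18279601254) (nat_lit 107) (nat_lit 5) (nat_lit 117) (nat_lit 5) (nat_lit 118) (nat_lit 5) (nat_lit 335) (nat_lit 332) (nat_lit 233))))) (XT.nd (nat_lit 234) (nat_lit 0) (nat_lit 76) (XT.nd (nat_lit 78) (nat_lit 0) (nat_lit 0) (XT.lf (nat_lit 0) (nat_lit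 3025988495) (nat_lit 760) (nat_lit 11406184978) (nat_lit 836) (nat_lit 7097433404) (nat_lit 108) (nat_lit 5) (nat_lit 118) (nat_lit 5) (nat_lit 119) (nat_lit 5) (nat_lit 336) (nat_lit 332) (nat_lit 232)) (XT.nd (nat_lit 78) (nat_lit 0) (nat_lit 76) (XT.lf (nat_lit 0) (nat_lit 3919096969) (nat_lit 760) (nat_lit 829700128) (nat_lit 836) (nat_lit 17330776297) (nat_lit 108) (nat_lit 5) (nat_lit 118) (nat_lit 5) (nat_lit 119) (nat_lit 5) (nat_lit 337) (nat_lit 332) (nat_lit 231)) (XT.lf (nat_lit 0) (nat_lit 5100940489) (nat_lit 760) (nat_lit 12127430963) (nat_lit 836) (nat_lit 5416470497) (nat_lit 109) (nat_lit 5) (nat_lit 119) (nat_lit 5) (nat_lit 120) (nat_lit 5) (nat_lit 338) (nat_lit 332) (nat_lit 230)))) (XT.nd (nat_lit 156) (nat_lit 0) (nat_lit 76) (XT.nd (nat_lit 78) (nat_lit 0) (nat_lit 76) (XT.lf (nat_lit 0) (nat_lit 6425459587) (nat_lit 760) (nat_lit 861475195) (nat_lit 836) (nat_lit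 15947267309) (nat_lit 109) (nat_lit 5) (nat_lit 119) (nat_lit 5) (nat_lit 120) (nat_lit 5) (nat_lit 339) (nat_lit 332) (nat_lit 229)) (XT.lf (nat_lit 0) (nat_lit 8037000537) (nat_lit 760) (nat_lit 12572620615) (nat_lit 836) (nat_lit 3232376273) (nat_lit 110) (nat_lit 5) (nat_lit 120) (nat_lit 5) (nat_lit 121) (nat_lit 5) (nat_lit 340) (nat_lit 332) (nat_lit 228))) (XT.nd (nat_lit 78) (nat_lit 0) (nat_lit 76) (XT.lf (nat_lit 0) (nat_lit 9855587394) (nat_lit 760) (nat_lit 568901810) (nat_lit 836) (nat_lit 14049376524) (nat_lit 110) (nat_lit 5) (nat_lit 120) (nat_lit 5) (nat_lit 121) (nat_lit 5) (nat_lit 341) (nat_lit 332) (nat_lit 227)) (XT.lf (nat_lit 0) (nat_lit 11959087323) (nat_lit 760) (nat_lit 12708813717) (nat_lit 76) (nat_lit 459733552) (nat_lit 111) (nat_lit 5) (nat_lit 121) (nat_lit 5) (nat_lit 112) (nat_lit 5) (nat_lit 342) (nat_lit 332) (nat_lit 226))))))) (XT.nd (nat_lit 936)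 (nat_lit 1824) (nat_lit 0) (XT.nd (nat_lit 468) (nat_lit 988) (nat_lit 0) (XT.nd (nat_lit 234) (nat_lit 380) (nat_lit 0) (XT.nd (nat_lit 78) (nat_lit 380) (nat_lit 0) (XT.lf (nat_lit 0) (nat_lit 87407033) (nat_lit 760) (nat_lit 14255238782) (nat_lit 836) (nat_lit 11462707934) (nat_lit 101) (nat_lit 5) (nat_lit 111) (nat_lit 5) (nat_lit 112) (nat_lit 5) (nat_lit 343) (nat_lit 332) (nat_lit 225)) (XT.nd (nat_lit 78) (nat_lit 380) (nat_lit 0) (XT.lf (nat_lit 0) (nat_lit 13958353678) (nat_lit 760) (nat_lit 3095334345) (nat_lit 836) (nat_lit 9452861292) (nat_lit 101) (nat_lit 5) (nat_lit 111) (nat_lit 5) (nat_lit 112) (nat_lit 5) (nat_lit 344) (nat_lit 332) (nat_lit 224)) (XT.lf (nat_lit 0) (nat_lit 1176732864) (nat_lit 380) (nat_lit 18869958772) (nat_lit 456) (nat_lit 7188798028) (nat_lit 96) (nat_lit 5) (nat_lit 101) (nat_lit 5) (nat_lit 102) (nat_lit 5) (nat_lit 345) (nat_lit 332) (nat_lit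 223)))) (XT.nd (nat_lit 78) (nat_lit 380) (nat_lit 0) (XT.lf (nat_lit 0) (nat_lit 15964883729) (nat_lit 380) (nat_lit 7480527029) (nat_lit 456) (nat_lit 4542668214) (nat_lit 96) (nat_lit 5) (nat_lit 101) (nat_lit 5) (nat_lit 102) (nat_lit 5) (nat_lit 346) (nat_lit 332) (nat_lit 222)) (XT.nd (nat_lit 78) (nat_lit 76) (nat_lit 0) (XT.lf (nat_lit 0) (nat_lit 2725186761) (nat_lit 304) (nat_lit 24395282795) (nat_lit 380) (nat_lit 1652512963) (nat_lit 92) (nat_lit 5) (nat_lit 96) (nat_lit 5) (nat_lit 97) (nat_lit 5) (nat_lit 347) (nat_lit 332) (nat_lit 221)) (XT.lf (nat_lit 0) (nat_lit 1661528529) (nat_lit 380) (nat_lit 11112454707) (nat_lit 76) (nat_lit 16805892748) (nat_lit 91) (nat_lit 5) (nat_lit 96) (nat_lit 5) (nat_lit 92) (nat_lit 5) (nat_lit 348) (nat_lit 332) (nat_lit 220))))) (XT.nd (nat_lit 234) (nat_lit 304) (nat_lit 0) (XT.nd (nat_lit 78) (nat_lit 304) (nat_lit 0) (XT.lf (nat_lit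 0) (nat_lit 4686501661) (nat_lit 380) (nat_lit 466716667) (nat_lit 456) (nat_lit 25269171486) (nat_lit 86) (nat_lit 5) (nat_lit 91) (nat_lit 5) (nat_lit 92) (nat_lit 5) (nat_lit 349) (nat_lit 332) (nat_lit 219)) (XT.nd (nat_lit 78) (nat_lit 304) (nat_lit 0) (XT.lf (nat_lit 0) (nat_lit 9199727115) (nat_lit 456) (nat_lit 9840204795) (nat_lit 76) (nat_lit 12248089780) (nat_lit 86) (nat_lit 5) (nat_lit 92) (nat_lit 5) (nat_lit 87) (nat_lit 5) (nat_lit 350) (nat_lit 332) (nat_lit 218)) (XT.lf (nat_lit 0) (nat_lit 7062726312) (nat_lit 304) (nat_lit 6498500621) (nat_lit 380) (nat_lit 18630078835) (nat_lit 82) (nat_lit 5) (nat_lit 86) (nat_lit 5) (nat_lit 87) (nat_lit 5) (nat_lit 351) (nat_lit 332) (nat_lit 217)))) (XT.nd (nat_lit 78) (nat_lit 304) (nat_lit 0) (XT.lf (nat_lit 0) (nat_lit 18409212673) (nat_lit 380) (nat_lit 8091945080) (nat_lit 76) (nat_lit 6625179451) (nat_lit 82) (nat_lit 5) (nat_lit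 87) (nat_lit 5) (nat_lit 83) (nat_lit 5) (nat_lit 352) (nat_lit 332) (nat_lit 216)) (XT.nd (nat_lit 78) (nat_lit 0) (nat_lit 0) (XT.lf (nat_lit 0) (nat_lit 10004393424) (nat_lit 304) (nat_lit 13753069813) (nat_lit 380) (nat_lit 10337767223) (nat_lit 78) (nat_lit 5) (nat_lit 82) (nat_lit 5) (nat_lit 83) (nat_lit 5) (nat_lit 353) (nat_lit 332) (nat_lit 215)) (XT.lf (nat_lit 0) (nat_lit 29280778567) (nat_lit 304) (nat_lit 224667442) (nat_lit 380) (nat_lit 5600509742) (nat_lit 78) (nat_lit 5) (nat_lit 82) (nat_lit 5) (nat_lit 83) (nat_lit 5) (nat_lit 354) (nat_lit 332) (nat_lit 214)))))) (XT.nd (nat_lit 468) (nat_lit 760) (nat_lit 0) (XT.nd (nat_lit 234) (nat_lit 456) (nat_lit 0) (XT.nd (nat_lit 78) (nat_lit 380) (nat_lit 0) (XT.lf (nat_lit 0) (nat_lit 13563982282) (nat_lit 228) (nat_lit 22402375697) (nat_lit 304) (nat_lit 179586023) (nat_lit 75) (nat_lit 5) (nat_lit 78) (nat_lit 5) (nat_lit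 79) (nat_lit 5) (nat_lit 355) (nat_lit 332) (nat_lit 213)) (XT.nd (nat_lit 78) (nat_lit 304) (nat_lit 0) (XT.lf (nat_lit 0) (nat_lit 5435447855) (nat_lit 304) (nat_lit 3205231765) (nat_lit 76) (nat_lit 28587977022) (nat_lit 74) (nat_lit 5) (nat_lit 78) (nat_lit 5) (nat_lit 75) (nat_lit 5) (nat_lit 356) (nat_lit 332) (nat_lit 212)) (XT.lf (nat_lit 0) (nat_lit 11692530423) (nat_lit 380) (nat_lit 20748595732) (nat_lit 76) (nat_lit 5905867707) (nat_lit 70) (nat_lit 5) (nat_lit 75) (nat_lit 5) (nat_lit 71) (nat_lit 5) (nat_lit 357) (nat_lit 332) (nat_lit 211)))) (XT.nd (nat_lit 78) (nat_lit 456) (nat_lit 0) (XT.lf (nat_lit 0) (nat_lit 18455143740) (nat_lit 380) (nat_lit 113122225) (nat_lit 76) (nat_lit 20943350778) (nat_lit 70) (nat_lit 5) (nat_lit 75) (nat_lit 5) (nat_lit 71) (nat_lit 5) (nat_lit 358) (nat_lit 332) (nat_lit 210)) (XT.nd (nat_lit 78) (nat_lit 228) (nat_lit 0) (XT.lf (nat_lit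 0) (nat_lit 22261354996) (nat_lit 228) (nat_lit 3638146402) (nat_lit 304) (nat_lit 14817791190) (nat_lit 67) (nat_lit 5) (nat_lit 70) (nat_lit 5) (nat_lit 71) (nat_lit 5) (nat_lit 359) (nat_lit 332) (nat_lit 209)) (XT.lf (nat_lit 0) (nat_lit 3700416882) (nat_lit 228) (nat_lit 30259473076) (nat_lit 304) (nat_lit 8011174004) (nat_lit 64) (nat_lit 5) (nat_lit 67) (nat_lit 5) (nat_lit 68) (nat_lit 5) (nat_lit 360) (nat_lit 332) (nat_lit 208))))) (XT.nd (nat_lit 234) (nat_lit 456) (nat_lit 0) (XT.nd (nat_lit 78) (nat_lit 304) (nat_lit 0) (XT.lf (nat_lit 0) (nat_lit 27538449502) (nat_lit 228) (nat_lit 15252327593) (nat_lit 304) (nat_lit 478375122) (nat_lit 64) (nat_lit 5) (nat_lit 67) (nat_lit 5) (nat_lit 68) (nat_lit 5) (nat_lit 361) (nat_lit 332) (nat_lit 207)) (XT.nd (nat_lit 78) (nat_lit 0) (nat_lit 0) (XT.lf (nat_lit 0) (nat_lit 7327462324) (nat_lit 304) (nat_lit 36558582569) (nat_lit 76)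 (nat_lit 733589114) (nat_lit 60) (nat_lit 5) (nat_lit 64) (nat_lit 5) (nat_lit 61) (nat_lit 5) (nat_lit 362) (nat_lit 332) (nat_lit 206)) (XT.lf (nat_lit 0) (nat_lit 16024755834) (nat_lit 304) (nat_lit 12703257821) (nat_lit 76) (nat_lit 17283374048) (nat_lit 60) (nat_lit 5) (nat_lit 64) (nat_lit 5) (nat_lit 61) (nat_lit 5) (nat_lit 363) (nat_lit 332) (nat_lit 205)))) (XT.nd (nat_lit 156) (nat_lit 228) (nat_lit 0) (XT.nd (nat_lit 78) (nat_lit 0) (nat_lit 0) (XT.lf (nat_lit 0) (nat_lit 12747874900) (nat_lit 228) (nat_lit 12604667441) (nat_lit 304) (nat_lit 22110407196) (nat_lit 57) (nat_lit 5) (nat_lit 60) (nat_lit 5) (nat_lit 61) (nat_lit 5) (nat_lit 364) (nat_lit 332) (nat_lit 204)) (XT.lf (nat_lit 0) (nat_lit 35429563121) (nat_lit 304) (nat_lit 9139822499) (nat_lit 76) (nat_lit 4403563374) (nat_lit 57) (nat_lit 5) (nat_lit 61) (nat_lit 5) (nat_lit 58) (nat_lit 5) (nat_lit 365) (nat_lit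 332) (nat_lit 203))) (XT.nd (nat_lit 78) (nat_lit 76) (nat_lit 0) (XT.lf (nat_lit 0) (nat_lit 18081485743) (nat_lit 152) (nat_lit 28414704180) (nat_lit 228) (nat_lit 4037972449) (nat_lit 55) (nat_lit 5) (nat_lit 57) (nat_lit 5) (nat_lit 58) (nat_lit 5) (nat_lit 366) (nat_lit 332) (nat_lit 202)) (XT.lf (nat_lit 0) (nat_lit 5906676431) (nat_lit 228) (nat_lit 5284665197) (nat_lit 76) (nat_lit 40969748773) (nat_lit 54) (nat_lit 5) (nat_lit 57) (nat_lit 5) (nat_lit 55) (nat_lit 5) (nat_lit 367) (nat_lit 332) (nat_lit 201))))))))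
noncomputable def xc180 : XT := (XT.nd (nat_lit 1872) (nat_lit 988) (nat_lit 0) (XT.nd (nat_lit 936) (nat_lit 912) (nat_lit 0) (XT.nd (nat_lit 468) (nat_lit 532) (nat_lit 0) (XT.nd (nat_lit 234) (nat_lit 380) (nat_lit 0) (XT.nd (nat_lit 78) (nat_lit 152) (nat_lit 0) (XT.lf (nat_lit 0) (nat_lit 16698383752) (nat_lit 304) (nat_lit 30025234576) (nat_lit 76) (nat_lit 7118161741) (nat_lit 51) (nat_lit 5) (nat_lit 55) (nat_lit 5) (nat_lit 52) (nat_lit 5) (nat_lit 368) (nat_lit 332) (nat_lit 200)) (XT.nd (nat_lit 78) (nat_lit 152) (nat_lit 0) (XT.lf (nat_lit 0) (nat_lit 28301148608) (nat_lit 304) (nat_lit 1235314051) (nat_lit 76) (nat_lit 26056469346) (nat_lit 51) (nat_lit 5) (nat_lit 55) (nat_lit 5) (nat_lit 52) (nat_lit 5) (nat_lit 369) (nat_lit 332) (nat_lit 199)) (XT.lf (nat_lit 0) (nat_lit 29948212021) (nat_lit 152) (nat_lit 11000598068) (nat_lit 228) (nat_lit 16459594859) (nat_lit 49) (nat_lit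 5) (nat_lit 51) (nat_lit 5) (nat_lit 52) (nat_lit 5) (nat_lit 370) (nat_lit 332) (nat_lit 198)))) (XT.nd (nat_lit 78) (nat_lit 228) (nat_lit 0) (XT.lf (nat_lit 0) (nat_lit 3391833782) (nat_lit 152) (nat_lit 51040581124) (nat_lit 228) (nat_lit 4872059883) (nat_lit 47) (nat_lit 5) (nat_lit 49) (nat_lit 5) (nat_lit 50) (nat_lit 5) (nat_lit 371) (nat_lit 332) (nat_lit 197)) (XT.nd (nat_lit 78) (nat_lit 152) (nat_lit 0) (XT.lf (nat_lit 0) (nat_lit 7711626309) (nat_lit 228) (nat_lit 24838615584) (nat_lit 76) (nat_lit 28706899959) (nat_lit 46) (nat_lit 5) (nat_lit 49) (nat_lit 5) (nat_lit 47) (nat_lit 5) (nat_lit 372) (nat_lit 332) (nat_lit 196)) (XT.lf (nat_lit 0) (nat_lit 7959732708) (nat_lit 152) (nat_lit 12922678165) (nat_lit 228) (nat_lit 42414956636) (nat_lit 44) (nat_lit 5) (nat_lit 46) (nat_lit 5) (nat_lit 47) (nat_lit 5) (nat_lit 373) (nat_lit 332) (nat_lit 195))))) (XT.nd (nat_lit 234)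 (nat_lit 380) (nat_lit 0) (XT.nd (nat_lit 78) (nat_lit 152) (nat_lit 0) (XT.lf (nat_lit 0) (nat_lit 35256696187) (nat_lit 228) (nat_lit 22289437514) (nat_lit 76) (nat_lit 7866223712) (nat_lit 44) (nat_lit 5) (nat_lit 47) (nat_lit 5) (nat_lit 45) (nat_lit 5) (nat_lit 374) (nat_lit 332) (nat_lit 194)) (XT.nd (nat_lit 78) (nat_lit 0) (nat_lit 0) (XT.lf (nat_lit 0) (nat_lit 12598451838) (nat_lit 152) (nat_lit 38157319168) (nat_lit 228) (nat_lit 16857023037) (nat_lit 42) (nat_lit 5) (nat_lit 44) (nat_lit 5) (nat_lit 45) (nat_lit 5) (nat_lit 375) (nat_lit 332) (nat_lit 193)) (XT.lf (nat_lit 0) (nat_lit 50000540969) (nat_lit 152) (nat_lit 17404326522) (nat_lit 228) (nat_lit 2499632559) (nat_lit 42) (nat_lit 5) (nat_lit 44) (nat_lit 5) (nat_lit 45) (nat_lit 5) (nat_lit 376) (nat_lit 332) (nat_lit 192)))) (XT.nd (nat_lit 78) (nat_lit 152) (nat_lit 0) (XT.lf (nat_lit 0) (nat_lit 12517249123) (nat_lit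 228) (nat_lit 55047783625) (nat_lit 76) (nat_lit 4718736414) (nat_lit 39) (nat_lit 5) (nat_lit 42) (nat_lit 5) (nat_lit 40) (nat_lit 5) (nat_lit 377) (nat_lit 332) (nat_lit 191)) (XT.nd (nat_lit 78) (nat_lit 152) (nat_lit 0) (XT.lf (nat_lit 0) (nat_lit 28826585351) (nat_lit 228) (nat_lit 18176967182) (nat_lit 76) (nat_lit 27745120406) (nat_lit 39) (nat_lit 5) (nat_lit 42) (nat_lit 5) (nat_lit 40) (nat_lit 5) (nat_lit 378) (nat_lit 332) (nat_lit 190)) (XT.lf (nat_lit 0) (nat_lit 21212565461) (nat_lit 152) (nat_lit 25067809140) (nat_lit 228) (nat_lit 31039998772) (nat_lit 37) (nat_lit 5) (nat_lit 39) (nat_lit 5) (nat_lit 40) (nat_lit 5) (nat_lit 379) (nat_lit 332) (nat_lit 189)))))) (XT.nd (nat_lit 468) (nat_lit 532) (nat_lit 0) (XT.nd (nat_lit 234) (nat_lit 228) (nat_lit 0) (XT.nd (nat_lit 78) (nat_lit 152) (nat_lit 0) (XT.lf (nat_lit 0) (nat_lit 63198939432) (nat_lit 152) (nat_lit 1713595312)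 (nat_lit 228) (nat_lit 15092840751) (nat_lit 37) (nat_lit 5) (nat_lit 39) (nat_lit 5) (nat_lit 40) (nat_lit 5) (nat_lit 380) (nat_lit 332) (nat_lit 188)) (XT.nd (nat_lit 78) (nat_lit 0) (nat_lit 0) (XT.lf (nat_lit 0) (nat_lit 2353728434) (nat_lit 152) (nat_lit 57928290283) (nat_lit 76) (nat_lit 22503574454) (nat_lit 35) (nat_lit 5) (nat_lit 37) (nat_lit 5) (nat_lit 36) (nat_lit 5) (nat_lit 381) (nat_lit 332) (nat_lit 187)) (XT.lf (nat_lit 0) (nat_lit 20480725325) (nat_lit 152) (nat_lit 16786675087) (nat_lit 76) (nat_lit 48409284894) (nat_lit 35) (nat_lit 5) (nat_lit 37) (nat_lit 5) (nat_lit 36) (nat_lit 5) (nat_lit 382) (nat_lit 332) (nat_lit 186)))) (XT.nd (nat_lit 78) (nat_lit 76) (nat_lit 0) (XT.lf (nat_lit 0) (nat_lit 27281766262) (nat_lit 152) (nat_lit 12656283794) (nat_lit 228) (nat_lit 48753083702) (nat_lit 33) (nat_lit 5) (nat_lit 35) (nat_lit 5) (nat_lit 36) (nat_lit 5) (nat_lit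 383) (nat_lit 332) (nat_lit 185)) (XT.nd (nat_lit 78) (nat_lit 76) (nat_lit 0) (XT.lf (nat_lit 0) (nat_lit 60861104024) (nat_lit 228) (nat_lit 17919646428) (nat_lit 76) (nat_lit 13050911608) (nat_lit 33) (nat_lit 5) (nat_lit 36) (nat_lit 5) (nat_lit 34) (nat_lit 4) (nat_lit 384) (nat_lit 332) (nat_lit 184)) (XT.lf (nat_lit 0) (nat_lit 28444176600) (nat_lit 76) (nat_lit 55035851431) (nat_lit 152) (nat_lit 11616703432) (nat_lit 32) (nat_lit 5) (nat_lit 33) (nat_lit 5) (nat_lit 34) (nat_lit 4) (nat_lit 385) (nat_lit 332) (nat_lit 183))))) (XT.nd (nat_lit 234) (nat_lit 304) (nat_lit 0) (XT.nd (nat_lit 78) (nat_lit 152) (nat_lit 0) (XT.lf (nat_lit 0) (nat_lit 8732838880) (nat_lit 152) (nat_lit 20905745849) (nat_lit 76) (nat_lit 68864344540) (nat_lit 31) (nat_lit 5) (nat_lit 33) (nat_lit 5) (nat_lit 32) (nat_lit 5) (nat_lit 386) (nat_lit 332) (nat_lit 182)) (XT.nd (nat_lit 78) (nat_lit 0) (nat_lit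 0) (XT.lf (nat_lit 0) (nat_lit 27825406156) (nat_lit 152) (nat_lit 2316726754) (nat_lit 228) (nat_lit 71906149044) (nat_lit 29) (nat_lit 5) (nat_lit 31) (nat_lit 5) (nat_lit 32) (nat_lit 5) (nat_lit 387) (nat_lit 332) (nat_lit 181)) (XT.lf (nat_lit 0) (nat_lit 53391726906) (nat_lit 228) (nat_lit 26454977595) (nat_lit 76) (nat_lit 25885706463) (nat_lit 29) (nat_lit 5) (nat_lit 32) (nat_lit 5) (nat_lit 30) (nat_lit 4) (nat_lit 388) (nat_lit 332) (nat_lit 180)))) (XT.nd (nat_lit 78) (nat_lit 228) (nat_lit 0) (XT.lf (nat_lit 0) (nat_lit 24442643116) (nat_lit 76) (nat_lit 53779091481) (nat_lit 152) (nat_lit 31358115560) (nat_lit 28) (nat_lit 5) (nat_lit 29) (nat_lit 5) (nat_lit 30) (nat_lit 4) (nat_lit 389) (nat_lit 332) (nat_lit 179)) (XT.nd (nat_lit 78) (nat_lit 228) (nat_lit 0) (XT.lf (nat_lit 0) (nat_lit 78800640006) (nat_lit 76) (nat_lit 25939000184) (nat_lit 152) (nat_lit 8857701656) (nat_lit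 28) (nat_lit 5) (nat_lit 29) (nat_lit 5) (nat_lit 30) (nat_lit 4) (nat_lit 390) (nat_lit 332) (nat_lit 178)) (XT.lf (nat_lit 0) (nat_lit 14640921020) (nat_lit 228) (nat_lit 99432926493) (nat_lit 76) (nat_lit 3713040307) (nat_lit 25) (nat_lit 5) (nat_lit 28) (nat_lit 5) (nat_lit 26) (nat_lit 4) (nat_lit 391) (nat_lit 332) (nat_lit 177))))))) (XT.nd (nat_lit 936) (nat_lit 456) (nat_lit 0) (XT.nd (nat_lit 468) (nat_lit 304) (nat_lit 0) (XT.nd (nat_lit 234) (nat_lit 152) (nat_lit 0) (XT.nd (nat_lit 78) (nat_lit 76) (nat_lit 0) (XT.lf (nat_lit 0) (nat_lit 40039419627) (nat_lit 228) (nat_lit 47369208820) (nat_lit 76) (nat_lit 34718891507) (nat_lit 25) (nat_lit 5) (nat_lit 28) (nat_lit 5) (nat_lit 26) (nat_lit 4) (nat_lit 392) (nat_lit 332) (nat_lit 176)) (XT.nd (nat_lit 78) (nat_lit 0) (nat_lit 0) (XT.lf (nat_lit 0) (nat_lit 7536151138) (nat_lit 76) (nat_lit 59287859629) (nat_lit 152) (nat_lit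 59855364888) (nat_lit 24) (nat_lit 5) (nat_lit 25) (nat_lit 5) (nat_lit 26) (nat_lit 4) (nat_lit 393) (nat_lit 332) (nat_lit 175)) (XT.lf (nat_lit 0) (nat_lit 66828627881) (nat_lit 76) (nat_lit 28919960102) (nat_lit 152) (nat_lit 35670198654) (nat_lit 24) (nat_lit 5) (nat_lit 25) (nat_lit 5) (nat_lit 26) (nat_lit 4) (nat_lit 394) (nat_lit 332) (nat_lit 174)))) (XT.nd (nat_lit 78) (nat_lit 152) (nat_lit 0) (XT.lf (nat_lit 0) (nat_lit 126164294186) (nat_lit 152) (nat_lit 7358378554) (nat_lit 0) (nat_lit 2870250730) (nat_lit 24) (nat_lit 5) (nat_lit 26) (nat_lit 4) (nat_lit 24) (nat_lit 4) (nat_lit 395) (nat_lit 332) (nat_lit 173)) (XT.nd (nat_lit 78) (nat_lit 0) (nat_lit 0) (XT.lf (nat_lit 0) (nat_lit 17294592022) (nat_lit 152) (nat_lit 87842640598) (nat_lit 76) (nat_lit 36398806085) (nat_lit 22) (nat_lit 5) (nat_lit 24) (nat_lit 5) (nat_lit 23) (nat_lit 4) (nat_lit 396) (nat_lit 332) (nat_lit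 172)) (XT.lf (nat_lit 0) (nat_lit 45975544337) (nat_lit 152) (nat_lit 29049079577) (nat_lit 76) (nat_lit 71897035983) (nat_lit 22) (nat_lit 5) (nat_lit 24) (nat_lit 5) (nat_lit 23) (nat_lit 4) (nat_lit 397) (nat_lit 332) (nat_lit 171))))) (XT.nd (nat_lit 234) (nat_lit 152) (nat_lit 0) (XT.nd (nat_lit 78) (nat_lit 76) (nat_lit 0) (XT.lf (nat_lit 0) (nat_lit 33762380531) (nat_lit 76) (nat_lit 42854011351) (nat_lit 152) (nat_lit 75933878139) (nat_lit 21) (nat_lit 5) (nat_lit 22) (nat_lit 5) (nat_lit 23) (nat_lit 4) (nat_lit 398) (nat_lit 332) (nat_lit 170)) (XT.nd (nat_lit 78) (nat_lit 76) (nat_lit 0) (XT.lf (nat_lit 0) (nat_lit 100720584585) (nat_lit 76) (nat_lit 8559403865) (nat_lit 152) (nat_lit 49155787108) (nat_lit 21) (nat_lit 5) (nat_lit 22) (nat_lit 5) (nat_lit 23) (nat_lit 4) (nat_lit 399) (nat_lit 332) (nat_lit 169)) (XT.lf (nat_lit 0) (nat_lit 6178028175) (nat_lit 76) (nat_lit 137922553262)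 (nat_lit 76) (nat_lit 20488784337) (nat_lit 20) (nat_lit 4) (nat_lit 21) (nat_lit 5) (nat_lit 21) (nat_lit 4) (nat_lit 400) (nat_lit 332) (nat_lit 168)))) (XT.nd (nat_lit 78) (nat_lit 76) (nat_lit 0) (XT.lf (nat_lit 0) (nat_lit 10436507443) (nat_lit 152) (nat_lit 96040802254) (nat_lit 76) (nat_lit 64509194381) (nat_lit 19) (nat_lit 5) (nat_lit 21) (nat_lit 5) (nat_lit 20) (nat_lit 4) (nat_lit 401) (nat_lit 332) (nat_lit 167)) (XT.nd (nat_lit 78) (nat_lit 76) (nat_lit 0) (XT.lf (nat_lit 0) (nat_lit 42218356582) (nat_lit 152) (nat_lit 30889795887) (nat_lit 76) (nat_lit 104578610426) (nat_lit 19) (nat_lit 5) (nat_lit 21) (nat_lit 5) (nat_lit 20) (nat_lit 4) (nat_lit 402) (nat_lit 332) (nat_lit 166)) (XT.lf (nat_lit 0) (nat_lit 38757161497) (nat_lit 76) (nat_lit 37436149614) (nat_lit 152) (nat_lit 108498523085) (nat_lit 18) (nat_lit 5) (nat_lit 19) (nat_lit 5) (nat_lit 20) (nat_lit 4) (nat_lit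 403) (nat_lit 332) (nat_lit 165)))))) (XT.nd (nat_lit 468) (nat_lit 228) (nat_lit 0) (XT.nd (nat_lit 234) (nat_lit 152) (nat_lit 0) (XT.nd (nat_lit 78) (nat_lit 76) (nat_lit 0) (XT.lf (nat_lit 0) (nat_lit 112397937025) (nat_lit 152) (nat_lit 79073067349) (nat_lit 0) (nat_lit 549608684) (nat_lit 18) (nat_lit 5) (nat_lit 20) (nat_lit 4) (nat_lit 18) (nat_lit 4) (nat_lit 404) (nat_lit 332) (nat_lit 164)) (XT.nd (nat_lit 78) (nat_lit 76) (nat_lit 0) (XT.lf (nat_lit 0) (nat_lit 151025463829) (nat_lit 152) (nat_lit 9484066245) (nat_lit 0) (nat_lit 39175667482) (nat_lit 18) (nat_lit 5) (nat_lit 20) (nat_lit 4) (nat_lit 18) (nat_lit 4) (nat_lit 405) (nat_lit 332) (nat_lit 163)) (XT.lf (nat_lit 0) (nat_lit 65684826580) (nat_lit 76) (nat_lit 126924076257) (nat_lit 76) (nat_lit 15072881810) (nat_lit 17) (nat_lit 4) (nat_lit 18) (nat_lit 5) (nat_lit 18) (nat_lit 4) (nat_lit 406) (nat_lit 332) (nat_lit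 162)))) (XT.nd (nat_lit 78) (nat_lit 76) (nat_lit 0) (XT.lf (nat_lit 0) (nat_lit 19709264633) (nat_lit 152) (nat_lit 71448533472) (nat_lit 76) (nat_lit 124896526224) (nat_lit 16) (nat_lit 5) (nat_lit 18) (nat_lit 5) (nat_lit 17) (nat_lit 4) (nat_lit 407) (nat_lit 332) (nat_lit 161)) (XT.nd (nat_lit 78) (nat_lit 0) (nat_lit 0) (XT.lf (nat_lit 0) (nat_lit 2457061645) (nat_lit 76) (nat_lit 53304331396) (nat_lit 152) (nat_lit 169069872158) (nat_lit 15) (nat_lit 5) (nat_lit 16) (nat_lit 5) (nat_lit 17) (nat_lit 4) (nat_lit 408) (nat_lit 332) (nat_lit 160)) (XT.lf (nat_lit 0) (nat_lit 82536701626) (nat_lit 76) (nat_lit 12288519567) (nat_lit 152) (nat_lit 139161377387) (nat_lit 15) (nat_lit 5) (nat_lit 16) (nat_lit 5) (nat_lit 17) (nat_lit 4) (nat_lit 409) (nat_lit 332) (nat_lit 159))))) (XT.nd (nat_lit 234) (nat_lit 152) (nat_lit 0) (XT.nd (nat_lit 78) (nat_lit 76) (nat_lit 0) (XT.lf (nat_lit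 0) (nat_lit 136321882077) (nat_lit 152) (nat_lit 77461621150) (nat_lit 0) (nat_lit 29792213465) (nat_lit 15) (nat_lit 5) (nat_lit 17) (nat_lit 4) (nat_lit 15) (nat_lit 4) (nat_lit 410) (nat_lit 332) (nat_lit 158)) (XT.nd (nat_lit 78) (nat_lit 0) (nat_lit 0) (XT.lf (nat_lit 0) (nat_lit 23744910) (nat_lit 76) (nat_lit 180070604571) (nat_lit 76) (nat_lit 73539892676) (nat_lit 14) (nat_lit 4) (nat_lit 15) (nat_lit 5) (nat_lit 15) (nat_lit 4) (nat_lit 411) (nat_lit 332) (nat_lit 157)) (XT.lf (nat_lit 0) (nat_lit 84071065798) (nat_lit 76) (nat_lit 143295391432) (nat_lit 76) (nat_lit 36763685933) (nat_lit 14) (nat_lit 4) (nat_lit 15) (nat_lit 5) (nat_lit 15) (nat_lit 4) (nat_lit 412) (nat_lit 332) (nat_lit 156)))) (XT.nd (nat_lit 156) (nat_lit 76) (nat_lit 0) (XT.nd (nat_lit 78) (nat_lit 0) (nat_lit 0) (XT.lf (nat_lit 0) (nat_lit 1791270481) (nat_lit 152) (nat_lit 102860547300) (nat_lit 76) (nat_lit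 170497616644) (nat_lit 13) (nat_lit 5) (nat_lit 15) (nat_lit 5) (nat_lit 14) (nat_lit 4) (nat_lit 413) (nat_lit 332) (nat_lit 155)) (XT.lf (nat_lit 0) (nat_lit 41037705696) (nat_lit 152) (nat_lit 22406256338) (nat_lit 76) (nat_lit 223245632554) (nat_lit 13) (nat_lit 5) (nat_lit 15) (nat_lit 5) (nat_lit 14) (nat_lit 4) (nat_lit 414) (nat_lit 332) (nat_lit 154))) (XT.nd (nat_lit 78) (nat_lit 0) (nat_lit 0) (XT.lf (nat_lit 0) (nat_lit 64121630133) (nat_lit 76) (nat_lit 19125219360) (nat_lit 152) (nat_lit 215509894020) (nat_lit 12) (nat_lit 5) (nat_lit 13) (nat_lit 5) (nat_lit 14) (nat_lit 4) (nat_lit 415) (nat_lit 332) (nat_lit 153)) (XT.lf (nat_lit 0) (nat_lit 128379341591) (nat_lit 152) (nat_lit 156090044873) (nat_lit 0) (nat_lit 26917218954) (nat_lit 12) (nat_lit 5) (nat_lit 14) (nat_lit 4) (nat_lit 12) (nat_lit 4) (nat_lit 416) (nat_lit 332) (nat_lit 152))))))))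
noncomputable def xc181 : XT := (XT.nd (nat_lit 40872) (nat_lit 0) (nat_lit 4104) (XT.nd (nat_lit 936) (nat_lit 152) (nat_lit 0) (XT.nd (nat_lit 468) (nat_lit 76) (nat_lit 0) (XT.nd (nat_lit 234) (nat_lit 152) (nat_lit 0) (XT.nd (nat_lit 78) (nat_lit 76) (nat_lit 0) (XT.lf (nat_lit 0) (nat_lit 176081292345) (nat_lit 152) (nat_lit 73932598195) (nat_lit 0) (nat_lit 74618428265) (nat_lit 12) (nat_lit 5) (nat_lit 14) (nat_lit 4) (nat_lit 12) (nat_lit 4) (nat_lit 417) (nat_lit 332) (nat_lit 151)) (XT.nd (nat_lit 78) (nat_lit 0) (nat_lit 0) (XT.lf (nat_lit 0) (nat_lit 12739170922) (nat_lit 76) (nat_lit 213627402790) (nat_lit 76) (nat_lit 112163832575) (nat_lit 11) (nat_lit 4) (nat_lit 12) (nat_lit 5) (nat_lit 12) (nat_lit 4) (nat_lit 418) (nat_lit 332) (nat_lit 150)) (XT.lf (nat_lit 0) (nat_lit 106310039131) (nat_lit 76) (nat_lit 174107515034) (nat_lit 76) (nat_lit 72643272308) (nat_lit 11) (nat_lit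 4) (nat_lit 12) (nat_lit 5) (nat_lit 12) (nat_lit 4) (nat_lit 419) (nat_lit 332) (nat_lit 149)))) (XT.nd (nat_lit 78) (nat_lit 152) (nat_lit 0) (XT.lf (nat_lit 0) (nat_lit 204558248626) (nat_lit 76) (nat_lit 132612216623) (nat_lit 76) (nat_lit 31147333412) (nat_lit 11) (nat_lit 4) (nat_lit 12) (nat_lit 5) (nat_lit 12) (nat_lit 4) (nat_lit 420) (nat_lit 332) (nat_lit 148)) (XT.nd (nat_lit 78) (nat_lit 76) (nat_lit 0) (XT.lf (nat_lit 0) (nat_lit 12025177299) (nat_lit 152) (nat_lit 76813879733) (nat_lit 76) (nat_lit 295488894221) (nat_lit 10) (nat_lit 5) (nat_lit 12) (nat_lit 5) (nat_lit 11) (nat_lit 4) (nat_lit 421) (nat_lit 332) (nat_lit 147)) (XT.lf (nat_lit 0) (nat_lit 14429176544) (nat_lit 76) (nat_lit 42105092080) (nat_lit 152) (nat_lit 344567576828) (nat_lit 9) (nat_lit 5) (nat_lit 10) (nat_lit 5) (nat_lit 11) (nat_lit 4) (nat_lit 422) (nat_lit 332) (nat_lit 146))))) (XT.nd (nat_lit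 234) (nat_lit 76) (nat_lit 0) (XT.nd (nat_lit 78) (nat_lit 0) (nat_lit 0) (XT.lf (nat_lit 0) (nat_lit 104699204387) (nat_lit 152) (nat_lit 305879389407) (nat_lit 0) (nat_lit 8064321136) (nat_lit 9) (nat_lit 5) (nat_lit 11) (nat_lit 4) (nat_lit 9) (nat_lit 4) (nat_lit 423) (nat_lit 332) (nat_lit 145)) (XT.nd (nat_lit 78) (nat_lit 0) (nat_lit 0) (XT.lf (nat_lit 0) (nat_lit 155962093068) (nat_lit 152) (nat_lit 221737751584) (nat_lit 0) (nat_lit 59326707980) (nat_lit 9) (nat_lit 5) (nat_lit 11) (nat_lit 4) (nat_lit 9) (nat_lit 4) (nat_lit 424) (nat_lit 332) (nat_lit 144)) (XT.lf (nat_lit 0) (nat_lit 209787610680) (nat_lit 152) (nat_lit 133390039720) (nat_lit 0) (nat_lit 113151747651) (nat_lit 9) (nat_lit 5) (nat_lit 11) (nat_lit 4) (nat_lit 9) (nat_lit 4) (nat_lit 425) (nat_lit 332) (nat_lit 143)))) (XT.nd (nat_lit 78) (nat_lit 76) (nat_lit 0) (XT.lf (nat_lit 0) (nat_lit 266303913216) (nat_lit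 152) (nat_lit 40625902119) (nat_lit 0) (nat_lit 169667595006) (nat_lit 9) (nat_lit 5) (nat_lit 11) (nat_lit 4) (nat_lit 9) (nat_lit 4) (nat_lit 426) (nat_lit 332) (nat_lit 142)) (XT.nd (nat_lit 78) (nat_lit 0) (nat_lit 0) (XT.lf (nat_lit 0) (nat_lit 58652783580) (nat_lit 76) (nat_lit 267908514048) (nat_lit 76) (nat_lit 171271762332) (nat_lit 8) (nat_lit 4) (nat_lit 9) (nat_lit 5) (nat_lit 9) (nat_lit 4) (nat_lit 427) (nat_lit 332) (nat_lit 141)) (XT.lf (nat_lit 0) (nat_lit 164304943745) (nat_lit 76) (nat_lit 226214167472) (nat_lit 76) (nat_lit 129577002893) (nat_lit 8) (nat_lit 4) (nat_lit 9) (nat_lit 5) (nat_lit 9) (nat_lit 4) (nat_lit 428) (nat_lit 332) (nat_lit 140)))))) (XT.nd (nat_lit 39390) (nat_lit 0) (nat_lit 7600) (XT.nd (nat_lit 234) (nat_lit 76) (nat_lit 0) (XT.nd (nat_lit 78) (nat_lit 76) (nat_lit 0) (XT.lf (nat_lit 0) (nat_lit 275238855342) (nat_lit 76) (nat_lit 182435522663)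 (nat_lit 76) (nat_lit 85797964882) (nat_lit 8) (nat_lit 4) (nat_lit 9) (nat_lit 5) (nat_lit 9) (nat_lit 4) (nat_lit 429) (nat_lit 332) (nat_lit 139)) (XT.nd (nat_lit 78) (nat_lit 76) (nat_lit 0) (XT.lf (nat_lit 0) (nat_lit 391718646731) (nat_lit 76) (nat_lit 136468344754) (nat_lit 76) (nat_lit 39830412493) (nat_lit 8) (nat_lit 4) (nat_lit 9) (nat_lit 5) (nat_lit 9) (nat_lit 4) (nat_lit 430) (nat_lit 332) (nat_lit 138)) (XT.lf (nat_lit 0) (nat_lit 8165124920) (nat_lit 152) (nat_lit 79899782820) (nat_lit 76) (nat_lit 505718245489) (nat_lit 7) (nat_lit 5) (nat_lit 9) (nat_lit 5) (nat_lit 8) (nat_lit 4) (nat_lit 431) (nat_lit 332) (nat_lit 137)))) (XT.nd (nat_lit 78) (nat_lit 0) (nat_lit 0) (XT.lf (nat_lit 0) (nat_lit 21348722510) (nat_lit 76) (nat_lit 36206082894) (nat_lit 152) (nat_lit 563233090234) (nat_lit 6) (nat_lit 5) (nat_lit 7) (nat_lit 5) (nat_lit 8) (nat_lit 4) (nat_lit 432) (nat_lit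 332) (nat_lit 136)) (XT.nd (nat_lit 78) (nat_lit 0) (nat_lit 0) (XT.lf (nat_lit 0) (nat_lit 111073777209) (nat_lit 152) (nat_lit 518949427621) (nat_lit 0) (nat_lit 19036680009) (nat_lit 6) (nat_lit 5) (nat_lit 8) (nat_lit 4) (nat_lit 6) (nat_lit 4) (nat_lit 433) (nat_lit 332) (nat_lit 135)) (XT.lf (nat_lit 0) (nat_lit 167861875104) (nat_lit 152) (nat_lit 435029455065) (nat_lit 0) (nat_lit 75824484490) (nat_lit 6) (nat_lit 5) (nat_lit 8) (nat_lit 4) (nat_lit 6) (nat_lit 4) (nat_lit 434) (nat_lit 332) (nat_lit 134))))) (XT.nd (nat_lit 234) (nat_lit 0) (nat_lit 76) (XT.nd (nat_lit 78) (nat_lit 0) (nat_lit 0) (XT.lf (nat_lit 0) (nat_lit 700572655) (nat_lit 836) (nat_lit 4769904375) (nat_lit 836) (nat_lit 4769904375) (nat_lit 106) (nat_lit 3) (nat_lit 117) (nat_lit 3) (nat_lit 117) (nat_lit 5) (nat_lit 333) (nat_lit 333) (nat_lit 234)) (XT.nd (nat_lit 78) (nat_lit 0) (nat_lit 76) (XT.lf (nat_lit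 76) (nat_lit 255357303) (nat_lit 0) (nat_lit 1337718641) (nat_lit 836) (nat_lit 19391728312) (nat_lit 107) (nat_lit 5) (nat_lit 106) (nat_lit 3) (nat_lit 117) (nat_lit 5) (nat_lit 334) (nat_lit 333) (nat_lit 233)) (XT.lf (nat_lit 0) (nat_lit 2085557215) (nat_lit 760) (nat_lit 10779567002) (nat_lit 836) (nat_lit 8634384334) (nat_lit 107) (nat_lit 5) (nat_lit 117) (nat_lit 5) (nat_lit 118) (nat_lit 5) (nat_lit 335) (nat_lit 333) (nat_lit 232)))) (XT.nd (nat_lit 156) (nat_lit 0) (nat_lit 76) (XT.nd (nat_lit 78) (nat_lit 0) (nat_lit 76) (XT.lf (nat_lit 0) (nat_lit 2615258775) (nat_lit 760) (nat_lit 359729031) (nat_lit 836) (nat_lit 19064338525) (nat_lit 107) (nat_lit 5) (nat_lit 117) (nat_lit 5) (nat_lit 118) (nat_lit 5) (nat_lit 336) (nat_lit 333) (nat_lit 231)) (XT.lf (nat_lit 0) (nat_lit 3451670332) (nat_lit 760) (nat_lit 11791151485) (nat_lit 836) (nat_lit 7349309629) (nat_lit 108) (nat_lit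 5) (nat_lit 118) (nat_lit 5) (nat_lit 119) (nat_lit 5) (nat_lit 337) (nat_lit 333) (nat_lit 230))) (XT.nd (nat_lit 78) (nat_lit 0) (nat_lit 76) (XT.lf (nat_lit 0) (nat_lit 4376368400) (nat_lit 760) (nat_lit 694668238) (nat_lit 836) (nat_lit 18099224211) (nat_lit 108) (nat_lit 5) (nat_lit 118) (nat_lit 5) (nat_lit 119) (nat_lit 5) (nat_lit 338) (nat_lit 333) (nat_lit 229)) (XT.lf (nat_lit 0) (nat_lit 5606355458) (nat_lit 760) (nat_lit 12546122324) (nat_lit 836) (nat_lit 5611873216) (nat_lit 109) (nat_lit 5) (nat_lit 119) (nat_lit 5) (nat_lit 120) (nat_lit 5) (nat_lit 339) (nat_lit 333) (nat_lit 228))))))) (XT.nd (nat_lit 936) (nat_lit 1976) (nat_lit 0) (XT.nd (nat_lit 468) (nat_lit 1140) (nat_lit 0) (XT.nd (nat_lit 234) (nat_lit 608) (nat_lit 0) (XT.nd (nat_lit 78) (nat_lit 0) (nat_lit 76) (XT.lf (nat_lit 0) (nat_lit 6985178228) (nat_lit 760) (nat_lit 725805920) (nat_lit 836) (nat_lit 16672801335)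 (nat_lit 109) (nat_lit 5) (nat_lit 119) (nat_lit 5) (nat_lit 120) (nat_lit 5) (nat_lit 340) (nat_lit 333) (nat_lit 227)) (XT.nd (nat_lit 78) (nat_lit 0) (nat_lit 0) (XT.lf (nat_lit 0) (nat_lit 8667844611) (nat_lit 760) (nat_lit 13012862300) (nat_lit 836) (nat_lit 3341745986) (nat_lit 110) (nat_lit 5) (nat_lit 120) (nat_lit 5) (nat_lit 121) (nat_lit 5) (nat_lit 341) (nat_lit 333) (nat_lit 226)) (XT.lf (nat_lit 0) (nat_lit 10566456333) (nat_lit 760) (nat_lit 417928477) (nat_lit 836) (nat_lit 14702084303) (nat_lit 110) (nat_lit 5) (nat_lit 120) (nat_lit 5) (nat_lit 121) (nat_lit 5) (nat_lit 342) (nat_lit 333) (nat_lit 225)))) (XT.nd (nat_lit 78) (nat_lit 760) (nat_lit 0) (XT.lf (nat_lit 0) (nat_lit 12766972251) (nat_lit 760) (nat_lit 13156500376) (nat_lit 76) (nat_lit 449870571) (nat_lit 111) (nat_lit 5) (nat_lit 121) (nat_lit 5) (nat_lit 112) (nat_lit 5) (nat_lit 343) (nat_lit 333) (nat_lit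 224)) (XT.nd (nat_lit 78) (nat_lit 0) (nat_lit 0) (XT.lf (nat_lit 0) (nat_lit 276503120) (nat_lit 760) (nat_lit 14986092940) (nat_lit 836) (nat_lit 11822716292) (nat_lit 101) (nat_lit 5) (nat_lit 111) (nat_lit 5) (nat_lit 112) (nat_lit 5) (nat_lit 344) (nat_lit 333) (nat_lit 223)) (XT.lf (nat_lit 0) (nat_lit 14832200635) (nat_lit 760) (nat_lit 3267331747) (nat_lit 836) (nat_lit 9722526225) (nat_lit 101) (nat_lit 5) (nat_lit 111) (nat_lit 5) (nat_lit 112) (nat_lit 5) (nat_lit 345) (nat_lit 333) (nat_lit 222))))) (XT.nd (nat_lit 234) (nat_lit 456) (nat_lit 0) (XT.nd (nat_lit 78) (nat_lit 304) (nat_lit 0) (XT.lf (nat_lit 0) (nat_lit 1418585708) (nat_lit 380) (nat_lit 19817003560) (nat_lit 456) (nat_lit 7352194178) (nat_lit 96) (nat_lit 5) (nat_lit 101) (nat_lit 5) (nat_lit 102) (nat_lit 5) (nat_lit 346) (nat_lit 333) (nat_lit 221)) (XT.nd (nat_lit 78) (nat_lit 304) (nat_lit 0) (XT.lf (nat_lit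 0) (nat_lit 16937429059) (nat_lit 380) (nat_lit 7857931332) (nat_lit 456) (nat_lit 4583093289) (nat_lit 96) (nat_lit 5) (nat_lit 101) (nat_lit 5) (nat_lit 102) (nat_lit 5) (nat_lit 347) (nat_lit 333) (nat_lit 220)) (XT.lf (nat_lit 0) (nat_lit 3041871430) (nat_lit 304) (nat_lit 25606606507) (nat_lit 380) (nat_lit 1554416095) (nat_lit 92) (nat_lit 5) (nat_lit 96) (nat_lit 5) (nat_lit 97) (nat_lit 5) (nat_lit 348) (nat_lit 333) (nat_lit 219)))) (XT.nd (nat_lit 78) (nat_lit 380) (nat_lit 0) (XT.lf (nat_lit 0) (nat_lit 1911212828) (nat_lit 380) (nat_lit 11490609482) (nat_lit 76) (nat_lit 17648591576) (nat_lit 91) (nat_lit 5) (nat_lit 96) (nat_lit 5) (nat_lit 92) (nat_lit 5) (nat_lit 349) (nat_lit 333) (nat_lit 218)) (XT.nd (nat_lit 78) (nat_lit 0) (nat_lit 0) (XT.lf (nat_lit 0) (nat_lit 5095432317) (nat_lit 380) (nat_lit 476847174) (nat_lit 456) (nat_lit 26363040274) (nat_lit 86) (nat_lit 5)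 (nat_lit 91) (nat_lit 5) (nat_lit 92) (nat_lit 5) (nat_lit 350) (nat_lit 333) (nat_lit 217)) (XT.lf (nat_lit 0) (nat_lit 9813624346) (nat_lit 456) (nat_lit 10158320807) (nat_lit 76) (nat_lit 12872668244) (nat_lit 86) (nat_lit 5) (nat_lit 92) (nat_lit 5) (nat_lit 87) (nat_lit 5) (nat_lit 351) (nat_lit 333) (nat_lit 216)))))) (XT.nd (nat_lit 468) (nat_lit 1064) (nat_lit 0) (XT.nd (nat_lit 234) (nat_lit 304) (nat_lit 0) (XT.nd (nat_lit 78) (nat_lit 304) (nat_lit 0) (XT.lf (nat_lit 0) (nat_lit 7586952110) (nat_lit 304) (nat_lit 6801589142) (nat_lit 380) (nat_lit 19404758742) (nat_lit 82) (nat_lit 5) (nat_lit 86) (nat_lit 5) (nat_lit 87) (nat_lit 5) (nat_lit 352) (nat_lit 333) (nat_lit 215)) (XT.nd (nat_lit 78) (nat_lit 304) (nat_lit 0) (XT.lf (nat_lit 0) (nat_lit 19472143689) (nat_lit 380) (nat_lit 8326714128) (nat_lit 76) (nat_lit 6976569477) (nat_lit 82) (nat_lit 5) (nat_lit 87) (nat_lit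 5) (nat_lit 83) (nat_lit 5) (nat_lit 353) (nat_lit 333) (nat_lit 214)) (XT.lf (nat_lit 0) (nat_lit 10671702137) (nat_lit 304) (nat_lit 14411929068) (nat_lit 380) (nat_lit 10709347702) (nat_lit 78) (nat_lit 5) (nat_lit 82) (nat_lit 5) (nat_lit 83) (nat_lit 5) (nat_lit 354) (nat_lit 333) (nat_lit 213)))) (XT.nd (nat_lit 78) (nat_lit 304) (nat_lit 0) (XT.lf (nat_lit 0) (nat_lit 30903949916) (nat_lit 304) (nat_lit 208477734) (nat_lit 380) (nat_lit 5742146770) (nat_lit 78) (nat_lit 5) (nat_lit 82) (nat_lit 5) (nat_lit 83) (nat_lit 5) (nat_lit 355) (nat_lit 333) (nat_lit 212)) (XT.nd (nat_lit 78) (nat_lit 76) (nat_lit 0) (XT.lf (nat_lit 0) (nat_lit 14404897310) (nat_lit 228) (nat_lit 23488164248) (nat_lit 304) (nat_lit 53671167) (nat_lit 75) (nat_lit 5) (nat_lit 78) (nat_lit 5) (nat_lit 79) (nat_lit 5) (nat_lit 356) (nat_lit 333) (nat_lit 211)) (XT.lf (nat_lit 0) (nat_lit 5831579012) (nat_lit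 304) (nat_lit 3206333053) (nat_lit 76) (nat_lit 30045878572) (nat_lit 74) (nat_lit 5) (nat_lit 78) (nat_lit 5) (nat_lit 75) (nat_lit 5) (nat_lit 357) (nat_lit 333) (nat_lit 210))))) (XT.nd (nat_lit 234) (nat_lit 532) (nat_lit 0) (XT.nd (nat_lit 78) (nat_lit 228) (nat_lit 0) (XT.lf (nat_lit 0) (nat_lit 12398596276) (nat_lit 380) (nat_lit 21623868739) (nat_lit 76) (nat_lit 6235729526) (nat_lit 70) (nat_lit 5) (nat_lit 75) (nat_lit 5) (nat_lit 71) (nat_lit 5) (nat_lit 358) (nat_lit 333) (nat_lit 209)) (XT.nd (nat_lit 78) (nat_lit 0) (nat_lit 0) (XT.lf (nat_lit 0) (nat_lit 36835662) (nat_lit 228) (nat_lit 19457296879) (nat_lit 304) (nat_lit 21987180079) (nat_lit 67) (nat_lit 5) (nat_lit 70) (nat_lit 5) (nat_lit 71) (nat_lit 5) (nat_lit 359) (nat_lit 333) (nat_lit 208)) (XT.lf (nat_lit 0) (nat_lit 23526366886) (nat_lit 228) (nat_lit 3780630909) (nat_lit 304) (nat_lit 15440463471) (nat_lit 67)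 (nat_lit 5) (nat_lit 70) (nat_lit 5) (nat_lit 71) (nat_lit 5) (nat_lit 360) (nat_lit 333) (nat_lit 207)))) (XT.nd (nat_lit 156) (nat_lit 304) (nat_lit 0) (XT.nd (nat_lit 78) (nat_lit 0) (nat_lit 0) (XT.lf (nat_lit 0) (nat_lit 4039929662) (nat_lit 228) (nat_lit 31728116205) (nat_lit 304) (nat_lit 8295996664) (nat_lit 64) (nat_lit 5) (nat_lit 67) (nat_lit 5) (nat_lit 68) (nat_lit 5) (nat_lit 361) (nat_lit 333) (nat_lit 206)) (XT.lf (nat_lit 0) (nat_lit 29062507155) (nat_lit 228) (nat_lit 15972724426) (nat_lit 304) (nat_lit 392069079) (nat_lit 64) (nat_lit 5) (nat_lit 67) (nat_lit 5) (nat_lit 68) (nat_lit 5) (nat_lit 362) (nat_lit 333) (nat_lit 205))) (XT.nd (nat_lit 78) (nat_lit 0) (nat_lit 0) (XT.lf (nat_lit 0) (nat_lit 7798459413) (nat_lit 304) (nat_lit 38233657829) (nat_lit 76) (nat_lit 813209773) (nat_lit 60) (nat_lit 5) (nat_lit 64) (nat_lit 5) (nat_lit 61) (nat_lit 5) (nat_lit 363)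 (nat_lit 333) (nat_lit 204)) (XT.lf (nat_lit 0) (nat_lit 16925635504) (nat_lit 304) (nat_lit 13192845600) (nat_lit 76) (nat_lit 18188439134) (nat_lit 60) (nat_lit 5) (nat_lit 64) (nat_lit 5) (nat_lit 61) (nat_lit 5) (nat_lit 364) (nat_lit 333) (nat_lit 203))))))))
noncomputable def xc182 : XT := (XT.nd (nat_lit 1872) (nat_lit 1140) (nat_lit 0) (XT.nd (nat_lit 936) (nat_lit 988) (nat_lit 0) (XT.nd (nat_lit 468) (nat_lit 684) (nat_lit 0) (XT.nd (nat_lit 234) (nat_lit 304) (nat_lit 0) (XT.nd (nat_lit 78) (nat_lit 152) (nat_lit 0) (XT.lf (nat_lit 0) (nat_lit 13528495772) (nat_lit 228) (nat_lit 13188806890) (nat_lit 304) (nat_lit 23113885542) (nat_lit 57) (nat_lit 5) (nat_lit 60) (nat_lit 5) (nat_lit 61) (nat_lit 5) (nat_lit 365) (nat_lit 333) (nat_lit 202)) (XT.nd (nat_lit 78) (nat_lit 152) (nat_lit 0) (XT.lf (nat_lit 0) (nat_lit 37294234476) (nat_lit 304) (nat_lit 9456417166) (nat_lit 76)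 (nat_lit 4666235476) (nat_lit 57) (nat_lit 5) (nat_lit 61) (nat_lit 5) (nat_lit 58) (nat_lit 5) (nat_lit 366) (nat_lit 333) (nat_lit 201)) (XT.lf (nat_lit 0) (nat_lit 19123692029) (nat_lit 152) (nat_lit 29788219445) (nat_lit 228) (nat_lit 4144366113) (nat_lit 55) (nat_lit 5) (nat_lit 57) (nat_lit 5) (nat_lit 58) (nat_lit 5) (nat_lit 367) (nat_lit 333) (nat_lit 200)))) (XT.nd (nat_lit 78) (nat_lit 228) (nat_lit 0) (XT.lf (nat_lit 0) (nat_lit 6290056161) (nat_lit 228) (nat_lit 5414390074) (nat_lit 76) (nat_lit 43060253488) (nat_lit 54) (nat_lit 5) (nat_lit 57) (nat_lit 5) (nat_lit 55) (nat_lit 5) (nat_lit 368) (nat_lit 333) (nat_lit 199)) (XT.nd (nat_lit 78) (nat_lit 0) (nat_lit 0) (XT.lf (nat_lit 0) (nat_lit 17619947104) (nat_lit 304) (nat_lit 31390545318) (nat_lit 76) (nat_lit 7519003581) (nat_lit 51) (nat_lit 5) (nat_lit 55) (nat_lit 5) (nat_lit 52) (nat_lit 5) (nat_lit 369) (nat_lit 333)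 (nat_lit 198)) (XT.lf (nat_lit 0) (nat_lit 29798724291) (nat_lit 304) (nat_lit 1167602623) (nat_lit 76) (nat_lit 27402086864) (nat_lit 51) (nat_lit 5) (nat_lit 55) (nat_lit 5) (nat_lit 52) (nat_lit 5) (nat_lit 370) (nat_lit 333) (nat_lit 197))))) (XT.nd (nat_lit 234) (nat_lit 304) (nat_lit 0) (XT.nd (nat_lit 78) (nat_lit 228) (nat_lit 0) (XT.lf (nat_lit 0) (nat_lit 31573011411) (nat_lit 152) (nat_lit 11503816890) (nat_lit 228) (nat_lit 17197930947) (nat_lit 49) (nat_lit 5) (nat_lit 51) (nat_lit 5) (nat_lit 52) (nat_lit 5) (nat_lit 371) (nat_lit 333) (nat_lit 196)) (XT.nd (nat_lit 78) (nat_lit 76) (nat_lit 0) (XT.lf (nat_lit 0) (nat_lit 3690040905) (nat_lit 152) (nat_lit 53543439518) (nat_lit 228) (nat_lit 5032210572) (nat_lit 47) (nat_lit 5) (nat_lit 49) (nat_lit 5) (nat_lit 50) (nat_lit 5) (nat_lit 372) (nat_lit 333) (nat_lit 195)) (XT.lf (nat_lit 0) (nat_lit 8174142207) (nat_lit 228)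 (nat_lit 25955479654) (nat_lit 76) (nat_lit 30186498341) (nat_lit 46) (nat_lit 5) (nat_lit 49) (nat_lit 5) (nat_lit 47) (nat_lit 5) (nat_lit 373) (nat_lit 333) (nat_lit 194)))) (XT.nd (nat_lit 78) (nat_lit 152) (nat_lit 0) (XT.lf (nat_lit 0) (nat_lit 8480768848) (nat_lit 152) (nat_lit 13520954747) (nat_lit 228) (nat_lit 44456722191) (nat_lit 44) (nat_lit 5) (nat_lit 46) (nat_lit 5) (nat_lit 47) (nat_lit 5) (nat_lit 374) (nat_lit 333) (nat_lit 193)) (XT.nd (nat_lit 78) (nat_lit 152) (nat_lit 0) (XT.lf (nat_lit 0) (nat_lit 37091854201) (nat_lit 228) (nat_lit 23283821374) (nat_lit 76) (nat_lit 8303654510) (nat_lit 44) (nat_lit 5) (nat_lit 47) (nat_lit 5) (nat_lit 45) (nat_lit 5) (nat_lit 375) (nat_lit 333) (nat_lit 192)) (XT.lf (nat_lit 0) (nat_lit 13346525542) (nat_lit 152) (nat_lit 40017757927) (nat_lit 228) (nat_lit 17625586425) (nat_lit 42) (nat_lit 5) (nat_lit 44) (nat_lit 5) (nat_lit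 45) (nat_lit 5) (nat_lit 376) (nat_lit 333) (nat_lit 191)))))) (XT.nd (nat_lit 468) (nat_lit 456) (nat_lit 0) (XT.nd (nat_lit 234) (nat_lit 304) (nat_lit 0) (XT.nd (nat_lit 78) (nat_lit 228) (nat_lit 0) (XT.lf (nat_lit 0) (nat_lit 52613092887) (nat_lit 152) (nat_lit 18229374087) (nat_lit 228) (nat_lit 2553863936) (nat_lit 42) (nat_lit 5) (nat_lit 44) (nat_lit 5) (nat_lit 45) (nat_lit 5) (nat_lit 377) (nat_lit 333) (nat_lit 190)) (XT.nd (nat_lit 78) (nat_lit 0) (nat_lit 0) (XT.lf (nat_lit 0) (nat_lit 13210817603) (nat_lit 228) (nat_lit 57684554734) (nat_lit 76) (nat_lit 4999176092) (nat_lit 39) (nat_lit 5) (nat_lit 42) (nat_lit 5) (nat_lit 40) (nat_lit 5) (nat_lit 378) (nat_lit 333) (nat_lit 189)) (XT.lf (nat_lit 0) (nat_lit 30332396546) (nat_lit 228) (nat_lit 18975703091) (nat_lit 76) (nat_lit 29174760101) (nat_lit 39) (nat_lit 5) (nat_lit 42) (nat_lit 5) (nat_lit 40) (nat_lit 5) (nat_lit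 379) (nat_lit 333) (nat_lit 188)))) (XT.nd (nat_lit 78) (nat_lit 152) (nat_lit 0) (XT.lf (nat_lit 0) (nat_lit 22381530176) (nat_lit 152) (nat_lit 26275965949) (nat_lit 228) (nat_lit 32525719108) (nat_lit 37) (nat_lit 5) (nat_lit 39) (nat_lit 5) (nat_lit 40) (nat_lit 5) (nat_lit 380) (nat_lit 333) (nat_lit 187)) (XT.nd (nat_lit 78) (nat_lit 152) (nat_lit 0) (XT.lf (nat_lit 0) (nat_lit 66462063968) (nat_lit 152) (nat_lit 1756195413) (nat_lit 228) (nat_lit 15784359357) (nat_lit 37) (nat_lit 5) (nat_lit 39) (nat_lit 5) (nat_lit 40) (nat_lit 5) (nat_lit 381) (nat_lit 333) (nat_lit 186)) (XT.lf (nat_lit 0) (nat_lit 2531906967) (nat_lit 152) (nat_lit 60718857539) (nat_lit 76) (nat_lit 23671065000) (nat_lit 35) (nat_lit 5) (nat_lit 37) (nat_lit 5) (nat_lit 36) (nat_lit 5) (nat_lit 382) (nat_lit 333) (nat_lit 185))))) (XT.nd (nat_lit 234) (nat_lit 304) (nat_lit 0) (XT.nd (nat_lit 78) (nat_lit 152)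 (nat_lit 0) (XT.lf (nat_lit 0) (nat_lit 21562373125) (nat_lit 152) (nat_lit 17525201929) (nat_lit 76) (nat_lit 50870046114) (nat_lit 35) (nat_lit 5) (nat_lit 37) (nat_lit 5) (nat_lit 36) (nat_lit 5) (nat_lit 383) (nat_lit 333) (nat_lit 184)) (XT.nd (nat_lit 78) (nat_lit 0) (nat_lit 0) (XT.lf (nat_lit 0) (nat_lit 28745035569) (nat_lit 152) (nat_lit 13246333610) (nat_lit 228) (nat_lit 51131483457) (nat_lit 33) (nat_lit 5) (nat_lit 35) (nat_lit 5) (nat_lit 36) (nat_lit 5) (nat_lit 384) (nat_lit 333) (nat_lit 183)) (XT.lf (nat_lit 0) (nat_lit 63958525218) (nat_lit 228) (nat_lit 18719103862) (nat_lit 76) (nat_lit 13742881614) (nat_lit 33) (nat_lit 5) (nat_lit 36) (nat_lit 5) (nat_lit 34) (nat_lit 4) (nat_lit 385) (nat_lit 333) (nat_lit 182)))) (XT.nd (nat_lit 78) (nat_lit 228) (nat_lit 0) (XT.lf (nat_lit 0) (nat_lit 29961353464) (nat_lit 76) (nat_lit 57745935822) (nat_lit 152) (nat_lit 12141600358)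 (nat_lit 32) (nat_lit 5) (nat_lit 33) (nat_lit 5) (nat_lit 34) (nat_lit 4) (nat_lit 386) (nat_lit 333) (nat_lit 181)) (XT.nd (nat_lit 78) (nat_lit 152) (nat_lit 0) (XT.lf (nat_lit 0) (nat_lit 9221050226) (nat_lit 152) (nat_lit 21858868309) (nat_lit 76) (nat_lit 72345564760) (nat_lit 31) (nat_lit 5) (nat_lit 33) (nat_lit 5) (nat_lit 32) (nat_lit 5) (nat_lit 387) (nat_lit 333) (nat_lit 180)) (XT.lf (nat_lit 0) (nat_lit 29307354767) (nat_lit 152) (nat_lit 2392414248) (nat_lit 228) (nat_lit 75448387261) (nat_lit 29) (nat_lit 5) (nat_lit 31) (nat_lit 5) (nat_lit 32) (nat_lit 5) (nat_lit 388) (nat_lit 333) (nat_lit 179))))))) (XT.nd (nat_lit 936) (nat_lit 532) (nat_lit 0) (XT.nd (nat_lit 468) (nat_lit 228) (nat_lit 0) (XT.nd (nat_lit 234) (nat_lit 304) (nat_lit 0) (XT.nd (nat_lit 78) (nat_lit 76) (nat_lit 0) (XT.lf (nat_lit 0) (nat_lit 56110033532) (nat_lit 228) (nat_lit 27689544339) (nat_lit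 76) (nat_lit 27217004958) (nat_lit 29) (nat_lit 5) (nat_lit 32) (nat_lit 5) (nat_lit 30) (nat_lit 4) (nat_lit 389) (nat_lit 333) (nat_lit 178)) (XT.nd (nat_lit 78) (nat_lit 0) (nat_lit 0) (XT.lf (nat_lit 0) (nat_lit 25751535116) (nat_lit 76) (nat_lit 56429041043) (nat_lit 152) (nat_lit 32875866699) (nat_lit 28) (nat_lit 5) (nat_lit 29) (nat_lit 5) (nat_lit 30) (nat_lit 4) (nat_lit 390) (nat_lit 333) (nat_lit 177)) (XT.lf (nat_lit 0) (nat_lit 82823300429) (nat_lit 76) (nat_lit 27198802563) (nat_lit 152) (nat_lit 9252820415) (nat_lit 28) (nat_lit 5) (nat_lit 29) (nat_lit 5) (nat_lit 30) (nat_lit 4) (nat_lit 391) (nat_lit 333) (nat_lit 176)))) (XT.nd (nat_lit 78) (nat_lit 76) (nat_lit 0) (XT.lf (nat_lit 0) (nat_lit 15418880894) (nat_lit 228) (nat_lit 104320070527) (nat_lit 76) (nat_lit 3934974677) (nat_lit 25) (nat_lit 5) (nat_lit 28) (nat_lit 5) (nat_lit 26) (nat_lit 4) (nat_lit 392) (nat_lit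 333) (nat_lit 175)) (XT.nd (nat_lit 78) (nat_lit 76) (nat_lit 0) (XT.lf (nat_lit 0) (nat_lit 42085118058) (nat_lit 228) (nat_lit 49657190889) (nat_lit 76) (nat_lit 36489390706) (nat_lit 25) (nat_lit 5) (nat_lit 28) (nat_lit 5) (nat_lit 26) (nat_lit 4) (nat_lit 393) (nat_lit 333) (nat_lit 174)) (XT.lf (nat_lit 0) (nat_lit 7992139029) (nat_lit 76) (nat_lit 62215953693) (nat_lit 152) (nat_lit 62803098190) (nat_lit 24) (nat_lit 5) (nat_lit 25) (nat_lit 5) (nat_lit 26) (nat_lit 4) (nat_lit 394) (nat_lit 333) (nat_lit 173))))) (XT.nd (nat_lit 234) (nat_lit 76) (nat_lit 0) (XT.nd (nat_lit 78) (nat_lit 152) (nat_lit 0) (XT.lf (nat_lit 0) (nat_lit 70245469117) (nat_lit 76) (nat_lit 30331387710) (nat_lit 152) (nat_lit 37410818166) (nat_lit 24) (nat_lit 5) (nat_lit 25) (nat_lit 5) (nat_lit 26) (nat_lit 4) (nat_lit 395) (nat_lit 333) (nat_lit 172)) (XT.nd (nat_lit 78) (nat_lit 152) (nat_lit 0) (XT.lf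 (nat_lit 0) (nat_lit 132511917643) (nat_lit 152) (nat_lit 7653039313) (nat_lit 0) (nat_lit 3045633674) (nat_lit 24) (nat_lit 5) (nat_lit 26) (nat_lit 4) (nat_lit 24) (nat_lit 4) (nat_lit 396) (nat_lit 333) (nat_lit 171)) (XT.lf (nat_lit 0) (nat_lit 18198620716) (nat_lit 152) (nat_lit 92161388859) (nat_lit 76) (nat_lit 38250858333) (nat_lit 22) (nat_lit 5) (nat_lit 24) (nat_lit 5) (nat_lit 23) (nat_lit 4) (nat_lit 397) (nat_lit 333) (nat_lit 170)))) (XT.nd (nat_lit 78) (nat_lit 76) (nat_lit 0) (XT.lf (nat_lit 0) (nat_lit 48311749262) (nat_lit 152) (nat_lit 30431644252) (nat_lit 76) (nat_lit 75522470585) (nat_lit 22) (nat_lit 5) (nat_lit 24) (nat_lit 5) (nat_lit 23) (nat_lit 4) (nat_lit 398) (nat_lit 333) (nat_lit 169)) (XT.nd (nat_lit 78) (nat_lit 0) (nat_lit 0) (XT.lf (nat_lit 0) (nat_lit 35519261614) (nat_lit 76) (nat_lit 44964668866) (nat_lit 152) (nat_lit 79692010037) (nat_lit 21) (nat_lit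 5) (nat_lit 22) (nat_lit 5) (nat_lit 23) (nat_lit 4) (nat_lit 399) (nat_lit 333) (nat_lit 168)) (XT.lf (nat_lit 0) (nat_lit 105822101488) (nat_lit 76) (nat_lit 8956856866) (nat_lit 152) (nat_lit 51576850741) (nat_lit 21) (nat_lit 5) (nat_lit 22) (nat_lit 5) (nat_lit 23) (nat_lit 4) (nat_lit 400) (nat_lit 333) (nat_lit 167)))))) (XT.nd (nat_lit 468) (nat_lit 304) (nat_lit 0) (XT.nd (nat_lit 234) (nat_lit 76) (nat_lit 0) (XT.nd (nat_lit 78) (nat_lit 76) (nat_lit 0) (XT.lf (nat_lit 0) (nat_lit 6552619162) (nat_lit 76) (nat_lit 144787775935) (nat_lit 76) (nat_lit 21476693338) (nat_lit 20) (nat_lit 4) (nat_lit 21) (nat_lit 5) (nat_lit 21) (nat_lit 4) (nat_lit 401) (nat_lit 333) (nat_lit 166)) (XT.nd (nat_lit 78) (nat_lit 0) (nat_lit 0) (XT.lf (nat_lit 0) (nat_lit 10992009978) (nat_lit 152) (nat_lit 100779161540) (nat_lit 76) (nat_lit 67762968102) (nat_lit 19) (nat_lit 5) (nat_lit 21) (nat_lit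 5) (nat_lit 20) (nat_lit 4) (nat_lit 402) (nat_lit 333) (nat_lit 165)) (XT.lf (nat_lit 0) (nat_lit 44361347900) (nat_lit 152) (nat_lit 32373637275) (nat_lit 76) (nat_lit 109834506663) (nat_lit 19) (nat_lit 5) (nat_lit 21) (nat_lit 5) (nat_lit 20) (nat_lit 4) (nat_lit 403) (nat_lit 333) (nat_lit 164)))) (XT.nd (nat_lit 78) (nat_lit 0) (nat_lit 0) (XT.lf (nat_lit 0) (nat_lit 40754689778) (nat_lit 76) (nat_lit 39279764687) (nat_lit 152) (nat_lit 113890392286) (nat_lit 18) (nat_lit 5) (nat_lit 19) (nat_lit 5) (nat_lit 20) (nat_lit 4) (nat_lit 404) (nat_lit 333) (nat_lit 163)) (XT.nd (nat_lit 78) (nat_lit 0) (nat_lit 0) (XT.lf (nat_lit 0) (nat_lit 118048231935) (nat_lit 152) (nat_lit 82968807195) (nat_lit 0) (nat_lit 603079665) (nat_lit 18) (nat_lit 5) (nat_lit 20) (nat_lit 4) (nat_lit 18) (nat_lit 4) (nat_lit 405) (nat_lit 333) (nat_lit 162)) (XT.lf (nat_lit 0) (nat_lit 158605687552) (nat_lit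 152) (nat_lit 9903113822) (nat_lit 0) (nat_lit 41159203758) (nat_lit 18) (nat_lit 5) (nat_lit 20) (nat_lit 4) (nat_lit 18) (nat_lit 4) (nat_lit 406) (nat_lit 333) (nat_lit 161))))) (XT.nd (nat_lit 234) (nat_lit 76) (nat_lit 0) (XT.nd (nat_lit 78) (nat_lit 152) (nat_lit 0) (XT.lf (nat_lit 0) (nat_lit 69023334036) (nat_lit 76) (nat_lit 133244433125) (nat_lit 76) (nat_lit 15796681212) (nat_lit 17) (nat_lit 4) (nat_lit 18) (nat_lit 5) (nat_lit 18) (nat_lit 4) (nat_lit 407) (nat_lit 333) (nat_lit 160)) (XT.nd (nat_lit 78) (nat_lit 76) (nat_lit 0) (XT.lf (nat_lit 0) (nat_lit 20722241647) (nat_lit 152) (nat_lit 74968364266) (nat_lit 76) (nat_lit 131165054819) (nat_lit 16) (nat_lit 5) (nat_lit 18) (nat_lit 5) (nat_lit 17) (nat_lit 4) (nat_lit 408) (nat_lit 333) (nat_lit 159)) (XT.lf (nat_lit 0) (nat_lit 2631662287) (nat_lit 76) (nat_lit 55944811933) (nat_lit 152) (nat_lit 177494999735) (nat_lit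 15) (nat_lit 5) (nat_lit 16) (nat_lit 5) (nat_lit 17) (nat_lit 4) (nat_lit 409) (nat_lit 333) (nat_lit 158)))) (XT.nd (nat_lit 156) (nat_lit 76) (nat_lit 0) (XT.nd (nat_lit 78) (nat_lit 0) (nat_lit 0) (XT.lf (nat_lit 0) (nat_lit 86712820098) (nat_lit 76) (nat_lit 12879387419) (nat_lit 152) (nat_lit 146092430988) (nat_lit 15) (nat_lit 5) (nat_lit 16) (nat_lit 5) (nat_lit 17) (nat_lit 4) (nat_lit 410) (nat_lit 333) (nat_lit 157)) (XT.lf (nat_lit 0) (nat_lit 143162826725) (nat_lit 152) (nat_lit 81286887364) (nat_lit 0) (nat_lit 31303542347) (nat_lit 15) (nat_lit 5) (nat_lit 17) (nat_lit 4) (nat_lit 15) (nat_lit 4) (nat_lit 411) (nat_lit 333) (nat_lit 156))) (XT.nd (nat_lit 78) (nat_lit 0) (nat_lit 0) (XT.lf (nat_lit 0) (nat_lit 71975792) (nat_lit 76) (nat_lit 189051492831) (nat_lit 76) (nat_lit 77191262164) (nat_lit 14) (nat_lit 4) (nat_lit 15) (nat_lit 5) (nat_lit 15) (nat_lit 4) (nat_lit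 412) (nat_lit 333) (nat_lit 155)) (XT.lf (nat_lit 0) (nat_lit 88319422551) (nat_lit 76) (nat_lit 150438597224) (nat_lit 76) (nat_lit 38577465329) (nat_lit 14) (nat_lit 4) (nat_lit 15) (nat_lit 5) (nat_lit 15) (nat_lit 4) (nat_lit 413) (nat_lit 333) (nat_lit 154))))))))
noncomputable def xc183 : XT := (XT.nd (nat_lit 41028) (nat_lit 0) (nat_lit 4408) (XT.nd (nat_lit 936) (nat_lit 228) (nat_lit 0) (XT.nd (nat_lit 468) (nat_lit 152) (nat_lit 0) (XT.nd (nat_lit 234) (nat_lit 76) (nat_lit 0) (XT.nd (nat_lit 78) (nat_lit 76) (nat_lit 0) (XT.lf (nat_lit 0) (nat_lit 1903332854) (nat_lit 152) (nat_lit 107960157855) (nat_lit 76) (nat_lit 179042287564) (nat_lit 13) (nat_lit 5) (nat_lit 15) (nat_lit 5) (nat_lit 14) (nat_lit 4) (nat_lit 414) (nat_lit 333) (nat_lit 153)) (XT.nd (nat_lit 78) (nat_lit 76) (nat_lit 0) (XT.lf (nat_lit 0) (nat_lit 43111018456) (nat_lit 152) (nat_lit 23485219812) (nat_lit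 76) (nat_lit 234426761884) (nat_lit 13) (nat_lit 5) (nat_lit 15) (nat_lit 5) (nat_lit 14) (nat_lit 4) (nat_lit 415) (nat_lit 333) (nat_lit 152)) (XT.lf (nat_lit 0) (nat_lit 67368394058) (nat_lit 76) (nat_lit 20061840195) (nat_lit 152) (nat_lit 226263291662) (nat_lit 12) (nat_lit 5) (nat_lit 13) (nat_lit 5) (nat_lit 14) (nat_lit 4) (nat_lit 416) (nat_lit 333) (nat_lit 151)))) (XT.nd (nat_lit 78) (nat_lit 76) (nat_lit 0) (XT.lf (nat_lit 0) (nat_lit 134818640979) (nat_lit 152) (nat_lit 163855089446) (nat_lit 0) (nat_lit 28281186117) (nat_lit 12) (nat_lit 5) (nat_lit 14) (nat_lit 4) (nat_lit 12) (nat_lit 4) (nat_lit 417) (nat_lit 333) (nat_lit 150)) (XT.nd (nat_lit 78) (nat_lit 76) (nat_lit 0) (XT.lf (nat_lit 0) (nat_lit 184904721064) (nat_lit 152) (nat_lit 77591649371) (nat_lit 0) (nat_lit 78366593693) (nat_lit 12) (nat_lit 5) (nat_lit 14) (nat_lit 4) (nat_lit 12) (nat_lit 4) (nat_lit 418)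 (nat_lit 333) (nat_lit 149)) (XT.lf (nat_lit 0) (nat_lit 13413102093) (nat_lit 76) (nat_lit 224290819554) (nat_lit 76) (nat_lit 117752051696) (nat_lit 11) (nat_lit 4) (nat_lit 12) (nat_lit 5) (nat_lit 12) (nat_lit 4) (nat_lit 419) (nat_lit 333) (nat_lit 148))))) (XT.nd (nat_lit 234) (nat_lit 76) (nat_lit 0) (XT.nd (nat_lit 78) (nat_lit 76) (nat_lit 0) (XT.lf (nat_lit 0) (nat_lit 111660753111) (nat_lit 76) (nat_lit 182795792332) (nat_lit 76) (nat_lit 76256414487) (nat_lit 11) (nat_lit 4) (nat_lit 12) (nat_lit 5) (nat_lit 12) (nat_lit 4) (nat_lit 420) (nat_lit 333) (nat_lit 147)) (XT.nd (nat_lit 78) (nat_lit 76) (nat_lit 0) (XT.lf (nat_lit 0) (nat_lit 214819696319) (nat_lit 76) (nat_lit 139226543213) (nat_lit 76) (nat_lit 32686584429) (nat_lit 11) (nat_lit 4) (nat_lit 12) (nat_lit 5) (nat_lit 12) (nat_lit 4) (nat_lit 421) (nat_lit 333) (nat_lit 146)) (XT.lf (nat_lit 0) (nat_lit 12643136964)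 (nat_lit 152) (nat_lit 80622081282) (nat_lit 76) (nat_lit 310278293640) (nat_lit 10) (nat_lit 5) (nat_lit 12) (nat_lit 5) (nat_lit 11) (nat_lit 4) (nat_lit 422) (nat_lit 333) (nat_lit 145)))) (XT.nd (nat_lit 78) (nat_lit 0) (nat_lit 0) (XT.lf (nat_lit 0) (nat_lit 15182603737) (nat_lit 76) (nat_lit 44194782958) (nat_lit 152) (nat_lit 361778728999) (nat_lit 9) (nat_lit 5) (nat_lit 10) (nat_lit 5) (nat_lit 11) (nat_lit 4) (nat_lit 423) (nat_lit 333) (nat_lit 144)) (XT.nd (nat_lit 78) (nat_lit 0) (nat_lit 0) (XT.lf (nat_lit 0) (nat_lit 109950019494) (nat_lit 152) (nat_lit 321142361350) (nat_lit 0) (nat_lit 8481885374) (nat_lit 9) (nat_lit 5) (nat_lit 11) (nat_lit 4) (nat_lit 9) (nat_lit 4) (nat_lit 424) (nat_lit 333) (nat_lit 143)) (XT.lf (nat_lit 0) (nat_lit 163775297615) (nat_lit 152) (nat_lit 232795117709) (nat_lit 0) (nat_lit 62306708313) (nat_lit 9) (nat_lit 5) (nat_lit 11) (nat_lit 4)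 (nat_lit 9) (nat_lit 4) (nat_lit 425) (nat_lit 333) (nat_lit 142)))))) (XT.nd (nat_lit 468) (nat_lit 152) (nat_lit 0) (XT.nd (nat_lit 234) (nat_lit 0) (nat_lit 0) (XT.nd (nat_lit 78) (nat_lit 76) (nat_lit 0) (XT.lf (nat_lit 0) (nat_lit 220291372065) (nat_lit 152) (nat_lit 140031426035) (nat_lit 0) (nat_lit 118822349257) (nat_lit 9) (nat_lit 5) (nat_lit 11) (nat_lit 4) (nat_lit 9) (nat_lit 4) (nat_lit 426) (nat_lit 333) (nat_lit 141)) (XT.nd (nat_lit 78) (nat_lit 76) (nat_lit 0) (XT.lf (nat_lit 0) (nat_lit 279632804926) (nat_lit 152) (nat_lit 42630420395) (nat_lit 0) (nat_lit 178163369255) (nat_lit 9) (nat_lit 5) (nat_lit 11) (nat_lit 4) (nat_lit 9) (nat_lit 4) (nat_lit 427) (nat_lit 333) (nat_lit 140)) (XT.lf (nat_lit 0) (nat_lit 61611767704) (nat_lit 76) (nat_lit 281291049980) (nat_lit 76) (nat_lit 179821221106) (nat_lit 8) (nat_lit 4) (nat_lit 9) (nat_lit 5) (nat_lit 9) (nat_lit 4) (nat_lit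 428) (nat_lit 333) (nat_lit 139)))) (XT.nd (nat_lit 78) (nat_lit 0) (nat_lit 0) (XT.lf (nat_lit 0) (nat_lit 172545281356) (nat_lit 76) (nat_lit 237512599873) (nat_lit 76) (nat_lit 136042396521) (nat_lit 8) (nat_lit 4) (nat_lit 9) (nat_lit 5) (nat_lit 9) (nat_lit 4) (nat_lit 429) (nat_lit 333) (nat_lit 138)) (XT.nd (nat_lit 78) (nat_lit 0) (nat_lit 0) (XT.lf (nat_lit 0) (nat_lit 289024693751) (nat_lit 76) (nat_lit 191545607394) (nat_lit 76) (nat_lit 90075047395) (nat_lit 8) (nat_lit 4) (nat_lit 9) (nat_lit 5) (nat_lit 9) (nat_lit 4) (nat_lit 430) (nat_lit 333) (nat_lit 137)) (XT.lf (nat_lit 0) (nat_lit 411327336822) (nat_lit 76) (nat_lit 143280627323) (nat_lit 76) (nat_lit 41809727660) (nat_lit 8) (nat_lit 4) (nat_lit 9) (nat_lit 5) (nat_lit 9) (nat_lit 4) (nat_lit 431) (nat_lit 333) (nat_lit 136))))) (XT.nd (nat_lit 39312) (nat_lit 0) (nat_lit 7600) (XT.nd (nat_lit 78) (nat_lit 76) (nat_lit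 0) (XT.lf (nat_lit 0) (nat_lit 8584633363) (nat_lit 152) (nat_lit 83872724756) (nat_lit 76) (nat_lit 531014389057) (nat_lit 7) (nat_lit 5) (nat_lit 9) (nat_lit 5) (nat_lit 8) (nat_lit 4) (nat_lit 432) (nat_lit 333) (nat_lit 135)) (XT.nd (nat_lit 39156) (nat_lit 0) (nat_lit 7600) (XT.lf (nat_lit 0) (nat_lit 22437850240) (nat_lit 76) (nat_lit 38005750479) (nat_lit 152) (nat_lit 591383135896) (nat_lit 6) (nat_lit 5) (nat_lit 7) (nat_lit 5) (nat_lit 8) (nat_lit 4) (nat_lit 433) (nat_lit 333) (nat_lit 134)) (XT.lf (nat_lit 0) (nat_lit 886129011) (nat_lit 836) (nat_lit 4929307311) (nat_lit 836) (nat_lit 4929307311) (nat_lit 106) (nat_lit 3) (nat_lit 117) (nat_lit 3) (nat_lit 117) (nat_lit 5) (nat_lit 334) (nat_lit 334) (nat_lit 232)))) (XT.nd (nat_lit 156) (nat_lit 0) (nat_lit 76) (XT.nd (nat_lit 78) (nat_lit 0) (nat_lit 76) (XT.lf (nat_lit 76) (nat_lit 423758369) (nat_lit 0) (nat_lit 1538120715)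 (nat_lit 836) (nat_lit 20057459430) (nat_lit 107) (nat_lit 5) (nat_lit 106) (nat_lit 3) (nat_lit 117) (nat_lit 5) (nat_lit 335) (nat_lit 334) (nat_lit 231)) (XT.lf (nat_lit 0) (nat_lit 2463230107) (nat_lit 760) (nat_lit 11154332289) (nat_lit 836) (nat_lit 8943015178) (nat_lit 107) (nat_lit 5) (nat_lit 117) (nat_lit 5) (nat_lit 118) (nat_lit 5) (nat_lit 336) (nat_lit 334) (nat_lit 230))) (XT.nd (nat_lit 78) (nat_lit 0) (nat_lit 76) (XT.lf (nat_lit 0) (nat_lit 3006397933) (nat_lit 760) (nat_lit 221322088) (nat_lit 836) (nat_lit 19900328429) (nat_lit 107) (nat_lit 5) (nat_lit 117) (nat_lit 5) (nat_lit 118) (nat_lit 5) (nat_lit 337) (nat_lit 334) (nat_lit 229)) (XT.lf (nat_lit 0) (nat_lit 3873126784) (nat_lit 760) (nat_lit 12212597730) (nat_lit 836) (nat_lit 7623355206) (nat_lit 108) (nat_lit 5) (nat_lit 118) (nat_lit 5) (nat_lit 119) (nat_lit 5) (nat_lit 338) (nat_lit 334) (nat_lit 228)))))))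 (XT.nd (nat_lit 936) (nat_lit 2052) (nat_lit 0) (XT.nd (nat_lit 468) (nat_lit 1292) (nat_lit 0) (XT.nd (nat_lit 234) (nat_lit 0) (nat_lit 152) (XT.nd (nat_lit 78) (nat_lit 0) (nat_lit 76) (XT.lf (nat_lit 0) (nat_lit 4832208664) (nat_lit 760) (nat_lit 569295622) (nat_lit 836) (nat_lit 18915214084) (nat_lit 108) (nat_lit 5) (nat_lit 118) (nat_lit 5) (nat_lit 119) (nat_lit 5) (nat_lit 339) (nat_lit 334) (nat_lit 227)) (XT.nd (nat_lit 78) (nat_lit 0) (nat_lit 0) (XT.lf (nat_lit 0) (nat_lit 6113764337) (nat_lit 760) (nat_lit 13003196978) (nat_lit 836) (nat_lit 5824057982) (nat_lit 109) (nat_lit 5) (nat_lit 119) (nat_lit 5) (nat_lit 120) (nat_lit 5) (nat_lit 340) (nat_lit 334) (nat_lit 226)) (XT.lf (nat_lit 0) (nat_lit 7550714383) (nat_lit 760) (nat_lit 599971014) (nat_lit 836) (nat_lit 17441290073) (nat_lit 109) (nat_lit 5) (nat_lit 119) (nat_lit 5) (nat_lit 120) (nat_lit 5) (nat_lit 341) (nat_lit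 334) (nat_lit 225)))) (XT.nd (nat_lit 78) (nat_lit 0) (nat_lit 0) (XT.lf (nat_lit 0) (nat_lit 9308941193) (nat_lit 760) (nat_lit 13492630726) (nat_lit 836) (nat_lit 3461441812) (nat_lit 110) (nat_lit 5) (nat_lit 120) (nat_lit 5) (nat_lit 121) (nat_lit 5) (nat_lit 342) (nat_lit 334) (nat_lit 224)) (XT.nd (nat_lit 78) (nat_lit 0) (nat_lit 76) (XT.lf (nat_lit 0) (nat_lit 11292592817) (nat_lit 760) (nat_lit 276087101) (nat_lit 836) (nat_lit 15392053781) (nat_lit 110) (nat_lit 5) (nat_lit 120) (nat_lit 5) (nat_lit 121) (nat_lit 5) (nat_lit 343) (nat_lit 334) (nat_lit 223)) (XT.lf (nat_lit 0) (nat_lit 13595734071) (nat_lit 760) (nat_lit 13644026958) (nat_lit 76) (nat_lit 442568492) (nat_lit 111) (nat_lit 5) (nat_lit 121) (nat_lit 5) (nat_lit 112) (nat_lit 5) (nat_lit 344) (nat_lit 334) (nat_lit 222))))) (XT.nd (nat_lit 234) (nat_lit 380) (nat_lit 0) (XT.nd (nat_lit 78) (nat_lit 380) (nat_lit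 0) (XT.lf (nat_lit 0) (nat_lit 457879964) (nat_lit 760) (nat_lit 15751807763) (nat_lit 836) (nat_lit 12220539601) (nat_lit 101) (nat_lit 5) (nat_lit 111) (nat_lit 5) (nat_lit 112) (nat_lit 5) (nat_lit 345) (nat_lit 334) (nat_lit 221)) (XT.nd (nat_lit 78) (nat_lit 380) (nat_lit 0) (XT.lf (nat_lit 0) (nat_lit 15733383702) (nat_lit 760) (nat_lit 3446327073) (nat_lit 836) (nat_lit 10024545388) (nat_lit 101) (nat_lit 5) (nat_lit 111) (nat_lit 5) (nat_lit 112) (nat_lit 5) (nat_lit 346) (nat_lit 334) (nat_lit 220)) (XT.lf (nat_lit 0) (nat_lit 1655516082) (nat_lit 380) (nat_lit 20811070835) (nat_lit 456) (nat_lit 7541986424) (nat_lit 96) (nat_lit 5) (nat_lit 101) (nat_lit 5) (nat_lit 102) (nat_lit 5) (nat_lit 347) (nat_lit 334) (nat_lit 219)))) (XT.nd (nat_lit 78) (nat_lit 380) (nat_lit 0) (XT.lf (nat_lit 0) (nat_lit 17942396787) (nat_lit 380) (nat_lit 8253891801) (nat_lit 456) (nat_lit 4642897989)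 (nat_lit 96) (nat_lit 5) (nat_lit 101) (nat_lit 5) (nat_lit 102) (nat_lit 5) (nat_lit 348) (nat_lit 334) (nat_lit 218)) (XT.nd (nat_lit 78) (nat_lit 76) (nat_lit 0) (XT.lf (nat_lit 0) (nat_lit 3357616094) (nat_lit 304) (nat_lit 26879281117) (nat_lit 380) (nat_lit 1468216251) (nat_lit 92) (nat_lit 5) (nat_lit 96) (nat_lit 5) (nat_lit 97) (nat_lit 5) (nat_lit 349) (nat_lit 334) (nat_lit 217)) (XT.lf (nat_lit 0) (nat_lit 2157891722) (nat_lit 380) (nat_lit 11904171286) (nat_lit 76) (nat_lit 18533201827) (nat_lit 91) (nat_lit 5) (nat_lit 96) (nat_lit 5) (nat_lit 92) (nat_lit 5) (nat_lit 350) (nat_lit 334) (nat_lit 216)))))) (XT.nd (nat_lit 468) (nat_lit 1064) (nat_lit 0) (XT.nd (nat_lit 234) (nat_lit 304) (nat_lit 0) (XT.nd (nat_lit 78) (nat_lit 304) (nat_lit 0) (XT.lf (nat_lit 0) (nat_lit 5508576335) (nat_lit 380) (nat_lit 488711913) (nat_lit 456) (nat_lit 27527369353) (nat_lit 86) (nat_lit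 5) (nat_lit 91) (nat_lit 5) (nat_lit 92) (nat_lit 5) (nat_lit 351) (nat_lit 334) (nat_lit 215)) (XT.nd (nat_lit 78) (nat_lit 304) (nat_lit 0) (XT.lf (nat_lit 0) (nat_lit 10443907264) (nat_lit 456) (nat_lit 10508509656) (nat_lit 76) (nat_lit 13527343810) (nat_lit 86) (nat_lit 5) (nat_lit 92) (nat_lit 5) (nat_lit 87) (nat_lit 5) (nat_lit 352) (nat_lit 334) (nat_lit 214)) (XT.lf (nat_lit 0) (nat_lit 8121482920) (nat_lit 304) (nat_lit 7121862240) (nat_lit 380) (nat_lit 20232752657) (nat_lit 82) (nat_lit 5) (nat_lit 86) (nat_lit 5) (nat_lit 87) (nat_lit 5) (nat_lit 353) (nat_lit 334) (nat_lit 213)))) (XT.nd (nat_lit 78) (nat_lit 304) (nat_lit 0) (XT.lf (nat_lit 0) (nat_lit 20574975710) (nat_lit 380) (nat_lit 8589010645) (nat_lit 76) (nat_lit 7343657409) (nat_lit 82) (nat_lit 5) (nat_lit 87) (nat_lit 5) (nat_lit 83) (nat_lit 5) (nat_lit 354) (nat_lit 334) (nat_lit 212)) (XT.nd (nat_lit 78) (nat_lit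 0) (nat_lit 0) (XT.lf (nat_lit 0) (nat_lit 11356841930) (nat_lit 304) (nat_lit 15106408302) (nat_lit 380) (nat_lit 11113016556) (nat_lit 78) (nat_lit 5) (nat_lit 82) (nat_lit 5) (nat_lit 83) (nat_lit 5) (nat_lit 355) (nat_lit 334) (nat_lit 211)) (XT.lf (nat_lit 0) (nat_lit 32593485208) (nat_lit 304) (nat_lit 194028078) (nat_lit 380) (nat_lit 5903731698) (nat_lit 78) (nat_lit 5) (nat_lit 82) (nat_lit 5) (nat_lit 83) (nat_lit 5) (nat_lit 356) (nat_lit 334) (nat_lit 210))))) (XT.nd (nat_lit 234) (nat_lit 456) (nat_lit 0) (XT.nd (nat_lit 78) (nat_lit 304) (nat_lit 0) (XT.lf (nat_lit 0) (nat_lit 63885895) (nat_lit 304) (nat_lit 24566466093) (nat_lit 76) (nat_lit 15207762473) (nat_lit 74) (nat_lit 5) (nat_lit 78) (nat_lit 5) (nat_lit 75) (nat_lit 5) (nat_lit 357) (nat_lit 334) (nat_lit 209)) (XT.nd (nat_lit 78) (nat_lit 304) (nat_lit 0) (XT.lf (nat_lit 0) (nat_lit 6235955027) (nat_lit 304) (nat_lit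 3222286622) (nat_lit 76) (nat_lit 31574025288) (nat_lit 74) (nat_lit 5) (nat_lit 78) (nat_lit 5) (nat_lit 75) (nat_lit 5) (nat_lit 358) (nat_lit 334) (nat_lit 208)) (XT.lf (nat_lit 0) (nat_lit 13128675144) (nat_lit 380) (nat_lit 22557981197) (nat_lit 76) (nat_lit 6578870591) (nat_lit 70) (nat_lit 5) (nat_lit 75) (nat_lit 5) (nat_lit 71) (nat_lit 5) (nat_lit 359) (nat_lit 334) (nat_lit 207)))) (XT.nd (nat_lit 156) (nat_lit 228) (nat_lit 0) (XT.nd (nat_lit 78) (nat_lit 0) (nat_lit 0) (XT.lf (nat_lit 0) (nat_lit 183386151) (nat_lit 228) (nat_lit 20392616187) (nat_lit 304) (nat_lit 22973951199) (nat_lit 67) (nat_lit 5) (nat_lit 70) (nat_lit 5) (nat_lit 71) (nat_lit 5) (nat_lit 360) (nat_lit 334) (nat_lit 206)) (XT.lf (nat_lit 0) (nat_lit 24840503045) (nat_lit 228) (nat_lit 3933904801) (nat_lit 304) (nat_lit 16105260088) (nat_lit 67) (nat_lit 5) (nat_lit 70) (nat_lit 5) (nat_lit 71) (nat_lit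 5) (nat_lit 361) (nat_lit 334) (nat_lit 205))) (XT.nd (nat_lit 78) (nat_lit 0) (nat_lit 0) (XT.lf (nat_lit 0) (nat_lit 4382054886) (nat_lit 228) (nat_lit 33274312923) (nat_lit 304) (nat_lit 8605820498) (nat_lit 64) (nat_lit 5) (nat_lit 67) (nat_lit 5) (nat_lit 68) (nat_lit 5) (nat_lit 362) (nat_lit 334) (nat_lit 204)) (XT.lf (nat_lit 0) (nat_lit 30649088456) (nat_lit 228) (nat_lit 16733066274) (nat_lit 304) (nat_lit 311695390) (nat_lit 64) (nat_lit 5) (nat_lit 67) (nat_lit 5) (nat_lit 68) (nat_lit 5) (nat_lit 363) (nat_lit 334) (nat_lit 203))))))))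
noncomputable def xc184 : XT := (XT.nd (nat_lit 1872) (nat_lit 1292) (nat_lit 0) (XT.nd (nat_lit 936) (nat_lit 912) (nat_lit 0) (XT.nd (nat_lit 468) (nat_lit 760) (nat_lit 0) (XT.nd (nat_lit 234) (nat_lit 228) (nat_lit 0) (XT.nd (nat_lit 78) (nat_lit 228) (nat_lit 0) (XT.lf (nat_lit 0) (nat_lit 8283279410) (nat_lit 304) (nat_lit 40006697757) (nat_lit 76) (nat_lit 892819199) (nat_lit 60) (nat_lit 5) (nat_lit 64) (nat_lit 5) (nat_lit 61) (nat_lit 5) (nat_lit 364) (nat_lit 334) (nat_lit 202)) (XT.nd (nat_lit 78) (nat_lit 228) (nat_lit 0) (XT.lf (nat_lit 0) (nat_lit 17862295400) (nat_lit 304) (nat_lit 13720446961) (nat_lit 76) (nat_lit 19134955317) (nat_lit 60) (nat_lit 5) (nat_lit 64) (nat_lit 5) (nat_lit 61) (nat_lit 5) (nat_lit 365) (nat_lit 334) (nat_lit 201)) (XT.lf (nat_lit 0) (nat_lit 14334831787) (nat_lit 228) (nat_lit 13806438687) (nat_lit 304) (nat_lit 24177024706) (nat_lit 57) (nat_lit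 5) (nat_lit 60) (nat_lit 5) (nat_lit 61) (nat_lit 5) (nat_lit 366) (nat_lit 334) (nat_lit 200)))) (XT.nd (nat_lit 78) (nat_lit 228) (nat_lit 0) (XT.lf (nat_lit 0) (nat_lit 39243475179) (nat_lit 304) (nat_lit 9801894298) (nat_lit 76) (nat_lit 4938090500) (nat_lit 57) (nat_lit 5) (nat_lit 61) (nat_lit 5) (nat_lit 58) (nat_lit 5) (nat_lit 367) (nat_lit 334) (nat_lit 199)) (XT.nd (nat_lit 78) (nat_lit 76) (nat_lit 0) (XT.lf (nat_lit 0) (nat_lit 20205166425) (nat_lit 152) (nat_lit 31234800536) (nat_lit 228) (nat_lit 4264958605) (nat_lit 55) (nat_lit 5) (nat_lit 57) (nat_lit 5) (nat_lit 58) (nat_lit 5) (nat_lit 368) (nat_lit 334) (nat_lit 198)) (XT.lf (nat_lit 0) (nat_lit 6684419204) (nat_lit 228) (nat_lit 5563106509) (nat_lit 76) (nat_lit 45251377071) (nat_lit 54) (nat_lit 5) (nat_lit 57) (nat_lit 5) (nat_lit 55) (nat_lit 5) (nat_lit 369) (nat_lit 334) (nat_lit 197))))) (XT.nd (nat_lit 234)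 (nat_lit 380) (nat_lit 0) (XT.nd (nat_lit 78) (nat_lit 152) (nat_lit 0) (XT.lf (nat_lit 0) (nat_lit 18579533271) (nat_lit 304) (nat_lit 32836761032) (nat_lit 76) (nat_lit 7935709999) (nat_lit 51) (nat_lit 5) (nat_lit 55) (nat_lit 5) (nat_lit 52) (nat_lit 5) (nat_lit 370) (nat_lit 334) (nat_lit 196)) (XT.nd (nat_lit 78) (nat_lit 152) (nat_lit 0) (XT.lf (nat_lit 0) (nat_lit 31363506993) (nat_lit 304) (nat_lit 1108543181) (nat_lit 76) (nat_lit 28811006673) (nat_lit 51) (nat_lit 5) (nat_lit 55) (nat_lit 5) (nat_lit 52) (nat_lit 5) (nat_lit 371) (nat_lit 334) (nat_lit 195)) (XT.lf (nat_lit 0) (nat_lit 33267207369) (nat_lit 152) (nat_lit 12036548704) (nat_lit 228) (nat_lit 17981053205) (nat_lit 49) (nat_lit 5) (nat_lit 51) (nat_lit 5) (nat_lit 52) (nat_lit 5) (nat_lit 372) (nat_lit 334) (nat_lit 194)))) (XT.nd (nat_lit 78) (nat_lit 228) (nat_lit 0) (XT.lf (nat_lit 0) (nat_lit 3991200940) (nat_lit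 152) (nat_lit 56176012253) (nat_lit 228) (nat_lit 5208127398) (nat_lit 47) (nat_lit 5) (nat_lit 49) (nat_lit 5) (nat_lit 50) (nat_lit 5) (nat_lit 373) (nat_lit 334) (nat_lit 193)) (XT.nd (nat_lit 78) (nat_lit 152) (nat_lit 0) (XT.lf (nat_lit 0) (nat_lit 8652631251) (nat_lit 228) (nat_lit 27139814445) (nat_lit 76) (nat_lit 31735962381) (nat_lit 46) (nat_lit 5) (nat_lit 49) (nat_lit 5) (nat_lit 47) (nat_lit 5) (nat_lit 374) (nat_lit 334) (nat_lit 192)) (XT.lf (nat_lit 0) (nat_lit 9016416818) (nat_lit 152) (nat_lit 14153594479) (nat_lit 228) (nat_lit 46607919046) (nat_lit 44) (nat_lit 5) (nat_lit 46) (nat_lit 5) (nat_lit 47) (nat_lit 5) (nat_lit 375) (nat_lit 334) (nat_lit 191)))))) (XT.nd (nat_lit 468) (nat_lit 380) (nat_lit 0) (XT.nd (nat_lit 234) (nat_lit 380) (nat_lit 0) (XT.nd (nat_lit 78) (nat_lit 152) (nat_lit 0) (XT.lf (nat_lit 0) (nat_lit 39012046190) (nat_lit 228) (nat_lit 24339089073)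 (nat_lit 76) (nat_lit 8758855025) (nat_lit 44) (nat_lit 5) (nat_lit 47) (nat_lit 5) (nat_lit 45) (nat_lit 5) (nat_lit 376) (nat_lit 334) (nat_lit 190)) (XT.nd (nat_lit 78) (nat_lit 0) (nat_lit 0) (XT.lf (nat_lit 0) (nat_lit 14121018361) (nat_lit 152) (nat_lit 41975627955) (nat_lit 228) (nat_lit 18439484554) (nat_lit 42) (nat_lit 5) (nat_lit 44) (nat_lit 5) (nat_lit 45) (nat_lit 5) (nat_lit 377) (nat_lit 334) (nat_lit 189)) (XT.lf (nat_lit 0) (nat_lit 55345810904) (nat_lit 152) (nat_lit 19099873393) (nat_lit 228) (nat_lit 2617384569) (nat_lit 42) (nat_lit 5) (nat_lit 44) (nat_lit 5) (nat_lit 45) (nat_lit 5) (nat_lit 378) (nat_lit 334) (nat_lit 188)))) (XT.nd (nat_lit 78) (nat_lit 152) (nat_lit 0) (XT.lf (nat_lit 0) (nat_lit 13932769842) (nat_lit 228) (nat_lit 60463913471) (nat_lit 76) (nat_lit 5289500301) (nat_lit 39) (nat_lit 5) (nat_lit 42) (nat_lit 5) (nat_lit 40) (nat_lit 5) (nat_lit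 379) (nat_lit 334) (nat_lit 187)) (XT.nd (nat_lit 78) (nat_lit 152) (nat_lit 0) (XT.lf (nat_lit 0) (nat_lit 31907503382) (nat_lit 228) (nat_lit 19824613008) (nat_lit 76) (nat_lit 30671941347) (nat_lit 39) (nat_lit 5) (nat_lit 42) (nat_lit 5) (nat_lit 40) (nat_lit 5) (nat_lit 380) (nat_lit 334) (nat_lit 186)) (XT.lf (nat_lit 0) (nat_lit 23598871031) (nat_lit 152) (nat_lit 27548735994) (nat_lit 228) (nat_lit 34091887509) (nat_lit 37) (nat_lit 5) (nat_lit 39) (nat_lit 5) (nat_lit 40) (nat_lit 5) (nat_lit 381) (nat_lit 334) (nat_lit 185))))) (XT.nd (nat_lit 234) (nat_lit 228) (nat_lit 0) (XT.nd (nat_lit 78) (nat_lit 152) (nat_lit 0) (XT.lf (nat_lit 0) (nat_lit 69878752258) (nat_lit 152) (nat_lit 1804930658) (nat_lit 228) (nat_lit 16516322512) (nat_lit 37) (nat_lit 5) (nat_lit 39) (nat_lit 5) (nat_lit 40) (nat_lit 5) (nat_lit 382) (nat_lit 334) (nat_lit 184)) (XT.nd (nat_lit 78) (nat_lit 0)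 (nat_lit 0) (XT.lf (nat_lit 0) (nat_lit 2713370443) (nat_lit 152) (nat_lit 63658793833) (nat_lit 76) (nat_lit 24892996321) (nat_lit 35) (nat_lit 5) (nat_lit 37) (nat_lit 5) (nat_lit 36) (nat_lit 5) (nat_lit 383) (nat_lit 334) (nat_lit 183)) (XT.lf (nat_lit 0) (nat_lit 22692747141) (nat_lit 152) (nat_lit 18310027184) (nat_lit 76) (nat_lit 53450098963) (nat_lit 35) (nat_lit 5) (nat_lit 37) (nat_lit 5) (nat_lit 36) (nat_lit 5) (nat_lit 384) (nat_lit 334) (nat_lit 182)))) (XT.nd (nat_lit 78) (nat_lit 76) (nat_lit 0) (XT.lf (nat_lit 0) (nat_lit 30272247433) (nat_lit 152) (nat_lit 13869861743) (nat_lit 228) (nat_lit 53634312115) (nat_lit 33) (nat_lit 5) (nat_lit 35) (nat_lit 5) (nat_lit 36) (nat_lit 5) (nat_lit 385) (nat_lit 334) (nat_lit 181)) (XT.nd (nat_lit 78) (nat_lit 76) (nat_lit 0) (XT.lf (nat_lit 0) (nat_lit 67205763037) (nat_lit 228) (nat_lit 19567508137) (nat_lit 76) (nat_lit 14465784810)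 (nat_lit 33) (nat_lit 5) (nat_lit 36) (nat_lit 5) (nat_lit 34) (nat_lit 4) (nat_lit 386) (nat_lit 334) (nat_lit 180)) (XT.lf (nat_lit 0) (nat_lit 31545559944) (nat_lit 76) (nat_lit 60595402063) (nat_lit 152) (nat_lit 12697942738) (nat_lit 32) (nat_lit 5) (nat_lit 33) (nat_lit 5) (nat_lit 34) (nat_lit 4) (nat_lit 387) (nat_lit 334) (nat_lit 179))))))) (XT.nd (nat_lit 936) (nat_lit 532) (nat_lit 0) (XT.nd (nat_lit 468) (nat_lit 228) (nat_lit 0) (XT.nd (nat_lit 234) (nat_lit 304) (nat_lit 0) (XT.nd (nat_lit 78) (nat_lit 152) (nat_lit 0) (XT.lf (nat_lit 0) (nat_lit 9728877705) (nat_lit 152) (nat_lit 22868215505) (nat_lit 76) (nat_lit 75997312832) (nat_lit 31) (nat_lit 5) (nat_lit 33) (nat_lit 5) (nat_lit 32) (nat_lit 5) (nat_lit 388) (nat_lit 334) (nat_lit 178)) (XT.nd (nat_lit 78) (nat_lit 0) (nat_lit 0) (XT.lf (nat_lit 0) (nat_lit 30854970399) (nat_lit 152) (nat_lit 2475618776) (nat_lit 228)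 (nat_lit 79172671264) (nat_lit 29) (nat_lit 5) (nat_lit 31) (nat_lit 5) (nat_lit 32) (nat_lit 5) (nat_lit 389) (nat_lit 334) (nat_lit 177)) (XT.lf (nat_lit 0) (nat_lit 58959725939) (nat_lit 228) (nat_lit 28994037760) (nat_lit 76) (nat_lit 28611427243) (nat_lit 29) (nat_lit 5) (nat_lit 32) (nat_lit 5) (nat_lit 30) (nat_lit 4) (nat_lit 390) (nat_lit 334) (nat_lit 176)))) (XT.nd (nat_lit 78) (nat_lit 228) (nat_lit 0) (XT.lf (nat_lit 0) (nat_lit 27117805607) (nat_lit 76) (nat_lit 59215114400) (nat_lit 152) (nat_lit 34474168297) (nat_lit 28) (nat_lit 5) (nat_lit 29) (nat_lit 5) (nat_lit 30) (nat_lit 4) (nat_lit 391) (nat_lit 334) (nat_lit 175)) (XT.nd (nat_lit 78) (nat_lit 228) (nat_lit 0) (XT.lf (nat_lit 0) (nat_lit 87039411865) (nat_lit 76) (nat_lit 28525048696) (nat_lit 152) (nat_lit 9672135973) (nat_lit 28) (nat_lit 5) (nat_lit 29) (nat_lit 5) (nat_lit 30) (nat_lit 4) (nat_lit 392) (nat_lit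 334) (nat_lit 174)) (XT.lf (nat_lit 0) (nat_lit 16231470129) (nat_lit 228) (nat_lit 109459427984) (nat_lit 76) (nat_lit 4164632576) (nat_lit 25) (nat_lit 5) (nat_lit 28) (nat_lit 5) (nat_lit 26) (nat_lit 4) (nat_lit 393) (nat_lit 334) (nat_lit 173))))) (XT.nd (nat_lit 234) (nat_lit 152) (nat_lit 0) (XT.nd (nat_lit 78) (nat_lit 76) (nat_lit 0) (XT.lf (nat_lit 0) (nat_lit 44229036047) (nat_lit 228) (nat_lit 52067054177) (nat_lit 76) (nat_lit 38345202303) (nat_lit 25) (nat_lit 5) (nat_lit 28) (nat_lit 5) (nat_lit 26) (nat_lit 4) (nat_lit 394) (nat_lit 334) (nat_lit 172)) (XT.nd (nat_lit 78) (nat_lit 0) (nat_lit 0) (XT.lf (nat_lit 0) (nat_lit 8463564878) (nat_lit 76) (nat_lit 65293827190) (nat_lit 152) (nat_lit 65902405080) (nat_lit 24) (nat_lit 5) (nat_lit 25) (nat_lit 5) (nat_lit 26) (nat_lit 4) (nat_lit 395) (nat_lit 334) (nat_lit 171)) (XT.lf (nat_lit 0) (nat_lit 73826141522) (nat_lit 76)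 (nat_lit 31816600727) (nat_lit 152) (nat_lit 39242456198) (nat_lit 24) (nat_lit 5) (nat_lit 25) (nat_lit 5) (nat_lit 26) (nat_lit 4) (nat_lit 396) (nat_lit 334) (nat_lit 170)))) (XT.nd (nat_lit 78) (nat_lit 152) (nat_lit 0) (XT.lf (nat_lit 0) (nat_lit 139173258422) (nat_lit 152) (nat_lit 7969243960) (nat_lit 0) (nat_lit 3226822757) (nat_lit 24) (nat_lit 5) (nat_lit 26) (nat_lit 4) (nat_lit 24) (nat_lit 4) (nat_lit 397) (nat_lit 334) (nat_lit 169)) (XT.nd (nat_lit 78) (nat_lit 0) (nat_lit 0) (XT.lf (nat_lit 0) (nat_lit 19144197187) (nat_lit 152) (nat_lit 96702897060) (nat_lit 76) (nat_lit 40192527729) (nat_lit 22) (nat_lit 5) (nat_lit 24) (nat_lit 5) (nat_lit 23) (nat_lit 4) (nat_lit 398) (nat_lit 334) (nat_lit 168)) (XT.lf (nat_lit 0) (nat_lit 50761284759) (nat_lit 152) (nat_lit 31889834806) (nat_lit 76) (nat_lit 79326333619) (nat_lit 22) (nat_lit 5) (nat_lit 24) (nat_lit 5) (nat_lit 23)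 (nat_lit 4) (nat_lit 399) (nat_lit 334) (nat_lit 167)))))) (XT.nd (nat_lit 468) (nat_lit 228) (nat_lit 0) (XT.nd (nat_lit 234) (nat_lit 152) (nat_lit 0) (XT.nd (nat_lit 78) (nat_lit 76) (nat_lit 0) (XT.lf (nat_lit 0) (nat_lit 37357593907) (nat_lit 76) (nat_lit 47183838315) (nat_lit 152) (nat_lit 83641633660) (nat_lit 21) (nat_lit 5) (nat_lit 22) (nat_lit 5) (nat_lit 23) (nat_lit 4) (nat_lit 400) (nat_lit 334) (nat_lit 166)) (XT.nd (nat_lit 78) (nat_lit 76) (nat_lit 0) (XT.lf (nat_lit 0) (nat_lit 111172605812) (nat_lit 76) (nat_lit 9377019715) (nat_lit 152) (nat_lit 54122381964) (nat_lit 21) (nat_lit 5) (nat_lit 22) (nat_lit 5) (nat_lit 23) (nat_lit 4) (nat_lit 401) (nat_lit 334) (nat_lit 165)) (XT.lf (nat_lit 0) (nat_lit 6939832505) (nat_lit 76) (nat_lit 151999132994) (nat_lit 76) (nat_lit 22517394022) (nat_lit 20) (nat_lit 4) (nat_lit 21) (nat_lit 5) (nat_lit 21) (nat_lit 4) (nat_lit 402)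 (nat_lit 334) (nat_lit 164)))) (XT.nd (nat_lit 78) (nat_lit 76) (nat_lit 0) (XT.lf (nat_lit 0) (nat_lit 11572156656) (nat_lit 152) (nat_lit 105760359230) (nat_lit 76) (nat_lit 71176798141) (nat_lit 19) (nat_lit 5) (nat_lit 21) (nat_lit 5) (nat_lit 20) (nat_lit 4) (nat_lit 403) (nat_lit 334) (nat_lit 163)) (XT.nd (nat_lit 78) (nat_lit 76) (nat_lit 0) (XT.lf (nat_lit 0) (nat_lit 46608506895) (nat_lit 152) (nat_lit 33937309247) (nat_lit 76) (nat_lit 115350690695) (nat_lit 19) (nat_lit 5) (nat_lit 21) (nat_lit 5) (nat_lit 20) (nat_lit 4) (nat_lit 404) (nat_lit 334) (nat_lit 162)) (XT.lf (nat_lit 0) (nat_lit 42846546903) (nat_lit 76) (nat_lit 41218181577) (nat_lit 152) (nat_lit 119554928269) (nat_lit 18) (nat_lit 5) (nat_lit 19) (nat_lit 5) (nat_lit 20) (nat_lit 4) (nat_lit 405) (nat_lit 334) (nat_lit 161))))) (XT.nd (nat_lit 234) (nat_lit 152) (nat_lit 0) (XT.nd (nat_lit 78) (nat_lit 76) (nat_lit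 0) (XT.lf (nat_lit 0) (nat_lit 123978215467) (nat_lit 152) (nat_lit 87064718283) (nat_lit 0) (nat_lit 656807841) (nat_lit 18) (nat_lit 5) (nat_lit 20) (nat_lit 4) (nat_lit 18) (nat_lit 4) (nat_lit 406) (nat_lit 334) (nat_lit 160)) (XT.nd (nat_lit 78) (nat_lit 76) (nat_lit 0) (XT.lf (nat_lit 0) (nat_lit 166562230915) (nat_lit 152) (nat_lit 10348241635) (nat_lit 0) (nat_lit 43239615558) (nat_lit 18) (nat_lit 5) (nat_lit 20) (nat_lit 4) (nat_lit 18) (nat_lit 4) (nat_lit 407) (nat_lit 334) (nat_lit 159)) (XT.lf (nat_lit 0) (nat_lit 72523721715) (nat_lit 76) (nat_lit 139883210840) (nat_lit 76) (nat_lit 16559445261) (nat_lit 17) (nat_lit 4) (nat_lit 18) (nat_lit 5) (nat_lit 18) (nat_lit 4) (nat_lit 408) (nat_lit 334) (nat_lit 158)))) (XT.nd (nat_lit 156) (nat_lit 0) (nat_lit 0) (XT.nd (nat_lit 78) (nat_lit 76) (nat_lit 0) (XT.lf (nat_lit 0) (nat_lit 21783309541) (nat_lit 152) (nat_lit 78669076465)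 (nat_lit 76) (nat_lit 137744806229) (nat_lit 16) (nat_lit 5) (nat_lit 18) (nat_lit 5) (nat_lit 17) (nat_lit 4) (nat_lit 409) (nat_lit 334) (nat_lit 157)) (XT.lf (nat_lit 0) (nat_lit 2810181963) (nat_lit 76) (nat_lit 58719616219) (nat_lit 152) (nat_lit 186344020895) (nat_lit 15) (nat_lit 5) (nat_lit 16) (nat_lit 5) (nat_lit 17) (nat_lit 4) (nat_lit 410) (nat_lit 334) (nat_lit 156))) (XT.nd (nat_lit 78) (nat_lit 0) (nat_lit 0) (XT.lf (nat_lit 0) (nat_lit 91093162590) (nat_lit 76) (nat_lit 13501988875) (nat_lit 152) (nat_lit 153372548893) (nat_lit 15) (nat_lit 5) (nat_lit 16) (nat_lit 5) (nat_lit 17) (nat_lit 4) (nat_lit 411) (nat_lit 334) (nat_lit 155)) (XT.lf (nat_lit 0) (nat_lit 150343508238) (nat_lit 152) (nat_lit 85307862259) (nat_lit 0) (nat_lit 32888418520) (nat_lit 15) (nat_lit 5) (nat_lit 17) (nat_lit 4) (nat_lit 15) (nat_lit 4) (nat_lit 412) (nat_lit 334) (nat_lit 154))))))))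
noncomputable def xc185 : XT := (XT.nd (nat_lit 41106) (nat_lit 0) (nat_lit 4332) (XT.nd (nat_lit 936) (nat_lit 152) (nat_lit 0) (XT.nd (nat_lit 468) (nat_lit 228) (nat_lit 0) (XT.nd (nat_lit 234) (nat_lit 76) (nat_lit 0) (XT.nd (nat_lit 78) (nat_lit 76) (nat_lit 0) (XT.lf (nat_lit 0) (nat_lit 118244547) (nat_lit 76) (nat_lit 198483530540) (nat_lit 76) (nat_lit 81027582510) (nat_lit 14) (nat_lit 4) (nat_lit 15) (nat_lit 5) (nat_lit 15) (nat_lit 4) (nat_lit 413) (nat_lit 334) (nat_lit 153)) (XT.nd (nat_lit 78) (nat_lit 76) (nat_lit 0) (XT.lf (nat_lit 0) (nat_lit 92776031741) (nat_lit 76) (nat_lit 157940968102) (nat_lit 76) (nat_lit 40484202632) (nat_lit 14) (nat_lit 4) (nat_lit 15) (nat_lit 5) (nat_lit 15) (nat_lit 4) (nat_lit 414) (nat_lit 334) (nat_lit 152)) (XT.lf (nat_lit 0) (nat_lit 2018906616) (nat_lit 152) (nat_lit 113318785421) (nat_lit 76) (nat_lit 188012352135) (nat_lit 13) (nat_lit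 5) (nat_lit 15) (nat_lit 5) (nat_lit 14) (nat_lit 4) (nat_lit 415) (nat_lit 334) (nat_lit 151)))) (XT.nd (nat_lit 78) (nat_lit 76) (nat_lit 0) (XT.lf (nat_lit 0) (nat_lit 45286004730) (nat_lit 152) (nat_lit 24621975730) (nat_lit 76) (nat_lit 246165195400) (nat_lit 13) (nat_lit 5) (nat_lit 15) (nat_lit 5) (nat_lit 14) (nat_lit 4) (nat_lit 416) (nat_lit 334) (nat_lit 150)) (XT.nd (nat_lit 78) (nat_lit 0) (nat_lit 0) (XT.lf (nat_lit 0) (nat_lit 70773713913) (nat_lit 76) (nat_lit 21047118026) (nat_lit 152) (nat_lit 237556413562) (nat_lit 12) (nat_lit 5) (nat_lit 13) (nat_lit 5) (nat_lit 14) (nat_lit 4) (nat_lit 417) (nat_lit 334) (nat_lit 149)) (XT.lf (nat_lit 0) (nat_lit 141578015030) (nat_lit 152) (nat_lit 172012054649) (nat_lit 0) (nat_lit 29711668294) (nat_lit 12) (nat_lit 5) (nat_lit 14) (nat_lit 4) (nat_lit 12) (nat_lit 4) (nat_lit 418) (nat_lit 334) (nat_lit 148))))) (XT.nd (nat_lit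 234) (nat_lit 152) (nat_lit 0) (XT.nd (nat_lit 78) (nat_lit 76) (nat_lit 0) (XT.lf (nat_lit 0) (nat_lit 194167520930) (nat_lit 152) (nat_lit 81437146820) (nat_lit 0) (nat_lit 82300564206) (nat_lit 12) (nat_lit 5) (nat_lit 14) (nat_lit 4) (nat_lit 12) (nat_lit 4) (nat_lit 419) (nat_lit 334) (nat_lit 147)) (XT.nd (nat_lit 78) (nat_lit 0) (nat_lit 0) (XT.lf (nat_lit 0) (nat_lit 14117292459) (nat_lit 76) (nat_lit 235489076290) (nat_lit 76) (nat_lit 123621538627) (nat_lit 11) (nat_lit 4) (nat_lit 12) (nat_lit 5) (nat_lit 12) (nat_lit 4) (nat_lit 420) (nat_lit 334) (nat_lit 146)) (XT.lf (nat_lit 0) (nat_lit 117275729110) (nat_lit 76) (nat_lit 191920073147) (nat_lit 76) (nat_lit 80051982208) (nat_lit 11) (nat_lit 4) (nat_lit 12) (nat_lit 5) (nat_lit 12) (nat_lit 4) (nat_lit 421) (nat_lit 334) (nat_lit 145)))) (XT.nd (nat_lit 78) (nat_lit 152) (nat_lit 0) (XT.lf (nat_lit 0) (nat_lit 225591098605)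 (nat_lit 76) (nat_lit 146173100086) (nat_lit 76) (nat_lit 34304482218) (nat_lit 11) (nat_lit 4) (nat_lit 12) (nat_lit 5) (nat_lit 12) (nat_lit 4) (nat_lit 422) (nat_lit 334) (nat_lit 144)) (XT.nd (nat_lit 78) (nat_lit 76) (nat_lit 0) (XT.lf (nat_lit 0) (nat_lit 13290441930) (nat_lit 152) (nat_lit 84623713748) (nat_lit 76) (nat_lit 325805772683) (nat_lit 10) (nat_lit 5) (nat_lit 12) (nat_lit 5) (nat_lit 11) (nat_lit 4) (nat_lit 423) (nat_lit 334) (nat_lit 143)) (XT.lf (nat_lit 0) (nat_lit 15970730174) (nat_lit 76) (nat_lit 46390405347) (nat_lit 152) (nat_lit 379852040350) (nat_lit 9) (nat_lit 5) (nat_lit 10) (nat_lit 5) (nat_lit 11) (nat_lit 4) (nat_lit 424) (nat_lit 334) (nat_lit 142)))))) (XT.nd (nat_lit 468) (nat_lit 76) (nat_lit 0) (XT.nd (nat_lit 234) (nat_lit 76) (nat_lit 0) (XT.nd (nat_lit 78) (nat_lit 0) (nat_lit 0) (XT.lf (nat_lit 0) (nat_lit 115461901320) (nat_lit 152) (nat_lit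 337171363747) (nat_lit 0) (nat_lit 8918993865) (nat_lit 9) (nat_lit 5) (nat_lit 11) (nat_lit 4) (nat_lit 9) (nat_lit 4) (nat_lit 425) (nat_lit 334) (nat_lit 141)) (XT.nd (nat_lit 78) (nat_lit 0) (nat_lit 0) (XT.lf (nat_lit 0) (nat_lit 171977758544) (nat_lit 152) (nat_lit 244408096765) (nat_lit 0) (nat_lit 65434438227) (nat_lit 9) (nat_lit 5) (nat_lit 11) (nat_lit 4) (nat_lit 9) (nat_lit 4) (nat_lit 426) (nat_lit 334) (nat_lit 140)) (XT.lf (nat_lit 0) (nat_lit 231318984524) (nat_lit 152) (nat_lit 147007495594) (nat_lit 0) (nat_lit 124775271004) (nat_lit 9) (nat_lit 5) (nat_lit 11) (nat_lit 4) (nat_lit 9) (nat_lit 4) (nat_lit 427) (nat_lit 334) (nat_lit 139)))) (XT.nd (nat_lit 78) (nat_lit 76) (nat_lit 0) (XT.lf (nat_lit 0) (nat_lit 293626867892) (nat_lit 152) (nat_lit 44737654041) (nat_lit 0) (nat_lit 187082779893) (nat_lit 9) (nat_lit 5) (nat_lit 11) (nat_lit 4) (nat_lit 9) (nat_lit 4)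 (nat_lit 428) (nat_lit 334) (nat_lit 138)) (XT.nd (nat_lit 78) (nat_lit 0) (nat_lit 0) (XT.lf (nat_lit 0) (nat_lit 64716251731) (nat_lit 76) (nat_lit 295343911076) (nat_lit 76) (nat_lit 188799466431) (nat_lit 8) (nat_lit 4) (nat_lit 9) (nat_lit 5) (nat_lit 9) (nat_lit 4) (nat_lit 429) (nat_lit 334) (nat_lit 137)) (XT.lf (nat_lit 0) (nat_lit 181195303178) (nat_lit 76) (nat_lit 249377095198) (nat_lit 76) (nat_lit 142832310889) (nat_lit 8) (nat_lit 4) (nat_lit 9) (nat_lit 5) (nat_lit 9) (nat_lit 4) (nat_lit 430) (nat_lit 334) (nat_lit 136))))) (XT.nd (nat_lit 39390) (nat_lit 0) (nat_lit 7524) (XT.nd (nat_lit 78) (nat_lit 76) (nat_lit 0) (XT.lf (nat_lit 0) (nat_lit 303497602490) (nat_lit 76) (nat_lit 201112283317) (nat_lit 76) (nat_lit 94567175520) (nat_lit 8) (nat_lit 4) (nat_lit 9) (nat_lit 5) (nat_lit 9) (nat_lit 4) (nat_lit 431) (nat_lit 334) (nat_lit 135)) (XT.nd (nat_lit 78) (nat_lit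 76) (nat_lit 0) (XT.lf (nat_lit 0) (nat_lit 431914345617) (nat_lit 76) (nat_lit 150434559216) (nat_lit 76) (nat_lit 43889143334) (nat_lit 8) (nat_lit 4) (nat_lit 9) (nat_lit 5) (nat_lit 9) (nat_lit 4) (nat_lit 432) (nat_lit 334) (nat_lit 134)) (XT.lf (nat_lit 0) (nat_lit 9024071105) (nat_lit 152) (nat_lit 88046363529) (nat_lit 76) (nat_lit 557574388594) (nat_lit 7) (nat_lit 5) (nat_lit 9) (nat_lit 5) (nat_lit 8) (nat_lit 4) (nat_lit 433) (nat_lit 334) (nat_lit 133)))) (XT.nd (nat_lit 156) (nat_lit 0) (nat_lit 76) (XT.nd (nat_lit 78) (nat_lit 0) (nat_lit 0) (XT.lf (nat_lit 0) (nat_lit 1066968544) (nat_lit 836) (nat_lit 5104033644) (nat_lit 836) (nat_lit 5104033644) (nat_lit 106) (nat_lit 3) (nat_lit 117) (nat_lit 3) (nat_lit 117) (nat_lit 5) (nat_lit 335) (nat_lit 335) (nat_lit 230)) (XT.lf (nat_lit 76) (nat_lit 586110189) (nat_lit 0) (nat_lit 1736129828) (nat_lit 836) (nat_lit 20784726689)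 (nat_lit 107) (nat_lit 5) (nat_lit 106) (nat_lit 3) (nat_lit 117) (nat_lit 5) (nat_lit 336) (nat_lit 335) (nat_lit 229))) (XT.nd (nat_lit 78) (nat_lit 0) (nat_lit 0) (XT.lf (nat_lit 0) (nat_lit 2834368965) (nat_lit 760) (nat_lit 11563102814) (nat_lit 836) (nat_lit 9278521154) (nat_lit 107) (nat_lit 5) (nat_lit 117) (nat_lit 5) (nat_lit 118) (nat_lit 5) (nat_lit 337) (nat_lit 335) (nat_lit 228)) (XT.lf (nat_lit 0) (nat_lit 3392886737) (nat_lit 760) (nat_lit 90534775) (nat_lit 836) (nat_lit 20789016486) (nat_lit 107) (nat_lit 5) (nat_lit 117) (nat_lit 5) (nat_lit 118) (nat_lit 5) (nat_lit 338) (nat_lit 335) (nat_lit 227))))))) (XT.nd (nat_lit 936) (nat_lit 2128) (nat_lit 0) (XT.nd (nat_lit 468) (nat_lit 1216) (nat_lit 0) (XT.nd (nat_lit 234) (nat_lit 0) (nat_lit 76) (XT.nd (nat_lit 78) (nat_lit 0) (nat_lit 0) (XT.lf (nat_lit 0) (nat_lit 4292518213) (nat_lit 760) (nat_lit 12670745684) (nat_lit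 836) (nat_lit 7919788358) (nat_lit 108) (nat_lit 5) (nat_lit 118) (nat_lit 5) (nat_lit 119) (nat_lit 5) (nat_lit 339) (nat_lit 335) (nat_lit 226)) (XT.nd (nat_lit 78) (nat_lit 0) (nat_lit 76) (XT.lf (nat_lit 0) (nat_lit 5288804896) (nat_lit 760) (nat_lit 452539515) (nat_lit 836) (nat_lit 19780275162) (nat_lit 108) (nat_lit 5) (nat_lit 118) (nat_lit 5) (nat_lit 119) (nat_lit 5) (nat_lit 340) (nat_lit 335) (nat_lit 225)) (XT.lf (nat_lit 0) (nat_lit 6625430881) (nat_lit 760) (nat_lit 13498951872) (nat_lit 836) (nat_lit 6053211997) (nat_lit 109) (nat_lit 5) (nat_lit 119) (nat_lit 5) (nat_lit 120) (nat_lit 5) (nat_lit 341) (nat_lit 335) (nat_lit 224)))) (XT.nd (nat_lit 78) (nat_lit 0) (nat_lit 76) (XT.lf (nat_lit 0) (nat_lit 8124419938) (nat_lit 760) (nat_lit 482917227) (nat_lit 836) (nat_lit 18254260401) (nat_lit 109) (nat_lit 5) (nat_lit 119) (nat_lit 5) (nat_lit 120) (nat_lit 5) (nat_lit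 342) (nat_lit 335) (nat_lit 223)) (XT.nd (nat_lit 78) (nat_lit 0) (nat_lit 0) (XT.lf (nat_lit 0) (nat_lit 9962782222) (nat_lit 760) (nat_lit 14012273881) (nat_lit 836) (nat_lit 3591528438) (nat_lit 110) (nat_lit 5) (nat_lit 120) (nat_lit 5) (nat_lit 121) (nat_lit 5) (nat_lit 343) (nat_lit 335) (nat_lit 222)) (XT.lf (nat_lit 0) (nat_lit 12036645286) (nat_lit 760) (nat_lit 142283474) (nat_lit 836) (nat_lit 16120717933) (nat_lit 110) (nat_lit 5) (nat_lit 120) (nat_lit 5) (nat_lit 121) (nat_lit 5) (nat_lit 344) (nat_lit 335) (nat_lit 221))))) (XT.nd (nat_lit 234) (nat_lit 684) (nat_lit 0) (XT.nd (nat_lit 78) (nat_lit 760) (nat_lit 0) (XT.lf (nat_lit 0) (nat_lit 14448231167) (nat_lit 760) (nat_lit 14171762604) (nat_lit 76) (nat_lit 437671422) (nat_lit 111) (nat_lit 5) (nat_lit 121) (nat_lit 5) (nat_lit 112) (nat_lit 5) (nat_lit 345) (nat_lit 335) (nat_lit 220)) (XT.nd (nat_lit 78) (nat_lit 0)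 (nat_lit 0) (XT.lf (nat_lit 0) (nat_lit 632748282) (nat_lit 760) (nat_lit 16554282664) (nat_lit 836) (nat_lit 12656226440) (nat_lit 101) (nat_lit 5) (nat_lit 111) (nat_lit 5) (nat_lit 112) (nat_lit 5) (nat_lit 346) (nat_lit 335) (nat_lit 219)) (XT.lf (nat_lit 0) (nat_lit 16664790335) (nat_lit 760) (nat_lit 3632819153) (nat_lit 836) (nat_lit 10358782046) (nat_lit 101) (nat_lit 5) (nat_lit 111) (nat_lit 5) (nat_lit 112) (nat_lit 5) (nat_lit 347) (nat_lit 335) (nat_lit 218)))) (XT.nd (nat_lit 78) (nat_lit 304) (nat_lit 0) (XT.lf (nat_lit 0) (nat_lit 1888859767) (nat_lit 380) (nat_lit 21854542379) (nat_lit 456) (nat_lit 7757800065) (nat_lit 96) (nat_lit 5) (nat_lit 101) (nat_lit 5) (nat_lit 102) (nat_lit 5) (nat_lit 348) (nat_lit 335) (nat_lit 217)) (XT.nd (nat_lit 78) (nat_lit 304) (nat_lit 0) (XT.lf (nat_lit 0) (nat_lit 18982914609) (nat_lit 380) (nat_lit 8669365441) (nat_lit 456) (nat_lit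 4721437479) (nat_lit 96) (nat_lit 5) (nat_lit 101) (nat_lit 5) (nat_lit 102) (nat_lit 5) (nat_lit 349) (nat_lit 335) (nat_lit 216)) (XT.lf (nat_lit 0) (nat_lit 3673933265) (nat_lit 304) (nat_lit 28216301212) (nat_lit 380) (nat_lit 1392946203) (nat_lit 92) (nat_lit 5) (nat_lit 96) (nat_lit 5) (nat_lit 97) (nat_lit 5) (nat_lit 350) (nat_lit 335) (nat_lit 215)))))) (XT.nd (nat_lit 468) (nat_lit 1064) (nat_lit 0) (XT.nd (nat_lit 234) (nat_lit 608) (nat_lit 0) (XT.nd (nat_lit 78) (nat_lit 380) (nat_lit 0) (XT.lf (nat_lit 0) (nat_lit 2402855017) (nat_lit 380) (nat_lit 12353376520) (nat_lit 76) (nat_lit 19461839851) (nat_lit 91) (nat_lit 5) (nat_lit 96) (nat_lit 5) (nat_lit 92) (nat_lit 5) (nat_lit 351) (nat_lit 335) (nat_lit 214)) (XT.nd (nat_lit 78) (nat_lit 0) (nat_lit 0) (XT.lf (nat_lit 0) (nat_lit 5927653588) (nat_lit 380) (nat_lit 502283454) (nat_lit 456) (nat_lit 28764215885) (nat_lit 86)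 (nat_lit 5) (nat_lit 91) (nat_lit 5) (nat_lit 92) (nat_lit 5) (nat_lit 352) (nat_lit 335) (nat_lit 213)) (XT.lf (nat_lit 0) (nat_lit 11092725485) (nat_lit 456) (nat_lit 10890871927) (nat_lit 76) (nat_lit 14213726559) (nat_lit 86) (nat_lit 5) (nat_lit 92) (nat_lit 5) (nat_lit 87) (nat_lit 5) (nat_lit 353) (nat_lit 335) (nat_lit 212)))) (XT.nd (nat_lit 78) (nat_lit 304) (nat_lit 0) (XT.lf (nat_lit 0) (nat_lit 8668312807) (nat_lit 304) (nat_lit 7459990401) (nat_lit 380) (nat_lit 21115370768) (nat_lit 82) (nat_lit 5) (nat_lit 86) (nat_lit 5) (nat_lit 87) (nat_lit 5) (nat_lit 354) (nat_lit 335) (nat_lit 211)) (XT.nd (nat_lit 78) (nat_lit 304) (nat_lit 0) (XT.lf (nat_lit 0) (nat_lit 21720935231) (nat_lit 380) (nat_lit 8878743092) (nat_lit 76) (nat_lit 7727402147) (nat_lit 82) (nat_lit 5) (nat_lit 87) (nat_lit 5) (nat_lit 83) (nat_lit 5) (nat_lit 355) (nat_lit 335) (nat_lit 210)) (XT.lf (nat_lit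 0) (nat_lit 12062148594) (nat_lit 304) (nat_lit 15838039629) (nat_lit 380) (nat_lit 11549122230) (nat_lit 78) (nat_lit 5) (nat_lit 82) (nat_lit 5) (nat_lit 83) (nat_lit 5) (nat_lit 356) (nat_lit 335) (nat_lit 209))))) (XT.nd (nat_lit 234) (nat_lit 760) (nat_lit 0) (XT.nd (nat_lit 78) (nat_lit 304) (nat_lit 0) (XT.lf (nat_lit 0) (nat_lit 34354078104) (nat_lit 304) (nat_lit 181168445) (nat_lit 380) (nat_lit 6085065755) (nat_lit 78) (nat_lit 5) (nat_lit 82) (nat_lit 5) (nat_lit 83) (nat_lit 5) (nat_lit 357) (nat_lit 335) (nat_lit 208)) (XT.nd (nat_lit 78) (nat_lit 0) (nat_lit 0) (XT.lf (nat_lit 0) (nat_lit 174505965) (nat_lit 304) (nat_lit 25657300747) (nat_lit 76) (nat_lit 15992772299) (nat_lit 74) (nat_lit 5) (nat_lit 78) (nat_lit 5) (nat_lit 75) (nat_lit 5) (nat_lit 358) (nat_lit 335) (nat_lit 207)) (XT.lf (nat_lit 0) (nat_lit 6650063041) (nat_lit 304) (nat_lit 3252459380) (nat_lit 76)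 (nat_lit 33176175792) (nat_lit 74) (nat_lit 5) (nat_lit 78) (nat_lit 5) (nat_lit 75) (nat_lit 5) (nat_lit 359) (nat_lit 335) (nat_lit 206)))) (XT.nd (nat_lit 156) (nat_lit 228) (nat_lit 0) (XT.nd (nat_lit 78) (nat_lit 228) (nat_lit 0) (XT.lf (nat_lit 0) (nat_lit 13885017340) (nat_lit 380) (nat_lit 23552473473) (nat_lit 76) (nat_lit 6936253656) (nat_lit 70) (nat_lit 5) (nat_lit 75) (nat_lit 5) (nat_lit 71) (nat_lit 5) (nat_lit 360) (nat_lit 335) (nat_lit 205)) (XT.lf (nat_lit 0) (nat_lit 323810520) (nat_lit 228) (nat_lit 21378192088) (nat_lit 304) (nat_lit 24020528229) (nat_lit 67) (nat_lit 5) (nat_lit 70) (nat_lit 5) (nat_lit 71) (nat_lit 5) (nat_lit 361) (nat_lit 335) (nat_lit 204))) (XT.nd (nat_lit 78) (nat_lit 228) (nat_lit 0) (XT.lf (nat_lit 0) (nat_lit 26207533018) (nat_lit 228) (nat_lit 4098166796) (nat_lit 304) (nat_lit 16813265445) (nat_lit 67) (nat_lit 5) (nat_lit 70) (nat_lit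 5) (nat_lit 71) (nat_lit 5) (nat_lit 362) (nat_lit 335) (nat_lit 203)) (XT.lf (nat_lit 0) (nat_lit 4728258529) (nat_lit 228) (nat_lit 34901557738) (nat_lit 304) (nat_lit 8940895197) (nat_lit 64) (nat_lit 5) (nat_lit 67) (nat_lit 5) (nat_lit 68) (nat_lit 5) (nat_lit 363) (nat_lit 335) (nat_lit 202))))))))
noncomputable def xc186 : XT := (XT.nd (nat_lit 1872) (nat_lit 1368) (nat_lit 0) (XT.nd (nat_lit 936) (nat_lit 988) (nat_lit 0) (XT.nd (nat_lit 468) (nat_lit 684) (nat_lit 0) (XT.nd (nat_lit 234) (nat_lit 380) (nat_lit 0) (XT.nd (nat_lit 78) (nat_lit 304) (nat_lit 0) (XT.lf (nat_lit 0) (nat_lit 32302591353) (nat_lit 228) (nat_lit 17534985462) (nat_lit 304) (nat_lit 236597944) (nat_lit 64) (nat_lit 5) (nat_lit 67) (nat_lit 5) (nat_lit 68) (nat_lit 5) (nat_lit 364) (nat_lit 335) (nat_lit 201)) (XT.nd (nat_lit 78) (nat_lit 0) (nat_lit 0) (XT.lf (nat_lit 0) (nat_lit 8783517782) (nat_lit 304)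 (nat_lit 41881279389) (nat_lit 76) (nat_lit 972787993) (nat_lit 60) (nat_lit 5) (nat_lit 64) (nat_lit 5) (nat_lit 61) (nat_lit 5) (nat_lit 365) (nat_lit 335) (nat_lit 200)) (XT.lf (nat_lit 0) (nat_lit 18837385790) (nat_lit 304) (nat_lit 14286704304) (nat_lit 76) (nat_lit 20125348639) (nat_lit 60) (nat_lit 5) (nat_lit 64) (nat_lit 5) (nat_lit 61) (nat_lit 5) (nat_lit 366) (nat_lit 335) (nat_lit 199)))) (XT.nd (nat_lit 78) (nat_lit 152) (nat_lit 0) (XT.lf (nat_lit 0) (nat_lit 15169406688) (nat_lit 228) (nat_lit 14458839037) (nat_lit 304) (nat_lit 25301925724) (nat_lit 57) (nat_lit 5) (nat_lit 60) (nat_lit 5) (nat_lit 61) (nat_lit 5) (nat_lit 367) (nat_lit 335) (nat_lit 198)) (XT.nd (nat_lit 78) (nat_lit 152) (nat_lit 0) (XT.lf (nat_lit 0) (nat_lit 41282319214) (nat_lit 304) (nat_lit 10176484500) (nat_lit 76) (nat_lit 5219954889) (nat_lit 57) (nat_lit 5) (nat_lit 61) (nat_lit 5) (nat_lit 58)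 (nat_lit 5) (nat_lit 368) (nat_lit 335) (nat_lit 197)) (XT.lf (nat_lit 0) (nat_lit 21329066284) (nat_lit 152) (nat_lit 32757692599) (nat_lit 228) (nat_lit 4399634369) (nat_lit 55) (nat_lit 5) (nat_lit 57) (nat_lit 5) (nat_lit 58) (nat_lit 5) (nat_lit 369) (nat_lit 335) (nat_lit 196))))) (XT.nd (nat_lit 234) (nat_lit 380) (nat_lit 0) (XT.nd (nat_lit 78) (nat_lit 228) (nat_lit 0) (XT.lf (nat_lit 0) (nat_lit 7091075751) (nat_lit 228) (nat_lit 5730601455) (nat_lit 76) (nat_lit 47548513642) (nat_lit 54) (nat_lit 5) (nat_lit 57) (nat_lit 5) (nat_lit 55) (nat_lit 5) (nat_lit 370) (nat_lit 335) (nat_lit 195)) (XT.nd (nat_lit 78) (nat_lit 0) (nat_lit 0) (XT.lf (nat_lit 0) (nat_lit 19579792304) (nat_lit 304) (nat_lit 34366751870) (nat_lit 76) (nat_lit 8369462609) (nat_lit 51) (nat_lit 5) (nat_lit 55) (nat_lit 5) (nat_lit 52) (nat_lit 5) (nat_lit 371) (nat_lit 335) (nat_lit 194)) (XT.lf (nat_lit 0)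 (nat_lit 32999570313) (nat_lit 304) (nat_lit 1057449184) (nat_lit 76) (nat_lit 30286763778) (nat_lit 51) (nat_lit 5) (nat_lit 55) (nat_lit 5) (nat_lit 52) (nat_lit 5) (nat_lit 372) (nat_lit 335) (nat_lit 193)))) (XT.nd (nat_lit 78) (nat_lit 228) (nat_lit 0) (XT.lf (nat_lit 0) (nat_lit 35035370810) (nat_lit 152) (nat_lit 12599864546) (nat_lit 228) (nat_lit 18810469321) (nat_lit 49) (nat_lit 5) (nat_lit 51) (nat_lit 5) (nat_lit 52) (nat_lit 5) (nat_lit 373) (nat_lit 335) (nat_lit 192)) (XT.nd (nat_lit 78) (nat_lit 76) (nat_lit 0) (XT.lf (nat_lit 0) (nat_lit 4296573223) (nat_lit 152) (nat_lit 58944360039) (nat_lit 228) (nat_lit 5399877350) (nat_lit 47) (nat_lit 5) (nat_lit 49) (nat_lit 5) (nat_lit 50) (nat_lit 5) (nat_lit 374) (nat_lit 335) (nat_lit 191)) (XT.lf (nat_lit 0) (nat_lit 9148557085) (nat_lit 228) (nat_lit 28393912476) (nat_lit 76) (nat_lit 33359167868) (nat_lit 46) (nat_lit 5)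 (nat_lit 49) (nat_lit 5) (nat_lit 47) (nat_lit 5) (nat_lit 375) (nat_lit 335) (nat_lit 190)))))) (XT.nd (nat_lit 468) (nat_lit 456) (nat_lit 0) (XT.nd (nat_lit 234) (nat_lit 228) (nat_lit 0) (XT.nd (nat_lit 78) (nat_lit 152) (nat_lit 0) (XT.lf (nat_lit 0) (nat_lit 9568470791) (nat_lit 152) (nat_lit 14821901862) (nat_lit 228) (nat_lit 48873336083) (nat_lit 44) (nat_lit 5) (nat_lit 46) (nat_lit 5) (nat_lit 47) (nat_lit 5) (nat_lit 376) (nat_lit 335) (nat_lit 189)) (XT.nd (nat_lit 78) (nat_lit 152) (nat_lit 0) (XT.lf (nat_lit 0) (nat_lit 41022148980) (nat_lit 228) (nat_lit 25457246818) (nat_lit 76) (nat_lit 9233095090) (nat_lit 44) (nat_lit 5) (nat_lit 47) (nat_lit 5) (nat_lit 45) (nat_lit 5) (nat_lit 377) (nat_lit 335) (nat_lit 188)) (XT.lf (nat_lit 0) (nat_lit 14924272491) (nat_lit 152) (nat_lit 44035390879) (nat_lit 228) (nat_lit 19300342054) (nat_lit 42) (nat_lit 5) (nat_lit 44) (nat_lit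 5) (nat_lit 45) (nat_lit 5) (nat_lit 378) (nat_lit 335) (nat_lit 187)))) (XT.nd (nat_lit 78) (nat_lit 228) (nat_lit 0) (XT.lf (nat_lit 0) (nat_lit 58205675938) (nat_lit 152) (nat_lit 20017706611) (nat_lit 228) (nat_lit 2690047390) (nat_lit 42) (nat_lit 5) (nat_lit 44) (nat_lit 5) (nat_lit 45) (nat_lit 5) (nat_lit 379) (nat_lit 335) (nat_lit 186)) (XT.nd (nat_lit 78) (nat_lit 0) (nat_lit 0) (XT.lf (nat_lit 0) (nat_lit 14685110246) (nat_lit 228) (nat_lit 63391989871) (nat_lit 76) (nat_lit 5590587927) (nat_lit 39) (nat_lit 5) (nat_lit 42) (nat_lit 5) (nat_lit 40) (nat_lit 5) (nat_lit 380) (nat_lit 335) (nat_lit 185)) (XT.lf (nat_lit 0) (nat_lit 33555927991) (nat_lit 228) (nat_lit 20725253874) (nat_lit 76) (nat_lit 32240407568) (nat_lit 39) (nat_lit 5) (nat_lit 42) (nat_lit 5) (nat_lit 40) (nat_lit 5) (nat_lit 381) (nat_lit 335) (nat_lit 184))))) (XT.nd (nat_lit 234) (nat_lit 152) (nat_lit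 0) (XT.nd (nat_lit 78) (nat_lit 152) (nat_lit 0) (XT.lf (nat_lit 0) (nat_lit 24867943242) (nat_lit 152) (nat_lit 28888958960) (nat_lit 228) (nat_lit 35741953491) (nat_lit 37) (nat_lit 5) (nat_lit 39) (nat_lit 5) (nat_lit 40) (nat_lit 5) (nat_lit 382) (nat_lit 335) (nat_lit 183)) (XT.nd (nat_lit 78) (nat_lit 152) (nat_lit 0) (XT.lf (nat_lit 0) (nat_lit 73457574308) (nat_lit 152) (nat_lit 1859735444) (nat_lit 228) (nat_lit 17290206834) (nat_lit 37) (nat_lit 5) (nat_lit 39) (nat_lit 5) (nat_lit 40) (nat_lit 5) (nat_lit 383) (nat_lit 335) (nat_lit 182)) (XT.lf (nat_lit 0) (nat_lit 2898805974) (nat_lit 152) (nat_lit 66754652723) (nat_lit 76) (nat_lit 26172456179) (nat_lit 35) (nat_lit 5) (nat_lit 37) (nat_lit 5) (nat_lit 36) (nat_lit 5) (nat_lit 384) (nat_lit 335) (nat_lit 181)))) (XT.nd (nat_lit 78) (nat_lit 152) (nat_lit 0) (XT.lf (nat_lit 0) (nat_lit 23874781650) (nat_lit 152) (nat_lit 19142594447)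 (nat_lit 76) (nat_lit 56155756332) (nat_lit 35) (nat_lit 5) (nat_lit 37) (nat_lit 5) (nat_lit 36) (nat_lit 5) (nat_lit 385) (nat_lit 335) (nat_lit 180)) (XT.nd (nat_lit 78) (nat_lit 0) (nat_lit 0) (XT.lf (nat_lit 0) (nat_lit 31867456254) (nat_lit 152) (nat_lit 14528172475) (nat_lit 228) (nat_lit 56267278954) (nat_lit 33) (nat_lit 5) (nat_lit 35) (nat_lit 5) (nat_lit 36) (nat_lit 5) (nat_lit 386) (nat_lit 335) (nat_lit 179)) (XT.lf (nat_lit 0) (nat_lit 70610778226) (nat_lit 228) (nat_lit 20466472280) (nat_lit 76) (nat_lit 15221508623) (nat_lit 33) (nat_lit 5) (nat_lit 36) (nat_lit 5) (nat_lit 34) (nat_lit 4) (nat_lit 387) (nat_lit 335) (nat_lit 178))))))) (XT.nd (nat_lit 936) (nat_lit 532) (nat_lit 0) (XT.nd (nat_lit 468) (nat_lit 456) (nat_lit 0) (XT.nd (nat_lit 234) (nat_lit 76) (nat_lit 0) (XT.nd (nat_lit 78) (nat_lit 228) (nat_lit 0) (XT.lf (nat_lit 0) (nat_lit 33200968378) (nat_lit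 76) (nat_lit 63590858742) (nat_lit 152) (nat_lit 13286819342) (nat_lit 32) (nat_lit 5) (nat_lit 33) (nat_lit 5) (nat_lit 34) (nat_lit 4) (nat_lit 388) (nat_lit 335) (nat_lit 177)) (XT.nd (nat_lit 78) (nat_lit 152) (nat_lit 0) (XT.lf (nat_lit 0) (nat_lit 10257747866) (nat_lit 152) (nat_lit 23935802045) (nat_lit 76) (nat_lit 79828443629) (nat_lit 31) (nat_lit 5) (nat_lit 33) (nat_lit 5) (nat_lit 32) (nat_lit 5) (nat_lit 389) (nat_lit 335) (nat_lit 176)) (XT.lf (nat_lit 0) (nat_lit 32472320183) (nat_lit 152) (nat_lit 2566369161) (nat_lit 228) (nat_lit 83087644636) (nat_lit 29) (nat_lit 5) (nat_lit 31) (nat_lit 5) (nat_lit 32) (nat_lit 5) (nat_lit 390) (nat_lit 335) (nat_lit 175)))) (XT.nd (nat_lit 78) (nat_lit 76) (nat_lit 0) (XT.lf (nat_lit 0) (nat_lit 61947794532) (nat_lit 228) (nat_lit 30371191986) (nat_lit 76) (nat_lit 30072449433) (nat_lit 29) (nat_lit 5) (nat_lit 32) (nat_lit 5) (nat_lit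 30) (nat_lit 4) (nat_lit 391) (nat_lit 335) (nat_lit 174)) (XT.nd (nat_lit 78) (nat_lit 0) (nat_lit 0) (XT.lf (nat_lit 0) (nat_lit 28545073425) (nat_lit 76) (nat_lit 62143780600) (nat_lit 152) (nat_lit 36156614366) (nat_lit 28) (nat_lit 5) (nat_lit 29) (nat_lit 5) (nat_lit 30) (nat_lit 4) (nat_lit 392) (nat_lit 335) (nat_lit 173)) (XT.lf (nat_lit 0) (nat_lit 91459361066) (nat_lit 76) (nat_lit 29920739683) (nat_lit 152) (nat_lit 10116445299) (nat_lit 28) (nat_lit 5) (nat_lit 29) (nat_lit 5) (nat_lit 30) (nat_lit 4) (nat_lit 393) (nat_lit 335) (nat_lit 172))))) (XT.nd (nat_lit 234) (nat_lit 152) (nat_lit 0) (XT.nd (nat_lit 78) (nat_lit 76) (nat_lit 0) (XT.lf (nat_lit 0) (nat_lit 17080817050) (nat_lit 228) (nat_lit 114862879139) (nat_lit 76) (nat_lit 4402713787) (nat_lit 25) (nat_lit 5) (nat_lit 28) (nat_lit 5) (nat_lit 26) (nat_lit 4) (nat_lit 394) (nat_lit 335) (nat_lit 171)) (XT.nd (nat_lit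 78) (nat_lit 76) (nat_lit 0) (XT.lf (nat_lit 0) (nat_lit 46476462531) (nat_lit 228) (nat_lit 54604197130) (nat_lit 76) (nat_lit 40290890593) (nat_lit 25) (nat_lit 5) (nat_lit 28) (nat_lit 5) (nat_lit 26) (nat_lit 4) (nat_lit 395) (nat_lit 335) (nat_lit 170)) (XT.lf (nat_lit 0) (nat_lit 8951884979) (nat_lit 76) (nat_lit 68528655341) (nat_lit 152) (nat_lit 69160474976) (nat_lit 24) (nat_lit 5) (nat_lit 25) (nat_lit 5) (nat_lit 26) (nat_lit 4) (nat_lit 396) (nat_lit 335) (nat_lit 169)))) (XT.nd (nat_lit 78) (nat_lit 152) (nat_lit 0) (XT.lf (nat_lit 0) (nat_lit 77579488462) (nat_lit 76) (nat_lit 33378989612) (nat_lit 152) (nat_lit 41169292953) (nat_lit 24) (nat_lit 5) (nat_lit 25) (nat_lit 5) (nat_lit 26) (nat_lit 4) (nat_lit 397) (nat_lit 335) (nat_lit 168)) (XT.nd (nat_lit 78) (nat_lit 152) (nat_lit 0) (XT.lf (nat_lit 0) (nat_lit 146164343018) (nat_lit 152) (nat_lit 8307436481) (nat_lit 0)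 (nat_lit 3414383759) (nat_lit 24) (nat_lit 5) (nat_lit 26) (nat_lit 4) (nat_lit 24) (nat_lit 4) (nat_lit 398) (nat_lit 335) (nat_lit 167)) (XT.lf (nat_lit 0) (nat_lit 20133738508) (nat_lit 152) (nat_lit 101477668905) (nat_lit 76) (nat_lit 42228572691) (nat_lit 22) (nat_lit 5) (nat_lit 24) (nat_lit 5) (nat_lit 23) (nat_lit 4) (nat_lit 399) (nat_lit 335) (nat_lit 166)))))) (XT.nd (nat_lit 468) (nat_lit 304) (nat_lit 0) (XT.nd (nat_lit 234) (nat_lit 152) (nat_lit 0) (XT.nd (nat_lit 78) (nat_lit 76) (nat_lit 0) (XT.lf (nat_lit 0) (nat_lit 53330140864) (nat_lit 152) (nat_lit 33426828443) (nat_lit 76) (nat_lit 83317810848) (nat_lit 22) (nat_lit 5) (nat_lit 24) (nat_lit 5) (nat_lit 23) (nat_lit 4) (nat_lit 400) (nat_lit 335) (nat_lit 165)) (XT.nd (nat_lit 78) (nat_lit 0) (nat_lit 0) (XT.lf (nat_lit 0) (nat_lit 39282044317) (nat_lit 76) (nat_lit 49516668333) (nat_lit 152) (nat_lit 87791990283)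 (nat_lit 21) (nat_lit 5) (nat_lit 22) (nat_lit 5) (nat_lit 23) (nat_lit 4) (nat_lit 401) (nat_lit 335) (nat_lit 164)) (XT.lf (nat_lit 0) (nat_lit 116785112974) (nat_lit 76) (nat_lit 9820764131) (nat_lit 152) (nat_lit 56798286720) (nat_lit 21) (nat_lit 5) (nat_lit 22) (nat_lit 5) (nat_lit 23) (nat_lit 4) (nat_lit 402) (nat_lit 335) (nat_lit 163)))) (XT.nd (nat_lit 78) (nat_lit 76) (nat_lit 0) (XT.lf (nat_lit 0) (nat_lit 7340867109) (nat_lit 76) (nat_lit 159573664031) (nat_lit 76) (nat_lit 23613210224) (nat_lit 20) (nat_lit 4) (nat_lit 21) (nat_lit 5) (nat_lit 21) (nat_lit 4) (nat_lit 403) (nat_lit 335) (nat_lit 162)) (XT.nd (nat_lit 78) (nat_lit 0) (nat_lit 0) (XT.lf (nat_lit 0) (nat_lit 12178470775) (nat_lit 152) (nat_lit 110995986818) (nat_lit 76) (nat_lit 74758932047) (nat_lit 19) (nat_lit 5) (nat_lit 21) (nat_lit 5) (nat_lit 20) (nat_lit 4) (nat_lit 404) (nat_lit 335) (nat_lit 161))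 (XT.lf (nat_lit 0) (nat_lit 48965319178) (nat_lit 152) (nat_lit 35584279115) (nat_lit 76) (nat_lit 121140409991) (nat_lit 19) (nat_lit 5) (nat_lit 21) (nat_lit 5) (nat_lit 20) (nat_lit 4) (nat_lit 405) (nat_lit 335) (nat_lit 160))))) (XT.nd (nat_lit 234) (nat_lit 228) (nat_lit 0) (XT.nd (nat_lit 78) (nat_lit 0) (nat_lit 0) (XT.lf (nat_lit 0) (nat_lit 45037965075) (nat_lit 76) (nat_lit 43255896693) (nat_lit 152) (nat_lit 125505478646) (nat_lit 18) (nat_lit 5) (nat_lit 19) (nat_lit 5) (nat_lit 20) (nat_lit 4) (nat_lit 406) (nat_lit 335) (nat_lit 159)) (XT.nd (nat_lit 78) (nat_lit 0) (nat_lit 0) (XT.lf (nat_lit 0) (nat_lit 130202134798) (nat_lit 152) (nat_lit 91370308599) (nat_lit 0) (nat_lit 711030720) (nat_lit 18) (nat_lit 5) (nat_lit 20) (nat_lit 4) (nat_lit 18) (nat_lit 4) (nat_lit 407) (nat_lit 335) (nat_lit 158)) (XT.lf (nat_lit 0) (nat_lit 174914160135) (nat_lit 152) (nat_lit 10820276957)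 (nat_lit 0) (nat_lit 45421960609) (nat_lit 18) (nat_lit 5) (nat_lit 20) (nat_lit 4) (nat_lit 18) (nat_lit 4) (nat_lit 408) (nat_lit 335) (nat_lit 157)))) (XT.nd (nat_lit 156) (nat_lit 76) (nat_lit 0) (XT.nd (nat_lit 78) (nat_lit 76) (nat_lit 0) (XT.lf (nat_lit 0) (nat_lit 76194552677) (nat_lit 76) (nat_lit 146856107036) (nat_lit 76) (nat_lit 17362864226) (nat_lit 17) (nat_lit 4) (nat_lit 18) (nat_lit 5) (nat_lit 18) (nat_lit 4) (nat_lit 409) (nat_lit 335) (nat_lit 156)) (XT.lf (nat_lit 0) (nat_lit 22895110675) (nat_lit 152) (nat_lit 82559259528) (nat_lit 76) (nat_lit 144651546468) (nat_lit 16) (nat_lit 5) (nat_lit 18) (nat_lit 5) (nat_lit 17) (nat_lit 4) (nat_lit 410) (nat_lit 335) (nat_lit 155))) (XT.nd (nat_lit 78) (nat_lit 0) (nat_lit 0) (XT.lf (nat_lit 0) (nat_lit 2993263906) (nat_lit 76) (nat_lit 61635246634) (nat_lit 152) (nat_lit 195637885135) (nat_lit 15) (nat_lit 5) (nat_lit 16)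 (nat_lit 5) (nat_lit 17) (nat_lit 4) (nat_lit 411) (nat_lit 335) (nat_lit 154)) (XT.lf (nat_lit 0) (nat_lit 95688366286) (nat_lit 76) (nat_lit 14157706990) (nat_lit 152) (nat_lit 161018950810) (nat_lit 15) (nat_lit 5) (nat_lit 16) (nat_lit 5) (nat_lit 17) (nat_lit 4) (nat_lit 412) (nat_lit 335) (nat_lit 153))))))))
noncomputable def xc187 : XT := (XT.nd (nat_lit 41184) (nat_lit 0) (nat_lit 4256) (XT.nd (nat_lit 936) (nat_lit 152) (nat_lit 0) (XT.nd (nat_lit 468) (nat_lit 152) (nat_lit 0) (XT.nd (nat_lit 234) (nat_lit 152) (nat_lit 0) (XT.nd (nat_lit 78) (nat_lit 76) (nat_lit 0) (XT.lf (nat_lit 0) (nat_lit 157881128255) (nat_lit 152) (nat_lit 89533917981) (nat_lit 0) (nat_lit 34550707070) (nat_lit 15) (nat_lit 5) (nat_lit 17) (nat_lit 4) (nat_lit 15) (nat_lit 4) (nat_lit 413) (nat_lit 335) (nat_lit 152)) (XT.nd (nat_lit 78) (nat_lit 0) (nat_lit 0) (XT.lf (nat_lit 0) (nat_lit 162859691) (nat_lit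 76) (nat_lit 208389079464) (nat_lit 76) (nat_lit 85057879765) (nat_lit 14) (nat_lit 4) (nat_lit 15) (nat_lit 5) (nat_lit 15) (nat_lit 4) (nat_lit 414) (nat_lit 335) (nat_lit 151)) (XT.lf (nat_lit 0) (nat_lit 97451693248) (nat_lit 76) (nat_lit 165820275933) (nat_lit 76) (nat_lit 42488334791) (nat_lit 14) (nat_lit 4) (nat_lit 15) (nat_lit 5) (nat_lit 15) (nat_lit 4) (nat_lit 415) (nat_lit 335) (nat_lit 150)))) (XT.nd (nat_lit 78) (nat_lit 76) (nat_lit 0) (XT.lf (nat_lit 0) (nat_lit 2138361805) (nat_lit 152) (nat_lit 118949005575) (nat_lit 76) (nat_lit 197429251096) (nat_lit 13) (nat_lit 5) (nat_lit 15) (nat_lit 5) (nat_lit 14) (nat_lit 4) (nat_lit 416) (nat_lit 335) (nat_lit 149)) (XT.nd (nat_lit 78) (nat_lit 76) (nat_lit 0) (XT.lf (nat_lit 0) (nat_lit 47567933403) (nat_lit 152) (nat_lit 25819056310) (nat_lit 76) (nat_lit 258488961221) (nat_lit 13) (nat_lit 5) (nat_lit 15) (nat_lit 5) (nat_lit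 14) (nat_lit 4) (nat_lit 417) (nat_lit 335) (nat_lit 148)) (XT.lf (nat_lit 0) (nat_lit 74345869135) (nat_lit 76) (nat_lit 22083315941) (nat_lit 152) (nat_lit 249416054935) (nat_lit 12) (nat_lit 5) (nat_lit 13) (nat_lit 5) (nat_lit 14) (nat_lit 4) (nat_lit 418) (nat_lit 335) (nat_lit 147))))) (XT.nd (nat_lit 234) (nat_lit 76) (nat_lit 0) (XT.nd (nat_lit 78) (nat_lit 76) (nat_lit 0) (XT.lf (nat_lit 0) (nat_lit 148673643222) (nat_lit 152) (nat_lit 180580195458) (nat_lit 0) (nat_lit 31212147736) (nat_lit 12) (nat_lit 5) (nat_lit 14) (nat_lit 4) (nat_lit 12) (nat_lit 4) (nat_lit 419) (nat_lit 335) (nat_lit 146)) (XT.nd (nat_lit 78) (nat_lit 76) (nat_lit 0) (XT.lf (nat_lit 0) (nat_lit 203891827871) (nat_lit 152) (nat_lit 85478088044) (nat_lit 0) (nat_lit 86429779110) (nat_lit 12) (nat_lit 5) (nat_lit 14) (nat_lit 4) (nat_lit 12) (nat_lit 4) (nat_lit 420) (nat_lit 335) (nat_lit 145)) (XT.lf (nat_lit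 0) (nat_lit 14853574552) (nat_lit 76) (nat_lit 247248759817) (nat_lit 76) (nat_lit 129786184127) (nat_lit 11) (nat_lit 4) (nat_lit 12) (nat_lit 5) (nat_lit 12) (nat_lit 4) (nat_lit 421) (nat_lit 335) (nat_lit 144)))) (XT.nd (nat_lit 78) (nat_lit 76) (nat_lit 0) (XT.lf (nat_lit 0) (nat_lit 123168484585) (nat_lit 76) (nat_lit 201502009864) (nat_lit 76) (nat_lit 84038932336) (nat_lit 11) (nat_lit 4) (nat_lit 12) (nat_lit 5) (nat_lit 12) (nat_lit 4) (nat_lit 422) (nat_lit 335) (nat_lit 143)) (XT.nd (nat_lit 78) (nat_lit 76) (nat_lit 0) (XT.lf (nat_lit 0) (nat_lit 236898243077) (nat_lit 76) (nat_lit 153468358005) (nat_lit 76) (nat_lit 36004802536) (nat_lit 11) (nat_lit 4) (nat_lit 12) (nat_lit 5) (nat_lit 12) (nat_lit 4) (nat_lit 423) (nat_lit 335) (nat_lit 142)) (XT.lf (nat_lit 0) (nat_lit 13968703815) (nat_lit 152) (nat_lit 88828167827) (nat_lit 76) (nat_lit 342108364593) (nat_lit 10) (nat_lit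 5) (nat_lit 12) (nat_lit 5) (nat_lit 11) (nat_lit 4) (nat_lit 424) (nat_lit 335) (nat_lit 141)))))) (XT.nd (nat_lit 468) (nat_lit 0) (nat_lit 0) (XT.nd (nat_lit 234) (nat_lit 76) (nat_lit 0) (XT.nd (nat_lit 78) (nat_lit 0) (nat_lit 0) (XT.lf (nat_lit 0) (nat_lit 16795567136) (nat_lit 76) (nat_lit 48697121298) (nat_lit 152) (nat_lit 398830469943) (nat_lit 9) (nat_lit 5) (nat_lit 10) (nat_lit 5) (nat_lit 11) (nat_lit 4) (nat_lit 425) (nat_lit 335) (nat_lit 140)) (XT.nd (nat_lit 78) (nat_lit 0) (nat_lit 0) (XT.lf (nat_lit 0) (nat_lit 121248040241) (nat_lit 152) (nat_lit 354004430192) (nat_lit 0) (nat_lit 9376747843) (nat_lit 9) (nat_lit 5) (nat_lit 11) (nat_lit 4) (nat_lit 9) (nat_lit 4) (nat_lit 426) (nat_lit 335) (nat_lit 139)) (XT.lf (nat_lit 0) (nat_lit 180589069191) (nat_lit 152) (nat_lit 256604214229) (nat_lit 0) (nat_lit 68717402314) (nat_lit 9) (nat_lit 5) (nat_lit 11) (nat_lit 4)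 (nat_lit 9) (nat_lit 4) (nat_lit 427) (nat_lit 335) (nat_lit 138)))) (XT.nd (nat_lit 78) (nat_lit 76) (nat_lit 0) (XT.lf (nat_lit 0) (nat_lit 242896764912) (nat_lit 152) (nat_lit 154334739541) (nat_lit 0) (nat_lit 131024741388) (nat_lit 9) (nat_lit 5) (nat_lit 11) (nat_lit 4) (nat_lit 9) (nat_lit 4) (nat_lit 428) (nat_lit 335) (nat_lit 137)) (XT.nd (nat_lit 78) (nat_lit 76) (nat_lit 0) (XT.lf (nat_lit 0) (nat_lit 308319479059) (nat_lit 152) (nat_lit 46952507379) (nat_lit 0) (nat_lit 196447115872) (nat_lit 9) (nat_lit 5) (nat_lit 11) (nat_lit 4) (nat_lit 9) (nat_lit 4) (nat_lit 429) (nat_lit 335) (nat_lit 136)) (XT.lf (nat_lit 0) (nat_lit 67973738369) (nat_lit 76) (nat_lit 310100502184) (nat_lit 76) (nat_lit 198227815507) (nat_lit 8) (nat_lit 4) (nat_lit 9) (nat_lit 5) (nat_lit 9) (nat_lit 4) (nat_lit 430) (nat_lit 335) (nat_lit 135))))) (XT.nd (nat_lit 39468) (nat_lit 0) (nat_lit 7448)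 (XT.nd (nat_lit 78) (nat_lit 0) (nat_lit 0) (XT.lf (nat_lit 0) (nat_lit 190275710291) (nat_lit 76) (nat_lit 261835850485) (nat_lit 76) (nat_lit 149962855724) (nat_lit 8) (nat_lit 4) (nat_lit 9) (nat_lit 5) (nat_lit 9) (nat_lit 4) (nat_lit 431) (nat_lit 335) (nat_lit 134)) (XT.nd (nat_lit 78) (nat_lit 0) (nat_lit 0) (XT.lf (nat_lit 0) (nat_lit 318692141618) (nat_lit 76) (nat_lit 211158278938) (nat_lit 76) (nat_lit 99284990763) (nat_lit 8) (nat_lit 4) (nat_lit 9) (nat_lit 5) (nat_lit 9) (nat_lit 4) (nat_lit 432) (nat_lit 335) (nat_lit 133)) (XT.lf (nat_lit 0) (nat_lit 453528785759) (nat_lit 76) (nat_lit 157947126657) (nat_lit 76) (nat_lit 46073559040) (nat_lit 8) (nat_lit 4) (nat_lit 9) (nat_lit 5) (nat_lit 9) (nat_lit 4) (nat_lit 433) (nat_lit 335) (nat_lit 132)))) (XT.nd (nat_lit 156) (nat_lit 0) (nat_lit 76) (XT.nd (nat_lit 78) (nat_lit 0) (nat_lit 0) (XT.lf (nat_lit 0) (nat_lit 1244156502)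 (nat_lit 836) (nat_lit 5294165910) (nat_lit 836) (nat_lit 5294165910) (nat_lit 106) (nat_lit 3) (nat_lit 117) (nat_lit 3) (nat_lit 117) (nat_lit 5) (nat_lit 336) (nat_lit 336) (nat_lit 228)) (XT.lf (nat_lit 76) (nat_lit 743455518) (nat_lit 0) (nat_lit 1932780380) (nat_lit 836) (nat_lit 21573980518) (nat_lit 107) (nat_lit 5) (nat_lit 106) (nat_lit 3) (nat_lit 117) (nat_lit 5) (nat_lit 337) (nat_lit 336) (nat_lit 227))) (XT.nd (nat_lit 78) (nat_lit 0) (nat_lit 0) (XT.lf (nat_lit 0) (nat_lit 3201010181) (nat_lit 760) (nat_lit 12006159461) (nat_lit 836) (nat_lit 9641182102) (nat_lit 107) (nat_lit 5) (nat_lit 117) (nat_lit 5) (nat_lit 118) (nat_lit 5) (nat_lit 338) (nat_lit 336) (nat_lit 226)) (XT.lf (nat_lit 76) (nat_lit 34714808) (nat_lit 0) (nat_lit 3742570421) (nat_lit 836) (nat_lit 21697851536) (nat_lit 108) (nat_lit 5) (nat_lit 107) (nat_lit 5) (nat_lit 118) (nat_lit 5) (nat_lit 339) (nat_lit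 336) (nat_lit 225))))))) (XT.nd (nat_lit 936) (nat_lit 2128) (nat_lit 0) (XT.nd (nat_lit 468) (nat_lit 1216) (nat_lit 0) (XT.nd (nat_lit 234) (nat_lit 0) (nat_lit 76) (XT.nd (nat_lit 78) (nat_lit 0) (nat_lit 0) (XT.lf (nat_lit 0) (nat_lit 4711892503) (nat_lit 760) (nat_lit 13165977361) (nat_lit 836) (nat_lit 8238920989) (nat_lit 108) (nat_lit 5) (nat_lit 118) (nat_lit 5) (nat_lit 119) (nat_lit 5) (nat_lit 340) (nat_lit 336) (nat_lit 224)) (XT.nd (nat_lit 78) (nat_lit 0) (nat_lit 76) (XT.lf (nat_lit 0) (nat_lit 5748243598) (nat_lit 760) (nat_lit 343446865) (nat_lit 836) (nat_lit 20696091980) (nat_lit 108) (nat_lit 5) (nat_lit 118) (nat_lit 5) (nat_lit 119) (nat_lit 5) (nat_lit 341) (nat_lit 336) (nat_lit 223)) (XT.lf (nat_lit 0) (nat_lit 7143530840) (nat_lit 760) (nat_lit 14033849621) (nat_lit 836) (nat_lit 6299592429) (nat_lit 109) (nat_lit 5) (nat_lit 119) (nat_lit 5) (nat_lit 120) (nat_lit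 5) (nat_lit 342) (nat_lit 336) (nat_lit 222)))) (XT.nd (nat_lit 78) (nat_lit 0) (nat_lit 76) (XT.lf (nat_lit 0) (nat_lit 8708572759) (nat_lit 760) (nat_lit 373682283) (nat_lit 836) (nat_lit 19113373262) (nat_lit 109) (nat_lit 5) (nat_lit 119) (nat_lit 5) (nat_lit 120) (nat_lit 5) (nat_lit 343) (nat_lit 336) (nat_lit 221)) (XT.nd (nat_lit 78) (nat_lit 0) (nat_lit 0) (XT.lf (nat_lit 0) (nat_lit 10631800217) (nat_lit 760) (nat_lit 14572308545) (nat_lit 836) (nat_lit 3732115777) (nat_lit 110) (nat_lit 5) (nat_lit 120) (nat_lit 5) (nat_lit 121) (nat_lit 5) (nat_lit 344) (nat_lit 336) (nat_lit 220)) (XT.lf (nat_lit 0) (nat_lit 12801219345) (nat_lit 760) (nat_lit 15512857) (nat_lit 836) (nat_lit 16889621369) (nat_lit 110) (nat_lit 5) (nat_lit 120) (nat_lit 5) (nat_lit 121) (nat_lit 5) (nat_lit 345) (nat_lit 336) (nat_lit 219))))) (XT.nd (nat_lit 234) (nat_lit 684) (nat_lit 0) (XT.nd (nat_lit 78)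 (nat_lit 760) (nat_lit 0) (XT.lf (nat_lit 0) (nat_lit 15327296142) (nat_lit 760) (nat_lit 14740245789) (nat_lit 76) (nat_lit 435042072) (nat_lit 111) (nat_lit 5) (nat_lit 121) (nat_lit 5) (nat_lit 112) (nat_lit 5) (nat_lit 346) (nat_lit 336) (nat_lit 218)) (XT.nd (nat_lit 78) (nat_lit 0) (nat_lit 0) (XT.lf (nat_lit 0) (nat_lit 802230885) (nat_lit 760) (nat_lit 17395497489) (nat_lit 836) (nat_lit 13129999084) (nat_lit 101) (nat_lit 5) (nat_lit 111) (nat_lit 5) (nat_lit 112) (nat_lit 5) (nat_lit 347) (nat_lit 336) (nat_lit 217)) (XT.lf (nat_lit 0) (nat_lit 17629310984) (nat_lit 760) (nat_lit 3827317912) (nat_lit 836) (nat_lit 10725255742) (nat_lit 101) (nat_lit 5) (nat_lit 111) (nat_lit 5) (nat_lit 112) (nat_lit 5) (nat_lit 348) (nat_lit 336) (nat_lit 216)))) (XT.nd (nat_lit 78) (nat_lit 304) (nat_lit 0) (XT.lf (nat_lit 0) (nat_lit 2119872263) (nat_lit 380) (nat_lit 22949916212) (nat_lit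 456) (nat_lit 7999399202) (nat_lit 96) (nat_lit 5) (nat_lit 101) (nat_lit 5) (nat_lit 102) (nat_lit 5) (nat_lit 349) (nat_lit 336) (nat_lit 215)) (XT.nd (nat_lit 78) (nat_lit 304) (nat_lit 0) (XT.lf (nat_lit 0) (nat_lit 20062126536) (nat_lit 380) (nat_lit 9105354393) (nat_lit 456) (nat_lit 4818184718) (nat_lit 96) (nat_lit 5) (nat_lit 101) (nat_lit 5) (nat_lit 102) (nat_lit 5) (nat_lit 350) (nat_lit 336) (nat_lit 214)) (XT.lf (nat_lit 0) (nat_lit 3992266088) (nat_lit 304) (nat_lit 29620817896) (nat_lit 380) (nat_lit 1327735590) (nat_lit 92) (nat_lit 5) (nat_lit 96) (nat_lit 5) (nat_lit 97) (nat_lit 5) (nat_lit 351) (nat_lit 336) (nat_lit 213)))))) (XT.nd (nat_lit 468) (nat_lit 1064) (nat_lit 0) (XT.nd (nat_lit 234) (nat_lit 608) (nat_lit 0) (XT.nd (nat_lit 78) (nat_lit 380) (nat_lit 0) (XT.lf (nat_lit 0) (nat_lit 2647323128) (nat_lit 380) (nat_lit 12838616023) (nat_lit 76) (nat_lit 20436725888)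 (nat_lit 91) (nat_lit 5) (nat_lit 96) (nat_lit 5) (nat_lit 92) (nat_lit 5) (nat_lit 352) (nat_lit 336) (nat_lit 212)) (XT.nd (nat_lit 78) (nat_lit 0) (nat_lit 0) (XT.lf (nat_lit 0) (nat_lit 6354329635) (nat_lit 380) (nat_lit 517543609) (nat_lit 456) (nat_lit 30075876170) (nat_lit 86) (nat_lit 5) (nat_lit 91) (nat_lit 5) (nat_lit 92) (nat_lit 5) (nat_lit 353) (nat_lit 336) (nat_lit 211)) (XT.lf (nat_lit 0) (nat_lit 11762212424) (nat_lit 456) (nat_lit 11305652973) (nat_lit 76) (nat_lit 14933497295) (nat_lit 86) (nat_lit 5) (nat_lit 92) (nat_lit 5) (nat_lit 87) (nat_lit 5) (nat_lit 354) (nat_lit 336) (nat_lit 210)))) (XT.nd (nat_lit 78) (nat_lit 304) (nat_lit 0) (XT.lf (nat_lit 0) (nat_lit 9229398053) (nat_lit 304) (nat_lit 7816695181) (nat_lit 380) (nat_lit 22054114797) (nat_lit 82) (nat_lit 5) (nat_lit 86) (nat_lit 5) (nat_lit 87) (nat_lit 5) (nat_lit 355) (nat_lit 336) (nat_lit 209)) (XT.nd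 (nat_lit 78) (nat_lit 304) (nat_lit 0) (XT.lf (nat_lit 0) (nat_lit 22913295586) (nat_lit 380) (nat_lit 9195951825) (nat_lit 76) (nat_lit 8128794356) (nat_lit 82) (nat_lit 5) (nat_lit 87) (nat_lit 5) (nat_lit 83) (nat_lit 5) (nat_lit 356) (nat_lit 336) (nat_lit 208)) (XT.lf (nat_lit 0) (nat_lit 12789940439) (nat_lit 304) (nat_lit 16608454909) (nat_lit 380) (nat_lit 12018147363) (nat_lit 78) (nat_lit 5) (nat_lit 82) (nat_lit 5) (nat_lit 83) (nat_lit 5) (nat_lit 357) (nat_lit 336) (nat_lit 207))))) (XT.nd (nat_lit 234) (nat_lit 760) (nat_lit 0) (XT.nd (nat_lit 78) (nat_lit 304) (nat_lit 0) (XT.lf (nat_lit 0) (nat_lit 36190529071) (nat_lit 304) (nat_lit 169763342) (nat_lit 380) (nat_lit 6286051444) (nat_lit 78) (nat_lit 5) (nat_lit 82) (nat_lit 5) (nat_lit 83) (nat_lit 5) (nat_lit 358) (nat_lit 336) (nat_lit 206)) (XT.nd (nat_lit 78) (nat_lit 0) (nat_lit 0) (XT.lf (nat_lit 0) (nat_lit 280669609)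 (nat_lit 304) (nat_lit 26815459524) (nat_lit 76) (nat_lit 16814743523) (nat_lit 74) (nat_lit 5) (nat_lit 78) (nat_lit 5) (nat_lit 75) (nat_lit 5) (nat_lit 359) (nat_lit 336) (nat_lit 205)) (XT.lf (nat_lit 0) (nat_lit 7075364617) (nat_lit 304) (nat_lit 3296314483) (nat_lit 76) (nat_lit 34856253734) (nat_lit 74) (nat_lit 5) (nat_lit 78) (nat_lit 5) (nat_lit 75) (nat_lit 5) (nat_lit 360) (nat_lit 336) (nat_lit 204)))) (XT.nd (nat_lit 156) (nat_lit 228) (nat_lit 0) (XT.nd (nat_lit 78) (nat_lit 228) (nat_lit 0) (XT.lf (nat_lit 0) (nat_lit 14669888106) (nat_lit 380) (nat_lit 24609093261) (nat_lit 76) (nat_lit 7308861836) (nat_lit 70) (nat_lit 5) (nat_lit 75) (nat_lit 5) (nat_lit 71) (nat_lit 5) (nat_lit 361) (nat_lit 336) (nat_lit 203)) (XT.lf (nat_lit 0) (nat_lit 459053256) (nat_lit 228) (nat_lit 22416212887) (nat_lit 304) (nat_lit 25128928309) (nat_lit 67) (nat_lit 5) (nat_lit 70) (nat_lit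 5) (nat_lit 71) (nat_lit 5) (nat_lit 362) (nat_lit 336) (nat_lit 202))) (XT.nd (nat_lit 78) (nat_lit 228) (nat_lit 0) (XT.lf (nat_lit 0) (nat_lit 27631292726) (nat_lit 228) (nat_lit 4273657225) (nat_lit 304) (nat_lit 17565713164) (nat_lit 67) (nat_lit 5) (nat_lit 70) (nat_lit 5) (nat_lit 71) (nat_lit 5) (nat_lit 363) (nat_lit 336) (nat_lit 201)) (XT.lf (nat_lit 0) (nat_lit 5079955717) (nat_lit 228) (nat_lit 36613555505) (nat_lit 304) (nat_lit 9301575942) (nat_lit 64) (nat_lit 5) (nat_lit 67) (nat_lit 5) (nat_lit 68) (nat_lit 5) (nat_lit 364) (nat_lit 336) (nat_lit 200))))))))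
noncomputable def xc188 : XT := (XT.nd (nat_lit 1872) (nat_lit 1368) (nat_lit 0) (XT.nd (nat_lit 936) (nat_lit 988) (nat_lit 0) (XT.nd (nat_lit 468) (nat_lit 684) (nat_lit 0) (XT.nd (nat_lit 234) (nat_lit 380) (nat_lit 0) (XT.nd (nat_lit 78) (nat_lit 304) (nat_lit 0) (XT.lf (nat_lit 0) (nat_lit 34027515456) (nat_lit 228) (nat_lit 18380229860) (nat_lit 304) (nat_lit 166176399) (nat_lit 64) (nat_lit 5) (nat_lit 67) (nat_lit 5) (nat_lit 68) (nat_lit 5) (nat_lit 365) (nat_lit 336) (nat_lit 199)) (XT.nd (nat_lit 78) (nat_lit 0) (nat_lit 0) (XT.lf (nat_lit 0) (nat_lit 9300765690) (nat_lit 304) (nat_lit 43861281448) (nat_lit 76) (nat_lit 1053470780) (nat_lit 60) (nat_lit 5) (nat_lit 64) (nat_lit 5) (nat_lit 61) (nat_lit 5) (nat_lit 366) (nat_lit 336) (nat_lit 198)) (XT.lf (nat_lit 0) (nat_lit 19853609383) (nat_lit 304) (nat_lit 14892409129) (nat_lit 76) (nat_lit 21162133582) (nat_lit 60) (nat_lit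 5) (nat_lit 64) (nat_lit 5) (nat_lit 61) (nat_lit 5) (nat_lit 367) (nat_lit 336) (nat_lit 197)))) (XT.nd (nat_lit 78) (nat_lit 152) (nat_lit 0) (XT.lf (nat_lit 0) (nat_lit 16034755310) (nat_lit 228) (nat_lit 15147384993) (nat_lit 304) (nat_lit 26490876689) (nat_lit 57) (nat_lit 5) (nat_lit 60) (nat_lit 5) (nat_lit 61) (nat_lit 5) (nat_lit 368) (nat_lit 336) (nat_lit 196)) (XT.nd (nat_lit 78) (nat_lit 152) (nat_lit 0) (XT.lf (nat_lit 0) (nat_lit 43415977374) (nat_lit 304) (nat_lit 10580542726) (nat_lit 76) (nat_lit 5512662260) (nat_lit 57) (nat_lit 5) (nat_lit 61) (nat_lit 5) (nat_lit 58) (nat_lit 5) (nat_lit 369) (nat_lit 336) (nat_lit 195)) (XT.lf (nat_lit 0) (nat_lit 22498595822) (nat_lit 152) (nat_lit 34360340980) (nat_lit 228) (nat_lit 4548348817) (nat_lit 55) (nat_lit 5) (nat_lit 57) (nat_lit 5) (nat_lit 58) (nat_lit 5) (nat_lit 370) (nat_lit 336) (nat_lit 194))))) (XT.nd (nat_lit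 234) (nat_lit 380) (nat_lit 0) (XT.nd (nat_lit 78) (nat_lit 228) (nat_lit 0) (XT.lf (nat_lit 0) (nat_lit 7511330751) (nat_lit 228) (nat_lit 5916759301) (nat_lit 76) (nat_lit 49957293262) (nat_lit 54) (nat_lit 5) (nat_lit 57) (nat_lit 5) (nat_lit 55) (nat_lit 5) (nat_lit 371) (nat_lit 336) (nat_lit 193)) (XT.nd (nat_lit 78) (nat_lit 0) (nat_lit 0) (XT.lf (nat_lit 0) (nat_lit 20623437129) (nat_lit 304) (nat_lit 35983640745) (nat_lit 76) (nat_lit 8821465998) (nat_lit 51) (nat_lit 5) (nat_lit 55) (nat_lit 5) (nat_lit 52) (nat_lit 5) (nat_lit 372) (nat_lit 336) (nat_lit 192)) (XT.lf (nat_lit 0) (nat_lit 34711125219) (nat_lit 304) (nat_lit 1013703816) (nat_lit 76) (nat_lit 31833035546) (nat_lit 51) (nat_lit 5) (nat_lit 55) (nat_lit 5) (nat_lit 52) (nat_lit 5) (nat_lit 373) (nat_lit 336) (nat_lit 191)))) (XT.nd (nat_lit 78) (nat_lit 228) (nat_lit 0) (XT.lf (nat_lit 0) (nat_lit 36882198826) (nat_lit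 152) (nat_lit 13194926624) (nat_lit 228) (nat_lit 19687830389) (nat_lit 49) (nat_lit 5) (nat_lit 51) (nat_lit 5) (nat_lit 52) (nat_lit 5) (nat_lit 374) (nat_lit 336) (nat_lit 190)) (XT.nd (nat_lit 78) (nat_lit 76) (nat_lit 0) (XT.lf (nat_lit 0) (nat_lit 4607376702) (nat_lit 152) (nat_lit 61854886135) (nat_lit 228) (nat_lit 5607597821) (nat_lit 47) (nat_lit 5) (nat_lit 49) (nat_lit 5) (nat_lit 50) (nat_lit 5) (nat_lit 375) (nat_lit 336) (nat_lit 189)) (XT.lf (nat_lit 0) (nat_lit 9663394709) (nat_lit 228) (nat_lit 29720281395) (nat_lit 76) (nat_lit 35060148817) (nat_lit 46) (nat_lit 5) (nat_lit 49) (nat_lit 5) (nat_lit 47) (nat_lit 5) (nat_lit 376) (nat_lit 336) (nat_lit 188)))))) (XT.nd (nat_lit 468) (nat_lit 456) (nat_lit 0) (XT.nd (nat_lit 234) (nat_lit 228) (nat_lit 0) (XT.nd (nat_lit 78) (nat_lit 152) (nat_lit 0) (XT.lf (nat_lit 0) (nat_lit 10138715765) (nat_lit 152) (nat_lit 15527285082)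 (nat_lit 228) (nat_lit 51258065096) (nat_lit 44) (nat_lit 5) (nat_lit 46) (nat_lit 5) (nat_lit 47) (nat_lit 5) (nat_lit 377) (nat_lit 336) (nat_lit 187)) (XT.nd (nat_lit 78) (nat_lit 152) (nat_lit 0) (XT.lf (nat_lit 0) (nat_lit 43127225118) (nat_lit 228) (nat_lit 26640497633) (nat_lit 76) (nat_lit 9727672578) (nat_lit 44) (nat_lit 5) (nat_lit 47) (nat_lit 5) (nat_lit 45) (nat_lit 5) (nat_lit 378) (nat_lit 336) (nat_lit 186)) (XT.lf (nat_lit 0) (nat_lit 15758652295) (nat_lit 152) (nat_lit 46201769516) (nat_lit 228) (nat_lit 20209924484) (nat_lit 42) (nat_lit 5) (nat_lit 44) (nat_lit 5) (nat_lit 45) (nat_lit 5) (nat_lit 379) (nat_lit 336) (nat_lit 185)))) (XT.nd (nat_lit 78) (nat_lit 228) (nat_lit 0) (XT.lf (nat_lit 0) (nat_lit 61199927524) (nat_lit 152) (nat_lit 20984886316) (nat_lit 228) (nat_lit 2771754833) (nat_lit 42) (nat_lit 5) (nat_lit 44) (nat_lit 5) (nat_lit 45) (nat_lit 5) (nat_lit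 380) (nat_lit 336) (nat_lit 184)) (XT.nd (nat_lit 78) (nat_lit 0) (nat_lit 0) (XT.lf (nat_lit 0) (nat_lit 15469889036) (nat_lit 228) (nat_lit 66475313379) (nat_lit 76) (nat_lit 5903326041) (nat_lit 39) (nat_lit 5) (nat_lit 42) (nat_lit 5) (nat_lit 40) (nat_lit 5) (nat_lit 381) (nat_lit 336) (nat_lit 183)) (XT.lf (nat_lit 0) (nat_lit 35281841798) (nat_lit 228) (nat_lit 21679348962) (nat_lit 76) (nat_lit 33884055297) (nat_lit 39) (nat_lit 5) (nat_lit 42) (nat_lit 5) (nat_lit 40) (nat_lit 5) (nat_lit 382) (nat_lit 336) (nat_lit 182))))) (XT.nd (nat_lit 234) (nat_lit 152) (nat_lit 0) (XT.nd (nat_lit 78) (nat_lit 152) (nat_lit 0) (XT.lf (nat_lit 0) (nat_lit 26192182726) (nat_lit 152) (nat_lit 30299652863) (nat_lit 228) (nat_lit 37479592306) (nat_lit 37) (nat_lit 5) (nat_lit 39) (nat_lit 5) (nat_lit 40) (nat_lit 5) (nat_lit 383) (nat_lit 336) (nat_lit 181)) (XT.nd (nat_lit 78) (nat_lit 152) (nat_lit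 0) (XT.lf (nat_lit 0) (nat_lit 77207445711) (nat_lit 152) (nat_lit 1920575507) (nat_lit 228) (nat_lit 18107613499) (nat_lit 37) (nat_lit 5) (nat_lit 39) (nat_lit 5) (nat_lit 40) (nat_lit 5) (nat_lit 384) (nat_lit 336) (nat_lit 180)) (XT.lf (nat_lit 0) (nat_lit 3088886417) (nat_lit 152) (nat_lit 70013400506) (nat_lit 76) (nat_lit 27512652722) (nat_lit 35) (nat_lit 5) (nat_lit 37) (nat_lit 5) (nat_lit 36) (nat_lit 5) (nat_lit 385) (nat_lit 336) (nat_lit 179)))) (XT.nd (nat_lit 78) (nat_lit 152) (nat_lit 0) (XT.lf (nat_lit 0) (nat_lit 25111511346) (nat_lit 152) (nat_lit 20024500500) (nat_lit 76) (nat_lit 58993614372) (nat_lit 35) (nat_lit 5) (nat_lit 37) (nat_lit 5) (nat_lit 36) (nat_lit 5) (nat_lit 386) (nat_lit 336) (nat_lit 178)) (XT.nd (nat_lit 78) (nat_lit 0) (nat_lit 0) (XT.lf (nat_lit 0) (nat_lit 33534839452) (nat_lit 152) (nat_lit 15222669664) (nat_lit 228) (nat_lit 59036426334) (nat_lit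 33) (nat_lit 5) (nat_lit 35) (nat_lit 5) (nat_lit 36) (nat_lit 5) (nat_lit 387) (nat_lit 336) (nat_lit 177)) (XT.lf (nat_lit 0) (nat_lit 74181885878) (nat_lit 228) (nat_lit 21417767537) (nat_lit 76) (nat_lit 16012003167) (nat_lit 33) (nat_lit 5) (nat_lit 36) (nat_lit 5) (nat_lit 34) (nat_lit 4) (nat_lit 388) (nat_lit 336) (nat_lit 176))))))) (XT.nd (nat_lit 936) (nat_lit 532) (nat_lit 0) (XT.nd (nat_lit 468) (nat_lit 456) (nat_lit 0) (XT.nd (nat_lit 234) (nat_lit 76) (nat_lit 0) (XT.nd (nat_lit 78) (nat_lit 228) (nat_lit 0) (XT.lf (nat_lit 0) (nat_lit 34931883407) (nat_lit 76) (nat_lit 66739278392) (nat_lit 152) (nat_lit 13909418329) (nat_lit 32) (nat_lit 5) (nat_lit 33) (nat_lit 5) (nat_lit 34) (nat_lit 4) (nat_lit 389) (nat_lit 336) (nat_lit 175)) (XT.nd (nat_lit 78) (nat_lit 152) (nat_lit 0) (XT.lf (nat_lit 0) (nat_lit 10809117141) (nat_lit 152) (nat_lit 25063817330) (nat_lit 76) (nat_lit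 83848224228) (nat_lit 31) (nat_lit 5) (nat_lit 33) (nat_lit 5) (nat_lit 32) (nat_lit 5) (nat_lit 390) (nat_lit 336) (nat_lit 174)) (XT.lf (nat_lit 0) (nat_lit 34163601738) (nat_lit 152) (nat_lit 2664727934) (nat_lit 228) (nat_lit 87202425788) (nat_lit 29) (nat_lit 5) (nat_lit 31) (nat_lit 5) (nat_lit 32) (nat_lit 5) (nat_lit 391) (nat_lit 336) (nat_lit 173)))) (XT.nd (nat_lit 78) (nat_lit 76) (nat_lit 0) (XT.lf (nat_lit 0) (nat_lit 65081540082) (nat_lit 228) (nat_lit 31823948718) (nat_lit 76) (nat_lit 31603691704) (nat_lit 29) (nat_lit 5) (nat_lit 32) (nat_lit 5) (nat_lit 30) (nat_lit 4) (nat_lit 392) (nat_lit 336) (nat_lit 172)) (XT.nd (nat_lit 78) (nat_lit 0) (nat_lit 0) (XT.lf (nat_lit 0) (nat_lit 30037068628) (nat_lit 76) (nat_lit 65221863490) (nat_lit 152) (nat_lit 37927018920) (nat_lit 28) (nat_lit 5) (nat_lit 29) (nat_lit 5) (nat_lit 30) (nat_lit 4) (nat_lit 393) (nat_lit 336) (nat_lit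 171)) (XT.lf (nat_lit 0) (nat_lit 96093987720) (nat_lit 76) (nat_lit 31389056534) (nat_lit 152) (nat_lit 10586623598) (nat_lit 28) (nat_lit 5) (nat_lit 29) (nat_lit 5) (nat_lit 30) (nat_lit 4) (nat_lit 394) (nat_lit 336) (nat_lit 170))))) (XT.nd (nat_lit 234) (nat_lit 152) (nat_lit 0) (XT.nd (nat_lit 78) (nat_lit 76) (nat_lit 0) (XT.lf (nat_lit 0) (nat_lit 17969119504) (nat_lit 228) (nat_lit 120542966186) (nat_lit 76) (nat_lit 4649923928) (nat_lit 25) (nat_lit 5) (nat_lit 28) (nat_lit 5) (nat_lit 26) (nat_lit 4) (nat_lit 395) (nat_lit 336) (nat_lit 169)) (XT.nd (nat_lit 78) (nat_lit 76) (nat_lit 0) (XT.lf (nat_lit 0) (nat_lit 48832915754) (nat_lit 228) (nat_lit 57274352786) (nat_lit 76) (nat_lit 42331220314) (nat_lit 25) (nat_lit 5) (nat_lit 28) (nat_lit 5) (nat_lit 26) (nat_lit 4) (nat_lit 396) (nat_lit 336) (nat_lit 168)) (XT.lf (nat_lit 0) (nat_lit 9458564812) (nat_lit 76) (nat_lit 71928001297)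 (nat_lit 152) (nat_lit 72584892957) (nat_lit 24) (nat_lit 5) (nat_lit 25) (nat_lit 5) (nat_lit 26) (nat_lit 4) (nat_lit 397) (nat_lit 336) (nat_lit 167)))) (XT.nd (nat_lit 78) (nat_lit 152) (nat_lit 0) (XT.lf (nat_lit 0) (nat_lit 81514734870) (nat_lit 76) (nat_lit 35022142130) (nat_lit 152) (nat_lit 43195752108) (nat_lit 24) (nat_lit 5) (nat_lit 25) (nat_lit 5) (nat_lit 26) (nat_lit 4) (nat_lit 398) (nat_lit 336) (nat_lit 166)) (XT.nd (nat_lit 78) (nat_lit 152) (nat_lit 0) (XT.lf (nat_lit 0) (nat_lit 153501967583) (nat_lit 152) (nat_lit 8668141932) (nat_lit 0) (nat_lit 3608885136) (nat_lit 24) (nat_lit 5) (nat_lit 26) (nat_lit 4) (nat_lit 24) (nat_lit 4) (nat_lit 399) (nat_lit 336) (nat_lit 165)) (XT.lf (nat_lit 0) (nat_lit 21169751021) (nat_lit 152) (nat_lit 106496792252) (nat_lit 76) (nat_lit 44363963752) (nat_lit 22) (nat_lit 5) (nat_lit 24) (nat_lit 5) (nat_lit 23) (nat_lit 4) (nat_lit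 400) (nat_lit 336) (nat_lit 164)))))) (XT.nd (nat_lit 468) (nat_lit 304) (nat_lit 0) (XT.nd (nat_lit 234) (nat_lit 152) (nat_lit 0) (XT.nd (nat_lit 78) (nat_lit 76) (nat_lit 0) (XT.lf (nat_lit 0) (nat_lit 56024577039) (nat_lit 152) (nat_lit 35046017391) (nat_lit 76) (nat_lit 87506522749) (nat_lit 22) (nat_lit 5) (nat_lit 24) (nat_lit 5) (nat_lit 23) (nat_lit 4) (nat_lit 401) (nat_lit 336) (nat_lit 163)) (XT.nd (nat_lit 78) (nat_lit 0) (nat_lit 0) (XT.lf (nat_lit 0) (nat_lit 41297457839) (nat_lit 76) (nat_lit 51968590730) (nat_lit 152) (nat_lit 92152814232) (nat_lit 21) (nat_lit 5) (nat_lit 22) (nat_lit 5) (nat_lit 23) (nat_lit 4) (nat_lit 402) (nat_lit 336) (nat_lit 162)) (XT.lf (nat_lit 0) (nat_lit 122673236533) (nat_lit 76) (nat_lit 10289029938) (nat_lit 152) (nat_lit 59610795756) (nat_lit 21) (nat_lit 5) (nat_lit 22) (nat_lit 5) (nat_lit 23) (nat_lit 4) (nat_lit 403) (nat_lit 336) (nat_lit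 161)))) (XT.nd (nat_lit 78) (nat_lit 76) (nat_lit 0) (XT.lf (nat_lit 0) (nat_lit 7756929040) (nat_lit 76) (nat_lit 167529285453) (nat_lit 76) (nat_lit 24766611325) (nat_lit 20) (nat_lit 4) (nat_lit 21) (nat_lit 5) (nat_lit 21) (nat_lit 4) (nat_lit 404) (nat_lit 336) (nat_lit 160)) (XT.nd (nat_lit 78) (nat_lit 0) (nat_lit 0) (XT.lf (nat_lit 0) (nat_lit 12812524731) (nat_lit 152) (nat_lit 116498266546) (nat_lit 76) (nat_lit 78518006993) (nat_lit 19) (nat_lit 5) (nat_lit 21) (nat_lit 5) (nat_lit 20) (nat_lit 4) (nat_lit 405) (nat_lit 336) (nat_lit 159)) (XT.lf (nat_lit 0) (nat_lit 51437518868) (nat_lit 152) (nat_lit 37318236296) (nat_lit 76) (nat_lit 127217552723) (nat_lit 19) (nat_lit 5) (nat_lit 21) (nat_lit 5) (nat_lit 20) (nat_lit 4) (nat_lit 406) (nat_lit 336) (nat_lit 158))))) (XT.nd (nat_lit 234) (nat_lit 228) (nat_lit 0) (XT.nd (nat_lit 78) (nat_lit 0) (nat_lit 0) (XT.lf (nat_lit 0)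 (nat_lit 47334390156) (nat_lit 76) (nat_lit 45397653919) (nat_lit 152) (nat_lit 131756084971) (nat_lit 18) (nat_lit 5) (nat_lit 19) (nat_lit 5) (nat_lit 20) (nat_lit 4) (nat_lit 407) (nat_lit 336) (nat_lit 157)) (XT.nd (nat_lit 78) (nat_lit 0) (nat_lit 0) (XT.lf (nat_lit 0) (nat_lit 136734925037) (nat_lit 152) (nat_lit 95895608067) (nat_lit 0) (nat_lit 765976803) (nat_lit 18) (nat_lit 5) (nat_lit 20) (nat_lit 4) (nat_lit 18) (nat_lit 4) (nat_lit 408) (nat_lit 336) (nat_lit 156)) (XT.lf (nat_lit 0) (nat_lit 183681471475) (nat_lit 152) (nat_lit 11320132746) (nat_lit 0) (nat_lit 47711529636) (nat_lit 18) (nat_lit 5) (nat_lit 20) (nat_lit 4) (nat_lit 18) (nat_lit 4) (nat_lit 409) (nat_lit 336) (nat_lit 155)))) (XT.nd (nat_lit 156) (nat_lit 76) (nat_lit 0) (XT.nd (nat_lit 78) (nat_lit 76) (nat_lit 0) (XT.lf (nat_lit 0) (nat_lit 80044774530) (nat_lit 76) (nat_lit 154179624999) (nat_lit 76) (nat_lit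 18208736871) (nat_lit 17) (nat_lit 4) (nat_lit 18) (nat_lit 5) (nat_lit 18) (nat_lit 4) (nat_lit 410) (nat_lit 336) (nat_lit 154)) (XT.lf (nat_lit 0) (nat_lit 24060397417) (nat_lit 152) (nat_lit 86647974649) (nat_lit 76) (nat_lit 151901810801) (nat_lit 16) (nat_lit 5) (nat_lit 18) (nat_lit 5) (nat_lit 17) (nat_lit 4) (nat_lit 411) (nat_lit 336) (nat_lit 153))) (XT.nd (nat_lit 78) (nat_lit 0) (nat_lit 0) (XT.lf (nat_lit 0) (nat_lit 3181541927) (nat_lit 76) (nat_lit 64698550558) (nat_lit 152) (nat_lit 205398612222) (nat_lit 15) (nat_lit 5) (nat_lit 16) (nat_lit 5) (nat_lit 17) (nat_lit 4) (nat_lit 412) (nat_lit 336) (nat_lit 152)) (XT.lf (nat_lit 0) (nat_lit 100509560625) (nat_lit 76) (nat_lit 14848012903) (nat_lit 152) (nat_lit 169049739141) (nat_lit 15) (nat_lit 5) (nat_lit 16) (nat_lit 5) (nat_lit 17) (nat_lit 4) (nat_lit 413) (nat_lit 336) (nat_lit 151))))))))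
noncomputable def xc189 : XT := (XT.nd (nat_lit 41262) (nat_lit 0) (nat_lit 4256) (XT.nd (nat_lit 936) (nat_lit 152) (nat_lit 0) (XT.nd (nat_lit 468) (nat_lit 152) (nat_lit 0) (XT.nd (nat_lit 234) (nat_lit 152) (nat_lit 0) (XT.nd (nat_lit 78) (nat_lit 76) (nat_lit 0) (XT.lf (nat_lit 0) (nat_lit 165793728527) (nat_lit 152) (nat_lit 93974933708) (nat_lit 0) (nat_lit 36294448886) (nat_lit 15) (nat_lit 5) (nat_lit 17) (nat_lit 4) (nat_lit 15) (nat_lit 4) (nat_lit 414) (nat_lit 336) (nat_lit 150)) (XT.nd (nat_lit 78) (nat_lit 0) (nat_lit 0) (XT.lf (nat_lit 0) (nat_lit 206107362) (nat_lit 76) (nat_lit 218791637652) (nat_lit 76) (nat_lit 89291651875) (nat_lit 14) (nat_lit 4) (nat_lit 15) (nat_lit 5) (nat_lit 15) (nat_lit 4) (nat_lit 415) (nat_lit 336) (nat_lit 149)) (XT.lf (nat_lit 0) (nat_lit 102357710945) (nat_lit 76) (nat_lit 174095198505) (nat_lit 76) (nat_lit 44594540218) (nat_lit 14) (nat_lit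 4) (nat_lit 15) (nat_lit 5) (nat_lit 15) (nat_lit 4) (nat_lit 416) (nat_lit 336) (nat_lit 148)))) (XT.nd (nat_lit 78) (nat_lit 76) (nat_lit 0) (XT.lf (nat_lit 0) (nat_lit 2262068883) (nat_lit 152) (nat_lit 124864057561) (nat_lit 76) (nat_lit 207315481319) (nat_lit 13) (nat_lit 5) (nat_lit 15) (nat_lit 5) (nat_lit 14) (nat_lit 4) (nat_lit 417) (nat_lit 336) (nat_lit 147)) (XT.nd (nat_lit 78) (nat_lit 76) (nat_lit 0) (XT.lf (nat_lit 0) (nat_lit 49962319585) (nat_lit 152) (nat_lit 27079153609) (nat_lit 76) (nat_lit 271427473728) (nat_lit 13) (nat_lit 5) (nat_lit 15) (nat_lit 5) (nat_lit 14) (nat_lit 4) (nat_lit 418) (nat_lit 336) (nat_lit 146)) (XT.lf (nat_lit 0) (nat_lit 78093520439) (nat_lit 76) (nat_lit 23172825969) (nat_lit 152) (nat_lit 261870368516) (nat_lit 12) (nat_lit 5) (nat_lit 13) (nat_lit 5) (nat_lit 14) (nat_lit 4) (nat_lit 419) (nat_lit 336) (nat_lit 145))))) (XT.nd (nat_lit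 234) (nat_lit 76) (nat_lit 0) (XT.nd (nat_lit 78) (nat_lit 76) (nat_lit 0) (XT.lf (nat_lit 0) (nat_lit 156122497664) (nat_lit 152) (nat_lit 189579761310) (nat_lit 0) (nat_lit 32786266259) (nat_lit 12) (nat_lit 5) (nat_lit 14) (nat_lit 4) (nat_lit 12) (nat_lit 4) (nat_lit 420) (nat_lit 336) (nat_lit 144)) (XT.nd (nat_lit 78) (nat_lit 76) (nat_lit 0) (XT.lf (nat_lit 0) (nat_lit 214100869056) (nat_lit 152) (nat_lit 89723950617) (nat_lit 0) (nat_lit 90764135814) (nat_lit 12) (nat_lit 5) (nat_lit 14) (nat_lit 4) (nat_lit 12) (nat_lit 4) (nat_lit 421) (nat_lit 336) (nat_lit 143)) (XT.lf (nat_lit 0) (nat_lit 15623842821) (nat_lit 76) (nat_lit 259597800722) (nat_lit 76) (nat_lit 136260589540) (nat_lit 11) (nat_lit 4) (nat_lit 12) (nat_lit 5) (nat_lit 12) (nat_lit 4) (nat_lit 422) (nat_lit 336) (nat_lit 142)))) (XT.nd (nat_lit 78) (nat_lit 76) (nat_lit 0) (XT.lf (nat_lit 0) (nat_lit 129353184569)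 (nat_lit 76) (nat_lit 211564351228) (nat_lit 76) (nat_lit 88226684864) (nat_lit 11) (nat_lit 4) (nat_lit 12) (nat_lit 5) (nat_lit 12) (nat_lit 4) (nat_lit 423) (nat_lit 336) (nat_lit 141)) (XT.nd (nat_lit 78) (nat_lit 76) (nat_lit 0) (XT.lf (nat_lit 0) (nat_lit 248768179759) (nat_lit 76) (nat_lit 161129624353) (nat_lit 76) (nat_lit 37791524483) (nat_lit 11) (nat_lit 4) (nat_lit 12) (nat_lit 5) (nat_lit 12) (nat_lit 4) (nat_lit 424) (nat_lit 336) (nat_lit 140)) (XT.lf (nat_lit 0) (nat_lit 14679601400) (nat_lit 152) (nat_lit 93245329862) (nat_lit 76) (nat_lit 359224942256) (nat_lit 10) (nat_lit 5) (nat_lit 12) (nat_lit 5) (nat_lit 11) (nat_lit 4) (nat_lit 425) (nat_lit 336) (nat_lit 139)))))) (XT.nd (nat_lit 468) (nat_lit 0) (nat_lit 0) (XT.nd (nat_lit 234) (nat_lit 76) (nat_lit 0) (XT.nd (nat_lit 78) (nat_lit 0) (nat_lit 0) (XT.lf (nat_lit 0) (nat_lit 17659200779) (nat_lit 76) (nat_lit 51120363471)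 (nat_lit 152) (nat_lit 418759138634) (nat_lit 9) (nat_lit 5) (nat_lit 10) (nat_lit 5) (nat_lit 11) (nat_lit 4) (nat_lit 426) (nat_lit 336) (nat_lit 138)) (XT.nd (nat_lit 78) (nat_lit 0) (nat_lit 0) (XT.lf (nat_lit 0) (nat_lit 127322273415) (nat_lit 152) (nat_lit 371681520869) (nat_lit 0) (nat_lit 9856292068) (nat_lit 9) (nat_lit 5) (nat_lit 11) (nat_lit 4) (nat_lit 9) (nat_lit 4) (nat_lit 427) (nat_lit 336) (nat_lit 137)) (XT.lf (nat_lit 0) (nat_lit 189629790424) (nat_lit 152) (nat_lit 269412395576) (nat_lit 0) (nat_lit 72163469414) (nat_lit 9) (nat_lit 5) (nat_lit 11) (nat_lit 4) (nat_lit 9) (nat_lit 4) (nat_lit 428) (nat_lit 336) (nat_lit 136)))) (XT.nd (nat_lit 78) (nat_lit 76) (nat_lit 0) (XT.lf (nat_lit 0) (nat_lit 255052334370) (nat_lit 152) (nat_lit 162030496172) (nat_lit 0) (nat_lit 137585689871) (nat_lit 9) (nat_lit 5) (nat_lit 11) (nat_lit 4) (nat_lit 9) (nat_lit 4) (nat_lit 429)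 (nat_lit 336) (nat_lit 135)) (XT.nd (nat_lit 78) (nat_lit 76) (nat_lit 0) (XT.lf (nat_lit 0) (nat_lit 323745673215) (nat_lit 152) (nat_lit 49280151466) (nat_lit 0) (nat_lit 206278720631) (nat_lit 9) (nat_lit 5) (nat_lit 11) (nat_lit 4) (nat_lit 9) (nat_lit 4) (nat_lit 430) (nat_lit 336) (nat_lit 134)) (XT.lf (nat_lit 0) (nat_lit 71392084291) (nat_lit 76) (nat_lit 325595908747) (nat_lit 76) (nat_lit 208128662749) (nat_lit 8) (nat_lit 4) (nat_lit 9) (nat_lit 5) (nat_lit 9) (nat_lit 4) (nat_lit 431) (nat_lit 336) (nat_lit 133))))) (XT.nd (nat_lit 39546) (nat_lit 0) (nat_lit 7448) (XT.nd (nat_lit 78) (nat_lit 0) (nat_lit 0) (XT.lf (nat_lit 0) (nat_lit 199808218666) (nat_lit 76) (nat_lit 274918482489) (nat_lit 76) (nat_lit 157450957050) (nat_lit 8) (nat_lit 4) (nat_lit 9) (nat_lit 5) (nat_lit 9) (nat_lit 4) (nat_lit 432) (nat_lit 336) (nat_lit 132)) (XT.nd (nat_lit 39390) (nat_lit 0) (nat_lit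 7448) (XT.lf (nat_lit 0) (nat_lit 334644579995) (nat_lit 76) (nat_lit 221707468580) (nat_lit 76) (nat_lit 104239677005) (nat_lit 8) (nat_lit 4) (nat_lit 9) (nat_lit 5) (nat_lit 9) (nat_lit 4) (nat_lit 433) (nat_lit 336) (nat_lit 131)) (XT.lf (nat_lit 0) (nat_lit 1418690432) (nat_lit 836) (nat_lit 5499854327) (nat_lit 836) (nat_lit 5499854327) (nat_lit 106) (nat_lit 3) (nat_lit 117) (nat_lit 3) (nat_lit 117) (nat_lit 5) (nat_lit 337) (nat_lit 337) (nat_lit 226)))) (XT.nd (nat_lit 156) (nat_lit 0) (nat_lit 76) (XT.nd (nat_lit 78) (nat_lit 0) (nat_lit 76) (XT.lf (nat_lit 76) (nat_lit 896764185) (nat_lit 0) (nat_lit 2129051200) (nat_lit 836) (nat_lit 22425938043) (nat_lit 107) (nat_lit 5) (nat_lit 106) (nat_lit 3) (nat_lit 117) (nat_lit 5) (nat_lit 338) (nat_lit 337) (nat_lit 225)) (XT.lf (nat_lit 0) (nat_lit 3565072272) (nat_lit 760) (nat_lit 12483929118) (nat_lit 836) (nat_lit 10031390768)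 (nat_lit 107) (nat_lit 5) (nat_lit 117) (nat_lit 5) (nat_lit 118) (nat_lit 5) (nat_lit 339) (nat_lit 337) (nat_lit 224))) (XT.nd (nat_lit 78) (nat_lit 0) (nat_lit 76) (XT.lf (nat_lit 76) (nat_lit 157012440) (nat_lit 0) (nat_lit 4005316103) (nat_lit 836) (nat_lit 22576587921) (nat_lit 108) (nat_lit 5) (nat_lit 107) (nat_lit 5) (nat_lit 118) (nat_lit 5) (nat_lit 340) (nat_lit 337) (nat_lit 223)) (XT.lf (nat_lit 0) (nat_lit 5133199945) (nat_lit 760) (nat_lit 13698828966) (nat_lit 836) (nat_lit 8581155667) (nat_lit 108) (nat_lit 5) (nat_lit 118) (nat_lit 5) (nat_lit 119) (nat_lit 5) (nat_lit 341) (nat_lit 337) (nat_lit 222))))))) (XT.nd (nat_lit 936) (nat_lit 2052) (nat_lit 0) (XT.nd (nat_lit 468) (nat_lit 1292) (nat_lit 0) (XT.nd (nat_lit 234) (nat_lit 0) (nat_lit 152) (XT.nd (nat_lit 78) (nat_lit 0) (nat_lit 76) (XT.lf (nat_lit 0) (nat_lit 6212525127) (nat_lit 760) (nat_lit 241145624) (nat_lit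 836) (nat_lit 21664504796) (nat_lit 108) (nat_lit 5) (nat_lit 118) (nat_lit 5) (nat_lit 119) (nat_lit 5) (nat_lit 342) (nat_lit 337) (nat_lit 221)) (XT.nd (nat_lit 78) (nat_lit 0) (nat_lit 0) (XT.lf (nat_lit 0) (nat_lit 7670166262) (nat_lit 760) (nat_lit 14608512764) (nat_lit 836) (nat_lit 6563524280) (nat_lit 109) (nat_lit 5) (nat_lit 119) (nat_lit 5) (nat_lit 120) (nat_lit 5) (nat_lit 343) (nat_lit 337) (nat_lit 220)) (XT.lf (nat_lit 0) (nat_lit 9305390806) (nat_lit 760) (nat_lit 271386075) (nat_lit 836) (nat_lit 20020425001) (nat_lit 109) (nat_lit 5) (nat_lit 119) (nat_lit 5) (nat_lit 120) (nat_lit 5) (nat_lit 344) (nat_lit 337) (nat_lit 219)))) (XT.nd (nat_lit 78) (nat_lit 0) (nat_lit 0) (XT.lf (nat_lit 0) (nat_lit 11318382413) (nat_lit 760) (nat_lit 15173414648) (nat_lit 836) (nat_lit 3883357318) (nat_lit 110) (nat_lit 5) (nat_lit 120) (nat_lit 5) (nat_lit 121) (nat_lit 5) (nat_lit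 345) (nat_lit 337) (nat_lit 218)) (XT.nd (nat_lit 78) (nat_lit 0) (nat_lit 76) (XT.lf (nat_lit 76) (nat_lit 108625650) (nat_lit 0) (nat_lit 13481962217) (nat_lit 836) (nat_lit 17593492502) (nat_lit 111) (nat_lit 5) (nat_lit 110) (nat_lit 5) (nat_lit 121) (nat_lit 5) (nat_lit 346) (nat_lit 337) (nat_lit 217)) (XT.lf (nat_lit 0) (nat_lit 16235750217) (nat_lit 760) (nat_lit 15350178763) (nat_lit 76) (nat_lit 434560234) (nat_lit 111) (nat_lit 5) (nat_lit 121) (nat_lit 5) (nat_lit 112) (nat_lit 5) (nat_lit 347) (nat_lit 337) (nat_lit 216))))) (XT.nd (nat_lit 234) (nat_lit 380) (nat_lit 0) (XT.nd (nat_lit 78) (nat_lit 380) (nat_lit 0) (XT.lf (nat_lit 0) (nat_lit 967372078) (nat_lit 760) (nat_lit 18277517889) (nat_lit 836) (nat_lit 13642246270) (nat_lit 101) (nat_lit 5) (nat_lit 111) (nat_lit 5) (nat_lit 112) (nat_lit 5) (nat_lit 348) (nat_lit 337) (nat_lit 215)) (XT.nd (nat_lit 78) (nat_lit 380)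 (nat_lit 0) (XT.lf (nat_lit 0) (nat_lit 18629852389) (nat_lit 760) (nat_lit 4030346214) (nat_lit 836) (nat_lit 11124134940) (nat_lit 101) (nat_lit 5) (nat_lit 111) (nat_lit 5) (nat_lit 112) (nat_lit 5) (nat_lit 349) (nat_lit 337) (nat_lit 214)) (XT.lf (nat_lit 0) (nat_lit 2349738444) (nat_lit 380) (nat_lit 24099812670) (nat_lit 456) (nat_lit 8266679034) (nat_lit 96) (nat_lit 5) (nat_lit 101) (nat_lit 5) (nat_lit 102) (nat_lit 5) (nat_lit 350) (nat_lit 337) (nat_lit 213)))) (XT.nd (nat_lit 78) (nat_lit 380) (nat_lit 0) (XT.lf (nat_lit 0) (nat_lit 21183206738) (nat_lit 380) (nat_lit 9562908443) (nat_lit 456) (nat_lit 4932722403) (nat_lit 96) (nat_lit 5) (nat_lit 101) (nat_lit 5) (nat_lit 102) (nat_lit 5) (nat_lit 351) (nat_lit 337) (nat_lit 212)) (XT.nd (nat_lit 78) (nat_lit 76) (nat_lit 0) (XT.lf (nat_lit 0) (nat_lit 4313998358) (nat_lit 304) (nat_lit 31096145978) (nat_lit 380) (nat_lit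 1271802257) (nat_lit 92) (nat_lit 5) (nat_lit 96) (nat_lit 5) (nat_lit 97) (nat_lit 5) (nat_lit 352) (nat_lit 337) (nat_lit 211)) (XT.lf (nat_lit 0) (nat_lit 2892456050) (nat_lit 380) (nat_lit 13360429523) (nat_lit 76) (nat_lit 21460189433) (nat_lit 91) (nat_lit 5) (nat_lit 96) (nat_lit 5) (nat_lit 92) (nat_lit 5) (nat_lit 353) (nat_lit 337) (nat_lit 210)))))) (XT.nd (nat_lit 468) (nat_lit 1064) (nat_lit 0) (XT.nd (nat_lit 234) (nat_lit 304) (nat_lit 0) (XT.nd (nat_lit 78) (nat_lit 304) (nat_lit 0) (XT.lf (nat_lit 0) (nat_lit 6790226041) (nat_lit 380) (nat_lit 534482905) (nat_lit 456) (nat_lit 31464884936) (nat_lit 86) (nat_lit 5) (nat_lit 91) (nat_lit 5) (nat_lit 92) (nat_lit 5) (nat_lit 354) (nat_lit 337) (nat_lit 209)) (XT.nd (nat_lit 78) (nat_lit 304) (nat_lit 0) (XT.lf (nat_lit 0) (nat_lit 12454495984) (nat_lit 456) (nat_lit 11753237163) (nat_lit 76) (nat_lit 15688411985) (nat_lit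 86) (nat_lit 5) (nat_lit 92) (nat_lit 5) (nat_lit 87) (nat_lit 5) (nat_lit 355) (nat_lit 337) (nat_lit 208)) (XT.lf (nat_lit 0) (nat_lit 9806668052) (nat_lit 304) (nat_lit 8192750130) (nat_lit 380) (nat_lit 23050675857) (nat_lit 82) (nat_lit 5) (nat_lit 86) (nat_lit 5) (nat_lit 87) (nat_lit 5) (nat_lit 356) (nat_lit 337) (nat_lit 207)))) (XT.nd (nat_lit 78) (nat_lit 304) (nat_lit 0) (XT.lf (nat_lit 0) (nat_lit 24155389928) (nat_lit 380) (nat_lit 9540803001) (nat_lit 76) (nat_lit 8548859563) (nat_lit 82) (nat_lit 5) (nat_lit 87) (nat_lit 5) (nat_lit 83) (nat_lit 5) (nat_lit 357) (nat_lit 337) (nat_lit 206)) (XT.nd (nat_lit 78) (nat_lit 0) (nat_lit 0) (XT.lf (nat_lit 0) (nat_lit 13542529901) (nat_lit 304) (nat_lit 17419388583) (nat_lit 380) (nat_lit 12520704637) (nat_lit 78) (nat_lit 5) (nat_lit 82) (nat_lit 5) (nat_lit 83) (nat_lit 5) (nat_lit 358) (nat_lit 337) (nat_lit 205)) (XT.lf (nat_lit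 0) (nat_lit 38107762611) (nat_lit 304) (nat_lit 159690489) (nat_lit 380) (nat_lit 6506687260) (nat_lit 78) (nat_lit 5) (nat_lit 82) (nat_lit 5) (nat_lit 83) (nat_lit 5) (nat_lit 359) (nat_lit 337) (nat_lit 204))))) (XT.nd (nat_lit 234) (nat_lit 456) (nat_lit 0) (XT.nd (nat_lit 78) (nat_lit 304) (nat_lit 0) (XT.lf (nat_lit 0) (nat_lit 383082541) (nat_lit 304) (nat_lit 28043120247) (nat_lit 76) (nat_lit 17675737035) (nat_lit 74) (nat_lit 5) (nat_lit 78) (nat_lit 5) (nat_lit 75) (nat_lit 5) (nat_lit 360) (nat_lit 337) (nat_lit 203)) (XT.nd (nat_lit 78) (nat_lit 304) (nat_lit 0) (XT.lf (nat_lit 0) (nat_lit 7513303754) (nat_lit 304) (nat_lit 3353404251) (nat_lit 76) (nat_lit 36618358169) (nat_lit 74) (nat_lit 5) (nat_lit 78) (nat_lit 5) (nat_lit 75) (nat_lit 5) (nat_lit 361) (nat_lit 337) (nat_lit 202)) (XT.lf (nat_lit 0) (nat_lit 15485577431) (nat_lit 380) (nat_lit 25729793833) (nat_lit 76)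 (nat_lit 7697702204) (nat_lit 70) (nat_lit 5) (nat_lit 75) (nat_lit 5) (nat_lit 71) (nat_lit 5) (nat_lit 362) (nat_lit 337) (nat_lit 201)))) (XT.nd (nat_lit 156) (nat_lit 228) (nat_lit 0) (XT.nd (nat_lit 78) (nat_lit 0) (nat_lit 0) (XT.lf (nat_lit 0) (nat_lit 589989783) (nat_lit 228) (nat_lit 23509006474) (nat_lit 304) (nat_lit 26301359912) (nat_lit 67) (nat_lit 5) (nat_lit 70) (nat_lit 5) (nat_lit 71) (nat_lit 5) (nat_lit 363) (nat_lit 337) (nat_lit 200)) (XT.lf (nat_lit 0) (nat_lit 29115699138) (nat_lit 228) (nat_lit 4460657175) (nat_lit 304) (nat_lit 18363984715) (nat_lit 67) (nat_lit 5) (nat_lit 70) (nat_lit 5) (nat_lit 71) (nat_lit 5) (nat_lit 364) (nat_lit 337) (nat_lit 199))) (XT.nd (nat_lit 78) (nat_lit 0) (nat_lit 0) (XT.lf (nat_lit 0) (nat_lit 5438519726) (nat_lit 228) (nat_lit 38414228637) (nat_lit 304) (nat_lit 9688320032) (nat_lit 64) (nat_lit 5) (nat_lit 67) (nat_lit 5) (nat_lit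 68) (nat_lit 5) (nat_lit 365) (nat_lit 337) (nat_lit 198)) (XT.lf (nat_lit 0) (nat_lit 35828478108) (nat_lit 228) (nat_lit 19270665501) (nat_lit 304) (nat_lit 99880735) (nat_lit 64) (nat_lit 5) (nat_lit 67) (nat_lit 5) (nat_lit 68) (nat_lit 5) (nat_lit 366) (nat_lit 337) (nat_lit 197))))))))
noncomputable def xc190 : XT := (XT.nd (nat_lit 1950) (nat_lit 1292) (nat_lit 0) (XT.nd (nat_lit 936) (nat_lit 988) (nat_lit 0) (XT.nd (nat_lit 468) (nat_lit 760) (nat_lit 0) (XT.nd (nat_lit 234) (nat_lit 228) (nat_lit 0) (XT.nd (nat_lit 78) (nat_lit 228) (nat_lit 0) (XT.lf (nat_lit 0) (nat_lit 9836617597) (nat_lit 304) (nat_lit 45950888006) (nat_lit 76) (nat_lit 1135208615) (nat_lit 60) (nat_lit 5) (nat_lit 64) (nat_lit 5) (nat_lit 61) (nat_lit 5) (nat_lit 367) (nat_lit 337) (nat_lit 196)) (XT.nd (nat_lit 78) (nat_lit 228) (nat_lit 0) (XT.lf (nat_lit 0) (nat_lit 20913731398) (nat_lit 304) (nat_lit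 15538498619) (nat_lit 76) (nat_lit 22247920544) (nat_lit 60) (nat_lit 5) (nat_lit 64) (nat_lit 5) (nat_lit 61) (nat_lit 5) (nat_lit 368) (nat_lit 337) (nat_lit 195)) (XT.lf (nat_lit 0) (nat_lit 16933434832) (nat_lit 228) (nat_lit 15873556062) (nat_lit 304) (nat_lit 27746354473) (nat_lit 57) (nat_lit 5) (nat_lit 60) (nat_lit 5) (nat_lit 61) (nat_lit 5) (nat_lit 369) (nat_lit 337) (nat_lit 194)))) (XT.nd (nat_lit 78) (nat_lit 228) (nat_lit 0) (XT.lf (nat_lit 0) (nat_lit 45649853069) (nat_lit 304) (nat_lit 11014544013) (nat_lit 76) (nat_lit 5817056940) (nat_lit 57) (nat_lit 5) (nat_lit 61) (nat_lit 5) (nat_lit 58) (nat_lit 5) (nat_lit 370) (nat_lit 337) (nat_lit 193)) (XT.nd (nat_lit 78) (nat_lit 76) (nat_lit 0) (XT.lf (nat_lit 0) (nat_lit 23717018788) (nat_lit 152) (nat_lit 36046397713) (nat_lit 228) (nat_lit 4711124743) (nat_lit 55) (nat_lit 5) (nat_lit 57) (nat_lit 5) (nat_lit 58) (nat_lit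 5) (nat_lit 371) (nat_lit 337) (nat_lit 192)) (XT.lf (nat_lit 0) (nat_lit 7946490224) (nat_lit 228) (nat_lit 6121556698) (nat_lit 76) (nat_lit 52483596872) (nat_lit 54) (nat_lit 5) (nat_lit 57) (nat_lit 5) (nat_lit 55) (nat_lit 5) (nat_lit 372) (nat_lit 337) (nat_lit 191))))) (XT.nd (nat_lit 234) (nat_lit 380) (nat_lit 0) (XT.nd (nat_lit 78) (nat_lit 152) (nat_lit 0) (XT.lf (nat_lit 0) (nat_lit 21713253167) (nat_lit 304) (nat_lit 37690805803) (nat_lit 76) (nat_lit 9292952231) (nat_lit 51) (nat_lit 5) (nat_lit 55) (nat_lit 5) (nat_lit 52) (nat_lit 5) (nat_lit 373) (nat_lit 337) (nat_lit 190)) (XT.nd (nat_lit 78) (nat_lit 152) (nat_lit 0) (XT.lf (nat_lit 0) (nat_lit 36502533082) (nat_lit 304) (nat_lit 976753788) (nat_lit 76) (nat_lit 33453652022) (nat_lit 51) (nat_lit 5) (nat_lit 55) (nat_lit 5) (nat_lit 52) (nat_lit 5) (nat_lit 374) (nat_lit 337) (nat_lit 189)) (XT.lf (nat_lit 0) (nat_lit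 38812530514) (nat_lit 152) (nat_lit 13822989373) (nat_lit 228) (nat_lit 20614931751) (nat_lit 49) (nat_lit 5) (nat_lit 51) (nat_lit 5) (nat_lit 52) (nat_lit 5) (nat_lit 375) (nat_lit 337) (nat_lit 188)))) (XT.nd (nat_lit 78) (nat_lit 228) (nat_lit 0) (XT.lf (nat_lit 0) (nat_lit 4924797525) (nat_lit 152) (nat_lit 64914349802) (nat_lit 228) (nat_lit 5831493907) (nat_lit 47) (nat_lit 5) (nat_lit 49) (nat_lit 5) (nat_lit 50) (nat_lit 5) (nat_lit 376) (nat_lit 337) (nat_lit 187)) (XT.nd (nat_lit 78) (nat_lit 152) (nat_lit 0) (XT.lf (nat_lit 0) (nat_lit 10198636798) (nat_lit 228) (nat_lit 31121645394) (nat_lit 76) (nat_lit 36843108689) (nat_lit 46) (nat_lit 5) (nat_lit 49) (nat_lit 5) (nat_lit 47) (nat_lit 5) (nat_lit 377) (nat_lit 337) (nat_lit 186)) (XT.lf (nat_lit 0) (nat_lit 10728936301) (nat_lit 152) (nat_lit 16271257614) (nat_lit 228) (nat_lit 53767510037) (nat_lit 44) (nat_lit 5) (nat_lit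 46) (nat_lit 5) (nat_lit 47) (nat_lit 5) (nat_lit 378) (nat_lit 337) (nat_lit 185)))))) (XT.nd (nat_lit 468) (nat_lit 456) (nat_lit 0) (XT.nd (nat_lit 234) (nat_lit 380) (nat_lit 0) (XT.nd (nat_lit 78) (nat_lit 152) (nat_lit 0) (XT.lf (nat_lit 0) (nat_lit 45332537565) (nat_lit 228) (nat_lit 27891242219) (nat_lit 76) (nat_lit 10243918098) (nat_lit 44) (nat_lit 5) (nat_lit 47) (nat_lit 5) (nat_lit 45) (nat_lit 5) (nat_lit 379) (nat_lit 337) (nat_lit 184)) (XT.nd (nat_lit 78) (nat_lit 0) (nat_lit 0) (XT.lf (nat_lit 0) (nat_lit 16626554234) (nat_lit 152) (nat_lit 48479757396) (nat_lit 228) (nat_lit 21170139825) (nat_lit 42) (nat_lit 5) (nat_lit 44) (nat_lit 5) (nat_lit 45) (nat_lit 5) (nat_lit 380) (nat_lit 337) (nat_lit 183)) (XT.lf (nat_lit 0) (nat_lit 64336085161) (nat_lit 152) (nat_lit 22003558636) (nat_lit 228) (nat_lit 2862456019) (nat_lit 42) (nat_lit 5) (nat_lit 44) (nat_lit 5) (nat_lit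 45) (nat_lit 5) (nat_lit 381) (nat_lit 337) (nat_lit 182)))) (XT.nd (nat_lit 78) (nat_lit 152) (nat_lit 0) (XT.lf (nat_lit 0) (nat_lit 16289209589) (nat_lit 228) (nat_lit 69720824186) (nat_lit 76) (nat_lit 6228613629) (nat_lit 39) (nat_lit 5) (nat_lit 42) (nat_lit 5) (nat_lit 40) (nat_lit 5) (nat_lit 382) (nat_lit 337) (nat_lit 181)) (XT.nd (nat_lit 78) (nat_lit 152) (nat_lit 0) (XT.lf (nat_lit 0) (nat_lit 37089577794) (nat_lit 228) (nat_lit 22688787970) (nat_lit 76) (nat_lit 35606945001) (nat_lit 39) (nat_lit 5) (nat_lit 42) (nat_lit 5) (nat_lit 40) (nat_lit 5) (nat_lit 383) (nat_lit 337) (nat_lit 180)) (XT.lf (nat_lit 0) (nat_lit 27575118230) (nat_lit 152) (nat_lit 31784019593) (nat_lit 228) (nat_lit 39308711277) (nat_lit 37) (nat_lit 5) (nat_lit 39) (nat_lit 5) (nat_lit 40) (nat_lit 5) (nat_lit 384) (nat_lit 337) (nat_lit 179))))) (XT.nd (nat_lit 234) (nat_lit 304) (nat_lit 0) (XT.nd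 (nat_lit 78) (nat_lit 152) (nat_lit 0) (XT.lf (nat_lit 0) (nat_lit 81137652633) (nat_lit 152) (nat_lit 1987446270) (nat_lit 228) (nat_lit 18970269751) (nat_lit 37) (nat_lit 5) (nat_lit 39) (nat_lit 5) (nat_lit 40) (nat_lit 5) (nat_lit 385) (nat_lit 337) (nat_lit 178)) (XT.nd (nat_lit 78) (nat_lit 0) (nat_lit 0) (XT.lf (nat_lit 0) (nat_lit 3284274179) (nat_lit 152) (nat_lit 73442428941) (nat_lit 76) (nat_lit 28916923666) (nat_lit 35) (nat_lit 5) (nat_lit 37) (nat_lit 5) (nat_lit 36) (nat_lit 5) (nat_lit 386) (nat_lit 337) (nat_lit 177)) (XT.lf (nat_lit 0) (nat_lit 26406080667) (nat_lit 152) (nat_lit 20957495438) (nat_lit 76) (nat_lit 61970569669) (nat_lit 35) (nat_lit 5) (nat_lit 37) (nat_lit 5) (nat_lit 36) (nat_lit 5) (nat_lit 387) (nat_lit 337) (nat_lit 176)))) (XT.nd (nat_lit 156) (nat_lit 152) (nat_lit 0) (XT.nd (nat_lit 78) (nat_lit 0) (nat_lit 0) (XT.lf (nat_lit 0) (nat_lit 35278711026)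 (nat_lit 152) (nat_lit 15954858536) (nat_lit 228) (nat_lit 61948141920) (nat_lit 33) (nat_lit 5) (nat_lit 35) (nat_lit 5) (nat_lit 36) (nat_lit 5) (nat_lit 388) (nat_lit 337) (nat_lit 175)) (XT.lf (nat_lit 0) (nat_lit 77927777216) (nat_lit 228) (nat_lit 22423324071) (nat_lit 76) (nat_lit 16839287329) (nat_lit 33) (nat_lit 5) (nat_lit 36) (nat_lit 5) (nat_lit 34) (nat_lit 4) (nat_lit 389) (nat_lit 337) (nat_lit 174))) (XT.nd (nat_lit 78) (nat_lit 76) (nat_lit 0) (XT.lf (nat_lit 0) (nat_lit 36742755681) (nat_lit 76) (nat_lit 70048012573) (nat_lit 152) (nat_lit 14567028039) (nat_lit 32) (nat_lit 5) (nat_lit 33) (nat_lit 5) (nat_lit 34) (nat_lit 4) (nat_lit 390) (nat_lit 337) (nat_lit 173)) (XT.lf (nat_lit 0) (nat_lit 11384477199) (nat_lit 152) (nat_lit 26254627410) (nat_lit 76) (nat_lit 88066357360) (nat_lit 31) (nat_lit 5) (nat_lit 33) (nat_lit 5) (nat_lit 32) (nat_lit 5) (nat_lit 391) (nat_lit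 337) (nat_lit 172))))))) (XT.nd (nat_lit 936) (nat_lit 532) (nat_lit 0) (XT.nd (nat_lit 468) (nat_lit 304) (nat_lit 0) (XT.nd (nat_lit 234) (nat_lit 228) (nat_lit 0) (XT.nd (nat_lit 78) (nat_lit 76) (nat_lit 0) (XT.lf (nat_lit 0) (nat_lit 35933156469) (nat_lit 152) (nat_lit 2770790013) (nat_lit 228) (nat_lit 91526627731) (nat_lit 29) (nat_lit 5) (nat_lit 31) (nat_lit 5) (nat_lit 32) (nat_lit 5) (nat_lit 392) (nat_lit 337) (nat_lit 171)) (XT.nd (nat_lit 78) (nat_lit 76) (nat_lit 0) (XT.lf (nat_lit 0) (nat_lit 68368592890) (nat_lit 228) (nat_lit 33355461013) (nat_lit 76) (nat_lit 33208928260) (nat_lit 29) (nat_lit 5) (nat_lit 32) (nat_lit 5) (nat_lit 30) (nat_lit 4) (nat_lit 393) (nat_lit 337) (nat_lit 170)) (XT.lf (nat_lit 0) (nat_lit 31597644536) (nat_lit 76) (nat_lit 68456556537) (nat_lit 152) (nat_lit 39789423232) (nat_lit 28) (nat_lit 5) (nat_lit 29) (nat_lit 5) (nat_lit 30) (nat_lit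 4) (nat_lit 394) (nat_lit 337) (nat_lit 169)))) (XT.nd (nat_lit 78) (nat_lit 228) (nat_lit 0) (XT.lf (nat_lit 0) (nat_lit 100954613275) (nat_lit 76) (nat_lit 32933366383) (nat_lit 152) (nat_lit 11083624650) (nat_lit 28) (nat_lit 5) (nat_lit 29) (nat_lit 5) (nat_lit 30) (nat_lit 4) (nat_lit 395) (nat_lit 337) (nat_lit 168)) (XT.nd (nat_lit 78) (nat_lit 0) (nat_lit 0) (XT.lf (nat_lit 0) (nat_lit 18898651761) (nat_lit 228) (nat_lit 126512920019) (nat_lit 76) (nat_lit 4906977450) (nat_lit 25) (nat_lit 5) (nat_lit 28) (nat_lit 5) (nat_lit 26) (nat_lit 4) (nat_lit 396) (nat_lit 337) (nat_lit 167)) (XT.lf (nat_lit 0) (nat_lit 51304158000) (nat_lit 228) (nat_lit 60083599495) (nat_lit 76) (nat_lit 44471169259) (nat_lit 25) (nat_lit 5) (nat_lit 28) (nat_lit 5) (nat_lit 26) (nat_lit 4) (nat_lit 397) (nat_lit 337) (nat_lit 166))))) (XT.nd (nat_lit 234) (nat_lit 228) (nat_lit 0) (XT.nd (nat_lit 78)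 (nat_lit 0) (nat_lit 0) (XT.lf (nat_lit 0) (nat_lit 9985085419) (nat_lit 76) (nat_lit 75499832826) (nat_lit 152) (nat_lit 76183656184) (nat_lit 24) (nat_lit 5) (nat_lit 25) (nat_lit 5) (nat_lit 26) (nat_lit 4) (nat_lit 398) (nat_lit 337) (nat_lit 165)) (XT.nd (nat_lit 78) (nat_lit 0) (nat_lit 0) (XT.lf (nat_lit 0) (nat_lit 85641511963) (nat_lit 76) (nat_lit 36749850631) (nat_lit 152) (nat_lit 45326509788) (nat_lit 24) (nat_lit 5) (nat_lit 25) (nat_lit 5) (nat_lit 26) (nat_lit 4) (nat_lit 399) (nat_lit 337) (nat_lit 164)) (XT.lf (nat_lit 0) (nat_lit 161203739354) (nat_lit 152) (nat_lit 9051965016) (nat_lit 0) (nat_lit 3810900540) (nat_lit 24) (nat_lit 5) (nat_lit 26) (nat_lit 4) (nat_lit 24) (nat_lit 4) (nat_lit 400) (nat_lit 337) (nat_lit 163)))) (XT.nd (nat_lit 78) (nat_lit 76) (nat_lit 0) (XT.lf (nat_lit 0) (nat_lit 22254837745) (nat_lit 152) (nat_lit 111771962841) (nat_lit 76) (nat_lit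 46603896567) (nat_lit 22) (nat_lit 5) (nat_lit 24) (nat_lit 5) (nat_lit 23) (nat_lit 4) (nat_lit 401) (nat_lit 337) (nat_lit 162)) (XT.nd (nat_lit 78) (nat_lit 76) (nat_lit 0) (XT.lf (nat_lit 0) (nat_lit 58851138437) (nat_lit 152) (nat_lit 36751014428) (nat_lit 76) (nat_lit 91902548531) (nat_lit 22) (nat_lit 5) (nat_lit 24) (nat_lit 5) (nat_lit 23) (nat_lit 4) (nat_lit 402) (nat_lit 337) (nat_lit 161)) (XT.lf (nat_lit 0) (nat_lit 43408871597) (nat_lit 76) (nat_lit 54545332267) (nat_lit 152) (nat_lit 96734354658) (nat_lit 21) (nat_lit 5) (nat_lit 22) (nat_lit 5) (nat_lit 23) (nat_lit 4) (nat_lit 403) (nat_lit 337) (nat_lit 160)))))) (XT.nd (nat_lit 468) (nat_lit 304) (nat_lit 0) (XT.nd (nat_lit 234) (nat_lit 76) (nat_lit 0) (XT.nd (nat_lit 78) (nat_lit 152) (nat_lit 0) (XT.lf (nat_lit 0) (nat_lit 128851222994) (nat_lit 76) (nat_lit 10782826197) (nat_lit 152) (nat_lit 62566478128) (nat_lit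 21) (nat_lit 5) (nat_lit 22) (nat_lit 5) (nat_lit 23) (nat_lit 4) (nat_lit 404) (nat_lit 337) (nat_lit 159)) (XT.nd (nat_lit 78) (nat_lit 76) (nat_lit 0) (XT.lf (nat_lit 0) (nat_lit 8189236784) (nat_lit 76) (nat_lit 175884832011) (nat_lit 76) (nat_lit 25980216803) (nat_lit 20) (nat_lit 4) (nat_lit 21) (nat_lit 5) (nat_lit 21) (nat_lit 4) (nat_lit 405) (nat_lit 337) (nat_lit 158)) (XT.lf (nat_lit 0) (nat_lit 13475944997) (nat_lit 152) (nat_lit 122280078183) (nat_lit 76) (nat_lit 82463071374) (nat_lit 19) (nat_lit 5) (nat_lit 21) (nat_lit 5) (nat_lit 20) (nat_lit 4) (nat_lit 406) (nat_lit 337) (nat_lit 157)))) (XT.nd (nat_lit 78) (nat_lit 76) (nat_lit 0) (XT.lf (nat_lit 0) (nat_lit 54031103411) (nat_lit 152) (nat_lit 39143098882) (nat_lit 76) (nat_lit 133596681817) (nat_lit 19) (nat_lit 5) (nat_lit 21) (nat_lit 5) (nat_lit 20) (nat_lit 4) (nat_lit 407) (nat_lit 337) (nat_lit 156)) (XT.nd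 (nat_lit 78) (nat_lit 0) (nat_lit 0) (XT.lf (nat_lit 0) (nat_lit 49741496808) (nat_lit 76) (nat_lit 47648454884) (nat_lit 152) (nat_lit 138321514972) (nat_lit 18) (nat_lit 5) (nat_lit 19) (nat_lit 5) (nat_lit 20) (nat_lit 4) (nat_lit 408) (nat_lit 337) (nat_lit 155)) (XT.lf (nat_lit 0) (nat_lit 143592245892) (nat_lit 152) (nat_lit 100651190319) (nat_lit 0) (nat_lit 821867068) (nat_lit 18) (nat_lit 5) (nat_lit 20) (nat_lit 4) (nat_lit 18) (nat_lit 4) (nat_lit 409) (nat_lit 337) (nat_lit 154))))) (XT.nd (nat_lit 234) (nat_lit 152) (nat_lit 0) (XT.nd (nat_lit 78) (nat_lit 152) (nat_lit 0) (XT.lf (nat_lit 0) (nat_lit 192885139908) (nat_lit 152) (nat_lit 11848807811) (nat_lit 0) (nat_lit 50113859856) (nat_lit 18) (nat_lit 5) (nat_lit 20) (nat_lit 4) (nat_lit 18) (nat_lit 4) (nat_lit 410) (nat_lit 337) (nat_lit 153)) (XT.nd (nat_lit 78) (nat_lit 76) (nat_lit 0) (XT.lf (nat_lit 0) (nat_lit 84083742707)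 (nat_lit 76) (nat_lit 161871112019) (nat_lit 76) (nat_lit 19098973655) (nat_lit 17) (nat_lit 4) (nat_lit 18) (nat_lit 5) (nat_lit 18) (nat_lit 4) (nat_lit 411) (nat_lit 337) (nat_lit 152)) (XT.lf (nat_lit 0) (nat_lit 25282039699) (nat_lit 152) (nat_lit 90944774419) (nat_lit 76) (nat_lit 159512943980) (nat_lit 16) (nat_lit 5) (nat_lit 18) (nat_lit 5) (nat_lit 17) (nat_lit 4) (nat_lit 412) (nat_lit 337) (nat_lit 151)))) (XT.nd (nat_lit 156) (nat_lit 76) (nat_lit 0) (XT.nd (nat_lit 78) (nat_lit 0) (nat_lit 0) (XT.lf (nat_lit 0) (nat_lit 3375643809) (nat_lit 76) (nat_lit 67916735765) (nat_lit 152) (nat_lit 215649343587) (nat_lit 15) (nat_lit 5) (nat_lit 16) (nat_lit 5) (nat_lit 17) (nat_lit 4) (nat_lit 413) (nat_lit 337) (nat_lit 150)) (XT.lf (nat_lit 0) (nat_lit 105568395595) (nat_lit 76) (nat_lit 15574468481) (nat_lit 152) (nat_lit 177483941101) (nat_lit 15) (nat_lit 5) (nat_lit 16) (nat_lit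 5) (nat_lit 17) (nat_lit 4) (nat_lit 414) (nat_lit 337) (nat_lit 149))) (XT.nd (nat_lit 78) (nat_lit 76) (nat_lit 0) (XT.lf (nat_lit 0) (nat_lit 174100234780) (nat_lit 152) (nat_lit 98641317425) (nat_lit 0) (nat_lit 38123871068) (nat_lit 15) (nat_lit 5) (nat_lit 17) (nat_lit 4) (nat_lit 15) (nat_lit 4) (nat_lit 415) (nat_lit 337) (nat_lit 148)) (XT.lf (nat_lit 0) (nat_lit 248253715) (nat_lit 76) (nat_lit 229715894559) (nat_lit 76) (nat_lit 93738890362) (nat_lit 14) (nat_lit 4) (nat_lit 15) (nat_lit 5) (nat_lit 15) (nat_lit 4) (nat_lit 416) (nat_lit 337) (nat_lit 147))))))))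
noncomputable def xc191 : XT := (XT.nd (nat_lit 41340) (nat_lit 0) (nat_lit 3724) (XT.nd (nat_lit 936) (nat_lit 76) (nat_lit 0) (XT.nd (nat_lit 468) (nat_lit 228) (nat_lit 0) (XT.nd (nat_lit 234) (nat_lit 76) (nat_lit 0) (XT.nd (nat_lit 78) (nat_lit 76) (nat_lit 0) (XT.lf (nat_lit 0) (nat_lit 107505921240) (nat_lit 76) (nat_lit 182785363216) (nat_lit 76) (nat_lit 46807749032) (nat_lit 14) (nat_lit 4) (nat_lit 15) (nat_lit 5) (nat_lit 15) (nat_lit 4) (nat_lit 417) (nat_lit 337) (nat_lit 146)) (XT.nd (nat_lit 78) (nat_lit 0) (nat_lit 0) (XT.lf (nat_lit 0) (nat_lit 2390400434) (nat_lit 152) (nat_lit 131077874233) (nat_lit 76) (nat_lit 217694650095) (nat_lit 13) (nat_lit 5) (nat_lit 15) (nat_lit 5) (nat_lit 14) (nat_lit 4) (nat_lit 418) (nat_lit 337) (nat_lit 145)) (XT.lf (nat_lit 0) (nat_lit 52474938523) (nat_lit 152) (nat_lit 28405124426) (nat_lit 76) (nat_lit 285011604282) (nat_lit 13) (nat_lit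 5) (nat_lit 15) (nat_lit 5) (nat_lit 14) (nat_lit 4) (nat_lit 419) (nat_lit 337) (nat_lit 144)))) (XT.nd (nat_lit 78) (nat_lit 0) (nat_lit 0) (XT.lf (nat_lit 0) (nat_lit 82025731923) (nat_lit 76) (nat_lit 24318174053) (nat_lit 152) (nat_lit 274948930783) (nat_lit 12) (nat_lit 5) (nat_lit 13) (nat_lit 5) (nat_lit 14) (nat_lit 4) (nat_lit 420) (nat_lit 337) (nat_lit 143)) (XT.nd (nat_lit 78) (nat_lit 0) (nat_lit 0) (XT.lf (nat_lit 0) (nat_lit 163942384253) (nat_lit 152) (nat_lit 199032042871) (nat_lit 0) (nat_lit 34437834571) (nat_lit 12) (nat_lit 5) (nat_lit 14) (nat_lit 4) (nat_lit 12) (nat_lit 4) (nat_lit 421) (nat_lit 337) (nat_lit 142)) (XT.lf (nat_lit 0) (nat_lit 224819018896) (nat_lit 152) (nat_lit 94184713381) (nat_lit 0) (nat_lit 95314014033) (nat_lit 12) (nat_lit 5) (nat_lit 14) (nat_lit 4) (nat_lit 12) (nat_lit 4) (nat_lit 422) (nat_lit 337) (nat_lit 141))))) (XT.nd (nat_lit 234)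 (nat_lit 152) (nat_lit 0) (XT.nd (nat_lit 78) (nat_lit 0) (nat_lit 0) (XT.lf (nat_lit 0) (nat_lit 16430059490) (nat_lit 76) (nat_lit 272565539207) (nat_lit 76) (nat_lit 143060100837) (nat_lit 11) (nat_lit 4) (nat_lit 12) (nat_lit 5) (nat_lit 12) (nat_lit 4) (nat_lit 423) (nat_lit 337) (nat_lit 140)) (XT.nd (nat_lit 78) (nat_lit 0) (nat_lit 0) (XT.lf (nat_lit 0) (nat_lit 135844676681) (nat_lit 76) (nat_lit 222130995883) (nat_lit 76) (nat_lit 92625144651) (nat_lit 11) (nat_lit 4) (nat_lit 12) (nat_lit 5) (nat_lit 12) (nat_lit 4) (nat_lit 424) (nat_lit 337) (nat_lit 139)) (XT.lf (nat_lit 0) (nat_lit 261229286731) (nat_lit 76) (nat_lit 169175083755) (nat_lit 76) (nat_lit 39668839320) (nat_lit 11) (nat_lit 4) (nat_lit 12) (nat_lit 5) (nat_lit 12) (nat_lit 4) (nat_lit 425) (nat_lit 337) (nat_lit 138)))) (XT.nd (nat_lit 78) (nat_lit 76) (nat_lit 0) (XT.lf (nat_lit 0) (nat_lit 15424885228) (nat_lit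 152) (nat_lit 97885604194) (nat_lit 76) (nat_lit 377196311304) (nat_lit 10) (nat_lit 5) (nat_lit 12) (nat_lit 5) (nat_lit 11) (nat_lit 4) (nat_lit 426) (nat_lit 337) (nat_lit 137)) (XT.nd (nat_lit 78) (nat_lit 0) (nat_lit 0) (XT.lf (nat_lit 0) (nat_lit 18563798267) (nat_lit 76) (nat_lit 53665847502) (nat_lit 152) (nat_lit 439685435877) (nat_lit 9) (nat_lit 5) (nat_lit 10) (nat_lit 5) (nat_lit 11) (nat_lit 4) (nat_lit 427) (nat_lit 337) (nat_lit 136)) (XT.lf (nat_lit 0) (nat_lit 133699118298) (nat_lit 152) (nat_lit 390244616566) (nat_lit 0) (nat_lit 10358818085) (nat_lit 9) (nat_lit 5) (nat_lit 11) (nat_lit 4) (nat_lit 9) (nat_lit 4) (nat_lit 428) (nat_lit 337) (nat_lit 135)))))) (XT.nd (nat_lit 39858) (nat_lit 0) (nat_lit 7448) (XT.nd (nat_lit 234) (nat_lit 76) (nat_lit 0) (XT.nd (nat_lit 78) (nat_lit 0) (nat_lit 0) (XT.lf (nat_lit 0) (nat_lit 199121500147) (nat_lit 152) (nat_lit 282863034073)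 (nat_lit 0) (nat_lit 75780891850) (nat_lit 9) (nat_lit 5) (nat_lit 11) (nat_lit 4) (nat_lit 9) (nat_lit 4) (nat_lit 429) (nat_lit 337) (nat_lit 134)) (XT.nd (nat_lit 78) (nat_lit 0) (nat_lit 0) (XT.lf (nat_lit 0) (nat_lit 267814684614) (nat_lit 152) (nat_lit 170112991188) (nat_lit 0) (nat_lit 144473782903) (nat_lit 9) (nat_lit 5) (nat_lit 11) (nat_lit 4) (nat_lit 9) (nat_lit 4) (nat_lit 430) (nat_lit 337) (nat_lit 133)) (XT.lf (nat_lit 0) (nat_lit 339942226900) (nat_lit 152) (nat_lit 51726035427) (nat_lit 0) (nat_lit 216601045747) (nat_lit 9) (nat_lit 5) (nat_lit 11) (nat_lit 4) (nat_lit 9) (nat_lit 4) (nat_lit 431) (nat_lit 337) (nat_lit 132)))) (XT.nd (nat_lit 78) (nat_lit 0) (nat_lit 0) (XT.lf (nat_lit 0) (nat_lit 74979519802) (nat_lit 76) (nat_lit 341866979880) (nat_lit 76) (nat_lit 218525532591) (nat_lit 8) (nat_lit 4) (nat_lit 9) (nat_lit 5) (nat_lit 9) (nat_lit 4) (nat_lit 432) (nat_lit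 337) (nat_lit 131)) (XT.nd (nat_lit 39468) (nat_lit 0) (nat_lit 7448) (XT.lf (nat_lit 0) (nat_lit 209815611786) (nat_lit 76) (nat_lit 288656097753) (nat_lit 76) (nat_lit 165314397002) (nat_lit 8) (nat_lit 4) (nat_lit 9) (nat_lit 5) (nat_lit 9) (nat_lit 4) (nat_lit 433) (nat_lit 337) (nat_lit 130)) (XT.lf (nat_lit 0) (nat_lit 1591508042) (nat_lit 836) (nat_lit 5721314273) (nat_lit 836) (nat_lit 5721314273) (nat_lit 106) (nat_lit 3) (nat_lit 117) (nat_lit 3) (nat_lit 117) (nat_lit 5) (nat_lit 338) (nat_lit 338) (nat_lit 224))))) (XT.nd (nat_lit 234) (nat_lit 0) (nat_lit 152) (XT.nd (nat_lit 78) (nat_lit 0) (nat_lit 76) (XT.lf (nat_lit 76) (nat_lit 1046941071) (nat_lit 0) (nat_lit 2325872741) (nat_lit 836) (nat_lit 23341573719) (nat_lit 107) (nat_lit 5) (nat_lit 106) (nat_lit 3) (nat_lit 117) (nat_lit 5) (nat_lit 339) (nat_lit 338) (nat_lit 223)) (XT.nd (nat_lit 78) (nat_lit 0) (nat_lit 0)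 (XT.lf (nat_lit 0) (nat_lit 3928370404) (nat_lit 760) (nat_lit 12996979709) (nat_lit 836) (nat_lit 10449649250) (nat_lit 107) (nat_lit 5) (nat_lit 117) (nat_lit 5) (nat_lit 118) (nat_lit 5) (nat_lit 340) (nat_lit 338) (nat_lit 222)) (XT.lf (nat_lit 76) (nat_lit 274216252) (nat_lit 0) (nat_lit 4274168903) (nat_lit 836) (nat_lit 23518427574) (nat_lit 108) (nat_lit 5) (nat_lit 107) (nat_lit 5) (nat_lit 118) (nat_lit 5) (nat_lit 341) (nat_lit 338) (nat_lit 221)))) (XT.nd (nat_lit 156) (nat_lit 0) (nat_lit 76) (XT.nd (nat_lit 78) (nat_lit 0) (nat_lit 0) (XT.lf (nat_lit 0) (nat_lit 5558306941) (nat_lit 760) (nat_lit 14269986049) (nat_lit 836) (nat_lit 8946983182) (nat_lit 108) (nat_lit 5) (nat_lit 118) (nat_lit 5) (nat_lit 119) (nat_lit 5) (nat_lit 342) (nat_lit 338) (nat_lit 220)) (XT.lf (nat_lit 0) (nat_lit 6683577097) (nat_lit 760) (nat_lit 144836843) (nat_lit 836) (nat_lit 22687510733) (nat_lit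 108) (nat_lit 5) (nat_lit 118) (nat_lit 5) (nat_lit 119) (nat_lit 5) (nat_lit 343) (nat_lit 338) (nat_lit 219))) (XT.nd (nat_lit 78) (nat_lit 0) (nat_lit 0) (XT.lf (nat_lit 0) (nat_lit 8207378774) (nat_lit 760) (nat_lit 15223719047) (nat_lit 836) (nat_lit 6845398661) (nat_lit 109) (nat_lit 5) (nat_lit 119) (nat_lit 5) (nat_lit 120) (nat_lit 5) (nat_lit 344) (nat_lit 338) (nat_lit 218)) (XT.lf (nat_lit 0) (nat_lit 9917045298) (nat_lit 760) (nat_lit 175222660) (nat_lit 836) (nat_lit 20977349267) (nat_lit 109) (nat_lit 5) (nat_lit 119) (nat_lit 5) (nat_lit 120) (nat_lit 5) (nat_lit 345) (nat_lit 338) (nat_lit 217))))))) (XT.nd (nat_lit 936) (nat_lit 1900) (nat_lit 0) (XT.nd (nat_lit 468) (nat_lit 1064) (nat_lit 0) (XT.nd (nat_lit 234) (nat_lit 1064) (nat_lit 0) (XT.nd (nat_lit 78) (nat_lit 0) (nat_lit 0) (XT.lf (nat_lit 0) (nat_lit 12024884014) (nat_lit 760) (nat_lit 15816430665) (nat_lit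 836) (nat_lit 4045448769) (nat_lit 110) (nat_lit 5) (nat_lit 120) (nat_lit 5) (nat_lit 121) (nat_lit 5) (nat_lit 346) (nat_lit 338) (nat_lit 216)) (XT.nd (nat_lit 78) (nat_lit 0) (nat_lit 76) (XT.lf (nat_lit 76) (nat_lit 227846250) (nat_lit 0) (nat_lit 14177935657) (nat_lit 836) (nat_lit 18330605414) (nat_lit 111) (nat_lit 5) (nat_lit 110) (nat_lit 5) (nat_lit 121) (nat_lit 5) (nat_lit 347) (nat_lit 338) (nat_lit 215)) (XT.lf (nat_lit 0) (nat_lit 17176416882) (nat_lit 760) (nat_lit 16002423015) (nat_lit 76) (nat_lit 436121406) (nat_lit 111) (nat_lit 5) (nat_lit 121) (nat_lit 5) (nat_lit 112) (nat_lit 5) (nat_lit 348) (nat_lit 338) (nat_lit 214)))) (XT.nd (nat_lit 78) (nat_lit 380) (nat_lit 0) (XT.lf (nat_lit 0) (nat_lit 1129146260) (nat_lit 760) (nat_lit 19202500836) (nat_lit 836) (nat_lit 14193517071) (nat_lit 101) (nat_lit 5) (nat_lit 111) (nat_lit 5) (nat_lit 112) (nat_lit 5) (nat_lit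 349) (nat_lit 338) (nat_lit 213)) (XT.nd (nat_lit 78) (nat_lit 380) (nat_lit 0) (XT.lf (nat_lit 0) (nat_lit 19669350321) (nat_lit 760) (nat_lit 4242441670) (nat_lit 836) (nat_lit 11555730722) (nat_lit 101) (nat_lit 5) (nat_lit 111) (nat_lit 5) (nat_lit 112) (nat_lit 5) (nat_lit 350) (nat_lit 338) (nat_lit 212)) (XT.lf (nat_lit 0) (nat_lit 2579581438) (nat_lit 380) (nat_lit 25306980762) (nat_lit 456) (nat_lit 8559659127) (nat_lit 96) (nat_lit 5) (nat_lit 101) (nat_lit 5) (nat_lit 102) (nat_lit 5) (nat_lit 351) (nat_lit 338) (nat_lit 211))))) (XT.nd (nat_lit 234) (nat_lit 684) (nat_lit 0) (XT.nd (nat_lit 78) (nat_lit 380) (nat_lit 0) (XT.lf (nat_lit 0) (nat_lit 22349372857) (nat_lit 380) (nat_lit 10043127635) (nat_lit 456) (nat_lit 5064735802) (nat_lit 96) (nat_lit 5) (nat_lit 101) (nat_lit 5) (nat_lit 102) (nat_lit 5) (nat_lit 352) (nat_lit 338) (nat_lit 210)) (XT.nd (nat_lit 78) (nat_lit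 76) (nat_lit 0) (XT.lf (nat_lit 0) (nat_lit 4640463778) (nat_lit 304) (nat_lit 32645771587) (nat_lit 380) (nat_lit 1224444423) (nat_lit 92) (nat_lit 5) (nat_lit 96) (nat_lit 5) (nat_lit 97) (nat_lit 5) (nat_lit 353) (nat_lit 338) (nat_lit 209)) (XT.lf (nat_lit 0) (nat_lit 3139361634) (nat_lit 380) (nat_lit 13919501067) (nat_lit 76) (nat_lit 22534674869) (nat_lit 91) (nat_lit 5) (nat_lit 96) (nat_lit 5) (nat_lit 92) (nat_lit 5) (nat_lit 354) (nat_lit 338) (nat_lit 208)))) (XT.nd (nat_lit 78) (nat_lit 304) (nat_lit 0) (XT.lf (nat_lit 0) (nat_lit 7236930019) (nat_lit 380) (nat_lit 553100125) (nat_lit 456) (nat_lit 32934015766) (nat_lit 86) (nat_lit 5) (nat_lit 91) (nat_lit 5) (nat_lit 92) (nat_lit 5) (nat_lit 355) (nat_lit 338) (nat_lit 207)) (XT.nd (nat_lit 78) (nat_lit 304) (nat_lit 0) (XT.lf (nat_lit 0) (nat_lit 13171708710) (nat_lit 456) (nat_lit 12234143049) (nat_lit 76) (nat_lit 16480306348)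 (nat_lit 86) (nat_lit 5) (nat_lit 92) (nat_lit 5) (nat_lit 87) (nat_lit 5) (nat_lit 356) (nat_lit 338) (nat_lit 206)) (XT.lf (nat_lit 0) (nat_lit 10402035556) (nat_lit 304) (nat_lit 8588981913) (nat_lit 380) (nat_lit 24106933296) (nat_lit 82) (nat_lit 5) (nat_lit 86) (nat_lit 5) (nat_lit 87) (nat_lit 5) (nat_lit 357) (nat_lit 338) (nat_lit 205)))))) (XT.nd (nat_lit 468) (nat_lit 988) (nat_lit 0) (XT.nd (nat_lit 234) (nat_lit 608) (nat_lit 0) (XT.nd (nat_lit 78) (nat_lit 304) (nat_lit 0) (XT.lf (nat_lit 0) (nat_lit 25450623880) (nat_lit 380) (nat_lit 9913583365) (nat_lit 76) (nat_lit 8988661262) (nat_lit 82) (nat_lit 5) (nat_lit 87) (nat_lit 5) (nat_lit 83) (nat_lit 5) (nat_lit 358) (nat_lit 338) (nat_lit 204)) (XT.nd (nat_lit 78) (nat_lit 0) (nat_lit 0) (XT.lf (nat_lit 0) (nat_lit 14322234573) (nat_lit 304) (nat_lit 18272680850) (nat_lit 380) (nat_lit 13057533434) (nat_lit 78) (nat_lit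 5) (nat_lit 82) (nat_lit 5) (nat_lit 83) (nat_lit 5) (nat_lit 359) (nat_lit 338) (nat_lit 203)) (XT.lf (nat_lit 0) (nat_lit 40110844243) (nat_lit 304) (nat_lit 150839621) (nat_lit 380) (nat_lit 6747063115) (nat_lit 78) (nat_lit 5) (nat_lit 82) (nat_lit 5) (nat_lit 83) (nat_lit 5) (nat_lit 360) (nat_lit 338) (nat_lit 202)))) (XT.nd (nat_lit 78) (nat_lit 304) (nat_lit 0) (XT.lf (nat_lit 0) (nat_lit 482399436) (nat_lit 304) (nat_lit 29342680111) (nat_lit 76) (nat_lit 18577896980) (nat_lit 74) (nat_lit 5) (nat_lit 78) (nat_lit 5) (nat_lit 75) (nat_lit 5) (nat_lit 361) (nat_lit 338) (nat_lit 201)) (XT.nd (nat_lit 78) (nat_lit 304) (nat_lit 0) (XT.lf (nat_lit 0) (nat_lit 7965314435) (nat_lit 304) (nat_lit 3423363846) (nat_lit 76) (nat_lit 38466774261) (nat_lit 74) (nat_lit 5) (nat_lit 78) (nat_lit 5) (nat_lit 75) (nat_lit 5) (nat_lit 362) (nat_lit 338) (nat_lit 200)) (XT.lf (nat_lit 0) (nat_lit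 16334409518) (nat_lit 380) (nat_lit 26916733328) (nat_lit 76) (nat_lit 8103809334) (nat_lit 70) (nat_lit 5) (nat_lit 75) (nat_lit 5) (nat_lit 71) (nat_lit 5) (nat_lit 363) (nat_lit 338) (nat_lit 199))))) (XT.nd (nat_lit 234) (nat_lit 532) (nat_lit 0) (XT.nd (nat_lit 78) (nat_lit 228) (nat_lit 0) (XT.lf (nat_lit 0) (nat_lit 717433820) (nat_lit 228) (nat_lit 24659044501) (nat_lit 304) (nat_lit 27540223996) (nat_lit 67) (nat_lit 5) (nat_lit 70) (nat_lit 5) (nat_lit 71) (nat_lit 5) (nat_lit 364) (nat_lit 338) (nat_lit 198)) (XT.nd (nat_lit 78) (nat_lit 228) (nat_lit 0) (XT.lf (nat_lit 0) (nat_lit 30664764616) (nat_lit 228) (nat_lit 4659487846) (nat_lit 304) (nat_lit 19209608796) (nat_lit 67) (nat_lit 5) (nat_lit 70) (nat_lit 5) (nat_lit 71) (nat_lit 5) (nat_lit 365) (nat_lit 338) (nat_lit 197)) (XT.lf (nat_lit 0) (nat_lit 5805290360) (nat_lit 228) (nat_lit 40307724972) (nat_lit 304) (nat_lit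 10101684145) (nat_lit 64) (nat_lit 5) (nat_lit 67) (nat_lit 5) (nat_lit 68) (nat_lit 5) (nat_lit 366) (nat_lit 338) (nat_lit 196)))) (XT.nd (nat_lit 156) (nat_lit 228) (nat_lit 0) (XT.nd (nat_lit 78) (nat_lit 304) (nat_lit 0) (XT.lf (nat_lit 0) (nat_lit 37710230249) (nat_lit 228) (nat_lit 20208279637) (nat_lit 304) (nat_lit 37206307) (nat_lit 64) (nat_lit 5) (nat_lit 67) (nat_lit 5) (nat_lit 68) (nat_lit 5) (nat_lit 367) (nat_lit 338) (nat_lit 195)) (XT.lf (nat_lit 0) (nat_lit 10392678520) (nat_lit 304) (nat_lit 48154593391) (nat_lit 76) (nat_lit 1218331220) (nat_lit 60) (nat_lit 5) (nat_lit 64) (nat_lit 5) (nat_lit 61) (nat_lit 5) (nat_lit 368) (nat_lit 338) (nat_lit 194))) (XT.nd (nat_lit 78) (nat_lit 228) (nat_lit 0) (XT.lf (nat_lit 0) (nat_lit 22020589437) (nat_lit 304) (nat_lit 16226053059) (nat_lit 76) (nat_lit 23385423403) (nat_lit 60) (nat_lit 5) (nat_lit 64) (nat_lit 5) (nat_lit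 61) (nat_lit 5) (nat_lit 369) (nat_lit 338) (nat_lit 193)) (XT.lf (nat_lit 0) (nat_lit 17868035606) (nat_lit 228) (nat_lit 16638936194) (nat_lit 304) (nat_lit 29071027252) (nat_lit 57) (nat_lit 5) (nat_lit 60) (nat_lit 5) (nat_lit 61) (nat_lit 5) (nat_lit 370) (nat_lit 338) (nat_lit 192))))))))
noncomputable def xc192 : XT := (XT.nd (nat_lit 1872) (nat_lit 1216) (nat_lit 0) (XT.nd (nat_lit 936) (nat_lit 988) (nat_lit 0) (XT.nd (nat_lit 468) (nat_lit 532) (nat_lit 0) (XT.nd (nat_lit 234) (nat_lit 380) (nat_lit 0) (XT.nd (nat_lit 78) (nat_lit 228) (nat_lit 0) (XT.lf (nat_lit 0) (nat_lit 47989558262) (nat_lit 304) (nat_lit 11479079968) (nat_lit 76) (nat_lit 6133997376) (nat_lit 57) (nat_lit 5) (nat_lit 61) (nat_lit 5) (nat_lit 58) (nat_lit 5) (nat_lit 371) (nat_lit 338) (nat_lit 191)) (XT.nd (nat_lit 78) (nat_lit 76) (nat_lit 0) (XT.lf (nat_lit 0) (nat_lit 24987670792) (nat_lit 152) (nat_lit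 37819728649) (nat_lit 228) (nat_lit 4888049220) (nat_lit 55) (nat_lit 5) (nat_lit 57) (nat_lit 5) (nat_lit 58) (nat_lit 5) (nat_lit 372) (nat_lit 338) (nat_lit 190)) (XT.lf (nat_lit 0) (nat_lit 8397867286) (nat_lit 228) (nat_lit 6345058054) (nat_lit 76) (nat_lit 55133571679) (nat_lit 54) (nat_lit 5) (nat_lit 57) (nat_lit 5) (nat_lit 55) (nat_lit 5) (nat_lit 373) (nat_lit 338) (nat_lit 189)))) (XT.nd (nat_lit 78) (nat_lit 152) (nat_lit 0) (XT.lf (nat_lit 0) (nat_lit 22852107826) (nat_lit 304) (nat_lit 39491883980) (nat_lit 76) (nat_lit 9785185270) (nat_lit 51) (nat_lit 5) (nat_lit 55) (nat_lit 5) (nat_lit 52) (nat_lit 5) (nat_lit 374) (nat_lit 338) (nat_lit 188)) (XT.nd (nat_lit 78) (nat_lit 152) (nat_lit 0) (XT.lf (nat_lit 0) (nat_lit 38378318784) (nat_lit 304) (nat_lit 946103752) (nat_lit 76) (nat_lit 35152606458) (nat_lit 51) (nat_lit 5) (nat_lit 55) (nat_lit 5) (nat_lit 52) (nat_lit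 5) (nat_lit 375) (nat_lit 338) (nat_lit 187)) (XT.lf (nat_lit 0) (nat_lit 40831362706) (nat_lit 152) (nat_lit 14485400898) (nat_lit 228) (nat_lit 21593714478) (nat_lit 49) (nat_lit 5) (nat_lit 51) (nat_lit 5) (nat_lit 52) (nat_lit 5) (nat_lit 376) (nat_lit 338) (nat_lit 186))))) (XT.nd (nat_lit 234) (nat_lit 152) (nat_lit 0) (XT.nd (nat_lit 78) (nat_lit 228) (nat_lit 0) (XT.lf (nat_lit 0) (nat_lit 5249996121) (nat_lit 152) (nat_lit 68129880770) (nat_lit 228) (nat_lit 6071836125) (nat_lit 47) (nat_lit 5) (nat_lit 49) (nat_lit 5) (nat_lit 50) (nat_lit 5) (nat_lit 377) (nat_lit 338) (nat_lit 185)) (XT.nd (nat_lit 78) (nat_lit 152) (nat_lit 0) (XT.lf (nat_lit 0) (nat_lit 10755799797) (nat_lit 228) (nat_lit 32600947553) (nat_lit 76) (nat_lit 38712431862) (nat_lit 46) (nat_lit 5) (nat_lit 49) (nat_lit 5) (nat_lit 47) (nat_lit 5) (nat_lit 378) (nat_lit 338) (nat_lit 184)) (XT.lf (nat_lit 0) (nat_lit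 11340924838) (nat_lit 152) (nat_lit 17055440248) (nat_lit 228) (nat_lit 56407397271) (nat_lit 44) (nat_lit 5) (nat_lit 46) (nat_lit 5) (nat_lit 47) (nat_lit 5) (nat_lit 379) (nat_lit 338) (nat_lit 183)))) (XT.nd (nat_lit 78) (nat_lit 152) (nat_lit 0) (XT.lf (nat_lit 0) (nat_lit 47643564618) (nat_lit 228) (nat_lit 29212080705) (nat_lit 76) (nat_lit 10783199617) (nat_lit 44) (nat_lit 5) (nat_lit 47) (nat_lit 5) (nat_lit 45) (nat_lit 5) (nat_lit 380) (nat_lit 338) (nat_lit 182)) (XT.nd (nat_lit 78) (nat_lit 0) (nat_lit 0) (XT.lf (nat_lit 0) (nat_lit 17530416479) (nat_lit 152) (nat_lit 50874629080) (nat_lit 228) (nat_lit 22183040573) (nat_lit 42) (nat_lit 5) (nat_lit 44) (nat_lit 5) (nat_lit 45) (nat_lit 5) (nat_lit 381) (nat_lit 338) (nat_lit 181)) (XT.lf (nat_lit 0) (nat_lit 67621969928) (nat_lit 152) (nat_lit 23076006866) (nat_lit 228) (nat_lit 2962144303) (nat_lit 42) (nat_lit 5) (nat_lit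 44) (nat_lit 5) (nat_lit 45) (nat_lit 5) (nat_lit 382) (nat_lit 338) (nat_lit 180)))))) (XT.nd (nat_lit 468) (nat_lit 456) (nat_lit 0) (XT.nd (nat_lit 234) (nat_lit 152) (nat_lit 0) (XT.nd (nat_lit 78) (nat_lit 152) (nat_lit 0) (XT.lf (nat_lit 0) (nat_lit 17145235693) (nat_lit 228) (nat_lit 73135885928) (nat_lit 76) (nat_lit 6567365204) (nat_lit 39) (nat_lit 5) (nat_lit 42) (nat_lit 5) (nat_lit 40) (nat_lit 5) (nat_lit 383) (nat_lit 338) (nat_lit 179)) (XT.nd (nat_lit 78) (nat_lit 152) (nat_lit 0) (XT.lf (nat_lit 0) (nat_lit 38983642993) (nat_lit 228) (nat_lit 23755627877) (nat_lit 76) (nat_lit 37413312150) (nat_lit 39) (nat_lit 5) (nat_lit 42) (nat_lit 5) (nat_lit 40) (nat_lit 5) (nat_lit 384) (nat_lit 338) (nat_lit 178)) (XT.lf (nat_lit 0) (nat_lit 29020383320) (nat_lit 152) (nat_lit 33345451037) (nat_lit 228) (nat_lit 41233456914) (nat_lit 37) (nat_lit 5) (nat_lit 39) (nat_lit 5) (nat_lit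 40) (nat_lit 5) (nat_lit 385) (nat_lit 338) (nat_lit 177)))) (XT.nd (nat_lit 78) (nat_lit 152) (nat_lit 0) (XT.lf (nat_lit 0) (nat_lit 85257877339) (nat_lit 152) (nat_lit 2060371406) (nat_lit 228) (nat_lit 19880030927) (nat_lit 37) (nat_lit 5) (nat_lit 39) (nat_lit 5) (nat_lit 40) (nat_lit 5) (nat_lit 386) (nat_lit 338) (nat_lit 176)) (XT.nd (nat_lit 78) (nat_lit 0) (nat_lit 0) (XT.lf (nat_lit 0) (nat_lit 3485624797) (nat_lit 152) (nat_lit 77049569354) (nat_lit 76) (nat_lit 30388745638) (nat_lit 35) (nat_lit 5) (nat_lit 37) (nat_lit 5) (nat_lit 36) (nat_lit 5) (nat_lit 387) (nat_lit 338) (nat_lit 175)) (XT.lf (nat_lit 0) (nat_lit 27761753185) (nat_lit 152) (nat_lit 21943483511) (nat_lit 76) (nat_lit 65093836999) (nat_lit 35) (nat_lit 5) (nat_lit 37) (nat_lit 5) (nat_lit 36) (nat_lit 5) (nat_lit 388) (nat_lit 338) (nat_lit 174))))) (XT.nd (nat_lit 234) (nat_lit 228) (nat_lit 0) (XT.nd (nat_lit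 78) (nat_lit 76) (nat_lit 0) (XT.lf (nat_lit 0) (nat_lit 37103535104) (nat_lit 152) (nat_lit 16726347847) (nat_lit 228) (nat_lit 65009171936) (nat_lit 33) (nat_lit 5) (nat_lit 35) (nat_lit 5) (nat_lit 36) (nat_lit 5) (nat_lit 389) (nat_lit 338) (nat_lit 173)) (XT.nd (nat_lit 78) (nat_lit 76) (nat_lit 0) (XT.lf (nat_lit 0) (nat_lit 81857542080) (nat_lit 228) (nat_lit 23485232366) (nat_lit 76) (nat_lit 17705454872) (nat_lit 33) (nat_lit 5) (nat_lit 36) (nat_lit 5) (nat_lit 34) (nat_lit 4) (nat_lit 390) (nat_lit 338) (nat_lit 172)) (XT.lf (nat_lit 0) (nat_lit 38638195600) (nat_lit 76) (nat_lit 73524807997) (nat_lit 152) (nat_lit 15261038211) (nat_lit 32) (nat_lit 5) (nat_lit 33) (nat_lit 5) (nat_lit 34) (nat_lit 4) (nat_lit 391) (nat_lit 338) (nat_lit 171)))) (XT.nd (nat_lit 78) (nat_lit 152) (nat_lit 0) (XT.lf (nat_lit 0) (nat_lit 11985360199) (nat_lit 152) (nat_lit 27510777568) (nat_lit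 76) (nat_lit 92493005769) (nat_lit 31) (nat_lit 5) (nat_lit 33) (nat_lit 5) (nat_lit 32) (nat_lit 5) (nat_lit 392) (nat_lit 338) (nat_lit 170)) (XT.nd (nat_lit 78) (nat_lit 0) (nat_lit 0) (XT.lf (nat_lit 0) (nat_lit 37785482905) (nat_lit 152) (nat_lit 2884681606) (nat_lit 228) (nat_lit 96070379211) (nat_lit 29) (nat_lit 5) (nat_lit 31) (nat_lit 5) (nat_lit 32) (nat_lit 5) (nat_lit 393) (nat_lit 338) (nat_lit 169)) (XT.lf (nat_lit 0) (nat_lit 71816932561) (nat_lit 228) (nat_lit 34969097882) (nat_lit 76) (nat_lit 34892097550) (nat_lit 29) (nat_lit 5) (nat_lit 32) (nat_lit 5) (nat_lit 30) (nat_lit 4) (nat_lit 394) (nat_lit 338) (nat_lit 168))))))) (XT.nd (nat_lit 936) (nat_lit 532) (nat_lit 0) (XT.nd (nat_lit 468) (nat_lit 304) (nat_lit 0) (XT.nd (nat_lit 234) (nat_lit 76) (nat_lit 0) (XT.nd (nat_lit 78) (nat_lit 228) (nat_lit 0) (XT.lf (nat_lit 0) (nat_lit 33230789781) (nat_lit 76) (nat_lit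 71855438671) (nat_lit 152) (nat_lit 41748103796) (nat_lit 28) (nat_lit 5) (nat_lit 29) (nat_lit 5) (nat_lit 30) (nat_lit 4) (nat_lit 395) (nat_lit 338) (nat_lit 167)) (XT.nd (nat_lit 78) (nat_lit 228) (nat_lit 0) (XT.lf (nat_lit 0) (nat_lit 106053070622) (nat_lit 76) (nat_lit 34557229279) (nat_lit 152) (nat_lit 11608481504) (nat_lit 28) (nat_lit 5) (nat_lit 29) (nat_lit 5) (nat_lit 30) (nat_lit 4) (nat_lit 396) (nat_lit 338) (nat_lit 166)) (XT.lf (nat_lit 0) (nat_lit 19871771453) (nat_lit 228) (nat_lit 132786688943) (nat_lit 76) (nat_lit 5174600541) (nat_lit 25) (nat_lit 5) (nat_lit 28) (nat_lit 5) (nat_lit 26) (nat_lit 4) (nat_lit 397) (nat_lit 338) (nat_lit 165)))) (XT.nd (nat_lit 78) (nat_lit 76) (nat_lit 0) (XT.lf (nat_lit 0) (nat_lit 53896210761) (nat_lit 228) (nat_lit 63038372731) (nat_lit 76) (nat_lit 46715941263) (nat_lit 25) (nat_lit 5) (nat_lit 28) (nat_lit 5) (nat_lit 26) (nat_lit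 4) (nat_lit 398) (nat_lit 338) (nat_lit 164)) (XT.nd (nat_lit 78) (nat_lit 0) (nat_lit 0) (XT.lf (nat_lit 0) (nat_lit 10532949547) (nat_lit 76) (nat_lit 79252540082) (nat_lit 152) (nat_lit 79965191445) (nat_lit 24) (nat_lit 5) (nat_lit 25) (nat_lit 5) (nat_lit 26) (nat_lit 4) (nat_lit 399) (nat_lit 338) (nat_lit 163)) (XT.lf (nat_lit 0) (nat_lit 89969882663) (nat_lit 76) (nat_lit 38566119937) (nat_lit 152) (nat_lit 47566504279) (nat_lit 24) (nat_lit 5) (nat_lit 25) (nat_lit 5) (nat_lit 26) (nat_lit 4) (nat_lit 400) (nat_lit 338) (nat_lit 162))))) (XT.nd (nat_lit 234) (nat_lit 152) (nat_lit 0) (XT.nd (nat_lit 78) (nat_lit 152) (nat_lit 0) (XT.lf (nat_lit 0) (nat_lit 169288119875) (nat_lit 152) (nat_lit 9459589106) (nat_lit 0) (nat_lit 4021011233) (nat_lit 24) (nat_lit 5) (nat_lit 26) (nat_lit 4) (nat_lit 24) (nat_lit 4) (nat_lit 401) (nat_lit 338) (nat_lit 161)) (XT.nd (nat_lit 78) (nat_lit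 0) (nat_lit 0) (XT.lf (nat_lit 0) (nat_lit 23391705867) (nat_lit 152) (nat_lit 117315509715) (nat_lit 76) (nat_lit 48953805343) (nat_lit 22) (nat_lit 5) (nat_lit 24) (nat_lit 5) (nat_lit 23) (nat_lit 4) (nat_lit 402) (nat_lit 338) (nat_lit 160)) (XT.lf (nat_lit 0) (nat_lit 61816672725) (nat_lit 152) (nat_lit 38545659180) (nat_lit 76) (nat_lit 96516451146) (nat_lit 22) (nat_lit 5) (nat_lit 24) (nat_lit 5) (nat_lit 23) (nat_lit 4) (nat_lit 403) (nat_lit 338) (nat_lit 159)))) (XT.nd (nat_lit 78) (nat_lit 76) (nat_lit 0) (XT.lf (nat_lit 0) (nat_lit 45621529115) (nat_lit 76) (nat_lit 57252927226) (nat_lit 152) (nat_lit 101547398662) (nat_lit 21) (nat_lit 5) (nat_lit 22) (nat_lit 5) (nat_lit 23) (nat_lit 4) (nat_lit 404) (nat_lit 338) (nat_lit 158)) (XT.nd (nat_lit 78) (nat_lit 76) (nat_lit 0) (XT.lf (nat_lit 0) (nat_lit 135333987895) (nat_lit 76) (nat_lit 11303232598) (nat_lit 152) (nat_lit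 65672255627) (nat_lit 21) (nat_lit 5) (nat_lit 22) (nat_lit 5) (nat_lit 23) (nat_lit 4) (nat_lit 405) (nat_lit 338) (nat_lit 157)) (XT.lf (nat_lit 0) (nat_lit 8639026327) (nat_lit 76) (nat_lit 184660100628) (nat_lit 76) (nat_lit 27256801259) (nat_lit 20) (nat_lit 4) (nat_lit 21) (nat_lit 5) (nat_lit 21) (nat_lit 4) (nat_lit 406) (nat_lit 338) (nat_lit 156)))))) (XT.nd (nat_lit 468) (nat_lit 304) (nat_lit 0) (XT.nd (nat_lit 234) (nat_lit 76) (nat_lit 0) (XT.nd (nat_lit 78) (nat_lit 76) (nat_lit 0) (XT.lf (nat_lit 0) (nat_lit 14170417104) (nat_lit 152) (nat_lit 128354987588) (nat_lit 76) (nat_lit 86603607283) (nat_lit 19) (nat_lit 5) (nat_lit 21) (nat_lit 5) (nat_lit 20) (nat_lit 4) (nat_lit 407) (nat_lit 338) (nat_lit 155)) (XT.nd (nat_lit 78) (nat_lit 76) (nat_lit 0) (XT.lf (nat_lit 0) (nat_lit 56752348922) (nat_lit 152) (nat_lit 41063020966) (nat_lit 76) (nat_lit 140293070518) (nat_lit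 19) (nat_lit 5) (nat_lit 21) (nat_lit 5) (nat_lit 20) (nat_lit 4) (nat_lit 408) (nat_lit 338) (nat_lit 154)) (XT.lf (nat_lit 0) (nat_lit 52265203979) (nat_lit 76) (nat_lit 50013569935) (nat_lit 152) (nat_lit 145217296619) (nat_lit 18) (nat_lit 5) (nat_lit 19) (nat_lit 5) (nat_lit 20) (nat_lit 4) (nat_lit 409) (nat_lit 338) (nat_lit 153)))) (XT.nd (nat_lit 78) (nat_lit 76) (nat_lit 0) (XT.lf (nat_lit 0) (nat_lit 150790519957) (nat_lit 152) (nat_lit 105648195956) (nat_lit 0) (nat_lit 878916363) (nat_lit 18) (nat_lit 5) (nat_lit 20) (nat_lit 4) (nat_lit 18) (nat_lit 4) (nat_lit 410) (nat_lit 338) (nat_lit 152)) (XT.nd (nat_lit 78) (nat_lit 76) (nat_lit 0) (XT.lf (nat_lit 0) (nat_lit 202547170019) (nat_lit 152) (nat_lit 12407387365) (nat_lit 0) (nat_lit 52634748984) (nat_lit 18) (nat_lit 5) (nat_lit 20) (nat_lit 4) (nat_lit 18) (nat_lit 4) (nat_lit 411) (nat_lit 338) (nat_lit 151)) (XT.lf (nat_lit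 0) (nat_lit 88321244537) (nat_lit 76) (nat_lit 169948799838) (nat_lit 76) (nat_lit 20035600288) (nat_lit 17) (nat_lit 4) (nat_lit 18) (nat_lit 5) (nat_lit 18) (nat_lit 4) (nat_lit 412) (nat_lit 338) (nat_lit 150))))) (XT.nd (nat_lit 234) (nat_lit 152) (nat_lit 0) (XT.nd (nat_lit 78) (nat_lit 76) (nat_lit 0) (XT.lf (nat_lit 0) (nat_lit 26563032760) (nat_lit 152) (nat_lit 95459723833) (nat_lit 76) (nat_lit 167503142325) (nat_lit 16) (nat_lit 5) (nat_lit 18) (nat_lit 5) (nat_lit 17) (nat_lit 4) (nat_lit 413) (nat_lit 338) (nat_lit 149)) (XT.nd (nat_lit 78) (nat_lit 0) (nat_lit 0) (XT.lf (nat_lit 0) (nat_lit 3576194512) (nat_lit 76) (nat_lit 71297386775) (nat_lit 152) (nat_lit 226414396483) (nat_lit 15) (nat_lit 5) (nat_lit 16) (nat_lit 5) (nat_lit 17) (nat_lit 4) (nat_lit 414) (nat_lit 338) (nat_lit 148)) (XT.lf (nat_lit 0) (nat_lit 110877071101) (nat_lit 76) (nat_lit 16338729259) (nat_lit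 152) (nat_lit 186341553125) (nat_lit 15) (nat_lit 5) (nat_lit 16) (nat_lit 5) (nat_lit 17) (nat_lit 4) (nat_lit 415) (nat_lit 338) (nat_lit 147)))) (XT.nd (nat_lit 156) (nat_lit 76) (nat_lit 0) (XT.nd (nat_lit 78) (nat_lit 76) (nat_lit 0) (XT.lf (nat_lit 0) (nat_lit 182820502598) (nat_lit 152) (nat_lit 103544029130) (nat_lit 0) (nat_lit 40043397718) (nat_lit 15) (nat_lit 5) (nat_lit 17) (nat_lit 4) (nat_lit 15) (nat_lit 4) (nat_lit 416) (nat_lit 338) (nat_lit 146)) (XT.lf (nat_lit 0) (nat_lit 289547113) (nat_lit 76) (nat_lit 241187789083) (nat_lit 76) (nat_lit 98410103264) (nat_lit 14) (nat_lit 4) (nat_lit 15) (nat_lit 5) (nat_lit 15) (nat_lit 4) (nat_lit 417) (nat_lit 338) (nat_lit 145))) (XT.nd (nat_lit 78) (nat_lit 76) (nat_lit 0) (XT.lf (nat_lit 0) (nat_lit 112908722742) (nat_lit 76) (nat_lit 191911393087) (nat_lit 76) (nat_lit 49133153992) (nat_lit 14) (nat_lit 4) (nat_lit 15) (nat_lit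 5) (nat_lit 15) (nat_lit 4) (nat_lit 418) (nat_lit 338) (nat_lit 144)) (XT.lf (nat_lit 0) (nat_lit 2523732797) (nat_lit 152) (nat_lit 137605113789) (nat_lit 76) (nat_lit 228591531997) (nat_lit 13) (nat_lit 5) (nat_lit 15) (nat_lit 5) (nat_lit 14) (nat_lit 4) (nat_lit 419) (nat_lit 338) (nat_lit 143))))))))
noncomputable def xc193 : XT := (XT.nd (nat_lit 41496) (nat_lit 0) (nat_lit 3192) (XT.nd (nat_lit 936) (nat_lit 0) (nat_lit 0) (XT.nd (nat_lit 468) (nat_lit 152) (nat_lit 0) (XT.nd (nat_lit 234) (nat_lit 76) (nat_lit 0) (XT.nd (nat_lit 78) (nat_lit 76) (nat_lit 0) (XT.lf (nat_lit 0) (nat_lit 55111840060) (nat_lit 152) (nat_lit 29799995738) (nat_lit 76) (nat_lit 299273755350) (nat_lit 13) (nat_lit 5) (nat_lit 15) (nat_lit 5) (nat_lit 14) (nat_lit 4) (nat_lit 420) (nat_lit 338) (nat_lit 142)) (XT.nd (nat_lit 78) (nat_lit 0) (nat_lit 0) (XT.lf (nat_lit 0) (nat_lit 86151993994) (nat_lit 76)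 (nat_lit 25522025418) (nat_lit 152) (nat_lit 288682811645) (nat_lit 12) (nat_lit 5) (nat_lit 13) (nat_lit 5) (nat_lit 14) (nat_lit 4) (nat_lit 421) (nat_lit 338) (nat_lit 141)) (XT.lf (nat_lit 0) (nat_lit 172151985739) (nat_lit 152) (nat_lit 208959421428) (nat_lit 0) (nat_lit 36170841945) (nat_lit 12) (nat_lit 5) (nat_lit 14) (nat_lit 4) (nat_lit 12) (nat_lit 4) (nat_lit 422) (nat_lit 338) (nat_lit 140)))) (XT.nd (nat_lit 78) (nat_lit 76) (nat_lit 0) (XT.lf (nat_lit 0) (nat_lit 236071857720) (nat_lit 152) (nat_lit 98870878968) (nat_lit 0) (nat_lit 100090301063) (nat_lit 12) (nat_lit 5) (nat_lit 14) (nat_lit 4) (nat_lit 12) (nat_lit 4) (nat_lit 423) (nat_lit 338) (nat_lit 139)) (XT.nd (nat_lit 78) (nat_lit 0) (nat_lit 0) (XT.lf (nat_lit 0) (nat_lit 17274260450) (nat_lit 76) (nat_lit 286182794351) (nat_lit 76) (nat_lit 150200844492) (nat_lit 11) (nat_lit 4) (nat_lit 12) (nat_lit 5) (nat_lit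 12) (nat_lit 4) (nat_lit 424) (nat_lit 338) (nat_lit 138)) (XT.lf (nat_lit 0) (nat_lit 142658527643) (nat_lit 76) (nat_lit 233227048710) (nat_lit 76) (nat_lit 97244724372) (nat_lit 11) (nat_lit 4) (nat_lit 12) (nat_lit 5) (nat_lit 12) (nat_lit 4) (nat_lit 425) (nat_lit 338) (nat_lit 137))))) (XT.nd (nat_lit 234) (nat_lit 0) (nat_lit 0) (XT.nd (nat_lit 78) (nat_lit 152) (nat_lit 0) (XT.lf (nat_lit 0) (nat_lit 274311338809) (nat_lit 76) (nat_lit 177623840831) (nat_lit 76) (nat_lit 41641159847) (nat_lit 11) (nat_lit 4) (nat_lit 12) (nat_lit 5) (nat_lit 12) (nat_lit 4) (nat_lit 426) (nat_lit 338) (nat_lit 136)) (XT.nd (nat_lit 78) (nat_lit 76) (nat_lit 0) (XT.lf (nat_lit 0) (nat_lit 16206382332) (nat_lit 152) (nat_lit 102759936866) (nat_lit 76) (nat_lit 396065307762) (nat_lit 10) (nat_lit 5) (nat_lit 12) (nat_lit 5) (nat_lit 11) (nat_lit 4) (nat_lit 427) (nat_lit 338) (nat_lit 135)) (XT.lf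 (nat_lit 0) (nat_lit 19511613983) (nat_lit 76) (nat_lit 56339585099) (nat_lit 152) (nat_lit 461659131989) (nat_lit 9) (nat_lit 5) (nat_lit 10) (nat_lit 5) (nat_lit 11) (nat_lit 4) (nat_lit 428) (nat_lit 338) (nat_lit 134)))) (XT.nd (nat_lit 78) (nat_lit 0) (nat_lit 0) (XT.lf (nat_lit 0) (nat_lit 140393807739) (nat_lit 152) (nat_lit 409737817601) (nat_lit 0) (nat_lit 10885567528) (nat_lit 9) (nat_lit 5) (nat_lit 11) (nat_lit 4) (nat_lit 9) (nat_lit 4) (nat_lit 429) (nat_lit 338) (nat_lit 133)) (XT.nd (nat_lit 78) (nat_lit 0) (nat_lit 0) (XT.lf (nat_lit 0) (nat_lit 209086845179) (nat_lit 152) (nat_lit 296988062164) (nat_lit 0) (nat_lit 79578325526) (nat_lit 9) (nat_lit 5) (nat_lit 11) (nat_lit 4) (nat_lit 9) (nat_lit 4) (nat_lit 430) (nat_lit 338) (nat_lit 132)) (XT.lf (nat_lit 0) (nat_lit 281214247440) (nat_lit 152) (nat_lit 178601380164) (nat_lit 0) (nat_lit 151705461652) (nat_lit 9) (nat_lit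 5) (nat_lit 11) (nat_lit 4) (nat_lit 9) (nat_lit 4) (nat_lit 431) (nat_lit 338) (nat_lit 131)))))) (XT.nd (nat_lit 40014) (nat_lit 0) (nat_lit 6992) (XT.nd (nat_lit 39780) (nat_lit 0) (nat_lit 7448) (XT.nd (nat_lit 39624) (nat_lit 0) (nat_lit 7372) (XT.lf (nat_lit 0) (nat_lit 356947746431) (nat_lit 152) (nat_lit 54295898548) (nat_lit 0) (nat_lit 227438707181) (nat_lit 9) (nat_lit 5) (nat_lit 11) (nat_lit 4) (nat_lit 9) (nat_lit 4) (nat_lit 432) (nat_lit 338) (nat_lit 130)) (XT.nd (nat_lit 78) (nat_lit 0) (nat_lit 0) (XT.lf (nat_lit 0) (nat_lit 1763494409) (nat_lit 836) (nat_lit 5958824186) (nat_lit 836) (nat_lit 5958824186) (nat_lit 106) (nat_lit 3) (nat_lit 117) (nat_lit 3) (nat_lit 117) (nat_lit 5) (nat_lit 339) (nat_lit 339) (nat_lit 222)) (XT.lf (nat_lit 76) (nat_lit 1194833410) (nat_lit 0) (nat_lit 2524133707) (nat_lit 836) (nat_lit 24322111611) (nat_lit 107) (nat_lit 5) (nat_lit 106)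 (nat_lit 3) (nat_lit 117) (nat_lit 5) (nat_lit 340) (nat_lit 339) (nat_lit 221)))) (XT.nd (nat_lit 78) (nat_lit 0) (nat_lit 0) (XT.lf (nat_lit 0) (nat_lit 4292629757) (nat_lit 760) (nat_lit 13546016119) (nat_lit 836) (nat_lit 10896566129) (nat_lit 107) (nat_lit 5) (nat_lit 117) (nat_lit 5) (nat_lit 118) (nat_lit 5) (nat_lit 341) (nat_lit 339) (nat_lit 220)) (XT.nd (nat_lit 78) (nat_lit 0) (nat_lit 76) (XT.lf (nat_lit 76) (nat_lit 387113632) (nat_lit 0) (nat_lit 4550087774) (nat_lit 836) (nat_lit 24524743744) (nat_lit 108) (nat_lit 5) (nat_lit 107) (nat_lit 5) (nat_lit 118) (nat_lit 5) (nat_lit 342) (nat_lit 339) (nat_lit 219)) (XT.lf (nat_lit 0) (nat_lit 5989008682) (nat_lit 760) (nat_lit 14880279578) (nat_lit 836) (nat_lit 9336980623) (nat_lit 108) (nat_lit 5) (nat_lit 118) (nat_lit 5) (nat_lit 119) (nat_lit 5) (nat_lit 343) (nat_lit 339) (nat_lit 218))))) (XT.nd (nat_lit 234) (nat_lit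 532) (nat_lit 0) (XT.nd (nat_lit 78) (nat_lit 0) (nat_lit 76) (XT.lf (nat_lit 0) (nat_lit 7163266803) (nat_lit 760) (nat_lit 53787473) (nat_lit 836) (nat_lit 23767265586) (nat_lit 108) (nat_lit 5) (nat_lit 118) (nat_lit 5) (nat_lit 119) (nat_lit 5) (nat_lit 344) (nat_lit 339) (nat_lit 217)) (XT.nd (nat_lit 78) (nat_lit 0) (nat_lit 0) (XT.lf (nat_lit 0) (nat_lit 8757161953) (nat_lit 760) (nat_lit 15880397649) (nat_lit 836) (nat_lit 7145671467) (nat_lit 109) (nat_lit 5) (nat_lit 119) (nat_lit 5) (nat_lit 120) (nat_lit 5) (nat_lit 345) (nat_lit 339) (nat_lit 216)) (XT.lf (nat_lit 0) (nat_lit 10545673029) (nat_lit 760) (nat_lit 84452983) (nat_lit 836) (nat_lit 21986219467) (nat_lit 109) (nat_lit 5) (nat_lit 119) (nat_lit 5) (nat_lit 120) (nat_lit 5) (nat_lit 346) (nat_lit 339) (nat_lit 215)))) (XT.nd (nat_lit 156) (nat_lit 684) (nat_lit 0) (XT.nd (nat_lit 78) (nat_lit 0) (nat_lit 0) (XT.lf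 (nat_lit 0) (nat_lit 12753640669) (nat_lit 760) (nat_lit 16502349961) (nat_lit 836) (nat_lit 4218626954) (nat_lit 110) (nat_lit 5) (nat_lit 120) (nat_lit 5) (nat_lit 121) (nat_lit 5) (nat_lit 347) (nat_lit 339) (nat_lit 214)) (XT.lf (nat_lit 76) (nat_lit 342448828) (nat_lit 0) (nat_lit 14906674009) (nat_lit 836) (nat_lit 19117828007) (nat_lit 111) (nat_lit 5) (nat_lit 110) (nat_lit 5) (nat_lit 121) (nat_lit 5) (nat_lit 348) (nat_lit 339) (nat_lit 213))) (XT.nd (nat_lit 78) (nat_lit 760) (nat_lit 0) (XT.lf (nat_lit 0) (nat_lit 18152134918) (nat_lit 760) (nat_lit 16697995699) (nat_lit 76) (nat_lit 439635557) (nat_lit 111) (nat_lit 5) (nat_lit 121) (nat_lit 5) (nat_lit 112) (nat_lit 5) (nat_lit 349) (nat_lit 339) (nat_lit 212)) (XT.lf (nat_lit 0) (nat_lit 1288465775) (nat_lit 760) (nat_lit 20172700302) (nat_lit 836) (nat_lit 14784515815) (nat_lit 101) (nat_lit 5) (nat_lit 111) (nat_lit 5)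 (nat_lit 112) (nat_lit 5) (nat_lit 350) (nat_lit 339) (nat_lit 211))))))) (XT.nd (nat_lit 936) (nat_lit 1748) (nat_lit 0) (XT.nd (nat_lit 468) (nat_lit 912) (nat_lit 0) (XT.nd (nat_lit 234) (nat_lit 760) (nat_lit 0) (XT.nd (nat_lit 78) (nat_lit 380) (nat_lit 0) (XT.lf (nat_lit 0) (nat_lit 20750781839) (nat_lit 760) (nat_lit 4464158443) (nat_lit 836) (nat_lit 12020491439) (nat_lit 101) (nat_lit 5) (nat_lit 111) (nat_lit 5) (nat_lit 112) (nat_lit 5) (nat_lit 351) (nat_lit 339) (nat_lit 210)) (XT.nd (nat_lit 78) (nat_lit 0) (nat_lit 0) (XT.lf (nat_lit 0) (nat_lit 2810470778) (nat_lit 380) (nat_lit 26574304819) (nat_lit 456) (nat_lit 8878477587) (nat_lit 96) (nat_lit 5) (nat_lit 101) (nat_lit 5) (nat_lit 102) (nat_lit 5) (nat_lit 352) (nat_lit 339) (nat_lit 209)) (XT.lf (nat_lit 0) (nat_lit 23563898898) (nat_lit 380) (nat_lit 10547164987) (nat_lit 456) (nat_lit 5214006404) (nat_lit 96) (nat_lit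 5) (nat_lit 101) (nat_lit 5) (nat_lit 102) (nat_lit 5) (nat_lit 353) (nat_lit 339) (nat_lit 208)))) (XT.nd (nat_lit 78) (nat_lit 456) (nat_lit 0) (XT.lf (nat_lit 0) (nat_lit 4972954542) (nat_lit 304) (nat_lit 34273360221) (nat_lit 380) (nat_lit 1185033585) (nat_lit 92) (nat_lit 5) (nat_lit 96) (nat_lit 5) (nat_lit 97) (nat_lit 5) (nat_lit 354) (nat_lit 339) (nat_lit 207)) (XT.nd (nat_lit 78) (nat_lit 380) (nat_lit 0) (XT.lf (nat_lit 0) (nat_lit 3389103214) (nat_lit 380) (nat_lit 14516655320) (nat_lit 76) (nat_lit 23662747356) (nat_lit 91) (nat_lit 5) (nat_lit 96) (nat_lit 5) (nat_lit 92) (nat_lit 5) (nat_lit 355) (nat_lit 339) (nat_lit 206)) (XT.lf (nat_lit 0) (nat_lit 7696003436) (nat_lit 380) (nat_lit 573401912) (nat_lit 456) (nat_lit 34486282616) (nat_lit 86) (nat_lit 5) (nat_lit 91) (nat_lit 5) (nat_lit 92) (nat_lit 5) (nat_lit 356) (nat_lit 339) (nat_lit 205))))) (XT.nd (nat_lit 234)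 (nat_lit 608) (nat_lit 0) (XT.nd (nat_lit 78) (nat_lit 304) (nat_lit 0) (XT.lf (nat_lit 0) (nat_lit 13915997480) (nat_lit 456) (nat_lit 12749019389) (nat_lit 76) (nat_lit 17311100591) (nat_lit 86) (nat_lit 5) (nat_lit 92) (nat_lit 5) (nat_lit 87) (nat_lit 5) (nat_lit 357) (nat_lit 339) (nat_lit 204)) (XT.nd (nat_lit 78) (nat_lit 0) (nat_lit 0) (XT.lf (nat_lit 0) (nat_lit 11017406360) (nat_lit 304) (nat_lit 9006271623) (nat_lit 380) (nat_lit 25224954471) (nat_lit 82) (nat_lit 5) (nat_lit 86) (nat_lit 5) (nat_lit 87) (nat_lit 5) (nat_lit 358) (nat_lit 339) (nat_lit 203)) (XT.lf (nat_lit 0) (nat_lit 26802487914) (nat_lit 380) (nat_lit 10314695833) (nat_lit 76) (nat_lit 9449304049) (nat_lit 82) (nat_lit 5) (nat_lit 87) (nat_lit 5) (nat_lit 83) (nat_lit 5) (nat_lit 359) (nat_lit 339) (nat_lit 202)))) (XT.nd (nat_lit 78) (nat_lit 304) (nat_lit 0) (XT.lf (nat_lit 0) (nat_lit 15131387732) (nat_lit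 304) (nat_lit 19170281185) (nat_lit 380) (nat_lit 13629497241) (nat_lit 78) (nat_lit 5) (nat_lit 82) (nat_lit 5) (nat_lit 83) (nat_lit 5) (nat_lit 360) (nat_lit 339) (nat_lit 201)) (XT.nd (nat_lit 78) (nat_lit 304) (nat_lit 0) (XT.lf (nat_lit 0) (nat_lit 42204997342) (nat_lit 304) (nat_lit 143111404) (nat_lit 380) (nat_lit 7007356398) (nat_lit 78) (nat_lit 5) (nat_lit 82) (nat_lit 5) (nat_lit 83) (nat_lit 5) (nat_lit 361) (nat_lit 339) (nat_lit 200)) (XT.lf (nat_lit 0) (nat_lit 579229401) (nat_lit 304) (nat_lit 30716756385) (nat_lit 76) (nat_lit 19523456766) (nat_lit 74) (nat_lit 5) (nat_lit 78) (nat_lit 5) (nat_lit 75) (nat_lit 5) (nat_lit 362) (nat_lit 339) (nat_lit 199)))))) (XT.nd (nat_lit 468) (nat_lit 912) (nat_lit 0) (XT.nd (nat_lit 234) (nat_lit 304) (nat_lit 0) (XT.nd (nat_lit 78) (nat_lit 532) (nat_lit 0) (XT.lf (nat_lit 0) (nat_lit 8432827769) (nat_lit 304) (nat_lit 3505905628)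 (nat_lit 76) (nat_lit 40405984343) (nat_lit 74) (nat_lit 5) (nat_lit 78) (nat_lit 5) (nat_lit 75) (nat_lit 5) (nat_lit 363) (nat_lit 339) (nat_lit 198)) (XT.nd (nat_lit 78) (nat_lit 228) (nat_lit 0) (XT.lf (nat_lit 0) (nat_lit 17218751957) (nat_lit 380) (nat_lit 28172275032) (nat_lit 76) (nat_lit 8528248798) (nat_lit 70) (nat_lit 5) (nat_lit 75) (nat_lit 5) (nat_lit 71) (nat_lit 5) (nat_lit 364) (nat_lit 339) (nat_lit 197)) (XT.lf (nat_lit 0) (nat_lit 842144103) (nat_lit 228) (nat_lit 25868947023) (nat_lit 304) (nat_lit 28848116001) (nat_lit 67) (nat_lit 5) (nat_lit 70) (nat_lit 5) (nat_lit 71) (nat_lit 5) (nat_lit 365) (nat_lit 339) (nat_lit 196)))) (XT.nd (nat_lit 78) (nat_lit 304) (nat_lit 0) (XT.lf (nat_lit 0) (nat_lit 32282611030) (nat_lit 228) (nat_lit 4870510141) (nat_lit 304) (nat_lit 20104261432) (nat_lit 67) (nat_lit 5) (nat_lit 70) (nat_lit 5) (nat_lit 71) (nat_lit 5) (nat_lit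 366) (nat_lit 339) (nat_lit 195)) (XT.nd (nat_lit 78) (nat_lit 76) (nat_lit 0) (XT.lf (nat_lit 0) (nat_lit 6181581769) (nat_lit 228) (nat_lit 42298426326) (nat_lit 304) (nat_lit 10542322194) (nat_lit 64) (nat_lit 5) (nat_lit 67) (nat_lit 5) (nat_lit 68) (nat_lit 5) (nat_lit 367) (nat_lit 339) (nat_lit 194)) (XT.lf (nat_lit 0) (nat_lit 21596589) (nat_lit 304) (nat_lit 21173221858) (nat_lit 76) (nat_lit 39655709796) (nat_lit 63) (nat_lit 5) (nat_lit 67) (nat_lit 5) (nat_lit 64) (nat_lit 5) (nat_lit 368) (nat_lit 339) (nat_lit 193))))) (XT.nd (nat_lit 234) (nat_lit 456) (nat_lit 0) (XT.nd (nat_lit 78) (nat_lit 228) (nat_lit 0) (XT.lf (nat_lit 0) (nat_lit 10970570989) (nat_lit 304) (nat_lit 50477208307) (nat_lit 76) (nat_lit 1303159049) (nat_lit 60) (nat_lit 5) (nat_lit 64) (nat_lit 5) (nat_lit 61) (nat_lit 5) (nat_lit 369) (nat_lit 339) (nat_lit 192)) (XT.nd (nat_lit 78) (nat_lit 228) (nat_lit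 0) (XT.lf (nat_lit 0) (nat_lit 23177103236) (nat_lit 304) (nat_lit 16956294042) (nat_lit 76) (nat_lit 24577467210) (nat_lit 60) (nat_lit 5) (nat_lit 64) (nat_lit 5) (nat_lit 61) (nat_lit 5) (nat_lit 370) (nat_lit 339) (nat_lit 191)) (XT.lf (nat_lit 0) (nat_lit 18841191609) (nat_lit 228) (nat_lit 17445216183) (nat_lit 304) (nat_lit 30467757804) (nat_lit 57) (nat_lit 5) (nat_lit 60) (nat_lit 5) (nat_lit 61) (nat_lit 5) (nat_lit 371) (nat_lit 339) (nat_lit 190)))) (XT.nd (nat_lit 156) (nat_lit 304) (nat_lit 0) (XT.nd (nat_lit 78) (nat_lit 152) (nat_lit 0) (XT.lf (nat_lit 0) (nat_lit 50440929636) (nat_lit 304) (nat_lit 11974855965) (nat_lit 76) (nat_lit 6464359456) (nat_lit 57) (nat_lit 5) (nat_lit 61) (nat_lit 5) (nat_lit 58) (nat_lit 5) (nat_lit 372) (nat_lit 339) (nat_lit 189)) (XT.lf (nat_lit 0) (nat_lit 26313971397) (nat_lit 152) (nat_lit 39684421250) (nat_lit 228) (nat_lit 5079270946)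 (nat_lit 55) (nat_lit 5) (nat_lit 57) (nat_lit 5) (nat_lit 58) (nat_lit 5) (nat_lit 373) (nat_lit 339) (nat_lit 188))) (XT.nd (nat_lit 78) (nat_lit 228) (nat_lit 0) (XT.lf (nat_lit 0) (nat_lit 8866787906) (nat_lit 228) (nat_lit 6587411656) (nat_lit 76) (nat_lit 57913647054) (nat_lit 54) (nat_lit 5) (nat_lit 57) (nat_lit 5) (nat_lit 55) (nat_lit 5) (nat_lit 374) (nat_lit 339) (nat_lit 187)) (XT.lf (nat_lit 0) (nat_lit 24042959931) (nat_lit 304) (nat_lit 41390775583) (nat_lit 76) (nat_lit 10299465328) (nat_lit 51) (nat_lit 5) (nat_lit 55) (nat_lit 5) (nat_lit 52) (nat_lit 5) (nat_lit 375) (nat_lit 339) (nat_lit 186))))))))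
noncomputable def xc194 : XT := (XT.nd (nat_lit 1872) (nat_lit 988) (nat_lit 0) (XT.nd (nat_lit 936) (nat_lit 912) (nat_lit 0) (XT.nd (nat_lit 468) (nat_lit 532) (nat_lit 0) (XT.nd (nat_lit 234) (nat_lit 228) (nat_lit 0) (XT.nd (nat_lit 78) (nat_lit 304) (nat_lit 0) (XT.lf (nat_lit 0) (nat_lit 40343183974) (nat_lit 304) (nat_lit 921311228) (nat_lit 76) (nat_lit 36934066109) (nat_lit 51) (nat_lit 5) (nat_lit 55) (nat_lit 5) (nat_lit 52) (nat_lit 5) (nat_lit 376) (nat_lit 339) (nat_lit 185)) (XT.nd (nat_lit 78) (nat_lit 152) (nat_lit 0) (XT.lf (nat_lit 0) (nat_lit 42943865686) (nat_lit 152) (nat_lit 15183604781) (nat_lit 228) (nat_lit 22626267447) (nat_lit 49) (nat_lit 5) (nat_lit 51) (nat_lit 5) (nat_lit 52) (nat_lit 5) (nat_lit 377) (nat_lit 339) (nat_lit 184)) (XT.lf (nat_lit 0) (nat_lit 5584113813) (nat_lit 152) (nat_lit 71508994744) (nat_lit 228) (nat_lit 6328958565) (nat_lit 47) (nat_lit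 5) (nat_lit 49) (nat_lit 5) (nat_lit 50) (nat_lit 5) (nat_lit 378) (nat_lit 339) (nat_lit 183)))) (XT.nd (nat_lit 78) (nat_lit 152) (nat_lit 0) (XT.lf (nat_lit 0) (nat_lit 11336429841) (nat_lit 228) (nat_lit 34161353107) (nat_lit 76) (nat_lit 40672695395) (nat_lit 46) (nat_lit 5) (nat_lit 49) (nat_lit 5) (nat_lit 47) (nat_lit 5) (nat_lit 379) (nat_lit 339) (nat_lit 182)) (XT.nd (nat_lit 78) (nat_lit 0) (nat_lit 0) (XT.lf (nat_lit 0) (nat_lit 11976489648) (nat_lit 152) (nat_lit 17881563510) (nat_lit 228) (nat_lit 59183786848) (nat_lit 44) (nat_lit 5) (nat_lit 46) (nat_lit 5) (nat_lit 47) (nat_lit 5) (nat_lit 380) (nat_lit 339) (nat_lit 181)) (XT.lf (nat_lit 0) (nat_lit 50066015115) (nat_lit 228) (nat_lit 30605815239) (nat_lit 76) (nat_lit 11346927049) (nat_lit 44) (nat_lit 5) (nat_lit 47) (nat_lit 5) (nat_lit 45) (nat_lit 5) (nat_lit 381) (nat_lit 339) (nat_lit 180))))) (XT.nd (nat_lit 234)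 (nat_lit 152) (nat_lit 0) (XT.nd (nat_lit 78) (nat_lit 228) (nat_lit 0) (XT.lf (nat_lit 0) (nat_lit 18472728264) (nat_lit 152) (nat_lit 53391951294) (nat_lit 228) (nat_lit 23250826395) (nat_lit 42) (nat_lit 5) (nat_lit 44) (nat_lit 5) (nat_lit 45) (nat_lit 5) (nat_lit 382) (nat_lit 339) (nat_lit 179)) (XT.nd (nat_lit 78) (nat_lit 228) (nat_lit 0) (XT.lf (nat_lit 0) (nat_lit 71065726482) (nat_lit 152) (nat_lit 24204655553) (nat_lit 228) (nat_lit 3070855131) (nat_lit 42) (nat_lit 5) (nat_lit 44) (nat_lit 5) (nat_lit 45) (nat_lit 5) (nat_lit 383) (nat_lit 339) (nat_lit 178)) (XT.lf (nat_lit 0) (nat_lit 18040198725) (nat_lit 228) (nat_lit 76728299756) (nat_lit 76) (nat_lit 6920514321) (nat_lit 39) (nat_lit 5) (nat_lit 42) (nat_lit 5) (nat_lit 40) (nat_lit 5) (nat_lit 384) (nat_lit 339) (nat_lit 177)))) (XT.nd (nat_lit 78) (nat_lit 152) (nat_lit 0) (XT.lf (nat_lit 0) (nat_lit 40968731092) (nat_lit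 228) (nat_lit 24882094539) (nat_lit 76) (nat_lit 39307578573) (nat_lit 39) (nat_lit 5) (nat_lit 42) (nat_lit 5) (nat_lit 40) (nat_lit 5) (nat_lit 385) (nat_lit 339) (nat_lit 176)) (XT.nd (nat_lit 78) (nat_lit 0) (nat_lit 0) (XT.lf (nat_lit 0) (nat_lit 30531728270) (nat_lit 152) (nat_lit 34987535801) (nat_lit 228) (nat_lit 43258222796) (nat_lit 37) (nat_lit 5) (nat_lit 39) (nat_lit 5) (nat_lit 40) (nat_lit 5) (nat_lit 386) (nat_lit 339) (nat_lit 175)) (XT.lf (nat_lit 0) (nat_lit 89578224334) (nat_lit 152) (nat_lit 2139401607) (nat_lit 228) (nat_lit 20838882985) (nat_lit 37) (nat_lit 5) (nat_lit 39) (nat_lit 5) (nat_lit 40) (nat_lit 5) (nat_lit 387) (nat_lit 339) (nat_lit 174)))))) (XT.nd (nat_lit 468) (nat_lit 456) (nat_lit 0) (XT.nd (nat_lit 234) (nat_lit 152) (nat_lit 0) (XT.nd (nat_lit 78) (nat_lit 152) (nat_lit 0) (XT.lf (nat_lit 0) (nat_lit 3693590307) (nat_lit 152) (nat_lit 80843108108)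 (nat_lit 76) (nat_lit 31931743726) (nat_lit 35) (nat_lit 5) (nat_lit 37) (nat_lit 5) (nat_lit 36) (nat_lit 5) (nat_lit 388) (nat_lit 339) (nat_lit 173)) (XT.nd (nat_lit 78) (nat_lit 152) (nat_lit 0) (XT.lf (nat_lit 0) (nat_lit 29181921102) (nat_lit 152) (nat_lit 22984524626) (nat_lit 76) (nat_lit 68370967712) (nat_lit 35) (nat_lit 5) (nat_lit 37) (nat_lit 5) (nat_lit 36) (nat_lit 5) (nat_lit 389) (nat_lit 339) (nat_lit 172)) (XT.lf (nat_lit 0) (nat_lit 39013939548) (nat_lit 152) (nat_lit 17538852437) (nat_lit 228) (nat_lit 68226635449) (nat_lit 33) (nat_lit 5) (nat_lit 35) (nat_lit 5) (nat_lit 36) (nat_lit 5) (nat_lit 390) (nat_lit 339) (nat_lit 171)))) (XT.nd (nat_lit 78) (nat_lit 152) (nat_lit 0) (XT.lf (nat_lit 0) (nat_lit 85980692203) (nat_lit 228) (nat_lit 24605745316) (nat_lit 76) (nat_lit 18612680611) (nat_lit 33) (nat_lit 5) (nat_lit 36) (nat_lit 5) (nat_lit 34) (nat_lit 4) (nat_lit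 391) (nat_lit 339) (nat_lit 170)) (XT.nd (nat_lit 78) (nat_lit 76) (nat_lit 0) (XT.lf (nat_lit 0) (nat_lit 40622987135) (nat_lit 76) (nat_lit 77177823721) (nat_lit 152) (nat_lit 15992941613) (nat_lit 32) (nat_lit 5) (nat_lit 33) (nat_lit 5) (nat_lit 34) (nat_lit 4) (nat_lit 392) (nat_lit 339) (nat_lit 169)) (XT.lf (nat_lit 0) (nat_lit 12613343982) (nat_lit 152) (nat_lit 28834995619) (nat_lit 76) (nat_lit 97138817545) (nat_lit 31) (nat_lit 5) (nat_lit 33) (nat_lit 5) (nat_lit 32) (nat_lit 5) (nat_lit 393) (nat_lit 339) (nat_lit 168))))) (XT.nd (nat_lit 234) (nat_lit 228) (nat_lit 0) (XT.nd (nat_lit 78) (nat_lit 76) (nat_lit 0) (XT.lf (nat_lit 0) (nat_lit 39725250122) (nat_lit 152) (nat_lit 3006559307) (nat_lit 228) (nat_lit 100844347236) (nat_lit 29) (nat_lit 5) (nat_lit 31) (nat_lit 5) (nat_lit 32) (nat_lit 5) (nat_lit 394) (nat_lit 339) (nat_lit 167)) (XT.nd (nat_lit 78) (nat_lit 76) (nat_lit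 0) (XT.lf (nat_lit 0) (nat_lit 75434908465) (nat_lit 228) (nat_lit 36668449663) (nat_lit 76) (nat_lit 36657312746) (nat_lit 29) (nat_lit 5) (nat_lit 32) (nat_lit 5) (nat_lit 30) (nat_lit 4) (nat_lit 395) (nat_lit 339) (nat_lit 166)) (XT.lf (nat_lit 0) (nat_lit 34940640397) (nat_lit 76) (nat_lit 75426491154) (nat_lit 152) (nat_lit 43807581006) (nat_lit 28) (nat_lit 5) (nat_lit 29) (nat_lit 5) (nat_lit 30) (nat_lit 4) (nat_lit 396) (nat_lit 339) (nat_lit 165)))) (XT.nd (nat_lit 78) (nat_lit 228) (nat_lit 0) (XT.lf (nat_lit 0) (nat_lit 111401734751) (nat_lit 76) (nat_lit 36264405553) (nat_lit 152) (nat_lit 12162307503) (nat_lit 28) (nat_lit 5) (nat_lit 29) (nat_lit 5) (nat_lit 30) (nat_lit 4) (nat_lit 397) (nat_lit 339) (nat_lit 164)) (XT.nd (nat_lit 78) (nat_lit 0) (nat_lit 0) (XT.lf (nat_lit 0) (nat_lit 20890926560) (nat_lit 228) (nat_lit 139378969353) (nat_lit 76) (nat_lit 5453533941) (nat_lit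 25) (nat_lit 5) (nat_lit 28) (nat_lit 5) (nat_lit 26) (nat_lit 4) (nat_lit 398) (nat_lit 339) (nat_lit 163)) (XT.lf (nat_lit 0) (nat_lit 56615370380) (nat_lit 228) (nat_lit 66145477998) (nat_lit 76) (nat_lit 49070979634) (nat_lit 25) (nat_lit 5) (nat_lit 28) (nat_lit 5) (nat_lit 26) (nat_lit 4) (nat_lit 399) (nat_lit 339) (nat_lit 162))))))) (XT.nd (nat_lit 936) (nat_lit 456) (nat_lit 0) (XT.nd (nat_lit 468) (nat_lit 228) (nat_lit 0) (XT.nd (nat_lit 234) (nat_lit 228) (nat_lit 0) (XT.nd (nat_lit 78) (nat_lit 0) (nat_lit 0) (XT.lf (nat_lit 0) (nat_lit 11103687597) (nat_lit 76) (nat_lit 83194954491) (nat_lit 152) (nat_lit 83938373877) (nat_lit 24) (nat_lit 5) (nat_lit 25) (nat_lit 5) (nat_lit 26) (nat_lit 4) (nat_lit 400) (nat_lit 339) (nat_lit 161)) (XT.nd (nat_lit 78) (nat_lit 0) (nat_lit 0) (XT.lf (nat_lit 0) (nat_lit 94510367818) (nat_lit 76) (nat_lit 40475175844) (nat_lit 152) (nat_lit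 49920946502) (nat_lit 24) (nat_lit 5) (nat_lit 25) (nat_lit 5) (nat_lit 26) (nat_lit 4) (nat_lit 401) (nat_lit 339) (nat_lit 160)) (XT.lf (nat_lit 0) (nat_lit 177774470134) (nat_lit 152) (nat_lit 9891775672) (nat_lit 0) (nat_lit 4239808430) (nat_lit 24) (nat_lit 5) (nat_lit 26) (nat_lit 4) (nat_lit 24) (nat_lit 4) (nat_lit 402) (nat_lit 339) (nat_lit 159)))) (XT.nd (nat_lit 78) (nat_lit 76) (nat_lit 0) (XT.lf (nat_lit 0) (nat_lit 24583174365) (nat_lit 152) (nat_lit 123140422372) (nat_lit 76) (nat_lit 51419376742) (nat_lit 22) (nat_lit 5) (nat_lit 24) (nat_lit 5) (nat_lit 23) (nat_lit 4) (nat_lit 403) (nat_lit 339) (nat_lit 158)) (XT.nd (nat_lit 78) (nat_lit 76) (nat_lit 0) (XT.lf (nat_lit 0) (nat_lit 64928347509) (nat_lit 152) (nat_lit 40434025160) (nat_lit 76) (nat_lit 101359303352) (nat_lit 22) (nat_lit 5) (nat_lit 24) (nat_lit 5) (nat_lit 23) (nat_lit 4) (nat_lit 404) (nat_lit 339) (nat_lit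 157)) (XT.lf (nat_lit 0) (nat_lit 47940894857) (nat_lit 76) (nat_lit 60097730816) (nat_lit 152) (nat_lit 106603295826) (nat_lit 21) (nat_lit 5) (nat_lit 22) (nat_lit 5) (nat_lit 23) (nat_lit 4) (nat_lit 405) (nat_lit 339) (nat_lit 156))))) (XT.nd (nat_lit 234) (nat_lit 76) (nat_lit 0) (XT.nd (nat_lit 78) (nat_lit 152) (nat_lit 0) (XT.lf (nat_lit 0) (nat_lit 142137153276) (nat_lit 76) (nat_lit 11851401113) (nat_lit 152) (nat_lit 68935418151) (nat_lit 21) (nat_lit 5) (nat_lit 22) (nat_lit 5) (nat_lit 23) (nat_lit 4) (nat_lit 406) (nat_lit 339) (nat_lit 155)) (XT.nd (nat_lit 78) (nat_lit 76) (nat_lit 0) (XT.lf (nat_lit 0) (nat_lit 9107556059) (nat_lit 76) (nat_lit 193875896604) (nat_lit 76) (nat_lit 28599299931) (nat_lit 20) (nat_lit 4) (nat_lit 21) (nat_lit 5) (nat_lit 21) (nat_lit 4) (nat_lit 407) (nat_lit 339) (nat_lit 154)) (XT.lf (nat_lit 0) (nat_lit 14897690664) (nat_lit 152) (nat_lit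 134737277101) (nat_lit 76) (nat_lit 90949553943) (nat_lit 19) (nat_lit 5) (nat_lit 21) (nat_lit 5) (nat_lit 20) (nat_lit 4) (nat_lit 408) (nat_lit 339) (nat_lit 153)))) (XT.nd (nat_lit 78) (nat_lit 76) (nat_lit 0) (XT.lf (nat_lit 0) (nat_lit 59607826086) (nat_lit 152) (nat_lit 43082400712) (nat_lit 76) (nat_lit 147322739563) (nat_lit 19) (nat_lit 5) (nat_lit 21) (nat_lit 5) (nat_lit 20) (nat_lit 4) (nat_lit 409) (nat_lit 339) (nat_lit 152)) (XT.nd (nat_lit 78) (nat_lit 0) (nat_lit 0) (XT.lf (nat_lit 0) (nat_lit 54911690781) (nat_lit 76) (nat_lit 52498549845) (nat_lit 152) (nat_lit 152459754102) (nat_lit 18) (nat_lit 5) (nat_lit 19) (nat_lit 5) (nat_lit 20) (nat_lit 4) (nat_lit 410) (nat_lit 339) (nat_lit 151)) (XT.lf (nat_lit 0) (nat_lit 158346972731) (nat_lit 152) (nat_lit 110898357338) (nat_lit 0) (nat_lit 937334690) (nat_lit 18) (nat_lit 5) (nat_lit 20) (nat_lit 4) (nat_lit 18) (nat_lit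 4) (nat_lit 411) (nat_lit 339) (nat_lit 150)))))) (XT.nd (nat_lit 468) (nat_lit 228) (nat_lit 0) (XT.nd (nat_lit 234) (nat_lit 76) (nat_lit 0) (XT.nd (nat_lit 78) (nat_lit 152) (nat_lit 0) (XT.lf (nat_lit 0) (nat_lit 212690649259) (nat_lit 152) (nat_lit 12997043956) (nat_lit 0) (nat_lit 55280269775) (nat_lit 18) (nat_lit 5) (nat_lit 20) (nat_lit 4) (nat_lit 18) (nat_lit 4) (nat_lit 412) (nat_lit 339) (nat_lit 149)) (XT.nd (nat_lit 78) (nat_lit 76) (nat_lit 0) (XT.lf (nat_lit 0) (nat_lit 92767524174) (nat_lit 76) (nat_lit 178431847283) (nat_lit 76) (nat_lit 21020761664) (nat_lit 17) (nat_lit 4) (nat_lit 18) (nat_lit 5) (nat_lit 18) (nat_lit 4) (nat_lit 413) (nat_lit 339) (nat_lit 148)) (XT.lf (nat_lit 0) (nat_lit 27906505101) (nat_lit 152) (nat_lit 100203422670) (nat_lit 76) (nat_lit 175891497759) (nat_lit 16) (nat_lit 5) (nat_lit 18) (nat_lit 5) (nat_lit 17) (nat_lit 4) (nat_lit 414) (nat_lit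 339) (nat_lit 147)))) (XT.nd (nat_lit 78) (nat_lit 0) (nat_lit 0) (XT.lf (nat_lit 0) (nat_lit 3783819215) (nat_lit 76) (nat_lit 74848482165) (nat_lit 152) (nat_lit 237719321040) (nat_lit 15) (nat_lit 5) (nat_lit 16) (nat_lit 5) (nat_lit 17) (nat_lit 4) (nat_lit 415) (nat_lit 339) (nat_lit 146)) (XT.nd (nat_lit 78) (nat_lit 0) (nat_lit 0) (XT.lf (nat_lit 0) (nat_lit 116448367491) (nat_lit 76) (nat_lit 17142547675) (nat_lit 152) (nat_lit 195643587669) (nat_lit 15) (nat_lit 5) (nat_lit 16) (nat_lit 5) (nat_lit 17) (nat_lit 4) (nat_lit 416) (nat_lit 339) (nat_lit 145)) (XT.lf (nat_lit 0) (nat_lit 191975365441) (nat_lit 152) (nat_lit 108694605492) (nat_lit 0) (nat_lit 42057661115) (nat_lit 15) (nat_lit 5) (nat_lit 17) (nat_lit 4) (nat_lit 15) (nat_lit 4) (nat_lit 417) (nat_lit 339) (nat_lit 144))))) (XT.nd (nat_lit 234) (nat_lit 76) (nat_lit 0) (XT.nd (nat_lit 78) (nat_lit 76) (nat_lit 0) (XT.lf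 (nat_lit 0) (nat_lit 330220126) (nat_lit 76) (nat_lit 253234570642) (nat_lit 76) (nat_lit 103316339387) (nat_lit 14) (nat_lit 4) (nat_lit 15) (nat_lit 5) (nat_lit 15) (nat_lit 4) (nat_lit 418) (nat_lit 339) (nat_lit 143)) (XT.nd (nat_lit 78) (nat_lit 76) (nat_lit 0) (XT.lf (nat_lit 0) (nat_lit 118579107124) (nat_lit 76) (nat_lit 201494955222) (nat_lit 76) (nat_lit 51576222130) (nat_lit 14) (nat_lit 4) (nat_lit 15) (nat_lit 5) (nat_lit 15) (nat_lit 4) (nat_lit 419) (nat_lit 339) (nat_lit 142)) (XT.lf (nat_lit 0) (nat_lit 2662447637) (nat_lit 152) (nat_lit 144461193374) (nat_lit 76) (nat_lit 240032128458) (nat_lit 13) (nat_lit 5) (nat_lit 15) (nat_lit 5) (nat_lit 14) (nat_lit 4) (nat_lit 420) (nat_lit 339) (nat_lit 141)))) (XT.nd (nat_lit 156) (nat_lit 0) (nat_lit 0) (XT.nd (nat_lit 78) (nat_lit 76) (nat_lit 0) (XT.lf (nat_lit 0) (nat_lit 57879363683) (nat_lit 152) (nat_lit 31266970663) (nat_lit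 76) (nat_lit 314247938224) (nat_lit 13) (nat_lit 5) (nat_lit 15) (nat_lit 5) (nat_lit 14) (nat_lit 4) (nat_lit 421) (nat_lit 339) (nat_lit 140)) (XT.lf (nat_lit 0) (nat_lit 90482247187) (nat_lit 76) (nat_lit 26787190328) (nat_lit 152) (nat_lit 303104647758) (nat_lit 12) (nat_lit 5) (nat_lit 13) (nat_lit 5) (nat_lit 14) (nat_lit 4) (nat_lit 422) (nat_lit 339) (nat_lit 139))) (XT.nd (nat_lit 78) (nat_lit 0) (nat_lit 0) (XT.lf (nat_lit 0) (nat_lit 180770906816) (nat_lit 152) (nat_lit 219385420992) (nat_lit 0) (nat_lit 37989466261) (nat_lit 12) (nat_lit 5) (nat_lit 14) (nat_lit 4) (nat_lit 12) (nat_lit 4) (nat_lit 423) (nat_lit 339) (nat_lit 138)) (XT.lf (nat_lit 0) (nat_lit 247886233263) (nat_lit 152) (nat_lit 103793497671) (nat_lit 0) (nat_lit 105104418229) (nat_lit 12) (nat_lit 5) (nat_lit 14) (nat_lit 4) (nat_lit 12) (nat_lit 4) (nat_lit 424) (nat_lit 339) (nat_lit 137))))))))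
noncomputable def xc195 : XT := (XT.nd (nat_lit 41574) (nat_lit 0) (nat_lit 2660) (XT.nd (nat_lit 40560) (nat_lit 0) (nat_lit 6232) (XT.nd (nat_lit 468) (nat_lit 0) (nat_lit 0) (XT.nd (nat_lit 234) (nat_lit 152) (nat_lit 0) (XT.nd (nat_lit 78) (nat_lit 0) (nat_lit 0) (XT.lf (nat_lit 0) (nat_lit 18158561213) (nat_lit 76) (nat_lit 300481936957) (nat_lit 76) (nat_lit 157699765277) (nat_lit 11) (nat_lit 4) (nat_lit 12) (nat_lit 5) (nat_lit 12) (nat_lit 4) (nat_lit 425) (nat_lit 339) (nat_lit 136)) (XT.nd (nat_lit 78) (nat_lit 0) (nat_lit 0) (XT.lf (nat_lit 0) (nat_lit 149811061398) (nat_lit 76) (nat_lit 244878880087) (nat_lit 76) (nat_lit 102096368743) (nat_lit 11) (nat_lit 4) (nat_lit 12) (nat_lit 5) (nat_lit 12) (nat_lit 4) (nat_lit 426) (nat_lit 339) (nat_lit 135)) (XT.lf (nat_lit 0) (nat_lit 288045579437) (nat_lit 76) (nat_lit 186495965198) (nat_lit 76) (nat_lit 43713130365) (nat_lit 11)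 (nat_lit 4) (nat_lit 12) (nat_lit 5) (nat_lit 12) (nat_lit 4) (nat_lit 427) (nat_lit 339) (nat_lit 134)))) (XT.nd (nat_lit 78) (nat_lit 76) (nat_lit 0) (XT.lf (nat_lit 0) (nat_lit 17026001079) (nat_lit 152) (nat_lit 107879840705) (nat_lit 76) (nat_lit 415876900492) (nat_lit 10) (nat_lit 5) (nat_lit 12) (nat_lit 5) (nat_lit 11) (nat_lit 4) (nat_lit 428) (nat_lit 339) (nat_lit 133)) (XT.nd (nat_lit 78) (nat_lit 0) (nat_lit 0) (XT.lf (nat_lit 0) (nat_lit 20504995864) (nat_lit 76) (nat_lit 59147897889) (nat_lit 152) (nat_lit 484732496134) (nat_lit 9) (nat_lit 5) (nat_lit 10) (nat_lit 5) (nat_lit 11) (nat_lit 4) (nat_lit 429) (nat_lit 339) (nat_lit 132)) (XT.lf (nat_lit 0) (nat_lit 147422326721) (nat_lit 152) (nat_lit 430207447898) (nat_lit 0) (nat_lit 11437835508) (nat_lit 9) (nat_lit 5) (nat_lit 11) (nat_lit 4) (nat_lit 9) (nat_lit 4) (nat_lit 430) (nat_lit 339) (nat_lit 131))))) (XT.nd (nat_lit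 39858) (nat_lit 0) (nat_lit 7372) (XT.nd (nat_lit 78) (nat_lit 0) (nat_lit 0) (XT.lf (nat_lit 0) (nat_lit 219549595624) (nat_lit 152) (nat_lit 311821026622) (nat_lit 0) (nat_lit 83564850949) (nat_lit 9) (nat_lit 5) (nat_lit 11) (nat_lit 4) (nat_lit 9) (nat_lit 4) (nat_lit 431) (nat_lit 339) (nat_lit 130)) (XT.nd (nat_lit 39702) (nat_lit 0) (nat_lit 7372) (XT.lf (nat_lit 0) (nat_lit 295282967608) (nat_lit 152) (nat_lit 187515793314) (nat_lit 0) (nat_lit 159297981541) (nat_lit 9) (nat_lit 5) (nat_lit 11) (nat_lit 4) (nat_lit 9) (nat_lit 4) (nat_lit 432) (nat_lit 339) (nat_lit 129)) (XT.lf (nat_lit 0) (nat_lit 1935488598) (nat_lit 836) (nat_lit 6212723853) (nat_lit 836) (nat_lit 6212723853) (nat_lit 106) (nat_lit 3) (nat_lit 117) (nat_lit 3) (nat_lit 117) (nat_lit 5) (nat_lit 340) (nat_lit 340) (nat_lit 220)))) (XT.nd (nat_lit 78) (nat_lit 0) (nat_lit 76) (XT.lf (nat_lit 76) (nat_lit 1341237470)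 (nat_lit 0) (nat_lit 2724687177) (nat_lit 836) (nat_lit 25369019192) (nat_lit 107) (nat_lit 5) (nat_lit 106) (nat_lit 3) (nat_lit 117) (nat_lit 5) (nat_lit 341) (nat_lit 340) (nat_lit 219)) (XT.nd (nat_lit 78) (nat_lit 0) (nat_lit 0) (XT.lf (nat_lit 0) (nat_lit 4659497828) (nat_lit 760) (nat_lit 14131876946) (nat_lit 836) (nat_lit 11372854224) (nat_lit 107) (nat_lit 5) (nat_lit 117) (nat_lit 5) (nat_lit 118) (nat_lit 5) (nat_lit 342) (nat_lit 340) (nat_lit 218)) (XT.lf (nat_lit 76) (nat_lit 496434453) (nat_lit 0) (nat_lit 4834018853) (nat_lit 836) (nat_lit 25597144007) (nat_lit 108) (nat_lit 5) (nat_lit 107) (nat_lit 5) (nat_lit 118) (nat_lit 5) (nat_lit 343) (nat_lit 340) (nat_lit 217)))))) (XT.nd (nat_lit 468) (nat_lit 1292) (nat_lit 0) (XT.nd (nat_lit 234) (nat_lit 0) (nat_lit 76) (XT.nd (nat_lit 78) (nat_lit 0) (nat_lit 0) (XT.lf (nat_lit 0) (nat_lit 6427040880) (nat_lit 760) (nat_lit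 15530682878) (nat_lit 836) (nat_lit 9751809956) (nat_lit 108) (nat_lit 5) (nat_lit 118) (nat_lit 5) (nat_lit 119) (nat_lit 5) (nat_lit 344) (nat_lit 340) (nat_lit 216)) (XT.nd (nat_lit 78) (nat_lit 0) (nat_lit 76) (XT.lf (nat_lit 76) (nat_lit 33756602) (nat_lit 0) (nat_lit 7620183207) (nat_lit 836) (nat_lit 24872856727) (nat_lit 109) (nat_lit 5) (nat_lit 108) (nat_lit 5) (nat_lit 119) (nat_lit 5) (nat_lit 345) (nat_lit 340) (nat_lit 215)) (XT.lf (nat_lit 0) (nat_lit 9321472875) (nat_lit 760) (nat_lit 16579626283) (nat_lit 836) (nat_lit 7464862408) (nat_lit 109) (nat_lit 5) (nat_lit 119) (nat_lit 5) (nat_lit 120) (nat_lit 5) (nat_lit 346) (nat_lit 340) (nat_lit 214)))) (XT.nd (nat_lit 78) (nat_lit 0) (nat_lit 76) (XT.lf (nat_lit 76) (nat_lit 1654707) (nat_lit 0) (nat_lit 11191759070) (nat_lit 836) (nat_lit 23047622870) (nat_lit 110) (nat_lit 5) (nat_lit 109) (nat_lit 5) (nat_lit 120) (nat_lit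 5) (nat_lit 347) (nat_lit 340) (nat_lit 213)) (XT.nd (nat_lit 78) (nat_lit 0) (nat_lit 0) (XT.lf (nat_lit 0) (nat_lit 13506980257) (nat_lit 760) (nat_lit 17232318038) (nat_lit 836) (nat_lit 4403168955) (nat_lit 110) (nat_lit 5) (nat_lit 120) (nat_lit 5) (nat_lit 121) (nat_lit 5) (nat_lit 348) (nat_lit 340) (nat_lit 212)) (XT.lf (nat_lit 76) (nat_lit 453186022) (nat_lit 0) (nat_lit 15670004597) (nat_lit 836) (nat_lit 19956433533) (nat_lit 111) (nat_lit 5) (nat_lit 110) (nat_lit 5) (nat_lit 121) (nat_lit 5) (nat_lit 349) (nat_lit 340) (nat_lit 211))))) (XT.nd (nat_lit 234) (nat_lit 760) (nat_lit 0) (XT.nd (nat_lit 78) (nat_lit 760) (nat_lit 0) (XT.lf (nat_lit 0) (nat_lit 19165770862) (nat_lit 760) (nat_lit 17438066942) (nat_lit 76) (nat_lit 445026026) (nat_lit 111) (nat_lit 5) (nat_lit 121) (nat_lit 5) (nat_lit 112) (nat_lit 5) (nat_lit 350) (nat_lit 340) (nat_lit 210)) (XT.nd (nat_lit 78)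 (nat_lit 0) (nat_lit 0) (XT.lf (nat_lit 0) (nat_lit 1446188113) (nat_lit 760) (nat_lit 21190473117) (nat_lit 836) (nat_lit 15416097969) (nat_lit 101) (nat_lit 5) (nat_lit 111) (nat_lit 5) (nat_lit 112) (nat_lit 5) (nat_lit 351) (nat_lit 340) (nat_lit 209)) (XT.lf (nat_lit 0) (nat_lit 21877177168) (nat_lit 760) (nat_lit 4696069032) (nat_lit 836) (nat_lit 12518998262) (nat_lit 101) (nat_lit 5) (nat_lit 111) (nat_lit 5) (nat_lit 112) (nat_lit 5) (nat_lit 352) (nat_lit 340) (nat_lit 208)))) (XT.nd (nat_lit 156) (nat_lit 380) (nat_lit 0) (XT.nd (nat_lit 78) (nat_lit 0) (nat_lit 0) (XT.lf (nat_lit 0) (nat_lit 3043429935) (nat_lit 380) (nat_lit 27904811460) (nat_lit 456) (nat_lit 9223386050) (nat_lit 96) (nat_lit 5) (nat_lit 101) (nat_lit 5) (nat_lit 102) (nat_lit 5) (nat_lit 353) (nat_lit 340) (nat_lit 207)) (XT.lf (nat_lit 0) (nat_lit 24830127765) (nat_lit 380) (nat_lit 11076229332) (nat_lit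 456) (nat_lit 5380406328) (nat_lit 96) (nat_lit 5) (nat_lit 101) (nat_lit 5) (nat_lit 102) (nat_lit 5) (nat_lit 354) (nat_lit 340) (nat_lit 206))) (XT.nd (nat_lit 78) (nat_lit 76) (nat_lit 0) (XT.lf (nat_lit 0) (nat_lit 5312729321) (nat_lit 304) (nat_lit 35982765243) (nat_lit 380) (nat_lit 1153008113) (nat_lit 92) (nat_lit 5) (nat_lit 96) (nat_lit 5) (nat_lit 97) (nat_lit 5) (nat_lit 355) (nat_lit 340) (nat_lit 205)) (XT.lf (nat_lit 0) (nat_lit 3642706672) (nat_lit 380) (nat_lit 15152854707) (nat_lit 76) (nat_lit 24847099003) (nat_lit 91) (nat_lit 5) (nat_lit 96) (nat_lit 5) (nat_lit 92) (nat_lit 5) (nat_lit 356) (nat_lit 340) (nat_lit 204))))))) (XT.nd (nat_lit 936) (nat_lit 1520) (nat_lit 0) (XT.nd (nat_lit 468) (nat_lit 1064) (nat_lit 0) (XT.nd (nat_lit 234) (nat_lit 304) (nat_lit 0) (XT.nd (nat_lit 78) (nat_lit 304) (nat_lit 0) (XT.lf (nat_lit 0) (nat_lit 8168991288) (nat_lit 380) (nat_lit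 595402420) (nat_lit 456) (nat_lit 36124942381) (nat_lit 86) (nat_lit 5) (nat_lit 91) (nat_lit 5) (nat_lit 92) (nat_lit 5) (nat_lit 357) (nat_lit 340) (nat_lit 203)) (XT.nd (nat_lit 78) (nat_lit 304) (nat_lit 0) (XT.lf (nat_lit 0) (nat_lit 14689532804) (nat_lit 456) (nat_lit 13298641956) (nat_lit 76) (nat_lit 18182804305) (nat_lit 86) (nat_lit 5) (nat_lit 92) (nat_lit 5) (nat_lit 87) (nat_lit 5) (nat_lit 358) (nat_lit 340) (nat_lit 202)) (XT.lf (nat_lit 0) (nat_lit 11654688493) (nat_lit 304) (nat_lit 9445556282) (nat_lit 380) (nat_lit 26406995400) (nat_lit 82) (nat_lit 5) (nat_lit 86) (nat_lit 5) (nat_lit 87) (nat_lit 5) (nat_lit 359) (nat_lit 340) (nat_lit 201)))) (XT.nd (nat_lit 78) (nat_lit 304) (nat_lit 0) (XT.lf (nat_lit 0) (nat_lit 28214569534) (nat_lit 380) (nat_lit 10744655841) (nat_lit 76) (nat_lit 9931936801) (nat_lit 82) (nat_lit 5) (nat_lit 87) (nat_lit 5) (nat_lit 83) (nat_lit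 5) (nat_lit 360) (nat_lit 340) (nat_lit 200)) (XT.nd (nat_lit 78) (nat_lit 0) (nat_lit 0) (XT.lf (nat_lit 0) (nat_lit 15972348439) (nat_lit 304) (nat_lit 20114252199) (nat_lit 380) (nat_lit 14237581748) (nat_lit 78) (nat_lit 5) (nat_lit 82) (nat_lit 5) (nat_lit 83) (nat_lit 5) (nat_lit 361) (nat_lit 340) (nat_lit 199)) (XT.lf (nat_lit 0) (nat_lit 44395619894) (nat_lit 304) (nat_lit 136416455) (nat_lit 380) (nat_lit 7287828643) (nat_lit 78) (nat_lit 5) (nat_lit 82) (nat_lit 5) (nat_lit 83) (nat_lit 5) (nat_lit 362) (nat_lit 340) (nat_lit 198))))) (XT.nd (nat_lit 234) (nat_lit 456) (nat_lit 0) (XT.nd (nat_lit 78) (nat_lit 304) (nat_lit 0) (XT.lf (nat_lit 0) (nat_lit 674140978) (nat_lit 304) (nat_lit 32168188099) (nat_lit 76) (nat_lit 20514745194) (nat_lit 74) (nat_lit 5) (nat_lit 78) (nat_lit 5) (nat_lit 75) (nat_lit 5) (nat_lit 363) (nat_lit 340) (nat_lit 197)) (XT.nd (nat_lit 78) (nat_lit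 304) (nat_lit 0) (XT.lf (nat_lit 0) (nat_lit 8917278784) (nat_lit 304) (nat_lit 3600814143) (nat_lit 76) (nat_lit 42440679359) (nat_lit 74) (nat_lit 5) (nat_lit 78) (nat_lit 5) (nat_lit 75) (nat_lit 5) (nat_lit 364) (nat_lit 340) (nat_lit 196)) (XT.lf (nat_lit 0) (nat_lit 18141024670) (nat_lit 380) (nat_lit 29498988591) (nat_lit 76) (nat_lit 8972120646) (nat_lit 70) (nat_lit 5) (nat_lit 75) (nat_lit 5) (nat_lit 71) (nat_lit 5) (nat_lit 365) (nat_lit 340) (nat_lit 195)))) (XT.nd (nat_lit 78) (nat_lit 228) (nat_lit 0) (XT.lf (nat_lit 0) (nat_lit 964830530) (nat_lit 228) (nat_lit 27141487615) (nat_lit 304) (nat_lit 30227828654) (nat_lit 67) (nat_lit 5) (nat_lit 70) (nat_lit 5) (nat_lit 71) (nat_lit 5) (nat_lit 366) (nat_lit 340) (nat_lit 194)) (XT.nd (nat_lit 78) (nat_lit 228) (nat_lit 0) (XT.lf (nat_lit 0) (nat_lit 33973483698) (nat_lit 228) (nat_lit 5094124449) (nat_lit 304) (nat_lit 21049766745)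 (nat_lit 67) (nat_lit 5) (nat_lit 70) (nat_lit 5) (nat_lit 71) (nat_lit 5) (nat_lit 367) (nat_lit 340) (nat_lit 193)) (XT.lf (nat_lit 0) (nat_lit 6568689784) (nat_lit 228) (nat_lit 44390957715) (nat_lit 304) (nat_lit 11010983739) (nat_lit 64) (nat_lit 5) (nat_lit 67) (nat_lit 5) (nat_lit 68) (nat_lit 5) (nat_lit 368) (nat_lit 340) (nat_lit 192)))))) (XT.nd (nat_lit 468) (nat_lit 836) (nat_lit 0) (XT.nd (nat_lit 234) (nat_lit 380) (nat_lit 0) (XT.nd (nat_lit 78) (nat_lit 228) (nat_lit 0) (XT.lf (nat_lit 0) (nat_lit 76565612) (nat_lit 304) (nat_lit 22155757377) (nat_lit 76) (nat_lit 41658006716) (nat_lit 63) (nat_lit 5) (nat_lit 67) (nat_lit 5) (nat_lit 64) (nat_lit 5) (nat_lit 369) (nat_lit 340) (nat_lit 191)) (XT.nd (nat_lit 78) (nat_lit 0) (nat_lit 0) (XT.lf (nat_lit 0) (nat_lit 11571941754) (nat_lit 304) (nat_lit 52923867132) (nat_lit 76) (nat_lit 1390005227) (nat_lit 60) (nat_lit 5)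 (nat_lit 64) (nat_lit 5) (nat_lit 61) (nat_lit 5) (nat_lit 370) (nat_lit 340) (nat_lit 190)) (XT.lf (nat_lit 0) (nat_lit 24386284317) (nat_lit 304) (nat_lit 17730583420) (nat_lit 76) (nat_lit 25826996024) (nat_lit 60) (nat_lit 5) (nat_lit 64) (nat_lit 5) (nat_lit 61) (nat_lit 5) (nat_lit 371) (nat_lit 340) (nat_lit 189)))) (XT.nd (nat_lit 78) (nat_lit 152) (nat_lit 0) (XT.lf (nat_lit 0) (nat_lit 19855590622) (nat_lit 228) (nat_lit 18294196429) (nat_lit 304) (nat_lit 31939607544) (nat_lit 57) (nat_lit 5) (nat_lit 60) (nat_lit 5) (nat_lit 61) (nat_lit 5) (nat_lit 372) (nat_lit 340) (nat_lit 188)) (XT.nd (nat_lit 78) (nat_lit 152) (nat_lit 0) (XT.lf (nat_lit 0) (nat_lit 53010045016) (nat_lit 304) (nat_lit 12502689012) (nat_lit 76) (nat_lit 6809039753) (nat_lit 57) (nat_lit 5) (nat_lit 61) (nat_lit 5) (nat_lit 58) (nat_lit 5) (nat_lit 373) (nat_lit 340) (nat_lit 187)) (XT.lf (nat_lit 0) (nat_lit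 27699436013) (nat_lit 152) (nat_lit 41644793032) (nat_lit 228) (nat_lit 5284997999) (nat_lit 55) (nat_lit 5) (nat_lit 57) (nat_lit 5) (nat_lit 58) (nat_lit 5) (nat_lit 374) (nat_lit 340) (nat_lit 186))))) (XT.nd (nat_lit 234) (nat_lit 532) (nat_lit 0) (XT.nd (nat_lit 78) (nat_lit 228) (nat_lit 0) (XT.lf (nat_lit 0) (nat_lit 9354596468) (nat_lit 228) (nat_lit 6848846365) (nat_lit 76) (nat_lit 60830550987) (nat_lit 54) (nat_lit 5) (nat_lit 57) (nat_lit 5) (nat_lit 55) (nat_lit 5) (nat_lit 375) (nat_lit 340) (nat_lit 185)) (XT.nd (nat_lit 78) (nat_lit 0) (nat_lit 0) (XT.lf (nat_lit 0) (nat_lit 25288869118) (nat_lit 304) (nat_lit 43391649876) (nat_lit 76) (nat_lit 10837133193) (nat_lit 51) (nat_lit 5) (nat_lit 55) (nat_lit 5) (nat_lit 52) (nat_lit 5) (nat_lit 376) (nat_lit 340) (nat_lit 184)) (XT.lf (nat_lit 0) (nat_lit 42402020498) (nat_lit 304) (nat_lit 901982041) (nat_lit 76) (nat_lit 38802383319)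 (nat_lit 51) (nat_lit 5) (nat_lit 55) (nat_lit 5) (nat_lit 52) (nat_lit 5) (nat_lit 377) (nat_lit 340) (nat_lit 183)))) (XT.nd (nat_lit 156) (nat_lit 228) (nat_lit 0) (XT.nd (nat_lit 78) (nat_lit 152) (nat_lit 0) (XT.lf (nat_lit 0) (nat_lit 45155398965) (nat_lit 152) (nat_lit 15919142243) (nat_lit 228) (nat_lit 23714830023) (nat_lit 49) (nat_lit 5) (nat_lit 51) (nat_lit 5) (nat_lit 52) (nat_lit 5) (nat_lit 378) (nat_lit 340) (nat_lit 182)) (XT.lf (nat_lit 0) (nat_lit 5928279038) (nat_lit 152) (nat_lit 75059609955) (nat_lit 228) (nat_lit 6603257408) (nat_lit 47) (nat_lit 5) (nat_lit 49) (nat_lit 5) (nat_lit 50) (nat_lit 5) (nat_lit 379) (nat_lit 340) (nat_lit 181))) (XT.nd (nat_lit 78) (nat_lit 152) (nat_lit 0) (XT.lf (nat_lit 0) (nat_lit 11942108525) (nat_lit 228) (nat_lit 35806253575) (nat_lit 76) (nat_lit 42728681130) (nat_lit 46) (nat_lit 5) (nat_lit 49) (nat_lit 5) (nat_lit 47) (nat_lit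 5) (nat_lit 380) (nat_lit 340) (nat_lit 180)) (XT.lf (nat_lit 0) (nat_lit 12637462492) (nat_lit 152) (nat_lit 18751470484) (nat_lit 228) (nat_lit 62103084773) (nat_lit 44) (nat_lit 5) (nat_lit 46) (nat_lit 5) (nat_lit 47) (nat_lit 5) (nat_lit 381) (nat_lit 340) (nat_lit 179))))))))
noncomputable def xc196 : XT := (XT.nd (nat_lit 1872) (nat_lit 988) (nat_lit 0) (XT.nd (nat_lit 936) (nat_lit 760) (nat_lit 0) (XT.nd (nat_lit 468) (nat_lit 380) (nat_lit 0) (XT.nd (nat_lit 234) (nat_lit 380) (nat_lit 0) (XT.nd (nat_lit 78) (nat_lit 152) (nat_lit 0) (XT.lf (nat_lit 0) (nat_lit 52605844004) (nat_lit 228) (nat_lit 32075453393) (nat_lit 76) (nat_lit 11936556804) (nat_lit 44) (nat_lit 5) (nat_lit 47) (nat_lit 5) (nat_lit 45) (nat_lit 5) (nat_lit 382) (nat_lit 340) (nat_lit 178)) (XT.nd (nat_lit 78) (nat_lit 0) (nat_lit 0) (XT.lf (nat_lit 0) (nat_lit 19456039017) (nat_lit 152) (nat_lit 56037594900)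 (nat_lit 228) (nat_lit 24375847346) (nat_lit 42) (nat_lit 5) (nat_lit 44) (nat_lit 5) (nat_lit 45) (nat_lit 5) (nat_lit 383) (nat_lit 340) (nat_lit 177)) (XT.lf (nat_lit 0) (nat_lit 74675845511) (nat_lit 152) (nat_lit 25392075037) (nat_lit 228) (nat_lit 3188664203) (nat_lit 42) (nat_lit 5) (nat_lit 44) (nat_lit 5) (nat_lit 45) (nat_lit 5) (nat_lit 384) (nat_lit 340) (nat_lit 176)))) (XT.nd (nat_lit 78) (nat_lit 152) (nat_lit 0) (XT.lf (nat_lit 0) (nat_lit 18976404804) (nat_lit 228) (nat_lit 80506319761) (nat_lit 76) (nat_lit 7289017004) (nat_lit 39) (nat_lit 5) (nat_lit 42) (nat_lit 5) (nat_lit 40) (nat_lit 5) (nat_lit 385) (nat_lit 340) (nat_lit 175)) (XT.nd (nat_lit 78) (nat_lit 152) (nat_lit 0) (XT.lf (nat_lit 0) (nat_lit 43049735402) (nat_lit 228) (nat_lit 26070584996) (nat_lit 76) (nat_lit 41294364137) (nat_lit 39) (nat_lit 5) (nat_lit 42) (nat_lit 5) (nat_lit 40) (nat_lit 5) (nat_lit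 386) (nat_lit 340) (nat_lit 174)) (XT.lf (nat_lit 0) (nat_lit 32113031949) (nat_lit 152) (nat_lit 36714066525) (nat_lit 228) (nat_lit 45387658233) (nat_lit 37) (nat_lit 5) (nat_lit 39) (nat_lit 5) (nat_lit 40) (nat_lit 5) (nat_lit 387) (nat_lit 340) (nat_lit 173))))) (XT.nd (nat_lit 234) (nat_lit 228) (nat_lit 0) (XT.nd (nat_lit 78) (nat_lit 152) (nat_lit 0) (XT.lf (nat_lit 0) (nat_lit 94109247232) (nat_lit 152) (nat_lit 2224613529) (nat_lit 228) (nat_lit 21848945512) (nat_lit 37) (nat_lit 5) (nat_lit 39) (nat_lit 5) (nat_lit 40) (nat_lit 5) (nat_lit 388) (nat_lit 340) (nat_lit 172)) (XT.nd (nat_lit 78) (nat_lit 0) (nat_lit 0) (XT.lf (nat_lit 0) (nat_lit 3908822449) (nat_lit 152) (nat_lit 84831803455) (nat_lit 76) (nat_lit 33549701259) (nat_lit 35) (nat_lit 5) (nat_lit 37) (nat_lit 5) (nat_lit 36) (nat_lit 5) (nat_lit 389) (nat_lit 340) (nat_lit 171)) (XT.lf (nat_lit 0) (nat_lit 30670114896)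 (nat_lit 152) (nat_lit 24082836516) (nat_lit 76) (nat_lit 71809868808) (nat_lit 35) (nat_lit 5) (nat_lit 37) (nat_lit 5) (nat_lit 36) (nat_lit 5) (nat_lit 390) (nat_lit 340) (nat_lit 170)))) (XT.nd (nat_lit 78) (nat_lit 76) (nat_lit 0) (XT.lf (nat_lit 0) (nat_lit 41014729667) (nat_lit 152) (nat_lit 18394196144) (nat_lit 228) (nat_lit 71608039708) (nat_lit 33) (nat_lit 5) (nat_lit 35) (nat_lit 5) (nat_lit 36) (nat_lit 5) (nat_lit 391) (nat_lit 340) (nat_lit 169)) (XT.nd (nat_lit 78) (nat_lit 76) (nat_lit 0) (XT.lf (nat_lit 0) (nat_lit 90307185334) (nat_lit 228) (nat_lit 25787280954) (nat_lit 76) (nat_lit 19563226655) (nat_lit 33) (nat_lit 5) (nat_lit 36) (nat_lit 5) (nat_lit 34) (nat_lit 4) (nat_lit 392) (nat_lit 340) (nat_lit 168)) (XT.lf (nat_lit 0) (nat_lit 42702101803) (nat_lit 76) (nat_lit 81015649441) (nat_lit 152) (nat_lit 16764336078) (nat_lit 32) (nat_lit 5) (nat_lit 33) (nat_lit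 5) (nat_lit 34) (nat_lit 4) (nat_lit 393) (nat_lit 340) (nat_lit 167)))))) (XT.nd (nat_lit 468) (nat_lit 228) (nat_lit 0) (XT.nd (nat_lit 234) (nat_lit 304) (nat_lit 0) (XT.nd (nat_lit 78) (nat_lit 152) (nat_lit 0) (XT.lf (nat_lit 0) (nat_lit 13270057233) (nat_lit 152) (nat_lit 30230195897) (nat_lit 76) (nat_lit 102014952516) (nat_lit 31) (nat_lit 5) (nat_lit 33) (nat_lit 5) (nat_lit 32) (nat_lit 5) (nat_lit 394) (nat_lit 340) (nat_lit 166)) (XT.nd (nat_lit 78) (nat_lit 0) (nat_lit 0) (XT.lf (nat_lit 0) (nat_lit 41757311333) (nat_lit 152) (nat_lit 3136609378) (nat_lit 228) (nat_lit 105859761028) (nat_lit 29) (nat_lit 5) (nat_lit 31) (nat_lit 5) (nat_lit 32) (nat_lit 5) (nat_lit 395) (nat_lit 340) (nat_lit 165)) (XT.lf (nat_lit 0) (nat_lit 79231260940) (nat_lit 228) (nat_lit 38457334175) (nat_lit 76) (nat_lit 38508872551) (nat_lit 29) (nat_lit 5) (nat_lit 32) (nat_lit 5) (nat_lit 30) (nat_lit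 4) (nat_lit 396) (nat_lit 340) (nat_lit 164)))) (XT.nd (nat_lit 78) (nat_lit 228) (nat_lit 0) (XT.lf (nat_lit 0) (nat_lit 36731492033) (nat_lit 76) (nat_lit 79178115531) (nat_lit 152) (nat_lit 45972628555) (nat_lit 28) (nat_lit 5) (nat_lit 29) (nat_lit 5) (nat_lit 30) (nat_lit 4) (nat_lit 397) (nat_lit 340) (nat_lit 163)) (XT.nd (nat_lit 78) (nat_lit 228) (nat_lit 0) (XT.lf (nat_lit 0) (nat_lit 117013554456) (nat_lit 76) (nat_lit 38058863753) (nat_lit 152) (nat_lit 12746297639) (nat_lit 28) (nat_lit 5) (nat_lit 29) (nat_lit 5) (nat_lit 30) (nat_lit 4) (nat_lit 398) (nat_lit 340) (nat_lit 162)) (XT.lf (nat_lit 0) (nat_lit 21958662488) (nat_lit 228) (nat_lit 146305238421) (nat_lit 76) (nat_lit 5744535692) (nat_lit 25) (nat_lit 5) (nat_lit 28) (nat_lit 5) (nat_lit 26) (nat_lit 4) (nat_lit 399) (nat_lit 340) (nat_lit 161))))) (XT.nd (nat_lit 234) (nat_lit 152) (nat_lit 0) (XT.nd (nat_lit 78)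 (nat_lit 76) (nat_lit 0) (XT.lf (nat_lit 0) (nat_lit 59468224232) (nat_lit 228) (nat_lit 69412104852) (nat_lit 76) (nat_lit 51541981048) (nat_lit 25) (nat_lit 5) (nat_lit 28) (nat_lit 5) (nat_lit 26) (nat_lit 4) (nat_lit 400) (nat_lit 340) (nat_lit 160)) (XT.nd (nat_lit 78) (nat_lit 0) (nat_lit 0) (XT.lf (nat_lit 0) (nat_lit 11698863426) (nat_lit 76) (nat_lit 87336368795) (nat_lit 152) (nat_lit 88112546865) (nat_lit 24) (nat_lit 5) (nat_lit 25) (nat_lit 5) (nat_lit 26) (nat_lit 4) (nat_lit 401) (nat_lit 340) (nat_lit 159)) (XT.lf (nat_lit 0) (nat_lit 99273973303) (nat_lit 76) (nat_lit 42481474236) (nat_lit 152) (nat_lit 52395331250) (nat_lit 24) (nat_lit 5) (nat_lit 25) (nat_lit 5) (nat_lit 26) (nat_lit 4) (nat_lit 402) (nat_lit 340) (nat_lit 158)))) (XT.nd (nat_lit 78) (nat_lit 152) (nat_lit 0) (XT.lf (nat_lit 0) (nat_lit 186683097737) (nat_lit 152) (nat_lit 10349364102) (nat_lit 0) (nat_lit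 4467895573) (nat_lit 24) (nat_lit 5) (nat_lit 26) (nat_lit 4) (nat_lit 24) (nat_lit 4) (nat_lit 403) (nat_lit 340) (nat_lit 157)) (XT.nd (nat_lit 78) (nat_lit 0) (nat_lit 0) (XT.lf (nat_lit 0) (nat_lit 25832181796) (nat_lit 152) (nat_lit 129260379701) (nat_lit 76) (nat_lit 54006564293) (nat_lit 22) (nat_lit 5) (nat_lit 24) (nat_lit 5) (nat_lit 23) (nat_lit 4) (nat_lit 404) (nat_lit 340) (nat_lit 156)) (XT.lf (nat_lit 0) (nat_lit 68193668420) (nat_lit 152) (nat_lit 42420427570) (nat_lit 76) (nat_lit 106442714914) (nat_lit 22) (nat_lit 5) (nat_lit 24) (nat_lit 5) (nat_lit 23) (nat_lit 4) (nat_lit 405) (nat_lit 340) (nat_lit 155))))))) (XT.nd (nat_lit 936) (nat_lit 456) (nat_lit 0) (XT.nd (nat_lit 468) (nat_lit 228) (nat_lit 0) (XT.nd (nat_lit 234) (nat_lit 152) (nat_lit 0) (XT.nd (nat_lit 78) (nat_lit 76) (nat_lit 0) (XT.lf (nat_lit 0) (nat_lit 50372669111) (nat_lit 76) (nat_lit 63086433438)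 (nat_lit 152) (nat_lit 111913984182) (nat_lit 21) (nat_lit 5) (nat_lit 22) (nat_lit 5) (nat_lit 23) (nat_lit 4) (nat_lit 406) (nat_lit 340) (nat_lit 154)) (XT.nd (nat_lit 78) (nat_lit 76) (nat_lit 0) (XT.lf (nat_lit 0) (nat_lit 149277086665) (nat_lit 76) (nat_lit 12428557912) (nat_lit 152) (nat_lit 72363640073) (nat_lit 21) (nat_lit 5) (nat_lit 22) (nat_lit 5) (nat_lit 23) (nat_lit 4) (nat_lit 407) (nat_lit 340) (nat_lit 153)) (XT.lf (nat_lit 0) (nat_lit 9596111563) (nat_lit 76) (nat_lit 203554082314) (nat_lit 76) (nat_lit 30010814686) (nat_lit 20) (nat_lit 4) (nat_lit 21) (nat_lit 5) (nat_lit 21) (nat_lit 4) (nat_lit 408) (nat_lit 340) (nat_lit 152)))) (XT.nd (nat_lit 78) (nat_lit 76) (nat_lit 0) (XT.lf (nat_lit 0) (nat_lit 15659584453) (nat_lit 152) (nat_lit 141441977811) (nat_lit 76) (nat_lit 95511332135) (nat_lit 19) (nat_lit 5) (nat_lit 21) (nat_lit 5) (nat_lit 20) (nat_lit 4) (nat_lit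 409) (nat_lit 340) (nat_lit 151)) (XT.nd (nat_lit 78) (nat_lit 76) (nat_lit 0) (XT.lf (nat_lit 0) (nat_lit 62604416682) (nat_lit 152) (nat_lit 45205889181) (nat_lit 76) (nat_lit 154702496060) (nat_lit 19) (nat_lit 5) (nat_lit 21) (nat_lit 5) (nat_lit 20) (nat_lit 4) (nat_lit 410) (nat_lit 340) (nat_lit 150)) (XT.lf (nat_lit 0) (nat_lit 57687412829) (nat_lit 76) (nat_lit 55109238255) (nat_lit 152) (nat_lit 160066045799) (nat_lit 18) (nat_lit 5) (nat_lit 19) (nat_lit 5) (nat_lit 20) (nat_lit 4) (nat_lit 411) (nat_lit 340) (nat_lit 149))))) (XT.nd (nat_lit 234) (nat_lit 152) (nat_lit 0) (XT.nd (nat_lit 78) (nat_lit 76) (nat_lit 0) (XT.lf (nat_lit 0) (nat_lit 166279674453) (nat_lit 152) (nat_lit 116414024941) (nat_lit 0) (nat_lit 997328417) (nat_lit 18) (nat_lit 5) (nat_lit 20) (nat_lit 4) (nat_lit 18) (nat_lit 4) (nat_lit 412) (nat_lit 340) (nat_lit 148)) (XT.nd (nat_lit 78) (nat_lit 76) (nat_lit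 0) (XT.lf (nat_lit 0) (nat_lit 223339803708) (nat_lit 152) (nat_lit 13619038759) (nat_lit 0) (nat_lit 58056785161) (nat_lit 18) (nat_lit 5) (nat_lit 20) (nat_lit 4) (nat_lit 18) (nat_lit 4) (nat_lit 413) (nat_lit 340) (nat_lit 147)) (XT.lf (nat_lit 0) (nat_lit 97433308464) (nat_lit 76) (nat_lit 187340385184) (nat_lit 76) (nat_lit 22056726151) (nat_lit 17) (nat_lit 4) (nat_lit 18) (nat_lit 5) (nat_lit 18) (nat_lit 4) (nat_lit 414) (nat_lit 340) (nat_lit 146)))) (XT.nd (nat_lit 78) (nat_lit 76) (nat_lit 0) (XT.lf (nat_lit 0) (nat_lit 29315726686) (nat_lit 152) (nat_lit 105187029310) (nat_lit 76) (nat_lit 184698043911) (nat_lit 16) (nat_lit 5) (nat_lit 18) (nat_lit 5) (nat_lit 17) (nat_lit 4) (nat_lit 415) (nat_lit 340) (nat_lit 145)) (XT.nd (nat_lit 78) (nat_lit 0) (nat_lit 0) (XT.lf (nat_lit 0) (nat_lit 3999146210) (nat_lit 76) (nat_lit 78578412896) (nat_lit 152) (nat_lit 249590960318) (nat_lit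 15) (nat_lit 5) (nat_lit 16) (nat_lit 5) (nat_lit 17) (nat_lit 4) (nat_lit 416) (nat_lit 340) (nat_lit 144)) (XT.lf (nat_lit 0) (nat_lit 122295677327) (nat_lit 76) (nat_lit 17987776605) (nat_lit 152) (nat_lit 205412122507) (nat_lit 15) (nat_lit 5) (nat_lit 16) (nat_lit 5) (nat_lit 17) (nat_lit 4) (nat_lit 417) (nat_lit 340) (nat_lit 143)))))) (XT.nd (nat_lit 468) (nat_lit 228) (nat_lit 0) (XT.nd (nat_lit 234) (nat_lit 152) (nat_lit 0) (XT.nd (nat_lit 78) (nat_lit 76) (nat_lit 0) (XT.lf (nat_lit 0) (nat_lit 201586684927) (nat_lit 152) (nat_lit 114105186021) (nat_lit 0) (nat_lit 44171513342) (nat_lit 15) (nat_lit 5) (nat_lit 17) (nat_lit 4) (nat_lit 15) (nat_lit 4) (nat_lit 418) (nat_lit 340) (nat_lit 142)) (XT.nd (nat_lit 78) (nat_lit 0) (nat_lit 0) (XT.lf (nat_lit 0) (nat_lit 370491365) (nat_lit 76) (nat_lit 265884863442) (nat_lit 76) (nat_lit 108469213917) (nat_lit 14) (nat_lit 4) (nat_lit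 15) (nat_lit 5) (nat_lit 15) (nat_lit 4) (nat_lit 419) (nat_lit 340) (nat_lit 141)) (XT.lf (nat_lit 0) (nat_lit 124530691274) (nat_lit 76) (nat_lit 211558811809) (nat_lit 76) (nat_lit 54142707103) (nat_lit 14) (nat_lit 4) (nat_lit 15) (nat_lit 5) (nat_lit 15) (nat_lit 4) (nat_lit 420) (nat_lit 340) (nat_lit 140)))) (XT.nd (nat_lit 78) (nat_lit 76) (nat_lit 0) (XT.lf (nat_lit 0) (nat_lit 2806933467) (nat_lit 152) (nat_lit 151662324604) (nat_lit 76) (nat_lit 252043730220) (nat_lit 13) (nat_lit 5) (nat_lit 15) (nat_lit 5) (nat_lit 14) (nat_lit 4) (nat_lit 421) (nat_lit 340) (nat_lit 139)) (XT.nd (nat_lit 78) (nat_lit 76) (nat_lit 0) (XT.lf (nat_lit 0) (nat_lit 60784154198) (nat_lit 152) (nat_lit 32809434968) (nat_lit 76) (nat_lit 329969854506) (nat_lit 13) (nat_lit 5) (nat_lit 15) (nat_lit 5) (nat_lit 14) (nat_lit 4) (nat_lit 422) (nat_lit 340) (nat_lit 138)) (XT.lf (nat_lit 0) (nat_lit 95026906932)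 (nat_lit 76) (nat_lit 28116630243) (nat_lit 152) (nat_lit 318248719630) (nat_lit 12) (nat_lit 5) (nat_lit 13) (nat_lit 5) (nat_lit 14) (nat_lit 4) (nat_lit 423) (nat_lit 340) (nat_lit 137))))) (XT.nd (nat_lit 234) (nat_lit 152) (nat_lit 0) (XT.nd (nat_lit 78) (nat_lit 76) (nat_lit 0) (XT.lf (nat_lit 0) (nat_lit 189819721354) (nat_lit 152) (nat_lit 230334763237) (nat_lit 0) (nat_lit 39898084443) (nat_lit 12) (nat_lit 5) (nat_lit 14) (nat_lit 4) (nat_lit 12) (nat_lit 4) (nat_lit 424) (nat_lit 340) (nat_lit 136)) (XT.nd (nat_lit 78) (nat_lit 76) (nat_lit 0) (XT.lf (nat_lit 0) (nat_lit 260290325114) (nat_lit 152) (nat_lit 108964192741) (nat_lit 0) (nat_lit 110368348539) (nat_lit 12) (nat_lit 5) (nat_lit 14) (nat_lit 4) (nat_lit 12) (nat_lit 4) (nat_lit 425) (nat_lit 340) (nat_lit 135)) (XT.lf (nat_lit 0) (nat_lit 19085162962) (nat_lit 76) (nat_lit 315496966130) (nat_lit 76) (nat_lit 165574666067)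 (nat_lit 11) (nat_lit 4) (nat_lit 12) (nat_lit 5) (nat_lit 12) (nat_lit 4) (nat_lit 426) (nat_lit 340) (nat_lit 134)))) (XT.nd (nat_lit 156) (nat_lit 152) (nat_lit 0) (XT.nd (nat_lit 78) (nat_lit 0) (nat_lit 0) (XT.lf (nat_lit 0) (nat_lit 157319398932) (nat_lit 76) (nat_lit 257114188210) (nat_lit 76) (nat_lit 107191580062) (nat_lit 11) (nat_lit 4) (nat_lit 12) (nat_lit 5) (nat_lit 12) (nat_lit 4) (nat_lit 427) (nat_lit 340) (nat_lit 133)) (XT.lf (nat_lit 0) (nat_lit 302464795995) (nat_lit 76) (nat_lit 195812538809) (nat_lit 76) (nat_lit 45889637247) (nat_lit 11) (nat_lit 4) (nat_lit 12) (nat_lit 5) (nat_lit 12) (nat_lit 4) (nat_lit 428) (nat_lit 340) (nat_lit 132))) (XT.nd (nat_lit 78) (nat_lit 76) (nat_lit 0) (XT.lf (nat_lit 0) (nat_lit 17885736171) (nat_lit 152) (nat_lit 113257421851) (nat_lit 76) (nat_lit 436678298660) (nat_lit 10) (nat_lit 5) (nat_lit 12) (nat_lit 5) (nat_lit 11) (nat_lit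 4) (nat_lit 429) (nat_lit 340) (nat_lit 131)) (XT.lf (nat_lit 0) (nat_lit 21546391855) (nat_lit 76) (nat_lit 62097432044) (nat_lit 152) (nat_lit 508960420301) (nat_lit 9) (nat_lit 5) (nat_lit 10) (nat_lit 5) (nat_lit 11) (nat_lit 4) (nat_lit 430) (nat_lit 340) (nat_lit 130))))))))
noncomputable def xc197 : XT := (XT.nd (nat_lit 41652) (nat_lit 0) (nat_lit 2128) (XT.nd (nat_lit 40638) (nat_lit 0) (nat_lit 5244) (XT.nd (nat_lit 40170) (nat_lit 0) (nat_lit 7524) (XT.nd (nat_lit 39936) (nat_lit 0) (nat_lit 7372) (XT.nd (nat_lit 78) (nat_lit 0) (nat_lit 0) (XT.lf (nat_lit 0) (nat_lit 154801450853) (nat_lit 152) (nat_lit 451702164435) (nat_lit 0) (nat_lit 12016974090) (nat_lit 9) (nat_lit 5) (nat_lit 11) (nat_lit 4) (nat_lit 9) (nat_lit 4) (nat_lit 431) (nat_lit 340) (nat_lit 129)) (XT.nd (nat_lit 39780) (nat_lit 0) (nat_lit 7372) (XT.lf (nat_lit 0) (nat_lit 230534701878) (nat_lit 152) (nat_lit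 327397167612) (nat_lit 0) (nat_lit 87749995217) (nat_lit 9) (nat_lit 5) (nat_lit 11) (nat_lit 4) (nat_lit 9) (nat_lit 4) (nat_lit 432) (nat_lit 340) (nat_lit 128)) (XT.lf (nat_lit 0) (nat_lit 2108289757) (nat_lit 836) (nat_lit 6483413068) (nat_lit 836) (nat_lit 6483413068) (nat_lit 106) (nat_lit 3) (nat_lit 117) (nat_lit 3) (nat_lit 117) (nat_lit 5) (nat_lit 341) (nat_lit 341) (nat_lit 218)))) (XT.nd (nat_lit 78) (nat_lit 0) (nat_lit 76) (XT.lf (nat_lit 76) (nat_lit 1486904686) (nat_lit 0) (nat_lit 2928356260) (nat_lit 836) (nat_lit 26484002579) (nat_lit 107) (nat_lit 5) (nat_lit 106) (nat_lit 3) (nat_lit 117) (nat_lit 5) (nat_lit 342) (nat_lit 341) (nat_lit 217)) (XT.nd (nat_lit 78) (nat_lit 0) (nat_lit 0) (XT.lf (nat_lit 0) (nat_lit 5030555788) (nat_lit 760) (nat_lit 14755532038) (nat_lit 836) (nat_lit 11879328942) (nat_lit 107) (nat_lit 5) (nat_lit 117) (nat_lit 5) (nat_lit 118) (nat_lit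 5) (nat_lit 343) (nat_lit 341) (nat_lit 216)) (XT.lf (nat_lit 76) (nat_lit 602857210) (nat_lit 0) (nat_lit 5126900467) (nat_lit 836) (nat_lit 26737466582) (nat_lit 108) (nat_lit 5) (nat_lit 107) (nat_lit 5) (nat_lit 118) (nat_lit 5) (nat_lit 344) (nat_lit 341) (nat_lit 215))))) (XT.nd (nat_lit 234) (nat_lit 0) (nat_lit 76) (XT.nd (nat_lit 78) (nat_lit 0) (nat_lit 0) (XT.lf (nat_lit 0) (nat_lit 6874090668) (nat_lit 760) (nat_lit 16222309377) (nat_lit 836) (nat_lit 10192217053) (nat_lit 108) (nat_lit 5) (nat_lit 118) (nat_lit 5) (nat_lit 119) (nat_lit 5) (nat_lit 345) (nat_lit 341) (nat_lit 214)) (XT.nd (nat_lit 78) (nat_lit 0) (nat_lit 76) (XT.lf (nat_lit 76) (nat_lit 118982600) (nat_lit 0) (nat_lit 8038670603) (nat_lit 836) (nat_lit 25989329090) (nat_lit 109) (nat_lit 5) (nat_lit 108) (nat_lit 5) (nat_lit 119) (nat_lit 5) (nat_lit 346) (nat_lit 341) (nat_lit 213)) (XT.lf (nat_lit 0) (nat_lit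 9902242959) (nat_lit 760) (nat_lit 17322629141) (nat_lit 836) (nat_lit 7803554388) (nat_lit 109) (nat_lit 5) (nat_lit 119) (nat_lit 5) (nat_lit 120) (nat_lit 5) (nat_lit 347) (nat_lit 341) (nat_lit 212)))) (XT.nd (nat_lit 78) (nat_lit 0) (nat_lit 76) (XT.lf (nat_lit 76) (nat_lit 86329149) (nat_lit 0) (nat_lit 11777310735) (nat_lit 836) (nat_lit 24083827172) (nat_lit 110) (nat_lit 5) (nat_lit 109) (nat_lit 5) (nat_lit 120) (nat_lit 5) (nat_lit 348) (nat_lit 341) (nat_lit 211)) (XT.nd (nat_lit 78) (nat_lit 0) (nat_lit 0) (XT.lf (nat_lit 0) (nat_lit 14287234081) (nat_lit 760) (nat_lit 18007630610) (nat_lit 836) (nat_lit 4599391488) (nat_lit 110) (nat_lit 5) (nat_lit 120) (nat_lit 5) (nat_lit 121) (nat_lit 5) (nat_lit 349) (nat_lit 341) (nat_lit 210)) (XT.lf (nat_lit 76) (nat_lit 560756664) (nat_lit 0) (nat_lit 16469828535) (nat_lit 836) (nat_lit 20847873464) (nat_lit 111) (nat_lit 5) (nat_lit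 110) (nat_lit 5) (nat_lit 121) (nat_lit 5) (nat_lit 350) (nat_lit 341) (nat_lit 209)))))) (XT.nd (nat_lit 468) (nat_lit 1064) (nat_lit 0) (XT.nd (nat_lit 234) (nat_lit 684) (nat_lit 0) (XT.nd (nat_lit 78) (nat_lit 760) (nat_lit 0) (XT.lf (nat_lit 0) (nat_lit 20220231015) (nat_lit 760) (nat_lit 18223958006) (nat_lit 76) (nat_lit 452228520) (nat_lit 111) (nat_lit 5) (nat_lit 121) (nat_lit 5) (nat_lit 112) (nat_lit 5) (nat_lit 351) (nat_lit 341) (nat_lit 208)) (XT.nd (nat_lit 78) (nat_lit 0) (nat_lit 0) (XT.lf (nat_lit 0) (nat_lit 1603122506) (nat_lit 760) (nat_lit 22258285027) (nat_lit 836) (nat_lit 16089266915) (nat_lit 101) (nat_lit 5) (nat_lit 111) (nat_lit 5) (nat_lit 112) (nat_lit 5) (nat_lit 352) (nat_lit 341) (nat_lit 207)) (XT.lf (nat_lit 0) (nat_lit 23051631253) (nat_lit 760) (nat_lit 4938766058) (nat_lit 836) (nat_lit 13051961554) (nat_lit 101) (nat_lit 5) (nat_lit 111) (nat_lit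 5) (nat_lit 112) (nat_lit 5) (nat_lit 353) (nat_lit 341) (nat_lit 206)))) (XT.nd (nat_lit 78) (nat_lit 304) (nat_lit 0) (XT.lf (nat_lit 0) (nat_lit 3279443262) (nat_lit 380) (nat_lit 29301676885) (nat_lit 456) (nat_lit 9594745450) (nat_lit 96) (nat_lit 5) (nat_lit 101) (nat_lit 5) (nat_lit 102) (nat_lit 5) (nat_lit 354) (nat_lit 341) (nat_lit 205)) (XT.nd (nat_lit 78) (nat_lit 304) (nat_lit 0) (XT.lf (nat_lit 0) (nat_lit 26151483515) (nat_lit 380) (nat_lit 11631588277) (nat_lit 456) (nat_lit 5563893404) (nat_lit 96) (nat_lit 5) (nat_lit 101) (nat_lit 5) (nat_lit 102) (nat_lit 5) (nat_lit 355) (nat_lit 341) (nat_lit 204)) (XT.lf (nat_lit 0) (nat_lit 5661020710) (nat_lit 304) (nat_lit 37778036848) (nat_lit 380) (nat_lit 1127867452) (nat_lit 92) (nat_lit 5) (nat_lit 96) (nat_lit 5) (nat_lit 97) (nat_lit 5) (nat_lit 356) (nat_lit 341) (nat_lit 203))))) (XT.nd (nat_lit 234) (nat_lit 608) (nat_lit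 0) (XT.nd (nat_lit 78) (nat_lit 380) (nat_lit 0) (XT.lf (nat_lit 0) (nat_lit 3901166991) (nat_lit 380) (nat_lit 15829197325) (nat_lit 76) (nat_lit 26090555341) (nat_lit 91) (nat_lit 5) (nat_lit 96) (nat_lit 5) (nat_lit 92) (nat_lit 5) (nat_lit 357) (nat_lit 341) (nat_lit 202)) (XT.nd (nat_lit 78) (nat_lit 0) (nat_lit 0) (XT.lf (nat_lit 0) (nat_lit 8657429677) (nat_lit 380) (nat_lit 619123029) (nat_lit 456) (nat_lit 37853498465) (nat_lit 86) (nat_lit 5) (nat_lit 91) (nat_lit 5) (nat_lit 92) (nat_lit 5) (nat_lit 358) (nat_lit 341) (nat_lit 201)) (XT.lf (nat_lit 0) (nat_lit 15494517790) (nat_lit 456) (nat_lit 13883911104) (nat_lit 76) (nat_lit 19097521558) (nat_lit 86) (nat_lit 5) (nat_lit 92) (nat_lit 5) (nat_lit 87) (nat_lit 5) (nat_lit 359) (nat_lit 341) (nat_lit 200)))) (XT.nd (nat_lit 156) (nat_lit 304) (nat_lit 0) (XT.nd (nat_lit 78) (nat_lit 0) (nat_lit 0) (XT.lf (nat_lit 0) (nat_lit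 12315800981) (nat_lit 304) (nat_lit 9907830539) (nat_lit 380) (nat_lit 27655502273) (nat_lit 82) (nat_lit 5) (nat_lit 86) (nat_lit 5) (nat_lit 87) (nat_lit 5) (nat_lit 360) (nat_lit 341) (nat_lit 199)) (XT.lf (nat_lit 0) (nat_lit 29690565334) (nat_lit 380) (nat_lit 11204088375) (nat_lit 76) (nat_lit 10437755909) (nat_lit 82) (nat_lit 5) (nat_lit 87) (nat_lit 5) (nat_lit 83) (nat_lit 5) (nat_lit 361) (nat_lit 341) (nat_lit 198))) (XT.nd (nat_lit 78) (nat_lit 0) (nat_lit 0) (XT.lf (nat_lit 0) (nat_lit 16847511276) (nat_lit 304) (nat_lit 21106773838) (nat_lit 380) (nat_lit 14882893621) (nat_lit 78) (nat_lit 5) (nat_lit 82) (nat_lit 5) (nat_lit 83) (nat_lit 5) (nat_lit 362) (nat_lit 341) (nat_lit 197)) (XT.lf (nat_lit 0) (nat_lit 46688301285) (nat_lit 304) (nat_lit 130674449) (nat_lit 380) (nat_lit 7588822728) (nat_lit 78) (nat_lit 5) (nat_lit 82) (nat_lit 5) (nat_lit 83) (nat_lit 5) (nat_lit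 363) (nat_lit 341) (nat_lit 196))))))) (XT.nd (nat_lit 936) (nat_lit 1368) (nat_lit 0) (XT.nd (nat_lit 468) (nat_lit 684) (nat_lit 0) (XT.nd (nat_lit 234) (nat_lit 456) (nat_lit 0) (XT.nd (nat_lit 78) (nat_lit 304) (nat_lit 0) (XT.lf (nat_lit 0) (nat_lit 767666719) (nat_lit 304) (nat_lit 33700038679) (nat_lit 76) (nat_lit 21554192739) (nat_lit 74) (nat_lit 5) (nat_lit 78) (nat_lit 5) (nat_lit 75) (nat_lit 5) (nat_lit 364) (nat_lit 341) (nat_lit 195)) (XT.nd (nat_lit 78) (nat_lit 304) (nat_lit 0) (XT.lf (nat_lit 0) (nat_lit 9420112906) (nat_lit 304) (nat_lit 3707941683) (nat_lit 76) (nat_lit 44575770742) (nat_lit 74) (nat_lit 5) (nat_lit 78) (nat_lit 5) (nat_lit 75) (nat_lit 5) (nat_lit 365) (nat_lit 341) (nat_lit 194)) (XT.lf (nat_lit 0) (nat_lit 19103708661) (nat_lit 380) (nat_lit 30899652132) (nat_lit 76) (nat_lit 9436562876) (nat_lit 70) (nat_lit 5) (nat_lit 75) (nat_lit 5) (nat_lit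 71) (nat_lit 5) (nat_lit 366) (nat_lit 341) (nat_lit 193)))) (XT.nd (nat_lit 78) (nat_lit 228) (nat_lit 0) (XT.lf (nat_lit 0) (nat_lit 1086159786) (nat_lit 228) (nat_lit 28479598949) (nat_lit 304) (nat_lit 31682355555) (nat_lit 67) (nat_lit 5) (nat_lit 70) (nat_lit 5) (nat_lit 71) (nat_lit 5) (nat_lit 367) (nat_lit 341) (nat_lit 192)) (XT.nd (nat_lit 78) (nat_lit 228) (nat_lit 0) (XT.lf (nat_lit 0) (nat_lit 35741765244) (nat_lit 228) (nat_lit 5330770626) (nat_lit 304) (nat_lit 22048098385) (nat_lit 67) (nat_lit 5) (nat_lit 70) (nat_lit 5) (nat_lit 71) (nat_lit 5) (nat_lit 368) (nat_lit 341) (nat_lit 191)) (XT.lf (nat_lit 0) (nat_lit 6967898809) (nat_lit 228) (nat_lit 46590197277) (nat_lit 304) (nat_lit 11508512913) (nat_lit 64) (nat_lit 5) (nat_lit 67) (nat_lit 5) (nat_lit 68) (nat_lit 5) (nat_lit 369) (nat_lit 341) (nat_lit 190))))) (XT.nd (nat_lit 234) (nat_lit 380) (nat_lit 0) (XT.nd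 (nat_lit 78) (nat_lit 228) (nat_lit 0) (XT.lf (nat_lit 0) (nat_lit 129272980) (nat_lit 304) (nat_lit 23194497107) (nat_lit 76) (nat_lit 43758604493) (nat_lit 63) (nat_lit 5) (nat_lit 67) (nat_lit 5) (nat_lit 64) (nat_lit 5) (nat_lit 370) (nat_lit 341) (nat_lit 189)) (XT.nd (nat_lit 78) (nat_lit 0) (nat_lit 0) (XT.lf (nat_lit 0) (nat_lit 12198468288) (nat_lit 304) (nat_lit 55500036370) (nat_lit 76) (nat_lit 1479177349) (nat_lit 60) (nat_lit 5) (nat_lit 64) (nat_lit 5) (nat_lit 61) (nat_lit 5) (nat_lit 371) (nat_lit 341) (nat_lit 188)) (XT.lf (nat_lit 0) (nat_lit 25651245625) (nat_lit 304) (nat_lit 18550422954) (nat_lit 76) (nat_lit 27137080929) (nat_lit 60) (nat_lit 5) (nat_lit 64) (nat_lit 5) (nat_lit 61) (nat_lit 5) (nat_lit 372) (nat_lit 341) (nat_lit 187)))) (XT.nd (nat_lit 78) (nat_lit 152) (nat_lit 0) (XT.lf (nat_lit 0) (nat_lit 20913984150) (nat_lit 228) (nat_lit 19187790093) (nat_lit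 304) (nat_lit 33489841299) (nat_lit 57) (nat_lit 5) (nat_lit 60) (nat_lit 5) (nat_lit 61) (nat_lit 5) (nat_lit 373) (nat_lit 341) (nat_lit 186)) (XT.nd (nat_lit 78) (nat_lit 152) (nat_lit 0) (XT.lf (nat_lit 0) (nat_lit 55703240145) (nat_lit 304) (nat_lit 13063506227) (nat_lit 76) (nat_lit 7168958701) (nat_lit 57) (nat_lit 5) (nat_lit 61) (nat_lit 5) (nat_lit 58) (nat_lit 5) (nat_lit 374) (nat_lit 341) (nat_lit 185)) (XT.lf (nat_lit 0) (nat_lit 29147687674) (nat_lit 152) (nat_lit 43705400684) (nat_lit 228) (nat_lit 5505495977) (nat_lit 55) (nat_lit 5) (nat_lit 57) (nat_lit 5) (nat_lit 58) (nat_lit 5) (nat_lit 375) (nat_lit 341) (nat_lit 184)))))) (XT.nd (nat_lit 468) (nat_lit 684) (nat_lit 0) (XT.nd (nat_lit 234) (nat_lit 380) (nat_lit 0) (XT.nd (nat_lit 78) (nat_lit 228) (nat_lit 0) (XT.lf (nat_lit 0) (nat_lit 9862661137) (nat_lit 228) (nat_lit 7129668843) (nat_lit 76) (nat_lit 63891327134)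 (nat_lit 54) (nat_lit 5) (nat_lit 57) (nat_lit 5) (nat_lit 55) (nat_lit 5) (nat_lit 376) (nat_lit 341) (nat_lit 183)) (XT.nd (nat_lit 78) (nat_lit 0) (nat_lit 0) (XT.lf (nat_lit 0) (nat_lit 26593005264) (nat_lit 304) (nat_lit 45498951656) (nat_lit 76) (nat_lit 11399574523) (nat_lit 51) (nat_lit 5) (nat_lit 55) (nat_lit 5) (nat_lit 52) (nat_lit 5) (nat_lit 377) (nat_lit 341) (nat_lit 182)) (XT.lf (nat_lit 0) (nat_lit 44559924085) (nat_lit 304) (nat_lit 887766178) (nat_lit 76) (nat_lit 40762106932) (nat_lit 51) (nat_lit 5) (nat_lit 55) (nat_lit 5) (nat_lit 52) (nat_lit 5) (nat_lit 378) (nat_lit 341) (nat_lit 181)))) (XT.nd (nat_lit 78) (nat_lit 228) (nat_lit 0) (XT.lf (nat_lit 0) (nat_lit 47471527186) (nat_lit 152) (nat_lit 16693654659) (nat_lit 228) (nat_lit 24861795290) (nat_lit 49) (nat_lit 5) (nat_lit 51) (nat_lit 5) (nat_lit 52) (nat_lit 5) (nat_lit 379) (nat_lit 341) (nat_lit 180))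 (XT.nd (nat_lit 78) (nat_lit 76) (nat_lit 0) (XT.lf (nat_lit 0) (nat_lit 6283613202) (nat_lit 152) (nat_lit 78790064806) (nat_lit 228) (nat_lit 6895189815) (nat_lit 47) (nat_lit 5) (nat_lit 49) (nat_lit 5) (nat_lit 50) (nat_lit 5) (nat_lit 380) (nat_lit 341) (nat_lit 179)) (XT.lf (nat_lit 0) (nat_lit 12574458570) (nat_lit 228) (nat_lit 37539271754) (nat_lit 76) (nat_lit 44885388172) (nat_lit 46) (nat_lit 5) (nat_lit 49) (nat_lit 5) (nat_lit 47) (nat_lit 5) (nat_lit 381) (nat_lit 341) (nat_lit 178))))) (XT.nd (nat_lit 234) (nat_lit 380) (nat_lit 0) (XT.nd (nat_lit 78) (nat_lit 152) (nat_lit 0) (XT.lf (nat_lit 0) (nat_lit 13325706012) (nat_lit 152) (nat_lit 19667120016) (nat_lit 228) (nat_lit 65172056320) (nat_lit 44) (nat_lit 5) (nat_lit 46) (nat_lit 5) (nat_lit 47) (nat_lit 5) (nat_lit 382) (nat_lit 341) (nat_lit 177)) (XT.nd (nat_lit 78) (nat_lit 152) (nat_lit 0) (XT.lf (nat_lit 0) (nat_lit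 55269268298) (nat_lit 228) (nat_lit 33624212359) (nat_lit 76) (nat_lit 12553596347) (nat_lit 44) (nat_lit 5) (nat_lit 47) (nat_lit 5) (nat_lit 45) (nat_lit 5) (nat_lit 383) (nat_lit 341) (nat_lit 176)) (XT.lf (nat_lit 0) (nat_lit 20482967354) (nat_lit 152) (nat_lit 58817747699) (nat_lit 228) (nat_lit 25560607633) (nat_lit 42) (nat_lit 5) (nat_lit 44) (nat_lit 5) (nat_lit 45) (nat_lit 5) (nat_lit 384) (nat_lit 341) (nat_lit 175)))) (XT.nd (nat_lit 156) (nat_lit 152) (nat_lit 0) (XT.nd (nat_lit 78) (nat_lit 228) (nat_lit 0) (XT.lf (nat_lit 0) (nat_lit 78461186725) (nat_lit 152) (nat_lit 26640986459) (nat_lit 228) (nat_lit 3315685908) (nat_lit 42) (nat_lit 5) (nat_lit 44) (nat_lit 5) (nat_lit 45) (nat_lit 5) (nat_lit 385) (nat_lit 341) (nat_lit 174)) (XT.lf (nat_lit 0) (nat_lit 19956241954) (nat_lit 228) (nat_lit 84478669778) (nat_lit 76) (nat_lit 7673855126) (nat_lit 39) (nat_lit 5) (nat_lit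 42) (nat_lit 5) (nat_lit 40) (nat_lit 5) (nat_lit 386) (nat_lit 341) (nat_lit 173))) (XT.nd (nat_lit 78) (nat_lit 152) (nat_lit 0) (XT.lf (nat_lit 0) (nat_lit 45231762085) (nat_lit 228) (nat_lit 27323670464) (nat_lit 76) (nat_lit 43378498793) (nat_lit 39) (nat_lit 5) (nat_lit 42) (nat_lit 5) (nat_lit 40) (nat_lit 5) (nat_lit 387) (nat_lit 341) (nat_lit 172)) (XT.lf (nat_lit 0) (nat_lit 33768313719) (nat_lit 152) (nat_lit 38529047796) (nat_lit 228) (nat_lit 47626677695) (nat_lit 37) (nat_lit 5) (nat_lit 39) (nat_lit 5) (nat_lit 40) (nat_lit 5) (nat_lit 388) (nat_lit 341) (nat_lit 171))))))))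
noncomputable def xc198 : XT := (XT.nd (nat_lit 1872) (nat_lit 684) (nat_lit 0) (XT.nd (nat_lit 936) (nat_lit 532) (nat_lit 0) (XT.nd (nat_lit 468) (nat_lit 532) (nat_lit 0) (XT.nd (nat_lit 234) (nat_lit 228) (nat_lit 0) (XT.nd (nat_lit 78) (nat_lit 152) (nat_lit 0) (XT.lf (nat_lit 0) (nat_lit 98861976424) (nat_lit 152) (nat_lit 2316108915) (nat_lit 228) (nat_lit 22912475217) (nat_lit 37) (nat_lit 5) (nat_lit 39) (nat_lit 5) (nat_lit 40) (nat_lit 5) (nat_lit 389) (nat_lit 341) (nat_lit 170)) (XT.nd (nat_lit 78) (nat_lit 0) (nat_lit 0) (XT.lf (nat_lit 0) (nat_lit 4131975704) (nat_lit 152) (nat_lit 89024903780) (nat_lit 76) (nat_lit 35246569855) (nat_lit 35) (nat_lit 5) (nat_lit 37) (nat_lit 5) (nat_lit 36) (nat_lit 5) (nat_lit 390) (nat_lit 341) (nat_lit 169)) (XT.lf (nat_lit 0) (nat_lit 32230013149) (nat_lit 152) (nat_lit 25240797534) (nat_lit 76) (nat_lit 75418822757) (nat_lit 35) (nat_lit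 5) (nat_lit 37) (nat_lit 5) (nat_lit 36) (nat_lit 5) (nat_lit 391) (nat_lit 341) (nat_lit 168)))) (XT.nd (nat_lit 78) (nat_lit 76) (nat_lit 0) (XT.lf (nat_lit 0) (nat_lit 43110902107) (nat_lit 152) (nat_lit 19294315099) (nat_lit 228) (nat_lit 75161296556) (nat_lit 33) (nat_lit 5) (nat_lit 35) (nat_lit 5) (nat_lit 36) (nat_lit 5) (nat_lit 392) (nat_lit 341) (nat_lit 167)) (XT.nd (nat_lit 78) (nat_lit 76) (nat_lit 0) (XT.lf (nat_lit 0) (nat_lit 94847450289) (nat_lit 228) (nat_lit 27032425839) (nat_lit 76) (nat_lit 20559448772) (nat_lit 33) (nat_lit 5) (nat_lit 36) (nat_lit 5) (nat_lit 34) (nat_lit 4) (nat_lit 393) (nat_lit 341) (nat_lit 166)) (XT.lf (nat_lit 0) (nat_lit 44880712844) (nat_lit 76) (nat_lit 85047324915) (nat_lit 152) (nat_lit 17576926927) (nat_lit 32) (nat_lit 5) (nat_lit 33) (nat_lit 5) (nat_lit 34) (nat_lit 4) (nat_lit 394) (nat_lit 341) (nat_lit 165))))) (XT.nd (nat_lit 234)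 (nat_lit 304) (nat_lit 0) (XT.nd (nat_lit 78) (nat_lit 152) (nat_lit 0) (XT.lf (nat_lit 0) (nat_lit 13957184632) (nat_lit 152) (nat_lit 31699483920) (nat_lit 76) (nat_lit 107133109750) (nat_lit 31) (nat_lit 5) (nat_lit 33) (nat_lit 5) (nat_lit 32) (nat_lit 5) (nat_lit 395) (nat_lit 341) (nat_lit 164)) (XT.nd (nat_lit 78) (nat_lit 0) (nat_lit 0) (XT.lf (nat_lit 0) (nat_lit 43886717675) (nat_lit 152) (nat_lit 3275047199) (nat_lit 228) (nat_lit 111128437451) (nat_lit 29) (nat_lit 5) (nat_lit 31) (nat_lit 5) (nat_lit 32) (nat_lit 5) (nat_lit 396) (nat_lit 341) (nat_lit 163)) (XT.lf (nat_lit 0) (nat_lit 83215143309) (nat_lit 228) (nat_lit 40339803632) (nat_lit 76) (nat_lit 40451272339) (nat_lit 29) (nat_lit 5) (nat_lit 32) (nat_lit 5) (nat_lit 30) (nat_lit 4) (nat_lit 397) (nat_lit 341) (nat_lit 162)))) (XT.nd (nat_lit 78) (nat_lit 228) (nat_lit 0) (XT.lf (nat_lit 0) (nat_lit 38607812319) (nat_lit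 76) (nat_lit 83119152662) (nat_lit 152) (nat_lit 48248283564) (nat_lit 28) (nat_lit 5) (nat_lit 29) (nat_lit 5) (nat_lit 30) (nat_lit 4) (nat_lit 398) (nat_lit 341) (nat_lit 161)) (XT.nd (nat_lit 78) (nat_lit 228) (nat_lit 0) (XT.lf (nat_lit 0) (nat_lit 122902085211) (nat_lit 76) (nat_lit 39944789183) (nat_lit 152) (nat_lit 13361730218) (nat_lit 28) (nat_lit 5) (nat_lit 29) (nat_lit 5) (nat_lit 30) (nat_lit 4) (nat_lit 399) (nat_lit 341) (nat_lit 160)) (XT.lf (nat_lit 0) (nat_lit 23077629264) (nat_lit 228) (nat_lit 153581788869) (nat_lit 76) (nat_lit 6048383842) (nat_lit 25) (nat_lit 5) (nat_lit 28) (nat_lit 5) (nat_lit 26) (nat_lit 4) (nat_lit 400) (nat_lit 341) (nat_lit 159)))))) (XT.nd (nat_lit 468) (nat_lit 304) (nat_lit 0) (XT.nd (nat_lit 234) (nat_lit 152) (nat_lit 0) (XT.nd (nat_lit 78) (nat_lit 76) (nat_lit 0) (XT.lf (nat_lit 0) (nat_lit 62461667492) (nat_lit 228) (nat_lit 72845842025)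 (nat_lit 76) (nat_lit 54134909972) (nat_lit 25) (nat_lit 5) (nat_lit 28) (nat_lit 5) (nat_lit 26) (nat_lit 4) (nat_lit 401) (nat_lit 341) (nat_lit 158)) (XT.nd (nat_lit 78) (nat_lit 0) (nat_lit 0) (XT.lf (nat_lit 0) (nat_lit 12320080021) (nat_lit 76) (nat_lit 91686558283) (nat_lit 152) (nat_lit 92497543182) (nat_lit 24) (nat_lit 5) (nat_lit 25) (nat_lit 5) (nat_lit 26) (nat_lit 4) (nat_lit 402) (nat_lit 341) (nat_lit 157)) (XT.lf (nat_lit 0) (nat_lit 104272218086) (nat_lit 76) (nat_lit 44589710851) (nat_lit 152) (nat_lit 54995449217) (nat_lit 24) (nat_lit 5) (nat_lit 25) (nat_lit 5) (nat_lit 26) (nat_lit 4) (nat_lit 403) (nat_lit 341) (nat_lit 156)))) (XT.nd (nat_lit 78) (nat_lit 152) (nat_lit 0) (XT.lf (nat_lit 0) (nat_lit 196035306225) (nat_lit 152) (nat_lit 10833271896) (nat_lit 0) (nat_lit 4705890553) (nat_lit 24) (nat_lit 5) (nat_lit 26) (nat_lit 4) (nat_lit 24) (nat_lit 4) (nat_lit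 404) (nat_lit 341) (nat_lit 155)) (XT.nd (nat_lit 78) (nat_lit 0) (nat_lit 0) (XT.lf (nat_lit 0) (nat_lit 27141794253) (nat_lit 152) (nat_lit 135689780736) (nat_lit 76) (nat_lit 56721603358) (nat_lit 22) (nat_lit 5) (nat_lit 24) (nat_lit 5) (nat_lit 23) (nat_lit 4) (nat_lit 405) (nat_lit 341) (nat_lit 154)) (XT.lf (nat_lit 0) (nat_lit 71620497905) (nat_lit 152) (nat_lit 44509431853) (nat_lit 76) (nat_lit 111778860994) (nat_lit 22) (nat_lit 5) (nat_lit 24) (nat_lit 5) (nat_lit 23) (nat_lit 4) (nat_lit 406) (nat_lit 341) (nat_lit 153))))) (XT.nd (nat_lit 234) (nat_lit 152) (nat_lit 0) (XT.nd (nat_lit 78) (nat_lit 76) (nat_lit 0) (XT.lf (nat_lit 0) (nat_lit 52922803257) (nat_lit 76) (nat_lit 66226075818) (nat_lit 152) (nat_lit 117492017690) (nat_lit 21) (nat_lit 5) (nat_lit 22) (nat_lit 5) (nat_lit 23) (nat_lit 4) (nat_lit 407) (nat_lit 341) (nat_lit 152)) (XT.nd (nat_lit 78) (nat_lit 76)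 (nat_lit 0) (XT.lf (nat_lit 0) (nat_lit 156770941656) (nat_lit 76) (nat_lit 13036005530) (nat_lit 152) (nat_lit 75964997600) (nat_lit 21) (nat_lit 5) (nat_lit 22) (nat_lit 5) (nat_lit 23) (nat_lit 4) (nat_lit 408) (nat_lit 341) (nat_lit 151)) (XT.lf (nat_lit 0) (nat_lit 10106010294) (nat_lit 76) (nat_lit 213717628497) (nat_lit 76) (nat_lit 31494620507) (nat_lit 20) (nat_lit 4) (nat_lit 21) (nat_lit 5) (nat_lit 21) (nat_lit 4) (nat_lit 409) (nat_lit 341) (nat_lit 150)))) (XT.nd (nat_lit 78) (nat_lit 76) (nat_lit 0) (XT.lf (nat_lit 0) (nat_lit 16457991572) (nat_lit 152) (nat_lit 148484903781) (nat_lit 76) (nat_lit 100299869712) (nat_lit 19) (nat_lit 5) (nat_lit 21) (nat_lit 5) (nat_lit 20) (nat_lit 4) (nat_lit 410) (nat_lit 341) (nat_lit 149)) (XT.nd (nat_lit 78) (nat_lit 76) (nat_lit 0) (XT.lf (nat_lit 0) (nat_lit 65749330751) (nat_lit 152) (nat_lit 47438399907) (nat_lit 76) (nat_lit 162449974169)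 (nat_lit 19) (nat_lit 5) (nat_lit 21) (nat_lit 5) (nat_lit 20) (nat_lit 4) (nat_lit 411) (nat_lit 341) (nat_lit 148)) (XT.lf (nat_lit 0) (nat_lit 60599119080) (nat_lit 76) (nat_lit 57851784901) (nat_lit 152) (nat_lit 168054204318) (nat_lit 18) (nat_lit 5) (nat_lit 19) (nat_lit 5) (nat_lit 20) (nat_lit 4) (nat_lit 412) (nat_lit 341) (nat_lit 147))))))) (XT.nd (nat_lit 936) (nat_lit 228) (nat_lit 0) (XT.nd (nat_lit 468) (nat_lit 228) (nat_lit 0) (XT.nd (nat_lit 234) (nat_lit 152) (nat_lit 0) (XT.nd (nat_lit 78) (nat_lit 76) (nat_lit 0) (XT.lf (nat_lit 0) (nat_lit 174607583877) (nat_lit 152) (nat_lit 122208195336) (nat_lit 0) (nat_lit 1059101407) (nat_lit 18) (nat_lit 5) (nat_lit 20) (nat_lit 4) (nat_lit 18) (nat_lit 4) (nat_lit 413) (nat_lit 341) (nat_lit 146)) (XT.nd (nat_lit 78) (nat_lit 76) (nat_lit 0) (XT.lf (nat_lit 0) (nat_lit 234520056465) (nat_lit 152) (nat_lit 14274723219) (nat_lit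 0) (nat_lit 60970964009) (nat_lit 18) (nat_lit 5) (nat_lit 20) (nat_lit 4) (nat_lit 18) (nat_lit 4) (nat_lit 414) (nat_lit 341) (nat_lit 145)) (XT.lf (nat_lit 0) (nat_lit 102329833825) (nat_lit 76) (nat_lit 196695563659) (nat_lit 76) (nat_lit 23145890264) (nat_lit 17) (nat_lit 4) (nat_lit 18) (nat_lit 5) (nat_lit 18) (nat_lit 4) (nat_lit 415) (nat_lit 341) (nat_lit 144)))) (XT.nd (nat_lit 78) (nat_lit 76) (nat_lit 0) (XT.lf (nat_lit 0) (nat_lit 30794117402) (nat_lit 152) (nat_lit 110422285997) (nat_lit 76) (nat_lit 193943804396) (nat_lit 16) (nat_lit 5) (nat_lit 18) (nat_lit 5) (nat_lit 17) (nat_lit 4) (nat_lit 416) (nat_lit 341) (nat_lit 143)) (XT.nd (nat_lit 78) (nat_lit 0) (nat_lit 0) (XT.lf (nat_lit 0) (nat_lit 4222809673) (nat_lit 76) (nat_lit 82496001679) (nat_lit 152) (nat_lit 262057513528) (nat_lit 15) (nat_lit 5) (nat_lit 16) (nat_lit 5) (nat_lit 17) (nat_lit 4) (nat_lit 417) (nat_lit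 341) (nat_lit 142)) (XT.lf (nat_lit 0) (nat_lit 128433038482) (nat_lit 76) (nat_lit 18876373186) (nat_lit 152) (nat_lit 215670352626) (nat_lit 15) (nat_lit 5) (nat_lit 16) (nat_lit 5) (nat_lit 17) (nat_lit 4) (nat_lit 418) (nat_lit 341) (nat_lit 141))))) (XT.nd (nat_lit 234) (nat_lit 152) (nat_lit 0) (XT.nd (nat_lit 78) (nat_lit 76) (nat_lit 0) (XT.lf (nat_lit 0) (nat_lit 211677403494) (nat_lit 152) (nat_lit 119788540791) (nat_lit 0) (nat_lit 46390038371) (nat_lit 15) (nat_lit 5) (nat_lit 17) (nat_lit 4) (nat_lit 15) (nat_lit 4) (nat_lit 419) (nat_lit 341) (nat_lit 140)) (XT.nd (nat_lit 78) (nat_lit 0) (nat_lit 0) (XT.lf (nat_lit 0) (nat_lit 410567165) (nat_lit 76) (nat_lit 279168734067) (nat_lit 76) (nat_lit 113880935438) (nat_lit 14) (nat_lit 4) (nat_lit 15) (nat_lit 5) (nat_lit 15) (nat_lit 4) (nat_lit 420) (nat_lit 341) (nat_lit 139)) (XT.lf (nat_lit 0) (nat_lit 130777750821) (nat_lit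 76) (nat_lit 222126873784) (nat_lit 76) (nat_lit 56838662293) (nat_lit 14) (nat_lit 4) (nat_lit 15) (nat_lit 5) (nat_lit 15) (nat_lit 4) (nat_lit 421) (nat_lit 341) (nat_lit 138)))) (XT.nd (nat_lit 78) (nat_lit 76) (nat_lit 0) (XT.lf (nat_lit 0) (nat_lit 2957587122) (nat_lit 152) (nat_lit 159225551093) (nat_lit 76) (nat_lit 264654982799) (nat_lit 13) (nat_lit 5) (nat_lit 15) (nat_lit 5) (nat_lit 14) (nat_lit 4) (nat_lit 422) (nat_lit 341) (nat_lit 137)) (XT.nd (nat_lit 78) (nat_lit 76) (nat_lit 0) (XT.lf (nat_lit 0) (nat_lit 63833178081) (nat_lit 152) (nat_lit 34430964106) (nat_lit 76) (nat_lit 346476981581) (nat_lit 13) (nat_lit 5) (nat_lit 15) (nat_lit 5) (nat_lit 14) (nat_lit 4) (nat_lit 423) (nat_lit 341) (nat_lit 136)) (XT.lf (nat_lit 0) (nat_lit 99796889363) (nat_lit 76) (nat_lit 29513464384) (nat_lit 152) (nat_lit 334151032694) (nat_lit 12) (nat_lit 5) (nat_lit 13) (nat_lit 5) (nat_lit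 14) (nat_lit 4) (nat_lit 424) (nat_lit 341) (nat_lit 135)))))) (XT.nd (nat_lit 468) (nat_lit 76) (nat_lit 0) (XT.nd (nat_lit 234) (nat_lit 76) (nat_lit 0) (XT.nd (nat_lit 78) (nat_lit 76) (nat_lit 0) (XT.lf (nat_lit 0) (nat_lit 199320021886) (nat_lit 152) (nat_lit 241833425385) (nat_lit 0) (nat_lit 41901283330) (nat_lit 12) (nat_lit 5) (nat_lit 14) (nat_lit 4) (nat_lit 12) (nat_lit 4) (nat_lit 425) (nat_lit 341) (nat_lit 134)) (XT.nd (nat_lit 78) (nat_lit 76) (nat_lit 0) (XT.lf (nat_lit 0) (nat_lit 273313712288) (nat_lit 152) (nat_lit 114395187127) (nat_lit 0) (nat_lit 115894665648) (nat_lit 12) (nat_lit 5) (nat_lit 14) (nat_lit 4) (nat_lit 12) (nat_lit 4) (nat_lit 426) (nat_lit 341) (nat_lit 133)) (XT.lf (nat_lit 0) (nat_lit 20056358695) (nat_lit 76) (nat_lit 331263589788) (nat_lit 76) (nat_lit 173844249734) (nat_lit 11) (nat_lit 4) (nat_lit 12) (nat_lit 5) (nat_lit 12) (nat_lit 4) (nat_lit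 427) (nat_lit 341) (nat_lit 132)))) (XT.nd (nat_lit 78) (nat_lit 76) (nat_lit 0) (XT.lf (nat_lit 0) (nat_lit 165201499913) (nat_lit 76) (nat_lit 269962064622) (nat_lit 76) (nat_lit 112542445126) (nat_lit 11) (nat_lit 4) (nat_lit 12) (nat_lit 5) (nat_lit 12) (nat_lit 4) (nat_lit 428) (nat_lit 341) (nat_lit 131)) (XT.nd (nat_lit 78) (nat_lit 76) (nat_lit 0) (XT.lf (nat_lit 0) (nat_lit 317603398684) (nat_lit 76) (nat_lit 205595705751) (nat_lit 76) (nat_lit 48175820120) (nat_lit 11) (nat_lit 4) (nat_lit 12) (nat_lit 5) (nat_lit 12) (nat_lit 4) (nat_lit 429) (nat_lit 341) (nat_lit 130)) (XT.lf (nat_lit 0) (nat_lit 18787673808) (nat_lit 152) (nat_lit 118905407784) (nat_lit 76) (nat_lit 458519064517) (nat_lit 10) (nat_lit 5) (nat_lit 12) (nat_lit 5) (nat_lit 11) (nat_lit 4) (nat_lit 430) (nat_lit 341) (nat_lit 129))))) (XT.nd (nat_lit 40014) (nat_lit 0) (nat_lit 7372) (XT.nd (nat_lit 78) (nat_lit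 0) (nat_lit 0) (XT.lf (nat_lit 0) (nat_lit 22638356524) (nat_lit 76) (nat_lit 65195173724) (nat_lit 152) (nat_lit 534400549580) (nat_lit 9) (nat_lit 5) (nat_lit 10) (nat_lit 5) (nat_lit 11) (nat_lit 4) (nat_lit 431) (nat_lit 341) (nat_lit 128)) (XT.nd (nat_lit 39858) (nat_lit 0) (nat_lit 7372) (XT.lf (nat_lit 0) (nat_lit 162548786703) (nat_lit 152) (nat_lit 474273072333) (nat_lit 0) (nat_lit 12624395862) (nat_lit 9) (nat_lit 5) (nat_lit 11) (nat_lit 4) (nat_lit 9) (nat_lit 4) (nat_lit 432) (nat_lit 341) (nat_lit 127)) (XT.lf (nat_lit 0) (nat_lit 2282662729) (nat_lit 836) (nat_lit 6771350636) (nat_lit 836) (nat_lit 6771350636) (nat_lit 106) (nat_lit 3) (nat_lit 117) (nat_lit 3) (nat_lit 117) (nat_lit 5) (nat_lit 342) (nat_lit 342) (nat_lit 216)))) (XT.nd (nat_lit 156) (nat_lit 0) (nat_lit 76) (XT.nd (nat_lit 78) (nat_lit 0) (nat_lit 76) (XT.lf (nat_lit 76) (nat_lit 1632547283) (nat_lit 0)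 (nat_lit 3135939356) (nat_lit 836) (nat_lit 27669003095) (nat_lit 107) (nat_lit 5) (nat_lit 106) (nat_lit 3) (nat_lit 117) (nat_lit 5) (nat_lit 343) (nat_lit 342) (nat_lit 215)) (XT.lf (nat_lit 0) (nat_lit 5407328991) (nat_lit 760) (nat_lit 15418080743) (nat_lit 836) (nat_lit 12416907187) (nat_lit 107) (nat_lit 5) (nat_lit 117) (nat_lit 5) (nat_lit 118) (nat_lit 5) (nat_lit 344) (nat_lit 342) (nat_lit 214))) (XT.nd (nat_lit 78) (nat_lit 0) (nat_lit 76) (XT.lf (nat_lit 76) (nat_lit 707014613) (nat_lit 0) (nat_lit 5429667867) (nat_lit 836) (nat_lit 27947777893) (nat_lit 108) (nat_lit 5) (nat_lit 107) (nat_lit 5) (nat_lit 118) (nat_lit 5) (nat_lit 345) (nat_lit 342) (nat_lit 213)) (XT.lf (nat_lit 0) (nat_lit 7331806761) (nat_lit 760) (nat_lit 16956411108) (nat_lit 836) (nat_lit 10659031171) (nat_lit 108) (nat_lit 5) (nat_lit 118) (nat_lit 5) (nat_lit 119) (nat_lit 5) (nat_lit 346) (nat_lit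 342) (nat_lit 212))))))))
noncomputable def xc199 : XT := (XT.nd (nat_lit 1950) (nat_lit 2432) (nat_lit 0) (XT.nd (nat_lit 936) (nat_lit 2128) (nat_lit 0) (XT.nd (nat_lit 468) (nat_lit 1292) (nat_lit 0) (XT.nd (nat_lit 234) (nat_lit 0) (nat_lit 152) (XT.nd (nat_lit 78) (nat_lit 0) (nat_lit 76) (XT.lf (nat_lit 76) (nat_lit 200703310) (nat_lit 0) (nat_lit 8474597997) (nat_lit 836) (nat_lit 27173448176) (nat_lit 109) (nat_lit 5) (nat_lit 108) (nat_lit 5) (nat_lit 119) (nat_lit 5) (nat_lit 347) (nat_lit 342) (nat_lit 211)) (XT.nd (nat_lit 78) (nat_lit 0) (nat_lit 0) (XT.lf (nat_lit 0) (nat_lit 10501388159) (nat_lit 760) (nat_lit 18110775604) (nat_lit 836) (nat_lit 8162393205) (nat_lit 109) (nat_lit 5) (nat_lit 119) (nat_lit 5) (nat_lit 120) (nat_lit 5) (nat_lit 348) (nat_lit 342) (nat_lit 210)) (XT.lf (nat_lit 76) (nat_lit 167372778) (nat_lit 0) (nat_lit 12389726123) (nat_lit 836) (nat_lit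 25182642711) (nat_lit 110) (nat_lit 5) (nat_lit 109) (nat_lit 5) (nat_lit 120) (nat_lit 5) (nat_lit 349) (nat_lit 342) (nat_lit 209)))) (XT.nd (nat_lit 78) (nat_lit 0) (nat_lit 0) (XT.lf (nat_lit 0) (nat_lit 15096747542) (nat_lit 760) (nat_lit 18829732477) (nat_lit 836) (nat_lit 4807650483) (nat_lit 110) (nat_lit 5) (nat_lit 120) (nat_lit 5) (nat_lit 121) (nat_lit 5) (nat_lit 350) (nat_lit 342) (nat_lit 208)) (XT.nd (nat_lit 78) (nat_lit 0) (nat_lit 76) (XT.lf (nat_lit 76) (nat_lit 665811586) (nat_lit 0) (nat_lit 17308126046) (nat_lit 836) (nat_lit 21793775757) (nat_lit 111) (nat_lit 5) (nat_lit 110) (nat_lit 5) (nat_lit 121) (nat_lit 5) (nat_lit 351) (nat_lit 342) (nat_lit 207)) (XT.lf (nat_lit 0) (nat_lit 21318473050) (nat_lit 760) (nat_lit 19057140230) (nat_lit 76) (nat_lit 461190235) (nat_lit 111) (nat_lit 5) (nat_lit 121) (nat_lit 5) (nat_lit 112) (nat_lit 5) (nat_lit 352) (nat_lit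 342) (nat_lit 206))))) (XT.nd (nat_lit 234) (nat_lit 380) (nat_lit 0) (XT.nd (nat_lit 78) (nat_lit 380) (nat_lit 0) (XT.lf (nat_lit 0) (nat_lit 1760035990) (nat_lit 760) (nat_lit 23378716969) (nat_lit 836) (nat_lit 16805171575) (nat_lit 101) (nat_lit 5) (nat_lit 111) (nat_lit 5) (nat_lit 112) (nat_lit 5) (nat_lit 353) (nat_lit 342) (nat_lit 205)) (XT.nd (nat_lit 78) (nat_lit 380) (nat_lit 0) (XT.lf (nat_lit 0) (nat_lit 24277315062) (nat_lit 760) (nat_lit 5192864066) (nat_lit 836) (nat_lit 13620218026) (nat_lit 101) (nat_lit 5) (nat_lit 111) (nat_lit 5) (nat_lit 112) (nat_lit 5) (nat_lit 354) (nat_lit 342) (nat_lit 204)) (XT.lf (nat_lit 0) (nat_lit 3519462437) (nat_lit 380) (nat_lit 30768234519) (nat_lit 456) (nat_lit 9993022495) (nat_lit 96) (nat_lit 5) (nat_lit 101) (nat_lit 5) (nat_lit 102) (nat_lit 5) (nat_lit 355) (nat_lit 342) (nat_lit 203)))) (XT.nd (nat_lit 78) (nat_lit 380) (nat_lit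 0) (XT.lf (nat_lit 0) (nat_lit 27531483417) (nat_lit 380) (nat_lit 12214571300) (nat_lit 456) (nat_lit 5764506905) (nat_lit 96) (nat_lit 5) (nat_lit 101) (nat_lit 5) (nat_lit 102) (nat_lit 5) (nat_lit 356) (nat_lit 342) (nat_lit 202)) (XT.nd (nat_lit 78) (nat_lit 76) (nat_lit 0) (XT.lf (nat_lit 0) (nat_lit 6019042197) (nat_lit 304) (nat_lit 39663431519) (nat_lit 380) (nat_lit 1109166887) (nat_lit 92) (nat_lit 5) (nat_lit 96) (nat_lit 5) (nat_lit 97) (nat_lit 5) (nat_lit 357) (nat_lit 342) (nat_lit 201)) (XT.lf (nat_lit 0) (nat_lit 4165454353) (nat_lit 380) (nat_lit 16546915589) (nat_lit 76) (nat_lit 27396082098) (nat_lit 91) (nat_lit 5) (nat_lit 96) (nat_lit 5) (nat_lit 92) (nat_lit 5) (nat_lit 358) (nat_lit 342) (nat_lit 200)))))) (XT.nd (nat_lit 468) (nat_lit 1140) (nat_lit 0) (XT.nd (nat_lit 234) (nat_lit 304) (nat_lit 0) (XT.nd (nat_lit 78) (nat_lit 304) (nat_lit 0) (XT.lf (nat_lit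 0) (nat_lit 9162853383) (nat_lit 380) (nat_lit 644592095) (nat_lit 456) (nat_lit 39675705330) (nat_lit 86) (nat_lit 5) (nat_lit 91) (nat_lit 5) (nat_lit 92) (nat_lit 5) (nat_lit 359) (nat_lit 342) (nat_lit 199)) (XT.nd (nat_lit 78) (nat_lit 304) (nat_lit 0) (XT.lf (nat_lit 0) (nat_lit 16333196827) (nat_lit 456) (nat_lit 14505850016) (nat_lit 76) (nat_lit 20057456174) (nat_lit 86) (nat_lit 5) (nat_lit 92) (nat_lit 5) (nat_lit 87) (nat_lit 5) (nat_lit 360) (nat_lit 342) (nat_lit 198)) (XT.lf (nat_lit 0) (nat_lit 13002682243) (nat_lit 304) (nat_lit 10394148545) (nat_lit 380) (nat_lit 28973113761) (nat_lit 82) (nat_lit 5) (nat_lit 86) (nat_lit 5) (nat_lit 87) (nat_lit 5) (nat_lit 361) (nat_lit 342) (nat_lit 197)))) (XT.nd (nat_lit 78) (nat_lit 304) (nat_lit 0) (XT.lf (nat_lit 0) (nat_lit 31234292987) (nat_lit 380) (nat_lit 11693725666) (nat_lit 76) (nat_lit 10968008572) (nat_lit 82) (nat_lit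 5) (nat_lit 87) (nat_lit 5) (nat_lit 83) (nat_lit 5) (nat_lit 362) (nat_lit 342) (nat_lit 196)) (XT.nd (nat_lit 78) (nat_lit 0) (nat_lit 0) (XT.lf (nat_lit 0) (nat_lit 17759315788) (nat_lit 304) (nat_lit 22150147931) (nat_lit 380) (nat_lit 15566659876) (nat_lit 78) (nat_lit 5) (nat_lit 82) (nat_lit 5) (nat_lit 83) (nat_lit 5) (nat_lit 363) (nat_lit 342) (nat_lit 195)) (XT.lf (nat_lit 0) (nat_lit 49088839156) (nat_lit 304) (nat_lit 125813315) (nat_lit 380) (nat_lit 7910760601) (nat_lit 78) (nat_lit 5) (nat_lit 82) (nat_lit 5) (nat_lit 83) (nat_lit 5) (nat_lit 364) (nat_lit 342) (nat_lit 194))))) (XT.nd (nat_lit 234) (nat_lit 532) (nat_lit 0) (XT.nd (nat_lit 78) (nat_lit 304) (nat_lit 0) (XT.lf (nat_lit 0) (nat_lit 860307371) (nat_lit 304) (nat_lit 35315599501) (nat_lit 76) (nat_lit 22644338008) (nat_lit 74) (nat_lit 5) (nat_lit 78) (nat_lit 5) (nat_lit 75) (nat_lit 5) (nat_lit 365) (nat_lit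 342) (nat_lit 193)) (XT.nd (nat_lit 78) (nat_lit 304) (nat_lit 0) (XT.lf (nat_lit 0) (nat_lit 9942792186) (nat_lit 304) (nat_lit 3827204375) (nat_lit 76) (nat_lit 46816402739) (nat_lit 74) (nat_lit 5) (nat_lit 78) (nat_lit 5) (nat_lit 75) (nat_lit 5) (nat_lit 366) (nat_lit 342) (nat_lit 192)) (XT.lf (nat_lit 0) (nat_lit 20109354644) (nat_lit 380) (nat_lit 32377255247) (nat_lit 76) (nat_lit 9922754918) (nat_lit 70) (nat_lit 5) (nat_lit 75) (nat_lit 5) (nat_lit 71) (nat_lit 5) (nat_lit 367) (nat_lit 342) (nat_lit 191)))) (XT.nd (nat_lit 156) (nat_lit 304) (nat_lit 0) (XT.nd (nat_lit 78) (nat_lit 0) (nat_lit 0) (XT.lf (nat_lit 0) (nat_lit 1206760501) (nat_lit 228) (nat_lit 29886378853) (nat_lit 304) (nat_lit 33214895525) (nat_lit 67) (nat_lit 5) (nat_lit 70) (nat_lit 5) (nat_lit 71) (nat_lit 5) (nat_lit 368) (nat_lit 342) (nat_lit 190)) (XT.lf (nat_lit 0) (nat_lit 37591989435) (nat_lit 228)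 (nat_lit 5580928164) (nat_lit 304) (nat_lit 23101381583) (nat_lit 67) (nat_lit 5) (nat_lit 70) (nat_lit 5) (nat_lit 71) (nat_lit 5) (nat_lit 369) (nat_lit 342) (nat_lit 189))) (XT.nd (nat_lit 78) (nat_lit 76) (nat_lit 0) (XT.lf (nat_lit 0) (nat_lit 7380488340) (nat_lit 228) (nat_lit 48901286893) (nat_lit 304) (nat_lit 12035847844) (nat_lit 64) (nat_lit 5) (nat_lit 67) (nat_lit 5) (nat_lit 68) (nat_lit 5) (nat_lit 370) (nat_lit 342) (nat_lit 188)) (XT.lf (nat_lit 0) (nat_lit 180071402) (nat_lit 304) (nat_lit 24291593264) (nat_lit 76) (nat_lit 45962586819) (nat_lit 63) (nat_lit 5) (nat_lit 67) (nat_lit 5) (nat_lit 64) (nat_lit 5) (nat_lit 371) (nat_lit 342) (nat_lit 187))))))) (XT.nd (nat_lit 936) (nat_lit 988) (nat_lit 0) (XT.nd (nat_lit 468) (nat_lit 760) (nat_lit 0) (XT.nd (nat_lit 234) (nat_lit 228) (nat_lit 0) (XT.nd (nat_lit 78) (nat_lit 228) (nat_lit 0) (XT.lf (nat_lit 0) (nat_lit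 12851865124) (nat_lit 304) (nat_lit 58211524249) (nat_lit 76) (nat_lit 1570979173) (nat_lit 60) (nat_lit 5) (nat_lit 64) (nat_lit 5) (nat_lit 61) (nat_lit 5) (nat_lit 372) (nat_lit 342) (nat_lit 186)) (XT.nd (nat_lit 78) (nat_lit 228) (nat_lit 0) (XT.lf (nat_lit 0) (nat_lit 26975211165) (nat_lit 304) (nat_lit 19417454636) (nat_lit 76) (nat_lit 28510928268) (nat_lit 60) (nat_lit 5) (nat_lit 64) (nat_lit 5) (nat_lit 61) (nat_lit 5) (nat_lit 373) (nat_lit 342) (nat_lit 185)) (XT.lf (nat_lit 0) (nat_lit 22019197187) (nat_lit 228) (nat_lit 20128026620) (nat_lit 304) (nat_lit 35121932800) (nat_lit 57) (nat_lit 5) (nat_lit 60) (nat_lit 5) (nat_lit 61) (nat_lit 5) (nat_lit 374) (nat_lit 342) (nat_lit 184)))) (XT.nd (nat_lit 78) (nat_lit 228) (nat_lit 0) (XT.lf (nat_lit 0) (nat_lit 58527125851) (nat_lit 304) (nat_lit 13658343911) (nat_lit 76) (nat_lit 7545063743) (nat_lit 57) (nat_lit 5) (nat_lit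 61) (nat_lit 5) (nat_lit 58) (nat_lit 5) (nat_lit 375) (nat_lit 342) (nat_lit 183)) (XT.nd (nat_lit 78) (nat_lit 76) (nat_lit 0) (XT.lf (nat_lit 0) (nat_lit 30662468756) (nat_lit 152) (nat_lit 45871049856) (nat_lit 228) (nat_lit 5741086493) (nat_lit 55) (nat_lit 5) (nat_lit 57) (nat_lit 5) (nat_lit 58) (nat_lit 5) (nat_lit 376) (nat_lit 342) (nat_lit 182)) (XT.lf (nat_lit 0) (nat_lit 10392379087) (nat_lit 228) (nat_lit 7430261274) (nat_lit 76) (nat_lit 67103352537) (nat_lit 54) (nat_lit 5) (nat_lit 57) (nat_lit 5) (nat_lit 55) (nat_lit 5) (nat_lit 377) (nat_lit 342) (nat_lit 181))))) (XT.nd (nat_lit 234) (nat_lit 380) (nat_lit 0) (XT.nd (nat_lit 78) (nat_lit 152) (nat_lit 0) (XT.lf (nat_lit 0) (nat_lit 27958657968) (nat_lit 304) (nat_lit 47717408796) (nat_lit 76) (nat_lit 11988224152) (nat_lit 51) (nat_lit 5) (nat_lit 55) (nat_lit 5) (nat_lit 52) (nat_lit 5) (nat_lit 378) (nat_lit 342)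 (nat_lit 180)) (XT.nd (nat_lit 78) (nat_lit 152) (nat_lit 0) (XT.lf (nat_lit 0) (nat_lit 46822208327) (nat_lit 304) (nat_lit 878354065) (nat_lit 76) (nat_lit 42817994091) (nat_lit 51) (nat_lit 5) (nat_lit 55) (nat_lit 5) (nat_lit 52) (nat_lit 5) (nat_lit 379) (nat_lit 342) (nat_lit 179)) (XT.lf (nat_lit 0) (nat_lit 49898036218) (nat_lit 152) (nat_lit 17508886421) (nat_lit 228) (nat_lit 26069713868) (nat_lit 49) (nat_lit 5) (nat_lit 51) (nat_lit 5) (nat_lit 52) (nat_lit 5) (nat_lit 380) (nat_lit 342) (nat_lit 178)))) (XT.nd (nat_lit 78) (nat_lit 228) (nat_lit 0) (XT.lf (nat_lit 0) (nat_lit 6651236232) (nat_lit 152) (nat_lit 82709136620) (nat_lit 228) (nat_lit 7205273149) (nat_lit 47) (nat_lit 5) (nat_lit 49) (nat_lit 5) (nat_lit 50) (nat_lit 5) (nat_lit 381) (nat_lit 342) (nat_lit 177)) (XT.nd (nat_lit 78) (nat_lit 152) (nat_lit 0) (XT.lf (nat_lit 0) (nat_lit 13235149406) (nat_lit 228) (nat_lit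 39364267541) (nat_lit 76) (nat_lit 47148045775) (nat_lit 46) (nat_lit 5) (nat_lit 49) (nat_lit 5) (nat_lit 47) (nat_lit 5) (nat_lit 382) (nat_lit 342) (nat_lit 176)) (XT.lf (nat_lit 0) (nat_lit 14043120923) (nat_lit 152) (nat_lit 20630590309) (nat_lit 228) (nat_lit 68397840368) (nat_lit 44) (nat_lit 5) (nat_lit 46) (nat_lit 5) (nat_lit 47) (nat_lit 5) (nat_lit 383) (nat_lit 342) (nat_lit 175)))))) (XT.nd (nat_lit 468) (nat_lit 456) (nat_lit 0) (XT.nd (nat_lit 234) (nat_lit 380) (nat_lit 0) (XT.nd (nat_lit 78) (nat_lit 152) (nat_lit 0) (XT.lf (nat_lit 0) (nat_lit 58062783498) (nat_lit 228) (nat_lit 35255523926) (nat_lit 76) (nat_lit 13199608774) (nat_lit 44) (nat_lit 5) (nat_lit 47) (nat_lit 5) (nat_lit 45) (nat_lit 5) (nat_lit 384) (nat_lit 342) (nat_lit 174)) (XT.nd (nat_lit 78) (nat_lit 0) (nat_lit 0) (XT.lf (nat_lit 0) (nat_lit 21556209949) (nat_lit 152) (nat_lit 61738928103) (nat_lit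 228) (nat_lit 26807769914) (nat_lit 42) (nat_lit 5) (nat_lit 44) (nat_lit 5) (nat_lit 45) (nat_lit 5) (nat_lit 385) (nat_lit 342) (nat_lit 173)) (XT.lf (nat_lit 0) (nat_lit 82431002469) (nat_lit 152) (nat_lit 27954267228) (nat_lit 228) (nat_lit 3452072012) (nat_lit 42) (nat_lit 5) (nat_lit 44) (nat_lit 5) (nat_lit 45) (nat_lit 5) (nat_lit 386) (nat_lit 342) (nat_lit 172)))) (XT.nd (nat_lit 78) (nat_lit 152) (nat_lit 0) (XT.lf (nat_lit 0) (nat_lit 20982187302) (nat_lit 228) (nat_lit 88654561570) (nat_lit 76) (nat_lit 8076039739) (nat_lit 39) (nat_lit 5) (nat_lit 42) (nat_lit 5) (nat_lit 40) (nat_lit 5) (nat_lit 387) (nat_lit 342) (nat_lit 171)) (XT.nd (nat_lit 78) (nat_lit 152) (nat_lit 0) (XT.lf (nat_lit 0) (nat_lit 47520143762) (nat_lit 228) (nat_lit 28644099990) (nat_lit 76) (nat_lit 45565035025) (nat_lit 39) (nat_lit 5) (nat_lit 42) (nat_lit 5) (nat_lit 40) (nat_lit 5) (nat_lit 388)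 (nat_lit 342) (nat_lit 170)) (XT.lf (nat_lit 0) (nat_lit 35501745434) (nat_lit 152) (nat_lit 40436704670) (nat_lit 228) (nat_lit 49980471035) (nat_lit 37) (nat_lit 5) (nat_lit 39) (nat_lit 5) (nat_lit 40) (nat_lit 5) (nat_lit 389) (nat_lit 342) (nat_lit 169))))) (XT.nd (nat_lit 234) (nat_lit 304) (nat_lit 0) (XT.nd (nat_lit 78) (nat_lit 152) (nat_lit 0) (XT.lf (nat_lit 0) (nat_lit 103847947655) (nat_lit 152) (nat_lit 2414013871) (nat_lit 228) (nat_lit 24031869888) (nat_lit 37) (nat_lit 5) (nat_lit 39) (nat_lit 5) (nat_lit 40) (nat_lit 5) (nat_lit 390) (nat_lit 342) (nat_lit 168)) (XT.nd (nat_lit 78) (nat_lit 0) (nat_lit 0) (XT.lf (nat_lit 0) (nat_lit 4363710211) (nat_lit 152) (nat_lit 93432167247) (nat_lit 76) (nat_lit 37026479785) (nat_lit 35) (nat_lit 5) (nat_lit 37) (nat_lit 5) (nat_lit 36) (nat_lit 5) (nat_lit 391) (nat_lit 342) (nat_lit 167)) (XT.lf (nat_lit 0) (nat_lit 33865452588)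 (nat_lit 152) (nat_lit 26460950057) (nat_lit 76) (nat_lit 79206508120) (nat_lit 35) (nat_lit 5) (nat_lit 37) (nat_lit 5) (nat_lit 36) (nat_lit 5) (nat_lit 392) (nat_lit 342) (nat_lit 166)))) (XT.nd (nat_lit 156) (nat_lit 152) (nat_lit 0) (XT.nd (nat_lit 78) (nat_lit 0) (nat_lit 0) (XT.lf (nat_lit 0) (nat_lit 45307658964) (nat_lit 152) (nat_lit 20241261373) (nat_lit 228) (nat_lit 78894739944) (nat_lit 33) (nat_lit 5) (nat_lit 35) (nat_lit 5) (nat_lit 36) (nat_lit 5) (nat_lit 393) (nat_lit 342) (nat_lit 165)) (XT.lf (nat_lit 0) (nat_lit 99612412996) (nat_lit 228) (nat_lit 28343939046) (nat_lit 76) (nat_lit 21603802873) (nat_lit 33) (nat_lit 5) (nat_lit 36) (nat_lit 5) (nat_lit 34) (nat_lit 4) (nat_lit 394) (nat_lit 342) (nat_lit 164))) (XT.nd (nat_lit 78) (nat_lit 76) (nat_lit 0) (XT.lf (nat_lit 0) (nat_lit 47164209666) (nat_lit 76) (nat_lit 89282360550) (nat_lit 152) (nat_lit 18432529777)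 (nat_lit 32) (nat_lit 5) (nat_lit 33) (nat_lit 5) (nat_lit 34) (nat_lit 4) (nat_lit 395) (nat_lit 342) (nat_lit 163)) (XT.lf (nat_lit 0) (nat_lit 14676472016) (nat_lit 152) (nat_lit 33246161725) (nat_lit 76) (nat_lit 112505556266) (nat_lit 31) (nat_lit 5) (nat_lit 33) (nat_lit 5) (nat_lit 32) (nat_lit 5) (nat_lit 396) (nat_lit 342) (nat_lit 162))))))))
noncomputable def xc200 : XT := (XT.nd (nat_lit 1872) (nat_lit 380) (nat_lit 0) (XT.nd (nat_lit 936) (nat_lit 456) (nat_lit 0) (XT.nd (nat_lit 468) (nat_lit 304) (nat_lit 0) (XT.nd (nat_lit 234) (nat_lit 228) (nat_lit 0) (XT.nd (nat_lit 78) (nat_lit 76) (nat_lit 0) (XT.lf (nat_lit 0) (nat_lit 46118732267) (nat_lit 152) (nat_lit 3422116885) (nat_lit 228) (nat_lit 116662807961) (nat_lit 29) (nat_lit 5) (nat_lit 31) (nat_lit 5) (nat_lit 32) (nat_lit 5) (nat_lit 397) (nat_lit 342) (nat_lit 161)) (XT.nd (nat_lit 78) (nat_lit 76) (nat_lit 0) (XT.lf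 (nat_lit 0) (nat_lit 87396144758) (nat_lit 228) (nat_lit 42320152314) (nat_lit 76) (nat_lit 42489215693) (nat_lit 29) (nat_lit 5) (nat_lit 32) (nat_lit 5) (nat_lit 30) (nat_lit 4) (nat_lit 398) (nat_lit 342) (nat_lit 160)) (XT.lf (nat_lit 0) (nat_lit 40574253442) (nat_lit 76) (nat_lit 87258902907) (nat_lit 152) (nat_lit 50639857454) (nat_lit 28) (nat_lit 5) (nat_lit 29) (nat_lit 5) (nat_lit 30) (nat_lit 4) (nat_lit 399) (nat_lit 342) (nat_lit 159)))) (XT.nd (nat_lit 78) (nat_lit 228) (nat_lit 0) (XT.lf (nat_lit 0) (nat_lit 129081523288) (nat_lit 76) (nat_lit 41926593035) (nat_lit 152) (nat_lit 14009968835) (nat_lit 28) (nat_lit 5) (nat_lit 29) (nat_lit 5) (nat_lit 30) (nat_lit 4) (nat_lit 400) (nat_lit 342) (nat_lit 158)) (XT.nd (nat_lit 78) (nat_lit 0) (nat_lit 0) (XT.lf (nat_lit 0) (nat_lit 24250588868) (nat_lit 228) (nat_lit 161225765866) (nat_lit 76) (nat_lit 6365879101) (nat_lit 25)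 (nat_lit 5) (nat_lit 28) (nat_lit 5) (nat_lit 26) (nat_lit 4) (nat_lit 401) (nat_lit 342) (nat_lit 157)) (XT.lf (nat_lit 0) (nat_lit 65602920526) (nat_lit 228) (nat_lit 76454693700) (nat_lit 76) (nat_lit 56856013630) (nat_lit 25) (nat_lit 5) (nat_lit 28) (nat_lit 5) (nat_lit 26) (nat_lit 4) (nat_lit 402) (nat_lit 342) (nat_lit 156))))) (XT.nd (nat_lit 234) (nat_lit 228) (nat_lit 0) (XT.nd (nat_lit 78) (nat_lit 0) (nat_lit 0) (XT.lf (nat_lit 0) (nat_lit 12968985086) (nat_lit 76) (nat_lit 96255803248) (nat_lit 152) (nat_lit 97103707392) (nat_lit 24) (nat_lit 5) (nat_lit 25) (nat_lit 5) (nat_lit 26) (nat_lit 4) (nat_lit 403) (nat_lit 342) (nat_lit 155)) (XT.nd (nat_lit 78) (nat_lit 0) (nat_lit 0) (XT.lf (nat_lit 0) (nat_lit 109517163337) (nat_lit 76) (nat_lit 46804831679) (nat_lit 152) (nat_lit 57727399822) (nat_lit 24) (nat_lit 5) (nat_lit 25) (nat_lit 5) (nat_lit 26) (nat_lit 4) (nat_lit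 404) (nat_lit 342) (nat_lit 154)) (XT.lf (nat_lit 0) (nat_lit 205853446686) (nat_lit 152) (nat_lit 11344495209) (nat_lit 0) (nat_lit 4954427894) (nat_lit 24) (nat_lit 5) (nat_lit 26) (nat_lit 4) (nat_lit 24) (nat_lit 4) (nat_lit 405) (nat_lit 342) (nat_lit 153)))) (XT.nd (nat_lit 78) (nat_lit 76) (nat_lit 0) (XT.lf (nat_lit 0) (nat_lit 28515213551) (nat_lit 152) (nat_lit 142443777301) (nat_lit 76) (nat_lit 59571026702) (nat_lit 22) (nat_lit 5) (nat_lit 24) (nat_lit 5) (nat_lit 23) (nat_lit 4) (nat_lit 406) (nat_lit 342) (nat_lit 152)) (XT.nd (nat_lit 78) (nat_lit 76) (nat_lit 0) (XT.lf (nat_lit 0) (nat_lit 75217074786) (nat_lit 152) (nat_lit 46705862997) (nat_lit 76) (nat_lit 117380511830) (nat_lit 22) (nat_lit 5) (nat_lit 24) (nat_lit 5) (nat_lit 23) (nat_lit 4) (nat_lit 407) (nat_lit 342) (nat_lit 151)) (XT.lf (nat_lit 0) (nat_lit 55597515475) (nat_lit 76) (nat_lit 69524065059) (nat_lit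 152) (nat_lit 123350595263) (nat_lit 21) (nat_lit 5) (nat_lit 22) (nat_lit 5) (nat_lit 23) (nat_lit 4) (nat_lit 408) (nat_lit 342) (nat_lit 150)))))) (XT.nd (nat_lit 468) (nat_lit 228) (nat_lit 0) (XT.nd (nat_lit 234) (nat_lit 76) (nat_lit 0) (XT.nd (nat_lit 78) (nat_lit 152) (nat_lit 0) (XT.lf (nat_lit 0) (nat_lit 164636700220) (nat_lit 76) (nat_lit 13675125283) (nat_lit 152) (nat_lit 79747987184) (nat_lit 21) (nat_lit 5) (nat_lit 22) (nat_lit 5) (nat_lit 23) (nat_lit 4) (nat_lit 409) (nat_lit 342) (nat_lit 149)) (XT.nd (nat_lit 78) (nat_lit 76) (nat_lit 0) (XT.lf (nat_lit 0) (nat_lit 10638606185) (nat_lit 76) (nat_lit 224390668260) (nat_lit 76) (nat_lit 33054172473) (nat_lit 20) (nat_lit 4) (nat_lit 21) (nat_lit 5) (nat_lit 21) (nat_lit 4) (nat_lit 410) (nat_lit 342) (nat_lit 148)) (XT.lf (nat_lit 0) (nat_lit 17294884707) (nat_lit 152) (nat_lit 155882688271) (nat_lit 76) (nat_lit 105326628250)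 (nat_lit 19) (nat_lit 5) (nat_lit 21) (nat_lit 5) (nat_lit 20) (nat_lit 4) (nat_lit 411) (nat_lit 342) (nat_lit 147)))) (XT.nd (nat_lit 78) (nat_lit 76) (nat_lit 0) (XT.lf (nat_lit 0) (nat_lit 69050124485) (nat_lit 152) (nat_lit 49785119236) (nat_lit 76) (nat_lit 170583677689) (nat_lit 19) (nat_lit 5) (nat_lit 21) (nat_lit 5) (nat_lit 20) (nat_lit 4) (nat_lit 412) (nat_lit 342) (nat_lit 146)) (XT.nd (nat_lit 78) (nat_lit 0) (nat_lit 0) (XT.lf (nat_lit 0) (nat_lit 63653869237) (nat_lit 76) (nat_lit 60732659619) (nat_lit 152) (nat_lit 176443178687) (nat_lit 18) (nat_lit 5) (nat_lit 19) (nat_lit 5) (nat_lit 20) (nat_lit 4) (nat_lit 413) (nat_lit 342) (nat_lit 145)) (XT.lf (nat_lit 0) (nat_lit 183350594092) (nat_lit 152) (nat_lit 128294540839) (nat_lit 0) (nat_lit 1122856086) (nat_lit 18) (nat_lit 5) (nat_lit 20) (nat_lit 4) (nat_lit 18) (nat_lit 4) (nat_lit 414) (nat_lit 342) (nat_lit 144)))))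 (XT.nd (nat_lit 234) (nat_lit 76) (nat_lit 0) (XT.nd (nat_lit 78) (nat_lit 152) (nat_lit 0) (XT.lf (nat_lit 0) (nat_lit 246258088833) (nat_lit 152) (nat_lit 14965541033) (nat_lit 0) (nat_lit 64029797552) (nat_lit 18) (nat_lit 5) (nat_lit 20) (nat_lit 4) (nat_lit 18) (nat_lit 4) (nat_lit 415) (nat_lit 342) (nat_lit 143)) (XT.nd (nat_lit 78) (nat_lit 76) (nat_lit 0) (XT.lf (nat_lit 0) (nat_lit 107468874213) (nat_lit 76) (nat_lit 206519601903) (nat_lit 76) (nat_lit 24290783693) (nat_lit 17) (nat_lit 4) (nat_lit 18) (nat_lit 5) (nat_lit 18) (nat_lit 4) (nat_lit 416) (nat_lit 342) (nat_lit 142)) (XT.lf (nat_lit 0) (nat_lit 32345255817) (nat_lit 152) (nat_lit 115921545622) (nat_lit 76) (nat_lit 203650843404) (nat_lit 16) (nat_lit 5) (nat_lit 18) (nat_lit 5) (nat_lit 17) (nat_lit 4) (nat_lit 417) (nat_lit 342) (nat_lit 141)))) (XT.nd (nat_lit 78) (nat_lit 0) (nat_lit 0) (XT.lf (nat_lit 0) (nat_lit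 4455452337) (nat_lit 76) (nat_lit 86610523431) (nat_lit 152) (nat_lit 275148602533) (nat_lit 15) (nat_lit 5) (nat_lit 16) (nat_lit 5) (nat_lit 17) (nat_lit 4) (nat_lit 418) (nat_lit 342) (nat_lit 140)) (XT.nd (nat_lit 78) (nat_lit 0) (nat_lit 0) (XT.lf (nat_lit 0) (nat_lit 134875168673) (nat_lit 76) (nat_lit 19810402957) (nat_lit 152) (nat_lit 226442644856) (nat_lit 15) (nat_lit 5) (nat_lit 16) (nat_lit 5) (nat_lit 17) (nat_lit 4) (nat_lit 419) (nat_lit 342) (nat_lit 139)) (XT.lf (nat_lit 0) (nat_lit 222271599583) (nat_lit 152) (nat_lit 125758099776) (nat_lit 0) (nat_lit 48718564654) (nat_lit 15) (nat_lit 5) (nat_lit 17) (nat_lit 4) (nat_lit 15) (nat_lit 4) (nat_lit 420) (nat_lit 342) (nat_lit 138))))))) (XT.nd (nat_lit 40872) (nat_lit 0) (nat_lit 6536) (XT.nd (nat_lit 468) (nat_lit 152) (nat_lit 0) (XT.nd (nat_lit 234) (nat_lit 76) (nat_lit 0) (XT.nd (nat_lit 78) (nat_lit 76) (nat_lit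 0) (XT.lf (nat_lit 0) (nat_lit 450643127) (nat_lit 76) (nat_lit 293117762565) (nat_lit 76) (nat_lit 119564334433) (nat_lit 14) (nat_lit 4) (nat_lit 15) (nat_lit 5) (nat_lit 15) (nat_lit 4) (nat_lit 421) (nat_lit 342) (nat_lit 137)) (XT.nd (nat_lit 78) (nat_lit 76) (nat_lit 0) (XT.lf (nat_lit 0) (nat_lit 137335255126) (nat_lit 76) (nat_lit 233224257278) (nat_lit 76) (nat_lit 59670454667) (nat_lit 14) (nat_lit 4) (nat_lit 15) (nat_lit 5) (nat_lit 15) (nat_lit 4) (nat_lit 422) (nat_lit 342) (nat_lit 136)) (XT.lf (nat_lit 0) (nat_lit 3114815214) (nat_lit 152) (nat_lit 167168788066) (nat_lit 76) (nat_lit 277895955129) (nat_lit 13) (nat_lit 5) (nat_lit 15) (nat_lit 5) (nat_lit 14) (nat_lit 4) (nat_lit 423) (nat_lit 342) (nat_lit 135)))) (XT.nd (nat_lit 78) (nat_lit 76) (nat_lit 0) (XT.lf (nat_lit 0) (nat_lit 67033740543) (nat_lit 152) (nat_lit 36135330805) (nat_lit 76) (nat_lit 363808662269)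 (nat_lit 13) (nat_lit 5) (nat_lit 15) (nat_lit 5) (nat_lit 14) (nat_lit 4) (nat_lit 424) (nat_lit 342) (nat_lit 134)) (XT.nd (nat_lit 78) (nat_lit 0) (nat_lit 0) (XT.lf (nat_lit 0) (nat_lit 104803638216) (nat_lit 76) (nat_lit 30980976722) (nat_lit 152) (nat_lit 350849402544) (nat_lit 12) (nat_lit 5) (nat_lit 13) (nat_lit 5) (nat_lit 14) (nat_lit 4) (nat_lit 425) (nat_lit 342) (nat_lit 133)) (XT.lf (nat_lit 0) (nat_lit 209294471474) (nat_lit 152) (nat_lit 253908701177) (nat_lit 0) (nat_lit 44003871003) (nat_lit 12) (nat_lit 5) (nat_lit 14) (nat_lit 4) (nat_lit 12) (nat_lit 4) (nat_lit 426) (nat_lit 342) (nat_lit 132))))) (XT.nd (nat_lit 234) (nat_lit 76) (nat_lit 0) (XT.nd (nat_lit 78) (nat_lit 76) (nat_lit 0) (XT.lf (nat_lit 0) (nat_lit 286987444087) (nat_lit 152) (nat_lit 120099331743) (nat_lit 0) (nat_lit 121696564175) (nat_lit 12) (nat_lit 5) (nat_lit 14) (nat_lit 4) (nat_lit 12) (nat_lit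 4) (nat_lit 427) (nat_lit 342) (nat_lit 131)) (XT.nd (nat_lit 78) (nat_lit 0) (nat_lit 0) (XT.lf (nat_lit 0) (nat_lit 21074539520) (nat_lit 76) (nat_lit 347819309279) (nat_lit 76) (nat_lit 182528163231) (nat_lit 11) (nat_lit 4) (nat_lit 12) (nat_lit 5) (nat_lit 12) (nat_lit 4) (nat_lit 428) (nat_lit 342) (nat_lit 130)) (XT.lf (nat_lit 0) (nat_lit 173476206232) (nat_lit 76) (nat_lit 283453063093) (nat_lit 76) (nat_lit 118161663583) (nat_lit 11) (nat_lit 4) (nat_lit 12) (nat_lit 5) (nat_lit 12) (nat_lit 4) (nat_lit 429) (nat_lit 342) (nat_lit 129)))) (XT.nd (nat_lit 78) (nat_lit 76) (nat_lit 0) (XT.lf (nat_lit 0) (nat_lit 333497503212) (nat_lit 76) (nat_lit 215868724600) (nat_lit 76) (nat_lit 50577083698) (nat_lit 11) (nat_lit 4) (nat_lit 12) (nat_lit 5) (nat_lit 12) (nat_lit 4) (nat_lit 430) (nat_lit 342) (nat_lit 128)) (XT.nd (nat_lit 40014) (nat_lit 0) (nat_lit 7296) (XT.lf (nat_lit 0)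 (nat_lit 19733997026) (nat_lit 152) (nat_lit 124837176895) (nat_lit 76) (nat_lit 481451231733) (nat_lit 10) (nat_lit 5) (nat_lit 12) (nat_lit 5) (nat_lit 11) (nat_lit 4) (nat_lit 431) (nat_lit 342) (nat_lit 127)) (XT.lf (nat_lit 0) (nat_lit 2459343244) (nat_lit 836) (nat_lit 7077053691) (nat_lit 836) (nat_lit 7077053691) (nat_lit 106) (nat_lit 3) (nat_lit 117) (nat_lit 3) (nat_lit 117) (nat_lit 5) (nat_lit 343) (nat_lit 343) (nat_lit 214)))))) (XT.nd (nat_lit 468) (nat_lit 760) (nat_lit 0) (XT.nd (nat_lit 234) (nat_lit 0) (nat_lit 152) (XT.nd (nat_lit 78) (nat_lit 0) (nat_lit 76) (XT.lf (nat_lit 76) (nat_lit 1778843457) (nat_lit 0) (nat_lit 3348215039) (nat_lit 836) (nat_lit 28926195097) (nat_lit 107) (nat_lit 5) (nat_lit 106) (nat_lit 3) (nat_lit 117) (nat_lit 5) (nat_lit 344) (nat_lit 343) (nat_lit 213)) (XT.nd (nat_lit 78) (nat_lit 0) (nat_lit 0) (XT.lf (nat_lit 0) (nat_lit 5791296723)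 (nat_lit 760) (nat_lit 16120750861) (nat_lit 836) (nat_lit 12986606785) (nat_lit 107) (nat_lit 5) (nat_lit 117) (nat_lit 5) (nat_lit 118) (nat_lit 5) (nat_lit 345) (nat_lit 343) (nat_lit 212)) (XT.lf (nat_lit 76) (nat_lit 809498717) (nat_lit 0) (nat_lit 5743257726) (nat_lit 836) (nat_lit 29230371306) (nat_lit 108) (nat_lit 5) (nat_lit 107) (nat_lit 5) (nat_lit 118) (nat_lit 5) (nat_lit 346) (nat_lit 343) (nat_lit 211)))) (XT.nd (nat_lit 78) (nat_lit 0) (nat_lit 0) (XT.lf (nat_lit 0) (nat_lit 7801808944) (nat_lit 760) (nat_lit 17734377934) (nat_lit 836) (nat_lit 11153164830) (nat_lit 108) (nat_lit 5) (nat_lit 118) (nat_lit 5) (nat_lit 119) (nat_lit 5) (nat_lit 347) (nat_lit 343) (nat_lit 210)) (XT.nd (nat_lit 78) (nat_lit 0) (nat_lit 76) (XT.lf (nat_lit 76) (nat_lit 279465532) (nat_lit 0) (nat_lit 8929161334) (nat_lit 836) (nat_lit 28427497121) (nat_lit 109) (nat_lit 5) (nat_lit 108) (nat_lit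 5) (nat_lit 119) (nat_lit 5) (nat_lit 348) (nat_lit 343) (nat_lit 209)) (XT.lf (nat_lit 0) (nat_lit 11120818612) (nat_lit 760) (nat_lit 18945579696) (nat_lit 836) (nat_lit 8542087556) (nat_lit 109) (nat_lit 5) (nat_lit 119) (nat_lit 5) (nat_lit 120) (nat_lit 5) (nat_lit 349) (nat_lit 343) (nat_lit 208))))) (XT.nd (nat_lit 234) (nat_lit 988) (nat_lit 0) (XT.nd (nat_lit 78) (nat_lit 0) (nat_lit 76) (XT.lf (nat_lit 76) (nat_lit 245335224) (nat_lit 0) (nat_lit 13030572839) (nat_lit 836) (nat_lit 26346195871) (nat_lit 110) (nat_lit 5) (nat_lit 109) (nat_lit 5) (nat_lit 120) (nat_lit 5) (nat_lit 350) (nat_lit 343) (nat_lit 207)) (XT.nd (nat_lit 78) (nat_lit 0) (nat_lit 0) (XT.lf (nat_lit 0) (nat_lit 15937890367) (nat_lit 760) (nat_lit 19700217138) (nat_lit 836) (nat_lit 5028340870) (nat_lit 110) (nat_lit 5) (nat_lit 120) (nat_lit 5) (nat_lit 121) (nat_lit 5) (nat_lit 351) (nat_lit 343) (nat_lit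 206)) (XT.lf (nat_lit 76) (nat_lit 768958935) (nat_lit 0) (nat_lit 18186961903) (nat_lit 836) (nat_lit 22795944019) (nat_lit 111) (nat_lit 5) (nat_lit 110) (nat_lit 5) (nat_lit 121) (nat_lit 5) (nat_lit 352) (nat_lit 343) (nat_lit 205)))) (XT.nd (nat_lit 156) (nat_lit 380) (nat_lit 0) (XT.nd (nat_lit 78) (nat_lit 760) (nat_lit 0) (XT.lf (nat_lit 0) (nat_lit 22463517323) (nat_lit 760) (nat_lit 19939234724) (nat_lit 76) (nat_lit 471869056) (nat_lit 111) (nat_lit 5) (nat_lit 121) (nat_lit 5) (nat_lit 112) (nat_lit 5) (nat_lit 353) (nat_lit 343) (nat_lit 204)) (XT.lf (nat_lit 0) (nat_lit 1917658977) (nat_lit 760) (nat_lit 24554471584) (nat_lit 836) (nat_lit 17565104814) (nat_lit 101) (nat_lit 5) (nat_lit 111) (nat_lit 5) (nat_lit 112) (nat_lit 5) (nat_lit 354) (nat_lit 343) (nat_lit 203))) (XT.nd (nat_lit 78) (nat_lit 380) (nat_lit 0) (XT.lf (nat_lit 0) (nat_lit 25557486708) (nat_lit 760) (nat_lit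 5459001334) (nat_lit 836) (nat_lit 14224728604) (nat_lit 101) (nat_lit 5) (nat_lit 111) (nat_lit 5) (nat_lit 112) (nat_lit 5) (nat_lit 355) (nat_lit 343) (nat_lit 202)) (XT.lf (nat_lit 0) (nat_lit 3764412440) (nat_lit 380) (nat_lit 32307983015) (nat_lit 456) (nat_lit 10418786791) (nat_lit 96) (nat_lit 5) (nat_lit 101) (nat_lit 5) (nat_lit 102) (nat_lit 5) (nat_lit 356) (nat_lit 343) (nat_lit 201))))))))
noncomputable def xc201 : XT := (XT.nd (nat_lit 1950) (nat_lit 1900) (nat_lit 0) (XT.nd (nat_lit 936) (nat_lit 1596) (nat_lit 0) (XT.nd (nat_lit 468) (nat_lit 912) (nat_lit 0) (XT.nd (nat_lit 234) (nat_lit 684) (nat_lit 0) (XT.nd (nat_lit 78) (nat_lit 380) (nat_lit 0) (XT.lf (nat_lit 0) (nat_lit 28973749855) (nat_lit 380) (nat_lit 12826572980) (nat_lit 456) (nat_lit 5982363842) (nat_lit 96) (nat_lit 5) (nat_lit 101) (nat_lit 5) (nat_lit 102) (nat_lit 5) (nat_lit 357) (nat_lit 343) (nat_lit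 200)) (XT.nd (nat_lit 78) (nat_lit 76) (nat_lit 0) (XT.lf (nat_lit 0) (nat_lit 6387994716) (nat_lit 304) (nat_lit 41643421986) (nat_lit 380) (nat_lit 1096512816) (nat_lit 92) (nat_lit 5) (nat_lit 96) (nat_lit 5) (nat_lit 97) (nat_lit 5) (nat_lit 358) (nat_lit 343) (nat_lit 199)) (XT.lf (nat_lit 0) (nat_lit 4436519826) (nat_lit 380) (nat_lit 17307375561) (nat_lit 76) (nat_lit 28766792317) (nat_lit 91) (nat_lit 5) (nat_lit 96) (nat_lit 5) (nat_lit 92) (nat_lit 5) (nat_lit 359) (nat_lit 343) (nat_lit 198)))) (XT.nd (nat_lit 78) (nat_lit 304) (nat_lit 0) (XT.lf (nat_lit 0) (nat_lit 9686803056) (nat_lit 380) (nat_lit 671844751) (nat_lit 456) (nat_lit 41595573989) (nat_lit 86) (nat_lit 5) (nat_lit 91) (nat_lit 5) (nat_lit 92) (nat_lit 5) (nat_lit 360) (nat_lit 343) (nat_lit 197)) (XT.nd (nat_lit 78) (nat_lit 304) (nat_lit 0) (XT.lf (nat_lit 0) (nat_lit 17207864058) (nat_lit 456) (nat_lit 15165603611)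 (nat_lit 76) (nat_lit 21064917225) (nat_lit 86) (nat_lit 5) (nat_lit 92) (nat_lit 5) (nat_lit 87) (nat_lit 5) (nat_lit 361) (nat_lit 343) (nat_lit 196)) (XT.lf (nat_lit 0) (nat_lit 13717298182) (nat_lit 304) (nat_lit 10905626021) (nat_lit 380) (nat_lit 30362664119) (nat_lit 82) (nat_lit 5) (nat_lit 86) (nat_lit 5) (nat_lit 87) (nat_lit 5) (nat_lit 362) (nat_lit 343) (nat_lit 195))))) (XT.nd (nat_lit 234) (nat_lit 608) (nat_lit 0) (XT.nd (nat_lit 78) (nat_lit 304) (nat_lit 0) (XT.lf (nat_lit 0) (nat_lit 32849703225) (nat_lit 380) (nat_lit 12214405485) (nat_lit 76) (nat_lit 11523996183) (nat_lit 82) (nat_lit 5) (nat_lit 87) (nat_lit 5) (nat_lit 83) (nat_lit 5) (nat_lit 363) (nat_lit 343) (nat_lit 194)) (XT.nd (nat_lit 78) (nat_lit 0) (nat_lit 0) (XT.lf (nat_lit 0) (nat_lit 18710255679) (nat_lit 304) (nat_lit 23246803083) (nat_lit 380) (nat_lit 16290227857) (nat_lit 78) (nat_lit 5) (nat_lit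 82) (nat_lit 5) (nat_lit 83) (nat_lit 5) (nat_lit 364) (nat_lit 343) (nat_lit 193)) (XT.lf (nat_lit 0) (nat_lit 51603256450) (nat_lit 304) (nat_lit 121768510) (nat_lit 380) (nat_lit 8254141476) (nat_lit 78) (nat_lit 5) (nat_lit 82) (nat_lit 5) (nat_lit 83) (nat_lit 5) (nat_lit 365) (nat_lit 343) (nat_lit 192)))) (XT.nd (nat_lit 78) (nat_lit 304) (nat_lit 0) (XT.lf (nat_lit 0) (nat_lit 952535726) (nat_lit 304) (nat_lit 37018394341) (nat_lit 76) (nat_lit 23787834394) (nat_lit 74) (nat_lit 5) (nat_lit 78) (nat_lit 5) (nat_lit 75) (nat_lit 5) (nat_lit 366) (nat_lit 343) (nat_lit 191)) (XT.nd (nat_lit 78) (nat_lit 304) (nat_lit 0) (XT.lf (nat_lit 0) (nat_lit 10486801305) (nat_lit 304) (nat_lit 3958578750) (nat_lit 76) (nat_lit 49167965243) (nat_lit 74) (nat_lit 5) (nat_lit 78) (nat_lit 5) (nat_lit 75) (nat_lit 5) (nat_lit 367) (nat_lit 343) (nat_lit 190)) (XT.lf (nat_lit 0) (nat_lit 21160591583)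 (nat_lit 380) (nat_lit 33935002825) (nat_lit 76) (nat_lit 10431921143) (nat_lit 70) (nat_lit 5) (nat_lit 75) (nat_lit 5) (nat_lit 71) (nat_lit 5) (nat_lit 368) (nat_lit 343) (nat_lit 189)))))) (XT.nd (nat_lit 468) (nat_lit 836) (nat_lit 0) (XT.nd (nat_lit 234) (nat_lit 304) (nat_lit 0) (XT.nd (nat_lit 78) (nat_lit 228) (nat_lit 0) (XT.lf (nat_lit 0) (nat_lit 1327227982) (nat_lit 228) (nat_lit 31365096850) (nat_lit 304) (nat_lit 34828857710) (nat_lit 67) (nat_lit 5) (nat_lit 70) (nat_lit 5) (nat_lit 71) (nat_lit 5) (nat_lit 369) (nat_lit 343) (nat_lit 188)) (XT.nd (nat_lit 78) (nat_lit 228) (nat_lit 0) (XT.lf (nat_lit 0) (nat_lit 39528855056) (nat_lit 228) (nat_lit 5845116529) (nat_lit 304) (nat_lit 24211895813) (nat_lit 67) (nat_lit 5) (nat_lit 70) (nat_lit 5) (nat_lit 71) (nat_lit 5) (nat_lit 370) (nat_lit 343) (nat_lit 187)) (XT.lf (nat_lit 0) (nat_lit 7807739143) (nat_lit 228) (nat_lit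 51329643529) (nat_lit 304) (nat_lit 12594020540) (nat_lit 64) (nat_lit 5) (nat_lit 67) (nat_lit 5) (nat_lit 68) (nat_lit 5) (nat_lit 371) (nat_lit 343) (nat_lit 186)))) (XT.nd (nat_lit 78) (nat_lit 228) (nat_lit 0) (XT.lf (nat_lit 0) (nat_lit 229287919) (nat_lit 304) (nat_lit 25449366853) (nat_lit 76) (nat_lit 48275275889) (nat_lit 63) (nat_lit 5) (nat_lit 67) (nat_lit 5) (nat_lit 64) (nat_lit 5) (nat_lit 372) (nat_lit 343) (nat_lit 185)) (XT.nd (nat_lit 78) (nat_lit 0) (nat_lit 0) (XT.lf (nat_lit 0) (nat_lit 13533890055) (nat_lit 304) (nat_lit 61064491447) (nat_lit 76) (nat_lit 1665712220) (nat_lit 60) (nat_lit 5) (nat_lit 64) (nat_lit 5) (nat_lit 61) (nat_lit 5) (nat_lit 373) (nat_lit 343) (nat_lit 184)) (XT.lf (nat_lit 0) (nat_lit 28361525699) (nat_lit 304) (nat_lit 20333461639) (nat_lit 76) (nat_lit 29951888099) (nat_lit 60) (nat_lit 5) (nat_lit 64) (nat_lit 5) (nat_lit 61) (nat_lit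 5) (nat_lit 374) (nat_lit 343) (nat_lit 183))))) (XT.nd (nat_lit 234) (nat_lit 456) (nat_lit 0) (XT.nd (nat_lit 78) (nat_lit 152) (nat_lit 0) (XT.lf (nat_lit 0) (nat_lit 23174137844) (nat_lit 228) (nat_lit 21117055637) (nat_lit 304) (nat_lit 36839570878) (nat_lit 57) (nat_lit 5) (nat_lit 60) (nat_lit 5) (nat_lit 61) (nat_lit 5) (nat_lit 375) (nat_lit 343) (nat_lit 182)) (XT.nd (nat_lit 78) (nat_lit 152) (nat_lit 0) (XT.lf (nat_lit 0) (nat_lit 61488605681) (nat_lit 304) (nat_lit 14288347158) (nat_lit 76) (nat_lit 7938332447) (nat_lit 57) (nat_lit 5) (nat_lit 61) (nat_lit 5) (nat_lit 58) (nat_lit 5) (nat_lit 376) (nat_lit 343) (nat_lit 181)) (XT.lf (nat_lit 0) (nat_lit 32247652692) (nat_lit 152) (nat_lit 48146805649) (nat_lit 228) (nat_lit 5992146003) (nat_lit 55) (nat_lit 5) (nat_lit 57) (nat_lit 5) (nat_lit 58) (nat_lit 5) (nat_lit 377) (nat_lit 343) (nat_lit 180)))) (XT.nd (nat_lit 156)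 (nat_lit 152) (nat_lit 0) (XT.nd (nat_lit 78) (nat_lit 228) (nat_lit 0) (XT.lf (nat_lit 0) (nat_lit 10945181618) (nat_lit 228) (nat_lit 7751079543) (nat_lit 76) (nat_lit 70474356034) (nat_lit 54) (nat_lit 5) (nat_lit 57) (nat_lit 5) (nat_lit 55) (nat_lit 5) (nat_lit 378) (nat_lit 343) (nat_lit 179)) (XT.lf (nat_lit 0) (nat_lit 29389246141) (nat_lit 304) (nat_lit 50052040739) (nat_lit 76) (nat_lit 12604570419) (nat_lit 51) (nat_lit 5) (nat_lit 55) (nat_lit 5) (nat_lit 52) (nat_lit 5) (nat_lit 379) (nat_lit 343) (nat_lit 178))) (XT.nd (nat_lit 78) (nat_lit 152) (nat_lit 0) (XT.lf (nat_lit 0) (nat_lit 49194419005) (nat_lit 304) (nat_lit 873473199) (nat_lit 76) (nat_lit 44975022423) (nat_lit 51) (nat_lit 5) (nat_lit 55) (nat_lit 5) (nat_lit 52) (nat_lit 5) (nat_lit 380) (nat_lit 343) (nat_lit 177)) (XT.lf (nat_lit 0) (nat_lit 52440949524) (nat_lit 152) (nat_lit 18366688138) (nat_lit 228) (nat_lit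 27341298258) (nat_lit 49) (nat_lit 5) (nat_lit 51) (nat_lit 5) (nat_lit 52) (nat_lit 5) (nat_lit 381) (nat_lit 343) (nat_lit 176))))))) (XT.nd (nat_lit 936) (nat_lit 836) (nat_lit 0) (XT.nd (nat_lit 468) (nat_lit 532) (nat_lit 0) (XT.nd (nat_lit 234) (nat_lit 152) (nat_lit 0) (XT.nd (nat_lit 78) (nat_lit 228) (nat_lit 0) (XT.lf (nat_lit 0) (nat_lit 7032271848) (nat_lit 152) (nat_lit 86826061545) (nat_lit 228) (nat_lit 7534084510) (nat_lit 47) (nat_lit 5) (nat_lit 49) (nat_lit 5) (nat_lit 50) (nat_lit 5) (nat_lit 382) (nat_lit 343) (nat_lit 175)) (XT.nd (nat_lit 78) (nat_lit 152) (nat_lit 0) (XT.lf (nat_lit 0) (nat_lit 13925902711) (nat_lit 228) (nat_lit 41285344590) (nat_lit 76) (nat_lit 49522126698) (nat_lit 46) (nat_lit 5) (nat_lit 49) (nat_lit 5) (nat_lit 47) (nat_lit 5) (nat_lit 383) (nat_lit 343) (nat_lit 174)) (XT.lf (nat_lit 0) (nat_lit 14791653034) (nat_lit 152) (nat_lit 21644082902)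 (nat_lit 228) (nat_lit 71787964797) (nat_lit 44) (nat_lit 5) (nat_lit 46) (nat_lit 5) (nat_lit 47) (nat_lit 5) (nat_lit 384) (nat_lit 343) (nat_lit 173)))) (XT.nd (nat_lit 78) (nat_lit 152) (nat_lit 0) (XT.lf (nat_lit 0) (nat_lit 60993180529) (nat_lit 228) (nat_lit 36973040212) (nat_lit 76) (nat_lit 13876217431) (nat_lit 44) (nat_lit 5) (nat_lit 47) (nat_lit 5) (nat_lit 45) (nat_lit 5) (nat_lit 385) (nat_lit 343) (nat_lit 172)) (XT.nd (nat_lit 78) (nat_lit 0) (nat_lit 0) (XT.lf (nat_lit 0) (nat_lit 22678550359) (nat_lit 152) (nat_lit 64807999695) (nat_lit 228) (nat_lit 28120160133) (nat_lit 42) (nat_lit 5) (nat_lit 44) (nat_lit 5) (nat_lit 45) (nat_lit 5) (nat_lit 386) (nat_lit 343) (nat_lit 171)) (XT.lf (nat_lit 0) (nat_lit 86594962032) (nat_lit 152) (nat_lit 29334956959) (nat_lit 228) (nat_lit 3598010587) (nat_lit 42) (nat_lit 5) (nat_lit 44) (nat_lit 5) (nat_lit 45) (nat_lit 5) (nat_lit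 387) (nat_lit 343) (nat_lit 170))))) (XT.nd (nat_lit 234) (nat_lit 152) (nat_lit 0) (XT.nd (nat_lit 78) (nat_lit 152) (nat_lit 0) (XT.lf (nat_lit 0) (nat_lit 22056814356) (nat_lit 228) (nat_lit 93043714413) (nat_lit 76) (nat_lit 8496614385) (nat_lit 39) (nat_lit 5) (nat_lit 42) (nat_lit 5) (nat_lit 40) (nat_lit 5) (nat_lit 388) (nat_lit 343) (nat_lit 169)) (XT.nd (nat_lit 78) (nat_lit 152) (nat_lit 0) (XT.lf (nat_lit 0) (nat_lit 49920453510) (nat_lit 228) (nat_lit 30034804765) (nat_lit 76) (nat_lit 47859260737) (nat_lit 39) (nat_lit 5) (nat_lit 42) (nat_lit 5) (nat_lit 40) (nat_lit 5) (nat_lit 389) (nat_lit 343) (nat_lit 168)) (XT.lf (nat_lit 0) (nat_lit 37317663572) (nat_lit 152) (nat_lit 42441491818) (nat_lit 228) (nat_lit 52454514502) (nat_lit 37) (nat_lit 5) (nat_lit 39) (nat_lit 5) (nat_lit 40) (nat_lit 5) (nat_lit 390) (nat_lit 343) (nat_lit 167)))) (XT.nd (nat_lit 78) (nat_lit 152)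 (nat_lit 0) (XT.lf (nat_lit 0) (nat_lit 109079231576) (nat_lit 152) (nat_lit 2518478292) (nat_lit 228) (nat_lit 25209672825) (nat_lit 37) (nat_lit 5) (nat_lit 39) (nat_lit 5) (nat_lit 40) (nat_lit 5) (nat_lit 391) (nat_lit 343) (nat_lit 166)) (XT.nd (nat_lit 78) (nat_lit 0) (nat_lit 0) (XT.lf (nat_lit 0) (nat_lit 4604694562) (nat_lit 152) (nat_lit 98063882891) (nat_lit 76) (nat_lit 38893750655) (nat_lit 35) (nat_lit 5) (nat_lit 37) (nat_lit 5) (nat_lit 36) (nat_lit 5) (nat_lit 392) (nat_lit 343) (nat_lit 165)) (XT.lf (nat_lit 0) (nat_lit 35580438399) (nat_lit 152) (nat_lit 27746004494) (nat_lit 76) (nat_lit 83182021032) (nat_lit 35) (nat_lit 5) (nat_lit 37) (nat_lit 5) (nat_lit 36) (nat_lit 5) (nat_lit 393) (nat_lit 343) (nat_lit 164)))))) (XT.nd (nat_lit 468) (nat_lit 380) (nat_lit 0) (XT.nd (nat_lit 234) (nat_lit 228) (nat_lit 0) (XT.nd (nat_lit 78) (nat_lit 76) (nat_lit 0) (XT.lf (nat_lit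 0) (nat_lit 47610422185) (nat_lit 152) (nat_lit 21237206999) (nat_lit 228) (nat_lit 82817144570) (nat_lit 33) (nat_lit 5) (nat_lit 35) (nat_lit 5) (nat_lit 36) (nat_lit 5) (nat_lit 394) (nat_lit 343) (nat_lit 163)) (XT.nd (nat_lit 78) (nat_lit 76) (nat_lit 0) (XT.lf (nat_lit 0) (nat_lit 104613523617) (nat_lit 228) (nat_lit 29724756784) (nat_lit 76) (nat_lit 22698851668) (nat_lit 33) (nat_lit 5) (nat_lit 36) (nat_lit 5) (nat_lit 34) (nat_lit 4) (nat_lit 395) (nat_lit 343) (nat_lit 162)) (XT.lf (nat_lit 0) (nat_lit 49558212603) (nat_lit 76) (nat_lit 93730759202) (nat_lit 152) (nat_lit 19333073730) (nat_lit 32) (nat_lit 5) (nat_lit 33) (nat_lit 5) (nat_lit 34) (nat_lit 4) (nat_lit 396) (nat_lit 343) (nat_lit 161)))) (XT.nd (nat_lit 78) (nat_lit 152) (nat_lit 0) (XT.lf (nat_lit 0) (nat_lit 15429731582) (nat_lit 152) (nat_lit 34873733855) (nat_lit 76) (nat_lit 118145157007) (nat_lit 31) (nat_lit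 5) (nat_lit 33) (nat_lit 5) (nat_lit 32) (nat_lit 5) (nat_lit 397) (nat_lit 343) (nat_lit 160)) (XT.nd (nat_lit 78) (nat_lit 0) (nat_lit 0) (XT.lf (nat_lit 0) (nat_lit 48458844579) (nat_lit 152) (nat_lit 3578091053) (nat_lit 228) (nat_lit 122475947122) (nat_lit 29) (nat_lit 5) (nat_lit 31) (nat_lit 5) (nat_lit 32) (nat_lit 5) (nat_lit 398) (nat_lit 343) (nat_lit 159)) (XT.lf (nat_lit 0) (nat_lit 91784314157) (nat_lit 228) (nat_lit 44402925011) (nat_lit 76) (nat_lit 44627626353) (nat_lit 29) (nat_lit 5) (nat_lit 32) (nat_lit 5) (nat_lit 30) (nat_lit 4) (nat_lit 399) (nat_lit 343) (nat_lit 158))))) (XT.nd (nat_lit 234) (nat_lit 76) (nat_lit 0) (XT.nd (nat_lit 78) (nat_lit 228) (nat_lit 0) (XT.lf (nat_lit 0) (nat_lit 42635664987) (nat_lit 76) (nat_lit 91607147474) (nat_lit 152) (nat_lit 53152947571) (nat_lit 28) (nat_lit 5) (nat_lit 29) (nat_lit 5) (nat_lit 30) (nat_lit 4) (nat_lit 400) (nat_lit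 343) (nat_lit 157)) (XT.nd (nat_lit 78) (nat_lit 228) (nat_lit 0) (XT.lf (nat_lit 0) (nat_lit 135566741236) (nat_lit 76) (nat_lit 44008922135) (nat_lit 152) (nat_lit 14692464652) (nat_lit 28) (nat_lit 5) (nat_lit 29) (nat_lit 5) (nat_lit 30) (nat_lit 4) (nat_lit 401) (nat_lit 343) (nat_lit 156)) (XT.lf (nat_lit 0) (nat_lit 25480422748) (nat_lit 228) (nat_lit 169255206134) (nat_lit 76) (nat_lit 6697847494) (nat_lit 25) (nat_lit 5) (nat_lit 28) (nat_lit 5) (nat_lit 26) (nat_lit 4) (nat_lit 402) (nat_lit 343) (nat_lit 155)))) (XT.nd (nat_lit 156) (nat_lit 0) (nat_lit 0) (XT.nd (nat_lit 78) (nat_lit 76) (nat_lit 0) (XT.lf (nat_lit 0) (nat_lit 68899546968) (nat_lit 228) (nat_lit 80247096933) (nat_lit 76) (nat_lit 59711837586) (nat_lit 25) (nat_lit 5) (nat_lit 28) (nat_lit 5) (nat_lit 26) (nat_lit 4) (nat_lit 403) (nat_lit 343) (nat_lit 154)) (XT.lf (nat_lit 0) (nat_lit 13647276575) (nat_lit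 76) (nat_lit 101054912730) (nat_lit 152) (nat_lit 101941919566) (nat_lit 24) (nat_lit 5) (nat_lit 25) (nat_lit 5) (nat_lit 26) (nat_lit 4) (nat_lit 404) (nat_lit 343) (nat_lit 153))) (XT.nd (nat_lit 78) (nat_lit 0) (nat_lit 0) (XT.lf (nat_lit 0) (nat_lit 115021442680) (nat_lit 76) (nat_lit 49132044044) (nat_lit 152) (nat_lit 60597604864) (nat_lit 24) (nat_lit 5) (nat_lit 25) (nat_lit 5) (nat_lit 26) (nat_lit 4) (nat_lit 405) (nat_lit 343) (nat_lit 152)) (XT.lf (nat_lit 0) (nat_lit 216160971763) (nat_lit 152) (nat_lit 11884109736) (nat_lit 0) (nat_lit 5214160910) (nat_lit 24) (nat_lit 5) (nat_lit 26) (nat_lit 4) (nat_lit 24) (nat_lit 4) (nat_lit 406) (nat_lit 343) (nat_lit 151))))))))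
noncomputable def xc202 : XT := (XT.nd (nat_lit 1872) (nat_lit 0) (nat_lit 0) (XT.nd (nat_lit 936) (nat_lit 380) (nat_lit 0) (XT.nd (nat_lit 468) (nat_lit 228) (nat_lit 0) (XT.nd (nat_lit 234) (nat_lit 152) (nat_lit 0) (XT.nd (nat_lit 78) (nat_lit 76) (nat_lit 0) (XT.lf (nat_lit 0) (nat_lit 29955785643) (nat_lit 152) (nat_lit 149538308595) (nat_lit 76) (nat_lit 62561680691) (nat_lit 22) (nat_lit 5) (nat_lit 24) (nat_lit 5) (nat_lit 23) (nat_lit 4) (nat_lit 407) (nat_lit 343) (nat_lit 150)) (XT.nd (nat_lit 78) (nat_lit 76) (nat_lit 0) (XT.lf (nat_lit 0) (nat_lit 78992034634) (nat_lit 152) (nat_lit 49014815603) (nat_lit 76) (nat_lit 123261063759) (nat_lit 22) (nat_lit 5) (nat_lit 24) (nat_lit 5) (nat_lit 23) (nat_lit 4) (nat_lit 408) (nat_lit 343) (nat_lit 149)) (XT.lf (nat_lit 0) (nat_lit 58403306945) (nat_lit 76) (nat_lit 72988191622) (nat_lit 152) (nat_lit 129503591411) (nat_lit 21) (nat_lit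 5) (nat_lit 22) (nat_lit 5) (nat_lit 23) (nat_lit 4) (nat_lit 409) (nat_lit 343) (nat_lit 148)))) (XT.nd (nat_lit 78) (nat_lit 152) (nat_lit 0) (XT.lf (nat_lit 0) (nat_lit 172893216846) (nat_lit 76) (nat_lit 14347379938) (nat_lit 152) (nat_lit 83721545004) (nat_lit 21) (nat_lit 5) (nat_lit 22) (nat_lit 5) (nat_lit 23) (nat_lit 4) (nat_lit 410) (nat_lit 343) (nat_lit 147)) (XT.nd (nat_lit 78) (nat_lit 76) (nat_lit 0) (XT.lf (nat_lit 0) (nat_lit 11195294206) (nat_lit 76) (nat_lit 235598553907) (nat_lit 76) (nat_lit 34693113243) (nat_lit 20) (nat_lit 4) (nat_lit 21) (nat_lit 5) (nat_lit 21) (nat_lit 4) (nat_lit 411) (nat_lit 343) (nat_lit 146)) (XT.lf (nat_lit 0) (nat_lit 18172321511) (nat_lit 152) (nat_lit 163652822051) (nat_lit 76) (nat_lit 110603630912) (nat_lit 19) (nat_lit 5) (nat_lit 21) (nat_lit 5) (nat_lit 20) (nat_lit 4) (nat_lit 412) (nat_lit 343) (nat_lit 145))))) (XT.nd (nat_lit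 234) (nat_lit 152) (nat_lit 0) (XT.nd (nat_lit 78) (nat_lit 76) (nat_lit 0) (XT.lf (nat_lit 0) (nat_lit 72514718870) (nat_lit 152) (nat_lit 52251517452) (nat_lit 76) (nat_lit 179123024668) (nat_lit 19) (nat_lit 5) (nat_lit 21) (nat_lit 5) (nat_lit 20) (nat_lit 4) (nat_lit 413) (nat_lit 343) (nat_lit 144)) (XT.nd (nat_lit 78) (nat_lit 0) (nat_lit 0) (XT.lf (nat_lit 0) (nat_lit 66859051772) (nat_lit 76) (nat_lit 63758667178) (nat_lit 152) (nat_lit 185252878803) (nat_lit 18) (nat_lit 5) (nat_lit 19) (nat_lit 5) (nat_lit 20) (nat_lit 4) (nat_lit 414) (nat_lit 343) (nat_lit 143)) (XT.lf (nat_lit 0) (nat_lit 192529580505) (nat_lit 152) (nat_lit 134687440883) (nat_lit 0) (nat_lit 1188794455) (nat_lit 18) (nat_lit 5) (nat_lit 20) (nat_lit 4) (nat_lit 18) (nat_lit 4) (nat_lit 415) (nat_lit 343) (nat_lit 142)))) (XT.nd (nat_lit 78) (nat_lit 152) (nat_lit 0) (XT.lf (nat_lit 0) (nat_lit 258581904425)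 (nat_lit 152) (nat_lit 15693030468) (nat_lit 0) (nat_lit 67240616538) (nat_lit 18) (nat_lit 5) (nat_lit 20) (nat_lit 4) (nat_lit 18) (nat_lit 4) (nat_lit 416) (nat_lit 343) (nat_lit 141)) (XT.nd (nat_lit 78) (nat_lit 76) (nat_lit 0) (XT.lf (nat_lit 0) (nat_lit 112862770256) (nat_lit 76) (nat_lit 216835840556) (nat_lit 76) (nat_lit 25494074728) (nat_lit 17) (nat_lit 4) (nat_lit 18) (nat_lit 5) (nat_lit 18) (nat_lit 4) (nat_lit 417) (nat_lit 343) (nat_lit 140)) (XT.lf (nat_lit 0) (nat_lit 33972888263) (nat_lit 152) (nat_lit 121697800069) (nat_lit 76) (nat_lit 213842318716) (nat_lit 16) (nat_lit 5) (nat_lit 18) (nat_lit 5) (nat_lit 17) (nat_lit 4) (nat_lit 418) (nat_lit 343) (nat_lit 139)))))) (XT.nd (nat_lit 468) (nat_lit 152) (nat_lit 0) (XT.nd (nat_lit 234) (nat_lit 152) (nat_lit 0) (XT.nd (nat_lit 78) (nat_lit 0) (nat_lit 0) (XT.lf (nat_lit 0) (nat_lit 4697728065) (nat_lit 76) (nat_lit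 90931726852) (nat_lit 152) (nat_lit 288895341801) (nat_lit 15) (nat_lit 5) (nat_lit 16) (nat_lit 5) (nat_lit 17) (nat_lit 4) (nat_lit 419) (nat_lit 343) (nat_lit 138)) (XT.nd (nat_lit 78) (nat_lit 0) (nat_lit 0) (XT.lf (nat_lit 0) (nat_lit 141637501498) (nat_lit 76) (nat_lit 20792044295) (nat_lit 152) (nat_lit 237754595328) (nat_lit 15) (nat_lit 5) (nat_lit 16) (nat_lit 5) (nat_lit 17) (nat_lit 4) (nat_lit 420) (nat_lit 343) (nat_lit 137)) (XT.lf (nat_lit 0) (nat_lit 233394545471) (nat_lit 152) (nat_lit 132027983853) (nat_lit 0) (nat_lit 51162678251) (nat_lit 15) (nat_lit 5) (nat_lit 17) (nat_lit 4) (nat_lit 15) (nat_lit 4) (nat_lit 421) (nat_lit 343) (nat_lit 136)))) (XT.nd (nat_lit 78) (nat_lit 76) (nat_lit 0) (XT.lf (nat_lit 0) (nat_lit 490905535) (nat_lit 76) (nat_lit 307765117174) (nat_lit 76) (nat_lit 125532893307) (nat_lit 14) (nat_lit 4) (nat_lit 15) (nat_lit 5) (nat_lit 15) (nat_lit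 4) (nat_lit 422) (nat_lit 343) (nat_lit 135)) (XT.nd (nat_lit 78) (nat_lit 76) (nat_lit 0) (XT.lf (nat_lit 0) (nat_lit 144218903837) (nat_lit 76) (nat_lit 244877342980) (nat_lit 76) (nat_lit 62644779450) (nat_lit 14) (nat_lit 4) (nat_lit 15) (nat_lit 5) (nat_lit 15) (nat_lit 4) (nat_lit 423) (nat_lit 343) (nat_lit 134)) (XT.lf (nat_lit 0) (nat_lit 3279035555) (nat_lit 152) (nat_lit 175510864130) (nat_lit 76) (nat_lit 291798211561) (nat_lit 13) (nat_lit 5) (nat_lit 15) (nat_lit 5) (nat_lit 14) (nat_lit 4) (nat_lit 424) (nat_lit 343) (nat_lit 133))))) (XT.nd (nat_lit 234) (nat_lit 76) (nat_lit 0) (XT.nd (nat_lit 78) (nat_lit 76) (nat_lit 0) (XT.lf (nat_lit 0) (nat_lit 70393503360) (nat_lit 152) (nat_lit 37926513213) (nat_lit 76) (nat_lit 382006198884) (nat_lit 13) (nat_lit 5) (nat_lit 15) (nat_lit 5) (nat_lit 14) (nat_lit 4) (nat_lit 425) (nat_lit 343) (nat_lit 132)) (XT.nd (nat_lit 78) (nat_lit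 0) (nat_lit 0) (XT.lf (nat_lit 0) (nat_lit 110059152903) (nat_lit 76) (nat_lit 32522623399) (nat_lit 152) (nat_lit 368383544523) (nat_lit 12) (nat_lit 5) (nat_lit 13) (nat_lit 5) (nat_lit 14) (nat_lit 4) (nat_lit 426) (nat_lit 343) (nat_lit 131)) (XT.lf (nat_lit 0) (nat_lit 219766858081) (nat_lit 152) (nat_lit 266589265055) (nat_lit 0) (nat_lit 46210888595) (nat_lit 12) (nat_lit 5) (nat_lit 14) (nat_lit 4) (nat_lit 12) (nat_lit 4) (nat_lit 427) (nat_lit 343) (nat_lit 130)))) (XT.nd (nat_lit 78) (nat_lit 76) (nat_lit 0) (XT.lf (nat_lit 0) (nat_lit 301344114418) (nat_lit 152) (nat_lit 126090135301) (nat_lit 0) (nat_lit 127787891471) (nat_lit 12) (nat_lit 5) (nat_lit 14) (nat_lit 4) (nat_lit 12) (nat_lit 4) (nat_lit 428) (nat_lit 343) (nat_lit 129)) (XT.nd (nat_lit 78) (nat_lit 0) (nat_lit 0) (XT.lf (nat_lit 0) (nat_lit 22142201089) (nat_lit 76) (nat_lit 365203508304) (nat_lit 76) (nat_lit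 191647043965) (nat_lit 11) (nat_lit 4) (nat_lit 12) (nat_lit 5) (nat_lit 12) (nat_lit 4) (nat_lit 429) (nat_lit 343) (nat_lit 128)) (XT.lf (nat_lit 0) (nat_lit 182163287585) (nat_lit 76) (nat_lit 297619272020) (nat_lit 76) (nat_lit 124062577783) (nat_lit 11) (nat_lit 4) (nat_lit 12) (nat_lit 5) (nat_lit 12) (nat_lit 4) (nat_lit 430) (nat_lit 343) (nat_lit 127))))))) (XT.nd (nat_lit 40950) (nat_lit 0) (nat_lit 4788) (XT.nd (nat_lit 40482) (nat_lit 0) (nat_lit 7372) (XT.nd (nat_lit 40248) (nat_lit 0) (nat_lit 7296) (XT.nd (nat_lit 40092) (nat_lit 0) (nat_lit 7220) (XT.lf (nat_lit 0) (nat_lit 350185017459) (nat_lit 76) (nat_lit 226656023471) (nat_lit 76) (nat_lit 53099110284) (nat_lit 11) (nat_lit 4) (nat_lit 12) (nat_lit 5) (nat_lit 12) (nat_lit 4) (nat_lit 431) (nat_lit 343) (nat_lit 126)) (XT.nd (nat_lit 78) (nat_lit 0) (nat_lit 0) (XT.lf (nat_lit 0) (nat_lit 2639042722) (nat_lit 836) (nat_lit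 7401097326) (nat_lit 836) (nat_lit 7401097326) (nat_lit 106) (nat_lit 3) (nat_lit 117) (nat_lit 3) (nat_lit 117) (nat_lit 5) (nat_lit 344) (nat_lit 344) (nat_lit 212)) (XT.lf (nat_lit 76) (nat_lit 1926442147) (nat_lit 0) (nat_lit 3565946621) (nat_lit 836) (nat_lit 30257984986) (nat_lit 107) (nat_lit 5) (nat_lit 106) (nat_lit 3) (nat_lit 117) (nat_lit 5) (nat_lit 345) (nat_lit 344) (nat_lit 211)))) (XT.nd (nat_lit 78) (nat_lit 0) (nat_lit 0) (XT.lf (nat_lit 0) (nat_lit 6183901271) (nat_lit 760) (nat_lit 16864898228) (nat_lit 836) (nat_lit 13589546411) (nat_lit 107) (nat_lit 5) (nat_lit 117) (nat_lit 5) (nat_lit 118) (nat_lit 5) (nat_lit 346) (nat_lit 344) (nat_lit 210)) (XT.nd (nat_lit 78) (nat_lit 0) (nat_lit 76) (XT.lf (nat_lit 76) (nat_lit 910865600) (nat_lit 0) (nat_lit 6068612417) (nat_lit 836) (nat_lit 30587766986) (nat_lit 108) (nat_lit 5) (nat_lit 107) (nat_lit 5) (nat_lit 118) (nat_lit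 5) (nat_lit 347) (nat_lit 344) (nat_lit 209)) (XT.lf (nat_lit 0) (nat_lit 8285696983) (nat_lit 760) (nat_lit 18557737438) (nat_lit 836) (nat_lit 11675614092) (nat_lit 108) (nat_lit 5) (nat_lit 118) (nat_lit 5) (nat_lit 119) (nat_lit 5) (nat_lit 348) (nat_lit 344) (nat_lit 208))))) (XT.nd (nat_lit 234) (nat_lit 0) (nat_lit 152) (XT.nd (nat_lit 78) (nat_lit 0) (nat_lit 76) (XT.lf (nat_lit 76) (nat_lit 355776275) (nat_lit 0) (nat_lit 9403586237) (nat_lit 836) (nat_lit 29753975411) (nat_lit 109) (nat_lit 5) (nat_lit 108) (nat_lit 5) (nat_lit 119) (nat_lit 5) (nat_lit 349) (nat_lit 344) (nat_lit 207)) (XT.nd (nat_lit 78) (nat_lit 0) (nat_lit 0) (XT.lf (nat_lit 0) (nat_lit 11762447792) (nat_lit 760) (nat_lit 19828700233) (nat_lit 836) (nat_lit 8943409341) (nat_lit 109) (nat_lit 5) (nat_lit 119) (nat_lit 5) (nat_lit 120) (nat_lit 5) (nat_lit 350) (nat_lit 344) (nat_lit 206)) (XT.lf (nat_lit 76)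 (nat_lit 320725619) (nat_lit 0) (nat_lit 13701476002) (nat_lit 836) (nat_lit 27576812717) (nat_lit 110) (nat_lit 5) (nat_lit 109) (nat_lit 5) (nat_lit 120) (nat_lit 5) (nat_lit 351) (nat_lit 344) (nat_lit 205)))) (XT.nd (nat_lit 78) (nat_lit 0) (nat_lit 0) (XT.lf (nat_lit 0) (nat_lit 16813066471) (nat_lit 760) (nat_lit 20620827121) (nat_lit 836) (nat_lit 5261896566) (nat_lit 110) (nat_lit 5) (nat_lit 120) (nat_lit 5) (nat_lit 121) (nat_lit 5) (nat_lit 352) (nat_lit 344) (nat_lit 204)) (XT.nd (nat_lit 78) (nat_lit 0) (nat_lit 76) (XT.lf (nat_lit 76) (nat_lit 870769032) (nat_lit 0) (nat_lit 19108491000) (nat_lit 836) (nat_lit 23856357524) (nat_lit 111) (nat_lit 5) (nat_lit 110) (nat_lit 5) (nat_lit 121) (nat_lit 5) (nat_lit 353) (nat_lit 344) (nat_lit 203)) (XT.lf (nat_lit 0) (nat_lit 23658457925) (nat_lit 760) (nat_lit 20872012770) (nat_lit 76) (nat_lit 484232858) (nat_lit 111) (nat_lit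 5) (nat_lit 121) (nat_lit 5) (nat_lit 112) (nat_lit 5) (nat_lit 354) (nat_lit 344) (nat_lit 202)))))) (XT.nd (nat_lit 468) (nat_lit 1292) (nat_lit 0) (XT.nd (nat_lit 234) (nat_lit 380) (nat_lit 0) (XT.nd (nat_lit 78) (nat_lit 380) (nat_lit 0) (XT.lf (nat_lit 0) (nat_lit 2076690395) (nat_lit 760) (nat_lit 25788379986) (nat_lit 836) (nat_lit 18370502605) (nat_lit 101) (nat_lit 5) (nat_lit 111) (nat_lit 5) (nat_lit 112) (nat_lit 5) (nat_lit 355) (nat_lit 344) (nat_lit 201)) (XT.nd (nat_lit 78) (nat_lit 380) (nat_lit 0) (XT.lf (nat_lit 0) (nat_lit 26895502442) (nat_lit 760) (nat_lit 5737841707) (nat_lit 836) (nat_lit 14866576987) (nat_lit 101) (nat_lit 5) (nat_lit 111) (nat_lit 5) (nat_lit 112) (nat_lit 5) (nat_lit 356) (nat_lit 344) (nat_lit 200)) (XT.lf (nat_lit 0) (nat_lit 4015197127) (nat_lit 380) (nat_lit 33924594656) (nat_lit 456) (nat_lit 10872708599) (nat_lit 96) (nat_lit 5) (nat_lit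 101) (nat_lit 5) (nat_lit 102) (nat_lit 5) (nat_lit 357) (nat_lit 344) (nat_lit 199)))) (XT.nd (nat_lit 78) (nat_lit 380) (nat_lit 0) (XT.lf (nat_lit 0) (nat_lit 30482022171) (nat_lit 380) (nat_lit 13469056381) (nat_lit 456) (nat_lit 6217655813) (nat_lit 96) (nat_lit 5) (nat_lit 101) (nat_lit 5) (nat_lit 102) (nat_lit 5) (nat_lit 358) (nat_lit 344) (nat_lit 198)) (XT.nd (nat_lit 78) (nat_lit 76) (nat_lit 0) (XT.lf (nat_lit 0) (nat_lit 6769072828) (nat_lit 304) (nat_lit 43722707727) (nat_lit 380) (nat_lit 1089558488) (nat_lit 92) (nat_lit 5) (nat_lit 96) (nat_lit 5) (nat_lit 97) (nat_lit 5) (nat_lit 359) (nat_lit 344) (nat_lit 197)) (XT.lf (nat_lit 0) (nat_lit 4715300697) (nat_lit 380) (nat_lit 18112076940) (nat_lit 76) (nat_lit 30205953806) (nat_lit 91) (nat_lit 5) (nat_lit 96) (nat_lit 5) (nat_lit 92) (nat_lit 5) (nat_lit 360) (nat_lit 344) (nat_lit 196))))) (XT.nd (nat_lit 234) (nat_lit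 608) (nat_lit 0) (XT.nd (nat_lit 78) (nat_lit 304) (nat_lit 0) (XT.lf (nat_lit 0) (nat_lit 10230832102) (nat_lit 380) (nat_lit 700922749) (nat_lit 456) (nat_lit 43617378443) (nat_lit 86) (nat_lit 5) (nat_lit 91) (nat_lit 5) (nat_lit 92) (nat_lit 5) (nat_lit 361) (nat_lit 344) (nat_lit 195)) (XT.nd (nat_lit 78) (nat_lit 304) (nat_lit 0) (XT.lf (nat_lit 0) (nat_lit 18120871674) (nat_lit 456) (nat_lit 15864438072) (nat_lit 76) (nat_lit 22122324758) (nat_lit 86) (nat_lit 5) (nat_lit 92) (nat_lit 5) (nat_lit 87) (nat_lit 5) (nat_lit 362) (nat_lit 344) (nat_lit 194)) (XT.lf (nat_lit 0) (nat_lit 14461650009) (nat_lit 304) (nat_lit 11443442514) (nat_lit 380) (nat_lit 31827187049) (nat_lit 82) (nat_lit 5) (nat_lit 86) (nat_lit 5) (nat_lit 87) (nat_lit 5) (nat_lit 363) (nat_lit 344) (nat_lit 193)))) (XT.nd (nat_lit 156) (nat_lit 304) (nat_lit 0) (XT.nd (nat_lit 78) (nat_lit 304) (nat_lit 0) (XT.lf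 (nat_lit 0) (nat_lit 34540891869) (nat_lit 380) (nat_lit 12767070009) (nat_lit 76) (nat_lit 12107077790) (nat_lit 82) (nat_lit 5) (nat_lit 87) (nat_lit 5) (nat_lit 83) (nat_lit 5) (nat_lit 364) (nat_lit 344) (nat_lit 192)) (XT.lf (nat_lit 0) (nat_lit 19702887831) (nat_lit 304) (nat_lit 24399299932) (nat_lit 380) (nat_lit 17055065770) (nat_lit 78) (nat_lit 5) (nat_lit 82) (nat_lit 5) (nat_lit 83) (nat_lit 5) (nat_lit 365) (nat_lit 344) (nat_lit 191))) (XT.nd (nat_lit 78) (nat_lit 304) (nat_lit 0) (XT.lf (nat_lit 0) (nat_lit 54237818670) (nat_lit 304) (nat_lit 118482359) (nat_lit 380) (nat_lit 8619540474) (nat_lit 78) (nat_lit 5) (nat_lit 82) (nat_lit 5) (nat_lit 83) (nat_lit 5) (nat_lit 366) (nat_lit 344) (nat_lit 190)) (XT.lf (nat_lit 0) (nat_lit 1044800141) (nat_lit 304) (nat_lit 38812184683) (nat_lit 76) (nat_lit 24987456940) (nat_lit 74) (nat_lit 5) (nat_lit 78) (nat_lit 5) (nat_lit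 75) (nat_lit 5) (nat_lit 367) (nat_lit 344) (nat_lit 189))))))))
noncomputable def xc203 : XT := (XT.nd (nat_lit 1950) (nat_lit 1444) (nat_lit 0) (XT.nd (nat_lit 936) (nat_lit 1292) (nat_lit 0) (XT.nd (nat_lit 468) (nat_lit 684) (nat_lit 0) (XT.nd (nat_lit 234) (nat_lit 304) (nat_lit 0) (XT.nd (nat_lit 78) (nat_lit 532) (nat_lit 0) (XT.lf (nat_lit 0) (nat_lit 11053653398) (nat_lit 304) (nat_lit 4102098760) (nat_lit 76) (nat_lit 51636107149) (nat_lit 74) (nat_lit 5) (nat_lit 78) (nat_lit 5) (nat_lit 75) (nat_lit 5) (nat_lit 368) (nat_lit 344) (nat_lit 188)) (XT.nd (nat_lit 78) (nat_lit 228) (nat_lit 0) (XT.lf (nat_lit 0) (nat_lit 22260135183) (nat_lit 380) (nat_lit 35576319692) (nat_lit 76) (nat_lit 10965334414) (nat_lit 70) (nat_lit 5) (nat_lit 75) (nat_lit 5) (nat_lit 71) (nat_lit 5) (nat_lit 369) (nat_lit 344) (nat_lit 187)) (XT.lf (nat_lit 0) (nat_lit 1448128570) (nat_lit 228) (nat_lit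 32919201175) (nat_lit 304) (nat_lit 36527867406) (nat_lit 67) (nat_lit 5) (nat_lit 70) (nat_lit 5) (nat_lit 71) (nat_lit 5) (nat_lit 370) (nat_lit 344) (nat_lit 186)))) (XT.nd (nat_lit 78) (nat_lit 304) (nat_lit 0) (XT.lf (nat_lit 0) (nat_lit 41557239894) (nat_lit 228) (nat_lit 6123895672) (nat_lit 304) (nat_lit 25382078042) (nat_lit 67) (nat_lit 5) (nat_lit 70) (nat_lit 5) (nat_lit 71) (nat_lit 5) (nat_lit 371) (nat_lit 344) (nat_lit 185)) (XT.nd (nat_lit 78) (nat_lit 76) (nat_lit 0) (XT.lf (nat_lit 0) (nat_lit 8250939149) (nat_lit 228) (nat_lit 53880971322) (nat_lit 304) (nat_lit 13184157217) (nat_lit 64) (nat_lit 5) (nat_lit 67) (nat_lit 5) (nat_lit 68) (nat_lit 5) (nat_lit 372) (nat_lit 344) (nat_lit 184)) (XT.lf (nat_lit 0) (nat_lit 277226642) (nat_lit 304) (nat_lit 26670310411) (nat_lit 76) (nat_lit 50702245787) (nat_lit 63) (nat_lit 5) (nat_lit 67) (nat_lit 5) (nat_lit 64) (nat_lit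 5) (nat_lit 373) (nat_lit 344) (nat_lit 183))))) (XT.nd (nat_lit 234) (nat_lit 228) (nat_lit 0) (XT.nd (nat_lit 78) (nat_lit 228) (nat_lit 0) (XT.lf (nat_lit 0) (nat_lit 14246350250) (nat_lit 304) (nat_lit 64065462944) (nat_lit 76) (nat_lit 1763677275) (nat_lit 60) (nat_lit 5) (nat_lit 64) (nat_lit 5) (nat_lit 61) (nat_lit 5) (nat_lit 374) (nat_lit 344) (nat_lit 182)) (XT.nd (nat_lit 78) (nat_lit 228) (nat_lit 0) (XT.lf (nat_lit 0) (nat_lit 29813664548) (nat_lit 304) (nat_lit 21300369887) (nat_lit 76) (nat_lit 31463462927) (nat_lit 60) (nat_lit 5) (nat_lit 64) (nat_lit 5) (nat_lit 61) (nat_lit 5) (nat_lit 375) (nat_lit 344) (nat_lit 181)) (XT.lf (nat_lit 0) (nat_lit 24381806911) (nat_lit 228) (nat_lit 22157151217) (nat_lit 304) (nat_lit 38646666373) (nat_lit 57) (nat_lit 5) (nat_lit 60) (nat_lit 5) (nat_lit 61) (nat_lit 5) (nat_lit 376) (nat_lit 344) (nat_lit 180)))) (XT.nd (nat_lit 78)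 (nat_lit 228) (nat_lit 0) (XT.lf (nat_lit 0) (nat_lit 64594894048) (nat_lit 304) (nat_lit 14954770005) (nat_lit 76) (nat_lit 8349775615) (nat_lit 57) (nat_lit 5) (nat_lit 61) (nat_lit 5) (nat_lit 58) (nat_lit 5) (nat_lit 377) (nat_lit 344) (nat_lit 179)) (XT.nd (nat_lit 78) (nat_lit 76) (nat_lit 0) (XT.lf (nat_lit 0) (nat_lit 33907255732) (nat_lit 152) (nat_lit 50538003800) (nat_lit 228) (nat_lit 6259104946) (nat_lit 55) (nat_lit 5) (nat_lit 57) (nat_lit 5) (nat_lit 58) (nat_lit 5) (nat_lit 378) (nat_lit 344) (nat_lit 178)) (XT.lf (nat_lit 0) (nat_lit 11522539182) (nat_lit 228) (nat_lit 8092651847) (nat_lit 76) (nat_lit 74012437436) (nat_lit 54) (nat_lit 5) (nat_lit 57) (nat_lit 5) (nat_lit 55) (nat_lit 5) (nat_lit 379) (nat_lit 344) (nat_lit 177)))))) (XT.nd (nat_lit 468) (nat_lit 532) (nat_lit 0) (XT.nd (nat_lit 234) (nat_lit 380) (nat_lit 0) (XT.nd (nat_lit 78) (nat_lit 152) (nat_lit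 0) (XT.lf (nat_lit 0) (nat_lit 30888327744) (nat_lit 304) (nat_lit 52508167949) (nat_lit 76) (nat_lit 13250159537) (nat_lit 51) (nat_lit 5) (nat_lit 55) (nat_lit 5) (nat_lit 52) (nat_lit 5) (nat_lit 380) (nat_lit 344) (nat_lit 176)) (XT.nd (nat_lit 78) (nat_lit 152) (nat_lit 0) (XT.lf (nat_lit 0) (nat_lit 51682348809) (nat_lit 304) (nat_lit 872885119) (nat_lit 76) (nat_lit 47238402685) (nat_lit 51) (nat_lit 5) (nat_lit 55) (nat_lit 5) (nat_lit 52) (nat_lit 5) (nat_lit 381) (nat_lit 344) (nat_lit 175)) (XT.lf (nat_lit 0) (nat_lit 55106544842) (nat_lit 152) (nat_lit 19269020183) (nat_lit 228) (nat_lit 28679427749) (nat_lit 49) (nat_lit 5) (nat_lit 51) (nat_lit 5) (nat_lit 52) (nat_lit 5) (nat_lit 382) (nat_lit 344) (nat_lit 174)))) (XT.nd (nat_lit 78) (nat_lit 228) (nat_lit 0) (XT.lf (nat_lit 0) (nat_lit 7427852610) (nat_lit 152) (nat_lit 91150555638) (nat_lit 228) (nat_lit 7882260575) (nat_lit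 47) (nat_lit 5) (nat_lit 49) (nat_lit 5) (nat_lit 50) (nat_lit 5) (nat_lit 383) (nat_lit 344) (nat_lit 173)) (XT.nd (nat_lit 78) (nat_lit 152) (nat_lit 0) (XT.lf (nat_lit 0) (nat_lit 14648497924) (nat_lit 228) (nat_lit 43306857781) (nat_lit 76) (nat_lit 52013361047) (nat_lit 46) (nat_lit 5) (nat_lit 49) (nat_lit 5) (nat_lit 47) (nat_lit 5) (nat_lit 384) (nat_lit 344) (nat_lit 172)) (XT.lf (nat_lit 0) (nat_lit 15573300142) (nat_lit 152) (nat_lit 22709927026) (nat_lit 228) (nat_lit 75350362956) (nat_lit 44) (nat_lit 5) (nat_lit 46) (nat_lit 5) (nat_lit 47) (nat_lit 5) (nat_lit 385) (nat_lit 344) (nat_lit 171))))) (XT.nd (nat_lit 234) (nat_lit 380) (nat_lit 0) (XT.nd (nat_lit 78) (nat_lit 152) (nat_lit 0) (XT.lf (nat_lit 0) (nat_lit 64067563233) (nat_lit 228) (nat_lit 38780640150) (nat_lit 76) (nat_lit 14585110586) (nat_lit 44) (nat_lit 5) (nat_lit 47) (nat_lit 5) (nat_lit 45) (nat_lit 5)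 (nat_lit 386) (nat_lit 344) (nat_lit 170)) (XT.nd (nat_lit 78) (nat_lit 0) (nat_lit 0) (XT.lf (nat_lit 0) (nat_lit 23852867819) (nat_lit 152) (nat_lit 68032186698) (nat_lit 228) (nat_lit 29500772877) (nat_lit 42) (nat_lit 5) (nat_lit 44) (nat_lit 5) (nat_lit 45) (nat_lit 5) (nat_lit 387) (nat_lit 344) (nat_lit 169)) (XT.lf (nat_lit 0) (nat_lit 90963176746) (nat_lit 152) (nat_lit 30786263871) (nat_lit 228) (nat_lit 3753725152) (nat_lit 42) (nat_lit 5) (nat_lit 44) (nat_lit 5) (nat_lit 45) (nat_lit 5) (nat_lit 388) (nat_lit 344) (nat_lit 168)))) (XT.nd (nat_lit 156) (nat_lit 152) (nat_lit 0) (XT.nd (nat_lit 78) (nat_lit 0) (nat_lit 0) (XT.lf (nat_lit 0) (nat_lit 23182800369) (nat_lit 228) (nat_lit 97656376111) (nat_lit 76) (nat_lit 8936658400) (nat_lit 39) (nat_lit 5) (nat_lit 42) (nat_lit 5) (nat_lit 40) (nat_lit 5) (nat_lit 389) (nat_lit 344) (nat_lit 167)) (XT.lf (nat_lit 0) (nat_lit 52438519324)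 (nat_lit 228) (nat_lit 31498903077) (nat_lit 76) (nat_lit 50266712627) (nat_lit 39) (nat_lit 5) (nat_lit 42) (nat_lit 5) (nat_lit 40) (nat_lit 5) (nat_lit 390) (nat_lit 344) (nat_lit 166))) (XT.nd (nat_lit 78) (nat_lit 0) (nat_lit 0) (XT.lf (nat_lit 0) (nat_lit 39220581549) (nat_lit 152) (nat_lit 44548103292) (nat_lit 228) (nat_lit 55054582553) (nat_lit 37) (nat_lit 5) (nat_lit 39) (nat_lit 5) (nat_lit 40) (nat_lit 5) (nat_lit 391) (nat_lit 344) (nat_lit 165)) (XT.lf (nat_lit 0) (nat_lit 114568464392) (nat_lit 152) (nat_lit 2629675428) (nat_lit 228) (nat_lit 26448577729) (nat_lit 37) (nat_lit 5) (nat_lit 39) (nat_lit 5) (nat_lit 40) (nat_lit 5) (nat_lit 392) (nat_lit 344) (nat_lit 164))))))) (XT.nd (nat_lit 936) (nat_lit 532) (nat_lit 0) (XT.nd (nat_lit 468) (nat_lit 456) (nat_lit 0) (XT.nd (nat_lit 234) (nat_lit 152) (nat_lit 0) (XT.nd (nat_lit 78) (nat_lit 152) (nat_lit 0) (XT.lf (nat_lit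 0) (nat_lit 4855608510) (nat_lit 152) (nat_lit 102930893164) (nat_lit 76) (nat_lit 40852902479) (nat_lit 35) (nat_lit 5) (nat_lit 37) (nat_lit 5) (nat_lit 36) (nat_lit 5) (nat_lit 393) (nat_lit 344) (nat_lit 163)) (XT.nd (nat_lit 78) (nat_lit 152) (nat_lit 0) (XT.lf (nat_lit 0) (nat_lit 37379154815) (nat_lit 152) (nat_lit 29098843889) (nat_lit 76) (nat_lit 87354897599) (nat_lit 35) (nat_lit 5) (nat_lit 37) (nat_lit 5) (nat_lit 36) (nat_lit 5) (nat_lit 394) (nat_lit 344) (nat_lit 162)) (XT.lf (nat_lit 0) (nat_lit 50024848305) (nat_lit 152) (nat_lit 22284448354) (nat_lit 228) (nat_lit 86937745680) (nat_lit 33) (nat_lit 5) (nat_lit 35) (nat_lit 5) (nat_lit 36) (nat_lit 5) (nat_lit 395) (nat_lit 344) (nat_lit 161)))) (XT.nd (nat_lit 78) (nat_lit 152) (nat_lit 0) (XT.lf (nat_lit 0) (nat_lit 109862784805) (nat_lit 228) (nat_lit 31177997603) (nat_lit 76) (nat_lit 23847271486) (nat_lit 33) (nat_lit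 5) (nat_lit 36) (nat_lit 5) (nat_lit 34) (nat_lit 4) (nat_lit 396) (nat_lit 344) (nat_lit 160)) (XT.nd (nat_lit 78) (nat_lit 76) (nat_lit 0) (XT.lf (nat_lit 0) (nat_lit 52068588043) (nat_lit 76) (nat_lit 98403039226) (nat_lit 152) (nat_lit 20280604934) (nat_lit 32) (nat_lit 5) (nat_lit 33) (nat_lit 5) (nat_lit 34) (nat_lit 4) (nat_lit 397) (nat_lit 344) (nat_lit 159)) (XT.lf (nat_lit 0) (nat_lit 16218847154) (nat_lit 152) (nat_lit 36585914012) (nat_lit 76) (nat_lit 124065406175) (nat_lit 31) (nat_lit 5) (nat_lit 33) (nat_lit 5) (nat_lit 32) (nat_lit 5) (nat_lit 398) (nat_lit 344) (nat_lit 158))))) (XT.nd (nat_lit 234) (nat_lit 228) (nat_lit 0) (XT.nd (nat_lit 78) (nat_lit 76) (nat_lit 0) (XT.lf (nat_lit 0) (nat_lit 50912785174) (nat_lit 152) (nat_lit 3743270728) (nat_lit 228) (nat_lit 128581602767) (nat_lit 29) (nat_lit 5) (nat_lit 31) (nat_lit 5) (nat_lit 32) (nat_lit 5) (nat_lit 399)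 (nat_lit 344) (nat_lit 157)) (XT.nd (nat_lit 78) (nat_lit 76) (nat_lit 0) (XT.lf (nat_lit 0) (nat_lit 96390184887) (nat_lit 228) (nat_lit 46592926209) (nat_lit 76) (nat_lit 46871660618) (nat_lit 29) (nat_lit 5) (nat_lit 32) (nat_lit 5) (nat_lit 30) (nat_lit 4) (nat_lit 400) (nat_lit 344) (nat_lit 156)) (XT.lf (nat_lit 0) (nat_lit 44797107077) (nat_lit 76) (nat_lit 96174170989) (nat_lit 152) (nat_lit 55793449592) (nat_lit 28) (nat_lit 5) (nat_lit 29) (nat_lit 5) (nat_lit 30) (nat_lit 4) (nat_lit 401) (nat_lit 344) (nat_lit 155)))) (XT.nd (nat_lit 78) (nat_lit 228) (nat_lit 0) (XT.lf (nat_lit 0) (nat_lit 142373324813) (nat_lit 76) (nat_lit 46196669330) (nat_lit 152) (nat_lit 15410758973) (nat_lit 28) (nat_lit 5) (nat_lit 29) (nat_lit 5) (nat_lit 30) (nat_lit 4) (nat_lit 402) (nat_lit 344) (nat_lit 154)) (XT.nd (nat_lit 78) (nat_lit 0) (nat_lit 0) (XT.lf (nat_lit 0) (nat_lit 26770139520) (nat_lit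 228) (nat_lit 177689079344) (nat_lit 76) (nat_lit 7045142987) (nat_lit 25) (nat_lit 5) (nat_lit 28) (nat_lit 5) (nat_lit 26) (nat_lit 4) (nat_lit 403) (nat_lit 344) (nat_lit 153)) (XT.lf (nat_lit 0) (nat_lit 72359472539) (nat_lit 228) (nat_lit 84231940258) (nat_lit 76) (nat_lit 62709241959) (nat_lit 25) (nat_lit 5) (nat_lit 28) (nat_lit 5) (nat_lit 26) (nat_lit 4) (nat_lit 404) (nat_lit 344) (nat_lit 152)))))) (XT.nd (nat_lit 468) (nat_lit 228) (nat_lit 0) (XT.nd (nat_lit 234) (nat_lit 228) (nat_lit 0) (XT.nd (nat_lit 78) (nat_lit 0) (nat_lit 0) (XT.lf (nat_lit 0) (nat_lit 14356708191) (nat_lit 76) (nat_lit 106095249586) (nat_lit 152) (nat_lit 107023620355) (nat_lit 24) (nat_lit 5) (nat_lit 25) (nat_lit 5) (nat_lit 26) (nat_lit 4) (nat_lit 405) (nat_lit 344) (nat_lit 151)) (XT.nd (nat_lit 78) (nat_lit 0) (nat_lit 0) (XT.lf (nat_lit 0) (nat_lit 120798293659) (nat_lit 76) (nat_lit 51576828361)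 (nat_lit 152) (nat_lit 63612823022) (nat_lit 24) (nat_lit 5) (nat_lit 25) (nat_lit 5) (nat_lit 26) (nat_lit 4) (nat_lit 406) (nat_lit 344) (nat_lit 150)) (XT.lf (nat_lit 0) (nat_lit 226982492226) (nat_lit 152) (nat_lit 12453271927) (nat_lit 0) (nat_lit 5485763850) (nat_lit 24) (nat_lit 5) (nat_lit 26) (nat_lit 4) (nat_lit 24) (nat_lit 4) (nat_lit 407) (nat_lit 344) (nat_lit 149)))) (XT.nd (nat_lit 78) (nat_lit 76) (nat_lit 0) (XT.lf (nat_lit 0) (nat_lit 31467009315) (nat_lit 152) (nat_lit 156990137793) (nat_lit 76) (nat_lit 65700742189) (nat_lit 22) (nat_lit 5) (nat_lit 24) (nat_lit 5) (nat_lit 23) (nat_lit 4) (nat_lit 408) (nat_lit 344) (nat_lit 148)) (XT.nd (nat_lit 78) (nat_lit 76) (nat_lit 0) (XT.lf (nat_lit 0) (nat_lit 82954431023) (nat_lit 152) (nat_lit 51441664734) (nat_lit 76) (nat_lit 129434571674) (nat_lit 22) (nat_lit 5) (nat_lit 24) (nat_lit 5) (nat_lit 23) (nat_lit 4) (nat_lit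 409) (nat_lit 344) (nat_lit 147)) (XT.lf (nat_lit 0) (nat_lit 61346978593) (nat_lit 76) (nat_lit 76626647290) (nat_lit 152) (nat_lit 135965588564) (nat_lit 21) (nat_lit 5) (nat_lit 22) (nat_lit 5) (nat_lit 23) (nat_lit 4) (nat_lit 410) (nat_lit 344) (nat_lit 146))))) (XT.nd (nat_lit 234) (nat_lit 76) (nat_lit 0) (XT.nd (nat_lit 78) (nat_lit 152) (nat_lit 0) (XT.lf (nat_lit 0) (nat_lit 181560264641) (nat_lit 76) (nat_lit 15054316636) (nat_lit 152) (nat_lit 87895067570) (nat_lit 21) (nat_lit 5) (nat_lit 22) (nat_lit 5) (nat_lit 23) (nat_lit 4) (nat_lit 411) (nat_lit 344) (nat_lit 145)) (XT.nd (nat_lit 78) (nat_lit 76) (nat_lit 0) (XT.lf (nat_lit 0) (nat_lit 11777514890) (nat_lit 76) (nat_lit 247367916736) (nat_lit 76) (nat_lit 36415281055) (nat_lit 20) (nat_lit 4) (nat_lit 21) (nat_lit 5) (nat_lit 21) (nat_lit 4) (nat_lit 412) (nat_lit 344) (nat_lit 144)) (XT.lf (nat_lit 0) (nat_lit 19092450121)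 (nat_lit 152) (nat_lit 171813693871) (nat_lit 76) (nat_lit 116143491595) (nat_lit 19) (nat_lit 5) (nat_lit 21) (nat_lit 5) (nat_lit 20) (nat_lit 4) (nat_lit 413) (nat_lit 344) (nat_lit 143)))) (XT.nd (nat_lit 156) (nat_lit 0) (nat_lit 0) (XT.nd (nat_lit 78) (nat_lit 76) (nat_lit 0) (XT.lf (nat_lit 0) (nat_lit 76151419132) (nat_lit 152) (nat_lit 54843360674) (nat_lit 76) (nat_lit 188088394128) (nat_lit 19) (nat_lit 5) (nat_lit 21) (nat_lit 5) (nat_lit 20) (nat_lit 4) (nat_lit 414) (nat_lit 344) (nat_lit 142)) (XT.lf (nat_lit 0) (nat_lit 70222402613) (nat_lit 76) (nat_lit 66936962966) (nat_lit 152) (nat_lit 194504222228) (nat_lit 18) (nat_lit 5) (nat_lit 19) (nat_lit 5) (nat_lit 20) (nat_lit 4) (nat_lit 415) (nat_lit 344) (nat_lit 141))) (XT.nd (nat_lit 78) (nat_lit 0) (nat_lit 0) (XT.lf (nat_lit 0) (nat_lit 202166451102) (nat_lit 152) (nat_lit 141402015197) (nat_lit 0) (nat_lit 1257119043)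 (nat_lit 18) (nat_lit 5) (nat_lit 20) (nat_lit 4) (nat_lit 18) (nat_lit 4) (nat_lit 416) (nat_lit 344) (nat_lit 140)) (XT.lf (nat_lit 0) (nat_lit 271520896382) (nat_lit 152) (nat_lit 16458827010) (nat_lit 0) (nat_lit 70611109141) (nat_lit 18) (nat_lit 5) (nat_lit 20) (nat_lit 4) (nat_lit 18) (nat_lit 4) (nat_lit 417) (nat_lit 344) (nat_lit 139))))))))
noncomputable def xc204 : XT := (XT.nd (nat_lit 41964) (nat_lit 0) (nat_lit 3344) (XT.nd (nat_lit 936) (nat_lit 76) (nat_lit 0) (XT.nd (nat_lit 468) (nat_lit 152) (nat_lit 0) (XT.nd (nat_lit 234) (nat_lit 76) (nat_lit 0) (XT.nd (nat_lit 78) (nat_lit 152) (nat_lit 0) (XT.lf (nat_lit 0) (nat_lit 118524459637) (nat_lit 76) (nat_lit 227668796809) (nat_lit 76) (nat_lit 26758576062) (nat_lit 17) (nat_lit 4) (nat_lit 18) (nat_lit 5) (nat_lit 18) (nat_lit 4) (nat_lit 418) (nat_lit 344) (nat_lit 138)) (XT.nd (nat_lit 78) (nat_lit 76) (nat_lit 0) (XT.lf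 (nat_lit 0) (nat_lit 35680938259) (nat_lit 152) (nat_lit 127764710178) (nat_lit 76) (nat_lit 224542537274) (nat_lit 16) (nat_lit 5) (nat_lit 18) (nat_lit 5) (nat_lit 17) (nat_lit 4) (nat_lit 419) (nat_lit 344) (nat_lit 137)) (XT.lf (nat_lit 0) (nat_lit 4950304364) (nat_lit 76) (nat_lit 95469857185) (nat_lit 152) (nat_lit 303330411966) (nat_lit 15) (nat_lit 5) (nat_lit 16) (nat_lit 5) (nat_lit 17) (nat_lit 4) (nat_lit 420) (nat_lit 344) (nat_lit 136)))) (XT.nd (nat_lit 78) (nat_lit 76) (nat_lit 0) (XT.lf (nat_lit 0) (nat_lit 148736224093) (nat_lit 76) (nat_lit 21823593167) (nat_lit 152) (nat_lit 249633089929) (nat_lit 15) (nat_lit 5) (nat_lit 16) (nat_lit 5) (nat_lit 17) (nat_lit 4) (nat_lit 421) (nat_lit 344) (nat_lit 135)) (XT.nd (nat_lit 78) (nat_lit 76) (nat_lit 0) (XT.lf (nat_lit 0) (nat_lit 245072767900) (nat_lit 152) (nat_lit 138613037547) (nat_lit 0) (nat_lit 53728236531) (nat_lit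 15) (nat_lit 5) (nat_lit 17) (nat_lit 4) (nat_lit 15) (nat_lit 4) (nat_lit 422) (nat_lit 344) (nat_lit 134)) (XT.lf (nat_lit 0) (nat_lit 531532673) (nat_lit 76) (nat_lit 323145632878) (nat_lit 76) (nat_lit 131800778020) (nat_lit 14) (nat_lit 4) (nat_lit 15) (nat_lit 5) (nat_lit 15) (nat_lit 4) (nat_lit 423) (nat_lit 344) (nat_lit 133))))) (XT.nd (nat_lit 234) (nat_lit 76) (nat_lit 0) (XT.nd (nat_lit 78) (nat_lit 76) (nat_lit 0) (XT.lf (nat_lit 0) (nat_lit 151445165087) (nat_lit 76) (nat_lit 257113838554) (nat_lit 76) (nat_lit 65768675611) (nat_lit 14) (nat_lit 4) (nat_lit 15) (nat_lit 5) (nat_lit 15) (nat_lit 4) (nat_lit 424) (nat_lit 344) (nat_lit 132)) (XT.nd (nat_lit 78) (nat_lit 0) (nat_lit 0) (XT.lf (nat_lit 0) (nat_lit 3450678561) (nat_lit 152) (nat_lit 184271565306) (nat_lit 76) (nat_lit 306394887378) (nat_lit 13) (nat_lit 5) (nat_lit 15) (nat_lit 5) (nat_lit 14) (nat_lit 4) (nat_lit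 425) (nat_lit 344) (nat_lit 131)) (XT.lf (nat_lit 0) (nat_lit 73920503508) (nat_lit 152) (nat_lit 39808703606) (nat_lit 76) (nat_lit 401112951913) (nat_lit 13) (nat_lit 5) (nat_lit 15) (nat_lit 5) (nat_lit 14) (nat_lit 4) (nat_lit 426) (nat_lit 344) (nat_lit 130)))) (XT.nd (nat_lit 78) (nat_lit 0) (nat_lit 0) (XT.lf (nat_lit 0) (nat_lit 115576017827) (nat_lit 76) (nat_lit 34142040592) (nat_lit 152) (nat_lit 386795167872) (nat_lit 12) (nat_lit 5) (nat_lit 13) (nat_lit 5) (nat_lit 14) (nat_lit 4) (nat_lit 427) (nat_lit 344) (nat_lit 129)) (XT.nd (nat_lit 78) (nat_lit 0) (nat_lit 0) (XT.lf (nat_lit 0) (nat_lit 230762151581) (nat_lit 152) (nat_lit 279905239709) (nat_lit 0) (nat_lit 48527622633) (nat_lit 12) (nat_lit 5) (nat_lit 14) (nat_lit 4) (nat_lit 12) (nat_lit 4) (nat_lit 428) (nat_lit 344) (nat_lit 128)) (XT.lf (nat_lit 0) (nat_lit 316417939755) (nat_lit 152) (nat_lit 132381795781) (nat_lit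 0) (nat_lit 134183180909) (nat_lit 12) (nat_lit 5) (nat_lit 14) (nat_lit 4) (nat_lit 12) (nat_lit 4) (nat_lit 429) (nat_lit 344) (nat_lit 127)))))) (XT.nd (nat_lit 40560) (nat_lit 0) (nat_lit 7372) (XT.nd (nat_lit 40326) (nat_lit 0) (nat_lit 7220) (XT.nd (nat_lit 78) (nat_lit 0) (nat_lit 0) (XT.lf (nat_lit 0) (nat_lit 23261950231) (nat_lit 76) (nat_lit 383457546360) (nat_lit 76) (nat_lit 201222568564) (nat_lit 11) (nat_lit 4) (nat_lit 12) (nat_lit 5) (nat_lit 12) (nat_lit 4) (nat_lit 430) (nat_lit 344) (nat_lit 126)) (XT.nd (nat_lit 40170) (nat_lit 0) (nat_lit 7220) (XT.lf (nat_lit 0) (nat_lit 191283489190) (nat_lit 76) (nat_lit 312494390517) (nat_lit 76) (nat_lit 130259204196) (nat_lit 11) (nat_lit 4) (nat_lit 12) (nat_lit 5) (nat_lit 12) (nat_lit 4) (nat_lit 431) (nat_lit 344) (nat_lit 125)) (XT.lf (nat_lit 0) (nat_lit 2822452741) (nat_lit 836) (nat_lit 7744114505) (nat_lit 836) (nat_lit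 7744114505) (nat_lit 106) (nat_lit 3) (nat_lit 117) (nat_lit 3) (nat_lit 117) (nat_lit 5) (nat_lit 345) (nat_lit 345) (nat_lit 210)))) (XT.nd (nat_lit 78) (nat_lit 0) (nat_lit 76) (XT.lf (nat_lit 76) (nat_lit 2075967444) (nat_lit 0) (nat_lit 3789886428) (nat_lit 836) (nat_lit 31667011341) (nat_lit 107) (nat_lit 5) (nat_lit 106) (nat_lit 3) (nat_lit 117) (nat_lit 5) (nat_lit 346) (nat_lit 345) (nat_lit 209)) (XT.nd (nat_lit 78) (nat_lit 0) (nat_lit 0) (XT.lf (nat_lit 0) (nat_lit 6586556390) (nat_lit 760) (nat_lit 17652006924) (nat_lit 836) (nat_lit 14226945987) (nat_lit 107) (nat_lit 5) (nat_lit 117) (nat_lit 5) (nat_lit 118) (nat_lit 5) (nat_lit 347) (nat_lit 345) (nat_lit 208)) (XT.lf (nat_lit 76) (nat_lit 1011639672) (nat_lit 0) (nat_lit 6406684131) (nat_lit 836) (nat_lit 32022712808) (nat_lit 108) (nat_lit 5) (nat_lit 107) (nat_lit 5) (nat_lit 118) (nat_lit 5) (nat_lit 348) (nat_lit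 345) (nat_lit 207))))) (XT.nd (nat_lit 234) (nat_lit 0) (nat_lit 76) (XT.nd (nat_lit 78) (nat_lit 0) (nat_lit 0) (XT.lf (nat_lit 0) (nat_lit 8785059013) (nat_lit 760) (nat_lit 19428155474) (nat_lit 836) (nat_lit 12227459214) (nat_lit 108) (nat_lit 5) (nat_lit 118) (nat_lit 5) (nat_lit 119) (nat_lit 5) (nat_lit 349) (nat_lit 345) (nat_lit 206)) (XT.nd (nat_lit 78) (nat_lit 0) (nat_lit 76) (XT.lf (nat_lit 76) (nat_lit 430107009) (nat_lit 0) (nat_lit 9899132293) (nat_lit 836) (nat_lit 31155600199) (nat_lit 109) (nat_lit 5) (nat_lit 108) (nat_lit 5) (nat_lit 119) (nat_lit 5) (nat_lit 350) (nat_lit 345) (nat_lit 205)) (XT.lf (nat_lit 0) (nat_lit 12428201247) (nat_lit 760) (nat_lit 20761941641) (nat_lit 836) (nat_lit 9367194236) (nat_lit 109) (nat_lit 5) (nat_lit 119) (nat_lit 5) (nat_lit 120) (nat_lit 5) (nat_lit 351) (nat_lit 345) (nat_lit 204)))) (XT.nd (nat_lit 78) (nat_lit 0) (nat_lit 76)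 (XT.lf (nat_lit 76) (nat_lit 394016897) (nat_lit 0) (nat_lit 14404123064) (nat_lit 836) (nat_lit 28877020294) (nat_lit 110) (nat_lit 5) (nat_lit 109) (nat_lit 5) (nat_lit 120) (nat_lit 5) (nat_lit 352) (nat_lit 345) (nat_lit 203)) (XT.nd (nat_lit 78) (nat_lit 0) (nat_lit 0) (XT.lf (nat_lit 0) (nat_lit 17724723500) (nat_lit 760) (nat_lit 21593454986) (nat_lit 836) (nat_lit 5508790625) (nat_lit 110) (nat_lit 5) (nat_lit 120) (nat_lit 5) (nat_lit 121) (nat_lit 5) (nat_lit 353) (nat_lit 345) (nat_lit 202)) (XT.lf (nat_lit 76) (nat_lit 971778821) (nat_lit 0) (nat_lit 20074964078) (nat_lit 836) (nat_lit 24977172047) (nat_lit 111) (nat_lit 5) (nat_lit 110) (nat_lit 5) (nat_lit 121) (nat_lit 5) (nat_lit 354) (nat_lit 345) (nat_lit 201))))))) (XT.nd (nat_lit 936) (nat_lit 1748) (nat_lit 0) (XT.nd (nat_lit 468) (nat_lit 1064) (nat_lit 0) (XT.nd (nat_lit 234) (nat_lit 684) (nat_lit 0) (XT.nd (nat_lit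 78) (nat_lit 760) (nat_lit 0) (XT.lf (nat_lit 0) (nat_lit 24906473551) (nat_lit 760) (nat_lit 21857396910) (nat_lit 76) (nat_lit 498258876) (nat_lit 111) (nat_lit 5) (nat_lit 121) (nat_lit 5) (nat_lit 112) (nat_lit 5) (nat_lit 355) (nat_lit 345) (nat_lit 200)) (XT.nd (nat_lit 78) (nat_lit 0) (nat_lit 0) (XT.lf (nat_lit 0) (nat_lit 2237802438) (nat_lit 760) (nat_lit 27083408802) (nat_lit 836) (nat_lit 19222943880) (nat_lit 101) (nat_lit 5) (nat_lit 111) (nat_lit 5) (nat_lit 112) (nat_lit 5) (nat_lit 356) (nat_lit 345) (nat_lit 199)) (XT.lf (nat_lit 0) (nat_lit 28294827586) (nat_lit 760) (nat_lit 6030076475) (nat_lit 836) (nat_lit 15546968831) (nat_lit 101) (nat_lit 5) (nat_lit 111) (nat_lit 5) (nat_lit 112) (nat_lit 5) (nat_lit 357) (nat_lit 345) (nat_lit 198)))) (XT.nd (nat_lit 78) (nat_lit 304) (nat_lit 0) (XT.lf (nat_lit 0) (nat_lit 4272704434) (nat_lit 380) (nat_lit 35621924153) (nat_lit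 456) (nat_lit 11355557152) (nat_lit 96) (nat_lit 5) (nat_lit 101) (nat_lit 5) (nat_lit 102) (nat_lit 5) (nat_lit 358) (nat_lit 345) (nat_lit 197)) (XT.nd (nat_lit 78) (nat_lit 304) (nat_lit 0) (XT.lf (nat_lit 0) (nat_lit 32060168471) (nat_lit 380) (nat_lit 14143556595) (nat_lit 456) (nat_lit 6470646341) (nat_lit 96) (nat_lit 5) (nat_lit 101) (nat_lit 5) (nat_lit 102) (nat_lit 5) (nat_lit 359) (nat_lit 345) (nat_lit 196)) (XT.lf (nat_lit 0) (nat_lit 7163470575) (nat_lit 304) (nat_lit 45906226008) (nat_lit 380) (nat_lit 1088000160) (nat_lit 92) (nat_lit 5) (nat_lit 96) (nat_lit 5) (nat_lit 97) (nat_lit 5) (nat_lit 360) (nat_lit 345) (nat_lit 195))))) (XT.nd (nat_lit 234) (nat_lit 608) (nat_lit 0) (XT.nd (nat_lit 78) (nat_lit 380) (nat_lit 0) (XT.lf (nat_lit 0) (nat_lit 5002725487) (nat_lit 380) (nat_lit 18962653667) (nat_lit 76) (nat_lit 31716996958) (nat_lit 91) (nat_lit 5) (nat_lit 96)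 (nat_lit 5) (nat_lit 92) (nat_lit 5) (nat_lit 361) (nat_lit 345) (nat_lit 194)) (XT.nd (nat_lit 78) (nat_lit 0) (nat_lit 0) (XT.lf (nat_lit 0) (nat_lit 10796513292) (nat_lit 380) (nat_lit 731874339) (nat_lit 456) (nat_lit 45745663014) (nat_lit 86) (nat_lit 5) (nat_lit 91) (nat_lit 5) (nat_lit 92) (nat_lit 5) (nat_lit 362) (nat_lit 345) (nat_lit 193)) (XT.lf (nat_lit 0) (nat_lit 19074638081) (nat_lit 456) (nat_lit 16603740956) (nat_lit 76) (nat_lit 23232215755) (nat_lit 86) (nat_lit 5) (nat_lit 92) (nat_lit 5) (nat_lit 87) (nat_lit 5) (nat_lit 363) (nat_lit 345) (nat_lit 192)))) (XT.nd (nat_lit 78) (nat_lit 304) (nat_lit 0) (XT.lf (nat_lit 0) (nat_lit 15237781868) (nat_lit 304) (nat_lit 12008843838) (nat_lit 380) (nat_lit 33369920301) (nat_lit 82) (nat_lit 5) (nat_lit 86) (nat_lit 5) (nat_lit 87) (nat_lit 5) (nat_lit 364) (nat_lit 345) (nat_lit 191)) (XT.nd (nat_lit 78) (nat_lit 304) (nat_lit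 0) (XT.lf (nat_lit 0) (nat_lit 36312111956) (nat_lit 380) (nat_lit 13352765232) (nat_lit 76) (nat_lit 12718673673) (nat_lit 82) (nat_lit 5) (nat_lit 87) (nat_lit 5) (nat_lit 83) (nat_lit 5) (nat_lit 365) (nat_lit 345) (nat_lit 190)) (XT.lf (nat_lit 0) (nat_lit 20739841172) (nat_lit 304) (nat_lit 25610336760) (nat_lit 380) (nat_lit 17862763747) (nat_lit 78) (nat_lit 5) (nat_lit 82) (nat_lit 5) (nat_lit 83) (nat_lit 5) (nat_lit 366) (nat_lit 345) (nat_lit 189)))))) (XT.nd (nat_lit 468) (nat_lit 912) (nat_lit 0) (XT.nd (nat_lit 234) (nat_lit 532) (nat_lit 0) (XT.nd (nat_lit 78) (nat_lit 304) (nat_lit 0) (XT.lf (nat_lit 0) (nat_lit 56999051460) (nat_lit 304) (nat_lit 115903459) (nat_lit 380) (nat_lit 9007607677) (nat_lit 78) (nat_lit 5) (nat_lit 82) (nat_lit 5) (nat_lit 83) (nat_lit 5) (nat_lit 367) (nat_lit 345) (nat_lit 188)) (XT.nd (nat_lit 78) (nat_lit 0) (nat_lit 0) (XT.lf (nat_lit 0)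 (nat_lit 1137527793) (nat_lit 304) (nat_lit 40700975891) (nat_lit 76) (nat_lit 26246109448) (nat_lit 74) (nat_lit 5) (nat_lit 78) (nat_lit 5) (nat_lit 75) (nat_lit 5) (nat_lit 368) (nat_lit 345) (nat_lit 187)) (XT.lf (nat_lit 0) (nat_lit 11644895730) (nat_lit 304) (nat_lit 4257853196) (nat_lit 76) (nat_lit 54226750278) (nat_lit 74) (nat_lit 5) (nat_lit 78) (nat_lit 5) (nat_lit 75) (nat_lit 5) (nat_lit 369) (nat_lit 345) (nat_lit 186)))) (XT.nd (nat_lit 78) (nat_lit 228) (nat_lit 0) (XT.lf (nat_lit 0) (nat_lit 23410796382) (nat_lit 380) (nat_lit 37304856062) (nat_lit 76) (nat_lit 11524319697) (nat_lit 70) (nat_lit 5) (nat_lit 75) (nat_lit 5) (nat_lit 71) (nat_lit 5) (nat_lit 370) (nat_lit 345) (nat_lit 185)) (XT.nd (nat_lit 78) (nat_lit 0) (nat_lit 0) (XT.lf (nat_lit 0) (nat_lit 1570003651) (nat_lit 228) (nat_lit 34552326297) (nat_lit 304) (nat_lit 38315772623) (nat_lit 67) (nat_lit 5) (nat_lit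 70) (nat_lit 5) (nat_lit 71) (nat_lit 5) (nat_lit 371) (nat_lit 345) (nat_lit 184)) (XT.lf (nat_lit 0) (nat_lit 43682214890) (nat_lit 228) (nat_lit 6417866706) (nat_lit 304) (nat_lit 26614526560) (nat_lit 67) (nat_lit 5) (nat_lit 70) (nat_lit 5) (nat_lit 71) (nat_lit 5) (nat_lit 372) (nat_lit 345) (nat_lit 183))))) (XT.nd (nat_lit 234) (nat_lit 380) (nat_lit 0) (XT.nd (nat_lit 78) (nat_lit 304) (nat_lit 0) (XT.lf (nat_lit 0) (nat_lit 8711389098) (nat_lit 228) (nat_lit 56561274415) (nat_lit 304) (nat_lit 13807479046) (nat_lit 64) (nat_lit 5) (nat_lit 67) (nat_lit 5) (nat_lit 68) (nat_lit 5) (nat_lit 373) (nat_lit 345) (nat_lit 182)) (XT.nd (nat_lit 78) (nat_lit 228) (nat_lit 0) (XT.lf (nat_lit 0) (nat_lit 324171265) (nat_lit 304) (nat_lit 27957091433) (nat_lit 76) (nat_lit 53249336402) (nat_lit 63) (nat_lit 5) (nat_lit 67) (nat_lit 5) (nat_lit 64) (nat_lit 5) (nat_lit 374) (nat_lit 345)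 (nat_lit 181)) (XT.lf (nat_lit 0) (nat_lit 14991108299) (nat_lit 304) (nat_lit 67221341011) (nat_lit 76) (nat_lit 1865175828) (nat_lit 60) (nat_lit 5) (nat_lit 64) (nat_lit 5) (nat_lit 61) (nat_lit 5) (nat_lit 375) (nat_lit 345) (nat_lit 180)))) (XT.nd (nat_lit 156) (nat_lit 152) (nat_lit 0) (XT.nd (nat_lit 78) (nat_lit 228) (nat_lit 0) (XT.lf (nat_lit 0) (nat_lit 31335243524) (nat_lit 304) (nat_lit 22320250211) (nat_lit 76) (nat_lit 33049316730) (nat_lit 60) (nat_lit 5) (nat_lit 64) (nat_lit 5) (nat_lit 61) (nat_lit 5) (nat_lit 376) (nat_lit 345) (nat_lit 179)) (XT.lf (nat_lit 0) (nat_lit 25645307393) (nat_lit 228) (nat_lit 23250716531) (nat_lit 304) (nat_lit 40547359738) (nat_lit 57) (nat_lit 5) (nat_lit 60) (nat_lit 5) (nat_lit 61) (nat_lit 5) (nat_lit 377) (nat_lit 345) (nat_lit 178))) (XT.nd (nat_lit 78) (nat_lit 152) (nat_lit 0) (XT.lf (nat_lit 0) (nat_lit 67853534971) (nat_lit 304)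 (nat_lit 15658976069) (nat_lit 76) (nat_lit 8780440400) (nat_lit 57) (nat_lit 5) (nat_lit 61) (nat_lit 5) (nat_lit 58) (nat_lit 5) (nat_lit 378) (nat_lit 345) (nat_lit 177)) (XT.lf (nat_lit 0) (nat_lit 35645448819) (nat_lit 152) (nat_lit 53050262601) (nat_lit 228) (nat_lit 6542447170) (nat_lit 55) (nat_lit 5) (nat_lit 57) (nat_lit 5) (nat_lit 58) (nat_lit 5) (nat_lit 379) (nat_lit 345) (nat_lit 176))))))))
noncomputable def xc205 : XT := (XT.nd (nat_lit 1950) (nat_lit 988) (nat_lit 0) (XT.nd (nat_lit 936) (nat_lit 1064) (nat_lit 0) (XT.nd (nat_lit 468) (nat_lit 532) (nat_lit 0) (XT.nd (nat_lit 234) (nat_lit 380) (nat_lit 0) (XT.nd (nat_lit 78) (nat_lit 228) (nat_lit 0) (XT.lf (nat_lit 0) (nat_lit 12125966352) (nat_lit 228) (nat_lit 8455577706) (nat_lit 76) (nat_lit 77726087517) (nat_lit 54) (nat_lit 5) (nat_lit 57) (nat_lit 5) (nat_lit 55) (nat_lit 5) (nat_lit 380) (nat_lit 345) (nat_lit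 175)) (XT.nd (nat_lit 78) (nat_lit 0) (nat_lit 0) (XT.lf (nat_lit 0) (nat_lit 32459609707) (nat_lit 304) (nat_lit 55091422308) (nat_lit 76) (nat_lit 13926600029) (nat_lit 51) (nat_lit 5) (nat_lit 55) (nat_lit 5) (nat_lit 52) (nat_lit 5) (nat_lit 381) (nat_lit 345) (nat_lit 174)) (XT.lf (nat_lit 0) (nat_lit 54292052512) (nat_lit 304) (nat_lit 876382672) (nat_lit 76) (nat_lit 49613591881) (nat_lit 51) (nat_lit 5) (nat_lit 55) (nat_lit 5) (nat_lit 52) (nat_lit 5) (nat_lit 382) (nat_lit 345) (nat_lit 173)))) (XT.nd (nat_lit 78) (nat_lit 228) (nat_lit 0) (XT.lf (nat_lit 0) (nat_lit 57901371259) (nat_lit 152) (nat_lit 20217956578) (nat_lit 228) (nat_lit 30087153855) (nat_lit 49) (nat_lit 5) (nat_lit 51) (nat_lit 5) (nat_lit 52) (nat_lit 5) (nat_lit 383) (nat_lit 345) (nat_lit 172)) (XT.nd (nat_lit 78) (nat_lit 76) (nat_lit 0) (XT.lf (nat_lit 0) (nat_lit 7839124759) (nat_lit 152) (nat_lit 95692837175)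 (nat_lit 228) (nat_lit 8250497722) (nat_lit 47) (nat_lit 5) (nat_lit 49) (nat_lit 5) (nat_lit 50) (nat_lit 5) (nat_lit 384) (nat_lit 345) (nat_lit 171)) (XT.lf (nat_lit 0) (nat_lit 15404777765) (nat_lit 228) (nat_lit 45433421497) (nat_lit 76) (nat_lit 54627750653) (nat_lit 46) (nat_lit 5) (nat_lit 49) (nat_lit 5) (nat_lit 47) (nat_lit 5) (nat_lit 385) (nat_lit 345) (nat_lit 170))))) (XT.nd (nat_lit 234) (nat_lit 228) (nat_lit 0) (XT.nd (nat_lit 78) (nat_lit 152) (nat_lit 0) (XT.lf (nat_lit 0) (nat_lit 16390118852) (nat_lit 152) (nat_lit 23830584356) (nat_lit 228) (nat_lit 79093391234) (nat_lit 44) (nat_lit 5) (nat_lit 46) (nat_lit 5) (nat_lit 47) (nat_lit 5) (nat_lit 386) (nat_lit 345) (nat_lit 169)) (XT.nd (nat_lit 78) (nat_lit 152) (nat_lit 0) (XT.lf (nat_lit 0) (nat_lit 67293366500) (nat_lit 228) (nat_lit 40682436717) (nat_lit 76) (nat_lit 15328046191) (nat_lit 44) (nat_lit 5) (nat_lit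 47) (nat_lit 5) (nat_lit 45) (nat_lit 5) (nat_lit 387) (nat_lit 345) (nat_lit 168)) (XT.lf (nat_lit 0) (nat_lit 25082146079) (nat_lit 152) (nat_lit 71419090380) (nat_lit 228) (nat_lit 30952777269) (nat_lit 42) (nat_lit 5) (nat_lit 44) (nat_lit 5) (nat_lit 45) (nat_lit 5) (nat_lit 388) (nat_lit 345) (nat_lit 167)))) (XT.nd (nat_lit 78) (nat_lit 228) (nat_lit 0) (XT.lf (nat_lit 0) (nat_lit 95546225934) (nat_lit 152) (nat_lit 32311571681) (nat_lit 228) (nat_lit 3919474027) (nat_lit 42) (nat_lit 5) (nat_lit 44) (nat_lit 5) (nat_lit 45) (nat_lit 5) (nat_lit 389) (nat_lit 345) (nat_lit 166)) (XT.nd (nat_lit 78) (nat_lit 0) (nat_lit 0) (XT.lf (nat_lit 0) (nat_lit 24362933852) (nat_lit 228) (nat_lit 102503345462) (nat_lit 76) (nat_lit 9397290229) (nat_lit 39) (nat_lit 5) (nat_lit 42) (nat_lit 5) (nat_lit 40) (nat_lit 5) (nat_lit 390) (nat_lit 345) (nat_lit 165)) (XT.lf (nat_lit 0) (nat_lit 55080439067)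 (nat_lit 228) (nat_lit 33039705894) (nat_lit 76) (nat_lit 52793190076) (nat_lit 39) (nat_lit 5) (nat_lit 42) (nat_lit 5) (nat_lit 40) (nat_lit 5) (nat_lit 391) (nat_lit 345) (nat_lit 164)))))) (XT.nd (nat_lit 468) (nat_lit 608) (nat_lit 0) (XT.nd (nat_lit 234) (nat_lit 152) (nat_lit 0) (XT.nd (nat_lit 78) (nat_lit 152) (nat_lit 0) (XT.lf (nat_lit 0) (nat_lit 41215202281) (nat_lit 152) (nat_lit 46761482954) (nat_lit 228) (nat_lit 57786760503) (nat_lit 37) (nat_lit 5) (nat_lit 39) (nat_lit 5) (nat_lit 40) (nat_lit 5) (nat_lit 392) (nat_lit 345) (nat_lit 163)) (XT.nd (nat_lit 78) (nat_lit 152) (nat_lit 0) (XT.lf (nat_lit 0) (nat_lit 120328879663) (nat_lit 152) (nat_lit 2747801578) (nat_lit 228) (nat_lit 27751434065) (nat_lit 37) (nat_lit 5) (nat_lit 39) (nat_lit 5) (nat_lit 40) (nat_lit 5) (nat_lit 393) (nat_lit 345) (nat_lit 162)) (XT.lf (nat_lit 0) (nat_lit 5117145598) (nat_lit 152) (nat_lit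 108044617984) (nat_lit 76) (nat_lit 42908667142) (nat_lit 35) (nat_lit 5) (nat_lit 37) (nat_lit 5) (nat_lit 36) (nat_lit 5) (nat_lit 394) (nat_lit 345) (nat_lit 161)))) (XT.nd (nat_lit 78) (nat_lit 152) (nat_lit 0) (XT.lf (nat_lit 0) (nat_lit 39265976043) (nat_lit 152) (nat_lit 30522529095) (nat_lit 76) (nat_lit 91735137278) (nat_lit 35) (nat_lit 5) (nat_lit 37) (nat_lit 5) (nat_lit 36) (nat_lit 5) (nat_lit 395) (nat_lit 345) (nat_lit 160)) (XT.nd (nat_lit 78) (nat_lit 0) (nat_lit 0) (XT.lf (nat_lit 0) (nat_lit 52556843564) (nat_lit 152) (nat_lit 23385410911) (nat_lit 228) (nat_lit 91266260066) (nat_lit 33) (nat_lit 5) (nat_lit 35) (nat_lit 5) (nat_lit 36) (nat_lit 5) (nat_lit 396) (nat_lit 345) (nat_lit 159)) (XT.lf (nat_lit 0) (nat_lit 115372781195) (nat_lit 228) (nat_lit 32706968213) (nat_lit 76) (nat_lit 25051859310) (nat_lit 33) (nat_lit 5) (nat_lit 36) (nat_lit 5) (nat_lit 34) (nat_lit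 4) (nat_lit 397) (nat_lit 345) (nat_lit 158))))) (XT.nd (nat_lit 234) (nat_lit 304) (nat_lit 0) (XT.nd (nat_lit 78) (nat_lit 228) (nat_lit 0) (XT.lf (nat_lit 0) (nat_lit 54701463985) (nat_lit 76) (nat_lit 103310258819) (nat_lit 152) (nat_lit 21277290526) (nat_lit 32) (nat_lit 5) (nat_lit 33) (nat_lit 5) (nat_lit 34) (nat_lit 4) (nat_lit 398) (nat_lit 345) (nat_lit 157)) (XT.nd (nat_lit 78) (nat_lit 152) (nat_lit 0) (XT.lf (nat_lit 0) (nat_lit 17045779529) (nat_lit 152) (nat_lit 38386632355) (nat_lit 76) (nat_lit 130280459992) (nat_lit 31) (nat_lit 5) (nat_lit 33) (nat_lit 5) (nat_lit 32) (nat_lit 5) (nat_lit 399) (nat_lit 345) (nat_lit 156)) (XT.lf (nat_lit 0) (nat_lit 53486540864) (nat_lit 152) (nat_lit 3917985396) (nat_lit 228) (nat_lit 134994227839) (nat_lit 29) (nat_lit 5) (nat_lit 31) (nat_lit 5) (nat_lit 32) (nat_lit 5) (nat_lit 400) (nat_lit 345) (nat_lit 155)))) (XT.nd (nat_lit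 156) (nat_lit 228) (nat_lit 0) (XT.nd (nat_lit 78) (nat_lit 76) (nat_lit 0) (XT.lf (nat_lit 0) (nat_lit 101224800727) (nat_lit 228) (nat_lit 48895230069) (nat_lit 76) (nat_lit 49226720246) (nat_lit 29) (nat_lit 5) (nat_lit 32) (nat_lit 5) (nat_lit 30) (nat_lit 4) (nat_lit 401) (nat_lit 345) (nat_lit 154)) (XT.lf (nat_lit 0) (nat_lit 47063863874) (nat_lit 76) (nat_lit 100970785336) (nat_lit 152) (nat_lit 58567570727) (nat_lit 28) (nat_lit 5) (nat_lit 29) (nat_lit 5) (nat_lit 30) (nat_lit 4) (nat_lit 402) (nat_lit 345) (nat_lit 153))) (XT.nd (nat_lit 78) (nat_lit 228) (nat_lit 0) (XT.lf (nat_lit 0) (nat_lit 149517611476) (nat_lit 76) (nat_lit 48494984508) (nat_lit 152) (nat_lit 16166486117) (nat_lit 28) (nat_lit 5) (nat_lit 29) (nat_lit 5) (nat_lit 30) (nat_lit 4) (nat_lit 403) (nat_lit 345) (nat_lit 152)) (XT.lf (nat_lit 0) (nat_lit 28122882899) (nat_lit 228) (nat_lit 186547331862) (nat_lit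 76) (nat_lit 7408650130) (nat_lit 25) (nat_lit 5) (nat_lit 28) (nat_lit 5) (nat_lit 26) (nat_lit 4) (nat_lit 404) (nat_lit 345) (nat_lit 151))))))) (XT.nd (nat_lit 936) (nat_lit 456) (nat_lit 0) (XT.nd (nat_lit 468) (nat_lit 304) (nat_lit 0) (XT.nd (nat_lit 234) (nat_lit 152) (nat_lit 0) (XT.nd (nat_lit 78) (nat_lit 76) (nat_lit 0) (XT.lf (nat_lit 0) (nat_lit 75991004645) (nat_lit 228) (nat_lit 88418583510) (nat_lit 76) (nat_lit 65855418336) (nat_lit 25) (nat_lit 5) (nat_lit 28) (nat_lit 5) (nat_lit 26) (nat_lit 4) (nat_lit 405) (nat_lit 345) (nat_lit 150)) (XT.nd (nat_lit 78) (nat_lit 0) (nat_lit 0) (XT.lf (nat_lit 0) (nat_lit 15099094882) (nat_lit 76) (nat_lit 111388756936) (nat_lit 152) (nat_lit 112360837483) (nat_lit 24) (nat_lit 5) (nat_lit 25) (nat_lit 5) (nat_lit 26) (nat_lit 4) (nat_lit 406) (nat_lit 345) (nat_lit 149)) (XT.lf (nat_lit 0) (nat_lit 126861590514) (nat_lit 76) (nat_lit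 54144950608) (nat_lit 152) (nat_lit 66780165230) (nat_lit 24) (nat_lit 5) (nat_lit 25) (nat_lit 5) (nat_lit 26) (nat_lit 4) (nat_lit 407) (nat_lit 345) (nat_lit 148)))) (XT.nd (nat_lit 78) (nat_lit 152) (nat_lit 0) (XT.lf (nat_lit 0) (nat_lit 238343836226) (nat_lit 152) (nat_lit 13053220516) (nat_lit 0) (nat_lit 5769934034) (nat_lit 24) (nat_lit 5) (nat_lit 26) (nat_lit 4) (nat_lit 24) (nat_lit 4) (nat_lit 408) (nat_lit 345) (nat_lit 147)) (XT.nd (nat_lit 78) (nat_lit 0) (nat_lit 0) (XT.lf (nat_lit 0) (nat_lit 33052545168) (nat_lit 152) (nat_lit 164816890731) (nat_lit 76) (nat_lit 68995736182) (nat_lit 22) (nat_lit 5) (nat_lit 24) (nat_lit 5) (nat_lit 23) (nat_lit 4) (nat_lit 409) (nat_lit 345) (nat_lit 146)) (XT.lf (nat_lit 0) (nat_lit 87113757705) (nat_lit 152) (nat_lit 53992077540) (nat_lit 76) (nat_lit 135915783004) (nat_lit 22) (nat_lit 5) (nat_lit 24) (nat_lit 5) (nat_lit 23) (nat_lit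 4) (nat_lit 410) (nat_lit 345) (nat_lit 145))))) (XT.nd (nat_lit 234) (nat_lit 152) (nat_lit 0) (XT.nd (nat_lit 78) (nat_lit 76) (nat_lit 0) (XT.lf (nat_lit 0) (nat_lit 64435648430) (nat_lit 76) (nat_lit 80448044132) (nat_lit 152) (nat_lit 142751911150) (nat_lit 21) (nat_lit 5) (nat_lit 22) (nat_lit 5) (nat_lit 23) (nat_lit 4) (nat_lit 411) (nat_lit 345) (nat_lit 144)) (XT.nd (nat_lit 78) (nat_lit 76) (nat_lit 0) (XT.lf (nat_lit 0) (nat_lit 190658583499) (nat_lit 76) (nat_lit 15797570066) (nat_lit 152) (nat_lit 92278433481) (nat_lit 21) (nat_lit 5) (nat_lit 22) (nat_lit 5) (nat_lit 23) (nat_lit 4) (nat_lit 412) (nat_lit 345) (nat_lit 143)) (XT.lf (nat_lit 0) (nat_lit 12386758865) (nat_lit 76) (nat_lit 259726729927) (nat_lit 76) (nat_lit 38224718260) (nat_lit 20) (nat_lit 4) (nat_lit 21) (nat_lit 5) (nat_lit 21) (nat_lit 4) (nat_lit 413) (nat_lit 345) (nat_lit 142)))) (XT.nd (nat_lit 78)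 (nat_lit 76) (nat_lit 0) (XT.lf (nat_lit 0) (nat_lit 20057514834) (nat_lit 152) (nat_lit 180384633184) (nat_lit 76) (nat_lit 121959445438) (nat_lit 19) (nat_lit 5) (nat_lit 21) (nat_lit 5) (nat_lit 20) (nat_lit 4) (nat_lit 414) (nat_lit 345) (nat_lit 141)) (XT.nd (nat_lit 78) (nat_lit 76) (nat_lit 0) (XT.lf (nat_lit 0) (nat_lit 79968935048) (nat_lit 152) (nat_lit 57566723584) (nat_lit 76) (nat_lit 197501175037) (nat_lit 19) (nat_lit 5) (nat_lit 21) (nat_lit 5) (nat_lit 20) (nat_lit 4) (nat_lit 415) (nat_lit 345) (nat_lit 140)) (XT.lf (nat_lit 0) (nat_lit 73752024560) (nat_lit 76) (nat_lit 70275069553) (nat_lit 152) (nat_lit 204219183439) (nat_lit 18) (nat_lit 5) (nat_lit 19) (nat_lit 5) (nat_lit 20) (nat_lit 4) (nat_lit 416) (nat_lit 345) (nat_lit 139)))))) (XT.nd (nat_lit 468) (nat_lit 228) (nat_lit 0) (XT.nd (nat_lit 234) (nat_lit 152) (nat_lit 0) (XT.nd (nat_lit 78) (nat_lit 76) (nat_lit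 0) (XT.lf (nat_lit 0) (nat_lit 212284199120) (nat_lit 152) (nat_lit 148454158832) (nat_lit 0) (nat_lit 1328033829) (nat_lit 18) (nat_lit 5) (nat_lit 20) (nat_lit 4) (nat_lit 18) (nat_lit 4) (nat_lit 417) (nat_lit 345) (nat_lit 138)) (XT.nd (nat_lit 78) (nat_lit 76) (nat_lit 0) (XT.lf (nat_lit 0) (nat_lit 285105917832) (nat_lit 152) (nat_lit 17264666337) (nat_lit 0) (nat_lit 74149339678) (nat_lit 18) (nat_lit 5) (nat_lit 20) (nat_lit 4) (nat_lit 18) (nat_lit 4) (nat_lit 418) (nat_lit 345) (nat_lit 137)) (XT.lf (nat_lit 0) (nat_lit 124467508804) (nat_lit 76) (nat_lit 239044222341) (nat_lit 76) (nat_lit 28087250985) (nat_lit 17) (nat_lit 4) (nat_lit 18) (nat_lit 5) (nat_lit 18) (nat_lit 4) (nat_lit 419) (nat_lit 345) (nat_lit 136)))) (XT.nd (nat_lit 78) (nat_lit 76) (nat_lit 0) (XT.lf (nat_lit 0) (nat_lit 37473516313) (nat_lit 152) (nat_lit 134136637392) (nat_lit 76) (nat_lit 235777013456)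 (nat_lit 16) (nat_lit 5) (nat_lit 18) (nat_lit 5) (nat_lit 17) (nat_lit 4) (nat_lit 420) (nat_lit 345) (nat_lit 135)) (XT.nd (nat_lit 78) (nat_lit 0) (nat_lit 0) (XT.lf (nat_lit 0) (nat_lit 5213864840) (nat_lit 76) (nat_lit 100235680194) (nat_lit 152) (nat_lit 318488137169) (nat_lit 15) (nat_lit 5) (nat_lit 16) (nat_lit 5) (nat_lit 17) (nat_lit 4) (nat_lit 421) (nat_lit 345) (nat_lit 134)) (XT.lf (nat_lit 0) (nat_lit 156188316495) (nat_lit 76) (nat_lit 22907468206) (nat_lit 152) (nat_lit 262106367857) (nat_lit 15) (nat_lit 5) (nat_lit 16) (nat_lit 5) (nat_lit 17) (nat_lit 4) (nat_lit 422) (nat_lit 345) (nat_lit 133))))) (XT.nd (nat_lit 234) (nat_lit 152) (nat_lit 0) (XT.nd (nat_lit 78) (nat_lit 76) (nat_lit 0) (XT.lf (nat_lit 0) (nat_lit 257334111652) (nat_lit 152) (nat_lit 145528863576) (nat_lit 0) (nat_lit 56421382477) (nat_lit 15) (nat_lit 5) (nat_lit 17) (nat_lit 4) (nat_lit 15) (nat_lit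 4) (nat_lit 423) (nat_lit 345) (nat_lit 132)) (XT.nd (nat_lit 78) (nat_lit 0) (nat_lit 0) (XT.lf (nat_lit 0) (nat_lit 572696029) (nat_lit 76) (nat_lit 339295893975) (nat_lit 76) (nat_lit 138382871385) (nat_lit 14) (nat_lit 4) (nat_lit 15) (nat_lit 5) (nat_lit 15) (nat_lit 4) (nat_lit 424) (nat_lit 345) (nat_lit 131)) (XT.lf (nat_lit 0) (nat_lit 159031315457) (nat_lit 76) (nat_lit 269962844246) (nat_lit 76) (nat_lit 69049542215) (nat_lit 14) (nat_lit 4) (nat_lit 15) (nat_lit 5) (nat_lit 15) (nat_lit 4) (nat_lit 425) (nat_lit 345) (nat_lit 130)))) (XT.nd (nat_lit 156) (nat_lit 76) (nat_lit 0) (XT.nd (nat_lit 78) (nat_lit 0) (nat_lit 0) (XT.lf (nat_lit 0) (nat_lit 3630188660) (nat_lit 152) (nat_lit 193471681411) (nat_lit 76) (nat_lit 321720768018) (nat_lit 13) (nat_lit 5) (nat_lit 15) (nat_lit 5) (nat_lit 14) (nat_lit 4) (nat_lit 426) (nat_lit 345) (nat_lit 129)) (XT.lf (nat_lit 0) (nat_lit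 77623172656) (nat_lit 152) (nat_lit 41786317682) (nat_lit 76) (nat_lit 421174443576) (nat_lit 13) (nat_lit 5) (nat_lit 15) (nat_lit 5) (nat_lit 14) (nat_lit 4) (nat_lit 427) (nat_lit 345) (nat_lit 128))) (XT.nd (nat_lit 78) (nat_lit 0) (nat_lit 0) (XT.lf (nat_lit 0) (nat_lit 121367433031) (nat_lit 76) (nat_lit 35843052847) (nat_lit 152) (nat_lit 406128074677) (nat_lit 12) (nat_lit 5) (nat_lit 13) (nat_lit 5) (nat_lit 14) (nat_lit 4) (nat_lit 428) (nat_lit 345) (nat_lit 127)) (XT.lf (nat_lit 0) (nat_lit 242306563557) (nat_lit 152) (nat_lit 293888267137) (nat_lit 0) (nat_lit 50959617920) (nat_lit 12) (nat_lit 5) (nat_lit 14) (nat_lit 4) (nat_lit 12) (nat_lit 4) (nat_lit 429) (nat_lit 345) (nat_lit 126))))))))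
noncomputable def xc206 : XT := (XT.nd (nat_lit 42042) (nat_lit 0) (nat_lit 2128) (XT.nd (nat_lit 41106) (nat_lit 0) (nat_lit 5092) (XT.nd (nat_lit 40638) (nat_lit 0) (nat_lit 7372) (XT.nd (nat_lit 40404) (nat_lit 0) (nat_lit 7220) (XT.nd (nat_lit 78) (nat_lit 76) (nat_lit 0) (XT.lf (nat_lit 0) (nat_lit 332244840929) (nat_lit 152) (nat_lit 138989233610) (nat_lit 0) (nat_lit 140897686769) (nat_lit 12) (nat_lit 5) (nat_lit 14) (nat_lit 4) (nat_lit 12) (nat_lit 4) (nat_lit 430) (nat_lit 345) (nat_lit 125)) (XT.nd (nat_lit 40248) (nat_lit 0) (nat_lit 7220) (XT.lf (nat_lit 0) (nat_lit 24436511767) (nat_lit 76) (nat_lit 402624856912) (nat_lit 76) (nat_lit 211277504158) (nat_lit 11) (nat_lit 4) (nat_lit 12) (nat_lit 5) (nat_lit 12) (nat_lit 4) (nat_lit 431) (nat_lit 345) (nat_lit 124)) (XT.lf (nat_lit 0) (nat_lit 3010249195) (nat_lit 836) (nat_lit 8106796252) (nat_lit 836) (nat_lit 8106796252)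 (nat_lit 106) (nat_lit 3) (nat_lit 117) (nat_lit 3) (nat_lit 117) (nat_lit 5) (nat_lit 346) (nat_lit 346) (nat_lit 208)))) (XT.nd (nat_lit 78) (nat_lit 0) (nat_lit 76) (XT.lf (nat_lit 76) (nat_lit 2228022678) (nat_lit 0) (nat_lit 4020779821) (nat_lit 836) (nat_lit 33156146131) (nat_lit 107) (nat_lit 5) (nat_lit 106) (nat_lit 3) (nat_lit 117) (nat_lit 5) (nat_lit 347) (nat_lit 346) (nat_lit 207)) (XT.nd (nat_lit 78) (nat_lit 0) (nat_lit 0) (XT.lf (nat_lit 0) (nat_lit 7000655236) (nat_lit 760) (nat_lit 18483690069) (nat_lit 836) (nat_lit 14900127532) (nat_lit 107) (nat_lit 5) (nat_lit 117) (nat_lit 5) (nat_lit 118) (nat_lit 5) (nat_lit 348) (nat_lit 346) (nat_lit 206)) (XT.lf (nat_lit 76) (nat_lit 1112317612) (nat_lit 0) (nat_lit 6758438830) (nat_lit 836) (nat_lit 33538186293) (nat_lit 108) (nat_lit 5) (nat_lit 107) (nat_lit 5) (nat_lit 118) (nat_lit 5) (nat_lit 349) (nat_lit 346) (nat_lit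 205))))) (XT.nd (nat_lit 234) (nat_lit 0) (nat_lit 76) (XT.nd (nat_lit 78) (nat_lit 0) (nat_lit 0) (XT.lf (nat_lit 0) (nat_lit 9301479475) (nat_lit 760) (nat_lit 20347437319) (nat_lit 836) (nat_lit 12809865660) (nat_lit 108) (nat_lit 5) (nat_lit 118) (nat_lit 5) (nat_lit 119) (nat_lit 5) (nat_lit 350) (nat_lit 346) (nat_lit 204)) (XT.nd (nat_lit 78) (nat_lit 0) (nat_lit 76) (XT.lf (nat_lit 76) (nat_lit 502897547) (nat_lit 0) (nat_lit 10417097293) (nat_lit 836) (nat_lit 32635308570) (nat_lit 109) (nat_lit 5) (nat_lit 108) (nat_lit 5) (nat_lit 119) (nat_lit 5) (nat_lit 351) (nat_lit 346) (nat_lit 203)) (XT.lf (nat_lit 0) (nat_lit 13120024974) (nat_lit 760) (nat_lit 21747255409) (nat_lit 836) (nat_lit 9814342545) (nat_lit 109) (nat_lit 5) (nat_lit 119) (nat_lit 5) (nat_lit 120) (nat_lit 5) (nat_lit 352) (nat_lit 346) (nat_lit 202)))) (XT.nd (nat_lit 78) (nat_lit 0) (nat_lit 76) (XT.lf (nat_lit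 76) (nat_lit 465649712) (nat_lit 0) (nat_lit 15140268684) (nat_lit 836) (nat_lit 30249548806) (nat_lit 110) (nat_lit 5) (nat_lit 109) (nat_lit 5) (nat_lit 120) (nat_lit 5) (nat_lit 353) (nat_lit 346) (nat_lit 201)) (XT.nd (nat_lit 78) (nat_lit 0) (nat_lit 0) (XT.lf (nat_lit 0) (nat_lit 18675362130) (nat_lit 760) (nat_lit 22620144978) (nat_lit 836) (nat_lit 5769535581) (nat_lit 110) (nat_lit 5) (nat_lit 120) (nat_lit 5) (nat_lit 121) (nat_lit 5) (nat_lit 354) (nat_lit 346) (nat_lit 200)) (XT.lf (nat_lit 76) (nat_lit 1072495959) (nat_lit 0) (nat_lit 21088733622) (nat_lit 836) (nat_lit 26160721485) (nat_lit 111) (nat_lit 5) (nat_lit 110) (nat_lit 5) (nat_lit 121) (nat_lit 5) (nat_lit 355) (nat_lit 346) (nat_lit 199)))))) (XT.nd (nat_lit 468) (nat_lit 1064) (nat_lit 0) (XT.nd (nat_lit 234) (nat_lit 684) (nat_lit 0) (XT.nd (nat_lit 78) (nat_lit 760) (nat_lit 0) (XT.lf (nat_lit 0) (nat_lit 26210838254)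 (nat_lit 760) (nat_lit 22897462675) (nat_lit 76) (nat_lit 513933158) (nat_lit 111) (nat_lit 5) (nat_lit 121) (nat_lit 5) (nat_lit 112) (nat_lit 5) (nat_lit 356) (nat_lit 346) (nat_lit 198)) (XT.nd (nat_lit 78) (nat_lit 0) (nat_lit 0) (XT.lf (nat_lit 0) (nat_lit 2401644961) (nat_lit 760) (nat_lit 28442667511) (nat_lit 836) (nat_lit 20124151069) (nat_lit 101) (nat_lit 5) (nat_lit 111) (nat_lit 5) (nat_lit 112) (nat_lit 5) (nat_lit 357) (nat_lit 346) (nat_lit 197)) (XT.lf (nat_lit 0) (nat_lit 29759047444) (nat_lit 760) (nat_lit 6336426269) (nat_lit 836) (nat_lit 16267231554) (nat_lit 101) (nat_lit 5) (nat_lit 111) (nat_lit 5) (nat_lit 112) (nat_lit 5) (nat_lit 358) (nat_lit 346) (nat_lit 196)))) (XT.nd (nat_lit 78) (nat_lit 304) (nat_lit 0) (XT.lf (nat_lit 0) (nat_lit 4537811266) (nat_lit 380) (nat_lit 37404017880) (nat_lit 456) (nat_lit 11868199521) (nat_lit 96) (nat_lit 5) (nat_lit 101)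 (nat_lit 5) (nat_lit 102) (nat_lit 5) (nat_lit 359) (nat_lit 346) (nat_lit 195)) (XT.nd (nat_lit 78) (nat_lit 304) (nat_lit 0) (XT.lf (nat_lit 0) (nat_lit 33712197477) (nat_lit 380) (nat_lit 14851684442) (nat_lit 456) (nat_lit 6741668668) (nat_lit 96) (nat_lit 5) (nat_lit 101) (nat_lit 5) (nat_lit 102) (nat_lit 5) (nat_lit 360) (nat_lit 346) (nat_lit 194)) (XT.lf (nat_lit 0) (nat_lit 7572387056) (nat_lit 304) (nat_lit 48199163516) (nat_lit 380) (nat_lit 1091573635) (nat_lit 92) (nat_lit 5) (nat_lit 96) (nat_lit 5) (nat_lit 97) (nat_lit 5) (nat_lit 361) (nat_lit 346) (nat_lit 193))))) (XT.nd (nat_lit 234) (nat_lit 608) (nat_lit 0) (XT.nd (nat_lit 78) (nat_lit 380) (nat_lit 0) (XT.lf (nat_lit 0) (nat_lit 5299718682) (nat_lit 380) (nat_lit 19860875131) (nat_lit 76) (nat_lit 33303522962) (nat_lit 91) (nat_lit 5) (nat_lit 96) (nat_lit 5) (nat_lit 92) (nat_lit 5) (nat_lit 362) (nat_lit 346) (nat_lit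 192)) (XT.nd (nat_lit 78) (nat_lit 0) (nat_lit 0) (XT.lf (nat_lit 0) (nat_lit 11385445156) (nat_lit 380) (nat_lit 764754180) (nat_lit 456) (nat_lit 47985250609) (nat_lit 86) (nat_lit 5) (nat_lit 91) (nat_lit 5) (nat_lit 92) (nat_lit 5) (nat_lit 363) (nat_lit 346) (nat_lit 191)) (XT.lf (nat_lit 0) (nat_lit 20071655993) (nat_lit 456) (nat_lit 17385021863) (nat_lit 76) (nat_lit 24397250361) (nat_lit 86) (nat_lit 5) (nat_lit 92) (nat_lit 5) (nat_lit 87) (nat_lit 5) (nat_lit 364) (nat_lit 346) (nat_lit 190)))) (XT.nd (nat_lit 78) (nat_lit 304) (nat_lit 0) (XT.lf (nat_lit 0) (nat_lit 16047788293) (nat_lit 304) (nat_lit 12603144714) (nat_lit 380) (nat_lit 34994311009) (nat_lit 82) (nat_lit 5) (nat_lit 86) (nat_lit 5) (nat_lit 87) (nat_lit 5) (nat_lit 365) (nat_lit 346) (nat_lit 189)) (XT.nd (nat_lit 78) (nat_lit 304) (nat_lit 0) (XT.lf (nat_lit 0) (nat_lit 38167786029) (nat_lit 380) (nat_lit 13972640885)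 (nat_lit 76) (nat_lit 13360269029) (nat_lit 82) (nat_lit 5) (nat_lit 87) (nat_lit 5) (nat_lit 83) (nat_lit 5) (nat_lit 366) (nat_lit 346) (nat_lit 188)) (XT.lf (nat_lit 0) (nat_lit 21823825475) (nat_lit 304) (nat_lit 26882755487) (nat_lit 380) (nat_lit 18715035439) (nat_lit 78) (nat_lit 5) (nat_lit 82) (nat_lit 5) (nat_lit 83) (nat_lit 5) (nat_lit 367) (nat_lit 346) (nat_lit 187))))))) (XT.nd (nat_lit 936) (nat_lit 1368) (nat_lit 0) (XT.nd (nat_lit 468) (nat_lit 760) (nat_lit 0) (XT.nd (nat_lit 234) (nat_lit 532) (nat_lit 0) (XT.nd (nat_lit 78) (nat_lit 304) (nat_lit 0) (XT.lf (nat_lit 0) (nat_lit 59893758552) (nat_lit 304) (nat_lit 113986145) (nat_lit 380) (nat_lit 9419067589) (nat_lit 78) (nat_lit 5) (nat_lit 82) (nat_lit 5) (nat_lit 83) (nat_lit 5) (nat_lit 368) (nat_lit 346) (nat_lit 186)) (XT.nd (nat_lit 78) (nat_lit 0) (nat_lit 0) (XT.lf (nat_lit 0) (nat_lit 1231127670) (nat_lit 304)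 (nat_lit 42689024208) (nat_lit 76) (nat_lit 27566831846) (nat_lit 74) (nat_lit 5) (nat_lit 78) (nat_lit 5) (nat_lit 75) (nat_lit 5) (nat_lit 369) (nat_lit 346) (nat_lit 185)) (XT.lf (nat_lit 0) (nat_lit 12262115266) (nat_lit 304) (nat_lit 4425983496) (nat_lit 76) (nat_lit 56946103912) (nat_lit 74) (nat_lit 5) (nat_lit 78) (nat_lit 5) (nat_lit 75) (nat_lit 5) (nat_lit 370) (nat_lit 346) (nat_lit 184)))) (XT.nd (nat_lit 78) (nat_lit 228) (nat_lit 0) (XT.lf (nat_lit 0) (nat_lit 24615489888) (nat_lit 380) (nat_lit 39124493774) (nat_lit 76) (nat_lit 12110257734) (nat_lit 70) (nat_lit 5) (nat_lit 75) (nat_lit 5) (nat_lit 71) (nat_lit 5) (nat_lit 371) (nat_lit 346) (nat_lit 183)) (XT.nd (nat_lit 78) (nat_lit 0) (nat_lit 0) (XT.lf (nat_lit 0) (nat_lit 1693373359) (nat_lit 228) (nat_lit 36268300946) (nat_lit 304) (nat_lit 40196651364) (nat_lit 67) (nat_lit 5) (nat_lit 70) (nat_lit 5) (nat_lit 71)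 (nat_lit 5) (nat_lit 372) (nat_lit 346) (nat_lit 182)) (XT.lf (nat_lit 0) (nat_lit 45909058517) (nat_lit 228) (nat_lit 6727672741) (nat_lit 304) (nat_lit 27912005374) (nat_lit 67) (nat_lit 5) (nat_lit 70) (nat_lit 5) (nat_lit 71) (nat_lit 5) (nat_lit 373) (nat_lit 346) (nat_lit 181))))) (XT.nd (nat_lit 234) (nat_lit 228) (nat_lit 0) (XT.nd (nat_lit 78) (nat_lit 304) (nat_lit 0) (XT.lf (nat_lit 0) (nat_lit 9190407979) (nat_lit 228) (nat_lit 59376870586) (nat_lit 304) (nat_lit 14465303309) (nat_lit 64) (nat_lit 5) (nat_lit 67) (nat_lit 5) (nat_lit 68) (nat_lit 5) (nat_lit 374) (nat_lit 346) (nat_lit 180)) (XT.nd (nat_lit 78) (nat_lit 228) (nat_lit 0) (XT.lf (nat_lit 0) (nat_lit 370387347) (nat_lit 304) (nat_lit 29312556437) (nat_lit 76) (nat_lit 55922667916) (nat_lit 63) (nat_lit 5) (nat_lit 67) (nat_lit 5) (nat_lit 64) (nat_lit 5) (nat_lit 375) (nat_lit 346) (nat_lit 179)) (XT.lf (nat_lit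 0) (nat_lit 15770088236) (nat_lit 304) (nat_lit 70539419328) (nat_lit 76) (nat_lit 1970511435) (nat_lit 60) (nat_lit 5) (nat_lit 64) (nat_lit 5) (nat_lit 61) (nat_lit 5) (nat_lit 376) (nat_lit 346) (nat_lit 178)))) (XT.nd (nat_lit 78) (nat_lit 228) (nat_lit 0) (XT.lf (nat_lit 0) (nat_lit 32930029055) (nat_lit 304) (nat_lit 23395321070) (nat_lit 76) (nat_lit 34713284296) (nat_lit 60) (nat_lit 5) (nat_lit 64) (nat_lit 5) (nat_lit 61) (nat_lit 5) (nat_lit 377) (nat_lit 346) (nat_lit 177)) (XT.nd (nat_lit 78) (nat_lit 0) (nat_lit 0) (XT.lf (nat_lit 0) (nat_lit 26967854065) (nat_lit 228) (nat_lit 24400288869) (nat_lit 304) (nat_lit 42546029355) (nat_lit 57) (nat_lit 5) (nat_lit 60) (nat_lit 5) (nat_lit 61) (nat_lit 5) (nat_lit 378) (nat_lit 346) (nat_lit 176)) (XT.lf (nat_lit 0) (nat_lit 71272421443) (nat_lit 304) (nat_lit 16402439669) (nat_lit 76) (nat_lit 9231413445) (nat_lit 57) (nat_lit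 5) (nat_lit 61) (nat_lit 5) (nat_lit 58) (nat_lit 5) (nat_lit 379) (nat_lit 346) (nat_lit 175)))))) (XT.nd (nat_lit 468) (nat_lit 608) (nat_lit 0) (XT.nd (nat_lit 234) (nat_lit 304) (nat_lit 0) (XT.nd (nat_lit 78) (nat_lit 304) (nat_lit 0) (XT.lf (nat_lit 0) (nat_lit 37466569605) (nat_lit 152) (nat_lit 55689495559) (nat_lit 228) (nat_lit 6842709644) (nat_lit 55) (nat_lit 5) (nat_lit 57) (nat_lit 5) (nat_lit 58) (nat_lit 5) (nat_lit 380) (nat_lit 346) (nat_lit 174)) (XT.nd (nat_lit 78) (nat_lit 228) (nat_lit 0) (XT.lf (nat_lit 0) (nat_lit 12757026765) (nat_lit 228) (nat_lit 8840527354) (nat_lit 76) (nat_lit 81624208862) (nat_lit 54) (nat_lit 5) (nat_lit 57) (nat_lit 5) (nat_lit 55) (nat_lit 5) (nat_lit 381) (nat_lit 346) (nat_lit 173)) (XT.lf (nat_lit 0) (nat_lit 34106958061) (nat_lit 304) (nat_lit 57807758468) (nat_lit 76) (nat_lit 14635567233) (nat_lit 51) (nat_lit 5) (nat_lit 55) (nat_lit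 5) (nat_lit 52) (nat_lit 5) (nat_lit 382) (nat_lit 346) (nat_lit 172)))) (XT.nd (nat_lit 78) (nat_lit 304) (nat_lit 0) (XT.lf (nat_lit 0) (nat_lit 57029862632) (nat_lit 304) (nat_lit 883787562) (nat_lit 76) (nat_lit 52106306906) (nat_lit 51) (nat_lit 5) (nat_lit 55) (nat_lit 5) (nat_lit 52) (nat_lit 5) (nat_lit 383) (nat_lit 346) (nat_lit 171)) (XT.nd (nat_lit 78) (nat_lit 152) (nat_lit 0) (XT.lf (nat_lit 0) (nat_lit 60832266739) (nat_lit 152) (nat_lit 21215689223) (nat_lit 228) (nat_lit 31567706305) (nat_lit 49) (nat_lit 5) (nat_lit 51) (nat_lit 5) (nat_lit 52) (nat_lit 5) (nat_lit 384) (nat_lit 346) (nat_lit 170)) (XT.lf (nat_lit 0) (nat_lit 8267252897) (nat_lit 152) (nat_lit 100463650240) (nat_lit 228) (nat_lit 8639552420) (nat_lit 47) (nat_lit 5) (nat_lit 49) (nat_lit 5) (nat_lit 50) (nat_lit 5) (nat_lit 385) (nat_lit 346) (nat_lit 169))))) (XT.nd (nat_lit 234) (nat_lit 380) (nat_lit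 0) (XT.nd (nat_lit 78) (nat_lit 152) (nat_lit 0) (XT.lf (nat_lit 0) (nat_lit 16196653792) (nat_lit 228) (nat_lit 47669918719) (nat_lit 76) (nat_lit 57371584040) (nat_lit 46) (nat_lit 5) (nat_lit 49) (nat_lit 5) (nat_lit 47) (nat_lit 5) (nat_lit 386) (nat_lit 346) (nat_lit 168)) (XT.nd (nat_lit 78) (nat_lit 0) (nat_lit 0) (XT.lf (nat_lit 0) (nat_lit 17244231328) (nat_lit 152) (nat_lit 25008654144) (nat_lit 228) (nat_lit 83025847762) (nat_lit 44) (nat_lit 5) (nat_lit 46) (nat_lit 5) (nat_lit 47) (nat_lit 5) (nat_lit 387) (nat_lit 346) (nat_lit 167)) (XT.lf (nat_lit 0) (nat_lit 70678375056) (nat_lit 228) (nat_lit 42682784911) (nat_lit 76) (nat_lit 16106856733) (nat_lit 44) (nat_lit 5) (nat_lit 47) (nat_lit 5) (nat_lit 45) (nat_lit 5) (nat_lit 388) (nat_lit 346) (nat_lit 166)))) (XT.nd (nat_lit 156) (nat_lit 228) (nat_lit 0) (XT.nd (nat_lit 78) (nat_lit 0) (nat_lit 0) (XT.lf (nat_lit 0) (nat_lit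 26369482288) (nat_lit 152) (nat_lit 74976706439) (nat_lit 228) (nat_lit 32479523387) (nat_lit 42) (nat_lit 5) (nat_lit 44) (nat_lit 5) (nat_lit 45) (nat_lit 5) (nat_lit 389) (nat_lit 346) (nat_lit 165)) (XT.lf (nat_lit 0) (nat_lit 100355183808) (nat_lit 152) (nat_lit 33914446970) (nat_lit 228) (nat_lit 4095549876) (nat_lit 42) (nat_lit 5) (nat_lit 44) (nat_lit 5) (nat_lit 45) (nat_lit 5) (nat_lit 390) (nat_lit 346) (nat_lit 164))) (XT.nd (nat_lit 78) (nat_lit 0) (nat_lit 0) (XT.lf (nat_lit 0) (nat_lit 25600122237) (nat_lit 228) (nat_lit 107595996224) (nat_lit 76) (nat_lit 9879670756) (nat_lit 39) (nat_lit 5) (nat_lit 42) (nat_lit 5) (nat_lit 40) (nat_lit 5) (nat_lit 391) (nat_lit 346) (nat_lit 163)) (XT.lf (nat_lit 0) (nat_lit 57852595964) (nat_lit 228) (nat_lit 34660723082) (nat_lit 76) (nat_lit 55444769595) (nat_lit 39) (nat_lit 5) (nat_lit 42) (nat_lit 5) (nat_lit 40) (nat_lit 5) (nat_lit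 392) (nat_lit 346) (nat_lit 162))))))))
noncomputable def xc207 : XT := (XT.nd (nat_lit 1950) (nat_lit 456) (nat_lit 0) (XT.nd (nat_lit 936) (nat_lit 760) (nat_lit 0) (XT.nd (nat_lit 468) (nat_lit 380) (nat_lit 0) (XT.nd (nat_lit 234) (nat_lit 152) (nat_lit 0) (XT.nd (nat_lit 78) (nat_lit 152) (nat_lit 0) (XT.lf (nat_lit 0) (nat_lit 43306431016) (nat_lit 152) (nat_lit 49086835557) (nat_lit 228) (nat_lit 60657458004) (nat_lit 37) (nat_lit 5) (nat_lit 39) (nat_lit 5) (nat_lit 40) (nat_lit 5) (nat_lit 393) (nat_lit 346) (nat_lit 161)) (XT.nd (nat_lit 78) (nat_lit 152) (nat_lit 0) (XT.lf (nat_lit 0) (nat_lit 126374341380) (nat_lit 152) (nat_lit 2873075900) (nat_lit 228) (nat_lit 29121252888) (nat_lit 37) (nat_lit 5) (nat_lit 39) (nat_lit 5) (nat_lit 40) (nat_lit 5) (nat_lit 394) (nat_lit 346) (nat_lit 160)) (XT.lf (nat_lit 0) (nat_lit 5390015723) (nat_lit 152) (nat_lit 113417080323) (nat_lit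 76) (nat_lit 45066000307) (nat_lit 35) (nat_lit 5) (nat_lit 37) (nat_lit 5) (nat_lit 36) (nat_lit 5) (nat_lit 395) (nat_lit 346) (nat_lit 159)))) (XT.nd (nat_lit 78) (nat_lit 152) (nat_lit 0) (XT.lf (nat_lit 0) (nat_lit 41245477556) (nat_lit 152) (nat_lit 32020304540) (nat_lit 76) (nat_lit 96333227293) (nat_lit 35) (nat_lit 5) (nat_lit 37) (nat_lit 5) (nat_lit 36) (nat_lit 5) (nat_lit 396) (nat_lit 346) (nat_lit 158)) (XT.nd (nat_lit 78) (nat_lit 0) (nat_lit 0) (XT.lf (nat_lit 0) (nat_lit 55212579478) (nat_lit 152) (nat_lit 24542654373) (nat_lit 228) (nat_lit 95812908310) (nat_lit 33) (nat_lit 5) (nat_lit 35) (nat_lit 5) (nat_lit 36) (nat_lit 5) (nat_lit 397) (nat_lit 346) (nat_lit 157)) (XT.lf (nat_lit 0) (nat_lit 121156710187) (nat_lit 228) (nat_lit 34315169893) (nat_lit 76) (nat_lit 26315540030) (nat_lit 33) (nat_lit 5) (nat_lit 36) (nat_lit 5) (nat_lit 34) (nat_lit 4) (nat_lit 398)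 (nat_lit 346) (nat_lit 156))))) (XT.nd (nat_lit 234) (nat_lit 76) (nat_lit 0) (XT.nd (nat_lit 78) (nat_lit 228) (nat_lit 0) (XT.lf (nat_lit 0) (nat_lit 57463246064) (nat_lit 76) (nat_lit 108464041720) (nat_lit 152) (nat_lit 22325422939) (nat_lit 32) (nat_lit 5) (nat_lit 33) (nat_lit 5) (nat_lit 34) (nat_lit 4) (nat_lit 399) (nat_lit 346) (nat_lit 155)) (XT.nd (nat_lit 78) (nat_lit 152) (nat_lit 0) (XT.lf (nat_lit 0) (nat_lit 17912571922) (nat_lit 152) (nat_lit 40280043468) (nat_lit 76) (nat_lit 136805170981) (nat_lit 31) (nat_lit 5) (nat_lit 33) (nat_lit 5) (nat_lit 32) (nat_lit 5) (nat_lit 400) (nat_lit 346) (nat_lit 154)) (XT.lf (nat_lit 0) (nat_lit 56186370340) (nat_lit 152) (nat_lit 4102593176) (nat_lit 228) (nat_lit 141729014000) (nat_lit 29) (nat_lit 5) (nat_lit 31) (nat_lit 5) (nat_lit 32) (nat_lit 5) (nat_lit 401) (nat_lit 346) (nat_lit 153)))) (XT.nd (nat_lit 78) (nat_lit 76) (nat_lit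 0) (XT.lf (nat_lit 0) (nat_lit 106299742891) (nat_lit 228) (nat_lit 51315191164) (nat_lit 76) (nat_lit 51698465870) (nat_lit 29) (nat_lit 5) (nat_lit 32) (nat_lit 5) (nat_lit 30) (nat_lit 4) (nat_lit 402) (nat_lit 346) (nat_lit 152)) (XT.nd (nat_lit 78) (nat_lit 0) (nat_lit 0) (XT.lf (nat_lit 0) (nat_lit 49441457470) (nat_lit 76) (nat_lit 106008354805) (nat_lit 152) (nat_lit 61481843736) (nat_lit 28) (nat_lit 5) (nat_lit 29) (nat_lit 5) (nat_lit 30) (nat_lit 4) (nat_lit 403) (nat_lit 346) (nat_lit 151)) (XT.lf (nat_lit 0) (nat_lit 157016730528) (nat_lit 76) (nat_lit 50909286307) (nat_lit 152) (nat_lit 16961376587) (nat_lit 28) (nat_lit 5) (nat_lit 29) (nat_lit 5) (nat_lit 30) (nat_lit 4) (nat_lit 404) (nat_lit 346) (nat_lit 150)))))) (XT.nd (nat_lit 468) (nat_lit 304) (nat_lit 0) (XT.nd (nat_lit 234) (nat_lit 152) (nat_lit 0) (XT.nd (nat_lit 78) (nat_lit 76) (nat_lit 0) (XT.lf (nat_lit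 0) (nat_lit 29541939881) (nat_lit 228) (nat_lit 195850932969) (nat_lit 76) (nat_lit 7789286713) (nat_lit 25) (nat_lit 5) (nat_lit 28) (nat_lit 5) (nat_lit 26) (nat_lit 4) (nat_lit 405) (nat_lit 346) (nat_lit 149)) (XT.nd (nat_lit 78) (nat_lit 76) (nat_lit 0) (XT.lf (nat_lit 0) (nat_lit 79802852817) (nat_lit 228) (nat_lit 92816878889) (nat_lit 76) (nat_lit 69157907421) (nat_lit 25) (nat_lit 5) (nat_lit 28) (nat_lit 5) (nat_lit 26) (nat_lit 4) (nat_lit 406) (nat_lit 346) (nat_lit 148)) (XT.lf (nat_lit 0) (nat_lit 15876318361) (nat_lit 76) (nat_lit 116947986049) (nat_lit 152) (nat_lit 117966213697) (nat_lit 24) (nat_lit 5) (nat_lit 25) (nat_lit 5) (nat_lit 26) (nat_lit 4) (nat_lit 407) (nat_lit 346) (nat_lit 147)))) (XT.nd (nat_lit 78) (nat_lit 152) (nat_lit 0) (XT.lf (nat_lit 0) (nat_lit 133225878359) (nat_lit 76) (nat_lit 56842475534) (nat_lit 152) (nat_lit 70107110958) (nat_lit 24) (nat_lit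 5) (nat_lit 25) (nat_lit 5) (nat_lit 26) (nat_lit 4) (nat_lit 408) (nat_lit 346) (nat_lit 146)) (XT.nd (nat_lit 78) (nat_lit 152) (nat_lit 0) (XT.lf (nat_lit 0) (nat_lit 250272111382) (nat_lit 152) (nat_lit 13685278361) (nat_lit 0) (nat_lit 6067393992) (nat_lit 24) (nat_lit 5) (nat_lit 26) (nat_lit 4) (nat_lit 24) (nat_lit 4) (nat_lit 409) (nat_lit 346) (nat_lit 145)) (XT.lf (nat_lit 0) (nat_lit 34716224933) (nat_lit 152) (nat_lit 173037096763) (nat_lit 76) (nat_lit 72454554178) (nat_lit 22) (nat_lit 5) (nat_lit 24) (nat_lit 5) (nat_lit 23) (nat_lit 4) (nat_lit 410) (nat_lit 346) (nat_lit 144))))) (XT.nd (nat_lit 234) (nat_lit 228) (nat_lit 0) (XT.nd (nat_lit 78) (nat_lit 76) (nat_lit 0) (XT.lf (nat_lit 0) (nat_lit 91479971787) (nat_lit 152) (nat_lit 56672025698) (nat_lit 76) (nat_lit 142720173284) (nat_lit 22) (nat_lit 5) (nat_lit 24) (nat_lit 5) (nat_lit 23) (nat_lit 4) (nat_lit 411)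 (nat_lit 346) (nat_lit 143)) (XT.nd (nat_lit 78) (nat_lit 0) (nat_lit 0) (XT.lf (nat_lit 0) (nat_lit 67676769543) (nat_lit 76) (nat_lit 84461434527) (nat_lit 152) (nat_lit 149878661500) (nat_lit 21) (nat_lit 5) (nat_lit 22) (nat_lit 5) (nat_lit 23) (nat_lit 4) (nat_lit 412) (nat_lit 346) (nat_lit 142)) (XT.lf (nat_lit 0) (nat_lit 200209930475) (nat_lit 76) (nat_lit 16578865891) (nat_lit 152) (nat_lit 96882026386) (nat_lit 21) (nat_lit 5) (nat_lit 22) (nat_lit 5) (nat_lit 23) (nat_lit 4) (nat_lit 413) (nat_lit 346) (nat_lit 141)))) (XT.nd (nat_lit 156) (nat_lit 76) (nat_lit 0) (XT.nd (nat_lit 78) (nat_lit 76) (nat_lit 0) (XT.lf (nat_lit 0) (nat_lit 13024571394) (nat_lit 76) (nat_lit 272704374681) (nat_lit 76) (nat_lit 40125680388) (nat_lit 20) (nat_lit 4) (nat_lit 21) (nat_lit 5) (nat_lit 21) (nat_lit 4) (nat_lit 414) (nat_lit 346) (nat_lit 140)) (XT.lf (nat_lit 0) (nat_lit 21069861966)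 (nat_lit 152) (nat_lit 189385955200) (nat_lit 76) (nat_lit 128065380761) (nat_lit 19) (nat_lit 5) (nat_lit 21) (nat_lit 5) (nat_lit 20) (nat_lit 4) (nat_lit 415) (nat_lit 346) (nat_lit 139))) (XT.nd (nat_lit 78) (nat_lit 76) (nat_lit 0) (XT.lf (nat_lit 0) (nat_lit 83976402172) (nat_lit 152) (nat_lit 60428002960) (nat_lit 76) (nat_lit 207383817647) (nat_lit 19) (nat_lit 5) (nat_lit 21) (nat_lit 5) (nat_lit 20) (nat_lit 4) (nat_lit 416) (nat_lit 346) (nat_lit 138)) (XT.lf (nat_lit 0) (nat_lit 77456407481) (nat_lit 76) (nat_lit 73780894178) (nat_lit 152) (nat_lit 214420845650) (nat_lit 18) (nat_lit 5) (nat_lit 19) (nat_lit 5) (nat_lit 20) (nat_lit 4) (nat_lit 417) (nat_lit 346) (nat_lit 137))))))) (XT.nd (nat_lit 936) (nat_lit 0) (nat_lit 0) (XT.nd (nat_lit 468) (nat_lit 228) (nat_lit 0) (XT.nd (nat_lit 234) (nat_lit 152) (nat_lit 0) (XT.nd (nat_lit 78) (nat_lit 76) (nat_lit 0) (XT.lf (nat_lit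 0) (nat_lit 222906958248) (nat_lit 152) (nat_lit 155860579133) (nat_lit 0) (nat_lit 1401745121) (nat_lit 18) (nat_lit 5) (nat_lit 20) (nat_lit 4) (nat_lit 18) (nat_lit 4) (nat_lit 418) (nat_lit 346) (nat_lit 136)) (XT.nd (nat_lit 78) (nat_lit 76) (nat_lit 0) (XT.lf (nat_lit 0) (nat_lit 299369355792) (nat_lit 152) (nat_lit 18112387615) (nat_lit 0) (nat_lit 77863768187) (nat_lit 18) (nat_lit 5) (nat_lit 20) (nat_lit 4) (nat_lit 18) (nat_lit 4) (nat_lit 419) (nat_lit 346) (nat_lit 135)) (XT.lf (nat_lit 0) (nat_lit 130706146089) (nat_lit 76) (nat_lit 250989164244) (nat_lit 76) (nat_lit 29483219992) (nat_lit 17) (nat_lit 4) (nat_lit 18) (nat_lit 5) (nat_lit 18) (nat_lit 4) (nat_lit 420) (nat_lit 346) (nat_lit 134)))) (XT.nd (nat_lit 78) (nat_lit 76) (nat_lit 0) (XT.lf (nat_lit 0) (nat_lit 39354930125) (nat_lit 152) (nat_lit 140828677158) (nat_lit 76) (nat_lit 247572530176) (nat_lit 16) (nat_lit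 5) (nat_lit 18) (nat_lit 5) (nat_lit 17) (nat_lit 4) (nat_lit 421) (nat_lit 346) (nat_lit 133)) (XT.nd (nat_lit 78) (nat_lit 0) (nat_lit 0) (XT.lf (nat_lit 0) (nat_lit 5489111604) (nat_lit 76) (nat_lit 105240507424) (nat_lit 152) (nat_lit 334404566344) (nat_lit 15) (nat_lit 5) (nat_lit 16) (nat_lit 5) (nat_lit 17) (nat_lit 4) (nat_lit 422) (nat_lit 346) (nat_lit 132)) (XT.lf (nat_lit 0) (nat_lit 164011592817) (nat_lit 76) (nat_lit 24046216112) (nat_lit 152) (nat_lit 275204088456) (nat_lit 15) (nat_lit 5) (nat_lit 16) (nat_lit 5) (nat_lit 17) (nat_lit 4) (nat_lit 423) (nat_lit 346) (nat_lit 131))))) (XT.nd (nat_lit 234) (nat_lit 152) (nat_lit 0) (XT.nd (nat_lit 78) (nat_lit 76) (nat_lit 0) (XT.lf (nat_lit 0) (nat_lit 270207806220) (nat_lit 152) (nat_lit 152791859273) (nat_lit 0) (nat_lit 59248559646) (nat_lit 15) (nat_lit 5) (nat_lit 17) (nat_lit 4) (nat_lit 15) (nat_lit 4) (nat_lit 424)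 (nat_lit 346) (nat_lit 130)) (XT.nd (nat_lit 78) (nat_lit 0) (nat_lit 0) (XT.lf (nat_lit 0) (nat_lit 614561417) (nat_lit 76) (nat_lit 356254320830) (nat_lit 76) (nat_lit 145294808120) (nat_lit 14) (nat_lit 4) (nat_lit 15) (nat_lit 5) (nat_lit 15) (nat_lit 4) (nat_lit 425) (nat_lit 346) (nat_lit 129)) (XT.lf (nat_lit 0) (nat_lit 166995481789) (nat_lit 76) (nat_lit 283454921845) (nat_lit 76) (nat_lit 72495155673) (nat_lit 14) (nat_lit 4) (nat_lit 15) (nat_lit 5) (nat_lit 15) (nat_lit 4) (nat_lit 426) (nat_lit 346) (nat_lit 128)))) (XT.nd (nat_lit 78) (nat_lit 76) (nat_lit 0) (XT.lf (nat_lit 0) (nat_lit 3818025686) (nat_lit 152) (nat_lit 203133054906) (nat_lit 76) (nat_lit 337812372198) (nat_lit 13) (nat_lit 5) (nat_lit 15) (nat_lit 5) (nat_lit 14) (nat_lit 4) (nat_lit 427) (nat_lit 346) (nat_lit 127)) (XT.nd (nat_lit 78) (nat_lit 76) (nat_lit 0) (XT.lf (nat_lit 0) (nat_lit 81510357568) (nat_lit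 152) (nat_lit 43864004447) (nat_lit 76) (nat_lit 442238466497) (nat_lit 13) (nat_lit 5) (nat_lit 15) (nat_lit 5) (nat_lit 14) (nat_lit 4) (nat_lit 428) (nat_lit 346) (nat_lit 126)) (XT.lf (nat_lit 0) (nat_lit 127447246236) (nat_lit 76) (nat_lit 37629681884) (nat_lit 152) (nat_lit 426428263818) (nat_lit 12) (nat_lit 5) (nat_lit 13) (nat_lit 5) (nat_lit 14) (nat_lit 4) (nat_lit 429) (nat_lit 346) (nat_lit 125)))))) (XT.nd (nat_lit 40794) (nat_lit 0) (nat_lit 6764) (XT.nd (nat_lit 40560) (nat_lit 0) (nat_lit 7220) (XT.nd (nat_lit 40404) (nat_lit 0) (nat_lit 7144) (XT.lf (nat_lit 0) (nat_lit 254427610008) (nat_lit 152) (nat_lit 308571583389) (nat_lit 0) (nat_lit 53512691022) (nat_lit 12) (nat_lit 5) (nat_lit 14) (nat_lit 4) (nat_lit 12) (nat_lit 4) (nat_lit 430) (nat_lit 346) (nat_lit 124)) (XT.nd (nat_lit 78) (nat_lit 0) (nat_lit 0) (XT.lf (nat_lit 0) (nat_lit 3203096182) (nat_lit 836) (nat_lit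 8489892093) (nat_lit 836) (nat_lit 8489892093) (nat_lit 106) (nat_lit 3) (nat_lit 117) (nat_lit 3) (nat_lit 117) (nat_lit 5) (nat_lit 347) (nat_lit 347) (nat_lit 206)) (XT.lf (nat_lit 76) (nat_lit 2383194207) (nat_lit 0) (nat_lit 4259368990) (nat_lit 836) (nat_lit 34728496950) (nat_lit 107) (nat_lit 5) (nat_lit 106) (nat_lit 3) (nat_lit 117) (nat_lit 5) (nat_lit 348) (nat_lit 347) (nat_lit 205)))) (XT.nd (nat_lit 78) (nat_lit 0) (nat_lit 0) (XT.lf (nat_lit 0) (nat_lit 7427577817) (nat_lit 760) (nat_lit 19361691170) (nat_lit 836) (nat_lit 15610516444) (nat_lit 107) (nat_lit 5) (nat_lit 117) (nat_lit 5) (nat_lit 118) (nat_lit 5) (nat_lit 349) (nat_lit 347) (nat_lit 204)) (XT.nd (nat_lit 78) (nat_lit 0) (nat_lit 76) (XT.lf (nat_lit 76) (nat_lit 1213372002) (nat_lit 0) (nat_lit 7124860084) (nat_lit 836) (nat_lit 35137397507) (nat_lit 108) (nat_lit 5) (nat_lit 107) (nat_lit 5) (nat_lit 118)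 (nat_lit 5) (nat_lit 350) (nat_lit 347) (nat_lit 203)) (XT.lf (nat_lit 0) (nat_lit 9836546656) (nat_lit 760) (nat_lit 21317529431) (nat_lit 836) (nat_lit 13424085460) (nat_lit 108) (nat_lit 5) (nat_lit 118) (nat_lit 5) (nat_lit 119) (nat_lit 5) (nat_lit 351) (nat_lit 347) (nat_lit 202))))) (XT.nd (nat_lit 234) (nat_lit 532) (nat_lit 0) (XT.nd (nat_lit 78) (nat_lit 0) (nat_lit 76) (XT.lf (nat_lit 76) (nat_lit 574559602) (nat_lit 0) (nat_lit 10958821442) (nat_lit 836) (nat_lit 34196260720) (nat_lit 109) (nat_lit 5) (nat_lit 108) (nat_lit 5) (nat_lit 119) (nat_lit 5) (nat_lit 352) (nat_lit 347) (nat_lit 201)) (XT.nd (nat_lit 78) (nat_lit 0) (nat_lit 0) (XT.lf (nat_lit 0) (nat_lit 13839893493) (nat_lit 760) (nat_lit 22786742158) (nat_lit 836) (nat_lit 10285820304) (nat_lit 109) (nat_lit 5) (nat_lit 119) (nat_lit 5) (nat_lit 120) (nat_lit 5) (nat_lit 353) (nat_lit 347) (nat_lit 200)) (XT.lf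 (nat_lit 76) (nat_lit 536036026) (nat_lit 0) (nat_lit 15911739684) (nat_lit 836) (nat_lit 31697334634) (nat_lit 110) (nat_lit 5) (nat_lit 109) (nat_lit 5) (nat_lit 120) (nat_lit 5) (nat_lit 354) (nat_lit 347) (nat_lit 199)))) (XT.nd (nat_lit 156) (nat_lit 684) (nat_lit 0) (XT.nd (nat_lit 78) (nat_lit 0) (nat_lit 0) (XT.lf (nat_lit 0) (nat_lit 19667545160) (nat_lit 760) (nat_lit 23703095303) (nat_lit 836) (nat_lit 6044683947) (nat_lit 110) (nat_lit 5) (nat_lit 120) (nat_lit 5) (nat_lit 121) (nat_lit 5) (nat_lit 355) (nat_lit 347) (nat_lit 198)) (XT.lf (nat_lit 76) (nat_lit 1173402569) (nat_lit 0) (nat_lit 22152259954) (nat_lit 836) (nat_lit 27409520223) (nat_lit 111) (nat_lit 5) (nat_lit 110) (nat_lit 5) (nat_lit 121) (nat_lit 5) (nat_lit 356) (nat_lit 347) (nat_lit 197))) (XT.nd (nat_lit 78) (nat_lit 760) (nat_lit 0) (XT.lf (nat_lit 0) (nat_lit 27574932117) (nat_lit 760) (nat_lit 23994440951)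 (nat_lit 76) (nat_lit 531250077) (nat_lit 111) (nat_lit 5) (nat_lit 121) (nat_lit 5) (nat_lit 112) (nat_lit 5) (nat_lit 357) (nat_lit 347) (nat_lit 196)) (XT.lf (nat_lit 0) (nat_lit 2568849569) (nat_lit 760) (nat_lit 29869416096) (nat_lit 836) (nat_lit 21075991271) (nat_lit 101) (nat_lit 5) (nat_lit 111) (nat_lit 5) (nat_lit 112) (nat_lit 5) (nat_lit 358) (nat_lit 347) (nat_lit 195))))))))
noncomputable def xc208 : XT := (XT.nd (nat_lit 1872) (nat_lit 2204) (nat_lit 0) (XT.nd (nat_lit 936) (nat_lit 1520) (nat_lit 0) (XT.nd (nat_lit 468) (nat_lit 912) (nat_lit 0) (XT.nd (nat_lit 234) (nat_lit 760) (nat_lit 0) (XT.nd (nat_lit 78) (nat_lit 380) (nat_lit 0) (XT.lf (nat_lit 0) (nat_lit 31291878254) (nat_lit 760) (nat_lit 6657643021) (nat_lit 836) (nat_lit 17028814702) (nat_lit 101) (nat_lit 5) (nat_lit 111) (nat_lit 5) (nat_lit 112) (nat_lit 5) (nat_lit 359) (nat_lit 347) (nat_lit 194)) (XT.nd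 (nat_lit 78) (nat_lit 0) (nat_lit 0) (XT.lf (nat_lit 0) (nat_lit 4811388098) (nat_lit 380) (nat_lit 39275123552) (nat_lit 456) (nat_lit 12411599983) (nat_lit 96) (nat_lit 5) (nat_lit 101) (nat_lit 5) (nat_lit 102) (nat_lit 5) (nat_lit 360) (nat_lit 347) (nat_lit 193)) (XT.lf (nat_lit 0) (nat_lit 35442270463) (nat_lit 380) (nat_lit 15595130358) (nat_lit 456) (nat_lit 7031123993) (nat_lit 96) (nat_lit 5) (nat_lit 101) (nat_lit 5) (nat_lit 102) (nat_lit 5) (nat_lit 361) (nat_lit 347) (nat_lit 192)))) (XT.nd (nat_lit 78) (nat_lit 456) (nat_lit 0) (XT.lf (nat_lit 0) (nat_lit 7997031763) (nat_lit 304) (nat_lit 50606968593) (nat_lit 380) (nat_lit 1100051153) (nat_lit 92) (nat_lit 5) (nat_lit 96) (nat_lit 5) (nat_lit 97) (nat_lit 5) (nat_lit 362) (nat_lit 347) (nat_lit 191)) (XT.nd (nat_lit 78) (nat_lit 380) (nat_lit 0) (XT.lf (nat_lit 0) (nat_lit 5607205224) (nat_lit 380) (nat_lit 20808647941)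 (nat_lit 76) (nat_lit 34969312404) (nat_lit 91) (nat_lit 5) (nat_lit 96) (nat_lit 5) (nat_lit 92) (nat_lit 5) (nat_lit 363) (nat_lit 347) (nat_lit 190)) (XT.lf (nat_lit 0) (nat_lit 11999258185) (nat_lit 380) (nat_lit 799623294) (nat_lit 456) (nat_lit 50341251864) (nat_lit 86) (nat_lit 5) (nat_lit 91) (nat_lit 5) (nat_lit 92) (nat_lit 5) (nat_lit 364) (nat_lit 347) (nat_lit 189))))) (XT.nd (nat_lit 234) (nat_lit 608) (nat_lit 0) (XT.nd (nat_lit 78) (nat_lit 304) (nat_lit 0) (XT.lf (nat_lit 0) (nat_lit 21114500478) (nat_lit 456) (nat_lit 18209913645) (nat_lit 76) (nat_lit 25620218382) (nat_lit 86) (nat_lit 5) (nat_lit 92) (nat_lit 5) (nat_lit 87) (nat_lit 5) (nat_lit 365) (nat_lit 347) (nat_lit 188)) (XT.nd (nat_lit 78) (nat_lit 0) (nat_lit 0) (XT.lf (nat_lit 0) (nat_lit 16893821546) (nat_lit 304) (nat_lit 13227731595) (nat_lit 380) (nat_lit 36704021746) (nat_lit 82) (nat_lit 5) (nat_lit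 86) (nat_lit 5) (nat_lit 87) (nat_lit 5) (nat_lit 366) (nat_lit 347) (nat_lit 187)) (XT.lf (nat_lit 0) (nat_lit 40112518618) (nat_lit 380) (nat_lit 14627950834) (nat_lit 76) (nat_lit 14033417784) (nat_lit 82) (nat_lit 5) (nat_lit 87) (nat_lit 5) (nat_lit 83) (nat_lit 5) (nat_lit 367) (nat_lit 347) (nat_lit 186)))) (XT.nd (nat_lit 78) (nat_lit 304) (nat_lit 0) (XT.lf (nat_lit 0) (nat_lit 22957640100) (nat_lit 304) (nat_lit 28219548035) (nat_lit 380) (nat_lit 19613720095) (nat_lit 78) (nat_lit 5) (nat_lit 82) (nat_lit 5) (nat_lit 83) (nat_lit 5) (nat_lit 368) (nat_lit 347) (nat_lit 185)) (XT.nd (nat_lit 78) (nat_lit 304) (nat_lit 0) (XT.lf (nat_lit 0) (nat_lit 62929040148) (nat_lit 304) (nat_lit 112689999) (nat_lit 380) (nat_lit 9854718953) (nat_lit 78) (nat_lit 5) (nat_lit 82) (nat_lit 5) (nat_lit 83) (nat_lit 5) (nat_lit 369) (nat_lit 347) (nat_lit 184)) (XT.lf (nat_lit 0) (nat_lit 1325993339)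 (nat_lit 304) (nat_lit 44780844599) (nat_lit 76) (nat_lit 28952807838) (nat_lit 74) (nat_lit 5) (nat_lit 78) (nat_lit 5) (nat_lit 75) (nat_lit 5) (nat_lit 370) (nat_lit 347) (nat_lit 183)))))) (XT.nd (nat_lit 468) (nat_lit 684) (nat_lit 0) (XT.nd (nat_lit 234) (nat_lit 304) (nat_lit 0) (XT.nd (nat_lit 78) (nat_lit 532) (nat_lit 0) (XT.lf (nat_lit 0) (nat_lit 12906944159) (nat_lit 304) (nat_lit 4606681891) (nat_lit 76) (nat_lit 59800679964) (nat_lit 74) (nat_lit 5) (nat_lit 78) (nat_lit 5) (nat_lit 75) (nat_lit 5) (nat_lit 371) (nat_lit 347) (nat_lit 182)) (XT.nd (nat_lit 78) (nat_lit 228) (nat_lit 0) (XT.lf (nat_lit 0) (nat_lit 25877242783) (nat_lit 380) (nat_lit 41039353300) (nat_lit 76) (nat_lit 12724588808) (nat_lit 70) (nat_lit 5) (nat_lit 75) (nat_lit 5) (nat_lit 71) (nat_lit 5) (nat_lit 372) (nat_lit 347) (nat_lit 181)) (XT.lf (nat_lit 0) (nat_lit 1818740010) (nat_lit 228) (nat_lit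 38071156659) (nat_lit 304) (nat_lit 42174819633) (nat_lit 67) (nat_lit 5) (nat_lit 70) (nat_lit 5) (nat_lit 71) (nat_lit 5) (nat_lit 373) (nat_lit 347) (nat_lit 180)))) (XT.nd (nat_lit 78) (nat_lit 304) (nat_lit 0) (XT.lf (nat_lit 0) (nat_lit 48243271426) (nat_lit 228) (nat_lit 7053999869) (nat_lit 304) (nat_lit 29277449167) (nat_lit 67) (nat_lit 5) (nat_lit 70) (nat_lit 5) (nat_lit 71) (nat_lit 5) (nat_lit 374) (nat_lit 347) (nat_lit 179)) (XT.nd (nat_lit 78) (nat_lit 76) (nat_lit 0) (XT.lf (nat_lit 0) (nat_lit 9689338288) (nat_lit 228) (nat_lit 62334405681) (nat_lit 304) (nat_lit 15159044947) (nat_lit 64) (nat_lit 5) (nat_lit 67) (nat_lit 5) (nat_lit 68) (nat_lit 5) (nat_lit 375) (nat_lit 347) (nat_lit 178)) (XT.lf (nat_lit 0) (nat_lit 416124420) (nat_lit 304) (nat_lit 30739735671) (nat_lit 76) (nat_lit 58728655909) (nat_lit 63) (nat_lit 5) (nat_lit 67) (nat_lit 5) (nat_lit 64) (nat_lit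 5) (nat_lit 376) (nat_lit 347) (nat_lit 177))))) (XT.nd (nat_lit 234) (nat_lit 228) (nat_lit 0) (XT.nd (nat_lit 78) (nat_lit 228) (nat_lit 0) (XT.lf (nat_lit 0) (nat_lit 16585281558) (nat_lit 304) (nat_lit 74027398245) (nat_lit 76) (nat_lit 2079991035) (nat_lit 60) (nat_lit 5) (nat_lit 64) (nat_lit 5) (nat_lit 61) (nat_lit 5) (nat_lit 377) (nat_lit 347) (nat_lit 176)) (XT.nd (nat_lit 78) (nat_lit 228) (nat_lit 0) (XT.lf (nat_lit 0) (nat_lit 34601948517) (nat_lit 304) (nat_lit 24527951838) (nat_lit 76) (nat_lit 36459380918) (nat_lit 60) (nat_lit 5) (nat_lit 64) (nat_lit 5) (nat_lit 61) (nat_lit 5) (nat_lit 378) (nat_lit 347) (nat_lit 175)) (XT.lf (nat_lit 0) (nat_lit 28352783097) (nat_lit 228) (nat_lit 25608545046) (nat_lit 304) (nat_lit 44647300554) (nat_lit 57) (nat_lit 5) (nat_lit 60) (nat_lit 5) (nat_lit 61) (nat_lit 5) (nat_lit 379) (nat_lit 347) (nat_lit 174)))) (XT.nd (nat_lit 78)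 (nat_lit 228) (nat_lit 0) (XT.lf (nat_lit 0) (nat_lit 74859815507) (nat_lit 304) (nat_lit 17186747409) (nat_lit 76) (nat_lit 9703824050) (nat_lit 57) (nat_lit 5) (nat_lit 61) (nat_lit 5) (nat_lit 58) (nat_lit 5) (nat_lit 380) (nat_lit 347) (nat_lit 173)) (XT.nd (nat_lit 78) (nat_lit 76) (nat_lit 0) (XT.lf (nat_lit 0) (nat_lit 39375134679) (nat_lit 152) (nat_lit 58461924830) (nat_lit 228) (nat_lit 7160482419) (nat_lit 55) (nat_lit 5) (nat_lit 57) (nat_lit 5) (nat_lit 58) (nat_lit 5) (nat_lit 381) (nat_lit 347) (nat_lit 172)) (XT.lf (nat_lit 0) (nat_lit 13417338055) (nat_lit 228) (nat_lit 9248241489) (nat_lit 76) (nat_lit 85716137645) (nat_lit 54) (nat_lit 5) (nat_lit 57) (nat_lit 5) (nat_lit 55) (nat_lit 5) (nat_lit 382) (nat_lit 347) (nat_lit 171))))))) (XT.nd (nat_lit 936) (nat_lit 912) (nat_lit 0) (XT.nd (nat_lit 468) (nat_lit 532) (nat_lit 0) (XT.nd (nat_lit 234) (nat_lit 380) (nat_lit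 0) (XT.nd (nat_lit 78) (nat_lit 152) (nat_lit 0) (XT.lf (nat_lit 0) (nat_lit 35834408339) (nat_lit 304) (nat_lit 60663466159) (nat_lit 76) (nat_lit 15378807909) (nat_lit 51) (nat_lit 5) (nat_lit 55) (nat_lit 5) (nat_lit 52) (nat_lit 5) (nat_lit 383) (nat_lit 347) (nat_lit 170)) (XT.nd (nat_lit 78) (nat_lit 152) (nat_lit 0) (XT.lf (nat_lit 0) (nat_lit 59902405644) (nat_lit 304) (nat_lit 894948148) (nat_lit 76) (nat_lit 54722538741) (nat_lit 51) (nat_lit 5) (nat_lit 55) (nat_lit 5) (nat_lit 52) (nat_lit 5) (nat_lit 384) (nat_lit 347) (nat_lit 169)) (XT.lf (nat_lit 0) (nat_lit 63906376146) (nat_lit 152) (nat_lit 22264532476) (nat_lit 228) (nat_lit 33124499562) (nat_lit 49) (nat_lit 5) (nat_lit 51) (nat_lit 5) (nat_lit 52) (nat_lit 5) (nat_lit 385) (nat_lit 347) (nat_lit 168)))) (XT.nd (nat_lit 78) (nat_lit 228) (nat_lit 0) (XT.lf (nat_lit 0) (nat_lit 8713424520) (nat_lit 152) (nat_lit 105474289629)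 (nat_lit 228) (nat_lit 9050241889) (nat_lit 47) (nat_lit 5) (nat_lit 49) (nat_lit 5) (nat_lit 50) (nat_lit 5) (nat_lit 386) (nat_lit 347) (nat_lit 167)) (XT.nd (nat_lit 78) (nat_lit 152) (nat_lit 0) (XT.lf (nat_lit 0) (nat_lit 17026112004) (nat_lit 228) (nat_lit 50021510933) (nat_lit 76) (nat_lit 60251451998) (nat_lit 46) (nat_lit 5) (nat_lit 49) (nat_lit 5) (nat_lit 47) (nat_lit 5) (nat_lit 387) (nat_lit 347) (nat_lit 166)) (XT.lf (nat_lit 0) (nat_lit 18137832040) (nat_lit 152) (nat_lit 26246878752) (nat_lit 228) (nat_lit 87156992273) (nat_lit 44) (nat_lit 5) (nat_lit 46) (nat_lit 5) (nat_lit 47) (nat_lit 5) (nat_lit 388) (nat_lit 347) (nat_lit 165))))) (XT.nd (nat_lit 234) (nat_lit 380) (nat_lit 0) (XT.nd (nat_lit 78) (nat_lit 152) (nat_lit 0) (XT.lf (nat_lit 0) (nat_lit 74230742999) (nat_lit 228) (nat_lit 44786290468) (nat_lit 76) (nat_lit 16923454202) (nat_lit 44) (nat_lit 5) (nat_lit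 47) (nat_lit 5) (nat_lit 45) (nat_lit 5) (nat_lit 389) (nat_lit 347) (nat_lit 164)) (XT.nd (nat_lit 78) (nat_lit 0) (nat_lit 0) (XT.lf (nat_lit 0) (nat_lit 27718096000) (nat_lit 152) (nat_lit 78713443384) (nat_lit 228) (nat_lit 34084549220) (nat_lit 42) (nat_lit 5) (nat_lit 44) (nat_lit 5) (nat_lit 45) (nat_lit 5) (nat_lit 390) (nat_lit 347) (nat_lit 163)) (XT.lf (nat_lit 0) (nat_lit 105401647376) (nat_lit 152) (nat_lit 35598647054) (nat_lit 228) (nat_lit 4282279431) (nat_lit 42) (nat_lit 5) (nat_lit 44) (nat_lit 5) (nat_lit 45) (nat_lit 5) (nat_lit 391) (nat_lit 347) (nat_lit 162)))) (XT.nd (nat_lit 78) (nat_lit 152) (nat_lit 0) (XT.lf (nat_lit 0) (nat_lit 26897399724) (nat_lit 228) (nat_lit 112946302601) (nat_lit 76) (nat_lit 10385006690) (nat_lit 39) (nat_lit 5) (nat_lit 42) (nat_lit 5) (nat_lit 40) (nat_lit 5) (nat_lit 392) (nat_lit 347) (nat_lit 161)) (XT.nd (nat_lit 78) (nat_lit 152)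 (nat_lit 0) (XT.lf (nat_lit 0) (nat_lit 60761674692) (nat_lit 228) (nat_lit 36365670251) (nat_lit 76) (nat_lit 58227819881) (nat_lit 39) (nat_lit 5) (nat_lit 42) (nat_lit 5) (nat_lit 40) (nat_lit 5) (nat_lit 393) (nat_lit 347) (nat_lit 160)) (XT.lf (nat_lit 0) (nat_lit 45499388504) (nat_lit 152) (nat_lit 51529638519) (nat_lit 228) (nat_lit 63673423399) (nat_lit 37) (nat_lit 5) (nat_lit 39) (nat_lit 5) (nat_lit 40) (nat_lit 5) (nat_lit 394) (nat_lit 347) (nat_lit 159)))))) (XT.nd (nat_lit 468) (nat_lit 532) (nat_lit 0) (XT.nd (nat_lit 234) (nat_lit 228) (nat_lit 0) (XT.nd (nat_lit 78) (nat_lit 152) (nat_lit 0) (XT.lf (nat_lit 0) (nat_lit 132719378389) (nat_lit 152) (nat_lit 3005740347) (nat_lit 228) (nat_lit 30561213147) (nat_lit 37) (nat_lit 5) (nat_lit 39) (nat_lit 5) (nat_lit 40) (nat_lit 5) (nat_lit 395) (nat_lit 347) (nat_lit 158)) (XT.nd (nat_lit 78) (nat_lit 0) (nat_lit 0) (XT.lf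 (nat_lit 0) (nat_lit 5674947662) (nat_lit 152) (nat_lit 119060933377) (nat_lit 76) (nat_lit 47330093799) (nat_lit 35) (nat_lit 5) (nat_lit 37) (nat_lit 5) (nat_lit 36) (nat_lit 5) (nat_lit 396) (nat_lit 347) (nat_lit 157)) (XT.lf (nat_lit 0) (nat_lit 43322447769) (nat_lit 152) (nat_lit 33595604565) (nat_lit 76) (nat_lit 101160168159) (nat_lit 35) (nat_lit 5) (nat_lit 37) (nat_lit 5) (nat_lit 36) (nat_lit 5) (nat_lit 397) (nat_lit 347) (nat_lit 156)))) (XT.nd (nat_lit 78) (nat_lit 76) (nat_lit 0) (XT.lf (nat_lit 0) (nat_lit 57998508892) (nat_lit 152) (nat_lit 25758878172) (nat_lit 228) (nat_lit 100588438298) (nat_lit 33) (nat_lit 5) (nat_lit 35) (nat_lit 5) (nat_lit 36) (nat_lit 5) (nat_lit 398) (nat_lit 347) (nat_lit 155)) (XT.nd (nat_lit 78) (nat_lit 76) (nat_lit 0) (XT.lf (nat_lit 0) (nat_lit 127228414115) (nat_lit 228) (nat_lit 36006305503) (nat_lit 76) (nat_lit 27641373951) (nat_lit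 33) (nat_lit 5) (nat_lit 36) (nat_lit 5) (nat_lit 34) (nat_lit 4) (nat_lit 399) (nat_lit 347) (nat_lit 154)) (XT.lf (nat_lit 0) (nat_lit 60360634109) (nat_lit 76) (nat_lit 113876604315) (nat_lit 152) (nat_lit 23427424596) (nat_lit 32) (nat_lit 5) (nat_lit 33) (nat_lit 5) (nat_lit 34) (nat_lit 4) (nat_lit 400) (nat_lit 347) (nat_lit 153))))) (XT.nd (nat_lit 234) (nat_lit 304) (nat_lit 0) (XT.nd (nat_lit 78) (nat_lit 152) (nat_lit 0) (XT.lf (nat_lit 0) (nat_lit 18821355545) (nat_lit 152) (nat_lit 42270534979) (nat_lit 76) (nat_lit 143655123852) (nat_lit 31) (nat_lit 5) (nat_lit 33) (nat_lit 5) (nat_lit 32) (nat_lit 5) (nat_lit 401) (nat_lit 347) (nat_lit 152)) (XT.nd (nat_lit 78) (nat_lit 0) (nat_lit 0) (XT.lf (nat_lit 0) (nat_lit 59018820315) (nat_lit 152) (nat_lit 4297481120) (nat_lit 228) (nat_lit 148801927076) (nat_lit 29) (nat_lit 5) (nat_lit 31) (nat_lit 5) (nat_lit 32) (nat_lit 5)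 (nat_lit 402) (nat_lit 347) (nat_lit 151)) (XT.lf (nat_lit 0) (nat_lit 111627158269) (nat_lit 228) (nat_lit 53858456020) (nat_lit 76) (nat_lit 54292830988) (nat_lit 29) (nat_lit 5) (nat_lit 32) (nat_lit 5) (nat_lit 30) (nat_lit 4) (nat_lit 403) (nat_lit 347) (nat_lit 150)))) (XT.nd (nat_lit 156) (nat_lit 228) (nat_lit 0) (XT.nd (nat_lit 78) (nat_lit 0) (nat_lit 0) (XT.lf (nat_lit 0) (nat_lit 51935662228) (nat_lit 76) (nat_lit 111298822615) (nat_lit 152) (nat_lit 64543141794) (nat_lit 28) (nat_lit 5) (nat_lit 29) (nat_lit 5) (nat_lit 30) (nat_lit 4) (nat_lit 404) (nat_lit 347) (nat_lit 149)) (XT.lf (nat_lit 0) (nat_lit 164888645040) (nat_lit 76) (nat_lit 53445274498) (nat_lit 152) (nat_lit 17797260532) (nat_lit 28) (nat_lit 5) (nat_lit 29) (nat_lit 5) (nat_lit 30) (nat_lit 4) (nat_lit 405) (nat_lit 347) (nat_lit 148))) (XT.nd (nat_lit 78) (nat_lit 0) (nat_lit 0) (XT.lf (nat_lit 0) (nat_lit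 31030749199) (nat_lit 228) (nat_lit 205621923621) (nat_lit 76) (nat_lit 8188006446) (nat_lit 25) (nat_lit 5) (nat_lit 28) (nat_lit 5) (nat_lit 26) (nat_lit 4) (nat_lit 406) (nat_lit 347) (nat_lit 147)) (XT.lf (nat_lit 0) (nat_lit 83804150053) (nat_lit 228) (nat_lit 97437193313) (nat_lit 76) (nat_lit 72624617456) (nat_lit 25) (nat_lit 5) (nat_lit 28) (nat_lit 5) (nat_lit 26) (nat_lit 4) (nat_lit 407) (nat_lit 347) (nat_lit 146))))))))
noncomputable def xc209 : XT := (XT.nd (nat_lit 42354) (nat_lit 0) (nat_lit 4180) (XT.nd (nat_lit 936) (nat_lit 456) (nat_lit 0) (XT.nd (nat_lit 468) (nat_lit 228) (nat_lit 0) (XT.nd (nat_lit 234) (nat_lit 228) (nat_lit 0) (XT.nd (nat_lit 78) (nat_lit 0) (nat_lit 0) (XT.lf (nat_lit 0) (nat_lit 16690332678) (nat_lit 76) (nat_lit 122786125729) (nat_lit 152) (nat_lit 123853036254) (nat_lit 24) (nat_lit 5) (nat_lit 25) (nat_lit 5) (nat_lit 26) (nat_lit 4) (nat_lit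 408) (nat_lit 347) (nat_lit 145)) (XT.nd (nat_lit 78) (nat_lit 0) (nat_lit 0) (XT.lf (nat_lit 0) (nat_lit 139906408848) (nat_lit 76) (nat_lit 59675780623) (nat_lit 152) (nat_lit 73601525433) (nat_lit 24) (nat_lit 5) (nat_lit 25) (nat_lit 5) (nat_lit 26) (nat_lit 4) (nat_lit 409) (nat_lit 347) (nat_lit 144)) (XT.lf (nat_lit 0) (nat_lit 262795769872) (nat_lit 152) (nat_lit 14350854586) (nat_lit 0) (nat_lit 6378893630) (nat_lit 24) (nat_lit 5) (nat_lit 26) (nat_lit 4) (nat_lit 24) (nat_lit 4) (nat_lit 410) (nat_lit 347) (nat_lit 143)))) (XT.nd (nat_lit 78) (nat_lit 76) (nat_lit 0) (XT.lf (nat_lit 0) (nat_lit 36462061128) (nat_lit 152) (nat_lit 181670231868) (nat_lit 76) (nat_lit 76085473439) (nat_lit 22) (nat_lit 5) (nat_lit 24) (nat_lit 5) (nat_lit 23) (nat_lit 4) (nat_lit 411) (nat_lit 347) (nat_lit 142)) (XT.nd (nat_lit 78) (nat_lit 76) (nat_lit 0) (XT.lf (nat_lit 0) (nat_lit 96063517946)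 (nat_lit 152) (nat_lit 59487798666) (nat_lit 76) (nat_lit 149863983427) (nat_lit 22) (nat_lit 5) (nat_lit 24) (nat_lit 5) (nat_lit 23) (nat_lit 4) (nat_lit 412) (nat_lit 347) (nat_lit 141)) (XT.lf (nat_lit 0) (nat_lit 71078148783) (nat_lit 76) (nat_lit 88676332275) (nat_lit 152) (nat_lit 157362757652) (nat_lit 21) (nat_lit 5) (nat_lit 22) (nat_lit 5) (nat_lit 23) (nat_lit 4) (nat_lit 413) (nat_lit 347) (nat_lit 140))))) (XT.nd (nat_lit 234) (nat_lit 76) (nat_lit 0) (XT.nd (nat_lit 78) (nat_lit 152) (nat_lit 0) (XT.lf (nat_lit 0) (nat_lit 210237132488) (nat_lit 76) (nat_lit 17400024444) (nat_lit 152) (nat_lit 101716759207) (nat_lit 21) (nat_lit 5) (nat_lit 22) (nat_lit 5) (nat_lit 23) (nat_lit 4) (nat_lit 414) (nat_lit 347) (nat_lit 139)) (XT.nd (nat_lit 78) (nat_lit 76) (nat_lit 0) (XT.lf (nat_lit 0) (nat_lit 13692556957) (nat_lit 76) (nat_lit 286331709748) (nat_lit 76) (nat_lit 42122645782)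 (nat_lit 20) (nat_lit 4) (nat_lit 21) (nat_lit 5) (nat_lit 21) (nat_lit 4) (nat_lit 415) (nat_lit 347) (nat_lit 138)) (XT.lf (nat_lit 0) (nat_lit 22131945895) (nat_lit 152) (nat_lit 198839008387) (nat_lit 76) (nat_lit 134475872521) (nat_lit 19) (nat_lit 5) (nat_lit 21) (nat_lit 5) (nat_lit 20) (nat_lit 4) (nat_lit 416) (nat_lit 347) (nat_lit 137)))) (XT.nd (nat_lit 78) (nat_lit 76) (nat_lit 0) (XT.lf (nat_lit 0) (nat_lit 88183404023) (nat_lit 152) (nat_lit 63433932086) (nat_lit 76) (nat_lit 217759887312) (nat_lit 19) (nat_lit 5) (nat_lit 21) (nat_lit 5) (nat_lit 20) (nat_lit 4) (nat_lit 417) (nat_lit 347) (nat_lit 136)) (XT.nd (nat_lit 78) (nat_lit 0) (nat_lit 0) (XT.lf (nat_lit 0) (nat_lit 81344449345) (nat_lit 76) (nat_lit 77462747183) (nat_lit 152) (nat_lit 225133455314) (nat_lit 18) (nat_lit 5) (nat_lit 19) (nat_lit 5) (nat_lit 20) (nat_lit 4) (nat_lit 418) (nat_lit 347) (nat_lit 135))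 (XT.lf (nat_lit 0) (nat_lit 234060060512) (nat_lit 152) (nat_lit 163638834718) (nat_lit 0) (nat_lit 1478462401) (nat_lit 18) (nat_lit 5) (nat_lit 20) (nat_lit 4) (nat_lit 18) (nat_lit 4) (nat_lit 419) (nat_lit 347) (nat_lit 134)))))) (XT.nd (nat_lit 468) (nat_lit 228) (nat_lit 0) (XT.nd (nat_lit 234) (nat_lit 76) (nat_lit 0) (XT.nd (nat_lit 78) (nat_lit 152) (nat_lit 0) (XT.lf (nat_lit 0) (nat_lit 314345208679) (nat_lit 152) (nat_lit 19003937118) (nat_lit 0) (nat_lit 81763270904) (nat_lit 18) (nat_lit 5) (nat_lit 20) (nat_lit 4) (nat_lit 18) (nat_lit 4) (nat_lit 420) (nat_lit 347) (nat_lit 133)) (XT.nd (nat_lit 78) (nat_lit 76) (nat_lit 0) (XT.lf (nat_lit 0) (nat_lit 137255296337) (nat_lit 76) (nat_lit 263532029065) (nat_lit 76) (nat_lit 30949767802) (nat_lit 17) (nat_lit 4) (nat_lit 18) (nat_lit 5) (nat_lit 18) (nat_lit 4) (nat_lit 421) (nat_lit 347) (nat_lit 132)) (XT.lf (nat_lit 0) (nat_lit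 41329695222) (nat_lit 152) (nat_lit 147856694142) (nat_lit 76) (nat_lit 259957202987) (nat_lit 16) (nat_lit 5) (nat_lit 18) (nat_lit 5) (nat_lit 17) (nat_lit 4) (nat_lit 422) (nat_lit 347) (nat_lit 131)))) (XT.nd (nat_lit 78) (nat_lit 0) (nat_lit 0) (XT.lf (nat_lit 0) (nat_lit 5776767657) (nat_lit 76) (nat_lit 110496222791) (nat_lit 152) (nat_lit 351117558667) (nat_lit 15) (nat_lit 5) (nat_lit 16) (nat_lit 5) (nat_lit 17) (nat_lit 4) (nat_lit 423) (nat_lit 347) (nat_lit 130)) (XT.nd (nat_lit 78) (nat_lit 0) (nat_lit 0) (XT.lf (nat_lit 0) (nat_lit 172224744337) (nat_lit 76) (nat_lit 25242517390) (nat_lit 152) (nat_lit 288957401456) (nat_lit 15) (nat_lit 5) (nat_lit 16) (nat_lit 5) (nat_lit 17) (nat_lit 4) (nat_lit 424) (nat_lit 347) (nat_lit 129)) (XT.lf (nat_lit 0) (nat_lit 283724535747) (nat_lit 152) (nat_lit 160419254974) (nat_lit 0) (nat_lit 62216527805) (nat_lit 15) (nat_lit 5) (nat_lit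 17) (nat_lit 4) (nat_lit 15) (nat_lit 4) (nat_lit 425) (nat_lit 347) (nat_lit 128))))) (XT.nd (nat_lit 234) (nat_lit 76) (nat_lit 0) (XT.nd (nat_lit 78) (nat_lit 76) (nat_lit 0) (XT.lf (nat_lit 0) (nat_lit 657290020) (nat_lit 76) (nat_lit 374061261049) (nat_lit 76) (nat_lit 152553011714) (nat_lit 14) (nat_lit 4) (nat_lit 15) (nat_lit 5) (nat_lit 15) (nat_lit 4) (nat_lit 426) (nat_lit 347) (nat_lit 127)) (XT.nd (nat_lit 78) (nat_lit 76) (nat_lit 0) (XT.lf (nat_lit 0) (nat_lit 175356684957) (nat_lit 76) (nat_lit 297622167154) (nat_lit 76) (nat_lit 76113687922) (nat_lit 14) (nat_lit 4) (nat_lit 15) (nat_lit 5) (nat_lit 15) (nat_lit 4) (nat_lit 427) (nat_lit 347) (nat_lit 126)) (XT.lf (nat_lit 0) (nat_lit 4014666283) (nat_lit 152) (nat_lit 213278632300) (nat_lit 76) (nat_lit 354708039133) (nat_lit 13) (nat_lit 5) (nat_lit 15) (nat_lit 5) (nat_lit 14) (nat_lit 4) (nat_lit 428) (nat_lit 347)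 (nat_lit 125)))) (XT.nd (nat_lit 40560) (nat_lit 0) (nat_lit 7144) (XT.nd (nat_lit 78) (nat_lit 76) (nat_lit 0) (XT.lf (nat_lit 0) (nat_lit 85591341458) (nat_lit 152) (nat_lit 46046656715) (nat_lit 76) (nat_lit 464355197750) (nat_lit 13) (nat_lit 5) (nat_lit 15) (nat_lit 5) (nat_lit 14) (nat_lit 4) (nat_lit 429) (nat_lit 347) (nat_lit 124)) (XT.lf (nat_lit 0) (nat_lit 133829986374) (nat_lit 76) (nat_lit 39506155905) (nat_lit 152) (nat_lit 447744040189) (nat_lit 12) (nat_lit 5) (nat_lit 13) (nat_lit 5) (nat_lit 14) (nat_lit 4) (nat_lit 430) (nat_lit 347) (nat_lit 123))) (XT.nd (nat_lit 78) (nat_lit 0) (nat_lit 0) (XT.lf (nat_lit 0) (nat_lit 3401649655) (nat_lit 836) (nat_lit 8894210759) (nat_lit 836) (nat_lit 8894210759) (nat_lit 106) (nat_lit 3) (nat_lit 117) (nat_lit 3) (nat_lit 117) (nat_lit 5) (nat_lit 348) (nat_lit 348) (nat_lit 204)) (XT.lf (nat_lit 76) (nat_lit 2542054957) (nat_lit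 0) (nat_lit 4506396557) (nat_lit 836) (nat_lit 36387410245) (nat_lit 107) (nat_lit 5) (nat_lit 106) (nat_lit 3) (nat_lit 117) (nat_lit 5) (nat_lit 349) (nat_lit 348) (nat_lit 203))))))) (XT.nd (nat_lit 936) (nat_lit 2204) (nat_lit 0) (XT.nd (nat_lit 468) (nat_lit 836) (nat_lit 0) (XT.nd (nat_lit 234) (nat_lit 0) (nat_lit 76) (XT.nd (nat_lit 78) (nat_lit 0) (nat_lit 0) (XT.lf (nat_lit 0) (nat_lit 7868698040) (nat_lit 760) (nat_lit 20287886021) (nat_lit 836) (nat_lit 16359643205) (nat_lit 107) (nat_lit 5) (nat_lit 117) (nat_lit 5) (nat_lit 118) (nat_lit 5) (nat_lit 350) (nat_lit 348) (nat_lit 202)) (XT.nd (nat_lit 78) (nat_lit 0) (nat_lit 76) (XT.lf (nat_lit 76) (nat_lit 1315254669) (nat_lit 0) (nat_lit 7506952805) (nat_lit 836) (nat_lit 36823792915) (nat_lit 108) (nat_lit 5) (nat_lit 107) (nat_lit 5) (nat_lit 118) (nat_lit 5) (nat_lit 351) (nat_lit 348) (nat_lit 201)) (XT.lf (nat_lit 0)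 (nat_lit 10391859892) (nat_lit 760) (nat_lit 22340521772) (nat_lit 836) (nat_lit 14071458910) (nat_lit 108) (nat_lit 5) (nat_lit 118) (nat_lit 5) (nat_lit 119) (nat_lit 5) (nat_lit 352) (nat_lit 348) (nat_lit 200)))) (XT.nd (nat_lit 78) (nat_lit 0) (nat_lit 76) (XT.lf (nat_lit 76) (nat_lit 645480033) (nat_lit 0) (nat_lit 11525691569) (nat_lit 836) (nat_lit 35841844025) (nat_lit 109) (nat_lit 5) (nat_lit 108) (nat_lit 5) (nat_lit 119) (nat_lit 5) (nat_lit 353) (nat_lit 348) (nat_lit 199)) (XT.nd (nat_lit 78) (nat_lit 0) (nat_lit 0) (XT.lf (nat_lit 0) (nat_lit 14589817663) (nat_lit 760) (nat_lit 23882654303) (nat_lit 836) (nat_lit 10782660646) (nat_lit 109) (nat_lit 5) (nat_lit 119) (nat_lit 5) (nat_lit 120) (nat_lit 5) (nat_lit 354) (nat_lit 348) (nat_lit 198)) (XT.lf (nat_lit 76) (nat_lit 605562387) (nat_lit 0) (nat_lit 16720440107) (nat_lit 836) (nat_lit 33223524166) (nat_lit 110) (nat_lit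 5) (nat_lit 109) (nat_lit 5) (nat_lit 120) (nat_lit 5) (nat_lit 355) (nat_lit 348) (nat_lit 197))))) (XT.nd (nat_lit 234) (nat_lit 1064) (nat_lit 0) (XT.nd (nat_lit 78) (nat_lit 0) (nat_lit 0) (XT.lf (nat_lit 0) (nat_lit 20703906477) (nat_lit 760) (nat_lit 24844661022) (nat_lit 836) (nat_lit 6334828881) (nat_lit 110) (nat_lit 5) (nat_lit 120) (nat_lit 5) (nat_lit 121) (nat_lit 5) (nat_lit 356) (nat_lit 348) (nat_lit 196)) (XT.nd (nat_lit 78) (nat_lit 0) (nat_lit 76) (XT.lf (nat_lit 76) (nat_lit 1274958694) (nat_lit 0) (nat_lit 23268117534) (nat_lit 836) (nat_lit 28726266224) (nat_lit 111) (nat_lit 5) (nat_lit 110) (nat_lit 5) (nat_lit 121) (nat_lit 5) (nat_lit 357) (nat_lit 348) (nat_lit 195)) (XT.lf (nat_lit 0) (nat_lit 29002251921) (nat_lit 760) (nat_lit 25150720951) (nat_lit 76) (nat_lit 550211911) (nat_lit 111) (nat_lit 5) (nat_lit 121) (nat_lit 5) (nat_lit 112) (nat_lit 5) (nat_lit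 358) (nat_lit 348) (nat_lit 194)))) (XT.nd (nat_lit 78) (nat_lit 380) (nat_lit 0) (XT.lf (nat_lit 0) (nat_lit 2740033417) (nat_lit 760) (nat_lit 31367073032) (nat_lit 836) (nat_lit 22080478044) (nat_lit 101) (nat_lit 5) (nat_lit 111) (nat_lit 5) (nat_lit 112) (nat_lit 5) (nat_lit 359) (nat_lit 348) (nat_lit 193)) (XT.nd (nat_lit 78) (nat_lit 380) (nat_lit 0) (XT.lf (nat_lit 0) (nat_lit 32897178233) (nat_lit 760) (nat_lit 6994511964) (nat_lit 836) (nat_lit 17833290875) (nat_lit 101) (nat_lit 5) (nat_lit 111) (nat_lit 5) (nat_lit 112) (nat_lit 5) (nat_lit 360) (nat_lit 348) (nat_lit 192)) (XT.lf (nat_lit 0) (nat_lit 5094303324) (nat_lit 380) (nat_lit 41239700391) (nat_lit 456) (nat_lit 12986819879) (nat_lit 96) (nat_lit 5) (nat_lit 101) (nat_lit 5) (nat_lit 102) (nat_lit 5) (nat_lit 361) (nat_lit 348) (nat_lit 191)))))) (XT.nd (nat_lit 468) (nat_lit 1140) (nat_lit 0) (XT.nd (nat_lit 234)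 (nat_lit 684) (nat_lit 0) (XT.nd (nat_lit 78) (nat_lit 380) (nat_lit 0) (XT.lf (nat_lit 0) (nat_lit 37254713340) (nat_lit 380) (nat_lit 16375668458) (nat_lit 456) (nat_lit 7339480095) (nat_lit 96) (nat_lit 5) (nat_lit 101) (nat_lit 5) (nat_lit 102) (nat_lit 5) (nat_lit 362) (nat_lit 348) (nat_lit 190)) (XT.nd (nat_lit 78) (nat_lit 76) (nat_lit 0) (XT.lf (nat_lit 0) (nat_lit 8438629703) (nat_lit 304) (nat_lit 53135364098) (nat_lit 380) (nat_lit 1113238596) (nat_lit 92) (nat_lit 5) (nat_lit 96) (nat_lit 5) (nat_lit 97) (nat_lit 5) (nat_lit 363) (nat_lit 348) (nat_lit 189)) (XT.lf (nat_lit 0) (nat_lit 5926114790) (nat_lit 380) (nat_lit 21808018254) (nat_lit 76) (nat_lit 36718334300) (nat_lit 91) (nat_lit 5) (nat_lit 96) (nat_lit 5) (nat_lit 92) (nat_lit 5) (nat_lit 364) (nat_lit 348) (nat_lit 188)))) (XT.nd (nat_lit 78) (nat_lit 304) (nat_lit 0) (XT.lf (nat_lit 0) (nat_lit 12639620886) (nat_lit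 380) (nat_lit 836549045) (nat_lit 456) (nat_lit 52819075206) (nat_lit 86) (nat_lit 5) (nat_lit 91) (nat_lit 5) (nat_lit 92) (nat_lit 5) (nat_lit 365) (nat_lit 348) (nat_lit 187)) (XT.nd (nat_lit 78) (nat_lit 304) (nat_lit 0) (XT.lf (nat_lit 0) (nat_lit 22205837007) (nat_lit 456) (nat_lit 19080174124) (nat_lit 76) (nat_lit 26904046084) (nat_lit 86) (nat_lit 5) (nat_lit 92) (nat_lit 5) (nat_lit 87) (nat_lit 5) (nat_lit 366) (nat_lit 348) (nat_lit 186)) (XT.lf (nat_lit 0) (nat_lit 17778098872) (nat_lit 304) (nat_lit 13884065699) (nat_lit 380) (nat_lit 38502937288) (nat_lit 82) (nat_lit 5) (nat_lit 86) (nat_lit 5) (nat_lit 87) (nat_lit 5) (nat_lit 367) (nat_lit 348) (nat_lit 185))))) (XT.nd (nat_lit 234) (nat_lit 836) (nat_lit 0) (XT.nd (nat_lit 78) (nat_lit 304) (nat_lit 0) (XT.lf (nat_lit 0) (nat_lit 42151108982) (nat_lit 380) (nat_lit 15320053959) (nat_lit 76) (nat_lit 14739746545) (nat_lit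 82) (nat_lit 5) (nat_lit 87) (nat_lit 5) (nat_lit 83) (nat_lit 5) (nat_lit 368) (nat_lit 348) (nat_lit 184)) (XT.nd (nat_lit 78) (nat_lit 0) (nat_lit 0) (XT.lf (nat_lit 0) (nat_lit 24144182742) (nat_lit 304) (nat_lit 29623863100) (nat_lit 380) (nat_lit 20560785133) (nat_lit 78) (nat_lit 5) (nat_lit 82) (nat_lit 5) (nat_lit 83) (nat_lit 5) (nat_lit 369) (nat_lit 348) (nat_lit 183)) (XT.lf (nat_lit 0) (nat_lit 66112311808) (nat_lit 304) (nat_lit 111979416) (nat_lit 380) (nat_lit 10315434933) (nat_lit 78) (nat_lit 5) (nat_lit 82) (nat_lit 5) (nat_lit 83) (nat_lit 5) (nat_lit 370) (nat_lit 348) (nat_lit 182)))) (XT.nd (nat_lit 156) (nat_lit 532) (nat_lit 0) (XT.nd (nat_lit 78) (nat_lit 0) (nat_lit 0) (XT.lf (nat_lit 0) (nat_lit 1422505510) (nat_lit 304) (nat_lit 46981219420) (nat_lit 76) (nat_lit 30407372855) (nat_lit 74) (nat_lit 5) (nat_lit 78) (nat_lit 5) (nat_lit 75) (nat_lit 5) (nat_lit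 371) (nat_lit 348) (nat_lit 181)) (XT.lf (nat_lit 0) (nat_lit 13581065180) (nat_lit 304) (nat_lit 4800189882) (nat_lit 76) (nat_lit 62797308844) (nat_lit 74) (nat_lit 5) (nat_lit 78) (nat_lit 5) (nat_lit 75) (nat_lit 5) (nat_lit 372) (nat_lit 348) (nat_lit 180))) (XT.nd (nat_lit 78) (nat_lit 228) (nat_lit 0) (XT.lf (nat_lit 0) (nat_lit 27199203245) (nat_lit 380) (nat_lit 43053801543) (nat_lit 76) (nat_lit 13368816604) (nat_lit 70) (nat_lit 5) (nat_lit 75) (nat_lit 5) (nat_lit 71) (nat_lit 5) (nat_lit 373) (nat_lit 348) (nat_lit 179)) (XT.lf (nat_lit 0) (nat_lit 1946591281) (nat_lit 228) (nat_lit 39965136865) (nat_lit 304) (nat_lit 44254840162) (nat_lit 67) (nat_lit 5) (nat_lit 70) (nat_lit 5) (nat_lit 71) (nat_lit 5) (nat_lit 374) (nat_lit 348) (nat_lit 178))))))))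
noncomputable def xc210 : XT := (XT.nd (nat_lit 1872) (nat_lit 1444) (nat_lit 0) (XT.nd (nat_lit 936) (nat_lit 1064) (nat_lit 0) (XT.nd (nat_lit 468) (nat_lit 608) (nat_lit 0) (XT.nd (nat_lit 234) (nat_lit 456) (nat_lit 0) (XT.nd (nat_lit 78) (nat_lit 304) (nat_lit 0) (XT.lf (nat_lit 0) (nat_lit 50690591445) (nat_lit 228) (nat_lit 7397578313) (nat_lit 304) (nat_lit 30713968813) (nat_lit 67) (nat_lit 5) (nat_lit 70) (nat_lit 5) (nat_lit 71) (nat_lit 5) (nat_lit 375) (nat_lit 348) (nat_lit 177)) (XT.nd (nat_lit 78) (nat_lit 76) (nat_lit 0) (XT.lf (nat_lit 0) (nat_lit 10209551152) (nat_lit 228) (nat_lit 65440868881) (nat_lit 304) (nat_lit 15890218485) (nat_lit 64) (nat_lit 5) (nat_lit 67) (nat_lit 5) (nat_lit 68) (nat_lit 5) (nat_lit 376) (nat_lit 348) (nat_lit 176)) (XT.lf (nat_lit 0) (nat_lit 461617901) (nat_lit 304) (nat_lit 32241848452) (nat_lit 76) (nat_lit 61674027116) (nat_lit 63) (nat_lit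 5) (nat_lit 67) (nat_lit 5) (nat_lit 64) (nat_lit 5) (nat_lit 377) (nat_lit 348) (nat_lit 175)))) (XT.nd (nat_lit 78) (nat_lit 228) (nat_lit 0) (XT.lf (nat_lit 0) (nat_lit 17438753263) (nat_lit 304) (nat_lit 77693401219) (nat_lit 76) (nat_lit 2193926213) (nat_lit 60) (nat_lit 5) (nat_lit 64) (nat_lit 5) (nat_lit 61) (nat_lit 5) (nat_lit 378) (nat_lit 348) (nat_lit 174)) (XT.nd (nat_lit 78) (nat_lit 228) (nat_lit 0) (XT.lf (nat_lit 0) (nat_lit 36355100827) (nat_lit 304) (nat_lit 25720666632) (nat_lit 76) (nat_lit 38291812465) (nat_lit 60) (nat_lit 5) (nat_lit 64) (nat_lit 5) (nat_lit 61) (nat_lit 5) (nat_lit 379) (nat_lit 348) (nat_lit 173)) (XT.lf (nat_lit 0) (nat_lit 29803561779) (nat_lit 228) (nat_lit 26878307204) (nat_lit 304) (nat_lit 46856055361) (nat_lit 57) (nat_lit 5) (nat_lit 60) (nat_lit 5) (nat_lit 61) (nat_lit 5) (nat_lit 380) (nat_lit 348) (nat_lit 172))))) (XT.nd (nat_lit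 234) (nat_lit 380) (nat_lit 0) (XT.nd (nat_lit 78) (nat_lit 228) (nat_lit 0) (XT.lf (nat_lit 0) (nat_lit 78624369088) (nat_lit 304) (nat_lit 18013600206) (nat_lit 76) (nat_lit 10198847390) (nat_lit 57) (nat_lit 5) (nat_lit 61) (nat_lit 5) (nat_lit 58) (nat_lit 5) (nat_lit 381) (nat_lit 348) (nat_lit 171)) (XT.nd (nat_lit 78) (nat_lit 76) (nat_lit 0) (XT.lf (nat_lit 0) (nat_lit 41375852043) (nat_lit 152) (nat_lit 61374095441) (nat_lit 228) (nat_lit 7496408846) (nat_lit 55) (nat_lit 5) (nat_lit 57) (nat_lit 5) (nat_lit 58) (nat_lit 5) (nat_lit 382) (nat_lit 348) (nat_lit 170)) (XT.lf (nat_lit 0) (nat_lit 14108576795) (nat_lit 228) (nat_lit 9679531357) (nat_lit 76) (nat_lit 90011666378) (nat_lit 54) (nat_lit 5) (nat_lit 57) (nat_lit 5) (nat_lit 55) (nat_lit 5) (nat_lit 383) (nat_lit 348) (nat_lit 169)))) (XT.nd (nat_lit 78) (nat_lit 152) (nat_lit 0) (XT.lf (nat_lit 0) (nat_lit 37646176262)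 (nat_lit 304) (nat_lit 63665183475) (nat_lit 76) (nat_lit 16158144961) (nat_lit 51) (nat_lit 5) (nat_lit 55) (nat_lit 5) (nat_lit 52) (nat_lit 5) (nat_lit 384) (nat_lit 348) (nat_lit 168)) (XT.nd (nat_lit 78) (nat_lit 152) (nat_lit 0) (XT.lf (nat_lit 0) (nat_lit 62916618789) (nat_lit 304) (nat_lit 909737468) (nat_lit 76) (nat_lit 57468567256) (nat_lit 51) (nat_lit 5) (nat_lit 55) (nat_lit 5) (nat_lit 52) (nat_lit 5) (nat_lit 385) (nat_lit 348) (nat_lit 167)) (XT.lf (nat_lit 0) (nat_lit 67131169846) (nat_lit 152) (nat_lit 23366928071) (nat_lit 228) (nat_lit 34761139907) (nat_lit 49) (nat_lit 5) (nat_lit 51) (nat_lit 5) (nat_lit 52) (nat_lit 5) (nat_lit 386) (nat_lit 348) (nat_lit 166)))))) (XT.nd (nat_lit 468) (nat_lit 532) (nat_lit 0) (XT.nd (nat_lit 234) (nat_lit 152) (nat_lit 0) (XT.nd (nat_lit 78) (nat_lit 228) (nat_lit 0) (XT.lf (nat_lit 0) (nat_lit 9178854457) (nat_lit 152) (nat_lit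 110736627128) (nat_lit 228) (nat_lit 9483445002) (nat_lit 47) (nat_lit 5) (nat_lit 49) (nat_lit 5) (nat_lit 50) (nat_lit 5) (nat_lit 387) (nat_lit 348) (nat_lit 165)) (XT.nd (nat_lit 78) (nat_lit 152) (nat_lit 0) (XT.lf (nat_lit 0) (nat_lit 17895218532) (nat_lit 228) (nat_lit 52493648864) (nat_lit 76) (nat_lit 63274263833) (nat_lit 46) (nat_lit 5) (nat_lit 49) (nat_lit 5) (nat_lit 47) (nat_lit 5) (nat_lit 388) (nat_lit 348) (nat_lit 164)) (XT.lf (nat_lit 0) (nat_lit 19073194522) (nat_lit 152) (nat_lit 27548149584) (nat_lit 228) (nat_lit 91496567169) (nat_lit 44) (nat_lit 5) (nat_lit 46) (nat_lit 5) (nat_lit 47) (nat_lit 5) (nat_lit 389) (nat_lit 348) (nat_lit 163)))) (XT.nd (nat_lit 78) (nat_lit 152) (nat_lit 0) (XT.lf (nat_lit 0) (nat_lit 77959014107) (nat_lit 228) (nat_lit 46997819333) (nat_lit 76) (nat_lit 17779835195) (nat_lit 44) (nat_lit 5) (nat_lit 47) (nat_lit 5) (nat_lit 45) (nat_lit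 5) (nat_lit 390) (nat_lit 348) (nat_lit 162)) (XT.nd (nat_lit 78) (nat_lit 0) (nat_lit 0) (XT.lf (nat_lit 0) (nat_lit 29131338303) (nat_lit 152) (nat_lit 82638141968) (nat_lit 228) (nat_lit 35771588168) (nat_lit 42) (nat_lit 5) (nat_lit 44) (nat_lit 5) (nat_lit 45) (nat_lit 5) (nat_lit 391) (nat_lit 348) (nat_lit 161)) (XT.lf (nat_lit 0) (nat_lit 110697765462) (nat_lit 152) (nat_lit 37368128374) (nat_lit 228) (nat_lit 4480023390) (nat_lit 42) (nat_lit 5) (nat_lit 44) (nat_lit 5) (nat_lit 45) (nat_lit 5) (nat_lit 392) (nat_lit 348) (nat_lit 160))))) (XT.nd (nat_lit 234) (nat_lit 152) (nat_lit 0) (XT.nd (nat_lit 78) (nat_lit 152) (nat_lit 0) (XT.lf (nat_lit 0) (nat_lit 28257935357) (nat_lit 228) (nat_lit 118566866316) (nat_lit 76) (nat_lit 10914553982) (nat_lit 39) (nat_lit 5) (nat_lit 42) (nat_lit 5) (nat_lit 40) (nat_lit 5) (nat_lit 393) (nat_lit 348) (nat_lit 159)) (XT.nd (nat_lit 78)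 (nat_lit 152) (nat_lit 0) (XT.lf (nat_lit 0) (nat_lit 63814678090) (nat_lit 228) (nat_lit 38158476226) (nat_lit 76) (nat_lit 61149017501) (nat_lit 39) (nat_lit 5) (nat_lit 42) (nat_lit 5) (nat_lit 40) (nat_lit 5) (nat_lit 394) (nat_lit 348) (nat_lit 158)) (XT.lf (nat_lit 0) (nat_lit 47799424539) (nat_lit 152) (nat_lit 54095654399) (nat_lit 228) (nat_lit 66841758964) (nat_lit 37) (nat_lit 5) (nat_lit 39) (nat_lit 5) (nat_lit 40) (nat_lit 5) (nat_lit 395) (nat_lit 348) (nat_lit 157)))) (XT.nd (nat_lit 78) (nat_lit 152) (nat_lit 0) (XT.lf (nat_lit 0) (nat_lit 139379220270) (nat_lit 152) (nat_lit 3146059702) (nat_lit 228) (nat_lit 32074668466) (nat_lit 37) (nat_lit 5) (nat_lit 39) (nat_lit 5) (nat_lit 40) (nat_lit 5) (nat_lit 396) (nat_lit 348) (nat_lit 156)) (XT.nd (nat_lit 78) (nat_lit 0) (nat_lit 0) (XT.lf (nat_lit 0) (nat_lit 5972691555) (nat_lit 152) (nat_lit 124989489377) (nat_lit 76)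 (nat_lit 49706388491) (nat_lit 35) (nat_lit 5) (nat_lit 37) (nat_lit 5) (nat_lit 36) (nat_lit 5) (nat_lit 397) (nat_lit 348) (nat_lit 155)) (XT.lf (nat_lit 0) (nat_lit 45501900167) (nat_lit 152) (nat_lit 35252060347) (nat_lit 76) (nat_lit 106227500378) (nat_lit 35) (nat_lit 5) (nat_lit 37) (nat_lit 5) (nat_lit 36) (nat_lit 5) (nat_lit 398) (nat_lit 348) (nat_lit 154))))))) (XT.nd (nat_lit 936) (nat_lit 608) (nat_lit 0) (XT.nd (nat_lit 468) (nat_lit 380) (nat_lit 0) (XT.nd (nat_lit 234) (nat_lit 228) (nat_lit 0) (XT.nd (nat_lit 78) (nat_lit 76) (nat_lit 0) (XT.lf (nat_lit 0) (nat_lit 60921382582) (nat_lit 152) (nat_lit 27036927369) (nat_lit 228) (nat_lit 105604150074) (nat_lit 33) (nat_lit 5) (nat_lit 35) (nat_lit 5) (nat_lit 36) (nat_lit 5) (nat_lit 399) (nat_lit 348) (nat_lit 153)) (XT.nd (nat_lit 78) (nat_lit 76) (nat_lit 0) (XT.lf (nat_lit 0) (nat_lit 133602413886) (nat_lit 228) (nat_lit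 37784287096) (nat_lit 76) (nat_lit 29032564572) (nat_lit 33) (nat_lit 5) (nat_lit 36) (nat_lit 5) (nat_lit 34) (nat_lit 4) (nat_lit 400) (nat_lit 348) (nat_lit 152)) (XT.lf (nat_lit 0) (nat_lit 63400639276) (nat_lit 76) (nat_lit 119560784198) (nat_lit 152) (nat_lit 24585852977) (nat_lit 32) (nat_lit 5) (nat_lit 33) (nat_lit 5) (nat_lit 34) (nat_lit 4) (nat_lit 401) (nat_lit 348) (nat_lit 151)))) (XT.nd (nat_lit 78) (nat_lit 152) (nat_lit 0) (XT.lf (nat_lit 0) (nat_lit 19774355319) (nat_lit 152) (nat_lit 44362736864) (nat_lit 76) (nat_lit 150846673080) (nat_lit 31) (nat_lit 5) (nat_lit 33) (nat_lit 5) (nat_lit 32) (nat_lit 5) (nat_lit 402) (nat_lit 348) (nat_lit 150)) (XT.nd (nat_lit 78) (nat_lit 0) (nat_lit 0) (XT.lf (nat_lit 0) (nat_lit 61990742246) (nat_lit 152) (nat_lit 4503065639) (nat_lit 228) (nat_lit 156229744406) (nat_lit 29) (nat_lit 5) (nat_lit 31) (nat_lit 5) (nat_lit 32) (nat_lit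 5) (nat_lit 403) (nat_lit 348) (nat_lit 149)) (XT.lf (nat_lit 0) (nat_lit 117219788957) (nat_lit 228) (nat_lit 56530975464) (nat_lit 76) (nat_lit 57016036551) (nat_lit 29) (nat_lit 5) (nat_lit 32) (nat_lit 5) (nat_lit 30) (nat_lit 4) (nat_lit 404) (nat_lit 348) (nat_lit 148))))) (XT.nd (nat_lit 234) (nat_lit 76) (nat_lit 0) (XT.nd (nat_lit 78) (nat_lit 228) (nat_lit 0) (XT.lf (nat_lit 0) (nat_lit 54552519610) (nat_lit 76) (nat_lit 116854738866) (nat_lit 152) (nat_lit 67758694231) (nat_lit 28) (nat_lit 5) (nat_lit 29) (nat_lit 5) (nat_lit 30) (nat_lit 4) (nat_lit 405) (nat_lit 348) (nat_lit 147)) (XT.nd (nat_lit 78) (nat_lit 228) (nat_lit 0) (XT.lf (nat_lit 0) (nat_lit 173152195645) (nat_lit 76) (nat_lit 56108943099) (nat_lit 152) (nat_lit 18676071508) (nat_lit 28) (nat_lit 5) (nat_lit 29) (nat_lit 5) (nat_lit 30) (nat_lit 4) (nat_lit 406) (nat_lit 348) (nat_lit 146)) (XT.lf (nat_lit 0)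 (nat_lit 32592910082) (nat_lit 228) (nat_lit 215883467877) (nat_lit 76) (nat_lit 8605801687) (nat_lit 25) (nat_lit 5) (nat_lit 28) (nat_lit 5) (nat_lit 26) (nat_lit 4) (nat_lit 407) (nat_lit 348) (nat_lit 145)))) (XT.nd (nat_lit 78) (nat_lit 76) (nat_lit 0) (XT.lf (nat_lit 0) (nat_lit 88004475101) (nat_lit 228) (nat_lit 102290432099) (nat_lit 76) (nat_lit 76263843490) (nat_lit 25) (nat_lit 5) (nat_lit 28) (nat_lit 5) (nat_lit 26) (nat_lit 4) (nat_lit 408) (nat_lit 348) (nat_lit 144)) (XT.nd (nat_lit 78) (nat_lit 0) (nat_lit 0) (XT.lf (nat_lit 0) (nat_lit 17543169856) (nat_lit 76) (nat_lit 128917033265) (nat_lit 152) (nat_lit 130035267997) (nat_lit 24) (nat_lit 5) (nat_lit 25) (nat_lit 5) (nat_lit 26) (nat_lit 4) (nat_lit 409) (nat_lit 348) (nat_lit 143)) (XT.lf (nat_lit 0) (nat_lit 146919177427) (nat_lit 76) (nat_lit 62651570844) (nat_lit 152) (nat_lit 77271677828) (nat_lit 24) (nat_lit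 5) (nat_lit 25) (nat_lit 5) (nat_lit 26) (nat_lit 4) (nat_lit 410) (nat_lit 348) (nat_lit 142)))))) (XT.nd (nat_lit 468) (nat_lit 304) (nat_lit 0) (XT.nd (nat_lit 234) (nat_lit 152) (nat_lit 0) (XT.nd (nat_lit 78) (nat_lit 152) (nat_lit 0) (XT.lf (nat_lit 0) (nat_lit 275944676662) (nat_lit 152) (nat_lit 15051447027) (nat_lit 0) (nat_lit 6705212406) (nat_lit 24) (nat_lit 5) (nat_lit 26) (nat_lit 4) (nat_lit 24) (nat_lit 4) (nat_lit 411) (nat_lit 348) (nat_lit 141)) (XT.nd (nat_lit 78) (nat_lit 0) (nat_lit 0) (XT.lf (nat_lit 0) (nat_lit 38294257108) (nat_lit 152) (nat_lit 190736764112) (nat_lit 76) (nat_lit 79897177091) (nat_lit 22) (nat_lit 5) (nat_lit 24) (nat_lit 5) (nat_lit 23) (nat_lit 4) (nat_lit 412) (nat_lit 348) (nat_lit 140)) (XT.lf (nat_lit 0) (nat_lit 100875353771) (nat_lit 152) (nat_lit 62446017791) (nat_lit 76) (nat_lit 157364258769) (nat_lit 22) (nat_lit 5) (nat_lit 24) (nat_lit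 5) (nat_lit 23) (nat_lit 4) (nat_lit 413) (nat_lit 348) (nat_lit 139)))) (XT.nd (nat_lit 78) (nat_lit 76) (nat_lit 0) (XT.lf (nat_lit 0) (nat_lit 74647966211) (nat_lit 76) (nat_lit 93102734849) (nat_lit 152) (nat_lit 165221973155) (nat_lit 21) (nat_lit 5) (nat_lit 22) (nat_lit 5) (nat_lit 23) (nat_lit 4) (nat_lit 414) (nat_lit 348) (nat_lit 138)) (XT.nd (nat_lit 78) (nat_lit 76) (nat_lit 0) (XT.lf (nat_lit 0) (nat_lit 220764141483) (nat_lit 76) (nat_lit 18262964676) (nat_lit 152) (nat_lit 106794099663) (nat_lit 21) (nat_lit 5) (nat_lit 22) (nat_lit 5) (nat_lit 23) (nat_lit 4) (nat_lit 415) (nat_lit 348) (nat_lit 137)) (XT.lf (nat_lit 0) (nat_lit 14392383892) (nat_lit 76) (nat_lit 300641144518) (nat_lit 76) (nat_lit 44220325803) (nat_lit 20) (nat_lit 4) (nat_lit 21) (nat_lit 5) (nat_lit 21) (nat_lit 4) (nat_lit 416) (nat_lit 348) (nat_lit 136))))) (XT.nd (nat_lit 234) (nat_lit 152) (nat_lit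 0) (XT.nd (nat_lit 78) (nat_lit 76) (nat_lit 0) (XT.lf (nat_lit 0) (nat_lit 23246335326) (nat_lit 152) (nat_lit 208766224499) (nat_lit 76) (nat_lit 141206217368) (nat_lit 19) (nat_lit 5) (nat_lit 21) (nat_lit 5) (nat_lit 20) (nat_lit 4) (nat_lit 417) (nat_lit 348) (nat_lit 135)) (XT.nd (nat_lit 78) (nat_lit 76) (nat_lit 0) (XT.lf (nat_lit 0) (nat_lit 92599995307) (nat_lit 152) (nat_lit 66591596017) (nat_lit 76) (nat_lit 228654120936) (nat_lit 19) (nat_lit 5) (nat_lit 21) (nat_lit 5) (nat_lit 20) (nat_lit 4) (nat_lit 418) (nat_lit 348) (nat_lit 134)) (XT.lf (nat_lit 0) (nat_lit 85425478152) (nat_lit 76) (nat_lit 81329361455) (nat_lit 152) (nat_lit 236382479446) (nat_lit 18) (nat_lit 5) (nat_lit 19) (nat_lit 5) (nat_lit 20) (nat_lit 4) (nat_lit 419) (nat_lit 348) (nat_lit 133)))) (XT.nd (nat_lit 156) (nat_lit 152) (nat_lit 0) (XT.nd (nat_lit 78) (nat_lit 0) (nat_lit 0) (XT.lf (nat_lit 0)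 (nat_lit 245770096963) (nat_lit 152) (nat_lit 171807376571) (nat_lit 0) (nat_lit 1558399147) (nat_lit 18) (nat_lit 5) (nat_lit 20) (nat_lit 4) (nat_lit 18) (nat_lit 4) (nat_lit 420) (nat_lit 348) (nat_lit 132)) (XT.lf (nat_lit 0) (nat_lit 330069167613) (nat_lit 152) (nat_lit 19941372181) (nat_lit 0) (nat_lit 85857161712) (nat_lit 18) (nat_lit 5) (nat_lit 20) (nat_lit 4) (nat_lit 18) (nat_lit 4) (nat_lit 421) (nat_lit 348) (nat_lit 131))) (XT.nd (nat_lit 78) (nat_lit 76) (nat_lit 0) (XT.lf (nat_lit 0) (nat_lit 144130617112) (nat_lit 76) (nat_lit 276702650118) (nat_lit 76) (nat_lit 32490350804) (nat_lit 17) (nat_lit 4) (nat_lit 18) (nat_lit 5) (nat_lit 18) (nat_lit 4) (nat_lit 422) (nat_lit 348) (nat_lit 130)) (XT.lf (nat_lit 0) (nat_lit 43402546052) (nat_lit 152) (nat_lit 155237359348) (nat_lit 76) (nat_lit 272960547310) (nat_lit 16) (nat_lit 5) (nat_lit 18) (nat_lit 5) (nat_lit 17) (nat_lit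 4) (nat_lit 423) (nat_lit 348) (nat_lit 129))))))))
noncomputable def xc211 : XT := (XT.nd (nat_lit 42432) (nat_lit 0) (nat_lit 2356) (XT.nd (nat_lit 41418) (nat_lit 0) (nat_lit 5548) (XT.nd (nat_lit 468) (nat_lit 0) (nat_lit 0) (XT.nd (nat_lit 234) (nat_lit 152) (nat_lit 0) (XT.nd (nat_lit 78) (nat_lit 0) (nat_lit 0) (XT.lf (nat_lit 0) (nat_lit 6077579258) (nat_lit 76) (nat_lit 116015310570) (nat_lit 152) (nat_lit 368666873340) (nat_lit 15) (nat_lit 5) (nat_lit 16) (nat_lit 5) (nat_lit 17) (nat_lit 4) (nat_lit 424) (nat_lit 348) (nat_lit 128)) (XT.nd (nat_lit 78) (nat_lit 0) (nat_lit 0) (XT.lf (nat_lit 0) (nat_lit 180847384619) (nat_lit 76) (nat_lit 26499192440) (nat_lit 152) (nat_lit 303399020805) (nat_lit 15) (nat_lit 5) (nat_lit 16) (nat_lit 5) (nat_lit 17) (nat_lit 4) (nat_lit 425) (nat_lit 348) (nat_lit 127)) (XT.lf (nat_lit 0) (nat_lit 297916512390) (nat_lit 152) (nat_lit 168429154446)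 (nat_lit 0) (nat_lit 65332379299) (nat_lit 15) (nat_lit 5) (nat_lit 17) (nat_lit 4) (nat_lit 15) (nat_lit 4) (nat_lit 426) (nat_lit 348) (nat_lit 126)))) (XT.nd (nat_lit 78) (nat_lit 76) (nat_lit 0) (XT.lf (nat_lit 0) (nat_lit 701039358) (nat_lit 76) (nat_lit 392759085261) (nat_lit 76) (nat_lit 160174733219) (nat_lit 14) (nat_lit 4) (nat_lit 15) (nat_lit 5) (nat_lit 15) (nat_lit 4) (nat_lit 427) (nat_lit 348) (nat_lit 125)) (XT.nd (nat_lit 78) (nat_lit 76) (nat_lit 0) (XT.lf (nat_lit 0) (nat_lit 184134885716) (nat_lit 76) (nat_lit 312498286140) (nat_lit 76) (nat_lit 79913725575) (nat_lit 14) (nat_lit 4) (nat_lit 15) (nat_lit 5) (nat_lit 15) (nat_lit 4) (nat_lit 428) (nat_lit 348) (nat_lit 124)) (XT.lf (nat_lit 0) (nat_lit 4220605324) (nat_lit 152) (nat_lit 223932518244) (nat_lit 76) (nat_lit 372448020070) (nat_lit 13) (nat_lit 5) (nat_lit 15) (nat_lit 5) (nat_lit 14) (nat_lit 4) (nat_lit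 429) (nat_lit 348) (nat_lit 123))))) (XT.nd (nat_lit 40716) (nat_lit 0) (nat_lit 7144) (XT.nd (nat_lit 40560) (nat_lit 0) (nat_lit 7068) (XT.lf (nat_lit 0) (nat_lit 89875866366) (nat_lit 152) (nat_lit 48339422245) (nat_lit 76) (nat_lit 487577318571) (nat_lit 13) (nat_lit 5) (nat_lit 15) (nat_lit 5) (nat_lit 14) (nat_lit 4) (nat_lit 430) (nat_lit 348) (nat_lit 122)) (XT.nd (nat_lit 78) (nat_lit 0) (nat_lit 0) (XT.lf (nat_lit 0) (nat_lit 3606560859) (nat_lit 836) (nat_lit 9320621127) (nat_lit 836) (nat_lit 9320621127) (nat_lit 106) (nat_lit 3) (nat_lit 117) (nat_lit 3) (nat_lit 117) (nat_lit 5) (nat_lit 349) (nat_lit 349) (nat_lit 202)) (XT.lf (nat_lit 76) (nat_lit 2705167718) (nat_lit 0) (nat_lit 4762609010) (nat_lit 836) (nat_lit 38136475494) (nat_lit 107) (nat_lit 5) (nat_lit 106) (nat_lit 3) (nat_lit 117) (nat_lit 5) (nat_lit 350) (nat_lit 349) (nat_lit 201)))) (XT.nd (nat_lit 78) (nat_lit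 0) (nat_lit 0) (XT.lf (nat_lit 0) (nat_lit 8325390387) (nat_lit 760) (nat_lit 21264285122) (nat_lit 836) (nat_lit 17149145492) (nat_lit 107) (nat_lit 5) (nat_lit 117) (nat_lit 5) (nat_lit 118) (nat_lit 5) (nat_lit 351) (nat_lit 349) (nat_lit 200)) (XT.nd (nat_lit 78) (nat_lit 0) (nat_lit 76) (XT.lf (nat_lit 76) (nat_lit 1418399776) (nat_lit 0) (nat_lit 7905746901) (nat_lit 836) (nat_lit 38601060141) (nat_lit 108) (nat_lit 5) (nat_lit 107) (nat_lit 5) (nat_lit 118) (nat_lit 5) (nat_lit 352) (nat_lit 349) (nat_lit 199)) (XT.lf (nat_lit 0) (nat_lit 10969036471) (nat_lit 760) (nat_lit 23418650690) (nat_lit 836) (nat_lit 14753416596) (nat_lit 108) (nat_lit 5) (nat_lit 118) (nat_lit 5) (nat_lit 119) (nat_lit 5) (nat_lit 353) (nat_lit 349) (nat_lit 198)))))) (XT.nd (nat_lit 468) (nat_lit 1672) (nat_lit 0) (XT.nd (nat_lit 234) (nat_lit 0) (nat_lit 152) (XT.nd (nat_lit 78) (nat_lit 0) (nat_lit 76)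 (XT.lf (nat_lit 76) (nat_lit 716023832) (nat_lit 0) (nat_lit 12119145359) (nat_lit 836) (nat_lit 37575677967) (nat_lit 109) (nat_lit 5) (nat_lit 108) (nat_lit 5) (nat_lit 119) (nat_lit 5) (nat_lit 354) (nat_lit 349) (nat_lit 197)) (XT.nd (nat_lit 78) (nat_lit 0) (nat_lit 0) (XT.lf (nat_lit 0) (nat_lit 15371852307) (nat_lit 760) (nat_lit 25037399297) (nat_lit 836) (nat_lit 11305965402) (nat_lit 109) (nat_lit 5) (nat_lit 119) (nat_lit 5) (nat_lit 120) (nat_lit 5) (nat_lit 355) (nat_lit 349) (nat_lit 196)) (XT.lf (nat_lit 76) (nat_lit 674592942) (nat_lit 0) (nat_lit 17568356388) (nat_lit 836) (nat_lit 34831478425) (nat_lit 110) (nat_lit 5) (nat_lit 109) (nat_lit 5) (nat_lit 120) (nat_lit 5) (nat_lit 356) (nat_lit 349) (nat_lit 195)))) (XT.nd (nat_lit 78) (nat_lit 0) (nat_lit 0) (XT.lf (nat_lit 0) (nat_lit 21787159904) (nat_lit 760) (nat_lit 26047357524) (nat_lit 836) (nat_lit 6640605006) (nat_lit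 110) (nat_lit 5) (nat_lit 120) (nat_lit 5) (nat_lit 121) (nat_lit 5) (nat_lit 357) (nat_lit 349) (nat_lit 194)) (XT.nd (nat_lit 78) (nat_lit 0) (nat_lit 76) (XT.lf (nat_lit 76) (nat_lit 1377605493) (nat_lit 0) (nat_lit 24439001489) (nat_lit 836) (nat_lit 30113844831) (nat_lit 111) (nat_lit 5) (nat_lit 110) (nat_lit 5) (nat_lit 121) (nat_lit 5) (nat_lit 358) (nat_lit 349) (nat_lit 193)) (XT.lf (nat_lit 0) (nat_lit 30496421839) (nat_lit 760) (nat_lit 26368853781) (nat_lit 76) (nat_lit 570828475) (nat_lit 111) (nat_lit 5) (nat_lit 121) (nat_lit 5) (nat_lit 112) (nat_lit 5) (nat_lit 359) (nat_lit 349) (nat_lit 192))))) (XT.nd (nat_lit 234) (nat_lit 760) (nat_lit 0) (XT.nd (nat_lit 78) (nat_lit 380) (nat_lit 0) (XT.lf (nat_lit 0) (nat_lit 2915802770) (nat_lit 760) (nat_lit 32939223629) (nat_lit 836) (nat_lit 23139773792) (nat_lit 101) (nat_lit 5) (nat_lit 111) (nat_lit 5) (nat_lit 112) (nat_lit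 5) (nat_lit 360) (nat_lit 349) (nat_lit 191)) (XT.nd (nat_lit 78) (nat_lit 380) (nat_lit 0) (XT.lf (nat_lit 0) (nat_lit 34578958746) (nat_lit 760) (nat_lit 7347853699) (nat_lit 836) (nat_lit 18682357176) (nat_lit 101) (nat_lit 5) (nat_lit 111) (nat_lit 5) (nat_lit 112) (nat_lit 5) (nat_lit 361) (nat_lit 349) (nat_lit 190)) (XT.lf (nat_lit 0) (nat_lit 5387427399) (nat_lit 380) (nat_lit 43302429774) (nat_lit 456) (nat_lit 13595017922) (nat_lit 96) (nat_lit 5) (nat_lit 101) (nat_lit 5) (nat_lit 102) (nat_lit 5) (nat_lit 362) (nat_lit 349) (nat_lit 189)))) (XT.nd (nat_lit 156) (nat_lit 456) (nat_lit 0) (XT.nd (nat_lit 78) (nat_lit 304) (nat_lit 0) (XT.lf (nat_lit 0) (nat_lit 39154028920) (nat_lit 380) (nat_lit 17195160799) (nat_lit 456) (nat_lit 7667270337) (nat_lit 96) (nat_lit 5) (nat_lit 101) (nat_lit 5) (nat_lit 102) (nat_lit 5) (nat_lit 363) (nat_lit 349) (nat_lit 188)) (XT.lf (nat_lit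 0) (nat_lit 8898426361) (nat_lit 304) (nat_lit 55790360943) (nat_lit 380) (nat_lit 1130972984) (nat_lit 92) (nat_lit 5) (nat_lit 96) (nat_lit 5) (nat_lit 97) (nat_lit 5) (nat_lit 364) (nat_lit 349) (nat_lit 187))) (XT.nd (nat_lit 78) (nat_lit 380) (nat_lit 0) (XT.lf (nat_lit 0) (nat_lit 6257385885) (nat_lit 380) (nat_lit 22861174647) (nat_lit 76) (nat_lit 38554755573) (nat_lit 91) (nat_lit 5) (nat_lit 96) (nat_lit 5) (nat_lit 92) (nat_lit 5) (nat_lit 365) (nat_lit 349) (nat_lit 186)) (XT.lf (nat_lit 0) (nat_lit 13308245733) (nat_lit 380) (nat_lit 875605146) (nat_lit 456) (nat_lit 55424437808) (nat_lit 86) (nat_lit 5) (nat_lit 91) (nat_lit 5) (nat_lit 92) (nat_lit 5) (nat_lit 366) (nat_lit 349) (nat_lit 185))))))) (XT.nd (nat_lit 936) (nat_lit 1444) (nat_lit 0) (XT.nd (nat_lit 468) (nat_lit 836) (nat_lit 0) (XT.nd (nat_lit 234) (nat_lit 608) (nat_lit 0) (XT.nd (nat_lit 78) (nat_lit 304)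 (nat_lit 0) (XT.lf (nat_lit 0) (nat_lit 23348429543) (nat_lit 456) (nat_lit 19997688315) (nat_lit 76) (nat_lit 28251803294) (nat_lit 86) (nat_lit 5) (nat_lit 92) (nat_lit 5) (nat_lit 87) (nat_lit 5) (nat_lit 367) (nat_lit 349) (nat_lit 184)) (XT.nd (nat_lit 78) (nat_lit 0) (nat_lit 0) (XT.lf (nat_lit 0) (nat_lit 18702909709) (nat_lit 304) (nat_lit 14573686239) (nat_lit 380) (nat_lit 40395172094) (nat_lit 82) (nat_lit 5) (nat_lit 86) (nat_lit 5) (nat_lit 87) (nat_lit 5) (nat_lit 368) (nat_lit 349) (nat_lit 183)) (XT.lf (nat_lit 0) (nat_lit 44288564145) (nat_lit 380) (nat_lit 16050415462) (nat_lit 76) (nat_lit 15480958700) (nat_lit 82) (nat_lit 5) (nat_lit 87) (nat_lit 5) (nat_lit 83) (nat_lit 5) (nat_lit 369) (nat_lit 349) (nat_lit 182)))) (XT.nd (nat_lit 78) (nat_lit 304) (nat_lit 0) (XT.lf (nat_lit 0) (nat_lit 25386458215) (nat_lit 304) (nat_lit 31099013319) (nat_lit 380) (nat_lit 21558329181)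 (nat_lit 78) (nat_lit 5) (nat_lit 82) (nat_lit 5) (nat_lit 83) (nat_lit 5) (nat_lit 370) (nat_lit 349) (nat_lit 181)) (XT.nd (nat_lit 78) (nat_lit 304) (nat_lit 0) (XT.lf (nat_lit 0) (nat_lit 69451323910) (nat_lit 304) (nat_lit 111823210) (nat_lit 380) (nat_lit 10802163624) (nat_lit 78) (nat_lit 5) (nat_lit 82) (nat_lit 5) (nat_lit 83) (nat_lit 5) (nat_lit 371) (nat_lit 349) (nat_lit 180)) (XT.lf (nat_lit 0) (nat_lit 1521034418) (nat_lit 304) (nat_lit 49295207911) (nat_lit 76) (nat_lit 31934022338) (nat_lit 74) (nat_lit 5) (nat_lit 78) (nat_lit 5) (nat_lit 75) (nat_lit 5) (nat_lit 372) (nat_lit 349) (nat_lit 179))))) (XT.nd (nat_lit 234) (nat_lit 304) (nat_lit 0) (XT.nd (nat_lit 78) (nat_lit 532) (nat_lit 0) (XT.lf (nat_lit 0) (nat_lit 14286217136) (nat_lit 304) (nat_lit 5006797014) (nat_lit 76) (nat_lit 65943156038) (nat_lit 74) (nat_lit 5) (nat_lit 78) (nat_lit 5) (nat_lit 75) (nat_lit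 5) (nat_lit 373) (nat_lit 349) (nat_lit 178)) (XT.nd (nat_lit 78) (nat_lit 228) (nat_lit 0) (XT.lf (nat_lit 0) (nat_lit 28584649414) (nat_lit 380) (nat_lit 45172460398) (nat_lit 76) (nat_lit 14044512179) (nat_lit 70) (nat_lit 5) (nat_lit 75) (nat_lit 5) (nat_lit 71) (nat_lit 5) (nat_lit 374) (nat_lit 349) (nat_lit 177)) (XT.lf (nat_lit 0) (nat_lit 2077403176) (nat_lit 228) (nat_lit 41954706518) (nat_lit 304) (nat_lit 46441531872) (nat_lit 67) (nat_lit 5) (nat_lit 70) (nat_lit 5) (nat_lit 71) (nat_lit 5) (nat_lit 375) (nat_lit 349) (nat_lit 176)))) (XT.nd (nat_lit 78) (nat_lit 304) (nat_lit 0) (XT.lf (nat_lit 0) (nat_lit 53257008952) (nat_lit 228) (nat_lit 7759183714) (nat_lit 304) (nat_lit 32224857446) (nat_lit 67) (nat_lit 5) (nat_lit 70) (nat_lit 5) (nat_lit 71) (nat_lit 5) (nat_lit 376) (nat_lit 349) (nat_lit 175)) (XT.nd (nat_lit 78) (nat_lit 76) (nat_lit 0) (XT.lf (nat_lit 0) (nat_lit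 10752451340) (nat_lit 228) (nat_lit 68703608848) (nat_lit 304) (nat_lit 16660440330) (nat_lit 64) (nat_lit 5) (nat_lit 67) (nat_lit 5) (nat_lit 68) (nat_lit 5) (nat_lit 377) (nat_lit 349) (nat_lit 174)) (XT.lf (nat_lit 0) (nat_lit 507090869) (nat_lit 304) (nat_lit 33822309126) (nat_lit 76) (nat_lit 64765835873) (nat_lit 63) (nat_lit 5) (nat_lit 67) (nat_lit 5) (nat_lit 64) (nat_lit 5) (nat_lit 378) (nat_lit 349) (nat_lit 173)))))) (XT.nd (nat_lit 468) (nat_lit 760) (nat_lit 0) (XT.nd (nat_lit 234) (nat_lit 228) (nat_lit 0) (XT.nd (nat_lit 78) (nat_lit 228) (nat_lit 0) (XT.lf (nat_lit 0) (nat_lit 18332647959) (nat_lit 304) (nat_lit 81545992425) (nat_lit 76) (nat_lit 2312634429) (nat_lit 60) (nat_lit 5) (nat_lit 64) (nat_lit 5) (nat_lit 61) (nat_lit 5) (nat_lit 379) (nat_lit 349) (nat_lit 172)) (XT.nd (nat_lit 78) (nat_lit 228) (nat_lit 0) (XT.lf (nat_lit 0) (nat_lit 38193767327) (nat_lit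 304) (nat_lit 26976148673) (nat_lit 76) (nat_lit 40214985855) (nat_lit 60) (nat_lit 5) (nat_lit 64) (nat_lit 5) (nat_lit 61) (nat_lit 5) (nat_lit 380) (nat_lit 349) (nat_lit 171)) (XT.lf (nat_lit 0) (nat_lit 31323798396) (nat_lit 228) (nat_lit 28212549009) (nat_lit 304) (nat_lit 49177442963) (nat_lit 57) (nat_lit 5) (nat_lit 60) (nat_lit 5) (nat_lit 61) (nat_lit 5) (nat_lit 381) (nat_lit 349) (nat_lit 170)))) (XT.nd (nat_lit 78) (nat_lit 228) (nat_lit 0) (XT.lf (nat_lit 0) (nat_lit 82575145641) (nat_lit 304) (nat_lit 18884815749) (nat_lit 76) (nat_lit 10717707798) (nat_lit 57) (nat_lit 5) (nat_lit 61) (nat_lit 5) (nat_lit 58) (nat_lit 5) (nat_lit 382) (nat_lit 349) (nat_lit 169)) (XT.nd (nat_lit 78) (nat_lit 76) (nat_lit 0) (XT.lf (nat_lit 0) (nat_lit 43473633878) (nat_lit 152) (nat_lit 64432890345) (nat_lit 228) (nat_lit 7851186029) (nat_lit 55) (nat_lit 5) (nat_lit 57) (nat_lit 5) (nat_lit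 58) (nat_lit 5) (nat_lit 383) (nat_lit 349) (nat_lit 168)) (XT.lf (nat_lit 0) (nat_lit 14832483492) (nat_lit 228) (nat_lit 10135279167) (nat_lit 76) (nat_lit 94521067701) (nat_lit 54) (nat_lit 5) (nat_lit 57) (nat_lit 5) (nat_lit 55) (nat_lit 5) (nat_lit 384) (nat_lit 349) (nat_lit 167))))) (XT.nd (nat_lit 234) (nat_lit 380) (nat_lit 0) (XT.nd (nat_lit 78) (nat_lit 152) (nat_lit 0) (XT.lf (nat_lit 0) (nat_lit 39546668754) (nat_lit 304) (nat_lit 66819911136) (nat_lit 76) (nat_lit 16975482284) (nat_lit 51) (nat_lit 5) (nat_lit 55) (nat_lit 5) (nat_lit 52) (nat_lit 5) (nat_lit 385) (nat_lit 349) (nat_lit 166)) (XT.nd (nat_lit 78) (nat_lit 152) (nat_lit 0) (XT.lf (nat_lit 0) (nat_lit 66079767518) (nat_lit 304) (nat_lit 928051472) (nat_lit 76) (nat_lit 60350976643) (nat_lit 51) (nat_lit 5) (nat_lit 55) (nat_lit 5) (nat_lit 52) (nat_lit 5) (nat_lit 386) (nat_lit 349) (nat_lit 165)) (XT.lf (nat_lit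 0) (nat_lit 70514462935) (nat_lit 152) (nat_lit 24525450412) (nat_lit 228) (nat_lit 36481433064) (nat_lit 49) (nat_lit 5) (nat_lit 51) (nat_lit 5) (nat_lit 52) (nat_lit 5) (nat_lit 387) (nat_lit 349) (nat_lit 164)))) (XT.nd (nat_lit 156) (nat_lit 152) (nat_lit 0) (XT.nd (nat_lit 78) (nat_lit 76) (nat_lit 0) (XT.lf (nat_lit 0) (nat_lit 9664789208) (nat_lit 152) (nat_lit 116263139226) (nat_lit 228) (nat_lit 9940103436) (nat_lit 47) (nat_lit 5) (nat_lit 49) (nat_lit 5) (nat_lit 50) (nat_lit 5) (nat_lit 388) (nat_lit 349) (nat_lit 163)) (XT.lf (nat_lit 0) (nat_lit 18806125424) (nat_lit 228) (nat_lit 55092084036) (nat_lit 76) (nat_lit 66447264313) (nat_lit 46) (nat_lit 5) (nat_lit 49) (nat_lit 5) (nat_lit 47) (nat_lit 5) (nat_lit 389) (nat_lit 349) (nat_lit 162))) (XT.nd (nat_lit 78) (nat_lit 0) (nat_lit 0) (XT.lf (nat_lit 0) (nat_lit 20052678176) (nat_lit 152) (nat_lit 28915513429) (nat_lit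 228) (nat_lit 96054819820) (nat_lit 44) (nat_lit 5) (nat_lit 46) (nat_lit 5) (nat_lit 47) (nat_lit 5) (nat_lit 390) (nat_lit 349) (nat_lit 161)) (XT.lf (nat_lit 0) (nat_lit 81872143006) (nat_lit 228) (nat_lit 49322507888) (nat_lit 76) (nat_lit 18678086169) (nat_lit 44) (nat_lit 5) (nat_lit 47) (nat_lit 5) (nat_lit 45) (nat_lit 5) (nat_lit 391) (nat_lit 349) (nat_lit 160))))))))
noncomputable def xc212 : XT := (XT.nd (nat_lit 1872) (nat_lit 532) (nat_lit 0) (XT.nd (nat_lit 936) (nat_lit 760) (nat_lit 0) (XT.nd (nat_lit 468) (nat_lit 456) (nat_lit 0) (XT.nd (nat_lit 234) (nat_lit 152) (nat_lit 0) (XT.nd (nat_lit 78) (nat_lit 228) (nat_lit 0) (XT.lf (nat_lit 0) (nat_lit 30612701139) (nat_lit 152) (nat_lit 86760095702) (nat_lit 228) (nat_lit 37544577088) (nat_lit 42) (nat_lit 5) (nat_lit 44) (nat_lit 5) (nat_lit 45) (nat_lit 5) (nat_lit 392) (nat_lit 349) (nat_lit 159)) (XT.nd (nat_lit 78)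 (nat_lit 228) (nat_lit 0) (XT.lf (nat_lit 0) (nat_lit 116256268898) (nat_lit 152) (nat_lit 39227055398) (nat_lit 228) (nat_lit 4689176475) (nat_lit 42) (nat_lit 5) (nat_lit 44) (nat_lit 5) (nat_lit 45) (nat_lit 5) (nat_lit 393) (nat_lit 349) (nat_lit 158)) (XT.lf (nat_lit 0) (nat_lit 29685041329) (nat_lit 228) (nat_lit 124470945311) (nat_lit 76) (nat_lit 11469621326) (nat_lit 39) (nat_lit 5) (nat_lit 42) (nat_lit 5) (nat_lit 40) (nat_lit 5) (nat_lit 394) (nat_lit 349) (nat_lit 157)))) (XT.nd (nat_lit 78) (nat_lit 152) (nat_lit 0) (XT.lf (nat_lit 0) (nat_lit 67018944570) (nat_lit 228) (nat_lit 40043291160) (nat_lit 76) (nat_lit 64215363275) (nat_lit 39) (nat_lit 5) (nat_lit 42) (nat_lit 5) (nat_lit 40) (nat_lit 5) (nat_lit 395) (nat_lit 349) (nat_lit 156)) (XT.nd (nat_lit 78) (nat_lit 0) (nat_lit 0) (XT.lf (nat_lit 0) (nat_lit 50212131919) (nat_lit 152) (nat_lit 56790944107) (nat_lit 228)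 (nat_lit 70169937066) (nat_lit 37) (nat_lit 5) (nat_lit 39) (nat_lit 5) (nat_lit 40) (nat_lit 5) (nat_lit 396) (nat_lit 349) (nat_lit 155)) (XT.lf (nat_lit 0) (nat_lit 146369834764) (nat_lit 152) (nat_lit 3294321723) (nat_lit 228) (nat_lit 33665154416) (nat_lit 37) (nat_lit 5) (nat_lit 39) (nat_lit 5) (nat_lit 40) (nat_lit 5) (nat_lit 397) (nat_lit 349) (nat_lit 154))))) (XT.nd (nat_lit 234) (nat_lit 152) (nat_lit 0) (XT.nd (nat_lit 78) (nat_lit 152) (nat_lit 0) (XT.lf (nat_lit 0) (nat_lit 6284021381) (nat_lit 152) (nat_lit 131216750088) (nat_lit 76) (nat_lit 52200587736) (nat_lit 35) (nat_lit 5) (nat_lit 37) (nat_lit 5) (nat_lit 36) (nat_lit 5) (nat_lit 398) (nat_lit 349) (nat_lit 153)) (XT.nd (nat_lit 78) (nat_lit 152) (nat_lit 0) (XT.lf (nat_lit 0) (nat_lit 47789085887) (nat_lit 152) (nat_lit 36993507404) (nat_lit 76) (nat_lit 111547332369) (nat_lit 35) (nat_lit 5) (nat_lit 37) (nat_lit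 5) (nat_lit 36) (nat_lit 5) (nat_lit 399) (nat_lit 349) (nat_lit 152)) (XT.lf (nat_lit 0) (nat_lit 63988266446) (nat_lit 152) (nat_lit 28379798943) (nat_lit 228) (nat_lit 110871922077) (nat_lit 33) (nat_lit 5) (nat_lit 35) (nat_lit 5) (nat_lit 36) (nat_lit 5) (nat_lit 400) (nat_lit 349) (nat_lit 151)))) (XT.nd (nat_lit 78) (nat_lit 152) (nat_lit 0) (XT.lf (nat_lit 0) (nat_lit 140293944162) (nat_lit 228) (nat_lit 39653244143) (nat_lit 76) (nat_lit 30492466653) (nat_lit 33) (nat_lit 5) (nat_lit 36) (nat_lit 5) (nat_lit 34) (nat_lit 4) (nat_lit 401) (nat_lit 349) (nat_lit 150)) (XT.nd (nat_lit 78) (nat_lit 76) (nat_lit 0) (XT.lf (nat_lit 0) (nat_lit 66590601817) (nat_lit 76) (nat_lit 125530070272) (nat_lit 152) (nat_lit 25803406080) (nat_lit 32) (nat_lit 5) (nat_lit 33) (nat_lit 5) (nat_lit 34) (nat_lit 4) (nat_lit 402) (nat_lit 349) (nat_lit 149)) (XT.lf (nat_lit 0) (nat_lit 20773895757)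 (nat_lit 152) (nat_lit 46561531427) (nat_lit 76) (nat_lit 158396982276) (nat_lit 31) (nat_lit 5) (nat_lit 33) (nat_lit 5) (nat_lit 32) (nat_lit 5) (nat_lit 403) (nat_lit 349) (nat_lit 148)))))) (XT.nd (nat_lit 468) (nat_lit 304) (nat_lit 0) (XT.nd (nat_lit 234) (nat_lit 228) (nat_lit 0) (XT.nd (nat_lit 78) (nat_lit 76) (nat_lit 0) (XT.lf (nat_lit 0) (nat_lit 65109309666) (nat_lit 152) (nat_lit 4719793037) (nat_lit 228) (nat_lit 164030094189) (nat_lit 29) (nat_lit 5) (nat_lit 31) (nat_lit 5) (nat_lit 32) (nat_lit 5) (nat_lit 404) (nat_lit 349) (nat_lit 147)) (XT.nd (nat_lit 78) (nat_lit 76) (nat_lit 0) (XT.lf (nat_lit 0) (nat_lit 123091003143) (nat_lit 228) (nat_lit 59339017790) (nat_lit 76) (nat_lit 59874606191) (nat_lit 29) (nat_lit 5) (nat_lit 32) (nat_lit 5) (nat_lit 30) (nat_lit 4) (nat_lit 405) (nat_lit 349) (nat_lit 146)) (XT.lf (nat_lit 0) (nat_lit 57298353547) (nat_lit 76) (nat_lit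 122689289977) (nat_lit 152) (nat_lit 71136103180) (nat_lit 28) (nat_lit 5) (nat_lit 29) (nat_lit 5) (nat_lit 30) (nat_lit 4) (nat_lit 406) (nat_lit 349) (nat_lit 145)))) (XT.nd (nat_lit 78) (nat_lit 228) (nat_lit 0) (XT.lf (nat_lit 0) (nat_lit 181827146338) (nat_lit 76) (nat_lit 58906594223) (nat_lit 152) (nat_lit 19599850548) (nat_lit 28) (nat_lit 5) (nat_lit 29) (nat_lit 5) (nat_lit 30) (nat_lit 4) (nat_lit 407) (nat_lit 349) (nat_lit 144)) (XT.nd (nat_lit 78) (nat_lit 0) (nat_lit 0) (XT.lf (nat_lit 0) (nat_lit 34232191344) (nat_lit 228) (nat_lit 226659907099) (nat_lit 76) (nat_lit 9043706210) (nat_lit 25) (nat_lit 5) (nat_lit 28) (nat_lit 5) (nat_lit 26) (nat_lit 4) (nat_lit 408) (nat_lit 349) (nat_lit 143)) (XT.lf (nat_lit 0) (nat_lit 92413875768) (nat_lit 228) (nat_lit 107388064016) (nat_lit 76) (nat_lit 80084287511) (nat_lit 25) (nat_lit 5) (nat_lit 28) (nat_lit 5) (nat_lit 26) (nat_lit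 4) (nat_lit 409) (nat_lit 349) (nat_lit 142))))) (XT.nd (nat_lit 234) (nat_lit 228) (nat_lit 0) (XT.nd (nat_lit 78) (nat_lit 0) (nat_lit 0) (XT.lf (nat_lit 0) (nat_lit 18436945622) (nat_lit 76) (nat_lit 135355267013) (nat_lit 152) (nat_lit 136527580086) (nat_lit 24) (nat_lit 5) (nat_lit 25) (nat_lit 5) (nat_lit 26) (nat_lit 4) (nat_lit 410) (nat_lit 349) (nat_lit 141)) (XT.nd (nat_lit 78) (nat_lit 0) (nat_lit 0) (XT.lf (nat_lit 0) (nat_lit 154280962273) (nat_lit 76) (nat_lit 65776894229) (nat_lit 152) (nat_lit 81126260471) (nat_lit 24) (nat_lit 5) (nat_lit 25) (nat_lit 5) (nat_lit 26) (nat_lit 4) (nat_lit 411) (nat_lit 349) (nat_lit 140)) (XT.lf (nat_lit 0) (nat_lit 289750181058) (nat_lit 152) (nat_lit 15788644968) (nat_lit 0) (nat_lit 7047161546) (nat_lit 24) (nat_lit 5) (nat_lit 26) (nat_lit 4) (nat_lit 24) (nat_lit 4) (nat_lit 412) (nat_lit 349) (nat_lit 139)))) (XT.nd (nat_lit 78) (nat_lit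 76) (nat_lit 0) (XT.lf (nat_lit 0) (nat_lit 40217217513) (nat_lit 152) (nat_lit 200258201548) (nat_lit 76) (nat_lit 83898775156) (nat_lit 22) (nat_lit 5) (nat_lit 24) (nat_lit 5) (nat_lit 23) (nat_lit 4) (nat_lit 413) (nat_lit 349) (nat_lit 138)) (XT.nd (nat_lit 78) (nat_lit 76) (nat_lit 0) (XT.lf (nat_lit 0) (nat_lit 105926976269) (nat_lit 152) (nat_lit 65553651280) (nat_lit 76) (nat_lit 165238890003) (nat_lit 22) (nat_lit 5) (nat_lit 24) (nat_lit 5) (nat_lit 23) (nat_lit 4) (nat_lit 414) (nat_lit 349) (nat_lit 137)) (XT.lf (nat_lit 0) (nat_lit 78394795351) (nat_lit 76) (nat_lit 97751146839) (nat_lit 152) (nat_lit 173474978952) (nat_lit 21) (nat_lit 5) (nat_lit 22) (nat_lit 5) (nat_lit 23) (nat_lit 4) (nat_lit 415) (nat_lit 349) (nat_lit 136))))))) (XT.nd (nat_lit 936) (nat_lit 76) (nat_lit 0) (XT.nd (nat_lit 468) (nat_lit 228) (nat_lit 0) (XT.nd (nat_lit 234) (nat_lit 76) (nat_lit 0)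 (XT.nd (nat_lit 78) (nat_lit 152) (nat_lit 0) (XT.lf (nat_lit 0) (nat_lit 231816092204) (nat_lit 76) (nat_lit 19169708384) (nat_lit 152) (nat_lit 112126097159) (nat_lit 21) (nat_lit 5) (nat_lit 22) (nat_lit 5) (nat_lit 23) (nat_lit 4) (nat_lit 416) (nat_lit 349) (nat_lit 135)) (XT.nd (nat_lit 78) (nat_lit 76) (nat_lit 0) (XT.lf (nat_lit 0) (nat_lit 15125789107) (nat_lit 76) (nat_lit 315666715832) (nat_lit 76) (nat_lit 46423675636) (nat_lit 20) (nat_lit 4) (nat_lit 21) (nat_lit 5) (nat_lit 21) (nat_lit 4) (nat_lit 417) (nat_lit 349) (nat_lit 134)) (XT.lf (nat_lit 0) (nat_lit 24415719789) (nat_lit 152) (nat_lit 219191171273) (nat_lit 76) (nat_lit 148272470388) (nat_lit 19) (nat_lit 5) (nat_lit 21) (nat_lit 5) (nat_lit 20) (nat_lit 4) (nat_lit 418) (nat_lit 349) (nat_lit 133)))) (XT.nd (nat_lit 78) (nat_lit 76) (nat_lit 0) (XT.lf (nat_lit 0) (nat_lit 97236726212) (nat_lit 152) (nat_lit 69908447769)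 (nat_lit 76) (nat_lit 240092486174) (nat_lit 19) (nat_lit 5) (nat_lit 21) (nat_lit 5) (nat_lit 20) (nat_lit 4) (nat_lit 419) (nat_lit 349) (nat_lit 132)) (XT.nd (nat_lit 78) (nat_lit 0) (nat_lit 0) (XT.lf (nat_lit 0) (nat_lit 89709274817) (nat_lit 76) (nat_lit 85389912895) (nat_lit 152) (nat_lit 248194665882) (nat_lit 18) (nat_lit 5) (nat_lit 19) (nat_lit 5) (nat_lit 20) (nat_lit 4) (nat_lit 420) (nat_lit 349) (nat_lit 131)) (XT.lf (nat_lit 0) (nat_lit 258064981335) (nat_lit 152) (nat_lit 180385591311) (nat_lit 0) (nat_lit 1641773641) (nat_lit 18) (nat_lit 5) (nat_lit 20) (nat_lit 4) (nat_lit 18) (nat_lit 4) (nat_lit 421) (nat_lit 349) (nat_lit 130))))) (XT.nd (nat_lit 234) (nat_lit 76) (nat_lit 0) (XT.nd (nat_lit 78) (nat_lit 152) (nat_lit 0) (XT.lf (nat_lit 0) (nat_lit 346578701731) (nat_lit 152) (nat_lit 20926865467) (nat_lit 0) (nat_lit 90155214595) (nat_lit 18) (nat_lit 5) (nat_lit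 20) (nat_lit 4) (nat_lit 18) (nat_lit 4) (nat_lit 422) (nat_lit 349) (nat_lit 129)) (XT.nd (nat_lit 78) (nat_lit 76) (nat_lit 0) (XT.lf (nat_lit 0) (nat_lit 151348536592) (nat_lit 76) (nat_lit 290532358225) (nat_lit 76) (nat_lit 34108604954) (nat_lit 17) (nat_lit 4) (nat_lit 18) (nat_lit 5) (nat_lit 18) (nat_lit 4) (nat_lit 423) (nat_lit 349) (nat_lit 128)) (XT.lf (nat_lit 0) (nat_lit 45578447567) (nat_lit 152) (nat_lit 162988189220) (nat_lit 76) (nat_lit 286613548983) (nat_lit 16) (nat_lit 5) (nat_lit 18) (nat_lit 5) (nat_lit 17) (nat_lit 4) (nat_lit 424) (nat_lit 349) (nat_lit 127)))) (XT.nd (nat_lit 78) (nat_lit 0) (nat_lit 0) (XT.lf (nat_lit 0) (nat_lit 6392318283) (nat_lit 76) (nat_lit 121810884842) (nat_lit 152) (nat_lit 387094263937) (nat_lit 15) (nat_lit 5) (nat_lit 16) (nat_lit 5) (nat_lit 17) (nat_lit 4) (nat_lit 425) (nat_lit 349) (nat_lit 126)) (XT.nd (nat_lit 78) (nat_lit 0)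 (nat_lit 0) (XT.lf (nat_lit 0) (nat_lit 189900096766) (nat_lit 76) (nat_lit 27819208008) (nat_lit 152) (nat_lit 318563302255) (nat_lit 15) (nat_lit 5) (nat_lit 16) (nat_lit 5) (nat_lit 17) (nat_lit 4) (nat_lit 426) (nat_lit 349) (nat_lit 125)) (XT.lf (nat_lit 0) (nat_lit 312817553298) (nat_lit 152) (nat_lit 176840577451) (nat_lit 0) (nat_lit 68603556181) (nat_lit 15) (nat_lit 5) (nat_lit 17) (nat_lit 4) (nat_lit 15) (nat_lit 4) (nat_lit 427) (nat_lit 349) (nat_lit 124)))))) (XT.nd (nat_lit 41106) (nat_lit 0) (nat_lit 7144) (XT.nd (nat_lit 40872) (nat_lit 0) (nat_lit 6992) (XT.nd (nat_lit 78) (nat_lit 0) (nat_lit 0) (XT.lf (nat_lit 0) (nat_lit 745964193) (nat_lit 76) (nat_lit 412392287741) (nat_lit 76) (nat_lit 168178092029) (nat_lit 14) (nat_lit 4) (nat_lit 15) (nat_lit 5) (nat_lit 15) (nat_lit 4) (nat_lit 428) (nat_lit 349) (nat_lit 123)) (XT.nd (nat_lit 40716) (nat_lit 0) (nat_lit 6992)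 (XT.lf (nat_lit 0) (nat_lit 193351032733) (nat_lit 76) (nat_lit 328118674939) (nat_lit 76) (nat_lit 83904290091) (nat_lit 14) (nat_lit 4) (nat_lit 15) (nat_lit 5) (nat_lit 15) (nat_lit 4) (nat_lit 429) (nat_lit 349) (nat_lit 122)) (XT.lf (nat_lit 0) (nat_lit 3818479578) (nat_lit 836) (nat_lit 9770053389) (nat_lit 836) (nat_lit 9770053389) (nat_lit 106) (nat_lit 3) (nat_lit 117) (nat_lit 3) (nat_lit 117) (nat_lit 5) (nat_lit 350) (nat_lit 350) (nat_lit 200)))) (XT.nd (nat_lit 78) (nat_lit 0) (nat_lit 76) (XT.lf (nat_lit 76) (nat_lit 2873088247) (nat_lit 0) (nat_lit 5028759981) (nat_lit 836) (nat_lit 39979530322) (nat_lit 107) (nat_lit 5) (nat_lit 106) (nat_lit 3) (nat_lit 117) (nat_lit 5) (nat_lit 351) (nat_lit 350) (nat_lit 199)) (XT.nd (nat_lit 78) (nat_lit 0) (nat_lit 0) (XT.lf (nat_lit 0) (nat_lit 8799036274) (nat_lit 760) (nat_lit 22293036613) (nat_lit 836) (nat_lit 17980770681) (nat_lit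 107) (nat_lit 5) (nat_lit 117) (nat_lit 5) (nat_lit 118) (nat_lit 5) (nat_lit 352) (nat_lit 350) (nat_lit 198)) (XT.lf (nat_lit 76) (nat_lit 1523226680) (nat_lit 0) (nat_lit 8322300872) (nat_lit 836) (nat_lit 40473133630) (nat_lit 108) (nat_lit 5) (nat_lit 107) (nat_lit 5) (nat_lit 118) (nat_lit 5) (nat_lit 353) (nat_lit 350) (nat_lit 197))))) (XT.nd (nat_lit 234) (nat_lit 0) (nat_lit 76) (XT.nd (nat_lit 78) (nat_lit 0) (nat_lit 0) (XT.lf (nat_lit 0) (nat_lit 11569718304) (nat_lit 760) (nat_lit 24554302344) (nat_lit 836) (nat_lit 15471481748) (nat_lit 108) (nat_lit 5) (nat_lit 118) (nat_lit 5) (nat_lit 119) (nat_lit 5) (nat_lit 354) (nat_lit 350) (nat_lit 196)) (XT.nd (nat_lit 78) (nat_lit 0) (nat_lit 76) (XT.lf (nat_lit 76) (nat_lit 786536858) (nat_lit 0) (nat_lit 12740675608) (nat_lit 836) (nat_lit 39401619907) (nat_lit 109) (nat_lit 5) (nat_lit 108) (nat_lit 5) (nat_lit 119) (nat_lit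 5) (nat_lit 355) (nat_lit 350) (nat_lit 195)) (XT.lf (nat_lit 0) (nat_lit 16188103663) (nat_lit 760) (nat_lit 26253543437) (nat_lit 836) (nat_lit 11856906960) (nat_lit 109) (nat_lit 5) (nat_lit 119) (nat_lit 5) (nat_lit 120) (nat_lit 5) (nat_lit 356) (nat_lit 350) (nat_lit 194)))) (XT.nd (nat_lit 156) (nat_lit 0) (nat_lit 76) (XT.nd (nat_lit 78) (nat_lit 0) (nat_lit 76) (XT.lf (nat_lit 76) (nat_lit 743472191) (nat_lit 0) (nat_lit 18457562666) (nat_lit 836) (nat_lit 36524778469) (nat_lit 110) (nat_lit 5) (nat_lit 109) (nat_lit 5) (nat_lit 120) (nat_lit 5) (nat_lit 357) (nat_lit 350) (nat_lit 193)) (XT.lf (nat_lit 0) (nat_lit 22920108015) (nat_lit 760) (nat_lit 27313864584) (nat_lit 836) (nat_lit 6962689390) (nat_lit 110) (nat_lit 5) (nat_lit 120) (nat_lit 5) (nat_lit 121) (nat_lit 5) (nat_lit 358) (nat_lit 350) (nat_lit 192))) (XT.nd (nat_lit 78) (nat_lit 0) (nat_lit 76) (XT.lf (nat_lit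 76) (nat_lit 1481768183) (nat_lit 0) (nat_lit 25667734401) (nat_lit 836) (nat_lit 31575333260) (nat_lit 111) (nat_lit 5) (nat_lit 110) (nat_lit 5) (nat_lit 121) (nat_lit 5) (nat_lit 359) (nat_lit 350) (nat_lit 191)) (XT.lf (nat_lit 0) (nat_lit 32061204221) (nat_lit 760) (nat_lit 27651556590) (nat_lit 76) (nat_lit 593116809) (nat_lit 111) (nat_lit 5) (nat_lit 121) (nat_lit 5) (nat_lit 112) (nat_lit 5) (nat_lit 360) (nat_lit 350) (nat_lit 190))))))))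
noncomputable def xc213 : XT := (XT.nd (nat_lit 1950) (nat_lit 2204) (nat_lit 0) (XT.nd (nat_lit 936) (nat_lit 1824) (nat_lit 0) (XT.nd (nat_lit 468) (nat_lit 988) (nat_lit 0) (XT.nd (nat_lit 234) (nat_lit 380) (nat_lit 0) (XT.nd (nat_lit 78) (nat_lit 380) (nat_lit 0) (XT.lf (nat_lit 0) (nat_lit 3096756339) (nat_lit 760) (nat_lit 34589628751) (nat_lit 836) (nat_lit 24256192727) (nat_lit 101) (nat_lit 5) (nat_lit 111) (nat_lit 5) (nat_lit 112) (nat_lit 5) (nat_lit 361) (nat_lit 350) (nat_lit 189)) (XT.nd (nat_lit 78) (nat_lit 380) (nat_lit 0) (XT.lf (nat_lit 0) (nat_lit 36341395665) (nat_lit 760) (nat_lit 7718526328) (nat_lit 836) (nat_lit 19577837173) (nat_lit 101) (nat_lit 5) (nat_lit 111) (nat_lit 5) (nat_lit 112) (nat_lit 5) (nat_lit 362) (nat_lit 350) (nat_lit 188)) (XT.lf (nat_lit 0) (nat_lit 5691636781) (nat_lit 380) (nat_lit 45468226423) (nat_lit 456) (nat_lit 14237450949) (nat_lit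 96) (nat_lit 5) (nat_lit 101) (nat_lit 5) (nat_lit 102) (nat_lit 5) (nat_lit 363) (nat_lit 350) (nat_lit 187)))) (XT.nd (nat_lit 78) (nat_lit 380) (nat_lit 0) (XT.lf (nat_lit 0) (nat_lit 41144909425) (nat_lit 380) (nat_lit 18055561849) (nat_lit 456) (nat_lit 8015093026) (nat_lit 96) (nat_lit 5) (nat_lit 101) (nat_lit 5) (nat_lit 102) (nat_lit 5) (nat_lit 364) (nat_lit 350) (nat_lit 186)) (XT.nd (nat_lit 78) (nat_lit 76) (nat_lit 0) (XT.lf (nat_lit 0) (nat_lit 9377692507) (nat_lit 304) (nat_lit 58578272314) (nat_lit 380) (nat_lit 1153120235) (nat_lit 92) (nat_lit 5) (nat_lit 96) (nat_lit 5) (nat_lit 97) (nat_lit 5) (nat_lit 365) (nat_lit 350) (nat_lit 185)) (XT.lf (nat_lit 0) (nat_lit 6601969787) (nat_lit 380) (nat_lit 23970451501) (nat_lit 76) (nat_lit 40482951001) (nat_lit 91) (nat_lit 5) (nat_lit 96) (nat_lit 5) (nat_lit 92) (nat_lit 5) (nat_lit 366) (nat_lit 350) (nat_lit 184))))) (XT.nd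 (nat_lit 234) (nat_lit 304) (nat_lit 0) (XT.nd (nat_lit 78) (nat_lit 304) (nat_lit 0) (XT.lf (nat_lit 0) (nat_lit 14006895028) (nat_lit 380) (nat_lit 916871706) (nat_lit 456) (nat_lit 58163377469) (nat_lit 86) (nat_lit 5) (nat_lit 91) (nat_lit 5) (nat_lit 92) (nat_lit 5) (nat_lit 367) (nat_lit 350) (nat_lit 183)) (XT.nd (nat_lit 78) (nat_lit 304) (nat_lit 0) (XT.lf (nat_lit 0) (nat_lit 24545148694) (nat_lit 456) (nat_lit 20964471130) (nat_lit 76) (nat_lit 29666710833) (nat_lit 86) (nat_lit 5) (nat_lit 92) (nat_lit 5) (nat_lit 87) (nat_lit 5) (nat_lit 368) (nat_lit 350) (nat_lit 182)) (XT.lf (nat_lit 0) (nat_lit 19670622899) (nat_lit 304) (nat_lit 15298213866) (nat_lit 380) (nat_lit 42385078491) (nat_lit 82) (nat_lit 5) (nat_lit 86) (nat_lit 5) (nat_lit 87) (nat_lit 5) (nat_lit 369) (nat_lit 350) (nat_lit 181)))) (XT.nd (nat_lit 78) (nat_lit 304) (nat_lit 0) (XT.lf (nat_lit 0) (nat_lit 46530112273)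 (nat_lit 380) (nat_lit 16820608621) (nat_lit 76) (nat_lit 16258838677) (nat_lit 82) (nat_lit 5) (nat_lit 87) (nat_lit 5) (nat_lit 83) (nat_lit 5) (nat_lit 370) (nat_lit 350) (nat_lit 180)) (XT.nd (nat_lit 78) (nat_lit 0) (nat_lit 0) (XT.lf (nat_lit 0) (nat_lit 26687587327) (nat_lit 304) (nat_lit 32648482865) (nat_lit 380) (nat_lit 22608585588) (nat_lit 78) (nat_lit 5) (nat_lit 82) (nat_lit 5) (nat_lit 83) (nat_lit 5) (nat_lit 371) (nat_lit 350) (nat_lit 179)) (XT.lf (nat_lit 0) (nat_lit 72954181725) (nat_lit 304) (nat_lit 112194256) (nat_lit 380) (nat_lit 11315928898) (nat_lit 78) (nat_lit 5) (nat_lit 82) (nat_lit 5) (nat_lit 83) (nat_lit 5) (nat_lit 372) (nat_lit 350) (nat_lit 178)))))) (XT.nd (nat_lit 468) (nat_lit 760) (nat_lit 0) (XT.nd (nat_lit 234) (nat_lit 456) (nat_lit 0) (XT.nd (nat_lit 78) (nat_lit 304) (nat_lit 0) (XT.lf (nat_lit 0) (nat_lit 1621942040) (nat_lit 304) (nat_lit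 51728156533) (nat_lit 76) (nat_lit 33536420361) (nat_lit 74) (nat_lit 5) (nat_lit 78) (nat_lit 5) (nat_lit 75) (nat_lit 5) (nat_lit 373) (nat_lit 350) (nat_lit 177)) (XT.nd (nat_lit 78) (nat_lit 304) (nat_lit 0) (XT.lf (nat_lit 0) (nat_lit 15024200280) (nat_lit 304) (nat_lit 5226839938) (nat_lit 76) (nat_lit 69245739466) (nat_lit 74) (nat_lit 5) (nat_lit 78) (nat_lit 5) (nat_lit 75) (nat_lit 5) (nat_lit 374) (nat_lit 350) (nat_lit 176)) (XT.lf (nat_lit 0) (nat_lit 30036998444) (nat_lit 380) (nat_lit 47400216097) (nat_lit 76) (nat_lit 14753318055) (nat_lit 70) (nat_lit 5) (nat_lit 75) (nat_lit 5) (nat_lit 71) (nat_lit 5) (nat_lit 375) (nat_lit 350) (nat_lit 175)))) (XT.nd (nat_lit 78) (nat_lit 228) (nat_lit 0) (XT.lf (nat_lit 0) (nat_lit 2211642796) (nat_lit 228) (nat_lit 44044562306) (nat_lit 304) (nat_lit 48739980078) (nat_lit 67) (nat_lit 5) (nat_lit 70) (nat_lit 5) (nat_lit 71) (nat_lit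 5) (nat_lit 376) (nat_lit 350) (nat_lit 174)) (XT.nd (nat_lit 78) (nat_lit 228) (nat_lit 0) (XT.lf (nat_lit 0) (nat_lit 55948782696) (nat_lit 228) (nat_lit 8139638578) (nat_lit 304) (nat_lit 33813597092) (nat_lit 67) (nat_lit 5) (nat_lit 70) (nat_lit 5) (nat_lit 71) (nat_lit 5) (nat_lit 377) (nat_lit 350) (nat_lit 173)) (XT.lf (nat_lit 0) (nat_lit 11319482189) (nat_lit 228) (nat_lit 72130350763) (nat_lit 304) (nat_lit 17471431436) (nat_lit 64) (nat_lit 5) (nat_lit 67) (nat_lit 5) (nat_lit 68) (nat_lit 5) (nat_lit 378) (nat_lit 350) (nat_lit 172))))) (XT.nd (nat_lit 234) (nat_lit 456) (nat_lit 0) (XT.nd (nat_lit 78) (nat_lit 228) (nat_lit 0) (XT.lf (nat_lit 0) (nat_lit 552755683) (nat_lit 304) (nat_lit 35484733655) (nat_lit 76) (nat_lit 68011481320) (nat_lit 63) (nat_lit 5) (nat_lit 67) (nat_lit 5) (nat_lit 64) (nat_lit 5) (nat_lit 379) (nat_lit 350) (nat_lit 171)) (XT.nd (nat_lit 78) (nat_lit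 0) (nat_lit 0) (XT.lf (nat_lit 0) (nat_lit 19269196032) (nat_lit 304) (nat_lit 85594195579) (nat_lit 76) (nat_lit 2436440215) (nat_lit 60) (nat_lit 5) (nat_lit 64) (nat_lit 5) (nat_lit 61) (nat_lit 5) (nat_lit 380) (nat_lit 350) (nat_lit 170)) (XT.lf (nat_lit 0) (nat_lit 40122423003) (nat_lit 304) (nat_lit 28297245185) (nat_lit 76) (nat_lit 42233519971) (nat_lit 60) (nat_lit 5) (nat_lit 64) (nat_lit 5) (nat_lit 61) (nat_lit 5) (nat_lit 381) (nat_lit 350) (nat_lit 169)))) (XT.nd (nat_lit 156) (nat_lit 228) (nat_lit 0) (XT.nd (nat_lit 78) (nat_lit 0) (nat_lit 0) (XT.lf (nat_lit 0) (nat_lit 32917252287) (nat_lit 228) (nat_lit 29614402260) (nat_lit 304) (nat_lit 51616890924) (nat_lit 57) (nat_lit 5) (nat_lit 60) (nat_lit 5) (nat_lit 61) (nat_lit 5) (nat_lit 382) (nat_lit 350) (nat_lit 168)) (XT.lf (nat_lit 0) (nat_lit 86721642696) (nat_lit 304) (nat_lit 19802331397) (nat_lit 76) (nat_lit 11261682112)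 (nat_lit 57) (nat_lit 5) (nat_lit 61) (nat_lit 5) (nat_lit 58) (nat_lit 5) (nat_lit 383) (nat_lit 350) (nat_lit 167))) (XT.nd (nat_lit 78) (nat_lit 76) (nat_lit 0) (XT.lf (nat_lit 0) (nat_lit 45673609661) (nat_lit 152) (nat_lit 67645546319) (nat_lit 228) (nat_lit 8225565503) (nat_lit 55) (nat_lit 5) (nat_lit 57) (nat_lit 5) (nat_lit 58) (nat_lit 5) (nat_lit 384) (nat_lit 350) (nat_lit 166)) (XT.lf (nat_lit 0) (nat_lit 15590867628) (nat_lit 228) (nat_lit 10616438809) (nat_lit 76) (nat_lit 99255119277) (nat_lit 54) (nat_lit 5) (nat_lit 57) (nat_lit 5) (nat_lit 55) (nat_lit 5) (nat_lit 385) (nat_lit 350) (nat_lit 165))))))) (XT.nd (nat_lit 936) (nat_lit 912) (nat_lit 0) (XT.nd (nat_lit 468) (nat_lit 532) (nat_lit 0) (XT.nd (nat_lit 234) (nat_lit 380) (nat_lit 0) (XT.nd (nat_lit 78) (nat_lit 152) (nat_lit 0) (XT.lf (nat_lit 0) (nat_lit 41540495324) (nat_lit 304) (nat_lit 70135027770) (nat_lit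 76) (nat_lit 17832809754) (nat_lit 51) (nat_lit 5) (nat_lit 55) (nat_lit 5) (nat_lit 52) (nat_lit 5) (nat_lit 386) (nat_lit 350) (nat_lit 164)) (XT.nd (nat_lit 78) (nat_lit 152) (nat_lit 0) (XT.lf (nat_lit 0) (nat_lit 69399463639) (nat_lit 304) (nat_lit 949807453) (nat_lit 76) (nat_lit 63376671528) (nat_lit 51) (nat_lit 5) (nat_lit 55) (nat_lit 5) (nat_lit 52) (nat_lit 5) (nat_lit 387) (nat_lit 350) (nat_lit 163)) (XT.lf (nat_lit 0) (nat_lit 74064435149) (nat_lit 152) (nat_lit 25742812219) (nat_lit 228) (nat_lit 38289392391) (nat_lit 49) (nat_lit 5) (nat_lit 51) (nat_lit 5) (nat_lit 52) (nat_lit 5) (nat_lit 388) (nat_lit 350) (nat_lit 162)))) (XT.nd (nat_lit 78) (nat_lit 228) (nat_lit 0) (XT.lf (nat_lit 0) (nat_lit 10172511234) (nat_lit 152) (nat_lit 122066936315) (nat_lit 228) (nat_lit 10421223061) (nat_lit 47) (nat_lit 5) (nat_lit 49) (nat_lit 5) (nat_lit 50) (nat_lit 5) (nat_lit 389)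 (nat_lit 350) (nat_lit 161)) (XT.nd (nat_lit 78) (nat_lit 152) (nat_lit 0) (XT.lf (nat_lit 0) (nat_lit 19761076562) (nat_lit 228) (nat_lit 57822881189) (nat_lit 76) (nat_lit 69778051372) (nat_lit 46) (nat_lit 5) (nat_lit 49) (nat_lit 5) (nat_lit 47) (nat_lit 5) (nat_lit 390) (nat_lit 350) (nat_lit 160)) (XT.lf (nat_lit 0) (nat_lit 21078735149) (nat_lit 152) (nat_lit 30352179229) (nat_lit 228) (nat_lit 100842526155) (nat_lit 44) (nat_lit 5) (nat_lit 46) (nat_lit 5) (nat_lit 47) (nat_lit 5) (nat_lit 391) (nat_lit 350) (nat_lit 159))))) (XT.nd (nat_lit 234) (nat_lit 380) (nat_lit 0) (XT.nd (nat_lit 78) (nat_lit 152) (nat_lit 0) (XT.lf (nat_lit 0) (nat_lit 85979517226) (nat_lit 228) (nat_lit 51765773952) (nat_lit 76) (nat_lit 19620388858) (nat_lit 44) (nat_lit 5) (nat_lit 47) (nat_lit 5) (nat_lit 45) (nat_lit 5) (nat_lit 392) (nat_lit 350) (nat_lit 158)) (XT.nd (nat_lit 78) (nat_lit 0) (nat_lit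 0) (XT.lf (nat_lit 0) (nat_lit 32165826827) (nat_lit 152) (nat_lit 91089072492) (nat_lit 228) (nat_lit 39407664910) (nat_lit 42) (nat_lit 5) (nat_lit 44) (nat_lit 5) (nat_lit 45) (nat_lit 5) (nat_lit 393) (nat_lit 350) (nat_lit 157)) (XT.lf (nat_lit 0) (nat_lit 122090501992) (nat_lit 152) (nat_lit 41179810078) (nat_lit 228) (nat_lit 4910167649) (nat_lit 42) (nat_lit 5) (nat_lit 44) (nat_lit 5) (nat_lit 45) (nat_lit 5) (nat_lit 394) (nat_lit 350) (nat_lit 156)))) (XT.nd (nat_lit 78) (nat_lit 152) (nat_lit 0) (XT.lf (nat_lit 0) (nat_lit 31182181562) (nat_lit 228) (nat_lit 130672484121) (nat_lit 76) (nat_lit 12051573724) (nat_lit 39) (nat_lit 5) (nat_lit 42) (nat_lit 5) (nat_lit 40) (nat_lit 5) (nat_lit 395) (nat_lit 350) (nat_lit 155)) (XT.nd (nat_lit 78) (nat_lit 152) (nat_lit 0) (XT.lf (nat_lit 0) (nat_lit 70382166242) (nat_lit 228) (nat_lit 42024495285) (nat_lit 76) (nat_lit 67434199375)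 (nat_lit 39) (nat_lit 5) (nat_lit 42) (nat_lit 5) (nat_lit 40) (nat_lit 5) (nat_lit 396) (nat_lit 350) (nat_lit 154)) (XT.lf (nat_lit 0) (nat_lit 52743360877) (nat_lit 152) (nat_lit 59621880871) (nat_lit 228) (nat_lit 73665817278) (nat_lit 37) (nat_lit 5) (nat_lit 39) (nat_lit 5) (nat_lit 40) (nat_lit 5) (nat_lit 397) (nat_lit 350) (nat_lit 153)))))) (XT.nd (nat_lit 468) (nat_lit 532) (nat_lit 0) (XT.nd (nat_lit 234) (nat_lit 228) (nat_lit 0) (XT.nd (nat_lit 78) (nat_lit 152) (nat_lit 0) (XT.lf (nat_lit 0) (nat_lit 153707966847) (nat_lit 152) (nat_lit 3450837388) (nat_lit 228) (nat_lit 35336396289) (nat_lit 37) (nat_lit 5) (nat_lit 39) (nat_lit 5) (nat_lit 40) (nat_lit 5) (nat_lit 398) (nat_lit 350) (nat_lit 152)) (XT.nd (nat_lit 78) (nat_lit 0) (nat_lit 0) (XT.lf (nat_lit 0) (nat_lit 6609737413) (nat_lit 152) (nat_lit 137757439059) (nat_lit 76) (nat_lit 54818671381) (nat_lit 35) (nat_lit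 5) (nat_lit 37) (nat_lit 5) (nat_lit 36) (nat_lit 5) (nat_lit 399) (nat_lit 350) (nat_lit 151)) (XT.lf (nat_lit 0) (nat_lit 50189506814) (nat_lit 152) (nat_lit 38823993695) (nat_lit 76) (nat_lit 117132369710) (nat_lit 35) (nat_lit 5) (nat_lit 37) (nat_lit 5) (nat_lit 36) (nat_lit 5) (nat_lit 400) (nat_lit 350) (nat_lit 150)))) (XT.nd (nat_lit 78) (nat_lit 76) (nat_lit 0) (XT.lf (nat_lit 0) (nat_lit 67206559347) (nat_lit 152) (nat_lit 29790648486) (nat_lit 228) (nat_lit 116404238816) (nat_lit 33) (nat_lit 5) (nat_lit 35) (nat_lit 5) (nat_lit 36) (nat_lit 5) (nat_lit 401) (nat_lit 350) (nat_lit 149)) (XT.nd (nat_lit 78) (nat_lit 76) (nat_lit 0) (XT.lf (nat_lit 0) (nat_lit 147318990198) (nat_lit 228) (nat_lit 41617532374) (nat_lit 76) (nat_lit 32024594614) (nat_lit 33) (nat_lit 5) (nat_lit 36) (nat_lit 5) (nat_lit 34) (nat_lit 4) (nat_lit 402) (nat_lit 350) (nat_lit 148)) (XT.lf (nat_lit 0)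 (nat_lit 69938209529) (nat_lit 76) (nat_lit 131798634433) (nat_lit 152) (nat_lit 27082928271) (nat_lit 32) (nat_lit 5) (nat_lit 33) (nat_lit 5) (nat_lit 34) (nat_lit 4) (nat_lit 403) (nat_lit 350) (nat_lit 147))))) (XT.nd (nat_lit 234) (nat_lit 304) (nat_lit 0) (XT.nd (nat_lit 78) (nat_lit 152) (nat_lit 0) (XT.lf (nat_lit 0) (nat_lit 21822407028) (nat_lit 152) (nat_lit 48872063981) (nat_lit 76) (nat_lit 166324065442) (nat_lit 31) (nat_lit 5) (nat_lit 33) (nat_lit 5) (nat_lit 32) (nat_lit 5) (nat_lit 404) (nat_lit 350) (nat_lit 146)) (XT.nd (nat_lit 78) (nat_lit 0) (nat_lit 0) (XT.lf (nat_lit 0) (nat_lit 68382036199) (nat_lit 152) (nat_lit 4948140164) (nat_lit 228) (nat_lit 172221496915) (nat_lit 29) (nat_lit 5) (nat_lit 31) (nat_lit 5) (nat_lit 32) (nat_lit 5) (nat_lit 405) (nat_lit 350) (nat_lit 145)) (XT.lf (nat_lit 0) (nat_lit 129254827440) (nat_lit 228) (nat_lit 62289182787) (nat_lit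 76) (nat_lit 62875382135) (nat_lit 29) (nat_lit 5) (nat_lit 32) (nat_lit 5) (nat_lit 30) (nat_lit 4) (nat_lit 406) (nat_lit 350) (nat_lit 144)))) (XT.nd (nat_lit 156) (nat_lit 228) (nat_lit 0) (XT.nd (nat_lit 78) (nat_lit 0) (nat_lit 0) (XT.lf (nat_lit 0) (nat_lit 60179786377) (nat_lit 76) (nat_lit 128816329684) (nat_lit 152) (nat_lit 74683361163) (nat_lit 28) (nat_lit 5) (nat_lit 29) (nat_lit 5) (nat_lit 30) (nat_lit 4) (nat_lit 407) (nat_lit 350) (nat_lit 143)) (XT.lf (nat_lit 0) (nat_lit 190934232371) (nat_lit 76) (nat_lit 61844852705) (nat_lit 152) (nat_lit 20570750527) (nat_lit 28) (nat_lit 5) (nat_lit 29) (nat_lit 5) (nat_lit 30) (nat_lit 4) (nat_lit 408) (nat_lit 350) (nat_lit 142))) (XT.nd (nat_lit 78) (nat_lit 0) (nat_lit 0) (XT.lf (nat_lit 0) (nat_lit 35952540828) (nat_lit 228) (nat_lit 237976817038) (nat_lit 76) (nat_lit 9502798041) (nat_lit 25) (nat_lit 5) (nat_lit 28) (nat_lit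 5) (nat_lit 26) (nat_lit 4) (nat_lit 409) (nat_lit 350) (nat_lit 141)) (XT.lf (nat_lit 0) (nat_lit 97042893287) (nat_lit 228) (nat_lit 112742147772) (nat_lit 76) (nat_lit 84095079525) (nat_lit 25) (nat_lit 5) (nat_lit 28) (nat_lit 5) (nat_lit 26) (nat_lit 4) (nat_lit 410) (nat_lit 350) (nat_lit 140))))))))
noncomputable def xc214 : XT := (XT.nd (nat_lit 42588) (nat_lit 0) (nat_lit 3724) (XT.nd (nat_lit 936) (nat_lit 304) (nat_lit 0) (XT.nd (nat_lit 468) (nat_lit 228) (nat_lit 0) (XT.nd (nat_lit 234) (nat_lit 228) (nat_lit 0) (XT.nd (nat_lit 78) (nat_lit 0) (nat_lit 0) (XT.lf (nat_lit 0) (nat_lit 19373865260) (nat_lit 76) (nat_lit 142116120691) (nat_lit 152) (nat_lit 143345386473) (nat_lit 24) (nat_lit 5) (nat_lit 25) (nat_lit 5) (nat_lit 26) (nat_lit 4) (nat_lit 411) (nat_lit 350) (nat_lit 139)) (XT.nd (nat_lit 78) (nat_lit 0) (nat_lit 0) (XT.lf (nat_lit 0) (nat_lit 162009365012) (nat_lit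 76) (nat_lit 69059158300) (nat_lit 152) (nat_lit 85174409098) (nat_lit 24) (nat_lit 5) (nat_lit 25) (nat_lit 5) (nat_lit 26) (nat_lit 4) (nat_lit 412) (nat_lit 350) (nat_lit 138)) (XT.lf (nat_lit 0) (nat_lit 304245191755) (nat_lit 152) (nat_lit 16564132172) (nat_lit 0) (nat_lit 7405586309) (nat_lit 24) (nat_lit 5) (nat_lit 26) (nat_lit 4) (nat_lit 24) (nat_lit 4) (nat_lit 413) (nat_lit 350) (nat_lit 137)))) (XT.nd (nat_lit 78) (nat_lit 76) (nat_lit 0) (XT.lf (nat_lit 0) (nat_lit 42235559160) (nat_lit 152) (nat_lit 210257142673) (nat_lit 76) (nat_lit 88099826576) (nat_lit 22) (nat_lit 5) (nat_lit 24) (nat_lit 5) (nat_lit 23) (nat_lit 4) (nat_lit 414) (nat_lit 350) (nat_lit 136)) (XT.nd (nat_lit 78) (nat_lit 76) (nat_lit 0) (XT.lf (nat_lit 0) (nat_lit 111230449626) (nat_lit 152) (nat_lit 68818030080) (nat_lit 76) (nat_lit 173506656087) (nat_lit 22) (nat_lit 5) (nat_lit 24) (nat_lit 5) (nat_lit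 23) (nat_lit 4) (nat_lit 415) (nat_lit 350) (nat_lit 135)) (XT.lf (nat_lit 0) (nat_lit 82327624306) (nat_lit 76) (nat_lit 102632604632) (nat_lit 152) (nat_lit 182141387436) (nat_lit 21) (nat_lit 5) (nat_lit 22) (nat_lit 5) (nat_lit 23) (nat_lit 4) (nat_lit 416) (nat_lit 350) (nat_lit 134))))) (XT.nd (nat_lit 234) (nat_lit 76) (nat_lit 0) (XT.nd (nat_lit 78) (nat_lit 152) (nat_lit 0) (XT.lf (nat_lit 0) (nat_lit 243419362707) (nat_lit 76) (nat_lit 20122384709) (nat_lit 152) (nat_lit 117725411100) (nat_lit 21) (nat_lit 5) (nat_lit 22) (nat_lit 5) (nat_lit 23) (nat_lit 4) (nat_lit 417) (nat_lit 350) (nat_lit 133)) (XT.nd (nat_lit 78) (nat_lit 76) (nat_lit 0) (XT.lf (nat_lit 0) (nat_lit 15894582889) (nat_lit 76) (nat_lit 331444168710) (nat_lit 76) (nat_lit 48737905716) (nat_lit 20) (nat_lit 4) (nat_lit 21) (nat_lit 5) (nat_lit 21) (nat_lit 4) (nat_lit 418) (nat_lit 350) (nat_lit 132)) (XT.lf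 (nat_lit 0) (nat_lit 25642916388) (nat_lit 152) (nat_lit 230138607886) (nat_lit 76) (nat_lit 155691483613) (nat_lit 19) (nat_lit 5) (nat_lit 21) (nat_lit 5) (nat_lit 20) (nat_lit 4) (nat_lit 419) (nat_lit 350) (nat_lit 131)))) (XT.nd (nat_lit 78) (nat_lit 76) (nat_lit 0) (XT.lf (nat_lit 0) (nat_lit 102104667865) (nat_lit 152) (nat_lit 73392325442) (nat_lit 76) (nat_lit 252102243536) (nat_lit 19) (nat_lit 5) (nat_lit 21) (nat_lit 5) (nat_lit 20) (nat_lit 4) (nat_lit 420) (nat_lit 350) (nat_lit 130)) (XT.nd (nat_lit 78) (nat_lit 0) (nat_lit 0) (XT.lf (nat_lit 0) (nat_lit 94206097068) (nat_lit 76) (nat_lit 89654041980) (nat_lit 152) (nat_lit 260598106627) (nat_lit 18) (nat_lit 5) (nat_lit 19) (nat_lit 5) (nat_lit 20) (nat_lit 4) (nat_lit 421) (nat_lit 350) (nat_lit 129)) (XT.lf (nat_lit 0) (nat_lit 270974016818) (nat_lit 152) (nat_lit 189393846760) (nat_lit 0) (nat_lit 1728809748) (nat_lit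 18) (nat_lit 5) (nat_lit 20) (nat_lit 4) (nat_lit 18) (nat_lit 4) (nat_lit 422) (nat_lit 350) (nat_lit 128)))))) (XT.nd (nat_lit 468) (nat_lit 76) (nat_lit 0) (XT.nd (nat_lit 234) (nat_lit 76) (nat_lit 0) (XT.nd (nat_lit 78) (nat_lit 152) (nat_lit 0) (XT.lf (nat_lit 0) (nat_lit 363913147690) (nat_lit 152) (nat_lit 21962709582) (nat_lit 0) (nat_lit 94667687158) (nat_lit 18) (nat_lit 5) (nat_lit 20) (nat_lit 4) (nat_lit 18) (nat_lit 4) (nat_lit 423) (nat_lit 350) (nat_lit 127)) (XT.nd (nat_lit 78) (nat_lit 76) (nat_lit 0) (XT.lf (nat_lit 0) (nat_lit 158926293239) (nat_lit 76) (nat_lit 305054056046) (nat_lit 76) (nat_lit 35808354122) (nat_lit 17) (nat_lit 4) (nat_lit 18) (nat_lit 5) (nat_lit 18) (nat_lit 4) (nat_lit 424) (nat_lit 350) (nat_lit 126)) (XT.lf (nat_lit 0) (nat_lit 47862607326) (nat_lit 152) (nat_lit 171127586803) (nat_lit 76) (nat_lit 300948738276) (nat_lit 16) (nat_lit 5) (nat_lit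 18) (nat_lit 5) (nat_lit 17) (nat_lit 4) (nat_lit 425) (nat_lit 350) (nat_lit 125)))) (XT.nd (nat_lit 78) (nat_lit 0) (nat_lit 0) (XT.lf (nat_lit 0) (nat_lit 6721784594) (nat_lit 76) (nat_lit 127896720462) (nat_lit 152) (nat_lit 406443577523) (nat_lit 15) (nat_lit 5) (nat_lit 16) (nat_lit 5) (nat_lit 17) (nat_lit 4) (nat_lit 426) (nat_lit 350) (nat_lit 124)) (XT.nd (nat_lit 78) (nat_lit 0) (nat_lit 0) (XT.lf (nat_lit 0) (nat_lit 199404482934) (nat_lit 76) (nat_lit 29205684006) (nat_lit 152) (nat_lit 334486324882) (nat_lit 15) (nat_lit 5) (nat_lit 16) (nat_lit 5) (nat_lit 17) (nat_lit 4) (nat_lit 427) (nat_lit 350) (nat_lit 123)) (XT.lf (nat_lit 0) (nat_lit 328463161383) (nat_lit 152) (nat_lit 185673504538) (nat_lit 0) (nat_lit 72037868155) (nat_lit 15) (nat_lit 5) (nat_lit 17) (nat_lit 4) (nat_lit 15) (nat_lit 4) (nat_lit 428) (nat_lit 350) (nat_lit 122))))) (XT.nd (nat_lit 40950) (nat_lit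 0) (nat_lit 7068) (XT.nd (nat_lit 40794) (nat_lit 0) (nat_lit 6992) (XT.lf (nat_lit 0) (nat_lit 792217385) (nat_lit 76) (nat_lit 433007592120) (nat_lit 76) (nat_lit 176582118762) (nat_lit 14) (nat_lit 4) (nat_lit 15) (nat_lit 5) (nat_lit 15) (nat_lit 4) (nat_lit 429) (nat_lit 350) (nat_lit 121)) (XT.nd (nat_lit 78) (nat_lit 0) (nat_lit 0) (XT.lf (nat_lit 0) (nat_lit 4038057232) (nat_lit 836) (nat_lit 10243500463) (nat_lit 836) (nat_lit 10243500463) (nat_lit 106) (nat_lit 3) (nat_lit 117) (nat_lit 3) (nat_lit 117) (nat_lit 5) (nat_lit 351) (nat_lit 351) (nat_lit 198)) (XT.lf (nat_lit 76) (nat_lit 3046368186) (nat_lit 0) (nat_lit 5305613419) (nat_lit 836) (nat_lit 41920666524) (nat_lit 107) (nat_lit 5) (nat_lit 106) (nat_lit 3) (nat_lit 117) (nat_lit 5) (nat_lit 352) (nat_lit 351) (nat_lit 197)))) (XT.nd (nat_lit 78) (nat_lit 0) (nat_lit 0) (XT.lf (nat_lit 0) (nat_lit 9291030144) (nat_lit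 760) (nat_lit 23376429698) (nat_lit 836) (nat_lit 18856378753) (nat_lit 107) (nat_lit 5) (nat_lit 117) (nat_lit 5) (nat_lit 118) (nat_lit 5) (nat_lit 353) (nat_lit 351) (nat_lit 196)) (XT.nd (nat_lit 78) (nat_lit 0) (nat_lit 76) (XT.lf (nat_lit 76) (nat_lit 1630142586) (nat_lit 0) (nat_lit 8757705372) (nat_lit 836) (nat_lit 42444201179) (nat_lit 108) (nat_lit 5) (nat_lit 107) (nat_lit 5) (nat_lit 118) (nat_lit 5) (nat_lit 354) (nat_lit 351) (nat_lit 195)) (XT.lf (nat_lit 0) (nat_lit 12195578377) (nat_lit 760) (nat_lit 25750016662) (nat_lit 836) (nat_lit 16227272909) (nat_lit 108) (nat_lit 5) (nat_lit 118) (nat_lit 5) (nat_lit 119) (nat_lit 5) (nat_lit 355) (nat_lit 351) (nat_lit 194))))))) (XT.nd (nat_lit 936) (nat_lit 2128) (nat_lit 0) (XT.nd (nat_lit 468) (nat_lit 1292) (nat_lit 0) (XT.nd (nat_lit 234) (nat_lit 0) (nat_lit 152) (XT.nd (nat_lit 78) (nat_lit 0) (nat_lit 76) (XT.lf (nat_lit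 76) (nat_lit 857348357) (nat_lit 0) (nat_lit 13391834541) (nat_lit 836) (nat_lit 41323771688) (nat_lit 109) (nat_lit 5) (nat_lit 108) (nat_lit 5) (nat_lit 119) (nat_lit 5) (nat_lit 356) (nat_lit 351) (nat_lit 193)) (XT.nd (nat_lit 78) (nat_lit 0) (nat_lit 0) (XT.lf (nat_lit 0) (nat_lit 17040736728) (nat_lit 760) (nat_lit 27533816233) (nat_lit 836) (nat_lit 12436730346) (nat_lit 109) (nat_lit 5) (nat_lit 119) (nat_lit 5) (nat_lit 120) (nat_lit 5) (nat_lit 357) (nat_lit 351) (nat_lit 192)) (XT.lf (nat_lit 76) (nat_lit 812527525) (nat_lit 0) (nat_lit 19390226249) (nat_lit 836) (nat_lit 38307231562) (nat_lit 110) (nat_lit 5) (nat_lit 109) (nat_lit 5) (nat_lit 120) (nat_lit 5) (nat_lit 358) (nat_lit 351) (nat_lit 191)))) (XT.nd (nat_lit 78) (nat_lit 0) (nat_lit 0) (XT.lf (nat_lit 0) (nat_lit 24105650936) (nat_lit 760) (nat_lit 28647030996) (nat_lit 836) (nat_lit 7301802665) (nat_lit 110) (nat_lit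 5) (nat_lit 120) (nat_lit 5) (nat_lit 121) (nat_lit 5) (nat_lit 359) (nat_lit 351) (nat_lit 190)) (XT.nd (nat_lit 78) (nat_lit 0) (nat_lit 76) (XT.lf (nat_lit 76) (nat_lit 1587858784) (nat_lit 0) (nat_lit 26957273355) (nat_lit 836) (nat_lit 33114005762) (nat_lit 111) (nat_lit 5) (nat_lit 110) (nat_lit 5) (nat_lit 121) (nat_lit 5) (nat_lit 360) (nat_lit 351) (nat_lit 189)) (XT.lf (nat_lit 0) (nat_lit 33700510500) (nat_lit 760) (nat_lit 29001717295) (nat_lit 76) (nat_lit 617100912) (nat_lit 111) (nat_lit 5) (nat_lit 121) (nat_lit 5) (nat_lit 112) (nat_lit 5) (nat_lit 361) (nat_lit 351) (nat_lit 188))))) (XT.nd (nat_lit 234) (nat_lit 380) (nat_lit 0) (XT.nd (nat_lit 78) (nat_lit 380) (nat_lit 0) (XT.lf (nat_lit 0) (nat_lit 3283488424) (nat_lit 760) (nat_lit 36322233944) (nat_lit 836) (nat_lit 25432204400) (nat_lit 101) (nat_lit 5) (nat_lit 111) (nat_lit 5) (nat_lit 112) (nat_lit 5) (nat_lit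 362) (nat_lit 351) (nat_lit 187)) (XT.nd (nat_lit 78) (nat_lit 380) (nat_lit 0) (XT.lf (nat_lit 0) (nat_lit 38188840941) (nat_lit 760) (nat_lit 8107427650) (nat_lit 836) (nat_lit 20521683353) (nat_lit 101) (nat_lit 5) (nat_lit 111) (nat_lit 5) (nat_lit 112) (nat_lit 5) (nat_lit 363) (nat_lit 351) (nat_lit 186)) (XT.lf (nat_lit 0) (nat_lit 6007817724) (nat_lit 380) (nat_lit 47742250134) (nat_lit 456) (nat_lit 14915475089) (nat_lit 96) (nat_lit 5) (nat_lit 101) (nat_lit 5) (nat_lit 102) (nat_lit 5) (nat_lit 364) (nat_lit 351) (nat_lit 185)))) (XT.nd (nat_lit 78) (nat_lit 380) (nat_lit 0) (XT.lf (nat_lit 0) (nat_lit 43232249282) (nat_lit 380) (nat_lit 18958923169) (nat_lit 456) (nat_lit 8383611099) (nat_lit 96) (nat_lit 5) (nat_lit 101) (nat_lit 5) (nat_lit 102) (nat_lit 5) (nat_lit 365) (nat_lit 351) (nat_lit 184)) (XT.nd (nat_lit 78) (nat_lit 76) (nat_lit 0) (XT.lf (nat_lit 0) (nat_lit 9877728903)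 (nat_lit 304) (nat_lit 61505728628) (nat_lit 380) (nat_lit 1179573164) (nat_lit 92) (nat_lit 5) (nat_lit 96) (nat_lit 5) (nat_lit 97) (nat_lit 5) (nat_lit 366) (nat_lit 351) (nat_lit 183)) (XT.lf (nat_lit 0) (nat_lit 6960834361) (nat_lit 380) (nat_lit 25138332917) (nat_lit 76) (nat_lit 42507513652) (nat_lit 91) (nat_lit 5) (nat_lit 96) (nat_lit 5) (nat_lit 92) (nat_lit 5) (nat_lit 367) (nat_lit 351) (nat_lit 182)))))) (XT.nd (nat_lit 468) (nat_lit 1140) (nat_lit 0) (XT.nd (nat_lit 234) (nat_lit 304) (nat_lit 0) (XT.nd (nat_lit 78) (nat_lit 304) (nat_lit 0) (XT.lf (nat_lit 0) (nat_lit 14737386727) (nat_lit 380) (nat_lit 960435293) (nat_lit 456) (nat_lit 61042265408) (nat_lit 86) (nat_lit 5) (nat_lit 91) (nat_lit 5) (nat_lit 92) (nat_lit 5) (nat_lit 368) (nat_lit 351) (nat_lit 181)) (XT.nd (nat_lit 78) (nat_lit 304) (nat_lit 0) (XT.lf (nat_lit 0) (nat_lit 25798979983) (nat_lit 456) (nat_lit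 21982670559) (nat_lit 76) (nat_lit 31152148302) (nat_lit 86) (nat_lit 5) (nat_lit 92) (nat_lit 5) (nat_lit 87) (nat_lit 5) (nat_lit 369) (nat_lit 351) (nat_lit 180)) (XT.lf (nat_lit 0) (nat_lit 20683693912) (nat_lit 304) (nat_lit 16059354324) (nat_lit 380) (nat_lit 44477255583) (nat_lit 82) (nat_lit 5) (nat_lit 86) (nat_lit 5) (nat_lit 87) (nat_lit 5) (nat_lit 370) (nat_lit 351) (nat_lit 179)))) (XT.nd (nat_lit 78) (nat_lit 304) (nat_lit 0) (XT.lf (nat_lit 0) (nat_lit 48881216454) (nat_lit 380) (nat_lit 17632316953) (nat_lit 76) (nat_lit 17075256387) (nat_lit 82) (nat_lit 5) (nat_lit 87) (nat_lit 5) (nat_lit 83) (nat_lit 5) (nat_lit 371) (nat_lit 351) (nat_lit 178)) (XT.nd (nat_lit 78) (nat_lit 0) (nat_lit 0) (XT.lf (nat_lit 0) (nat_lit 28050815855) (nat_lit 304) (nat_lit 34275935470) (nat_lit 380) (nat_lit 23713926384) (nat_lit 78) (nat_lit 5) (nat_lit 82) (nat_lit 5) (nat_lit 83) (nat_lit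 5) (nat_lit 372) (nat_lit 351) (nat_lit 177)) (XT.lf (nat_lit 0) (nat_lit 76629366204) (nat_lit 304) (nat_lit 113069170) (nat_lit 380) (nat_lit 11857831549) (nat_lit 78) (nat_lit 5) (nat_lit 82) (nat_lit 5) (nat_lit 83) (nat_lit 5) (nat_lit 373) (nat_lit 351) (nat_lit 176))))) (XT.nd (nat_lit 234) (nat_lit 532) (nat_lit 0) (XT.nd (nat_lit 78) (nat_lit 304) (nat_lit 0) (XT.lf (nat_lit 0) (nat_lit 1725584178) (nat_lit 304) (nat_lit 54285710143) (nat_lit 76) (nat_lit 35218408641) (nat_lit 74) (nat_lit 5) (nat_lit 78) (nat_lit 5) (nat_lit 75) (nat_lit 5) (nat_lit 374) (nat_lit 351) (nat_lit 175)) (XT.nd (nat_lit 78) (nat_lit 304) (nat_lit 0) (XT.lf (nat_lit 0) (nat_lit 15796881757) (nat_lit 304) (nat_lit 5460701729) (nat_lit 76) (nat_lit 72712947641) (nat_lit 74) (nat_lit 5) (nat_lit 78) (nat_lit 5) (nat_lit 75) (nat_lit 5) (nat_lit 375) (nat_lit 351) (nat_lit 174)) (XT.lf (nat_lit 0) (nat_lit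 31559815768) (nat_lit 380) (nat_lit 49742229331) (nat_lit 76) (nat_lit 15496952454) (nat_lit 70) (nat_lit 5) (nat_lit 75) (nat_lit 5) (nat_lit 71) (nat_lit 5) (nat_lit 376) (nat_lit 351) (nat_lit 173)))) (XT.nd (nat_lit 156) (nat_lit 304) (nat_lit 0) (XT.nd (nat_lit 78) (nat_lit 0) (nat_lit 0) (XT.lf (nat_lit 0) (nat_lit 2349770932) (nat_lit 228) (nat_lit 46239643448) (nat_lit 304) (nat_lit 51155547438) (nat_lit 67) (nat_lit 5) (nat_lit 70) (nat_lit 5) (nat_lit 71) (nat_lit 5) (nat_lit 377) (nat_lit 351) (nat_lit 172)) (XT.lf (nat_lit 0) (nat_lit 58772456113) (nat_lit 228) (nat_lit 8539813866) (nat_lit 304) (nat_lit 35483865857) (nat_lit 67) (nat_lit 5) (nat_lit 70) (nat_lit 5) (nat_lit 71) (nat_lit 5) (nat_lit 378) (nat_lit 351) (nat_lit 171))) (XT.nd (nat_lit 78) (nat_lit 76) (nat_lit 0) (XT.lf (nat_lit 0) (nat_lit 11912130477) (nat_lit 228) (nat_lit 75729214307) (nat_lit 304) (nat_lit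 18325020323) (nat_lit 64) (nat_lit 5) (nat_lit 67) (nat_lit 5) (nat_lit 68) (nat_lit 5) (nat_lit 379) (nat_lit 351) (nat_lit 170)) (XT.lf (nat_lit 0) (nat_lit 598815481) (nat_lit 304) (nat_lit 37232946820) (nat_lit 76) (nat_lit 71418725365) (nat_lit 63) (nat_lit 5) (nat_lit 67) (nat_lit 5) (nat_lit 64) (nat_lit 5) (nat_lit 380) (nat_lit 351) (nat_lit 169))))))))
noncomputable def xc215 : XT := (XT.nd (nat_lit 1950) (nat_lit 1216) (nat_lit 0) (XT.nd (nat_lit 936) (nat_lit 988) (nat_lit 0) (XT.nd (nat_lit 468) (nat_lit 760) (nat_lit 0) (XT.nd (nat_lit 234) (nat_lit 228) (nat_lit 0) (XT.nd (nat_lit 78) (nat_lit 228) (nat_lit 0) (XT.lf (nat_lit 0) (nat_lit 20250719938) (nat_lit 304) (nat_lit 89847514004) (nat_lit 76) (nat_lit 2565676342) (nat_lit 60) (nat_lit 5) (nat_lit 64) (nat_lit 5) (nat_lit 61) (nat_lit 5) (nat_lit 381) (nat_lit 351) (nat_lit 168)) (XT.nd (nat_lit 78) (nat_lit 228) (nat_lit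 0) (XT.lf (nat_lit 0) (nat_lit 42145748062) (nat_lit 304) (nat_lit 29686972822) (nat_lit 76) (nat_lit 44352257033) (nat_lit 60) (nat_lit 5) (nat_lit 64) (nat_lit 5) (nat_lit 61) (nat_lit 5) (nat_lit 382) (nat_lit 351) (nat_lit 167)) (XT.lf (nat_lit 0) (nat_lit 34587844127) (nat_lit 228) (nat_lit 31087163916) (nat_lit 304) (nat_lit 54180117161) (nat_lit 57) (nat_lit 5) (nat_lit 60) (nat_lit 5) (nat_lit 61) (nat_lit 5) (nat_lit 383) (nat_lit 351) (nat_lit 166)))) (XT.nd (nat_lit 78) (nat_lit 228) (nat_lit 0) (XT.lf (nat_lit 0) (nat_lit 91073815328) (nat_lit 304) (nat_lit 20768207478) (nat_lit 76) (nat_lit 11832103111) (nat_lit 57) (nat_lit 5) (nat_lit 61) (nat_lit 5) (nat_lit 58) (nat_lit 5) (nat_lit 384) (nat_lit 351) (nat_lit 165)) (XT.nd (nat_lit 78) (nat_lit 76) (nat_lit 0) (XT.lf (nat_lit 0) (nat_lit 47981139658) (nat_lit 152) (nat_lit 71019670762) (nat_lit 228) (nat_lit 8620354139)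 (nat_lit 55) (nat_lit 5) (nat_lit 57) (nat_lit 5) (nat_lit 58) (nat_lit 5) (nat_lit 385) (nat_lit 351) (nat_lit 164)) (XT.lf (nat_lit 0) (nat_lit 16385612788) (nat_lit 228) (nat_lit 11124036879) (nat_lit 76) (nat_lit 104225129835) (nat_lit 54) (nat_lit 5) (nat_lit 57) (nat_lit 5) (nat_lit 55) (nat_lit 5) (nat_lit 386) (nat_lit 351) (nat_lit 163))))) (XT.nd (nat_lit 234) (nat_lit 380) (nat_lit 0) (XT.nd (nat_lit 78) (nat_lit 152) (nat_lit 0) (XT.lf (nat_lit 0) (nat_lit 43632479848) (nat_lit 304) (nat_lit 73618306213) (nat_lit 76) (nat_lit 18732208387) (nat_lit 51) (nat_lit 5) (nat_lit 55) (nat_lit 5) (nat_lit 52) (nat_lit 5) (nat_lit 387) (nat_lit 351) (nat_lit 162)) (XT.nd (nat_lit 78) (nat_lit 152) (nat_lit 0) (XT.lf (nat_lit 0) (nat_lit 72883684209) (nat_lit 304) (nat_lit 974942639) (nat_lit 76) (nat_lit 66552893814) (nat_lit 51) (nat_lit 5) (nat_lit 55) (nat_lit 5) (nat_lit 52) (nat_lit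 5) (nat_lit 388) (nat_lit 351) (nat_lit 161)) (XT.lf (nat_lit 0) (nat_lit 77789651526) (nat_lit 152) (nat_lit 27021870549) (nat_lit 228) (nat_lit 40189247656) (nat_lit 49) (nat_lit 5) (nat_lit 51) (nat_lit 5) (nat_lit 52) (nat_lit 5) (nat_lit 389) (nat_lit 351) (nat_lit 160)))) (XT.nd (nat_lit 78) (nat_lit 228) (nat_lit 0) (XT.lf (nat_lit 0) (nat_lit 10703343204) (nat_lit 152) (nat_lit 128161793452) (nat_lit 228) (nat_lit 10927875555) (nat_lit 47) (nat_lit 5) (nat_lit 49) (nat_lit 5) (nat_lit 50) (nat_lit 5) (nat_lit 390) (nat_lit 351) (nat_lit 159)) (XT.nd (nat_lit 78) (nat_lit 152) (nat_lit 0) (XT.lf (nat_lit 0) (nat_lit 20762413716) (nat_lit 228) (nat_lit 60692431554) (nat_lit 76) (nat_lit 73274594616) (nat_lit 46) (nat_lit 5) (nat_lit 49) (nat_lit 5) (nat_lit 47) (nat_lit 5) (nat_lit 391) (nat_lit 351) (nat_lit 158)) (XT.lf (nat_lit 0) (nat_lit 22153917316) (nat_lit 152) (nat_lit 31861525268)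 (nat_lit 228) (nat_lit 105871015587) (nat_lit 44) (nat_lit 5) (nat_lit 46) (nat_lit 5) (nat_lit 47) (nat_lit 5) (nat_lit 392) (nat_lit 351) (nat_lit 157)))))) (XT.nd (nat_lit 468) (nat_lit 456) (nat_lit 0) (XT.nd (nat_lit 234) (nat_lit 380) (nat_lit 0) (XT.nd (nat_lit 78) (nat_lit 152) (nat_lit 0) (XT.lf (nat_lit 0) (nat_lit 90290980225) (nat_lit 228) (nat_lit 54333328564) (nat_lit 76) (nat_lit 20609025879) (nat_lit 44) (nat_lit 5) (nat_lit 47) (nat_lit 5) (nat_lit 45) (nat_lit 5) (nat_lit 393) (nat_lit 351) (nat_lit 156)) (XT.nd (nat_lit 78) (nat_lit 0) (nat_lit 0) (XT.lf (nat_lit 0) (nat_lit 33794517834) (nat_lit 152) (nat_lit 95635337459) (nat_lit 228) (nat_lit 41365221822) (nat_lit 42) (nat_lit 5) (nat_lit 44) (nat_lit 5) (nat_lit 45) (nat_lit 5) (nat_lit 394) (nat_lit 351) (nat_lit 155)) (XT.lf (nat_lit 0) (nat_lit 128214455344) (nat_lit 152) (nat_lit 43231001860) (nat_lit 228) (nat_lit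 5143460476) (nat_lit 42) (nat_lit 5) (nat_lit 44) (nat_lit 5) (nat_lit 45) (nat_lit 5) (nat_lit 395) (nat_lit 351) (nat_lit 154)))) (XT.nd (nat_lit 78) (nat_lit 152) (nat_lit 0) (XT.lf (nat_lit 0) (nat_lit 32752980587) (nat_lit 228) (nat_lit 137186146010) (nat_lit 76) (nat_lit 12661836159) (nat_lit 39) (nat_lit 5) (nat_lit 42) (nat_lit 5) (nat_lit 40) (nat_lit 5) (nat_lit 396) (nat_lit 351) (nat_lit 153)) (XT.nd (nat_lit 78) (nat_lit 152) (nat_lit 0) (XT.lf (nat_lit 0) (nat_lit 73912407837) (nat_lit 228) (nat_lit 44106708318) (nat_lit 76) (nat_lit 70813227199) (nat_lit 39) (nat_lit 5) (nat_lit 42) (nat_lit 5) (nat_lit 40) (nat_lit 5) (nat_lit 397) (nat_lit 351) (nat_lit 152)) (XT.lf (nat_lit 0) (nat_lit 55399234011) (nat_lit 152) (nat_lit 62595164989) (nat_lit 228) (nat_lit 77337664477) (nat_lit 37) (nat_lit 5) (nat_lit 39) (nat_lit 5) (nat_lit 40) (nat_lit 5) (nat_lit 398) (nat_lit 351)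 (nat_lit 151))))) (XT.nd (nat_lit 234) (nat_lit 304) (nat_lit 0) (XT.nd (nat_lit 78) (nat_lit 152) (nat_lit 0) (XT.lf (nat_lit 0) (nat_lit 161411179560) (nat_lit 152) (nat_lit 3615941234) (nat_lit 228) (nat_lit 37092317375) (nat_lit 37) (nat_lit 5) (nat_lit 39) (nat_lit 5) (nat_lit 40) (nat_lit 5) (nat_lit 399) (nat_lit 351) (nat_lit 150)) (XT.nd (nat_lit 78) (nat_lit 0) (nat_lit 0) (XT.lf (nat_lit 0) (nat_lit 6950668695) (nat_lit 152) (nat_lit 144627035698) (nat_lit 76) (nat_lit 57566910400) (nat_lit 35) (nat_lit 5) (nat_lit 37) (nat_lit 5) (nat_lit 36) (nat_lit 5) (nat_lit 400) (nat_lit 351) (nat_lit 149)) (XT.lf (nat_lit 0) (nat_lit 52708929213) (nat_lit 152) (nat_lit 40747788319) (nat_lit 76) (nat_lit 122995945767) (nat_lit 35) (nat_lit 5) (nat_lit 37) (nat_lit 5) (nat_lit 36) (nat_lit 5) (nat_lit 401) (nat_lit 351) (nat_lit 148)))) (XT.nd (nat_lit 156) (nat_lit 152) (nat_lit 0) (XT.nd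 (nat_lit 78) (nat_lit 0) (nat_lit 0) (XT.lf (nat_lit 0) (nat_lit 70584011648) (nat_lit 152) (nat_lit 31272797324) (nat_lit 228) (nat_lit 122214220040) (nat_lit 33) (nat_lit 5) (nat_lit 35) (nat_lit 5) (nat_lit 36) (nat_lit 5) (nat_lit 402) (nat_lit 351) (nat_lit 147)) (XT.lf (nat_lit 0) (nat_lit 154694326400) (nat_lit 228) (nat_lit 43681743256) (nat_lit 76) (nat_lit 33632631265) (nat_lit 33) (nat_lit 5) (nat_lit 36) (nat_lit 5) (nat_lit 34) (nat_lit 4) (nat_lit 403) (nat_lit 351) (nat_lit 146))) (XT.nd (nat_lit 78) (nat_lit 76) (nat_lit 0) (XT.lf (nat_lit 0) (nat_lit 73451516941) (nat_lit 76) (nat_lit 138381364928) (nat_lit 152) (nat_lit 28427416532) (nat_lit 32) (nat_lit 5) (nat_lit 33) (nat_lit 5) (nat_lit 34) (nat_lit 4) (nat_lit 404) (nat_lit 351) (nat_lit 145)) (XT.lf (nat_lit 0) (nat_lit 22922431220) (nat_lit 152) (nat_lit 51299754238) (nat_lit 76) (nat_lit 174646830212) (nat_lit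 31) (nat_lit 5) (nat_lit 33) (nat_lit 5) (nat_lit 32) (nat_lit 5) (nat_lit 405) (nat_lit 351) (nat_lit 144))))))) (XT.nd (nat_lit 936) (nat_lit 456) (nat_lit 0) (XT.nd (nat_lit 468) (nat_lit 304) (nat_lit 0) (XT.nd (nat_lit 234) (nat_lit 228) (nat_lit 0) (XT.nd (nat_lit 78) (nat_lit 76) (nat_lit 0) (XT.lf (nat_lit 0) (nat_lit 71816794290) (nat_lit 152) (nat_lit 5188615176) (nat_lit 228) (nat_lit 180823408964) (nat_lit 29) (nat_lit 5) (nat_lit 31) (nat_lit 5) (nat_lit 32) (nat_lit 5) (nat_lit 406) (nat_lit 351) (nat_lit 143)) (XT.nd (nat_lit 78) (nat_lit 76) (nat_lit 0) (XT.lf (nat_lit 0) (nat_lit 135725980729) (nat_lit 228) (nat_lit 65388416627) (nat_lit 76) (nat_lit 66025541840) (nat_lit 29) (nat_lit 5) (nat_lit 32) (nat_lit 5) (nat_lit 30) (nat_lit 4) (nat_lit 407) (nat_lit 351) (nat_lit 142)) (XT.lf (nat_lit 0) (nat_lit 63203755426) (nat_lit 76) (nat_lit 135250411664) (nat_lit 152) (nat_lit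 78408869651) (nat_lit 28) (nat_lit 5) (nat_lit 29) (nat_lit 5) (nat_lit 30) (nat_lit 4) (nat_lit 408) (nat_lit 351) (nat_lit 141)))) (XT.nd (nat_lit 78) (nat_lit 228) (nat_lit 0) (XT.lf (nat_lit 0) (nat_lit 200495210400) (nat_lit 76) (nat_lit 64930681526) (nat_lit 152) (nat_lit 21591040843) (nat_lit 28) (nat_lit 5) (nat_lit 29) (nat_lit 5) (nat_lit 30) (nat_lit 4) (nat_lit 409) (nat_lit 351) (nat_lit 140)) (XT.nd (nat_lit 78) (nat_lit 0) (nat_lit 0) (XT.lf (nat_lit 0) (nat_lit 37758095231) (nat_lit 228) (nat_lit 249861067942) (nat_lit 76) (nat_lit 9984202361) (nat_lit 25) (nat_lit 5) (nat_lit 28) (nat_lit 5) (nat_lit 26) (nat_lit 4) (nat_lit 410) (nat_lit 351) (nat_lit 139)) (XT.lf (nat_lit 0) (nat_lit 101902587819) (nat_lit 228) (nat_lit 118365359973) (nat_lit 76) (nat_lit 88305799613) (nat_lit 25) (nat_lit 5) (nat_lit 28) (nat_lit 5) (nat_lit 26) (nat_lit 4) (nat_lit 411) (nat_lit 351)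 (nat_lit 138))))) (XT.nd (nat_lit 234) (nat_lit 228) (nat_lit 0) (XT.nd (nat_lit 78) (nat_lit 0) (nat_lit 0) (XT.lf (nat_lit 0) (nat_lit 20356229595) (nat_lit 76) (nat_lit 149215659448) (nat_lit 152) (nat_lit 150504880180) (nat_lit 24) (nat_lit 5) (nat_lit 25) (nat_lit 5) (nat_lit 26) (nat_lit 4) (nat_lit 412) (nat_lit 351) (nat_lit 137)) (XT.nd (nat_lit 78) (nat_lit 0) (nat_lit 0) (XT.lf (nat_lit 0) (nat_lit 170122853331) (nat_lit 76) (nat_lit 72506147379) (nat_lit 152) (nat_lit 89425724203) (nat_lit 24) (nat_lit 5) (nat_lit 25) (nat_lit 5) (nat_lit 26) (nat_lit 4) (nat_lit 413) (nat_lit 351) (nat_lit 136)) (XT.lf (nat_lit 0) (nat_lit 319464255555) (nat_lit 152) (nat_lit 17379690214) (nat_lit 0) (nat_lit 7781368286) (nat_lit 24) (nat_lit 5) (nat_lit 26) (nat_lit 4) (nat_lit 24) (nat_lit 4) (nat_lit 414) (nat_lit 351) (nat_lit 135)))) (XT.nd (nat_lit 78) (nat_lit 76) (nat_lit 0) (XT.lf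 (nat_lit 0) (nat_lit 44354122398) (nat_lit 152) (nat_lit 220757329554) (nat_lit 76) (nat_lit 92510362270) (nat_lit 22) (nat_lit 5) (nat_lit 24) (nat_lit 5) (nat_lit 23) (nat_lit 4) (nat_lit 415) (nat_lit 351) (nat_lit 134)) (XT.nd (nat_lit 78) (nat_lit 76) (nat_lit 0) (XT.lf (nat_lit 0) (nat_lit 116798434279) (nat_lit 152) (nat_lit 72246864677) (nat_lit 76) (nat_lit 182187269239) (nat_lit 22) (nat_lit 5) (nat_lit 24) (nat_lit 5) (nat_lit 23) (nat_lit 4) (nat_lit 416) (nat_lit 351) (nat_lit 133)) (XT.lf (nat_lit 0) (nat_lit 86455877801) (nat_lit 76) (nat_lit 107758702393) (nat_lit 152) (nat_lit 191241798791) (nat_lit 21) (nat_lit 5) (nat_lit 22) (nat_lit 5) (nat_lit 23) (nat_lit 4) (nat_lit 417) (nat_lit 351) (nat_lit 132)))))) (XT.nd (nat_lit 468) (nat_lit 228) (nat_lit 0) (XT.nd (nat_lit 234) (nat_lit 76) (nat_lit 0) (XT.nd (nat_lit 78) (nat_lit 152) (nat_lit 0) (XT.lf (nat_lit 0) (nat_lit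 255601637775) (nat_lit 76) (nat_lit 21123234924) (nat_lit 152) (nat_lit 123605340686) (nat_lit 21) (nat_lit 5) (nat_lit 22) (nat_lit 5) (nat_lit 23) (nat_lit 4) (nat_lit 418) (nat_lit 351) (nat_lit 131)) (XT.nd (nat_lit 78) (nat_lit 76) (nat_lit 0) (XT.lf (nat_lit 0) (nat_lit 16700653826) (nat_lit 76) (nat_lit 348011041169) (nat_lit 76) (nat_lit 51168493789) (nat_lit 20) (nat_lit 4) (nat_lit 21) (nat_lit 5) (nat_lit 21) (nat_lit 4) (nat_lit 419) (nat_lit 351) (nat_lit 130)) (XT.lf (nat_lit 0) (nat_lit 26930876819) (nat_lit 152) (nat_lit 241634543313) (nat_lit 76) (nat_lit 163480946416) (nat_lit 19) (nat_lit 5) (nat_lit 21) (nat_lit 5) (nat_lit 20) (nat_lit 4) (nat_lit 420) (nat_lit 351) (nat_lit 129)))) (XT.nd (nat_lit 78) (nat_lit 76) (nat_lit 0) (XT.lf (nat_lit 0) (nat_lit 107215438984) (nat_lit 152) (nat_lit 77051470317) (nat_lit 76) (nat_lit 264712011544) (nat_lit 19) (nat_lit 5) (nat_lit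 21) (nat_lit 5) (nat_lit 20) (nat_lit 4) (nat_lit 421) (nat_lit 351) (nat_lit 128)) (XT.nd (nat_lit 78) (nat_lit 0) (nat_lit 0) (XT.lf (nat_lit 0) (nat_lit 98926704425) (nat_lit 76) (nat_lit 94131876450) (nat_lit 152) (nat_lit 273622304430) (nat_lit 18) (nat_lit 5) (nat_lit 19) (nat_lit 5) (nat_lit 20) (nat_lit 4) (nat_lit 422) (nat_lit 351) (nat_lit 127)) (XT.lf (nat_lit 0) (nat_lit 284527966109) (nat_lit 152) (nat_lit 198853539899) (nat_lit 0) (nat_lit 1819737697) (nat_lit 18) (nat_lit 5) (nat_lit 20) (nat_lit 4) (nat_lit 18) (nat_lit 4) (nat_lit 423) (nat_lit 351) (nat_lit 126))))) (XT.nd (nat_lit 234) (nat_lit 76) (nat_lit 0) (XT.nd (nat_lit 78) (nat_lit 152) (nat_lit 0) (XT.lf (nat_lit 0) (nat_lit 382113803598) (nat_lit 152) (nat_lit 23051322014) (nat_lit 0) (nat_lit 99405345288) (nat_lit 18) (nat_lit 5) (nat_lit 20) (nat_lit 4) (nat_lit 18) (nat_lit 4) (nat_lit 424) (nat_lit 351)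 (nat_lit 125)) (XT.nd (nat_lit 78) (nat_lit 76) (nat_lit 0) (XT.lf (nat_lit 0) (nat_lit 166881977350) (nat_lit 76) (nat_lit 320302296182) (nat_lit 76) (nat_lit 37593618922) (nat_lit 17) (nat_lit 4) (nat_lit 18) (nat_lit 5) (nat_lit 18) (nat_lit 4) (nat_lit 425) (nat_lit 351) (nat_lit 124)) (XT.lf (nat_lit 0) (nat_lit 50260488150) (nat_lit 152) (nat_lit 179674885074) (nat_lit 76) (nat_lit 316000267564) (nat_lit 16) (nat_lit 5) (nat_lit 18) (nat_lit 5) (nat_lit 17) (nat_lit 4) (nat_lit 426) (nat_lit 351) (nat_lit 123)))) (XT.nd (nat_lit 156) (nat_lit 0) (nat_lit 0) (XT.nd (nat_lit 78) (nat_lit 0) (nat_lit 0) (XT.lf (nat_lit 0) (nat_lit 7066808423) (nat_lit 76) (nat_lit 134287285625) (nat_lit 152) (nat_lit 426760858794) (nat_lit 15) (nat_lit 5) (nat_lit 16) (nat_lit 5) (nat_lit 17) (nat_lit 4) (nat_lit 427) (nat_lit 351) (nat_lit 122)) (XT.lf (nat_lit 0) (nat_lit 209383216224) (nat_lit 76)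 (nat_lit 30661900721) (nat_lit 152) (nat_lit 351205976739) (nat_lit 15) (nat_lit 5) (nat_lit 16) (nat_lit 5) (nat_lit 17) (nat_lit 4) (nat_lit 428) (nat_lit 351) (nat_lit 121))) (XT.nd (nat_lit 40872) (nat_lit 0) (nat_lit 6916) (XT.lf (nat_lit 0) (nat_lit 344890610083) (nat_lit 152) (nat_lit 194948924178) (nat_lit 0) (nat_lit 75643511373) (nat_lit 15) (nat_lit 5) (nat_lit 17) (nat_lit 4) (nat_lit 15) (nat_lit 4) (nat_lit 429) (nat_lit 351) (nat_lit 120)) (XT.lf (nat_lit 0) (nat_lit 4265949821) (nat_lit 836) (nat_lit 10742019617) (nat_lit 836) (nat_lit 10742019617) (nat_lit 106) (nat_lit 3) (nat_lit 117) (nat_lit 3) (nat_lit 117) (nat_lit 5) (nat_lit 352) (nat_lit 352) (nat_lit 196))))))))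
noncomputable def xc216 : XT := (XT.nd (nat_lit 1872) (nat_lit 2964) (nat_lit 0) (XT.nd (nat_lit 936) (nat_lit 2052) (nat_lit 0) (XT.nd (nat_lit 468) (nat_lit 380) (nat_lit 0) (XT.nd (nat_lit 234) (nat_lit 0) (nat_lit 152) (XT.nd (nat_lit 78) (nat_lit 0) (nat_lit 76) (XT.lf (nat_lit 76) (nat_lit 3225557822) (nat_lit 0) (nat_lit 5593946642) (nat_lit 836) (nat_lit 43964236980) (nat_lit 107) (nat_lit 5) (nat_lit 106) (nat_lit 3) (nat_lit 117) (nat_lit 5) (nat_lit 353) (nat_lit 352) (nat_lit 195)) (XT.nd (nat_lit 78) (nat_lit 0) (nat_lit 0) (XT.lf (nat_lit 0) (nat_lit 9802785330) (nat_lit 760) (nat_lit 24516898580) (nat_lit 836) (nat_lit 19777945570) (nat_lit 107) (nat_lit 5) (nat_lit 117) (nat_lit 5) (nat_lit 118) (nat_lit 5) (nat_lit 354) (nat_lit 352) (nat_lit 194)) (XT.lf (nat_lit 76) (nat_lit 1739545018) (nat_lit 0) (nat_lit 9213086747) (nat_lit 836) (nat_lit 44518711344) (nat_lit 108)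 (nat_lit 5) (nat_lit 107) (nat_lit 5) (nat_lit 118) (nat_lit 5) (nat_lit 355) (nat_lit 352) (nat_lit 193)))) (XT.nd (nat_lit 78) (nat_lit 0) (nat_lit 0) (XT.lf (nat_lit 0) (nat_lit 12848327053) (nat_lit 760) (nat_lit 27008491828) (nat_lit 836) (nat_lit 17022506915) (nat_lit 108) (nat_lit 5) (nat_lit 118) (nat_lit 5) (nat_lit 119) (nat_lit 5) (nat_lit 356) (nat_lit 352) (nat_lit 192)) (XT.nd (nat_lit 78) (nat_lit 0) (nat_lit 76) (XT.lf (nat_lit 76) (nat_lit 928773287) (nat_lit 0) (nat_lit 14074238198) (nat_lit 836) (nat_lit 43346487063) (nat_lit 109) (nat_lit 5) (nat_lit 108) (nat_lit 5) (nat_lit 119) (nat_lit 5) (nat_lit 357) (nat_lit 352) (nat_lit 191)) (XT.lf (nat_lit 0) (nat_lit 17931982527) (nat_lit 760) (nat_lit 28881115321) (nat_lit 836) (nat_lit 13046755561) (nat_lit 109) (nat_lit 5) (nat_lit 119) (nat_lit 5) (nat_lit 120) (nat_lit 5) (nat_lit 358) (nat_lit 352) (nat_lit 190)))))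 (XT.nd (nat_lit 234) (nat_lit 608) (nat_lit 0) (XT.nd (nat_lit 78) (nat_lit 0) (nat_lit 76) (XT.lf (nat_lit 76) (nat_lit 882071565) (nat_lit 0) (nat_lit 20368613253) (nat_lit 836) (nat_lit 40182878102) (nat_lit 110) (nat_lit 5) (nat_lit 109) (nat_lit 5) (nat_lit 120) (nat_lit 5) (nat_lit 359) (nat_lit 352) (nat_lit 189)) (XT.nd (nat_lit 78) (nat_lit 0) (nat_lit 0) (XT.lf (nat_lit 0) (nat_lit 25346795179) (nat_lit 760) (nat_lit 30049879763) (nat_lit 836) (nat_lit 7658710308) (nat_lit 110) (nat_lit 5) (nat_lit 120) (nat_lit 5) (nat_lit 121) (nat_lit 5) (nat_lit 360) (nat_lit 352) (nat_lit 188)) (XT.lf (nat_lit 76) (nat_lit 1696278654) (nat_lit 0) (nat_lit 28310717280) (nat_lit 836) (nat_lit 34733339464) (nat_lit 111) (nat_lit 5) (nat_lit 110) (nat_lit 5) (nat_lit 121) (nat_lit 5) (nat_lit 361) (nat_lit 352) (nat_lit 187)))) (XT.nd (nat_lit 78) (nat_lit 760) (nat_lit 0) (XT.lf (nat_lit 0)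 (nat_lit 35418412278) (nat_lit 760) (nat_lit 30422399872) (nat_lit 76) (nat_lit 642811525) (nat_lit 111) (nat_lit 5) (nat_lit 121) (nat_lit 5) (nat_lit 112) (nat_lit 5) (nat_lit 362) (nat_lit 352) (nat_lit 186)) (XT.nd (nat_lit 78) (nat_lit 0) (nat_lit 0) (XT.lf (nat_lit 0) (nat_lit 3476591887) (nat_lit 760) (nat_lit 38141178980) (nat_lit 836) (nat_lit 26670437783) (nat_lit 101) (nat_lit 5) (nat_lit 111) (nat_lit 5) (nat_lit 112) (nat_lit 5) (nat_lit 363) (nat_lit 352) (nat_lit 185)) (XT.lf (nat_lit 0) (nat_lit 40125834456) (nat_lit 760) (nat_lit 8515497450) (nat_lit 836) (nat_lit 21515980056) (nat_lit 101) (nat_lit 5) (nat_lit 111) (nat_lit 5) (nat_lit 112) (nat_lit 5) (nat_lit 364) (nat_lit 352) (nat_lit 184)))))) (XT.nd (nat_lit 468) (nat_lit 912) (nat_lit 0) (XT.nd (nat_lit 234) (nat_lit 456) (nat_lit 0) (XT.nd (nat_lit 78) (nat_lit 304) (nat_lit 0) (XT.lf (nat_lit 0) (nat_lit 6336869930)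 (nat_lit 380) (nat_lit 50129918097) (nat_lit 456) (nat_lit 15630547340) (nat_lit 96) (nat_lit 5) (nat_lit 101) (nat_lit 5) (nat_lit 102) (nat_lit 5) (nat_lit 365) (nat_lit 352) (nat_lit 183)) (XT.nd (nat_lit 78) (nat_lit 304) (nat_lit 0) (XT.lf (nat_lit 0) (nat_lit 45421158240) (nat_lit 380) (nat_lit 19907398333) (nat_lit 456) (nat_lit 8773552127) (nat_lit 96) (nat_lit 5) (nat_lit 101) (nat_lit 5) (nat_lit 102) (nat_lit 5) (nat_lit 366) (nat_lit 352) (nat_lit 182)) (XT.lf (nat_lit 0) (nat_lit 10399870923) (nat_lit 304) (nat_lit 64579693243) (nat_lit 380) (nat_lit 1210249707) (nat_lit 92) (nat_lit 5) (nat_lit 96) (nat_lit 5) (nat_lit 97) (nat_lit 5) (nat_lit 367) (nat_lit 352) (nat_lit 181)))) (XT.nd (nat_lit 78) (nat_lit 380) (nat_lit 0) (XT.lf (nat_lit 0) (nat_lit 7334967766) (nat_lit 380) (nat_lit 26367457128) (nat_lit 76) (nat_lit 44633265844) (nat_lit 91) (nat_lit 5) (nat_lit 96) (nat_lit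 5) (nat_lit 92) (nat_lit 5) (nat_lit 368) (nat_lit 352) (nat_lit 180)) (XT.nd (nat_lit 78) (nat_lit 0) (nat_lit 0) (XT.lf (nat_lit 0) (nat_lit 15501600233) (nat_lit 380) (nat_lit 1006389033) (nat_lit 456) (nat_lit 64067820008) (nat_lit 86) (nat_lit 5) (nat_lit 91) (nat_lit 5) (nat_lit 92) (nat_lit 5) (nat_lit 369) (nat_lit 352) (nat_lit 179)) (XT.lf (nat_lit 0) (nat_lit 27113032251) (nat_lit 456) (nat_lit 23054571318) (nat_lit 76) (nat_lit 32711662227) (nat_lit 86) (nat_lit 5) (nat_lit 92) (nat_lit 5) (nat_lit 87) (nat_lit 5) (nat_lit 370) (nat_lit 352) (nat_lit 178))))) (XT.nd (nat_lit 234) (nat_lit 304) (nat_lit 0) (XT.nd (nat_lit 78) (nat_lit 304) (nat_lit 0) (XT.lf (nat_lit 0) (nat_lit 21744672138) (nat_lit 304) (nat_lit 16858902326) (nat_lit 380) (nat_lit 46676558877) (nat_lit 82) (nat_lit 5) (nat_lit 86) (nat_lit 5) (nat_lit 87) (nat_lit 5) (nat_lit 371) (nat_lit 352) (nat_lit 177))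 (XT.nd (nat_lit 78) (nat_lit 304) (nat_lit 0) (XT.lf (nat_lit 0) (nat_lit 51347588903) (nat_lit 380) (nat_lit 18487336793) (nat_lit 76) (nat_lit 17932171837) (nat_lit 82) (nat_lit 5) (nat_lit 87) (nat_lit 5) (nat_lit 83) (nat_lit 5) (nat_lit 372) (nat_lit 352) (nat_lit 176)) (XT.lf (nat_lit 0) (nat_lit 29479523688) (nat_lit 304) (nat_lit 35985222912) (nat_lit 380) (nat_lit 24876866710) (nat_lit 78) (nat_lit 5) (nat_lit 82) (nat_lit 5) (nat_lit 83) (nat_lit 5) (nat_lit 373) (nat_lit 352) (nat_lit 175)))) (XT.nd (nat_lit 78) (nat_lit 304) (nat_lit 0) (XT.lf (nat_lit 0) (nat_lit 80485755505) (nat_lit 304) (nat_lit 114428027) (nat_lit 380) (nat_lit 12429050752) (nat_lit 78) (nat_lit 5) (nat_lit 82) (nat_lit 5) (nat_lit 83) (nat_lit 5) (nat_lit 374) (nat_lit 352) (nat_lit 174)) (XT.nd (nat_lit 78) (nat_lit 0) (nat_lit 0) (XT.lf (nat_lit 0) (nat_lit 1832312399) (nat_lit 304) (nat_lit 56973824026)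 (nat_lit 76) (nat_lit 36984015933) (nat_lit 74) (nat_lit 5) (nat_lit 78) (nat_lit 5) (nat_lit 75) (nat_lit 5) (nat_lit 375) (nat_lit 352) (nat_lit 173)) (XT.lf (nat_lit 0) (nat_lit 16606201094) (nat_lit 304) (nat_lit 5708811458) (nat_lit 76) (nat_lit 76353058698) (nat_lit 74) (nat_lit 5) (nat_lit 78) (nat_lit 5) (nat_lit 75) (nat_lit 5) (nat_lit 376) (nat_lit 352) (nat_lit 172))))))) (XT.nd (nat_lit 936) (nat_lit 1216) (nat_lit 0) (XT.nd (nat_lit 468) (nat_lit 684) (nat_lit 0) (XT.nd (nat_lit 234) (nat_lit 532) (nat_lit 0) (XT.nd (nat_lit 78) (nat_lit 228) (nat_lit 0) (XT.lf (nat_lit 0) (nat_lit 33156824607) (nat_lit 380) (nat_lit 52203946176) (nat_lit 76) (nat_lit 16277213679) (nat_lit 70) (nat_lit 5) (nat_lit 75) (nat_lit 5) (nat_lit 71) (nat_lit 5) (nat_lit 377) (nat_lit 352) (nat_lit 171)) (XT.nd (nat_lit 78) (nat_lit 0) (nat_lit 0) (XT.lf (nat_lit 0) (nat_lit 2492244510) (nat_lit 228)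 (nat_lit 48545143105) (nat_lit 304) (nat_lit 53693885677) (nat_lit 67) (nat_lit 5) (nat_lit 70) (nat_lit 5) (nat_lit 71) (nat_lit 5) (nat_lit 378) (nat_lit 352) (nat_lit 170)) (XT.lf (nat_lit 0) (nat_lit 61734874186) (nat_lit 228) (nat_lit 8960630735) (nat_lit 304) (nat_lit 37239545690) (nat_lit 67) (nat_lit 5) (nat_lit 70) (nat_lit 5) (nat_lit 71) (nat_lit 5) (nat_lit 379) (nat_lit 352) (nat_lit 169)))) (XT.nd (nat_lit 78) (nat_lit 304) (nat_lit 0) (XT.lf (nat_lit 0) (nat_lit 12531931267) (nat_lit 228) (nat_lit 79508732625) (nat_lit 304) (nat_lit 19223146454) (nat_lit 64) (nat_lit 5) (nat_lit 67) (nat_lit 5) (nat_lit 68) (nat_lit 5) (nat_lit 380) (nat_lit 352) (nat_lit 168)) (XT.nd (nat_lit 78) (nat_lit 228) (nat_lit 0) (XT.lf (nat_lit 0) (nat_lit 645465565) (nat_lit 304) (nat_lit 39070990064) (nat_lit 76) (nat_lit 74995711502) (nat_lit 63) (nat_lit 5) (nat_lit 67) (nat_lit 5) (nat_lit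 64) (nat_lit 5) (nat_lit 381) (nat_lit 352) (nat_lit 167)) (XT.lf (nat_lit 0) (nat_lit 21279640610) (nat_lit 304) (nat_lit 94315951968) (nat_lit 76) (nat_lit 2700684982) (nat_lit 60) (nat_lit 5) (nat_lit 64) (nat_lit 5) (nat_lit 61) (nat_lit 5) (nat_lit 382) (nat_lit 352) (nat_lit 166))))) (XT.nd (nat_lit 234) (nat_lit 456) (nat_lit 0) (XT.nd (nat_lit 78) (nat_lit 228) (nat_lit 0) (XT.lf (nat_lit 0) (nat_lit 44268639918) (nat_lit 304) (nat_lit 31148523619) (nat_lit 76) (nat_lit 46576274478) (nat_lit 60) (nat_lit 5) (nat_lit 64) (nat_lit 5) (nat_lit 61) (nat_lit 5) (nat_lit 383) (nat_lit 352) (nat_lit 165)) (XT.nd (nat_lit 78) (nat_lit 0) (nat_lit 0) (XT.lf (nat_lit 0) (nat_lit 36339666470) (nat_lit 228) (nat_lit 32634303556) (nat_lit 304) (nat_lit 56873142692) (nat_lit 57) (nat_lit 5) (nat_lit 60) (nat_lit 5) (nat_lit 61) (nat_lit 5) (nat_lit 384) (nat_lit 352) (nat_lit 164)) (XT.lf (nat_lit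 0) (nat_lit 95642100649) (nat_lit 304) (nat_lit 21784631013) (nat_lit 76) (nat_lit 12430363044) (nat_lit 57) (nat_lit 5) (nat_lit 61) (nat_lit 5) (nat_lit 58) (nat_lit 5) (nat_lit 385) (nat_lit 352) (nat_lit 163)))) (XT.nd (nat_lit 78) (nat_lit 304) (nat_lit 0) (XT.lf (nat_lit 0) (nat_lit 50401828853) (nat_lit 152) (nat_lit 74563259404) (nat_lit 228) (nat_lit 9036415257) (nat_lit 55) (nat_lit 5) (nat_lit 57) (nat_lit 5) (nat_lit 58) (nat_lit 5) (nat_lit 386) (nat_lit 352) (nat_lit 162)) (XT.nd (nat_lit 78) (nat_lit 228) (nat_lit 0) (XT.lf (nat_lit 0) (nat_lit 17218681889) (nat_lit 228) (nat_lit 11659173989) (nat_lit 76) (nat_lit 109442966458) (nat_lit 54) (nat_lit 5) (nat_lit 57) (nat_lit 5) (nat_lit 55) (nat_lit 5) (nat_lit 387) (nat_lit 352) (nat_lit 161)) (XT.lf (nat_lit 0) (nat_lit 45827672781) (nat_lit 304) (nat_lit 77277930870) (nat_lit 76) (nat_lit 19675855674) (nat_lit 51) (nat_lit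 5) (nat_lit 55) (nat_lit 5) (nat_lit 52) (nat_lit 5) (nat_lit 388) (nat_lit 352) (nat_lit 160)))))) (XT.nd (nat_lit 468) (nat_lit 684) (nat_lit 0) (XT.nd (nat_lit 234) (nat_lit 228) (nat_lit 0) (XT.nd (nat_lit 78) (nat_lit 304) (nat_lit 0) (XT.lf (nat_lit 0) (nat_lit 76540791221) (nat_lit 304) (nat_lit 1003412958) (nat_lit 76) (nat_lit 69887240283) (nat_lit 51) (nat_lit 5) (nat_lit 55) (nat_lit 5) (nat_lit 52) (nat_lit 5) (nat_lit 389) (nat_lit 352) (nat_lit 159)) (XT.nd (nat_lit 78) (nat_lit 152) (nat_lit 0) (XT.lf (nat_lit 0) (nat_lit 81699083870) (nat_lit 152) (nat_lit 28365633210) (nat_lit 228) (nat_lit 42185454388) (nat_lit 49) (nat_lit 5) (nat_lit 51) (nat_lit 5) (nat_lit 52) (nat_lit 5) (nat_lit 390) (nat_lit 352) (nat_lit 158)) (XT.lf (nat_lit 0) (nat_lit 11258652231) (nat_lit 152) (nat_lit 134562182735) (nat_lit 228) (nat_lit 11461200254) (nat_lit 47) (nat_lit 5) (nat_lit 49) (nat_lit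 5) (nat_lit 50) (nat_lit 5) (nat_lit 391) (nat_lit 352) (nat_lit 157)))) (XT.nd (nat_lit 78) (nat_lit 152) (nat_lit 0) (XT.lf (nat_lit 0) (nat_lit 21812582771) (nat_lit 228) (nat_lit 63707467014) (nat_lit 76) (nat_lit 76945254664) (nat_lit 46) (nat_lit 5) (nat_lit 49) (nat_lit 5) (nat_lit 47) (nat_lit 5) (nat_lit 392) (nat_lit 352) (nat_lit 156)) (XT.nd (nat_lit 78) (nat_lit 0) (nat_lit 0) (XT.lf (nat_lit 0) (nat_lit 23280883394) (nat_lit 152) (nat_lit 33447106818) (nat_lit 228) (nat_lit 111152197318) (nat_lit 44) (nat_lit 5) (nat_lit 46) (nat_lit 5) (nat_lit 47) (nat_lit 5) (nat_lit 393) (nat_lit 352) (nat_lit 155)) (XT.lf (nat_lit 0) (nat_lit 94816855438) (nat_lit 228) (nat_lit 57031188564) (nat_lit 76) (nat_lit 21646386541) (nat_lit 44) (nat_lit 5) (nat_lit 47) (nat_lit 5) (nat_lit 45) (nat_lit 5) (nat_lit 394) (nat_lit 352) (nat_lit 154))))) (XT.nd (nat_lit 234) (nat_lit 304) (nat_lit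 0) (XT.nd (nat_lit 78) (nat_lit 228) (nat_lit 0) (XT.lf (nat_lit 0) (nat_lit 35502746824) (nat_lit 152) (nat_lit 100409676978) (nat_lit 228) (nat_lit 43421849051) (nat_lit 42) (nat_lit 5) (nat_lit 44) (nat_lit 5) (nat_lit 45) (nat_lit 5) (nat_lit 395) (nat_lit 352) (nat_lit 153)) (XT.nd (nat_lit 78) (nat_lit 228) (nat_lit 0) (XT.lf (nat_lit 0) (nat_lit 134642800110) (nat_lit 152) (nat_lit 45385478283) (nat_lit 228) (nat_lit 5389553631) (nat_lit 42) (nat_lit 5) (nat_lit 44) (nat_lit 5) (nat_lit 45) (nat_lit 5) (nat_lit 396) (nat_lit 352) (nat_lit 152)) (XT.lf (nat_lit 0) (nat_lit 34401232742) (nat_lit 228) (nat_lit 144027346900) (nat_lit 76) (nat_lit 13301897353) (nat_lit 39) (nat_lit 5) (nat_lit 42) (nat_lit 5) (nat_lit 40) (nat_lit 5) (nat_lit 397) (nat_lit 352) (nat_lit 151)))) (XT.nd (nat_lit 156) (nat_lit 152) (nat_lit 0) (XT.nd (nat_lit 78) (nat_lit 152) (nat_lit 0) (XT.lf (nat_lit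 0) (nat_lit 77618126445) (nat_lit 228) (nat_lit 46294799534) (nat_lit 76) (nat_lit 74360526070) (nat_lit 39) (nat_lit 5) (nat_lit 42) (nat_lit 5) (nat_lit 40) (nat_lit 5) (nat_lit 398) (nat_lit 352) (nat_lit 150)) (XT.lf (nat_lit 0) (nat_lit 58186161780) (nat_lit 152) (nat_lit 65717839407) (nat_lit 228) (nat_lit 81194167960) (nat_lit 37) (nat_lit 5) (nat_lit 39) (nat_lit 5) (nat_lit 40) (nat_lit 5) (nat_lit 399) (nat_lit 352) (nat_lit 149))) (XT.nd (nat_lit 78) (nat_lit 152) (nat_lit 0) (XT.lf (nat_lit 0) (nat_lit 169497896698) (nat_lit 152) (nat_lit 3789991789) (nat_lit 228) (nat_lit 38937047776) (nat_lit 37) (nat_lit 5) (nat_lit 39) (nat_lit 5) (nat_lit 40) (nat_lit 5) (nat_lit 400) (nat_lit 352) (nat_lit 148)) (XT.lf (nat_lit 0) (nat_lit 7307675519) (nat_lit 152) (nat_lit 151841811234) (nat_lit 76) (nat_lit 60451882179) (nat_lit 35) (nat_lit 5) (nat_lit 37) (nat_lit 5) (nat_lit 36) (nat_lit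 5) (nat_lit 401) (nat_lit 352) (nat_lit 147))))))))
noncomputable def xc217 : XT := (XT.nd (nat_lit 1950) (nat_lit 152) (nat_lit 0) (XT.nd (nat_lit 936) (nat_lit 532) (nat_lit 0) (XT.nd (nat_lit 468) (nat_lit 380) (nat_lit 0) (XT.nd (nat_lit 234) (nat_lit 304) (nat_lit 0) (XT.nd (nat_lit 78) (nat_lit 152) (nat_lit 0) (XT.lf (nat_lit 0) (nat_lit 55353397949) (nat_lit 152) (nat_lit 42769390832) (nat_lit 76) (nat_lit 129152053777) (nat_lit 35) (nat_lit 5) (nat_lit 37) (nat_lit 5) (nat_lit 36) (nat_lit 5) (nat_lit 402) (nat_lit 352) (nat_lit 146)) (XT.nd (nat_lit 78) (nat_lit 0) (nat_lit 0) (XT.lf (nat_lit 0) (nat_lit 74128744507) (nat_lit 152) (nat_lit 32829740060) (nat_lit 228) (nat_lit 128315651480) (nat_lit 33) (nat_lit 5) (nat_lit 35) (nat_lit 5) (nat_lit 36) (nat_lit 5) (nat_lit 403) (nat_lit 352) (nat_lit 145)) (XT.lf (nat_lit 0) (nat_lit 162437556726) (nat_lit 228) (nat_lit 45850714103)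 (nat_lit 76) (nat_lit 35320436904) (nat_lit 33) (nat_lit 5) (nat_lit 36) (nat_lit 5) (nat_lit 34) (nat_lit 4) (nat_lit 404) (nat_lit 352) (nat_lit 144)))) (XT.nd (nat_lit 78) (nat_lit 228) (nat_lit 0) (XT.lf (nat_lit 0) (nat_lit 77138965292) (nat_lit 76) (nat_lit 145293901449) (nat_lit 152) (nat_lit 29840027129) (nat_lit 32) (nat_lit 5) (nat_lit 33) (nat_lit 5) (nat_lit 34) (nat_lit 4) (nat_lit 405) (nat_lit 352) (nat_lit 143)) (XT.nd (nat_lit 78) (nat_lit 152) (nat_lit 0) (XT.lf (nat_lit 0) (nat_lit 24076628826) (nat_lit 152) (nat_lit 53850308443) (nat_lit 76) (nat_lit 183385123195) (nat_lit 31) (nat_lit 5) (nat_lit 33) (nat_lit 5) (nat_lit 32) (nat_lit 5) (nat_lit 406) (nat_lit 352) (nat_lit 142)) (XT.lf (nat_lit 0) (nat_lit 75421834714) (nat_lit 152) (nat_lit 5441758411) (nat_lit 228) (nat_lit 189856268486) (nat_lit 29) (nat_lit 5) (nat_lit 31) (nat_lit 5) (nat_lit 32) (nat_lit 5) (nat_lit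 407) (nat_lit 352) (nat_lit 141))))) (XT.nd (nat_lit 234) (nat_lit 304) (nat_lit 0) (XT.nd (nat_lit 78) (nat_lit 76) (nat_lit 0) (XT.lf (nat_lit 0) (nat_lit 142519909623) (nat_lit 228) (nat_lit 68644027662) (nat_lit 76) (nat_lit 69332615394) (nat_lit 29) (nat_lit 5) (nat_lit 32) (nat_lit 5) (nat_lit 30) (nat_lit 4) (nat_lit 408) (nat_lit 352) (nat_lit 140)) (XT.nd (nat_lit 78) (nat_lit 0) (nat_lit 0) (XT.lf (nat_lit 0) (nat_lit 66377530254) (nat_lit 76) (nat_lit 142006823853) (nat_lit 152) (nat_lit 82321458648) (nat_lit 28) (nat_lit 5) (nat_lit 29) (nat_lit 5) (nat_lit 30) (nat_lit 4) (nat_lit 409) (nat_lit 352) (nat_lit 139)) (XT.lf (nat_lit 0) (nat_lit 210532910974) (nat_lit 76) (nat_lit 68171398084) (nat_lit 152) (nat_lit 22663112423) (nat_lit 28) (nat_lit 5) (nat_lit 29) (nat_lit 5) (nat_lit 30) (nat_lit 4) (nat_lit 410) (nat_lit 352) (nat_lit 138)))) (XT.nd (nat_lit 78) (nat_lit 76)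 (nat_lit 0) (XT.lf (nat_lit 0) (nat_lit 39653190343) (nat_lit 228) (nat_lit 262340887827) (nat_lit 76) (nat_lit 10489094490) (nat_lit 25) (nat_lit 5) (nat_lit 28) (nat_lit 5) (nat_lit 26) (nat_lit 4) (nat_lit 411) (nat_lit 352) (nat_lit 137)) (XT.nd (nat_lit 78) (nat_lit 76) (nat_lit 0) (XT.lf (nat_lit 0) (nat_lit 107004565164) (nat_lit 228) (nat_lit 124271024627) (nat_lit 76) (nat_lit 92726501033) (nat_lit 25) (nat_lit 5) (nat_lit 28) (nat_lit 5) (nat_lit 26) (nat_lit 4) (nat_lit 412) (nat_lit 352) (nat_lit 136)) (XT.lf (nat_lit 0) (nat_lit 21386441139) (nat_lit 76) (nat_lit 156670757816) (nat_lit 152) (nat_lit 158023071476) (nat_lit 24) (nat_lit 5) (nat_lit 25) (nat_lit 5) (nat_lit 26) (nat_lit 4) (nat_lit 413) (nat_lit 352) (nat_lit 135)))))) (XT.nd (nat_lit 468) (nat_lit 304) (nat_lit 0) (XT.nd (nat_lit 234) (nat_lit 76) (nat_lit 0) (XT.nd (nat_lit 78) (nat_lit 152) (nat_lit 0) (XT.lf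 (nat_lit 0) (nat_lit 178640805583) (nat_lit 76) (nat_lit 76126040839) (nat_lit 152) (nat_lit 93890293543) (nat_lit 24) (nat_lit 5) (nat_lit 25) (nat_lit 5) (nat_lit 26) (nat_lit 4) (nat_lit 414) (nat_lit 352) (nat_lit 134)) (XT.nd (nat_lit 78) (nat_lit 152) (nat_lit 0) (XT.lf (nat_lit 0) (nat_lit 335443639955) (nat_lit 152) (nat_lit 18237202103) (nat_lit 0) (nat_lit 8175427778) (nat_lit 24) (nat_lit 5) (nat_lit 26) (nat_lit 4) (nat_lit 24) (nat_lit 4) (nat_lit 415) (nat_lit 352) (nat_lit 133)) (XT.lf (nat_lit 0) (nat_lit 46577982967) (nat_lit 152) (nat_lit 231783703740) (nat_lit 76) (nat_lit 97140909286) (nat_lit 22) (nat_lit 5) (nat_lit 24) (nat_lit 5) (nat_lit 23) (nat_lit 4) (nat_lit 416) (nat_lit 352) (nat_lit 132)))) (XT.nd (nat_lit 78) (nat_lit 76) (nat_lit 0) (XT.lf (nat_lit 0) (nat_lit 122644217373) (nat_lit 152) (nat_lit 75848262871) (nat_lit 76) (nat_lit 191301422132) (nat_lit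 22) (nat_lit 5) (nat_lit 24) (nat_lit 5) (nat_lit 23) (nat_lit 4) (nat_lit 417) (nat_lit 352) (nat_lit 131)) (XT.nd (nat_lit 78) (nat_lit 0) (nat_lit 0) (XT.lf (nat_lit 0) (nat_lit 90789440198) (nat_lit 76) (nat_lit 113141619398) (nat_lit 152) (nat_lit 200797849713) (nat_lit 21) (nat_lit 5) (nat_lit 22) (nat_lit 5) (nat_lit 23) (nat_lit 4) (nat_lit 418) (nat_lit 352) (nat_lit 130)) (XT.lf (nat_lit 0) (nat_lit 268391975385) (nat_lit 76) (nat_lit 22174617515) (nat_lit 152) (nat_lit 129779856275) (nat_lit 21) (nat_lit 5) (nat_lit 22) (nat_lit 5) (nat_lit 23) (nat_lit 4) (nat_lit 419) (nat_lit 352) (nat_lit 129))))) (XT.nd (nat_lit 234) (nat_lit 152) (nat_lit 0) (XT.nd (nat_lit 78) (nat_lit 76) (nat_lit 0) (XT.lf (nat_lit 0) (nat_lit 17545973858) (nat_lit 76) (nat_lit 365406753341) (nat_lit 76) (nat_lit 53721197651) (nat_lit 20) (nat_lit 4) (nat_lit 21) (nat_lit 5) (nat_lit 21) (nat_lit 4)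 (nat_lit 420) (nat_lit 352) (nat_lit 128)) (XT.nd (nat_lit 78) (nat_lit 0) (nat_lit 0) (XT.lf (nat_lit 0) (nat_lit 28282694685) (nat_lit 152) (nat_lit 253706297720) (nat_lit 76) (nat_lit 171659427861) (nat_lit 19) (nat_lit 5) (nat_lit 21) (nat_lit 5) (nat_lit 20) (nat_lit 4) (nat_lit 421) (nat_lit 352) (nat_lit 127)) (XT.lf (nat_lit 0) (nat_lit 112581233814) (nat_lit 152) (nat_lit 80894545967) (nat_lit 76) (nat_lit 277951835097) (nat_lit 19) (nat_lit 5) (nat_lit 21) (nat_lit 5) (nat_lit 20) (nat_lit 4) (nat_lit 422) (nat_lit 352) (nat_lit 126)))) (XT.nd (nat_lit 156) (nat_lit 76) (nat_lit 0) (XT.nd (nat_lit 78) (nat_lit 0) (nat_lit 0) (XT.lf (nat_lit 0) (nat_lit 103882384321) (nat_lit 76) (nat_lit 98834055191) (nat_lit 152) (nat_lit 287298242755) (nat_lit 18) (nat_lit 5) (nat_lit 19) (nat_lit 5) (nat_lit 20) (nat_lit 4) (nat_lit 423) (nat_lit 352) (nat_lit 125)) (XT.lf (nat_lit 0) (nat_lit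 298759124914) (nat_lit 152) (nat_lit 208787147325) (nat_lit 0) (nat_lit 1914794841) (nat_lit 18) (nat_lit 5) (nat_lit 20) (nat_lit 4) (nat_lit 18) (nat_lit 4) (nat_lit 424) (nat_lit 352) (nat_lit 124))) (XT.nd (nat_lit 78) (nat_lit 76) (nat_lit 0) (XT.lf (nat_lit 0) (nat_lit 401224027587) (nat_lit 152) (nat_lit 24195250431) (nat_lit 0) (nat_lit 104379488990) (nat_lit 18) (nat_lit 5) (nat_lit 20) (nat_lit 4) (nat_lit 18) (nat_lit 4) (nat_lit 425) (nat_lit 352) (nat_lit 123)) (XT.lf (nat_lit 0) (nat_lit 175234574584) (nat_lit 76) (nat_lit 336313363221) (nat_lit 76) (nat_lit 39468626029) (nat_lit 17) (nat_lit 4) (nat_lit 18) (nat_lit 5) (nat_lit 18) (nat_lit 4) (nat_lit 426) (nat_lit 352) (nat_lit 122))))))) (XT.nd (nat_lit 41886) (nat_lit 0) (nat_lit 4788) (XT.nd (nat_lit 41418) (nat_lit 0) (nat_lit 7068) (XT.nd (nat_lit 41184) (nat_lit 0) (nat_lit 6916) (XT.nd (nat_lit 78) (nat_lit 76) (nat_lit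 0) (XT.lf (nat_lit 0) (nat_lit 52777821364) (nat_lit 152) (nat_lit 188650392531) (nat_lit 76) (nat_lit 331803992848) (nat_lit 16) (nat_lit 5) (nat_lit 18) (nat_lit 5) (nat_lit 17) (nat_lit 4) (nat_lit 427) (nat_lit 352) (nat_lit 121)) (XT.nd (nat_lit 41028) (nat_lit 0) (nat_lit 6916) (XT.lf (nat_lit 0) (nat_lit 7428252790) (nat_lit 76) (nat_lit 140997776111) (nat_lit 152) (nat_lit 448094459461) (nat_lit 15) (nat_lit 5) (nat_lit 16) (nat_lit 5) (nat_lit 17) (nat_lit 4) (nat_lit 428) (nat_lit 352) (nat_lit 120)) (XT.lf (nat_lit 0) (nat_lit 4502820761) (nat_lit 836) (nat_lit 11266734322) (nat_lit 836) (nat_lit 11266734322) (nat_lit 106) (nat_lit 3) (nat_lit 117) (nat_lit 3) (nat_lit 117) (nat_lit 5) (nat_lit 353) (nat_lit 353) (nat_lit 194)))) (XT.nd (nat_lit 78) (nat_lit 0) (nat_lit 76) (XT.lf (nat_lit 76) (nat_lit 3411208707) (nat_lit 0) (nat_lit 5894553318) (nat_lit 836) (nat_lit 46114863459)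 (nat_lit 107) (nat_lit 5) (nat_lit 106) (nat_lit 3) (nat_lit 117) (nat_lit 5) (nat_lit 354) (nat_lit 353) (nat_lit 193)) (XT.nd (nat_lit 78) (nat_lit 0) (nat_lit 0) (XT.lf (nat_lit 0) (nat_lit 10335739725) (nat_lit 760) (nat_lit 25717026863) (nat_lit 836) (nat_lit 20747566549) (nat_lit 107) (nat_lit 5) (nat_lit 117) (nat_lit 5) (nat_lit 118) (nat_lit 5) (nat_lit 355) (nat_lit 353) (nat_lit 192)) (XT.lf (nat_lit 76) (nat_lit 1851824131) (nat_lit 0) (nat_lit 9689610568) (nat_lit 836) (nat_lit 46701381701) (nat_lit 108) (nat_lit 5) (nat_lit 107) (nat_lit 5) (nat_lit 118) (nat_lit 5) (nat_lit 356) (nat_lit 353) (nat_lit 191))))) (XT.nd (nat_lit 234) (nat_lit 0) (nat_lit 76) (XT.nd (nat_lit 78) (nat_lit 0) (nat_lit 0) (XT.lf (nat_lit 0) (nat_lit 13529718243) (nat_lit 760) (nat_lit 28332589283) (nat_lit 836) (nat_lit 17859002202) (nat_lit 108) (nat_lit 5) (nat_lit 118) (nat_lit 5) (nat_lit 119)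 (nat_lit 5) (nat_lit 357) (nat_lit 353) (nat_lit 190)) (XT.nd (nat_lit 78) (nat_lit 0) (nat_lit 76) (XT.lf (nat_lit 76) (nat_lit 1001114456) (nat_lit 0) (nat_lit 14789570906) (nat_lit 836) (nat_lit 45474379933) (nat_lit 109) (nat_lit 5) (nat_lit 108) (nat_lit 5) (nat_lit 119) (nat_lit 5) (nat_lit 358) (nat_lit 353) (nat_lit 189)) (XT.lf (nat_lit 0) (nat_lit 18864145339) (nat_lit 760) (nat_lit 30298511927) (nat_lit 836) (nat_lit 13688380139) (nat_lit 109) (nat_lit 5) (nat_lit 119) (nat_lit 5) (nat_lit 120) (nat_lit 5) (nat_lit 359) (nat_lit 353) (nat_lit 188)))) (XT.nd (nat_lit 78) (nat_lit 0) (nat_lit 76) (XT.lf (nat_lit 76) (nat_lit 952404317) (nat_lit 0) (nat_lit 21395094429) (nat_lit 836) (nat_lit 42155999297) (nat_lit 110) (nat_lit 5) (nat_lit 109) (nat_lit 5) (nat_lit 120) (nat_lit 5) (nat_lit 360) (nat_lit 353) (nat_lit 187)) (XT.nd (nat_lit 78) (nat_lit 0) (nat_lit 0) (XT.lf (nat_lit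 0) (nat_lit 26646662553) (nat_lit 760) (nat_lit 31525613859) (nat_lit 836) (nat_lit 8034224065) (nat_lit 110) (nat_lit 5) (nat_lit 120) (nat_lit 5) (nat_lit 121) (nat_lit 5) (nat_lit 361) (nat_lit 353) (nat_lit 186)) (XT.lf (nat_lit 76) (nat_lit 1807420868) (nat_lit 0) (nat_lit 29731314602) (nat_lit 836) (nat_lit 36437020871) (nat_lit 111) (nat_lit 5) (nat_lit 110) (nat_lit 5) (nat_lit 121) (nat_lit 5) (nat_lit 362) (nat_lit 353) (nat_lit 185)))))) (XT.nd (nat_lit 468) (nat_lit 1064) (nat_lit 0) (XT.nd (nat_lit 234) (nat_lit 684) (nat_lit 0) (XT.nd (nat_lit 78) (nat_lit 760) (nat_lit 0) (XT.lf (nat_lit 0) (nat_lit 37219152621) (nat_lit 760) (nat_lit 31916850216) (nat_lit 76) (nat_lit 670285949) (nat_lit 111) (nat_lit 5) (nat_lit 121) (nat_lit 5) (nat_lit 112) (nat_lit 5) (nat_lit 363) (nat_lit 353) (nat_lit 184)) (XT.nd (nat_lit 78) (nat_lit 0) (nat_lit 0) (XT.lf (nat_lit 0) (nat_lit 3676660974)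 (nat_lit 760) (nat_lit 40050807850) (nat_lit 836) (nat_lit 27973685896) (nat_lit 101) (nat_lit 5) (nat_lit 111) (nat_lit 5) (nat_lit 112) (nat_lit 5) (nat_lit 364) (nat_lit 353) (nat_lit 183)) (XT.lf (nat_lit 0) (nat_lit 42157116173) (nat_lit 760) (nat_lit 8943719867) (nat_lit 836) (nat_lit 22562946892) (nat_lit 101) (nat_lit 5) (nat_lit 111) (nat_lit 5) (nat_lit 112) (nat_lit 5) (nat_lit 365) (nat_lit 353) (nat_lit 182)))) (XT.nd (nat_lit 78) (nat_lit 304) (nat_lit 0) (XT.lf (nat_lit 0) (nat_lit 6679710087) (nat_lit 380) (nat_lit 52636917816) (nat_lit 456) (nat_lit 16384227539) (nat_lit 96) (nat_lit 5) (nat_lit 101) (nat_lit 5) (nat_lit 102) (nat_lit 5) (nat_lit 366) (nat_lit 353) (nat_lit 181)) (XT.nd (nat_lit 78) (nat_lit 304) (nat_lit 0) (XT.lf (nat_lit 0) (nat_lit 47716974877) (nat_lit 380) (nat_lit 20903248074) (nat_lit 456) (nat_lit 9185708620) (nat_lit 96) (nat_lit 5) (nat_lit 101)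 (nat_lit 5) (nat_lit 102) (nat_lit 5) (nat_lit 367) (nat_lit 353) (nat_lit 180)) (XT.lf (nat_lit 0) (nat_lit 10945493108) (nat_lit 304) (nat_lit 67807478979) (nat_lit 380) (nat_lit 1245091340) (nat_lit 92) (nat_lit 5) (nat_lit 96) (nat_lit 5) (nat_lit 97) (nat_lit 5) (nat_lit 368) (nat_lit 353) (nat_lit 179))))) (XT.nd (nat_lit 234) (nat_lit 608) (nat_lit 0) (XT.nd (nat_lit 78) (nat_lit 380) (nat_lit 0) (XT.lf (nat_lit 0) (nat_lit 7725382083) (nat_lit 380) (nat_lit 27660621427) (nat_lit 76) (nat_lit 46865270641) (nat_lit 91) (nat_lit 5) (nat_lit 96) (nat_lit 5) (nat_lit 92) (nat_lit 5) (nat_lit 369) (nat_lit 353) (nat_lit 178)) (XT.nd (nat_lit 78) (nat_lit 0) (nat_lit 0) (XT.lf (nat_lit 0) (nat_lit 16301482212) (nat_lit 380) (nat_lit 1054832725) (nat_lit 456) (nat_lit 67247121512) (nat_lit 86) (nat_lit 5) (nat_lit 91) (nat_lit 5) (nat_lit 92) (nat_lit 5) (nat_lit 370) (nat_lit 353) (nat_lit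 177)) (XT.lf (nat_lit 0) (nat_lit 28490546238) (nat_lit 456) (nat_lit 24182598959) (nat_lit 76) (nat_lit 34348974599) (nat_lit 86) (nat_lit 5) (nat_lit 92) (nat_lit 5) (nat_lit 87) (nat_lit 5) (nat_lit 371) (nat_lit 353) (nat_lit 176)))) (XT.nd (nat_lit 156) (nat_lit 304) (nat_lit 0) (XT.nd (nat_lit 78) (nat_lit 0) (nat_lit 0) (XT.lf (nat_lit 0) (nat_lit 22856208267) (nat_lit 304) (nat_lit 17698745660) (nat_lit 380) (nat_lit 48988110644) (nat_lit 82) (nat_lit 5) (nat_lit 86) (nat_lit 5) (nat_lit 87) (nat_lit 5) (nat_lit 372) (nat_lit 353) (nat_lit 175)) (XT.lf (nat_lit 0) (nat_lit 53935205651) (nat_lit 380) (nat_lit 19387580269) (nat_lit 76) (nat_lit 18831639958) (nat_lit 82) (nat_lit 5) (nat_lit 87) (nat_lit 5) (nat_lit 83) (nat_lit 5) (nat_lit 373) (nat_lit 353) (nat_lit 174))) (XT.nd (nat_lit 78) (nat_lit 0) (nat_lit 0) (XT.lf (nat_lit 0) (nat_lit 30977234150) (nat_lit 304) (nat_lit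 37780393960) (nat_lit 380) (nat_lit 26100069688) (nat_lit 78) (nat_lit 5) (nat_lit 82) (nat_lit 5) (nat_lit 83) (nat_lit 5) (nat_lit 374) (nat_lit 353) (nat_lit 173)) (XT.lf (nat_lit 0) (nat_lit 84532647353) (nat_lit 304) (nat_lit 116254098) (nat_lit 380) (nat_lit 13030845806) (nat_lit 78) (nat_lit 5) (nat_lit 82) (nat_lit 5) (nat_lit 83) (nat_lit 5) (nat_lit 375) (nat_lit 353) (nat_lit 172))))))))
noncomputable def xc218 : XT := (XT.nd (nat_lit 1872) (nat_lit 1596) (nat_lit 0) (XT.nd (nat_lit 936) (nat_lit 1216) (nat_lit 0) (XT.nd (nat_lit 468) (nat_lit 684) (nat_lit 0) (XT.nd (nat_lit 234) (nat_lit 456) (nat_lit 0) (XT.nd (nat_lit 78) (nat_lit 304) (nat_lit 0) (XT.lf (nat_lit 0) (nat_lit 1942475876) (nat_lit 304) (nat_lit 59798776792) (nat_lit 76) (nat_lit 38837467849) (nat_lit 74) (nat_lit 5) (nat_lit 78) (nat_lit 5) (nat_lit 75) (nat_lit 5) (nat_lit 376) (nat_lit 353) (nat_lit 171))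 (XT.nd (nat_lit 78) (nat_lit 304) (nat_lit 0) (XT.lf (nat_lit 0) (nat_lit 17454175775) (nat_lit 304) (nat_lit 5971643998) (nat_lit 76) (nat_lit 80174760319) (nat_lit 74) (nat_lit 5) (nat_lit 78) (nat_lit 5) (nat_lit 75) (nat_lit 5) (nat_lit 377) (nat_lit 353) (nat_lit 170)) (XT.lf (nat_lit 0) (nat_lit 34831915770) (nat_lit 380) (nat_lit 54791109815) (nat_lit 76) (nat_lit 17095984660) (nat_lit 70) (nat_lit 5) (nat_lit 75) (nat_lit 5) (nat_lit 71) (nat_lit 5) (nat_lit 378) (nat_lit 353) (nat_lit 169)))) (XT.nd (nat_lit 78) (nat_lit 228) (nat_lit 0) (XT.lf (nat_lit 0) (nat_lit 2639518895) (nat_lit 228) (nat_lit 50966520428) (nat_lit 304) (nat_lit 56360948094) (nat_lit 67) (nat_lit 5) (nat_lit 70) (nat_lit 5) (nat_lit 71) (nat_lit 5) (nat_lit 379) (nat_lit 353) (nat_lit 168)) (XT.nd (nat_lit 78) (nat_lit 228) (nat_lit 0) (XT.lf (nat_lit 0) (nat_lit 64843200905) (nat_lit 228) (nat_lit 9403062431)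 (nat_lit 304) (nat_lit 39084730721) (nat_lit 67) (nat_lit 5) (nat_lit 70) (nat_lit 5) (nat_lit 71) (nat_lit 5) (nat_lit 380) (nat_lit 353) (nat_lit 167)) (XT.lf (nat_lit 0) (nat_lit 13180472742) (nat_lit 228) (nat_lit 83477872296) (nat_lit 304) (nat_lit 20167863972) (nat_lit 64) (nat_lit 5) (nat_lit 67) (nat_lit 5) (nat_lit 68) (nat_lit 5) (nat_lit 381) (nat_lit 353) (nat_lit 166))))) (XT.nd (nat_lit 234) (nat_lit 380) (nat_lit 0) (XT.nd (nat_lit 78) (nat_lit 228) (nat_lit 0) (XT.lf (nat_lit 0) (nat_lit 692894680) (nat_lit 304) (nat_lit 41003129955) (nat_lit 76) (nat_lit 78750984486) (nat_lit 63) (nat_lit 5) (nat_lit 67) (nat_lit 5) (nat_lit 64) (nat_lit 5) (nat_lit 382) (nat_lit 353) (nat_lit 165)) (XT.nd (nat_lit 78) (nat_lit 0) (nat_lit 0) (XT.lf (nat_lit 0) (nat_lit 22358484024) (nat_lit 304) (nat_lit 99010037335) (nat_lit 76) (nat_lit 2841818844) (nat_lit 60) (nat_lit 5) (nat_lit 64)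 (nat_lit 5) (nat_lit 61) (nat_lit 5) (nat_lit 383) (nat_lit 353) (nat_lit 164)) (XT.lf (nat_lit 0) (nat_lit 46496225613) (nat_lit 304) (nat_lit 32685271484) (nat_lit 76) (nat_lit 48910897357) (nat_lit 60) (nat_lit 5) (nat_lit 64) (nat_lit 5) (nat_lit 61) (nat_lit 5) (nat_lit 384) (nat_lit 353) (nat_lit 163)))) (XT.nd (nat_lit 78) (nat_lit 152) (nat_lit 0) (XT.lf (nat_lit 0) (nat_lit 38176994588) (nat_lit 228) (nat_lit 34259471291) (nat_lit 304) (nat_lit 59702305199) (nat_lit 57) (nat_lit 5) (nat_lit 60) (nat_lit 5) (nat_lit 61) (nat_lit 5) (nat_lit 385) (nat_lit 353) (nat_lit 162)) (XT.nd (nat_lit 78) (nat_lit 152) (nat_lit 0) (XT.lf (nat_lit 0) (nat_lit 100437443373) (nat_lit 304) (nat_lit 22853919853) (nat_lit 76) (nat_lit 13057917276) (nat_lit 57) (nat_lit 5) (nat_lit 61) (nat_lit 5) (nat_lit 58) (nat_lit 5) (nat_lit 386) (nat_lit 353) (nat_lit 161)) (XT.lf (nat_lit 0) (nat_lit 52941541350)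 (nat_lit 152) (nat_lit 78284714985) (nat_lit 228) (nat_lit 9474669953) (nat_lit 55) (nat_lit 5) (nat_lit 57) (nat_lit 5) (nat_lit 58) (nat_lit 5) (nat_lit 387) (nat_lit 353) (nat_lit 160)))))) (XT.nd (nat_lit 468) (nat_lit 532) (nat_lit 0) (XT.nd (nat_lit 234) (nat_lit 380) (nat_lit 0) (XT.nd (nat_lit 78) (nat_lit 228) (nat_lit 0) (XT.lf (nat_lit 0) (nat_lit 18092122525) (nat_lit 228) (nat_lit 12223026353) (nat_lit 76) (nat_lit 114921083153) (nat_lit 54) (nat_lit 5) (nat_lit 57) (nat_lit 5) (nat_lit 55) (nat_lit 5) (nat_lit 388) (nat_lit 353) (nat_lit 159)) (XT.nd (nat_lit 78) (nat_lit 0) (nat_lit 0) (XT.lf (nat_lit 0) (nat_lit 48131363850) (nat_lit 304) (nat_lit 81122516163) (nat_lit 76) (nat_lit 20666031103) (nat_lit 51) (nat_lit 5) (nat_lit 55) (nat_lit 5) (nat_lit 52) (nat_lit 5) (nat_lit 389) (nat_lit 353) (nat_lit 158)) (XT.lf (nat_lit 0) (nat_lit 80379552143) (nat_lit 304) (nat_lit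 1035191938) (nat_lit 76) (nat_lit 73387681007) (nat_lit 51) (nat_lit 5) (nat_lit 55) (nat_lit 5) (nat_lit 52) (nat_lit 5) (nat_lit 390) (nat_lit 353) (nat_lit 157)))) (XT.nd (nat_lit 78) (nat_lit 228) (nat_lit 0) (XT.lf (nat_lit 0) (nat_lit 85802133091) (nat_lit 152) (nat_lit 29777265559) (nat_lit 228) (nat_lit 44282703842) (nat_lit 49) (nat_lit 5) (nat_lit 51) (nat_lit 5) (nat_lit 52) (nat_lit 5) (nat_lit 391) (nat_lit 353) (nat_lit 156)) (XT.nd (nat_lit 78) (nat_lit 76) (nat_lit 0) (XT.lf (nat_lit 0) (nat_lit 11839854110) (nat_lit 152) (nat_lit 141283307391) (nat_lit 228) (nat_lit 12022406226) (nat_lit 47) (nat_lit 5) (nat_lit 49) (nat_lit 5) (nat_lit 50) (nat_lit 5) (nat_lit 392) (nat_lit 353) (nat_lit 155)) (XT.lf (nat_lit 0) (nat_lit 22914140134) (nat_lit 228) (nat_lit 66875075179) (nat_lit 76) (nat_lit 80798803399) (nat_lit 46) (nat_lit 5) (nat_lit 49) (nat_lit 5) (nat_lit 47) (nat_lit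 5) (nat_lit 393) (nat_lit 353) (nat_lit 154))))) (XT.nd (nat_lit 234) (nat_lit 228) (nat_lit 0) (XT.nd (nat_lit 78) (nat_lit 152) (nat_lit 0) (XT.lf (nat_lit 0) (nat_lit 24462406214) (nat_lit 152) (nat_lit 35112664232) (nat_lit 228) (nat_lit 116698588092) (nat_lit 44) (nat_lit 5) (nat_lit 46) (nat_lit 5) (nat_lit 47) (nat_lit 5) (nat_lit 394) (nat_lit 353) (nat_lit 153)) (XT.nd (nat_lit 78) (nat_lit 152) (nat_lit 0) (XT.lf (nat_lit 0) (nat_lit 99567971409) (nat_lit 228) (nat_lit 59865690008) (nat_lit 76) (nat_lit 22734972868) (nat_lit 44) (nat_lit 5) (nat_lit 47) (nat_lit 5) (nat_lit 45) (nat_lit 5) (nat_lit 395) (nat_lit 353) (nat_lit 152)) (XT.lf (nat_lit 0) (nat_lit 37294667020) (nat_lit 152) (nat_lit 105423423998) (nat_lit 228) (nat_lit 45582389247) (nat_lit 42) (nat_lit 5) (nat_lit 44) (nat_lit 5) (nat_lit 45) (nat_lit 5) (nat_lit 396) (nat_lit 353) (nat_lit 151)))) (XT.nd (nat_lit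 78) (nat_lit 228) (nat_lit 0) (XT.lf (nat_lit 0) (nat_lit 141390923787) (nat_lit 152) (nat_lit 47648336169) (nat_lit 228) (nat_lit 5648981544) (nat_lit 42) (nat_lit 5) (nat_lit 44) (nat_lit 5) (nat_lit 45) (nat_lit 5) (nat_lit 397) (nat_lit 353) (nat_lit 150)) (XT.nd (nat_lit 78) (nat_lit 0) (nat_lit 0) (XT.lf (nat_lit 0) (nat_lit 36130911728) (nat_lit 228) (nat_lit 151212291197) (nat_lit 76) (nat_lit 13973313660) (nat_lit 39) (nat_lit 5) (nat_lit 42) (nat_lit 5) (nat_lit 40) (nat_lit 5) (nat_lit 398) (nat_lit 353) (nat_lit 149)) (XT.lf (nat_lit 0) (nat_lit 81508192146) (nat_lit 228) (nat_lit 48593898512) (nat_lit 76) (nat_lit 78084572791) (nat_lit 39) (nat_lit 5) (nat_lit 42) (nat_lit 5) (nat_lit 40) (nat_lit 5) (nat_lit 399) (nat_lit 353) (nat_lit 148))))))) (XT.nd (nat_lit 936) (nat_lit 760) (nat_lit 0) (XT.nd (nat_lit 468) (nat_lit 380) (nat_lit 0) (XT.nd (nat_lit 234) (nat_lit 152)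 (nat_lit 0) (XT.nd (nat_lit 78) (nat_lit 152) (nat_lit 0) (XT.lf (nat_lit 0) (nat_lit 61110858593) (nat_lit 152) (nat_lit 68997306133) (nat_lit 228) (nat_lit 85244461626) (nat_lit 37) (nat_lit 5) (nat_lit 39) (nat_lit 5) (nat_lit 40) (nat_lit 5) (nat_lit 400) (nat_lit 353) (nat_lit 147)) (XT.nd (nat_lit 78) (nat_lit 152) (nat_lit 0) (XT.lf (nat_lit 0) (nat_lit 177987447461) (nat_lit 152) (nat_lit 3973372098) (nat_lit 228) (nat_lit 40874933754) (nat_lit 37) (nat_lit 5) (nat_lit 39) (nat_lit 5) (nat_lit 40) (nat_lit 5) (nat_lit 401) (nat_lit 353) (nat_lit 146)) (XT.lf (nat_lit 0) (nat_lit 7681651938) (nat_lit 152) (nat_lit 159418866650) (nat_lit 76) (nat_lit 63480486500) (nat_lit 35) (nat_lit 5) (nat_lit 37) (nat_lit 5) (nat_lit 36) (nat_lit 5) (nat_lit 402) (nat_lit 353) (nat_lit 145)))) (XT.nd (nat_lit 78) (nat_lit 152) (nat_lit 0) (XT.lf (nat_lit 0) (nat_lit 58129251316) (nat_lit 152)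 (nat_lit 44893541186) (nat_lit 76) (nat_lit 135615380477) (nat_lit 35) (nat_lit 5) (nat_lit 37) (nat_lit 5) (nat_lit 36) (nat_lit 5) (nat_lit 403) (nat_lit 353) (nat_lit 144)) (XT.nd (nat_lit 78) (nat_lit 0) (nat_lit 0) (XT.lf (nat_lit 0) (nat_lit 77849269964) (nat_lit 152) (nat_lit 34465152569) (nat_lit 228) (nat_lit 134723017219) (nat_lit 33) (nat_lit 5) (nat_lit 35) (nat_lit 5) (nat_lit 36) (nat_lit 5) (nat_lit 404) (nat_lit 353) (nat_lit 143)) (XT.lf (nat_lit 0) (nat_lit 170567157017) (nat_lit 228) (nat_lit 48129538865) (nat_lit 76) (nat_lit 37092058819) (nat_lit 33) (nat_lit 5) (nat_lit 36) (nat_lit 5) (nat_lit 34) (nat_lit 4) (nat_lit 405) (nat_lit 353) (nat_lit 142))))) (XT.nd (nat_lit 234) (nat_lit 76) (nat_lit 0) (XT.nd (nat_lit 78) (nat_lit 228) (nat_lit 0) (XT.lf (nat_lit 0) (nat_lit 81009403355) (nat_lit 76) (nat_lit 152552672055) (nat_lit 152) (nat_lit 31324082699) (nat_lit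 32) (nat_lit 5) (nat_lit 33) (nat_lit 5) (nat_lit 34) (nat_lit 4) (nat_lit 406) (nat_lit 353) (nat_lit 141)) (XT.nd (nat_lit 78) (nat_lit 152) (nat_lit 0) (XT.lf (nat_lit 0) (nat_lit 25287785478) (nat_lit 152) (nat_lit 56529732248) (nat_lit 76) (nat_lit 192559777516) (nat_lit 31) (nat_lit 5) (nat_lit 33) (nat_lit 5) (nat_lit 32) (nat_lit 5) (nat_lit 407) (nat_lit 353) (nat_lit 140)) (XT.lf (nat_lit 0) (nat_lit 79205806911) (nat_lit 152) (nat_lit 5708143362) (nat_lit 228) (nat_lit 199341543654) (nat_lit 29) (nat_lit 5) (nat_lit 31) (nat_lit 5) (nat_lit 32) (nat_lit 5) (nat_lit 408) (nat_lit 353) (nat_lit 139)))) (XT.nd (nat_lit 78) (nat_lit 76) (nat_lit 0) (XT.lf (nat_lit 0) (nat_lit 149652825610) (nat_lit 228) (nat_lit 72063703154) (nat_lit 76) (nat_lit 72804503725) (nat_lit 29) (nat_lit 5) (nat_lit 32) (nat_lit 5) (nat_lit 30) (nat_lit 4) (nat_lit 409) (nat_lit 353) (nat_lit 138)) (XT.nd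 (nat_lit 78) (nat_lit 0) (nat_lit 0) (XT.lf (nat_lit 0) (nat_lit 69708730628) (nat_lit 76) (nat_lit 149101624552) (nat_lit 152) (nat_lit 86430407330) (nat_lit 28) (nat_lit 5) (nat_lit 29) (nat_lit 5) (nat_lit 30) (nat_lit 4) (nat_lit 410) (nat_lit 353) (nat_lit 137)) (XT.lf (nat_lit 0) (nat_lit 221071293533) (nat_lit 76) (nat_lit 71574691328) (nat_lit 152) (nat_lit 23789483044) (nat_lit 28) (nat_lit 5) (nat_lit 29) (nat_lit 5) (nat_lit 30) (nat_lit 4) (nat_lit 411) (nat_lit 353) (nat_lit 136)))))) (XT.nd (nat_lit 468) (nat_lit 304) (nat_lit 0) (XT.nd (nat_lit 234) (nat_lit 152) (nat_lit 0) (XT.nd (nat_lit 78) (nat_lit 76) (nat_lit 0) (XT.lf (nat_lit 0) (nat_lit 41642371721) (nat_lit 228) (nat_lit 275445929033) (nat_lit 76) (nat_lit 11018702967) (nat_lit 25) (nat_lit 5) (nat_lit 28) (nat_lit 5) (nat_lit 26) (nat_lit 4) (nat_lit 412) (nat_lit 353) (nat_lit 135)) (XT.nd (nat_lit 78) (nat_lit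 76) (nat_lit 0) (XT.lf (nat_lit 0) (nat_lit 112361004717) (nat_lit 228) (nat_lit 130473144253) (nat_lit 76) (nat_lit 97367734420) (nat_lit 25) (nat_lit 5) (nat_lit 28) (nat_lit 5) (nat_lit 26) (nat_lit 4) (nat_lit 413) (nat_lit 353) (nat_lit 134)) (XT.lf (nat_lit 0) (nat_lit 22467010421) (nat_lit 76) (nat_lit 164499139602) (nat_lit 152) (nat_lit 165917828031) (nat_lit 24) (nat_lit 5) (nat_lit 25) (nat_lit 5) (nat_lit 26) (nat_lit 4) (nat_lit 414) (nat_lit 353) (nat_lit 133)))) (XT.nd (nat_lit 78) (nat_lit 152) (nat_lit 0) (XT.lf (nat_lit 0) (nat_lit 187583557505) (nat_lit 76) (nat_lit 79927432305) (nat_lit 152) (nat_lit 98578715822) (nat_lit 24) (nat_lit 5) (nat_lit 25) (nat_lit 5) (nat_lit 26) (nat_lit 4) (nat_lit 415) (nat_lit 353) (nat_lit 132)) (XT.nd (nat_lit 78) (nat_lit 152) (nat_lit 0) (XT.lf (nat_lit 0) (nat_lit 352221419795) (nat_lit 152) (nat_lit 19138656202) (nat_lit 0) (nat_lit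 8588726220) (nat_lit 24) (nat_lit 5) (nat_lit 26) (nat_lit 4) (nat_lit 24) (nat_lit 4) (nat_lit 416) (nat_lit 353) (nat_lit 131)) (XT.lf (nat_lit 0) (nat_lit 48912464381) (nat_lit 152) (nat_lit 243362465080) (nat_lit 76) (nat_lit 102002516113) (nat_lit 22) (nat_lit 5) (nat_lit 24) (nat_lit 5) (nat_lit 23) (nat_lit 4) (nat_lit 417) (nat_lit 353) (nat_lit 130))))) (XT.nd (nat_lit 234) (nat_lit 228) (nat_lit 0) (XT.nd (nat_lit 78) (nat_lit 76) (nat_lit 0) (XT.lf (nat_lit 0) (nat_lit 128781744686) (nat_lit 152) (nat_lit 79630748541) (nat_lit 76) (nat_lit 200870837394) (nat_lit 22) (nat_lit 5) (nat_lit 24) (nat_lit 5) (nat_lit 23) (nat_lit 4) (nat_lit 418) (nat_lit 353) (nat_lit 129)) (XT.nd (nat_lit 78) (nat_lit 0) (nat_lit 0) (XT.lf (nat_lit 0) (nat_lit 95338679561) (nat_lit 76) (nat_lit 118794148791) (nat_lit 152) (nat_lit 210832264632) (nat_lit 21) (nat_lit 5) (nat_lit 22) (nat_lit 5) (nat_lit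 23) (nat_lit 4) (nat_lit 419) (nat_lit 353) (nat_lit 128)) (XT.lf (nat_lit 0) (nat_lit 281820876395) (nat_lit 76) (nat_lit 23279013555) (nat_lit 152) (nat_lit 136263632359) (nat_lit 21) (nat_lit 5) (nat_lit 22) (nat_lit 5) (nat_lit 23) (nat_lit 4) (nat_lit 420) (nat_lit 353) (nat_lit 127)))) (XT.nd (nat_lit 156) (nat_lit 76) (nat_lit 0) (XT.nd (nat_lit 78) (nat_lit 76) (nat_lit 0) (XT.lf (nat_lit 0) (nat_lit 18432603472) (nat_lit 76) (nat_lit 383672701087) (nat_lit 76) (nat_lit 56402068574) (nat_lit 20) (nat_lit 4) (nat_lit 21) (nat_lit 5) (nat_lit 21) (nat_lit 4) (nat_lit 421) (nat_lit 353) (nat_lit 126)) (XT.lf (nat_lit 0) (nat_lit 29701613115) (nat_lit 152) (nat_lit 266382567019) (nat_lit 76) (nat_lit 180246421136) (nat_lit 19) (nat_lit 5) (nat_lit 21) (nat_lit 5) (nat_lit 20) (nat_lit 4) (nat_lit 422) (nat_lit 353) (nat_lit 125))) (XT.nd (nat_lit 78) (nat_lit 76) (nat_lit 0) (XT.lf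 (nat_lit 0) (nat_lit 118214851405) (nat_lit 152) (nat_lit 84930658421) (nat_lit 76) (nat_lit 291853257215) (nat_lit 19) (nat_lit 5) (nat_lit 21) (nat_lit 5) (nat_lit 20) (nat_lit 4) (nat_lit 423) (nat_lit 353) (nat_lit 124)) (XT.lf (nat_lit 0) (nat_lit 109084979432) (nat_lit 76) (nat_lit 103771753340) (nat_lit 152) (nat_lit 301658459295) (nat_lit 18) (nat_lit 5) (nat_lit 19) (nat_lit 5) (nat_lit 20) (nat_lit 4) (nat_lit 424) (nat_lit 353) (nat_lit 123))))))))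
noncomputable def xc219 : XT := (XT.nd (nat_lit 42978) (nat_lit 0) (nat_lit 1748) (XT.nd (nat_lit 41964) (nat_lit 0) (nat_lit 5016) (XT.nd (nat_lit 41496) (nat_lit 0) (nat_lit 6916) (XT.nd (nat_lit 234) (nat_lit 76) (nat_lit 0) (XT.nd (nat_lit 78) (nat_lit 76) (nat_lit 0) (XT.lf (nat_lit 0) (nat_lit 313701399072) (nat_lit 152) (nat_lit 219218278326) (nat_lit 0) (nat_lit 2014226428) (nat_lit 18) (nat_lit 5) (nat_lit 20) (nat_lit 4) (nat_lit 18) (nat_lit 4) (nat_lit 425) (nat_lit 353) (nat_lit 122)) (XT.nd (nat_lit 78) (nat_lit 76) (nat_lit 0) (XT.lf (nat_lit 0) (nat_lit 421289341264) (nat_lit 152) (nat_lit 25397178318) (nat_lit 0) (nat_lit 109601979482) (nat_lit 18) (nat_lit 5) (nat_lit 20) (nat_lit 4) (nat_lit 18) (nat_lit 4) (nat_lit 426) (nat_lit 353) (nat_lit 121)) (XT.lf (nat_lit 0) (nat_lit 184004011582) (nat_lit 76) (nat_lit 353125359935) (nat_lit 76) (nat_lit 41437818022) (nat_lit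 17) (nat_lit 4) (nat_lit 18) (nat_lit 5) (nat_lit 18) (nat_lit 4) (nat_lit 427) (nat_lit 353) (nat_lit 120)))) (XT.nd (nat_lit 41106) (nat_lit 0) (nat_lit 6840) (XT.lf (nat_lit 0) (nat_lit 55420620646) (nat_lit 152) (nat_lit 198075441140) (nat_lit 76) (nat_lit 348397559297) (nat_lit 16) (nat_lit 5) (nat_lit 18) (nat_lit 5) (nat_lit 17) (nat_lit 4) (nat_lit 428) (nat_lit 353) (nat_lit 119)) (XT.nd (nat_lit 78) (nat_lit 0) (nat_lit 0) (XT.lf (nat_lit 0) (nat_lit 4749343612) (nat_lit 836) (nat_lit 11818836321) (nat_lit 836) (nat_lit 11818836321) (nat_lit 106) (nat_lit 3) (nat_lit 117) (nat_lit 3) (nat_lit 117) (nat_lit 5) (nat_lit 354) (nat_lit 354) (nat_lit 192)) (XT.lf (nat_lit 76) (nat_lit 3603876167) (nat_lit 0) (nat_lit 6208246375) (nat_lit 836) (nat_lit 48377445299) (nat_lit 107) (nat_lit 5) (nat_lit 106) (nat_lit 3) (nat_lit 117) (nat_lit 5) (nat_lit 355) (nat_lit 354) (nat_lit 191)))))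 (XT.nd (nat_lit 234) (nat_lit 0) (nat_lit 76) (XT.nd (nat_lit 78) (nat_lit 0) (nat_lit 0) (XT.lf (nat_lit 0) (nat_lit 10891361295) (nat_lit 760) (nat_lit 26979552449) (nat_lit 836) (nat_lit 21767460705) (nat_lit 107) (nat_lit 5) (nat_lit 117) (nat_lit 5) (nat_lit 118) (nat_lit 5) (nat_lit 356) (nat_lit 354) (nat_lit 190)) (XT.nd (nat_lit 78) (nat_lit 0) (nat_lit 76) (XT.lf (nat_lit 76) (nat_lit 1967364872) (nat_lit 0) (nat_lit 10188485186) (nat_lit 836) (nat_lit 48997207966) (nat_lit 108) (nat_lit 5) (nat_lit 107) (nat_lit 5) (nat_lit 118) (nat_lit 5) (nat_lit 357) (nat_lit 354) (nat_lit 189)) (XT.lf (nat_lit 0) (nat_lit 14241555481) (nat_lit 760) (nat_lit 29725339259) (nat_lit 836) (nat_lit 18738682418) (nat_lit 108) (nat_lit 5) (nat_lit 118) (nat_lit 5) (nat_lit 119) (nat_lit 5) (nat_lit 358) (nat_lit 354) (nat_lit 188)))) (XT.nd (nat_lit 78) (nat_lit 0) (nat_lit 76) (XT.lf (nat_lit 76)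 (nat_lit 1074664514) (nat_lit 0) (nat_lit 15539589857) (nat_lit 836) (nat_lit 47712333412) (nat_lit 109) (nat_lit 5) (nat_lit 108) (nat_lit 5) (nat_lit 119) (nat_lit 5) (nat_lit 359) (nat_lit 354) (nat_lit 187)) (XT.nd (nat_lit 78) (nat_lit 0) (nat_lit 0) (XT.lf (nat_lit 0) (nat_lit 19839609917) (nat_lit 760) (nat_lit 31789256879) (nat_lit 836) (nat_lit 14363081958) (nat_lit 109) (nat_lit 5) (nat_lit 119) (nat_lit 5) (nat_lit 120) (nat_lit 5) (nat_lit 360) (nat_lit 354) (nat_lit 186)) (XT.lf (nat_lit 76) (nat_lit 1023815167) (nat_lit 0) (nat_lit 22472151204) (nat_lit 836) (nat_lit 44231125601) (nat_lit 110) (nat_lit 5) (nat_lit 109) (nat_lit 5) (nat_lit 120) (nat_lit 5) (nat_lit 361) (nat_lit 354) (nat_lit 185)))))) (XT.nd (nat_lit 468) (nat_lit 1064) (nat_lit 0) (XT.nd (nat_lit 234) (nat_lit 1064) (nat_lit 0) (XT.nd (nat_lit 78) (nat_lit 0) (nat_lit 0) (XT.lf (nat_lit 0) (nat_lit 28008499187)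 (nat_lit 760) (nat_lit 33077622540) (nat_lit 836) (nat_lit 8429203514) (nat_lit 110) (nat_lit 5) (nat_lit 120) (nat_lit 5) (nat_lit 121) (nat_lit 5) (nat_lit 362) (nat_lit 354) (nat_lit 184)) (XT.nd (nat_lit 78) (nat_lit 0) (nat_lit 76) (XT.lf (nat_lit 76) (nat_lit 1921672440) (nat_lit 0) (nat_lit 31222471224) (nat_lit 836) (nat_lit 38228953035) (nat_lit 111) (nat_lit 5) (nat_lit 110) (nat_lit 5) (nat_lit 121) (nat_lit 5) (nat_lit 363) (nat_lit 354) (nat_lit 183)) (XT.lf (nat_lit 0) (nat_lit 39107157626) (nat_lit 760) (nat_lit 33488502570) (nat_lit 76) (nat_lit 699567909) (nat_lit 111) (nat_lit 5) (nat_lit 121) (nat_lit 5) (nat_lit 112) (nat_lit 5) (nat_lit 364) (nat_lit 354) (nat_lit 182)))) (XT.nd (nat_lit 78) (nat_lit 380) (nat_lit 0) (XT.lf (nat_lit 0) (nat_lit 3884294017) (nat_lit 760) (nat_lit 42055679237) (nat_lit 836) (nat_lit 29344910984) (nat_lit 101) (nat_lit 5) (nat_lit 111)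 (nat_lit 5) (nat_lit 112) (nat_lit 5) (nat_lit 365) (nat_lit 354) (nat_lit 181)) (XT.nd (nat_lit 78) (nat_lit 380) (nat_lit 0) (XT.lf (nat_lit 0) (nat_lit 44287638642) (nat_lit 760) (nat_lit 9393125855) (nat_lit 836) (nat_lit 23664942611) (nat_lit 101) (nat_lit 5) (nat_lit 111) (nat_lit 5) (nat_lit 112) (nat_lit 5) (nat_lit 366) (nat_lit 354) (nat_lit 180)) (XT.lf (nat_lit 0) (nat_lit 7037275330) (nat_lit 380) (nat_lit 55269220682) (nat_lit 456) (nat_lit 17178180713) (nat_lit 96) (nat_lit 5) (nat_lit 101) (nat_lit 5) (nat_lit 102) (nat_lit 5) (nat_lit 367) (nat_lit 354) (nat_lit 179))))) (XT.nd (nat_lit 234) (nat_lit 684) (nat_lit 0) (XT.nd (nat_lit 78) (nat_lit 380) (nat_lit 0) (XT.lf (nat_lit 0) (nat_lit 50125280514) (nat_lit 380) (nat_lit 21948845691) (nat_lit 456) (nat_lit 9620938620) (nat_lit 96) (nat_lit 5) (nat_lit 101) (nat_lit 5) (nat_lit 102) (nat_lit 5) (nat_lit 368) (nat_lit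 354) (nat_lit 178)) (XT.nd (nat_lit 78) (nat_lit 76) (nat_lit 0) (XT.lf (nat_lit 0) (nat_lit 11516013695) (nat_lit 304) (nat_lit 71196765467) (nat_lit 380) (nat_lit 1284061686) (nat_lit 92) (nat_lit 5) (nat_lit 96) (nat_lit 5) (nat_lit 97) (nat_lit 5) (nat_lit 369) (nat_lit 354) (nat_lit 177)) (XT.lf (nat_lit 0) (nat_lit 8133116883) (nat_lit 380) (nat_lit 29020787594) (nat_lit 76) (nat_lit 49208843928) (nat_lit 91) (nat_lit 5) (nat_lit 96) (nat_lit 5) (nat_lit 92) (nat_lit 5) (nat_lit 370) (nat_lit 354) (nat_lit 176)))) (XT.nd (nat_lit 156) (nat_lit 304) (nat_lit 0) (XT.nd (nat_lit 78) (nat_lit 0) (nat_lit 0) (XT.lf (nat_lit 0) (nat_lit 17139052438) (nat_lit 380) (nat_lit 1105872992) (nat_lit 456) (nat_lit 70587627704) (nat_lit 86) (nat_lit 5) (nat_lit 91) (nat_lit 5) (nat_lit 92) (nat_lit 5) (nat_lit 371) (nat_lit 354) (nat_lit 175)) (XT.lf (nat_lit 0) (nat_lit 29934903369) (nat_lit 456)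 (nat_lit 25369324441) (nat_lit 76) (nat_lit 36067991819) (nat_lit 86) (nat_lit 5) (nat_lit 92) (nat_lit 5) (nat_lit 87) (nat_lit 5) (nat_lit 372) (nat_lit 354) (nat_lit 174))) (XT.nd (nat_lit 78) (nat_lit 0) (nat_lit 0) (XT.lf (nat_lit 0) (nat_lit 24021061785) (nat_lit 304) (nat_lit 18580869535) (nat_lit 380) (nat_lit 51417311027) (nat_lit 82) (nat_lit 5) (nat_lit 86) (nat_lit 5) (nat_lit 87) (nat_lit 5) (nat_lit 373) (nat_lit 354) (nat_lit 173)) (XT.lf (nat_lit 0) (nat_lit 56650321764) (nat_lit 380) (nat_lit 20335078681) (nat_lit 76) (nat_lit 19775815633) (nat_lit 82) (nat_lit 5) (nat_lit 87) (nat_lit 5) (nat_lit 83) (nat_lit 5) (nat_lit 374) (nat_lit 354) (nat_lit 172))))))) (XT.nd (nat_lit 936) (nat_lit 1368) (nat_lit 0) (XT.nd (nat_lit 468) (nat_lit 760) (nat_lit 0) (XT.nd (nat_lit 234) (nat_lit 532) (nat_lit 0) (XT.nd (nat_lit 78) (nat_lit 304) (nat_lit 0) (XT.lf (nat_lit 0) (nat_lit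 32547623546) (nat_lit 304) (nat_lit 39665703820) (nat_lit 380) (nat_lit 27386351760) (nat_lit 78) (nat_lit 5) (nat_lit 82) (nat_lit 5) (nat_lit 83) (nat_lit 5) (nat_lit 375) (nat_lit 354) (nat_lit 171)) (XT.nd (nat_lit 78) (nat_lit 304) (nat_lit 0) (XT.lf (nat_lit 0) (nat_lit 88779782282) (nat_lit 304) (nat_lit 118533624) (nat_lit 380) (nat_lit 13664558180) (nat_lit 78) (nat_lit 5) (nat_lit 82) (nat_lit 5) (nat_lit 83) (nat_lit 5) (nat_lit 376) (nat_lit 354) (nat_lit 170)) (XT.lf (nat_lit 0) (nat_lit 2056423122) (nat_lit 304) (nat_lit 62767184171) (nat_lit 76) (nat_lit 40783197132) (nat_lit 74) (nat_lit 5) (nat_lit 78) (nat_lit 5) (nat_lit 75) (nat_lit 5) (nat_lit 377) (nat_lit 354) (nat_lit 169)))) (XT.nd (nat_lit 78) (nat_lit 532) (nat_lit 0) (XT.lf (nat_lit 0) (nat_lit 18342906899) (nat_lit 304) (nat_lit 6249720045) (nat_lit 76) (nat_lit 84187170611) (nat_lit 74) (nat_lit 5) (nat_lit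 78) (nat_lit 5) (nat_lit 75) (nat_lit 5) (nat_lit 378) (nat_lit 354) (nat_lit 168)) (XT.nd (nat_lit 78) (nat_lit 228) (nat_lit 0) (XT.lf (nat_lit 0) (nat_lit 36589157756) (nat_lit 380) (nat_lit 57509773088) (nat_lit 76) (nat_lit 17955237677) (nat_lit 70) (nat_lit 5) (nat_lit 75) (nat_lit 5) (nat_lit 71) (nat_lit 5) (nat_lit 379) (nat_lit 354) (nat_lit 167)) (XT.lf (nat_lit 0) (nat_lit 2792050086) (nat_lit 228) (nat_lit 53509513268) (nat_lit 304) (nat_lit 59163002876) (nat_lit 67) (nat_lit 5) (nat_lit 70) (nat_lit 5) (nat_lit 71) (nat_lit 5) (nat_lit 380) (nat_lit 354) (nat_lit 166))))) (XT.nd (nat_lit 234) (nat_lit 456) (nat_lit 0) (XT.nd (nat_lit 78) (nat_lit 304) (nat_lit 0) (XT.lf (nat_lit 0) (nat_lit 68104937375) (nat_lit 228) (nat_lit 9868136332) (nat_lit 304) (nat_lit 41023736187) (nat_lit 67) (nat_lit 5) (nat_lit 70) (nat_lit 5) (nat_lit 71) (nat_lit 5) (nat_lit 381) (nat_lit 354)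 (nat_lit 165)) (XT.nd (nat_lit 78) (nat_lit 76) (nat_lit 0) (XT.lf (nat_lit 0) (nat_lit 13859401062) (nat_lit 228) (nat_lit 87646054383) (nat_lit 304) (nat_lit 21161345783) (nat_lit 64) (nat_lit 5) (nat_lit 67) (nat_lit 5) (nat_lit 68) (nat_lit 5) (nat_lit 382) (nat_lit 354) (nat_lit 164)) (XT.lf (nat_lit 0) (nat_lit 741286205) (nat_lit 304) (nat_lit 43033867303) (nat_lit 76) (nat_lit 82693510952) (nat_lit 63) (nat_lit 5) (nat_lit 67) (nat_lit 5) (nat_lit 64) (nat_lit 5) (nat_lit 383) (nat_lit 354) (nat_lit 163)))) (XT.nd (nat_lit 78) (nat_lit 228) (nat_lit 0) (XT.lf (nat_lit 0) (nat_lit 23489887939) (nat_lit 304) (nat_lit 103940845567) (nat_lit 76) (nat_lit 2989442315) (nat_lit 60) (nat_lit 5) (nat_lit 64) (nat_lit 5) (nat_lit 61) (nat_lit 5) (nat_lit 384) (nat_lit 354) (nat_lit 162)) (XT.nd (nat_lit 78) (nat_lit 228) (nat_lit 0) (XT.lf (nat_lit 0) (nat_lit 48833874715) (nat_lit 304) (nat_lit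 34300779216) (nat_lit 76) (nat_lit 51361711299) (nat_lit 60) (nat_lit 5) (nat_lit 64) (nat_lit 5) (nat_lit 61) (nat_lit 5) (nat_lit 385) (nat_lit 354) (nat_lit 161)) (XT.lf (nat_lit 0) (nat_lit 40104297646) (nat_lit 228) (nat_lit 35966506132) (nat_lit 304) (nat_lit 62674273405) (nat_lit 57) (nat_lit 5) (nat_lit 60) (nat_lit 5) (nat_lit 61) (nat_lit 5) (nat_lit 386) (nat_lit 354) (nat_lit 160)))))) (XT.nd (nat_lit 468) (nat_lit 760) (nat_lit 0) (XT.nd (nat_lit 234) (nat_lit 380) (nat_lit 0) (XT.nd (nat_lit 78) (nat_lit 228) (nat_lit 0) (XT.lf (nat_lit 0) (nat_lit 105471322518) (nat_lit 304) (nat_lit 23978527219) (nat_lit 76) (nat_lit 13716288042) (nat_lit 57) (nat_lit 5) (nat_lit 61) (nat_lit 5) (nat_lit 58) (nat_lit 5) (nat_lit 387) (nat_lit 354) (nat_lit 159)) (XT.nd (nat_lit 78) (nat_lit 76) (nat_lit 0) (XT.lf (nat_lit 0) (nat_lit 55606415291) (nat_lit 152) (nat_lit 82192866934) (nat_lit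 228) (nat_lit 9936098627) (nat_lit 55) (nat_lit 5) (nat_lit 57) (nat_lit 5) (nat_lit 58) (nat_lit 5) (nat_lit 388) (nat_lit 354) (nat_lit 158)) (XT.lf (nat_lit 0) (nat_lit 19008072452) (nat_lit 228) (nat_lit 12816847662) (nat_lit 76) (nat_lit 120672550801) (nat_lit 54) (nat_lit 5) (nat_lit 57) (nat_lit 5) (nat_lit 55) (nat_lit 5) (nat_lit 389) (nat_lit 354) (nat_lit 157)))) (XT.nd (nat_lit 78) (nat_lit 152) (nat_lit 0) (XT.lf (nat_lit 0) (nat_lit 50549095244) (nat_lit 304) (nat_lit 85161126097) (nat_lit 76) (nat_lit 21705121906) (nat_lit 51) (nat_lit 5) (nat_lit 55) (nat_lit 5) (nat_lit 52) (nat_lit 5) (nat_lit 390) (nat_lit 354) (nat_lit 156)) (XT.nd (nat_lit 78) (nat_lit 152) (nat_lit 0) (XT.lf (nat_lit 0) (nat_lit 84409161371) (nat_lit 304) (nat_lit 1070269751) (nat_lit 76) (nat_lit 77062578627) (nat_lit 51) (nat_lit 5) (nat_lit 55) (nat_lit 5) (nat_lit 52) (nat_lit 5) (nat_lit 391)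 (nat_lit 354) (nat_lit 155)) (XT.lf (nat_lit 0) (nat_lit 90108652469) (nat_lit 152) (nat_lit 31260097715) (nat_lit 228) (nat_lit 46485933578) (nat_lit 49) (nat_lit 5) (nat_lit 51) (nat_lit 5) (nat_lit 52) (nat_lit 5) (nat_lit 392) (nat_lit 354) (nat_lit 154))))) (XT.nd (nat_lit 234) (nat_lit 380) (nat_lit 0) (XT.nd (nat_lit 78) (nat_lit 228) (nat_lit 0) (XT.lf (nat_lit 0) (nat_lit 12448417579) (nat_lit 152) (nat_lit 148341137631) (nat_lit 228) (nat_lit 12612774574) (nat_lit 47) (nat_lit 5) (nat_lit 49) (nat_lit 5) (nat_lit 50) (nat_lit 5) (nat_lit 393) (nat_lit 354) (nat_lit 153)) (XT.nd (nat_lit 78) (nat_lit 152) (nat_lit 0) (XT.lf (nat_lit 0) (nat_lit 24069759363) (nat_lit 228) (nat_lit 70202715390) (nat_lit 76) (nat_lit 84844445158) (nat_lit 46) (nat_lit 5) (nat_lit 49) (nat_lit 5) (nat_lit 47) (nat_lit 5) (nat_lit 394) (nat_lit 354) (nat_lit 152)) (XT.lf (nat_lit 0) (nat_lit 25701380177)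 (nat_lit 152) (nat_lit 36862131524) (nat_lit 228) (nat_lit 122523341450) (nat_lit 44) (nat_lit 5) (nat_lit 46) (nat_lit 5) (nat_lit 47) (nat_lit 5) (nat_lit 395) (nat_lit 354) (nat_lit 151)))) (XT.nd (nat_lit 156) (nat_lit 228) (nat_lit 0) (XT.nd (nat_lit 78) (nat_lit 152) (nat_lit 0) (XT.lf (nat_lit 0) (nat_lit 104555688073) (nat_lit 228) (nat_lit 62843502414) (nat_lit 76) (nat_lit 23877405866) (nat_lit 44) (nat_lit 5) (nat_lit 47) (nat_lit 5) (nat_lit 45) (nat_lit 5) (nat_lit 396) (nat_lit 354) (nat_lit 150)) (XT.lf (nat_lit 0) (nat_lit 39174622916) (nat_lit 152) (nat_lit 110688484696) (nat_lit 228) (nat_lit 47851937502) (nat_lit 42) (nat_lit 5) (nat_lit 44) (nat_lit 5) (nat_lit 45) (nat_lit 5) (nat_lit 397) (nat_lit 354) (nat_lit 149))) (XT.nd (nat_lit 78) (nat_lit 228) (nat_lit 0) (XT.lf (nat_lit 0) (nat_lit 148474967638) (nat_lit 152) (nat_lit 50024933452) (nat_lit 228) (nat_lit 5922315186)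 (nat_lit 42) (nat_lit 5) (nat_lit 44) (nat_lit 5) (nat_lit 45) (nat_lit 5) (nat_lit 398) (nat_lit 354) (nat_lit 148)) (XT.lf (nat_lit 0) (nat_lit 37946180533) (nat_lit 228) (nat_lit 158758009568) (nat_lit 76) (nat_lit 14677713074) (nat_lit 39) (nat_lit 5) (nat_lit 42) (nat_lit 5) (nat_lit 40) (nat_lit 5) (nat_lit 399) (nat_lit 354) (nat_lit 147))))))))
noncomputable def xc220 : XT := (XT.nd (nat_lit 1872) (nat_lit 152) (nat_lit 0) (XT.nd (nat_lit 936) (nat_lit 684) (nat_lit 0) (XT.nd (nat_lit 468) (nat_lit 380) (nat_lit 0) (XT.nd (nat_lit 234) (nat_lit 304) (nat_lit 0) (XT.nd (nat_lit 78) (nat_lit 152) (nat_lit 0) (XT.lf (nat_lit 0) (nat_lit 85591909581) (nat_lit 228) (nat_lit 51009406592) (nat_lit 76) (nat_lit 81994262127) (nat_lit 39) (nat_lit 5) (nat_lit 42) (nat_lit 5) (nat_lit 40) (nat_lit 5) (nat_lit 400) (nat_lit 354) (nat_lit 146)) (XT.nd (nat_lit 78) (nat_lit 0) (nat_lit 0) (XT.lf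 (nat_lit 0) (nat_lit 64180359548) (nat_lit 152) (nat_lit 72441343554) (nat_lit 228) (nat_lit 89498145269) (nat_lit 37) (nat_lit 5) (nat_lit 39) (nat_lit 5) (nat_lit 40) (nat_lit 5) (nat_lit 401) (nat_lit 354) (nat_lit 145)) (XT.lf (nat_lit 0) (nat_lit 186900113192) (nat_lit 152) (nat_lit 4166490335) (nat_lit 228) (nat_lit 42910547643) (nat_lit 37) (nat_lit 5) (nat_lit 39) (nat_lit 5) (nat_lit 40) (nat_lit 5) (nat_lit 402) (nat_lit 354) (nat_lit 144)))) (XT.nd (nat_lit 78) (nat_lit 152) (nat_lit 0) (XT.lf (nat_lit 0) (nat_lit 8073528316) (nat_lit 152) (nat_lit 167376172662) (nat_lit 76) (nat_lit 66659962264) (nat_lit 35) (nat_lit 5) (nat_lit 37) (nat_lit 5) (nat_lit 36) (nat_lit 5) (nat_lit 403) (nat_lit 354) (nat_lit 143)) (XT.nd (nat_lit 78) (nat_lit 152) (nat_lit 0) (XT.lf (nat_lit 0) (nat_lit 61043136530) (nat_lit 152) (nat_lit 47125230321) (nat_lit 76) (nat_lit 142401341348) (nat_lit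 35) (nat_lit 5) (nat_lit 37) (nat_lit 5) (nat_lit 36) (nat_lit 5) (nat_lit 404) (nat_lit 354) (nat_lit 142)) (XT.lf (nat_lit 0) (nat_lit 81754511904) (nat_lit 152) (nat_lit 36182900451) (nat_lit 228) (nat_lit 141451533761) (nat_lit 33) (nat_lit 5) (nat_lit 35) (nat_lit 5) (nat_lit 36) (nat_lit 5) (nat_lit 405) (nat_lit 354) (nat_lit 141))))) (XT.nd (nat_lit 234) (nat_lit 228) (nat_lit 0) (XT.nd (nat_lit 78) (nat_lit 152) (nat_lit 0) (XT.lf (nat_lit 0) (nat_lit 179102519362) (nat_lit 228) (nat_lit 50523579578) (nat_lit 76) (nat_lit 38951741188) (nat_lit 33) (nat_lit 5) (nat_lit 36) (nat_lit 5) (nat_lit 34) (nat_lit 4) (nat_lit 406) (nat_lit 354) (nat_lit 140)) (XT.nd (nat_lit 78) (nat_lit 76) (nat_lit 0) (XT.lf (nat_lit 0) (nat_lit 85072109169) (nat_lit 76) (nat_lit 160174931991) (nat_lit 152) (nat_lit 32883079772) (nat_lit 32) (nat_lit 5) (nat_lit 33) (nat_lit 5) (nat_lit 34) (nat_lit 4)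 (nat_lit 407) (nat_lit 354) (nat_lit 139)) (XT.lf (nat_lit 0) (nat_lit 26558818934) (nat_lit 152) (nat_lit 59344344379) (nat_lit 76) (nat_lit 202192662683) (nat_lit 31) (nat_lit 5) (nat_lit 33) (nat_lit 5) (nat_lit 32) (nat_lit 5) (nat_lit 408) (nat_lit 354) (nat_lit 138)))) (XT.nd (nat_lit 78) (nat_lit 76) (nat_lit 0) (XT.lf (nat_lit 0) (nat_lit 83177780215) (nat_lit 152) (nat_lit 5988377768) (nat_lit 228) (nat_lit 209301783417) (nat_lit 29) (nat_lit 5) (nat_lit 31) (nat_lit 5) (nat_lit 32) (nat_lit 5) (nat_lit 409) (nat_lit 354) (nat_lit 137)) (XT.nd (nat_lit 78) (nat_lit 76) (nat_lit 0) (XT.lf (nat_lit 0) (nat_lit 157141743993) (nat_lit 228) (nat_lit 75655526959) (nat_lit 76) (nat_lit 76449497674) (nat_lit 29) (nat_lit 5) (nat_lit 32) (nat_lit 5) (nat_lit 30) (nat_lit 4) (nat_lit 410) (nat_lit 354) (nat_lit 136)) (XT.lf (nat_lit 0) (nat_lit 73205345265) (nat_lit 76) (nat_lit 156551680389)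 (nat_lit 152) (nat_lit 90745465792) (nat_lit 28) (nat_lit 5) (nat_lit 29) (nat_lit 5) (nat_lit 30) (nat_lit 4) (nat_lit 411) (nat_lit 354) (nat_lit 135)))))) (XT.nd (nat_lit 468) (nat_lit 380) (nat_lit 0) (XT.nd (nat_lit 234) (nat_lit 76) (nat_lit 0) (XT.nd (nat_lit 78) (nat_lit 228) (nat_lit 0) (XT.lf (nat_lit 0) (nat_lit 232135504025) (nat_lit 76) (nat_lit 75148639808) (nat_lit 152) (nat_lit 24972803002) (nat_lit 28) (nat_lit 5) (nat_lit 29) (nat_lit 5) (nat_lit 30) (nat_lit 4) (nat_lit 412) (nat_lit 354) (nat_lit 134)) (XT.nd (nat_lit 78) (nat_lit 0) (nat_lit 0) (XT.lf (nat_lit 0) (nat_lit 43730405826) (nat_lit 228) (nat_lit 289207338242) (nat_lit 76) (nat_lit 11574312720) (nat_lit 25) (nat_lit 5) (nat_lit 28) (nat_lit 5) (nat_lit 26) (nat_lit 4) (nat_lit 413) (nat_lit 354) (nat_lit 133)) (XT.lf (nat_lit 0) (nat_lit 117984688781) (nat_lit 228) (nat_lit 136986432663) (nat_lit 76) (nat_lit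 102240573145) (nat_lit 25) (nat_lit 5) (nat_lit 28) (nat_lit 5) (nat_lit 26) (nat_lit 4) (nat_lit 414) (nat_lit 354) (nat_lit 132)))) (XT.nd (nat_lit 78) (nat_lit 0) (nat_lit 0) (XT.lf (nat_lit 0) (nat_lit 23600562506) (nat_lit 76) (nat_lit 172719419843) (nat_lit 152) (nat_lit 174207917147) (nat_lit 24) (nat_lit 5) (nat_lit 25) (nat_lit 5) (nat_lit 26) (nat_lit 4) (nat_lit 415) (nat_lit 354) (nat_lit 131)) (XT.nd (nat_lit 78) (nat_lit 0) (nat_lit 0) (XT.lf (nat_lit 0) (nat_lit 196972451155) (nat_lit 76) (nat_lit 83919349883) (nat_lit 152) (nat_lit 103502125627) (nat_lit 24) (nat_lit 5) (nat_lit 25) (nat_lit 5) (nat_lit 26) (nat_lit 4) (nat_lit 416) (nat_lit 354) (nat_lit 130)) (XT.lf (nat_lit 0) (nat_lit 369837568193) (nat_lit 152) (nat_lit 20086150457) (nat_lit 0) (nat_lit 9022268703) (nat_lit 24) (nat_lit 5) (nat_lit 26) (nat_lit 4) (nat_lit 24) (nat_lit 4) (nat_lit 417) (nat_lit 354)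 (nat_lit 129))))) (XT.nd (nat_lit 234) (nat_lit 152) (nat_lit 0) (XT.nd (nat_lit 78) (nat_lit 76) (nat_lit 0) (XT.lf (nat_lit 0) (nat_lit 51363150881) (nat_lit 152) (nat_lit 255521133597) (nat_lit 76) (nat_lit 107106779210) (nat_lit 22) (nat_lit 5) (nat_lit 24) (nat_lit 5) (nat_lit 23) (nat_lit 4) (nat_lit 418) (nat_lit 354) (nat_lit 128)) (XT.nd (nat_lit 78) (nat_lit 76) (nat_lit 0) (XT.lf (nat_lit 0) (nat_lit 135225654092) (nat_lit 152) (nat_lit 83603281457) (nat_lit 76) (nat_lit 210918319540) (nat_lit 22) (nat_lit 5) (nat_lit 24) (nat_lit 5) (nat_lit 23) (nat_lit 4) (nat_lit 419) (nat_lit 354) (nat_lit 127)) (XT.lf (nat_lit 0) (nat_lit 100114472816) (nat_lit 76) (nat_lit 124729727816) (nat_lit 152) (nat_lit 221368909549) (nat_lit 21) (nat_lit 5) (nat_lit 22) (nat_lit 5) (nat_lit 23) (nat_lit 4) (nat_lit 420) (nat_lit 354) (nat_lit 126)))) (XT.nd (nat_lit 78) (nat_lit 152) (nat_lit 0)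 (XT.lf (nat_lit 0) (nat_lit 295920357622) (nat_lit 76) (nat_lit 24439032409) (nat_lit 152) (nat_lit 143072082249) (nat_lit 21) (nat_lit 5) (nat_lit 22) (nat_lit 5) (nat_lit 23) (nat_lit 4) (nat_lit 421) (nat_lit 354) (nat_lit 125)) (XT.nd (nat_lit 78) (nat_lit 76) (nat_lit 0) (XT.lf (nat_lit 0) (nat_lit 19362697066) (nat_lit 76) (nat_lit 402852354354) (nat_lit 76) (nat_lit 59217465463) (nat_lit 20) (nat_lit 4) (nat_lit 21) (nat_lit 5) (nat_lit 21) (nat_lit 4) (nat_lit 422) (nat_lit 354) (nat_lit 124)) (XT.lf (nat_lit 0) (nat_lit 31191032723) (nat_lit 152) (nat_lit 279693490756) (nat_lit 76) (nat_lit 189262390158) (nat_lit 19) (nat_lit 5) (nat_lit 21) (nat_lit 5) (nat_lit 20) (nat_lit 4) (nat_lit 423) (nat_lit 354) (nat_lit 123))))))) (XT.nd (nat_lit 42042) (nat_lit 0) (nat_lit 4940) (XT.nd (nat_lit 41574) (nat_lit 0) (nat_lit 6764) (XT.nd (nat_lit 234) (nat_lit 76) (nat_lit 0) (XT.nd (nat_lit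 78) (nat_lit 76) (nat_lit 0) (XT.lf (nat_lit 0) (nat_lit 124129726311) (nat_lit 152) (nat_lit 89169377425) (nat_lit 76) (nat_lit 306449394329) (nat_lit 19) (nat_lit 5) (nat_lit 21) (nat_lit 5) (nat_lit 20) (nat_lit 4) (nat_lit 424) (nat_lit 354) (nat_lit 122)) (XT.nd (nat_lit 78) (nat_lit 0) (nat_lit 0) (XT.lf (nat_lit 0) (nat_lit 114546916291) (nat_lit 76) (nat_lit 108956708708) (nat_lit 152) (nat_lit 316737123215) (nat_lit 18) (nat_lit 5) (nat_lit 19) (nat_lit 5) (nat_lit 20) (nat_lit 4) (nat_lit 425) (nat_lit 354) (nat_lit 121)) (XT.lf (nat_lit 0) (nat_lit 329390385500) (nat_lit 152) (nat_lit 230171730686) (nat_lit 0) (nat_lit 2118286361) (nat_lit 18) (nat_lit 5) (nat_lit 20) (nat_lit 4) (nat_lit 18) (nat_lit 4) (nat_lit 426) (nat_lit 354) (nat_lit 120)))) (XT.nd (nat_lit 78) (nat_lit 76) (nat_lit 0) (XT.lf (nat_lit 0) (nat_lit 442357538303) (nat_lit 152) (nat_lit 26659930990) (nat_lit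 0) (nat_lit 115085267611) (nat_lit 18) (nat_lit 5) (nat_lit 20) (nat_lit 4) (nat_lit 18) (nat_lit 4) (nat_lit 427) (nat_lit 354) (nat_lit 119)) (XT.nd (nat_lit 41184) (nat_lit 0) (nat_lit 6764) (XT.lf (nat_lit 0) (nat_lit 193211203789) (nat_lit 76) (nat_lit 370778297821) (nat_lit 76) (nat_lit 43505863745) (nat_lit 17) (nat_lit 4) (nat_lit 18) (nat_lit 5) (nat_lit 18) (nat_lit 4) (nat_lit 428) (nat_lit 354) (nat_lit 118)) (XT.lf (nat_lit 0) (nat_lit 5006204727) (nat_lit 836) (nat_lit 12399587917) (nat_lit 836) (nat_lit 12399587917) (nat_lit 106) (nat_lit 3) (nat_lit 117) (nat_lit 3) (nat_lit 117) (nat_lit 5) (nat_lit 355) (nat_lit 355) (nat_lit 190))))) (XT.nd (nat_lit 234) (nat_lit 0) (nat_lit 152) (XT.nd (nat_lit 78) (nat_lit 0) (nat_lit 76) (XT.lf (nat_lit 76) (nat_lit 3804121698) (nat_lit 0) (nat_lit 6535860863) (nat_lit 836) (nat_lit 50757168962) (nat_lit 107) (nat_lit 5) (nat_lit 106)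 (nat_lit 3) (nat_lit 117) (nat_lit 5) (nat_lit 356) (nat_lit 355) (nat_lit 189)) (XT.nd (nat_lit 78) (nat_lit 0) (nat_lit 0) (XT.lf (nat_lit 0) (nat_lit 11471153472) (nat_lit 760) (nat_lit 28307372923) (nat_lit 836) (nat_lit 22839975080) (nat_lit 107) (nat_lit 5) (nat_lit 117) (nat_lit 5) (nat_lit 118) (nat_lit 5) (nat_lit 357) (nat_lit 355) (nat_lit 188)) (XT.lf (nat_lit 76) (nat_lit 2086549020) (nat_lit 0) (nat_lit 10710965309) (nat_lit 836) (nat_lit 51411473969) (nat_lit 108) (nat_lit 5) (nat_lit 107) (nat_lit 5) (nat_lit 118) (nat_lit 5) (nat_lit 358) (nat_lit 355) (nat_lit 187)))) (XT.nd (nat_lit 78) (nat_lit 0) (nat_lit 0) (XT.lf (nat_lit 0) (nat_lit 14985697950) (nat_lit 760) (nat_lit 31189946822) (nat_lit 836) (nat_lit 19663580354) (nat_lit 108) (nat_lit 5) (nat_lit 118) (nat_lit 5) (nat_lit 119) (nat_lit 5) (nat_lit 359) (nat_lit 355) (nat_lit 186)) (XT.nd (nat_lit 78) (nat_lit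 0) (nat_lit 76) (XT.lf (nat_lit 76) (nat_lit 1149707795) (nat_lit 0) (nat_lit 16326129810) (nat_lit 836) (nat_lit 50065509704) (nat_lit 109) (nat_lit 5) (nat_lit 108) (nat_lit 5) (nat_lit 119) (nat_lit 5) (nat_lit 360) (nat_lit 355) (nat_lit 185)) (XT.lf (nat_lit 0) (nat_lit 20860848745) (nat_lit 760) (nat_lit 33356787166) (nat_lit 836) (nat_lit 15072422280) (nat_lit 109) (nat_lit 5) (nat_lit 119) (nat_lit 5) (nat_lit 120) (nat_lit 5) (nat_lit 361) (nat_lit 355) (nat_lit 184)))))) (XT.nd (nat_lit 468) (nat_lit 1444) (nat_lit 0) (XT.nd (nat_lit 234) (nat_lit 608) (nat_lit 0) (XT.nd (nat_lit 78) (nat_lit 0) (nat_lit 76) (XT.lf (nat_lit 76) (nat_lit 1096584732) (nat_lit 0) (nat_lit 23602381942) (nat_lit 836) (nat_lit 46413045909) (nat_lit 110) (nat_lit 5) (nat_lit 109) (nat_lit 5) (nat_lit 120) (nat_lit 5) (nat_lit 362) (nat_lit 355) (nat_lit 183)) (XT.nd (nat_lit 78) (nat_lit 0) (nat_lit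 0) (XT.lf (nat_lit 0) (nat_lit 29435684697) (nat_lit 760) (nat_lit 34709488236) (nat_lit 836) (nat_lit 8844557790) (nat_lit 110) (nat_lit 5) (nat_lit 120) (nat_lit 5) (nat_lit 121) (nat_lit 5) (nat_lit 363) (nat_lit 355) (nat_lit 182)) (XT.lf (nat_lit 76) (nat_lit 2039416404) (nat_lit 0) (nat_lit 32787758859) (nat_lit 836) (nat_lit 40113263380) (nat_lit 111) (nat_lit 5) (nat_lit 110) (nat_lit 5) (nat_lit 121) (nat_lit 5) (nat_lit 364) (nat_lit 355) (nat_lit 181)))) (XT.nd (nat_lit 78) (nat_lit 760) (nat_lit 0) (XT.lf (nat_lit 0) (nat_lit 41087048273) (nat_lit 760) (nat_lit 35140986512) (nat_lit 76) (nat_lit 730707450) (nat_lit 111) (nat_lit 5) (nat_lit 121) (nat_lit 5) (nat_lit 112) (nat_lit 5) (nat_lit 365) (nat_lit 355) (nat_lit 180)) (XT.nd (nat_lit 78) (nat_lit 0) (nat_lit 0) (XT.lf (nat_lit 0) (nat_lit 4100096014) (nat_lit 760) (nat_lit 44160577480) (nat_lit 836) (nat_lit 30787250224)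 (nat_lit 101) (nat_lit 5) (nat_lit 111) (nat_lit 5) (nat_lit 112) (nat_lit 5) (nat_lit 366) (nat_lit 355) (nat_lit 179)) (XT.lf (nat_lit 0) (nat_lit 46522579904) (nat_lit 760) (nat_lit 9864795748) (nat_lit 836) (nat_lit 24824469446) (nat_lit 101) (nat_lit 5) (nat_lit 111) (nat_lit 5) (nat_lit 112) (nat_lit 5) (nat_lit 367) (nat_lit 355) (nat_lit 178))))) (XT.nd (nat_lit 234) (nat_lit 760) (nat_lit 0) (XT.nd (nat_lit 78) (nat_lit 304) (nat_lit 0) (XT.lf (nat_lit 0) (nat_lit 7410526613) (nat_lit 380) (nat_lit 58033096205) (nat_lit 456) (nat_lit 18014179814) (nat_lit 96) (nat_lit 5) (nat_lit 101) (nat_lit 5) (nat_lit 102) (nat_lit 5) (nat_lit 368) (nat_lit 355) (nat_lit 177)) (XT.nd (nat_lit 78) (nat_lit 304) (nat_lit 0) (XT.lf (nat_lit 0) (nat_lit 52651913604) (nat_lit 380) (nat_lit 23046682728) (nat_lit 456) (nat_lit 10080166566) (nat_lit 96) (nat_lit 5) (nat_lit 101) (nat_lit 5) (nat_lit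 102) (nat_lit 5) (nat_lit 369) (nat_lit 355) (nat_lit 176)) (XT.lf (nat_lit 0) (nat_lit 12112899125) (nat_lit 304) (nat_lit 74755617380) (nat_lit 380) (nat_lit 1327145296) (nat_lit 92) (nat_lit 5) (nat_lit 96) (nat_lit 5) (nat_lit 97) (nat_lit 5) (nat_lit 370) (nat_lit 355) (nat_lit 175)))) (XT.nd (nat_lit 156) (nat_lit 304) (nat_lit 0) (XT.nd (nat_lit 78) (nat_lit 380) (nat_lit 0) (XT.lf (nat_lit 0) (nat_lit 8559242745) (nat_lit 380) (nat_lit 30451087831) (nat_lit 76) (nat_lit 51669567082) (nat_lit 91) (nat_lit 5) (nat_lit 96) (nat_lit 5) (nat_lit 92) (nat_lit 5) (nat_lit 371) (nat_lit 355) (nat_lit 174)) (XT.lf (nat_lit 0) (nat_lit 18016409701) (nat_lit 380) (nat_lit 1159623450) (nat_lit 456) (nat_lit 74097190600) (nat_lit 86) (nat_lit 5) (nat_lit 91) (nat_lit 5) (nat_lit 92) (nat_lit 5) (nat_lit 372) (nat_lit 355) (nat_lit 173))) (XT.nd (nat_lit 78) (nat_lit 304) (nat_lit 0) (XT.lf (nat_lit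 0) (nat_lit 31449634768) (nat_lit 456) (nat_lit 26617469151) (nat_lit 76) (nat_lit 37872814077) (nat_lit 86) (nat_lit 5) (nat_lit 92) (nat_lit 5) (nat_lit 87) (nat_lit 5) (nat_lit 373) (nat_lit 355) (nat_lit 172)) (XT.lf (nat_lit 0) (nat_lit 25242108619) (nat_lit 304) (nat_lit 19507361168) (nat_lit 380) (nat_lit 53969849912) (nat_lit 82) (nat_lit 5) (nat_lit 86) (nat_lit 5) (nat_lit 87) (nat_lit 5) (nat_lit 374) (nat_lit 355) (nat_lit 171))))))))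
noncomputable def xc221 : XT := (XT.nd (nat_lit 1950) (nat_lit 1748) (nat_lit 0) (XT.nd (nat_lit 936) (nat_lit 1368) (nat_lit 0) (XT.nd (nat_lit 468) (nat_lit 760) (nat_lit 0) (XT.nd (nat_lit 234) (nat_lit 608) (nat_lit 0) (XT.nd (nat_lit 78) (nat_lit 304) (nat_lit 0) (XT.lf (nat_lit 0) (nat_lit 59499487131) (nat_lit 380) (nat_lit 21331986264) (nat_lit 76) (nat_lit 20766958957) (nat_lit 82) (nat_lit 5) (nat_lit 87) (nat_lit 5) (nat_lit 83) (nat_lit 5) (nat_lit 375) (nat_lit 355) (nat_lit 170)) (XT.nd (nat_lit 78) (nat_lit 0) (nat_lit 0) (XT.lf (nat_lit 0) (nat_lit 34194530972) (nat_lit 304) (nat_lit 41645624078) (nat_lit 380) (nat_lit 28738688475) (nat_lit 78) (nat_lit 5) (nat_lit 82) (nat_lit 5) (nat_lit 83) (nat_lit 5) (nat_lit 376) (nat_lit 355) (nat_lit 169)) (XT.lf (nat_lit 0) (nat_lit 93237367823) (nat_lit 304) (nat_lit 121255608) (nat_lit 380) (nat_lit 14331613829) (nat_lit 78) (nat_lit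 5) (nat_lit 82) (nat_lit 5) (nat_lit 83) (nat_lit 5) (nat_lit 377) (nat_lit 355) (nat_lit 168)))) (XT.nd (nat_lit 78) (nat_lit 304) (nat_lit 0) (XT.lf (nat_lit 0) (nat_lit 2174503646) (nat_lit 304) (nat_lit 65886013711) (nat_lit 76) (nat_lit 42825854395) (nat_lit 74) (nat_lit 5) (nat_lit 78) (nat_lit 5) (nat_lit 75) (nat_lit 5) (nat_lit 378) (nat_lit 355) (nat_lit 167)) (XT.nd (nat_lit 78) (nat_lit 304) (nat_lit 0) (XT.lf (nat_lit 0) (nat_lit 19274584975) (nat_lit 304) (nat_lit 6543606362) (nat_lit 76) (nat_lit 88399860005) (nat_lit 74) (nat_lit 5) (nat_lit 78) (nat_lit 5) (nat_lit 75) (nat_lit 5) (nat_lit 379) (nat_lit 355) (nat_lit 166)) (XT.lf (nat_lit 0) (nat_lit 38432807206) (nat_lit 380) (nat_lit 60366311884) (nat_lit 76) (nat_lit 18857039274) (nat_lit 70) (nat_lit 5) (nat_lit 75) (nat_lit 5) (nat_lit 71) (nat_lit 5) (nat_lit 380) (nat_lit 355) (nat_lit 165))))) (XT.nd (nat_lit 234)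 (nat_lit 304) (nat_lit 0) (XT.nd (nat_lit 78) (nat_lit 228) (nat_lit 0) (XT.lf (nat_lit 0) (nat_lit 2950296806) (nat_lit 228) (nat_lit 56180151579) (nat_lit 304) (nat_lit 62106647239) (nat_lit 67) (nat_lit 5) (nat_lit 70) (nat_lit 5) (nat_lit 71) (nat_lit 5) (nat_lit 381) (nat_lit 355) (nat_lit 164)) (XT.nd (nat_lit 78) (nat_lit 228) (nat_lit 0) (XT.lf (nat_lit 0) (nat_lit 71527940639) (nat_lit 228) (nat_lit 10356936147) (nat_lit 304) (nat_lit 43061107968) (nat_lit 67) (nat_lit 5) (nat_lit 70) (nat_lit 5) (nat_lit 71) (nat_lit 5) (nat_lit 382) (nat_lit 355) (nat_lit 163)) (XT.lf (nat_lit 0) (nat_lit 14570425249) (nat_lit 228) (nat_lit 92023176578) (nat_lit 304) (nat_lit 22205888004) (nat_lit 64) (nat_lit 5) (nat_lit 67) (nat_lit 5) (nat_lit 68) (nat_lit 5) (nat_lit 383) (nat_lit 355) (nat_lit 162)))) (XT.nd (nat_lit 78) (nat_lit 228) (nat_lit 0) (XT.lf (nat_lit 0) (nat_lit 790819259) (nat_lit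 304) (nat_lit 45167946927) (nat_lit 76) (nat_lit 86832701004) (nat_lit 63) (nat_lit 5) (nat_lit 67) (nat_lit 5) (nat_lit 64) (nat_lit 5) (nat_lit 384) (nat_lit 355) (nat_lit 161)) (XT.nd (nat_lit 78) (nat_lit 0) (nat_lit 0) (XT.lf (nat_lit 0) (nat_lit 24676608832) (nat_lit 304) (nat_lit 109120025138) (nat_lit 76) (nat_lit 3143932597) (nat_lit 60) (nat_lit 5) (nat_lit 64) (nat_lit 5) (nat_lit 61) (nat_lit 5) (nat_lit 385) (nat_lit 355) (nat_lit 160)) (XT.lf (nat_lit 0) (nat_lit 51287212734) (nat_lit 304) (nat_lit 35998806075) (nat_lit 76) (nat_lit 53934576070) (nat_lit 60) (nat_lit 5) (nat_lit 64) (nat_lit 5) (nat_lit 61) (nat_lit 5) (nat_lit 386) (nat_lit 355) (nat_lit 159)))))) (XT.nd (nat_lit 468) (nat_lit 684) (nat_lit 0) (XT.nd (nat_lit 234) (nat_lit 304) (nat_lit 0) (XT.nd (nat_lit 78) (nat_lit 152) (nat_lit 0) (XT.lf (nat_lit 0) (nat_lit 42126250242) (nat_lit 228) (nat_lit 37759444841)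 (nat_lit 304) (nat_lit 65796062309) (nat_lit 57) (nat_lit 5) (nat_lit 60) (nat_lit 5) (nat_lit 61) (nat_lit 5) (nat_lit 387) (nat_lit 355) (nat_lit 158)) (XT.nd (nat_lit 78) (nat_lit 152) (nat_lit 0) (XT.lf (nat_lit 0) (nat_lit 110755779326) (nat_lit 304) (nat_lit 25161046663) (nat_lit 76) (nat_lit 14407068342) (nat_lit 57) (nat_lit 5) (nat_lit 61) (nat_lit 5) (nat_lit 58) (nat_lit 5) (nat_lit 388) (nat_lit 355) (nat_lit 157)) (XT.lf (nat_lit 0) (nat_lit 58402878346) (nat_lit 152) (nat_lit 86296992095) (nat_lit 228) (nat_lit 10421742722) (nat_lit 55) (nat_lit 5) (nat_lit 57) (nat_lit 5) (nat_lit 58) (nat_lit 5) (nat_lit 389) (nat_lit 355) (nat_lit 156)))) (XT.nd (nat_lit 78) (nat_lit 228) (nat_lit 0) (XT.lf (nat_lit 0) (nat_lit 19968765237) (nat_lit 228) (nat_lit 13441971216) (nat_lit 76) (nat_lit 126711088536) (nat_lit 54) (nat_lit 5) (nat_lit 57) (nat_lit 5) (nat_lit 55) (nat_lit 5) (nat_lit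 390) (nat_lit 355) (nat_lit 155)) (XT.nd (nat_lit 78) (nat_lit 0) (nat_lit 0) (XT.lf (nat_lit 0) (nat_lit 53086675359) (nat_lit 304) (nat_lit 89403294989) (nat_lit 76) (nat_lit 22795629020) (nat_lit 51) (nat_lit 5) (nat_lit 55) (nat_lit 5) (nat_lit 52) (nat_lit 5) (nat_lit 391) (nat_lit 355) (nat_lit 154)) (XT.lf (nat_lit 0) (nat_lit 88639262633) (nat_lit 304) (nat_lit 1108652368) (nat_lit 76) (nat_lit 80920708528) (nat_lit 51) (nat_lit 5) (nat_lit 55) (nat_lit 5) (nat_lit 52) (nat_lit 5) (nat_lit 392) (nat_lit 355) (nat_lit 153))))) (XT.nd (nat_lit 234) (nat_lit 304) (nat_lit 0) (XT.nd (nat_lit 78) (nat_lit 228) (nat_lit 0) (XT.lf (nat_lit 0) (nat_lit 94628971916) (nat_lit 152) (nat_lit 32817632195) (nat_lit 228) (nat_lit 48800338686) (nat_lit 49) (nat_lit 5) (nat_lit 51) (nat_lit 5) (nat_lit 52) (nat_lit 5) (nat_lit 393) (nat_lit 355) (nat_lit 152)) (XT.nd (nat_lit 78) (nat_lit 76) (nat_lit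 0) (XT.lf (nat_lit 0) (nat_lit 13085868630) (nat_lit 152) (nat_lit 155752448363) (nat_lit 228) (nat_lit 13233660955) (nat_lit 47) (nat_lit 5) (nat_lit 49) (nat_lit 5) (nat_lit 50) (nat_lit 5) (nat_lit 394) (nat_lit 355) (nat_lit 151)) (XT.lf (nat_lit 0) (nat_lit 25282238010) (nat_lit 228) (nat_lit 73698235697) (nat_lit 76) (nat_lit 89091838925) (nat_lit 46) (nat_lit 5) (nat_lit 49) (nat_lit 5) (nat_lit 47) (nat_lit 5) (nat_lit 395) (nat_lit 355) (nat_lit 150)))) (XT.nd (nat_lit 156) (nat_lit 152) (nat_lit 0) (XT.nd (nat_lit 78) (nat_lit 0) (nat_lit 0) (XT.lf (nat_lit 0) (nat_lit 27000828915) (nat_lit 152) (nat_lit 38699645429) (nat_lit 228) (nat_lit 128640278549) (nat_lit 44) (nat_lit 5) (nat_lit 46) (nat_lit 5) (nat_lit 47) (nat_lit 5) (nat_lit 396) (nat_lit 355) (nat_lit 149)) (XT.lf (nat_lit 0) (nat_lit 109791924263) (nat_lit 228) (nat_lit 65971643889) (nat_lit 76) (nat_lit 25076432036)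 (nat_lit 44) (nat_lit 5) (nat_lit 47) (nat_lit 5) (nat_lit 45) (nat_lit 5) (nat_lit 397) (nat_lit 355) (nat_lit 148))) (XT.nd (nat_lit 78) (nat_lit 0) (nat_lit 0) (XT.lf (nat_lit 0) (nat_lit 41147161358) (nat_lit 152) (nat_lit 116217366525) (nat_lit 228) (nat_lit 50235853010) (nat_lit 42) (nat_lit 5) (nat_lit 44) (nat_lit 5) (nat_lit 45) (nat_lit 5) (nat_lit 398) (nat_lit 355) (nat_lit 147)) (XT.lf (nat_lit 0) (nat_lit 155911865826) (nat_lit 152) (nat_lit 52520901642) (nat_lit 228) (nat_lit 6210162977) (nat_lit 42) (nat_lit 5) (nat_lit 44) (nat_lit 5) (nat_lit 45) (nat_lit 5) (nat_lit 399) (nat_lit 355) (nat_lit 146))))))) (XT.nd (nat_lit 936) (nat_lit 760) (nat_lit 0) (XT.nd (nat_lit 468) (nat_lit 456) (nat_lit 0) (XT.nd (nat_lit 234) (nat_lit 152) (nat_lit 0) (XT.nd (nat_lit 78) (nat_lit 152) (nat_lit 0) (XT.lf (nat_lit 0) (nat_lit 39851401776) (nat_lit 228) (nat_lit 166682398765) (nat_lit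 76) (nat_lit 15416799391) (nat_lit 39) (nat_lit 5) (nat_lit 42) (nat_lit 5) (nat_lit 40) (nat_lit 5) (nat_lit 400) (nat_lit 355) (nat_lit 145)) (XT.nd (nat_lit 78) (nat_lit 152) (nat_lit 0) (XT.lf (nat_lit 0) (nat_lit 89879040504) (nat_lit 228) (nat_lit 53547009034) (nat_lit 76) (nat_lit 86098928247) (nat_lit 39) (nat_lit 5) (nat_lit 42) (nat_lit 5) (nat_lit 40) (nat_lit 5) (nat_lit 401) (nat_lit 355) (nat_lit 144)) (XT.lf (nat_lit 0) (nat_lit 67402037867) (nat_lit 152) (nat_lit 76058124667) (nat_lit 228) (nat_lit 93965307009) (nat_lit 37) (nat_lit 5) (nat_lit 39) (nat_lit 5) (nat_lit 40) (nat_lit 5) (nat_lit 402) (nat_lit 355) (nat_lit 143)))) (XT.nd (nat_lit 78) (nat_lit 152) (nat_lit 0) (XT.lf (nat_lit 0) (nat_lit 196257176320) (nat_lit 152) (nat_lit 4369780505) (nat_lit 228) (nat_lit 45048698336) (nat_lit 37) (nat_lit 5) (nat_lit 39) (nat_lit 5) (nat_lit 40) (nat_lit 5) (nat_lit 403)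 (nat_lit 355) (nat_lit 142)) (XT.nd (nat_lit 78) (nat_lit 0) (nat_lit 0) (XT.lf (nat_lit 0) (nat_lit 8484273920) (nat_lit 152) (nat_lit 175732611843) (nat_lit 76) (nat_lit 69997904993) (nat_lit 35) (nat_lit 5) (nat_lit 37) (nat_lit 5) (nat_lit 36) (nat_lit 5) (nat_lit 404) (nat_lit 355) (nat_lit 141)) (XT.lf (nat_lit 0) (nat_lit 64102025917) (nat_lit 152) (nat_lit 49469711407) (nat_lit 76) (nat_lit 149526117574) (nat_lit 35) (nat_lit 5) (nat_lit 37) (nat_lit 5) (nat_lit 36) (nat_lit 5) (nat_lit 405) (nat_lit 355) (nat_lit 140))))) (XT.nd (nat_lit 234) (nat_lit 228) (nat_lit 0) (XT.nd (nat_lit 78) (nat_lit 76) (nat_lit 0) (XT.lf (nat_lit 0) (nat_lit 85853827923) (nat_lit 152) (nat_lit 37987047972) (nat_lit 228) (nat_lit 148517185898) (nat_lit 33) (nat_lit 5) (nat_lit 35) (nat_lit 5) (nat_lit 36) (nat_lit 5) (nat_lit 406) (nat_lit 355) (nat_lit 139)) (XT.nd (nat_lit 78) (nat_lit 76) (nat_lit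 0) (XT.lf (nat_lit 0) (nat_lit 188063998612) (nat_lit 228) (nat_lit 53038478530) (nat_lit 76) (nat_lit 40903935438) (nat_lit 33) (nat_lit 5) (nat_lit 36) (nat_lit 5) (nat_lit 34) (nat_lit 4) (nat_lit 407) (nat_lit 355) (nat_lit 138)) (XT.lf (nat_lit 0) (nat_lit 89336812718) (nat_lit 76) (nat_lit 168178804517) (nat_lit 152) (nat_lit 34520696742) (nat_lit 32) (nat_lit 5) (nat_lit 33) (nat_lit 5) (nat_lit 34) (nat_lit 4) (nat_lit 408) (nat_lit 355) (nat_lit 137)))) (XT.nd (nat_lit 78) (nat_lit 152) (nat_lit 0) (XT.lf (nat_lit 0) (nat_lit 27892786350) (nat_lit 152) (nat_lit 62300791092) (nat_lit 76) (nat_lit 212306736898) (nat_lit 31) (nat_lit 5) (nat_lit 33) (nat_lit 5) (nat_lit 32) (nat_lit 5) (nat_lit 409) (nat_lit 355) (nat_lit 136)) (XT.nd (nat_lit 78) (nat_lit 0) (nat_lit 0) (XT.lf (nat_lit 0) (nat_lit 87347266013) (nat_lit 152) (nat_lit 6283104809) (nat_lit 228) (nat_lit 219760670846)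 (nat_lit 29) (nat_lit 5) (nat_lit 31) (nat_lit 5) (nat_lit 32) (nat_lit 5) (nat_lit 410) (nat_lit 355) (nat_lit 135)) (XT.lf (nat_lit 0) (nat_lit 165004524710) (nat_lit 228) (nat_lit 79427998224) (nat_lit 76) (nat_lit 80276297966) (nat_lit 29) (nat_lit 5) (nat_lit 32) (nat_lit 5) (nat_lit 30) (nat_lit 4) (nat_lit 411) (nat_lit 355) (nat_lit 134)))))) (XT.nd (nat_lit 468) (nat_lit 380) (nat_lit 0) (XT.nd (nat_lit 234) (nat_lit 76) (nat_lit 0) (XT.nd (nat_lit 78) (nat_lit 228) (nat_lit 0) (XT.lf (nat_lit 0) (nat_lit 76875751399) (nat_lit 76) (nat_lit 164374706231) (nat_lit 152) (nat_lit 95276877944) (nat_lit 28) (nat_lit 5) (nat_lit 29) (nat_lit 5) (nat_lit 30) (nat_lit 4) (nat_lit 412) (nat_lit 355) (nat_lit 133)) (XT.nd (nat_lit 78) (nat_lit 228) (nat_lit 0) (XT.lf (nat_lit 0) (nat_lit 243751935293) (nat_lit 76) (nat_lit 78901730677) (nat_lit 152) (nat_lit 26215861115) (nat_lit 28) (nat_lit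 5) (nat_lit 29) (nat_lit 5) (nat_lit 30) (nat_lit 4) (nat_lit 413) (nat_lit 355) (nat_lit 132)) (XT.lf (nat_lit 0) (nat_lit 45922291668) (nat_lit 228) (nat_lit 303657830103) (nat_lit 76) (nat_lit 12157268360) (nat_lit 25) (nat_lit 5) (nat_lit 28) (nat_lit 5) (nat_lit 26) (nat_lit 4) (nat_lit 414) (nat_lit 355) (nat_lit 131)))) (XT.nd (nat_lit 78) (nat_lit 76) (nat_lit 0) (XT.lf (nat_lit 0) (nat_lit 123889033268) (nat_lit 228) (nat_lit 143826349486) (nat_lit 76) (nat_lit 107356639902) (nat_lit 25) (nat_lit 5) (nat_lit 28) (nat_lit 5) (nat_lit 26) (nat_lit 4) (nat_lit 415) (nat_lit 355) (nat_lit 130)) (XT.nd (nat_lit 78) (nat_lit 0) (nat_lit 0) (XT.lf (nat_lit 0) (nat_lit 24789843751) (nat_lit 76) (nat_lit 181351148896) (nat_lit 152) (nat_lit 182913050161) (nat_lit 24) (nat_lit 5) (nat_lit 25) (nat_lit 5) (nat_lit 26) (nat_lit 4) (nat_lit 416) (nat_lit 355) (nat_lit 129)) (XT.lf (nat_lit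 0) (nat_lit 206829886208) (nat_lit 76) (nat_lit 88111277435) (nat_lit 152) (nat_lit 108672219677) (nat_lit 24) (nat_lit 5) (nat_lit 25) (nat_lit 5) (nat_lit 26) (nat_lit 4) (nat_lit 417) (nat_lit 355) (nat_lit 128))))) (XT.nd (nat_lit 234) (nat_lit 228) (nat_lit 0) (XT.nd (nat_lit 78) (nat_lit 152) (nat_lit 0) (XT.lf (nat_lit 0) (nat_lit 388334051961) (nat_lit 152) (nat_lit 21081896932) (nat_lit 0) (nat_lit 9477106556) (nat_lit 24) (nat_lit 5) (nat_lit 26) (nat_lit 4) (nat_lit 24) (nat_lit 4) (nat_lit 418) (nat_lit 355) (nat_lit 127)) (XT.nd (nat_lit 78) (nat_lit 0) (nat_lit 0) (XT.lf (nat_lit 0) (nat_lit 53935900969) (nat_lit 152) (nat_lit 268288614552) (nat_lit 76) (nat_lit 112465870815) (nat_lit 22) (nat_lit 5) (nat_lit 24) (nat_lit 5) (nat_lit 23) (nat_lit 4) (nat_lit 419) (nat_lit 355) (nat_lit 126)) (XT.lf (nat_lit 0) (nat_lit 141991310648) (nat_lit 152) (nat_lit 87775278172) (nat_lit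 76) (nat_lit 221467809464) (nat_lit 22) (nat_lit 5) (nat_lit 24) (nat_lit 5) (nat_lit 23) (nat_lit 4) (nat_lit 420) (nat_lit 355) (nat_lit 125)))) (XT.nd (nat_lit 156) (nat_lit 152) (nat_lit 0) (XT.nd (nat_lit 78) (nat_lit 0) (nat_lit 0) (XT.lf (nat_lit 0) (nat_lit 105128232083) (nat_lit 76) (nat_lit 130962469613) (nat_lit 152) (nat_lit 232432848618) (nat_lit 21) (nat_lit 5) (nat_lit 22) (nat_lit 5) (nat_lit 23) (nat_lit 4) (nat_lit 421) (nat_lit 355) (nat_lit 124)) (XT.lf (nat_lit 0) (nat_lit 310724028480) (nat_lit 76) (nat_lit 25657417750) (nat_lit 152) (nat_lit 150221394544) (nat_lit 21) (nat_lit 5) (nat_lit 22) (nat_lit 5) (nat_lit 23) (nat_lit 4) (nat_lit 422) (nat_lit 355) (nat_lit 123))) (XT.nd (nat_lit 78) (nat_lit 76) (nat_lit 0) (XT.lf (nat_lit 0) (nat_lit 20338508491) (nat_lit 76) (nat_lit 422991360474) (nat_lit 76) (nat_lit 62174069767) (nat_lit 20) (nat_lit 4) (nat_lit 21)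 (nat_lit 5) (nat_lit 21) (nat_lit 4) (nat_lit 423) (nat_lit 355) (nat_lit 122)) (XT.lf (nat_lit 0) (nat_lit 32754519918) (nat_lit 152) (nat_lit 293670723468) (nat_lit 76) (nat_lit 198728818478) (nat_lit 19) (nat_lit 5) (nat_lit 21) (nat_lit 5) (nat_lit 20) (nat_lit 4) (nat_lit 424) (nat_lit 355) (nat_lit 121))))))))
noncomputable def xc222 : XT := (XT.nd (nat_lit 43134) (nat_lit 0) (nat_lit 1596) (XT.nd (nat_lit 42198) (nat_lit 0) (nat_lit 4864) (XT.nd (nat_lit 41730) (nat_lit 0) (nat_lit 6764) (XT.nd (nat_lit 41496) (nat_lit 0) (nat_lit 6688) (XT.nd (nat_lit 78) (nat_lit 76) (nat_lit 0) (XT.lf (nat_lit 0) (nat_lit 130339960778) (nat_lit 152) (nat_lit 93620758842) (nat_lit 76) (nat_lit 321775015294) (nat_lit 19) (nat_lit 5) (nat_lit 21) (nat_lit 5) (nat_lit 20) (nat_lit 4) (nat_lit 425) (nat_lit 355) (nat_lit 120)) (XT.nd (nat_lit 78) (nat_lit 0) (nat_lit 0) (XT.lf (nat_lit 0) (nat_lit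 120281235245) (nat_lit 76) (nat_lit 114401249541) (nat_lit 152) (nat_lit 332570116296) (nat_lit 18) (nat_lit 5) (nat_lit 19) (nat_lit 5) (nat_lit 20) (nat_lit 4) (nat_lit 426) (nat_lit 355) (nat_lit 119)) (XT.lf (nat_lit 0) (nat_lit 345863457133) (nat_lit 152) (nat_lit 241673549369) (nat_lit 0) (nat_lit 2227237969) (nat_lit 18) (nat_lit 5) (nat_lit 20) (nat_lit 4) (nat_lit 18) (nat_lit 4) (nat_lit 427) (nat_lit 355) (nat_lit 118)))) (XT.nd (nat_lit 78) (nat_lit 0) (nat_lit 0) (XT.lf (nat_lit 0) (nat_lit 5274105834) (nat_lit 836) (nat_lit 13010324484) (nat_lit 836) (nat_lit 13010324484) (nat_lit 106) (nat_lit 3) (nat_lit 117) (nat_lit 3) (nat_lit 117) (nat_lit 5) (nat_lit 356) (nat_lit 356) (nat_lit 188)) (XT.nd (nat_lit 78) (nat_lit 0) (nat_lit 76) (XT.lf (nat_lit 76) (nat_lit 4012515287) (nat_lit 0) (nat_lit 6878256781) (nat_lit 836) (nat_lit 53259518475) (nat_lit 107) (nat_lit 5) (nat_lit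 106) (nat_lit 3) (nat_lit 117) (nat_lit 5) (nat_lit 357) (nat_lit 356) (nat_lit 187)) (XT.lf (nat_lit 0) (nat_lit 12076660454) (nat_lit 760) (nat_lit 29703551411) (nat_lit 836) (nat_lit 23967589563) (nat_lit 107) (nat_lit 5) (nat_lit 117) (nat_lit 5) (nat_lit 118) (nat_lit 5) (nat_lit 358) (nat_lit 356) (nat_lit 186))))) (XT.nd (nat_lit 234) (nat_lit 0) (nat_lit 152) (XT.nd (nat_lit 78) (nat_lit 0) (nat_lit 76) (XT.lf (nat_lit 76) (nat_lit 2209757110) (nat_lit 0) (nat_lit 11258355628) (nat_lit 836) (nat_lit 53949762502) (nat_lit 108) (nat_lit 5) (nat_lit 107) (nat_lit 5) (nat_lit 118) (nat_lit 5) (nat_lit 359) (nat_lit 356) (nat_lit 185)) (XT.nd (nat_lit 78) (nat_lit 0) (nat_lit 0) (XT.lf (nat_lit 0) (nat_lit 15764066471) (nat_lit 760) (nat_lit 32729798449) (nat_lit 836) (nat_lit 20635842197) (nat_lit 108) (nat_lit 5) (nat_lit 118) (nat_lit 5) (nat_lit 119) (nat_lit 5) (nat_lit 360) (nat_lit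 356) (nat_lit 184)) (XT.lf (nat_lit 76) (nat_lit 1226522033) (nat_lit 0) (nat_lit 17151107918) (nat_lit 836) (nat_lit 52539360809) (nat_lit 109) (nat_lit 5) (nat_lit 108) (nat_lit 5) (nat_lit 119) (nat_lit 5) (nat_lit 361) (nat_lit 356) (nat_lit 183)))) (XT.nd (nat_lit 78) (nat_lit 0) (nat_lit 0) (XT.lf (nat_lit 0) (nat_lit 21930429352) (nat_lit 760) (nat_lit 35004733048) (nat_lit 836) (nat_lit 15818049039) (nat_lit 109) (nat_lit 5) (nat_lit 119) (nat_lit 5) (nat_lit 120) (nat_lit 5) (nat_lit 362) (nat_lit 356) (nat_lit 182)) (XT.nd (nat_lit 78) (nat_lit 0) (nat_lit 76) (XT.lf (nat_lit 76) (nat_lit 1170986582) (nat_lit 0) (nat_lit 24788508456) (nat_lit 836) (nat_lit 48706817503) (nat_lit 110) (nat_lit 5) (nat_lit 109) (nat_lit 5) (nat_lit 120) (nat_lit 5) (nat_lit 363) (nat_lit 356) (nat_lit 181)) (XT.lf (nat_lit 0) (nat_lit 30931741539) (nat_lit 760) (nat_lit 36424994004) (nat_lit 836)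 (nat_lit 9281247449) (nat_lit 110) (nat_lit 5) (nat_lit 120) (nat_lit 5) (nat_lit 121) (nat_lit 5) (nat_lit 364) (nat_lit 356) (nat_lit 180)))))) (XT.nd (nat_lit 468) (nat_lit 1064) (nat_lit 0) (XT.nd (nat_lit 234) (nat_lit 380) (nat_lit 0) (XT.nd (nat_lit 78) (nat_lit 684) (nat_lit 0) (XT.lf (nat_lit 76) (nat_lit 2161033794) (nat_lit 0) (nat_lit 34430923740) (nat_lit 836) (nat_lit 42094312212) (nat_lit 111) (nat_lit 5) (nat_lit 110) (nat_lit 5) (nat_lit 121) (nat_lit 5) (nat_lit 365) (nat_lit 356) (nat_lit 179)) (XT.nd (nat_lit 78) (nat_lit 760) (nat_lit 0) (XT.lf (nat_lit 0) (nat_lit 43163652628) (nat_lit 760) (nat_lit 36878134535) (nat_lit 76) (nat_lit 763760868) (nat_lit 111) (nat_lit 5) (nat_lit 121) (nat_lit 5) (nat_lit 112) (nat_lit 5) (nat_lit 366) (nat_lit 356) (nat_lit 178)) (XT.lf (nat_lit 0) (nat_lit 4324681128) (nat_lit 760) (nat_lit 46370524069) (nat_lit 836) (nat_lit 32304021977)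 (nat_lit 101) (nat_lit 5) (nat_lit 111) (nat_lit 5) (nat_lit 112) (nat_lit 5) (nat_lit 367) (nat_lit 356) (nat_lit 177)))) (XT.nd (nat_lit 78) (nat_lit 380) (nat_lit 0) (XT.lf (nat_lit 0) (nat_lit 48867356817) (nat_lit 760) (nat_lit 10359861931) (nat_lit 836) (nat_lit 26044177911) (nat_lit 101) (nat_lit 5) (nat_lit 111) (nat_lit 5) (nat_lit 112) (nat_lit 5) (nat_lit 368) (nat_lit 356) (nat_lit 176)) (XT.nd (nat_lit 78) (nat_lit 0) (nat_lit 0) (XT.lf (nat_lit 0) (nat_lit 7800452053) (nat_lit 380) (nat_lit 60935126970) (nat_lit 456) (nat_lit 18894108819) (nat_lit 96) (nat_lit 5) (nat_lit 101) (nat_lit 5) (nat_lit 102) (nat_lit 5) (nat_lit 369) (nat_lit 356) (nat_lit 175)) (XT.lf (nat_lit 0) (nat_lit 55302984626) (nat_lit 380) (nat_lit 24199374916) (nat_lit 456) (nat_lit 10564384431) (nat_lit 96) (nat_lit 5) (nat_lit 101) (nat_lit 5) (nat_lit 102) (nat_lit 5) (nat_lit 370) (nat_lit 356) (nat_lit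 174))))) (XT.nd (nat_lit 234) (nat_lit 304) (nat_lit 0) (XT.nd (nat_lit 78) (nat_lit 456) (nat_lit 0) (XT.lf (nat_lit 0) (nat_lit 12737668566) (nat_lit 304) (nat_lit 78492503592) (nat_lit 380) (nat_lit 1374346575) (nat_lit 92) (nat_lit 5) (nat_lit 96) (nat_lit 5) (nat_lit 97) (nat_lit 5) (nat_lit 371) (nat_lit 356) (nat_lit 173)) (XT.nd (nat_lit 78) (nat_lit 380) (nat_lit 0) (XT.lf (nat_lit 0) (nat_lit 9004864763) (nat_lit 380) (nat_lit 31954831209) (nat_lit 76) (nat_lit 54253300272) (nat_lit 91) (nat_lit 5) (nat_lit 96) (nat_lit 5) (nat_lit 92) (nat_lit 5) (nat_lit 372) (nat_lit 356) (nat_lit 172)) (XT.lf (nat_lit 0) (nat_lit 18935737796) (nat_lit 380) (nat_lit 1216204902) (nat_lit 456) (nat_lit 77784074177) (nat_lit 86) (nat_lit 5) (nat_lit 91) (nat_lit 5) (nat_lit 92) (nat_lit 5) (nat_lit 373) (nat_lit 356) (nat_lit 171)))) (XT.nd (nat_lit 78) (nat_lit 304) (nat_lit 0) (XT.lf (nat_lit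 0) (nat_lit 33038430547) (nat_lit 456) (nat_lit 27929910399) (nat_lit 76) (nat_lit 39767745182) (nat_lit 86) (nat_lit 5) (nat_lit 92) (nat_lit 5) (nat_lit 87) (nat_lit 5) (nat_lit 374) (nat_lit 356) (nat_lit 170)) (XT.nd (nat_lit 78) (nat_lit 0) (nat_lit 0) (XT.lf (nat_lit 0) (nat_lit 26522348967) (nat_lit 304) (nat_lit 20480414629) (nat_lit 380) (nat_lit 56651719581) (nat_lit 82) (nat_lit 5) (nat_lit 86) (nat_lit 5) (nat_lit 87) (nat_lit 5) (nat_lit 375) (nat_lit 356) (nat_lit 169)) (XT.lf (nat_lit 0) (nat_lit 62489562874) (nat_lit 380) (nat_lit 22380584352) (nat_lit 76) (nat_lit 21807440729) (nat_lit 82) (nat_lit 5) (nat_lit 87) (nat_lit 5) (nat_lit 83) (nat_lit 5) (nat_lit 376) (nat_lit 356) (nat_lit 168))))))) (XT.nd (nat_lit 936) (nat_lit 1368) (nat_lit 0) (XT.nd (nat_lit 468) (nat_lit 760) (nat_lit 0) (XT.nd (nat_lit 234) (nat_lit 532) (nat_lit 0) (XT.nd (nat_lit 78) (nat_lit 304)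 (nat_lit 0) (XT.lf (nat_lit 0) (nat_lit 35921968403) (nat_lit 304) (nat_lit 43724853189) (nat_lit 380) (nat_lit 30160220746) (nat_lit 78) (nat_lit 5) (nat_lit 82) (nat_lit 5) (nat_lit 83) (nat_lit 5) (nat_lit 377) (nat_lit 356) (nat_lit 167)) (XT.nd (nat_lit 78) (nat_lit 304) (nat_lit 0) (XT.lf (nat_lit 0) (nat_lit 97916103721) (nat_lit 304) (nat_lit 124411633) (nat_lit 380) (nat_lit 15033525804) (nat_lit 78) (nat_lit 5) (nat_lit 82) (nat_lit 5) (nat_lit 83) (nat_lit 5) (nat_lit 378) (nat_lit 356) (nat_lit 166)) (XT.lf (nat_lit 0) (nat_lit 2297069525) (nat_lit 304) (nat_lit 69162600411) (nat_lit 76) (nat_lit 44970319366) (nat_lit 74) (nat_lit 5) (nat_lit 78) (nat_lit 5) (nat_lit 75) (nat_lit 5) (nat_lit 379) (nat_lit 356) (nat_lit 165)))) (XT.nd (nat_lit 78) (nat_lit 532) (nat_lit 0) (XT.lf (nat_lit 0) (nat_lit 20251495840) (nat_lit 304) (nat_lit 6853916218) (nat_lit 76) (nat_lit 92822874197)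 (nat_lit 74) (nat_lit 5) (nat_lit 78) (nat_lit 5) (nat_lit 75) (nat_lit 5) (nat_lit 380) (nat_lit 356) (nat_lit 164)) (XT.nd (nat_lit 78) (nat_lit 228) (nat_lit 0) (XT.lf (nat_lit 0) (nat_lit 40367319732) (nat_lit 380) (nat_lit 63367439399) (nat_lit 76) (nat_lit 19803555377) (nat_lit 70) (nat_lit 5) (nat_lit 75) (nat_lit 5) (nat_lit 71) (nat_lit 5) (nat_lit 381) (nat_lit 356) (nat_lit 163)) (XT.lf (nat_lit 0) (nat_lit 3114722498) (nat_lit 228) (nat_lit 58984771536) (nat_lit 304) (nat_lit 65198822431) (nat_lit 67) (nat_lit 5) (nat_lit 70) (nat_lit 5) (nat_lit 71) (nat_lit 5) (nat_lit 382) (nat_lit 356) (nat_lit 162))))) (XT.nd (nat_lit 234) (nat_lit 456) (nat_lit 0) (XT.nd (nat_lit 78) (nat_lit 304) (nat_lit 0) (XT.lf (nat_lit 0) (nat_lit 75120443245) (nat_lit 228) (nat_lit 10870604267) (nat_lit 304) (nat_lit 45201632728) (nat_lit 67) (nat_lit 5) (nat_lit 70) (nat_lit 5) (nat_lit 71) (nat_lit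 5) (nat_lit 383) (nat_lit 356) (nat_lit 161)) (XT.nd (nat_lit 78) (nat_lit 76) (nat_lit 0) (XT.lf (nat_lit 0) (nat_lit 15315322143) (nat_lit 228) (nat_lit 96619636519) (nat_lit 304) (nat_lit 23303914769) (nat_lit 64) (nat_lit 5) (nat_lit 67) (nat_lit 5) (nat_lit 68) (nat_lit 5) (nat_lit 384) (nat_lit 356) (nat_lit 160)) (XT.lf (nat_lit 0) (nat_lit 841669740) (nat_lit 304) (nat_lit 47410368091) (nat_lit 76) (nat_lit 91178430843) (nat_lit 63) (nat_lit 5) (nat_lit 67) (nat_lit 5) (nat_lit 64) (nat_lit 5) (nat_lit 385) (nat_lit 356) (nat_lit 159)))) (XT.nd (nat_lit 78) (nat_lit 228) (nat_lit 0) (XT.lf (nat_lit 0) (nat_lit 25921529067) (nat_lit 304) (nat_lit 114559824394) (nat_lit 76) (nat_lit 3305680851) (nat_lit 60) (nat_lit 5) (nat_lit 64) (nat_lit 5) (nat_lit 61) (nat_lit 5) (nat_lit 386) (nat_lit 356) (nat_lit 158)) (XT.nd (nat_lit 78) (nat_lit 228) (nat_lit 0) (XT.lf (nat_lit 0) (nat_lit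 53862135079) (nat_lit 304) (nat_lit 37783315901) (nat_lit 76) (nat_lit 56635639755) (nat_lit 60) (nat_lit 5) (nat_lit 64) (nat_lit 5) (nat_lit 61) (nat_lit 5) (nat_lit 387) (nat_lit 356) (nat_lit 157)) (XT.lf (nat_lit 0) (nat_lit 44247744353) (nat_lit 228) (nat_lit 39642531280) (nat_lit 304) (nat_lit 69075049311) (nat_lit 57) (nat_lit 5) (nat_lit 60) (nat_lit 5) (nat_lit 61) (nat_lit 5) (nat_lit 388) (nat_lit 356) (nat_lit 156)))))) (XT.nd (nat_lit 468) (nat_lit 760) (nat_lit 0) (XT.nd (nat_lit 234) (nat_lit 380) (nat_lit 0) (XT.nd (nat_lit 78) (nat_lit 228) (nat_lit 0) (XT.lf (nat_lit 0) (nat_lit 116303446462) (nat_lit 304) (nat_lit 26404217438) (nat_lit 76) (nat_lit 15131925975) (nat_lit 57) (nat_lit 5) (nat_lit 61) (nat_lit 5) (nat_lit 58) (nat_lit 5) (nat_lit 389) (nat_lit 356) (nat_lit 155)) (XT.nd (nat_lit 78) (nat_lit 76) (nat_lit 0) (XT.lf (nat_lit 0) (nat_lit 61337663796) (nat_lit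 152) (nat_lit 90606836543) (nat_lit 228) (nat_lit 10932706650) (nat_lit 55) (nat_lit 5) (nat_lit 57) (nat_lit 5) (nat_lit 58) (nat_lit 5) (nat_lit 390) (nat_lit 356) (nat_lit 154)) (XT.lf (nat_lit 0) (nat_lit 20976536073) (nat_lit 228) (nat_lit 14099812335) (nat_lit 76) (nat_lit 133051096654) (nat_lit 54) (nat_lit 5) (nat_lit 57) (nat_lit 5) (nat_lit 55) (nat_lit 5) (nat_lit 391) (nat_lit 356) (nat_lit 153)))) (XT.nd (nat_lit 78) (nat_lit 152) (nat_lit 0) (XT.lf (nat_lit 0) (nat_lit 55750193120) (nat_lit 304) (nat_lit 93859049386) (nat_lit 76) (nat_lit 23940173299) (nat_lit 51) (nat_lit 5) (nat_lit 55) (nat_lit 5) (nat_lit 52) (nat_lit 5) (nat_lit 392) (nat_lit 356) (nat_lit 152)) (XT.nd (nat_lit 78) (nat_lit 152) (nat_lit 0) (XT.lf (nat_lit 0) (nat_lit 93079972425) (nat_lit 304) (nat_lit 1150360841) (nat_lit 76) (nat_lit 84971279982) (nat_lit 51) (nat_lit 5) (nat_lit 55) (nat_lit 5) (nat_lit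 52) (nat_lit 5) (nat_lit 393) (nat_lit 356) (nat_lit 151)) (XT.lf (nat_lit 0) (nat_lit 99373923300) (nat_lit 152) (nat_lit 34453551986) (nat_lit 228) (nat_lit 51231383675) (nat_lit 49) (nat_lit 5) (nat_lit 51) (nat_lit 5) (nat_lit 52) (nat_lit 5) (nat_lit 394) (nat_lit 356) (nat_lit 150))))) (XT.nd (nat_lit 234) (nat_lit 380) (nat_lit 0) (XT.nd (nat_lit 78) (nat_lit 228) (nat_lit 0) (XT.lf (nat_lit 0) (nat_lit 13753794869) (nat_lit 152) (nat_lit 163534858855) (nat_lit 228) (nat_lit 13886498336) (nat_lit 47) (nat_lit 5) (nat_lit 49) (nat_lit 5) (nat_lit 50) (nat_lit 5) (nat_lit 395) (nat_lit 356) (nat_lit 149)) (XT.nd (nat_lit 78) (nat_lit 152) (nat_lit 0) (XT.lf (nat_lit 0) (nat_lit 26554504720) (nat_lit 228) (nat_lit 77369890827) (nat_lit 76) (nat_lit 93551121583) (nat_lit 46) (nat_lit 5) (nat_lit 49) (nat_lit 5) (nat_lit 47) (nat_lit 5) (nat_lit 396) (nat_lit 356) (nat_lit 148)) (XT.lf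 (nat_lit 0) (nat_lit 28363913199) (nat_lit 152) (nat_lit 40629554983) (nat_lit 228) (nat_lit 135063920617) (nat_lit 44) (nat_lit 5) (nat_lit 46) (nat_lit 5) (nat_lit 47) (nat_lit 5) (nat_lit 397) (nat_lit 356) (nat_lit 147)))) (XT.nd (nat_lit 156) (nat_lit 228) (nat_lit 0) (XT.nd (nat_lit 78) (nat_lit 152) (nat_lit 0) (XT.lf (nat_lit 0) (nat_lit 115289186496) (nat_lit 228) (nat_lit 69257497153) (nat_lit 76) (nat_lit 26334930170) (nat_lit 44) (nat_lit 5) (nat_lit 47) (nat_lit 5) (nat_lit 45) (nat_lit 5) (nat_lit 398) (nat_lit 356) (nat_lit 146)) (XT.lf (nat_lit 0) (nat_lit 43217043051) (nat_lit 152) (nat_lit 122023207726) (nat_lit 228) (nat_lit 52739771405) (nat_lit 42) (nat_lit 5) (nat_lit 44) (nat_lit 5) (nat_lit 45) (nat_lit 5) (nat_lit 399) (nat_lit 356) (nat_lit 145))) (XT.nd (nat_lit 78) (nat_lit 228) (nat_lit 0) (XT.lf (nat_lit 0) (nat_lit 163719386380) (nat_lit 152) (nat_lit 55142158986)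 (nat_lit 228) (nat_lit 6513171834) (nat_lit 42) (nat_lit 5) (nat_lit 44) (nat_lit 5) (nat_lit 45) (nat_lit 5) (nat_lit 400) (nat_lit 356) (nat_lit 144)) (XT.lf (nat_lit 0) (nat_lit 41851148478) (nat_lit 228) (nat_lit 175004263572) (nat_lit 76) (nat_lit 16192356516) (nat_lit 39) (nat_lit 5) (nat_lit 42) (nat_lit 5) (nat_lit 40) (nat_lit 5) (nat_lit 401) (nat_lit 356) (nat_lit 143))))))))
noncomputable def xc223 : XT := (XT.nd (nat_lit 1950) (nat_lit 76) (nat_lit 0) (XT.nd (nat_lit 936) (nat_lit 684) (nat_lit 0) (XT.nd (nat_lit 468) (nat_lit 380) (nat_lit 0) (XT.nd (nat_lit 234) (nat_lit 304) (nat_lit 0) (XT.nd (nat_lit 78) (nat_lit 152) (nat_lit 0) (XT.lf (nat_lit 0) (nat_lit 94379827399) (nat_lit 228) (nat_lit 56212687932) (nat_lit 76) (nat_lit 90408367187) (nat_lit 39) (nat_lit 5) (nat_lit 42) (nat_lit 5) (nat_lit 40) (nat_lit 5) (nat_lit 402) (nat_lit 356) (nat_lit 142)) (XT.nd (nat_lit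 78) (nat_lit 0) (nat_lit 0) (XT.lf (nat_lit 0) (nat_lit 70783623063) (nat_lit 152) (nat_lit 79856236284) (nat_lit 228) (nat_lit 98656546942) (nat_lit 37) (nat_lit 5) (nat_lit 39) (nat_lit 5) (nat_lit 40) (nat_lit 5) (nat_lit 403) (nat_lit 356) (nat_lit 141)) (XT.lf (nat_lit 0) (nat_lit 206080971614) (nat_lit 152) (nat_lit 4583703229) (nat_lit 228) (nat_lit 47294442379) (nat_lit 37) (nat_lit 5) (nat_lit 39) (nat_lit 5) (nat_lit 40) (nat_lit 5) (nat_lit 404) (nat_lit 356) (nat_lit 140)))) (XT.nd (nat_lit 78) (nat_lit 152) (nat_lit 0) (XT.lf (nat_lit 0) (nat_lit 8914899579) (nat_lit 152) (nat_lit 184508022978) (nat_lit 76) (nat_lit 73502285156) (nat_lit 35) (nat_lit 5) (nat_lit 37) (nat_lit 5) (nat_lit 36) (nat_lit 5) (nat_lit 405) (nat_lit 356) (nat_lit 139)) (XT.nd (nat_lit 78) (nat_lit 152) (nat_lit 0) (XT.lf (nat_lit 0) (nat_lit 67313233844) (nat_lit 152) (nat_lit 51932511780) (nat_lit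 76) (nat_lit 157006694798) (nat_lit 35) (nat_lit 5) (nat_lit 37) (nat_lit 5) (nat_lit 36) (nat_lit 5) (nat_lit 406) (nat_lit 356) (nat_lit 138)) (XT.lf (nat_lit 0) (nat_lit 90157032174) (nat_lit 152) (nat_lit 39881867489) (nat_lit 228) (nat_lit 155936764420) (nat_lit 33) (nat_lit 5) (nat_lit 35) (nat_lit 5) (nat_lit 36) (nat_lit 5) (nat_lit 407) (nat_lit 356) (nat_lit 137))))) (XT.nd (nat_lit 234) (nat_lit 228) (nat_lit 0) (XT.nd (nat_lit 78) (nat_lit 152) (nat_lit 0) (XT.lf (nat_lit 0) (nat_lit 197472961157) (nat_lit 228) (nat_lit 55680171139) (nat_lit 76) (nat_lit 42953311068) (nat_lit 33) (nat_lit 5) (nat_lit 36) (nat_lit 5) (nat_lit 34) (nat_lit 4) (nat_lit 408) (nat_lit 356) (nat_lit 136)) (XT.nd (nat_lit 78) (nat_lit 76) (nat_lit 0) (XT.lf (nat_lit 0) (nat_lit 93813719650) (nat_lit 76) (nat_lit 176583323814) (nat_lit 152) (nat_lit 36240802311) (nat_lit 32) (nat_lit 5) (nat_lit 33)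 (nat_lit 5) (nat_lit 34) (nat_lit 4) (nat_lit 409) (nat_lit 356) (nat_lit 135)) (XT.lf (nat_lit 0) (nat_lit 29292891853) (nat_lit 152) (nat_lit 65406061481) (nat_lit 76) (nat_lit 222926101933) (nat_lit 31) (nat_lit 5) (nat_lit 33) (nat_lit 5) (nat_lit 32) (nat_lit 5) (nat_lit 410) (nat_lit 356) (nat_lit 134)))) (XT.nd (nat_lit 78) (nat_lit 76) (nat_lit 0) (XT.lf (nat_lit 0) (nat_lit 91724240912) (nat_lit 152) (nat_lit 6593004405) (nat_lit 228) (nat_lit 230743079226) (nat_lit 29) (nat_lit 5) (nat_lit 31) (nat_lit 5) (nat_lit 32) (nat_lit 5) (nat_lit 411) (nat_lit 356) (nat_lit 133)) (XT.nd (nat_lit 78) (nat_lit 76) (nat_lit 0) (XT.lf (nat_lit 0) (nat_lit 173259915133) (nat_lit 228) (nat_lit 83390051123) (nat_lit 76) (nat_lit 84294036138) (nat_lit 29) (nat_lit 5) (nat_lit 32) (nat_lit 5) (nat_lit 30) (nat_lit 4) (nat_lit 412) (nat_lit 356) (nat_lit 132)) (XT.lf (nat_lit 0) (nat_lit 80728735224)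 (nat_lit 76) (nat_lit 172589307141) (nat_lit 152) (nat_lit 100035405616) (nat_lit 28) (nat_lit 5) (nat_lit 29) (nat_lit 5) (nat_lit 30) (nat_lit 4) (nat_lit 413) (nat_lit 356) (nat_lit 131)))))) (XT.nd (nat_lit 468) (nat_lit 380) (nat_lit 0) (XT.nd (nat_lit 234) (nat_lit 76) (nat_lit 0) (XT.nd (nat_lit 78) (nat_lit 228) (nat_lit 0) (XT.lf (nat_lit 0) (nat_lit 255948290396) (nat_lit 76) (nat_lit 82842879685) (nat_lit 152) (nat_lit 27521591100) (nat_lit 28) (nat_lit 5) (nat_lit 29) (nat_lit 5) (nat_lit 30) (nat_lit 4) (nat_lit 414) (nat_lit 356) (nat_lit 130)) (XT.nd (nat_lit 78) (nat_lit 0) (nat_lit 0) (XT.lf (nat_lit 0) (nat_lit 48223272964) (nat_lit 228) (nat_lit 318831764647) (nat_lit 76) (nat_lit 12768977587) (nat_lit 25) (nat_lit 5) (nat_lit 28) (nat_lit 5) (nat_lit 26) (nat_lit 4) (nat_lit 415) (nat_lit 356) (nat_lit 129)) (XT.lf (nat_lit 0) (nat_lit 130088119896) (nat_lit 228) (nat_lit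 151009136521) (nat_lit 76) (nat_lit 112728134572) (nat_lit 25) (nat_lit 5) (nat_lit 28) (nat_lit 5) (nat_lit 26) (nat_lit 4) (nat_lit 416) (nat_lit 356) (nat_lit 128)))) (XT.nd (nat_lit 78) (nat_lit 0) (nat_lit 0) (XT.lf (nat_lit 0) (nat_lit 26037728791) (nat_lit 76) (nat_lit 190414858776) (nat_lit 152) (nat_lit 192053929115) (nat_lit 24) (nat_lit 5) (nat_lit 25) (nat_lit 5) (nat_lit 26) (nat_lit 4) (nat_lit 417) (nat_lit 356) (nat_lit 127)) (XT.nd (nat_lit 78) (nat_lit 0) (nat_lit 0) (XT.lf (nat_lit 0) (nat_lit 217179373711) (nat_lit 76) (nat_lit 92513176959) (nat_lit 152) (nat_lit 114101284418) (nat_lit 24) (nat_lit 5) (nat_lit 25) (nat_lit 5) (nat_lit 26) (nat_lit 4) (nat_lit 418) (nat_lit 356) (nat_lit 126)) (XT.lf (nat_lit 0) (nat_lit 407754931756) (nat_lit 152) (nat_lit 22128226657) (nat_lit 0) (nat_lit 9954340041) (nat_lit 24) (nat_lit 5) (nat_lit 26) (nat_lit 4) (nat_lit 24) (nat_lit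 4) (nat_lit 419) (nat_lit 356) (nat_lit 125))))) (XT.nd (nat_lit 234) (nat_lit 152) (nat_lit 0) (XT.nd (nat_lit 78) (nat_lit 76) (nat_lit 0) (XT.lf (nat_lit 0) (nat_lit 56636861591) (nat_lit 152) (nat_lit 281695266844) (nat_lit 76) (nat_lit 118092568115) (nat_lit 22) (nat_lit 5) (nat_lit 24) (nat_lit 5) (nat_lit 23) (nat_lit 4) (nat_lit 420) (nat_lit 356) (nat_lit 124)) (XT.nd (nat_lit 78) (nat_lit 76) (nat_lit 0) (XT.lf (nat_lit 0) (nat_lit 149094843393) (nat_lit 152) (nat_lit 92156634047) (nat_lit 76) (nat_lit 232544441613) (nat_lit 22) (nat_lit 5) (nat_lit 24) (nat_lit 5) (nat_lit 23) (nat_lit 4) (nat_lit 421) (nat_lit 356) (nat_lit 123)) (XT.lf (nat_lit 0) (nat_lit 110391932237) (nat_lit 76) (nat_lit 137507196636) (nat_lit 152) (nat_lit 244050403605) (nat_lit 21) (nat_lit 5) (nat_lit 22) (nat_lit 5) (nat_lit 23) (nat_lit 4) (nat_lit 422) (nat_lit 356) (nat_lit 122)))) (XT.nd (nat_lit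 156) (nat_lit 76) (nat_lit 0) (XT.nd (nat_lit 78) (nat_lit 76) (nat_lit 0) (XT.lf (nat_lit 0) (nat_lit 326267171380) (nat_lit 76) (nat_lit 26937053916) (nat_lit 152) (nat_lit 157728571467) (nat_lit 21) (nat_lit 5) (nat_lit 22) (nat_lit 5) (nat_lit 23) (nat_lit 4) (nat_lit 423) (nat_lit 356) (nat_lit 121)) (XT.lf (nat_lit 0) (nat_lit 21362396793) (nat_lit 76) (nat_lit 444137652671) (nat_lit 76) (nat_lit 65278901174) (nat_lit 20) (nat_lit 4) (nat_lit 21) (nat_lit 5) (nat_lit 21) (nat_lit 4) (nat_lit 424) (nat_lit 356) (nat_lit 120))) (XT.nd (nat_lit 78) (nat_lit 0) (nat_lit 0) (XT.lf (nat_lit 0) (nat_lit 34395815581) (nat_lit 152) (nat_lit 308347509685) (nat_lit 76) (nat_lit 208668260592) (nat_lit 19) (nat_lit 5) (nat_lit 21) (nat_lit 5) (nat_lit 20) (nat_lit 4) (nat_lit 425) (nat_lit 356) (nat_lit 119)) (XT.lf (nat_lit 0) (nat_lit 136860358500) (nat_lit 152) (nat_lit 98295368255) (nat_lit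 76) (nat_lit 337866624335) (nat_lit 19) (nat_lit 5) (nat_lit 21) (nat_lit 5) (nat_lit 20) (nat_lit 4) (nat_lit 426) (nat_lit 356) (nat_lit 118))))))) (XT.nd (nat_lit 42276) (nat_lit 0) (nat_lit 4256) (XT.nd (nat_lit 41808) (nat_lit 0) (nat_lit 6840) (XT.nd (nat_lit 41574) (nat_lit 0) (nat_lit 6764) (XT.nd (nat_lit 41418) (nat_lit 0) (nat_lit 6688) (XT.lf (nat_lit 0) (nat_lit 126301621851) (nat_lit 76) (nat_lit 120118323717) (nat_lit 152) (nat_lit 349195118184) (nat_lit 18) (nat_lit 5) (nat_lit 19) (nat_lit 5) (nat_lit 20) (nat_lit 4) (nat_lit 427) (nat_lit 356) (nat_lit 117)) (XT.nd (nat_lit 78) (nat_lit 0) (nat_lit 0) (XT.lf (nat_lit 0) (nat_lit 5553766564) (nat_lit 836) (nat_lit 13652457189) (nat_lit 836) (nat_lit 13652457189) (nat_lit 106) (nat_lit 3) (nat_lit 117) (nat_lit 3) (nat_lit 117) (nat_lit 5) (nat_lit 357) (nat_lit 357) (nat_lit 186)) (XT.lf (nat_lit 76) (nat_lit 4229637653)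 (nat_lit 0) (nat_lit 7236321887) (nat_lit 836) (nat_lit 55890286747) (nat_lit 107) (nat_lit 5) (nat_lit 106) (nat_lit 3) (nat_lit 117) (nat_lit 5) (nat_lit 358) (nat_lit 357) (nat_lit 185)))) (XT.nd (nat_lit 78) (nat_lit 0) (nat_lit 0) (XT.lf (nat_lit 0) (nat_lit 12709472441) (nat_lit 760) (nat_lit 31171322943) (nat_lit 836) (nat_lit 25152922083) (nat_lit 107) (nat_lit 5) (nat_lit 117) (nat_lit 5) (nat_lit 118) (nat_lit 5) (nat_lit 359) (nat_lit 357) (nat_lit 184)) (XT.nd (nat_lit 78) (nat_lit 0) (nat_lit 76) (XT.lf (nat_lit 76) (nat_lit 2337370262) (nat_lit 0) (nat_lit 11832014500) (nat_lit 836) (nat_lit 56617967030) (nat_lit 108) (nat_lit 5) (nat_lit 107) (nat_lit 5) (nat_lit 118) (nat_lit 5) (nat_lit 360) (nat_lit 357) (nat_lit 183)) (XT.lf (nat_lit 0) (nat_lit 16578649498) (nat_lit 760) (nat_lit 34348469129) (nat_lit 836) (nat_lit 21657732108) (nat_lit 108) (nat_lit 5) (nat_lit 118)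 (nat_lit 5) (nat_lit 119) (nat_lit 5) (nat_lit 361) (nat_lit 357) (nat_lit 182))))) (XT.nd (nat_lit 234) (nat_lit 0) (nat_lit 152) (XT.nd (nat_lit 78) (nat_lit 0) (nat_lit 76) (XT.lf (nat_lit 76) (nat_lit 1305379969) (nat_lit 0) (nat_lit 18016528728) (nat_lit 836) (nat_lit 55139640070) (nat_lit 109) (nat_lit 5) (nat_lit 108) (nat_lit 5) (nat_lit 119) (nat_lit 5) (nat_lit 362) (nat_lit 357) (nat_lit 181)) (XT.nd (nat_lit 78) (nat_lit 0) (nat_lit 0) (XT.lf (nat_lit 0) (nat_lit 23051021722) (nat_lit 760) (nat_lit 36736925732) (nat_lit 836) (nat_lit 16601700375) (nat_lit 109) (nat_lit 5) (nat_lit 119) (nat_lit 5) (nat_lit 120) (nat_lit 5) (nat_lit 363) (nat_lit 357) (nat_lit 180)) (XT.lf (nat_lit 76) (nat_lit 1247288848) (nat_lit 0) (nat_lit 26033382784) (nat_lit 836) (nat_lit 51117776790) (nat_lit 110) (nat_lit 5) (nat_lit 109) (nat_lit 5) (nat_lit 120) (nat_lit 5) (nat_lit 364) (nat_lit 357)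 (nat_lit 179)))) (XT.nd (nat_lit 78) (nat_lit 0) (nat_lit 0) (XT.lf (nat_lit 0) (nat_lit 32500344587) (nat_lit 760) (nat_lit 38228131555) (nat_lit 836) (nat_lit 9740286482) (nat_lit 110) (nat_lit 5) (nat_lit 120) (nat_lit 5) (nat_lit 121) (nat_lit 5) (nat_lit 365) (nat_lit 357) (nat_lit 178)) (XT.nd (nat_lit 78) (nat_lit 0) (nat_lit 76) (XT.lf (nat_lit 76) (nat_lit 2286905501) (nat_lit 0) (nat_lit 36155895721) (nat_lit 836) (nat_lit 44176701893) (nat_lit 111) (nat_lit 5) (nat_lit 110) (nat_lit 5) (nat_lit 121) (nat_lit 5) (nat_lit 366) (nat_lit 357) (nat_lit 177)) (XT.lf (nat_lit 0) (nat_lit 45342018427) (nat_lit 760) (nat_lit 38703990194) (nat_lit 76) (nat_lit 798790676) (nat_lit 111) (nat_lit 5) (nat_lit 121) (nat_lit 5) (nat_lit 112) (nat_lit 5) (nat_lit 367) (nat_lit 357) (nat_lit 176)))))) (XT.nd (nat_lit 468) (nat_lit 1292) (nat_lit 0) (XT.nd (nat_lit 234) (nat_lit 380) (nat_lit 0)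 (XT.nd (nat_lit 78) (nat_lit 380) (nat_lit 0) (XT.lf (nat_lit 0) (nat_lit 4558675106) (nat_lit 760) (nat_lit 48690789697) (nat_lit 836) (nat_lit 33898732593) (nat_lit 101) (nat_lit 5) (nat_lit 111) (nat_lit 5) (nat_lit 112) (nat_lit 5) (nat_lit 368) (nat_lit 357) (nat_lit 175)) (XT.nd (nat_lit 78) (nat_lit 380) (nat_lit 0) (XT.lf (nat_lit 0) (nat_lit 51327638869) (nat_lit 760) (nat_lit 10879511622) (nat_lit 836) (nat_lit 27326872061) (nat_lit 101) (nat_lit 5) (nat_lit 111) (nat_lit 5) (nat_lit 112) (nat_lit 5) (nat_lit 369) (nat_lit 357) (nat_lit 174)) (XT.lf (nat_lit 0) (nat_lit 8208070219) (nat_lit 380) (nat_lit 63982224320) (nat_lit 456) (nat_lit 19819966200) (nat_lit 96) (nat_lit 5) (nat_lit 101) (nat_lit 5) (nat_lit 102) (nat_lit 5) (nat_lit 370) (nat_lit 357) (nat_lit 173)))) (XT.nd (nat_lit 78) (nat_lit 380) (nat_lit 0) (XT.lf (nat_lit 0) (nat_lit 58084891537) (nat_lit 380) (nat_lit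 25409668425) (nat_lit 456) (nat_lit 11074653120) (nat_lit 96) (nat_lit 5) (nat_lit 101) (nat_lit 5) (nat_lit 102) (nat_lit 5) (nat_lit 371) (nat_lit 357) (nat_lit 172)) (XT.nd (nat_lit 78) (nat_lit 76) (nat_lit 0) (XT.lf (nat_lit 0) (nat_lit 13391898466) (nat_lit 304) (nat_lit 82416317291) (nat_lit 380) (nat_lit 1425688860) (nat_lit 92) (nat_lit 5) (nat_lit 96) (nat_lit 5) (nat_lit 97) (nat_lit 5) (nat_lit 372) (nat_lit 357) (nat_lit 171)) (XT.lf (nat_lit 0) (nat_lit 9471126034) (nat_lit 380) (nat_lit 33535510626) (nat_lit 76) (nat_lit 56966196429) (nat_lit 91) (nat_lit 5) (nat_lit 96) (nat_lit 5) (nat_lit 92) (nat_lit 5) (nat_lit 373) (nat_lit 357) (nat_lit 170))))) (XT.nd (nat_lit 234) (nat_lit 608) (nat_lit 0) (XT.nd (nat_lit 78) (nat_lit 304) (nat_lit 0) (XT.lf (nat_lit 0) (nat_lit 19899311634) (nat_lit 380) (nat_lit 1275745559) (nat_lit 456) (nat_lit 81656973166) (nat_lit 86) (nat_lit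 5) (nat_lit 91) (nat_lit 5) (nat_lit 92) (nat_lit 5) (nat_lit 374) (nat_lit 357) (nat_lit 169)) (XT.nd (nat_lit 78) (nat_lit 304) (nat_lit 0) (XT.lf (nat_lit 0) (nat_lit 34705149391) (nat_lit 456) (nat_lit 29309687361) (nat_lit 76) (nat_lit 41757302872) (nat_lit 86) (nat_lit 5) (nat_lit 92) (nat_lit 5) (nat_lit 87) (nat_lit 5) (nat_lit 375) (nat_lit 357) (nat_lit 168)) (XT.lf (nat_lit 0) (nat_lit 27864915319) (nat_lit 304) (nat_lit 21502335952) (nat_lit 380) (nat_lit 59469228167) (nat_lit 82) (nat_lit 5) (nat_lit 86) (nat_lit 5) (nat_lit 87) (nat_lit 5) (nat_lit 376) (nat_lit 357) (nat_lit 167)))) (XT.nd (nat_lit 156) (nat_lit 304) (nat_lit 0) (XT.nd (nat_lit 78) (nat_lit 304) (nat_lit 0) (XT.lf (nat_lit 0) (nat_lit 65627738421) (nat_lit 380) (nat_lit 23483285928) (nat_lit 76) (nat_lit 22899748208) (nat_lit 82) (nat_lit 5) (nat_lit 87) (nat_lit 5) (nat_lit 83) (nat_lit 5) (nat_lit 377)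 (nat_lit 357) (nat_lit 166)) (XT.lf (nat_lit 0) (nat_lit 37734131116) (nat_lit 304) (nat_lit 45908327510) (nat_lit 380) (nat_lit 31654261578) (nat_lit 78) (nat_lit 5) (nat_lit 82) (nat_lit 5) (nat_lit 83) (nat_lit 5) (nat_lit 378) (nat_lit 357) (nat_lit 165))) (XT.nd (nat_lit 78) (nat_lit 304) (nat_lit 0) (XT.lf (nat_lit 0) (nat_lit 102827208234) (nat_lit 304) (nat_lit 127995701) (nat_lit 380) (nat_lit 15771897136) (nat_lit 78) (nat_lit 5) (nat_lit 82) (nat_lit 5) (nat_lit 83) (nat_lit 5) (nat_lit 379) (nat_lit 357) (nat_lit 164)) (XT.lf (nat_lit 0) (nat_lit 2424476920) (nat_lit 304) (nat_lit 72604663324) (nat_lit 76) (nat_lit 47221712659) (nat_lit 74) (nat_lit 5) (nat_lit 78) (nat_lit 5) (nat_lit 75) (nat_lit 5) (nat_lit 380) (nat_lit 357) (nat_lit 163))))))))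
noncomputable def xc224 : XT := (XT.nd (nat_lit 1872) (nat_lit 1368) (nat_lit 0) (XT.nd (nat_lit 936) (nat_lit 1292) (nat_lit 0) (XT.nd (nat_lit 468) (nat_lit 684) (nat_lit 0) (XT.nd (nat_lit 234) (nat_lit 304) (nat_lit 0) (XT.nd (nat_lit 78) (nat_lit 532) (nat_lit 0) (XT.lf (nat_lit 0) (nat_lit 21276026746) (nat_lit 304) (nat_lit 7181310022) (nat_lit 76) (nat_lit 97466758216) (nat_lit 74) (nat_lit 5) (nat_lit 78) (nat_lit 5) (nat_lit 75) (nat_lit 5) (nat_lit 381) (nat_lit 357) (nat_lit 162)) (XT.nd (nat_lit 78) (nat_lit 228) (nat_lit 0) (XT.lf (nat_lit 0) (nat_lit 42397361152) (nat_lit 380) (nat_lit 66520221274) (nat_lit 76) (nat_lit 20797056628) (nat_lit 70) (nat_lit 5) (nat_lit 75) (nat_lit 5) (nat_lit 71) (nat_lit 5) (nat_lit 382) (nat_lit 357) (nat_lit 161)) (XT.lf (nat_lit 0) (nat_lit 3285797265) (nat_lit 228) (nat_lit 61930030411) (nat_lit 304) (nat_lit 68446829611) (nat_lit 67)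 (nat_lit 5) (nat_lit 70) (nat_lit 5) (nat_lit 71) (nat_lit 5) (nat_lit 383) (nat_lit 357) (nat_lit 160)))) (XT.nd (nat_lit 78) (nat_lit 304) (nat_lit 0) (XT.lf (nat_lit 0) (nat_lit 78891073637) (nat_lit 228) (nat_lit 11410344288) (nat_lit 304) (nat_lit 47450348706) (nat_lit 67) (nat_lit 5) (nat_lit 70) (nat_lit 5) (nat_lit 71) (nat_lit 5) (nat_lit 384) (nat_lit 357) (nat_lit 159)) (XT.nd (nat_lit 78) (nat_lit 76) (nat_lit 0) (XT.lf (nat_lit 0) (nat_lit 16095941431) (nat_lit 228) (nat_lit 101446356315) (nat_lit 304) (nat_lit 24457983401) (nat_lit 64) (nat_lit 5) (nat_lit 67) (nat_lit 5) (nat_lit 68) (nat_lit 5) (nat_lit 385) (nat_lit 357) (nat_lit 158)) (XT.lf (nat_lit 0) (nat_lit 894011294) (nat_lit 304) (nat_lit 49766395628) (nat_lit 76) (nat_lit 95741066480) (nat_lit 63) (nat_lit 5) (nat_lit 67) (nat_lit 5) (nat_lit 64) (nat_lit 5) (nat_lit 386) (nat_lit 357) (nat_lit 157))))) (XT.nd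 (nat_lit 234) (nat_lit 228) (nat_lit 0) (XT.nd (nat_lit 78) (nat_lit 228) (nat_lit 0) (XT.lf (nat_lit 0) (nat_lit 27227664290) (nat_lit 304) (nat_lit 120273119920) (nat_lit 76) (nat_lit 3475093352) (nat_lit 60) (nat_lit 5) (nat_lit 64) (nat_lit 5) (nat_lit 61) (nat_lit 5) (nat_lit 387) (nat_lit 357) (nat_lit 156)) (XT.nd (nat_lit 78) (nat_lit 228) (nat_lit 0) (XT.lf (nat_lit 0) (nat_lit 56564821613) (nat_lit 304) (nat_lit 39658485798) (nat_lit 76) (nat_lit 59471353607) (nat_lit 60) (nat_lit 5) (nat_lit 64) (nat_lit 5) (nat_lit 61) (nat_lit 5) (nat_lit 388) (nat_lit 357) (nat_lit 155)) (XT.lf (nat_lit 0) (nat_lit 46473901729) (nat_lit 228) (nat_lit 41620226278) (nat_lit 304) (nat_lit 72518991242) (nat_lit 57) (nat_lit 5) (nat_lit 60) (nat_lit 5) (nat_lit 61) (nat_lit 5) (nat_lit 389) (nat_lit 357) (nat_lit 154)))) (XT.nd (nat_lit 78) (nat_lit 228) (nat_lit 0) (XT.lf (nat_lit 0) (nat_lit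 122127578575) (nat_lit 304) (nat_lit 27710930299) (nat_lit 76) (nat_lit 15892607730) (nat_lit 57) (nat_lit 5) (nat_lit 61) (nat_lit 5) (nat_lit 58) (nat_lit 5) (nat_lit 390) (nat_lit 357) (nat_lit 153)) (XT.nd (nat_lit 78) (nat_lit 76) (nat_lit 0) (XT.lf (nat_lit 0) (nat_lit 64417827287) (nat_lit 152) (nat_lit 95132638545) (nat_lit 228) (nat_lit 11470159934) (nat_lit 55) (nat_lit 5) (nat_lit 57) (nat_lit 5) (nat_lit 58) (nat_lit 5) (nat_lit 391) (nat_lit 357) (nat_lit 152)) (XT.lf (nat_lit 0) (nat_lit 22033827796) (nat_lit 228) (nat_lit 14791871032) (nat_lit 76) (nat_lit 139707691117) (nat_lit 54) (nat_lit 5) (nat_lit 57) (nat_lit 5) (nat_lit 55) (nat_lit 5) (nat_lit 392) (nat_lit 357) (nat_lit 151)))))) (XT.nd (nat_lit 468) (nat_lit 532) (nat_lit 0) (XT.nd (nat_lit 234) (nat_lit 380) (nat_lit 0) (XT.nd (nat_lit 78) (nat_lit 152) (nat_lit 0) (XT.lf (nat_lit 0) (nat_lit 58546032929) (nat_lit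 304) (nat_lit 98538931240) (nat_lit 76) (nat_lit 25141501990) (nat_lit 51) (nat_lit 5) (nat_lit 55) (nat_lit 5) (nat_lit 52) (nat_lit 5) (nat_lit 393) (nat_lit 357) (nat_lit 150)) (XT.nd (nat_lit 78) (nat_lit 152) (nat_lit 0) (XT.lf (nat_lit 0) (nat_lit 97741904525) (nat_lit 304) (nat_lit 1195430679) (nat_lit 76) (nat_lit 89223958291) (nat_lit 51) (nat_lit 5) (nat_lit 55) (nat_lit 5) (nat_lit 52) (nat_lit 5) (nat_lit 394) (nat_lit 357) (nat_lit 149)) (XT.lf (nat_lit 0) (nat_lit 104354866892) (nat_lit 152) (nat_lit 36171729069) (nat_lit 228) (nat_lit 53784815039) (nat_lit 49) (nat_lit 5) (nat_lit 51) (nat_lit 5) (nat_lit 52) (nat_lit 5) (nat_lit 395) (nat_lit 357) (nat_lit 148)))) (XT.nd (nat_lit 78) (nat_lit 228) (nat_lit 0) (XT.lf (nat_lit 0) (nat_lit 14453849972) (nat_lit 152) (nat_lit 171706874426) (nat_lit 228) (nat_lit 14572799972) (nat_lit 47) (nat_lit 5) (nat_lit 49) (nat_lit 5)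 (nat_lit 50) (nat_lit 5) (nat_lit 396) (nat_lit 357) (nat_lit 147)) (XT.nd (nat_lit 78) (nat_lit 152) (nat_lit 0) (XT.lf (nat_lit 0) (nat_lit 27889626609) (nat_lit 228) (nat_lit 81226361191) (nat_lit 76) (nat_lit 98232932276) (nat_lit 46) (nat_lit 5) (nat_lit 49) (nat_lit 5) (nat_lit 47) (nat_lit 5) (nat_lit 397) (nat_lit 357) (nat_lit 146)) (XT.lf (nat_lit 0) (nat_lit 29793939098) (nat_lit 152) (nat_lit 42656431628) (nat_lit 228) (nat_lit 141809523125) (nat_lit 44) (nat_lit 5) (nat_lit 46) (nat_lit 5) (nat_lit 47) (nat_lit 5) (nat_lit 398) (nat_lit 357) (nat_lit 145))))) (XT.nd (nat_lit 234) (nat_lit 380) (nat_lit 0) (XT.nd (nat_lit 78) (nat_lit 152) (nat_lit 0) (XT.lf (nat_lit 0) (nat_lit 121060599126) (nat_lit 228) (nat_lit 72708826496) (nat_lit 76) (nat_lit 27655918431) (nat_lit 44) (nat_lit 5) (nat_lit 47) (nat_lit 5) (nat_lit 45) (nat_lit 5) (nat_lit 399) (nat_lit 357) (nat_lit 144))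 (XT.nd (nat_lit 78) (nat_lit 0) (nat_lit 0) (XT.lf (nat_lit 0) (nat_lit 45389254501) (nat_lit 152) (nat_lit 128119808361) (nat_lit 228) (nat_lit 55369617793) (nat_lit 42) (nat_lit 5) (nat_lit 44) (nat_lit 5) (nat_lit 45) (nat_lit 5) (nat_lit 400) (nat_lit 357) (nat_lit 143)) (XT.lf (nat_lit 0) (nat_lit 171916174077) (nat_lit 152) (nat_lit 57894924315) (nat_lit 228) (nat_lit 6832028347) (nat_lit 42) (nat_lit 5) (nat_lit 44) (nat_lit 5) (nat_lit 45) (nat_lit 5) (nat_lit 401) (nat_lit 357) (nat_lit 142)))) (XT.nd (nat_lit 78) (nat_lit 152) (nat_lit 0) (XT.lf (nat_lit 0) (nat_lit 43950215301) (nat_lit 228) (nat_lit 183743360985) (nat_lit 76) (nat_lit 17006252940) (nat_lit 39) (nat_lit 5) (nat_lit 42) (nat_lit 5) (nat_lit 40) (nat_lit 5) (nat_lit 402) (nat_lit 357) (nat_lit 141)) (XT.nd (nat_lit 78) (nat_lit 152) (nat_lit 0) (XT.lf (nat_lit 0) (nat_lit 99105018197) (nat_lit 228) (nat_lit 59012735885)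 (nat_lit 76) (nat_lit 94932860403) (nat_lit 39) (nat_lit 5) (nat_lit 42) (nat_lit 5) (nat_lit 40) (nat_lit 5) (nat_lit 403) (nat_lit 357) (nat_lit 140)) (XT.lf (nat_lit 0) (nat_lit 74333219910) (nat_lit 152) (nat_lit 83844699240) (nat_lit 228) (nat_lit 103583002029) (nat_lit 37) (nat_lit 5) (nat_lit 39) (nat_lit 5) (nat_lit 40) (nat_lit 5) (nat_lit 404) (nat_lit 357) (nat_lit 139))))))) (XT.nd (nat_lit 936) (nat_lit 456) (nat_lit 0) (XT.nd (nat_lit 468) (nat_lit 532) (nat_lit 0) (XT.nd (nat_lit 234) (nat_lit 228) (nat_lit 0) (XT.nd (nat_lit 78) (nat_lit 152) (nat_lit 0) (XT.lf (nat_lit 0) (nat_lit 216394939904) (nat_lit 152) (nat_lit 4808746621) (nat_lit 228) (nat_lit 49653095678) (nat_lit 37) (nat_lit 5) (nat_lit 39) (nat_lit 5) (nat_lit 40) (nat_lit 5) (nat_lit 405) (nat_lit 357) (nat_lit 138)) (XT.nd (nat_lit 78) (nat_lit 0) (nat_lit 0) (XT.lf (nat_lit 0) (nat_lit 9366460397) (nat_lit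 152) (nat_lit 193723247748) (nat_lit 76) (nat_lit 77181467361) (nat_lit 35) (nat_lit 5) (nat_lit 37) (nat_lit 5) (nat_lit 36) (nat_lit 5) (nat_lit 406) (nat_lit 357) (nat_lit 137)) (XT.lf (nat_lit 0) (nat_lit 70684434431) (nat_lit 152) (nat_lit 54519445580) (nat_lit 76) (nat_lit 164860903774) (nat_lit 35) (nat_lit 5) (nat_lit 37) (nat_lit 5) (nat_lit 36) (nat_lit 5) (nat_lit 407) (nat_lit 357) (nat_lit 136)))) (XT.nd (nat_lit 78) (nat_lit 76) (nat_lit 0) (XT.lf (nat_lit 0) (nat_lit 94674419253) (nat_lit 152) (nat_lit 41871849407) (nat_lit 228) (nat_lit 163727905795) (nat_lit 33) (nat_lit 5) (nat_lit 35) (nat_lit 5) (nat_lit 36) (nat_lit 5) (nat_lit 408) (nat_lit 357) (nat_lit 135)) (XT.nd (nat_lit 78) (nat_lit 76) (nat_lit 0) (XT.lf (nat_lit 0) (nat_lit 207351836077) (nat_lit 228) (nat_lit 58454899590) (nat_lit 76) (nat_lit 45104766969) (nat_lit 33) (nat_lit 5) (nat_lit 36) (nat_lit 5)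 (nat_lit 34) (nat_lit 4) (nat_lit 409) (nat_lit 357) (nat_lit 134)) (XT.lf (nat_lit 0) (nat_lit 98513536060) (nat_lit 76) (nat_lit 185408480093) (nat_lit 152) (nat_lit 38047464406) (nat_lit 32) (nat_lit 5) (nat_lit 33) (nat_lit 5) (nat_lit 34) (nat_lit 4) (nat_lit 410) (nat_lit 357) (nat_lit 133))))) (XT.nd (nat_lit 234) (nat_lit 304) (nat_lit 0) (XT.nd (nat_lit 78) (nat_lit 152) (nat_lit 0) (XT.lf (nat_lit 0) (nat_lit 30762494436) (nat_lit 152) (nat_lit 68667503634) (nat_lit 76) (nat_lit 234076060718) (nat_lit 31) (nat_lit 5) (nat_lit 33) (nat_lit 5) (nat_lit 32) (nat_lit 5) (nat_lit 411) (nat_lit 357) (nat_lit 132)) (XT.nd (nat_lit 78) (nat_lit 0) (nat_lit 0) (XT.lf (nat_lit 0) (nat_lit 96319170961) (nat_lit 152) (nat_lit 6918794631) (nat_lit 228) (nat_lit 242275130999) (nat_lit 29) (nat_lit 5) (nat_lit 31) (nat_lit 5) (nat_lit 32) (nat_lit 5) (nat_lit 412) (nat_lit 357) (nat_lit 131))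 (XT.lf (nat_lit 0) (nat_lit 181927594960) (nat_lit 228) (nat_lit 87551075662) (nat_lit 76) (nat_lit 88512296469) (nat_lit 29) (nat_lit 5) (nat_lit 32) (nat_lit 5) (nat_lit 30) (nat_lit 4) (nat_lit 413) (nat_lit 357) (nat_lit 130)))) (XT.nd (nat_lit 78) (nat_lit 228) (nat_lit 0) (XT.lf (nat_lit 0) (nat_lit 84773513260) (nat_lit 76) (nat_lit 181215022474) (nat_lit 152) (nat_lit 105032353924) (nat_lit 28) (nat_lit 5) (nat_lit 29) (nat_lit 5) (nat_lit 30) (nat_lit 4) (nat_lit 414) (nat_lit 357) (nat_lit 129)) (XT.nd (nat_lit 78) (nat_lit 228) (nat_lit 0) (XT.lf (nat_lit 0) (nat_lit 268753648987) (nat_lit 76) (nat_lit 86981452218) (nat_lit 152) (nat_lit 28893078300) (nat_lit 28) (nat_lit 5) (nat_lit 29) (nat_lit 5) (nat_lit 30) (nat_lit 4) (nat_lit 415) (nat_lit 357) (nat_lit 128)) (XT.lf (nat_lit 0) (nat_lit 50638850864) (nat_lit 228) (nat_lit 334765228651) (nat_lit 76) (nat_lit 13410914729)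 (nat_lit 25) (nat_lit 5) (nat_lit 28) (nat_lit 5) (nat_lit 26) (nat_lit 4) (nat_lit 416) (nat_lit 357) (nat_lit 127)))))) (XT.nd (nat_lit 468) (nat_lit 228) (nat_lit 0) (XT.nd (nat_lit 234) (nat_lit 152) (nat_lit 0) (XT.nd (nat_lit 78) (nat_lit 76) (nat_lit 0) (XT.lf (nat_lit 0) (nat_lit 136596729940) (nat_lit 228) (nat_lit 158551855986) (nat_lit 76) (nat_lit 118367863455) (nat_lit 25) (nat_lit 5) (nat_lit 28) (nat_lit 5) (nat_lit 26) (nat_lit 4) (nat_lit 417) (nat_lit 357) (nat_lit 126)) (XT.nd (nat_lit 78) (nat_lit 0) (nat_lit 0) (XT.lf (nat_lit 0) (nat_lit 27347227795) (nat_lit 76) (nat_lit 199932111861) (nat_lit 152) (nat_lit 201652295817) (nat_lit 24) (nat_lit 5) (nat_lit 25) (nat_lit 5) (nat_lit 26) (nat_lit 4) (nat_lit 418) (nat_lit 357) (nat_lit 125)) (XT.lf (nat_lit 0) (nat_lit 228045592458) (nat_lit 76) (nat_lit 97135512137) (nat_lit 152) (nat_lit 119802225064) (nat_lit 24) (nat_lit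 5) (nat_lit 25) (nat_lit 5) (nat_lit 26) (nat_lit 4) (nat_lit 419) (nat_lit 357) (nat_lit 124)))) (XT.nd (nat_lit 78) (nat_lit 152) (nat_lit 0) (XT.lf (nat_lit 0) (nat_lit 428146467184) (nat_lit 152) (nat_lit 23227594795) (nat_lit 0) (nat_lit 10455121132) (nat_lit 24) (nat_lit 5) (nat_lit 26) (nat_lit 4) (nat_lit 24) (nat_lit 4) (nat_lit 420) (nat_lit 357) (nat_lit 123)) (XT.nd (nat_lit 78) (nat_lit 0) (nat_lit 0) (XT.lf (nat_lit 0) (nat_lit 59472482968) (nat_lit 152) (nat_lit 295772974916) (nat_lit 76) (nat_lit 124000283830) (nat_lit 22) (nat_lit 5) (nat_lit 24) (nat_lit 5) (nat_lit 23) (nat_lit 4) (nat_lit 421) (nat_lit 357) (nat_lit 122)) (XT.lf (nat_lit 0) (nat_lit 156553183941) (nat_lit 152) (nat_lit 96757746445) (nat_lit 76) (nat_lit 244174603989) (nat_lit 22) (nat_lit 5) (nat_lit 24) (nat_lit 5) (nat_lit 23) (nat_lit 4) (nat_lit 422) (nat_lit 357) (nat_lit 121))))) (XT.nd (nat_lit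 234) (nat_lit 76) (nat_lit 0) (XT.nd (nat_lit 78) (nat_lit 76) (nat_lit 0) (XT.lf (nat_lit 0) (nat_lit 115918139778) (nat_lit 76) (nat_lit 144379475781) (nat_lit 152) (nat_lit 256249216352) (nat_lit 21) (nat_lit 5) (nat_lit 22) (nat_lit 5) (nat_lit 23) (nat_lit 4) (nat_lit 423) (nat_lit 357) (nat_lit 120)) (XT.nd (nat_lit 78) (nat_lit 76) (nat_lit 0) (XT.lf (nat_lit 0) (nat_lit 342586826072) (nat_lit 76) (nat_lit 28280972625) (nat_lit 152) (nat_lit 165611469152) (nat_lit 21) (nat_lit 5) (nat_lit 22) (nat_lit 5) (nat_lit 23) (nat_lit 4) (nat_lit 424) (nat_lit 357) (nat_lit 119)) (XT.lf (nat_lit 0) (nat_lit 22436832167) (nat_lit 76) (nat_lit 466341564034) (nat_lit 76) (nat_lit 68539334140) (nat_lit 20) (nat_lit 4) (nat_lit 21) (nat_lit 5) (nat_lit 21) (nat_lit 4) (nat_lit 425) (nat_lit 357) (nat_lit 118)))) (XT.nd (nat_lit 41574) (nat_lit 0) (nat_lit 6612) (XT.nd (nat_lit 78) (nat_lit 0)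 (nat_lit 0) (XT.lf (nat_lit 0) (nat_lit 36118844154) (nat_lit 152) (nat_lit 323758762761) (nat_lit 76) (nat_lit 219104395789) (nat_lit 19) (nat_lit 5) (nat_lit 21) (nat_lit 5) (nat_lit 20) (nat_lit 4) (nat_lit 426) (nat_lit 357) (nat_lit 117)) (XT.lf (nat_lit 0) (nat_lit 143706460038) (nat_lit 152) (nat_lit 103204305802) (nat_lit 76) (nat_lit 354762548093) (nat_lit 19) (nat_lit 5) (nat_lit 21) (nat_lit 5) (nat_lit 20) (nat_lit 4) (nat_lit 427) (nat_lit 357) (nat_lit 116))) (XT.nd (nat_lit 78) (nat_lit 0) (nat_lit 0) (XT.lf (nat_lit 0) (nat_lit 5845926945) (nat_lit 836) (nat_lit 14327475949) (nat_lit 836) (nat_lit 14327475949) (nat_lit 106) (nat_lit 3) (nat_lit 117) (nat_lit 3) (nat_lit 117) (nat_lit 5) (nat_lit 358) (nat_lit 358) (nat_lit 184)) (XT.lf (nat_lit 76) (nat_lit 4456082440) (nat_lit 0) (nat_lit 7610974505) (nat_lit 836) (nat_lit 58655587796) (nat_lit 107) (nat_lit 5) (nat_lit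 106) (nat_lit 3) (nat_lit 117) (nat_lit 5) (nat_lit 359) (nat_lit 358) (nat_lit 183))))))))
noncomputable def xc225 : XT := (XT.nd (nat_lit 1950) (nat_lit 2584) (nat_lit 0) (XT.nd (nat_lit 936) (nat_lit 2204) (nat_lit 0) (XT.nd (nat_lit 468) (nat_lit 836) (nat_lit 0) (XT.nd (nat_lit 234) (nat_lit 0) (nat_lit 76) (XT.nd (nat_lit 78) (nat_lit 0) (nat_lit 0) (XT.lf (nat_lit 0) (nat_lit 13371230838) (nat_lit 760) (nat_lit 32714101300) (nat_lit 836) (nat_lit 26398734211) (nat_lit 107) (nat_lit 5) (nat_lit 117) (nat_lit 5) (nat_lit 118) (nat_lit 5) (nat_lit 360) (nat_lit 358) (nat_lit 182)) (XT.nd (nat_lit 78) (nat_lit 0) (nat_lit 76) (XT.lf (nat_lit 76) (nat_lit 2469771924) (nat_lit 0) (nat_lit 12433357712) (nat_lit 836) (nat_lit 59422304296) (nat_lit 108) (nat_lit 5) (nat_lit 107) (nat_lit 5) (nat_lit 118) (nat_lit 5) (nat_lit 361) (nat_lit 358) (nat_lit 181)) (XT.lf (nat_lit 0) (nat_lit 17431509142)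 (nat_lit 760) (nat_lit 36049730008) (nat_lit 836) (nat_lit 22731637126) (nat_lit 108) (nat_lit 5) (nat_lit 118) (nat_lit 5) (nat_lit 119) (nat_lit 5) (nat_lit 362) (nat_lit 358) (nat_lit 180)))) (XT.nd (nat_lit 78) (nat_lit 0) (nat_lit 76) (XT.lf (nat_lit 76) (nat_lit 1386550859) (nat_lit 0) (nat_lit 18924489326) (nat_lit 836) (nat_lit 57872414563) (nat_lit 109) (nat_lit 5) (nat_lit 108) (nat_lit 5) (nat_lit 119) (nat_lit 5) (nat_lit 363) (nat_lit 358) (nat_lit 179)) (XT.nd (nat_lit 78) (nat_lit 0) (nat_lit 0) (XT.lf (nat_lit 0) (nat_lit 24225405826) (nat_lit 760) (nat_lit 38557405606) (nat_lit 836) (nat_lit 17425208419) (nat_lit 109) (nat_lit 5) (nat_lit 119) (nat_lit 5) (nat_lit 120) (nat_lit 5) (nat_lit 364) (nat_lit 358) (nat_lit 178)) (XT.lf (nat_lit 76) (nat_lit 1325755728) (nat_lit 0) (nat_lit 27339994240) (nat_lit 836) (nat_lit 53651550810) (nat_lit 110) (nat_lit 5) (nat_lit 109)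 (nat_lit 5) (nat_lit 120) (nat_lit 5) (nat_lit 365) (nat_lit 358) (nat_lit 177))))) (XT.nd (nat_lit 234) (nat_lit 1064) (nat_lit 0) (XT.nd (nat_lit 78) (nat_lit 0) (nat_lit 0) (XT.lf (nat_lit 0) (nat_lit 34145330951) (nat_lit 760) (nat_lit 40123109880) (nat_lit 836) (nat_lit 10222744490) (nat_lit 110) (nat_lit 5) (nat_lit 120) (nat_lit 5) (nat_lit 121) (nat_lit 5) (nat_lit 366) (nat_lit 358) (nat_lit 176)) (XT.nd (nat_lit 78) (nat_lit 0) (nat_lit 76) (XT.lf (nat_lit 76) (nat_lit 2417414057) (nat_lit 0) (nat_lit 37966797803) (nat_lit 836) (nat_lit 46365286712) (nat_lit 111) (nat_lit 5) (nat_lit 110) (nat_lit 5) (nat_lit 121) (nat_lit 5) (nat_lit 367) (nat_lit 358) (nat_lit 175)) (XT.lf (nat_lit 0) (nat_lit 47627426076) (nat_lit 760) (nat_lit 40622816853) (nat_lit 76) (nat_lit 835865597) (nat_lit 111) (nat_lit 5) (nat_lit 121) (nat_lit 5) (nat_lit 112) (nat_lit 5) (nat_lit 368) (nat_lit 358)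 (nat_lit 174)))) (XT.nd (nat_lit 78) (nat_lit 380) (nat_lit 0) (XT.lf (nat_lit 0) (nat_lit 4802717634) (nat_lit 760) (nat_lit 51126906890) (nat_lit 836) (nat_lit 35575083751) (nat_lit 101) (nat_lit 5) (nat_lit 111) (nat_lit 5) (nat_lit 112) (nat_lit 5) (nat_lit 369) (nat_lit 358) (nat_lit 173)) (XT.nd (nat_lit 78) (nat_lit 380) (nat_lit 0) (XT.lf (nat_lit 0) (nat_lit 53909362501) (nat_lit 760) (nat_lit 11424989783) (nat_lit 836) (nat_lit 28675515215) (nat_lit 101) (nat_lit 5) (nat_lit 111) (nat_lit 5) (nat_lit 112) (nat_lit 5) (nat_lit 370) (nat_lit 358) (nat_lit 172)) (XT.lf (nat_lit 0) (nat_lit 8634433425) (nat_lit 380) (nat_lit 67181644835) (nat_lit 456) (nat_lit 20793868764) (nat_lit 96) (nat_lit 5) (nat_lit 101) (nat_lit 5) (nat_lit 102) (nat_lit 5) (nat_lit 371) (nat_lit 358) (nat_lit 171)))))) (XT.nd (nat_lit 468) (nat_lit 1140) (nat_lit 0) (XT.nd (nat_lit 234) (nat_lit 684) (nat_lit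 0) (XT.nd (nat_lit 78) (nat_lit 380) (nat_lit 0) (XT.lf (nat_lit 0) (nat_lit 61004335823) (nat_lit 380) (nat_lit 26680446417) (nat_lit 456) (nat_lit 11612104113) (nat_lit 96) (nat_lit 5) (nat_lit 101) (nat_lit 5) (nat_lit 102) (nat_lit 5) (nat_lit 372) (nat_lit 358) (nat_lit 170)) (XT.nd (nat_lit 78) (nat_lit 76) (nat_lit 0) (XT.lf (nat_lit 0) (nat_lit 14077227151) (nat_lit 304) (nat_lit 86536397119) (nat_lit 380) (nat_lit 1481213626) (nat_lit 92) (nat_lit 5) (nat_lit 96) (nat_lit 5) (nat_lit 97) (nat_lit 5) (nat_lit 373) (nat_lit 358) (nat_lit 169)) (XT.lf (nat_lit 0) (nat_lit 9959211163) (nat_lit 380) (nat_lit 35196810290) (nat_lit 76) (nat_lit 59814715905) (nat_lit 91) (nat_lit 5) (nat_lit 96) (nat_lit 5) (nat_lit 92) (nat_lit 5) (nat_lit 374) (nat_lit 358) (nat_lit 168)))) (XT.nd (nat_lit 78) (nat_lit 304) (nat_lit 0) (XT.lf (nat_lit 0) (nat_lit 20909503472) (nat_lit 380) (nat_lit 1338381283)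 (nat_lit 456) (nat_lit 85725032963) (nat_lit 86) (nat_lit 5) (nat_lit 91) (nat_lit 5) (nat_lit 92) (nat_lit 5) (nat_lit 375) (nat_lit 358) (nat_lit 167)) (XT.nd (nat_lit 78) (nat_lit 304) (nat_lit 0) (XT.lf (nat_lit 0) (nat_lit 36453828462) (nat_lit 456) (nat_lit 30760007504) (nat_lit 76) (nat_lit 43846229632) (nat_lit 86) (nat_lit 5) (nat_lit 92) (nat_lit 5) (nat_lit 87) (nat_lit 5) (nat_lit 376) (nat_lit 358) (nat_lit 166)) (XT.lf (nat_lit 0) (nat_lit 29273080725) (nat_lit 304) (nat_lit 22575548525) (nat_lit 380) (nat_lit 62429013935) (nat_lit 82) (nat_lit 5) (nat_lit 86) (nat_lit 5) (nat_lit 87) (nat_lit 5) (nat_lit 377) (nat_lit 358) (nat_lit 165))))) (XT.nd (nat_lit 234) (nat_lit 836) (nat_lit 0) (XT.nd (nat_lit 78) (nat_lit 304) (nat_lit 0) (XT.lf (nat_lit 0) (nat_lit 68921549291) (nat_lit 380) (nat_lit 24642640572) (nat_lit 76) (nat_lit 24046491121) (nat_lit 82) (nat_lit 5) (nat_lit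 87) (nat_lit 5) (nat_lit 83) (nat_lit 5) (nat_lit 378) (nat_lit 358) (nat_lit 164)) (XT.nd (nat_lit 78) (nat_lit 0) (nat_lit 0) (XT.lf (nat_lit 0) (nat_lit 39635408459) (nat_lit 304) (nat_lit 48201232921) (nat_lit 380) (nat_lit 33224303268) (nat_lit 78) (nat_lit 5) (nat_lit 82) (nat_lit 5) (nat_lit 83) (nat_lit 5) (nat_lit 379) (nat_lit 358) (nat_lit 163)) (XT.lf (nat_lit 0) (nat_lit 107982445586) (nat_lit 304) (nat_lit 132004092) (nat_lit 380) (nat_lit 16548424004) (nat_lit 78) (nat_lit 5) (nat_lit 82) (nat_lit 5) (nat_lit 83) (nat_lit 5) (nat_lit 380) (nat_lit 358) (nat_lit 162)))) (XT.nd (nat_lit 156) (nat_lit 532) (nat_lit 0) (XT.nd (nat_lit 78) (nat_lit 0) (nat_lit 0) (XT.lf (nat_lit 0) (nat_lit 2557087542) (nat_lit 304) (nat_lit 76220323150) (nat_lit 76) (nat_lit 49585408111) (nat_lit 74) (nat_lit 5) (nat_lit 78) (nat_lit 5) (nat_lit 75) (nat_lit 5) (nat_lit 381) (nat_lit 358) (nat_lit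 161)) (XT.lf (nat_lit 0) (nat_lit 22350672630) (nat_lit 304) (nat_lit 7526496151) (nat_lit 76) (nat_lit 102342581668) (nat_lit 74) (nat_lit 5) (nat_lit 78) (nat_lit 5) (nat_lit 75) (nat_lit 5) (nat_lit 382) (nat_lit 358) (nat_lit 160))) (XT.nd (nat_lit 78) (nat_lit 228) (nat_lit 0) (XT.lf (nat_lit 0) (nat_lit 44527819172) (nat_lit 380) (nat_lit 69832091662) (nat_lit 76) (nat_lit 21839923955) (nat_lit 70) (nat_lit 5) (nat_lit 75) (nat_lit 5) (nat_lit 71) (nat_lit 5) (nat_lit 383) (nat_lit 358) (nat_lit 159)) (XT.lf (nat_lit 0) (nat_lit 3463999728) (nat_lit 228) (nat_lit 65022922225) (nat_lit 304) (nat_lit 71858346655) (nat_lit 67) (nat_lit 5) (nat_lit 70) (nat_lit 5) (nat_lit 71) (nat_lit 5) (nat_lit 384) (nat_lit 358) (nat_lit 158))))))) (XT.nd (nat_lit 936) (nat_lit 1216) (nat_lit 0) (XT.nd (nat_lit 468) (nat_lit 608) (nat_lit 0) (XT.nd (nat_lit 234) (nat_lit 456) (nat_lit 0) (XT.nd (nat_lit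 78) (nat_lit 304) (nat_lit 0) (XT.lf (nat_lit 0) (nat_lit 82848877415) (nat_lit 228) (nat_lit 11977423686) (nat_lit 304) (nat_lit 49812557154) (nat_lit 67) (nat_lit 5) (nat_lit 70) (nat_lit 5) (nat_lit 71) (nat_lit 5) (nat_lit 385) (nat_lit 358) (nat_lit 157)) (XT.nd (nat_lit 78) (nat_lit 76) (nat_lit 0) (XT.lf (nat_lit 0) (nat_lit 16914210775) (nat_lit 228) (nat_lit 106514808344) (nat_lit 304) (nat_lit 25670789957) (nat_lit 64) (nat_lit 5) (nat_lit 67) (nat_lit 5) (nat_lit 68) (nat_lit 5) (nat_lit 386) (nat_lit 358) (nat_lit 156)) (XT.lf (nat_lit 0) (nat_lit 948016228) (nat_lit 304) (nat_lit 52241571764) (nat_lit 76) (nat_lit 100531488597) (nat_lit 63) (nat_lit 5) (nat_lit 67) (nat_lit 5) (nat_lit 64) (nat_lit 5) (nat_lit 387) (nat_lit 358) (nat_lit 155)))) (XT.nd (nat_lit 78) (nat_lit 228) (nat_lit 0) (XT.lf (nat_lit 0) (nat_lit 28598171105) (nat_lit 304) (nat_lit 126273446489) (nat_lit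 76) (nat_lit 3652592652) (nat_lit 60) (nat_lit 5) (nat_lit 64) (nat_lit 5) (nat_lit 61) (nat_lit 5) (nat_lit 388) (nat_lit 358) (nat_lit 154)) (XT.nd (nat_lit 78) (nat_lit 228) (nat_lit 0) (XT.lf (nat_lit 0) (nat_lit 59401751837) (nat_lit 304) (nat_lit 41628715395) (nat_lit 76) (nat_lit 62448487605) (nat_lit 60) (nat_lit 5) (nat_lit 64) (nat_lit 5) (nat_lit 61) (nat_lit 5) (nat_lit 389) (nat_lit 358) (nat_lit 153)) (XT.lf (nat_lit 0) (nat_lit 48810086755) (nat_lit 228) (nat_lit 43697218030) (nat_lit 304) (nat_lit 76136042360) (nat_lit 57) (nat_lit 5) (nat_lit 60) (nat_lit 5) (nat_lit 61) (nat_lit 5) (nat_lit 390) (nat_lit 358) (nat_lit 152))))) (XT.nd (nat_lit 234) (nat_lit 380) (nat_lit 0) (XT.nd (nat_lit 78) (nat_lit 228) (nat_lit 0) (XT.lf (nat_lit 0) (nat_lit 128242084299) (nat_lit 304) (nat_lit 29084233719) (nat_lit 76) (nat_lit 16690943746) (nat_lit 57) (nat_lit 5) (nat_lit 61) (nat_lit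 5) (nat_lit 58) (nat_lit 5) (nat_lit 391) (nat_lit 358) (nat_lit 151)) (XT.nd (nat_lit 78) (nat_lit 76) (nat_lit 0) (XT.lf (nat_lit 0) (nat_lit 67650764277) (nat_lit 152) (nat_lit 99885152718) (nat_lit 228) (nat_lit 12035339543) (nat_lit 55) (nat_lit 5) (nat_lit 57) (nat_lit 5) (nat_lit 58) (nat_lit 5) (nat_lit 392) (nat_lit 358) (nat_lit 150)) (XT.lf (nat_lit 0) (nat_lit 23143197117) (nat_lit 228) (nat_lit 15519734952) (nat_lit 76) (nat_lit 146696739736) (nat_lit 54) (nat_lit 5) (nat_lit 57) (nat_lit 5) (nat_lit 55) (nat_lit 5) (nat_lit 393) (nat_lit 358) (nat_lit 149)))) (XT.nd (nat_lit 78) (nat_lit 152) (nat_lit 0) (XT.lf (nat_lit 0) (nat_lit 61480890269) (nat_lit 304) (nat_lit 103454022370) (nat_lit 76) (nat_lit 26402495480) (nat_lit 51) (nat_lit 5) (nat_lit 55) (nat_lit 5) (nat_lit 52) (nat_lit 5) (nat_lit 394) (nat_lit 358) (nat_lit 148)) (XT.nd (nat_lit 78) (nat_lit 152) (nat_lit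 0) (XT.lf (nat_lit 0) (nat_lit 102636195650) (nat_lit 304) (nat_lit 1243911325) (nat_lit 76) (nat_lit 93688888006) (nat_lit 51) (nat_lit 5) (nat_lit 55) (nat_lit 5) (nat_lit 52) (nat_lit 5) (nat_lit 395) (nat_lit 358) (nat_lit 147)) (XT.lf (nat_lit 0) (nat_lit 109583719014) (nat_lit 152) (nat_lit 37976233422) (nat_lit 228) (nat_lit 56466674549) (nat_lit 49) (nat_lit 5) (nat_lit 51) (nat_lit 5) (nat_lit 52) (nat_lit 5) (nat_lit 396) (nat_lit 358) (nat_lit 146)))))) (XT.nd (nat_lit 468) (nat_lit 684) (nat_lit 0) (XT.nd (nat_lit 234) (nat_lit 152) (nat_lit 0) (XT.nd (nat_lit 78) (nat_lit 228) (nat_lit 0) (XT.lf (nat_lit 0) (nat_lit 15187758216) (nat_lit 152) (nat_lit 180287930282) (nat_lit 228) (nat_lit 15294162619) (nat_lit 47) (nat_lit 5) (nat_lit 49) (nat_lit 5) (nat_lit 50) (nat_lit 5) (nat_lit 397) (nat_lit 358) (nat_lit 145)) (XT.nd (nat_lit 78) (nat_lit 152) (nat_lit 0) (XT.lf (nat_lit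 0) (nat_lit 29290816922) (nat_lit 228) (nat_lit 85276772968) (nat_lit 76) (nat_lit 103148437949) (nat_lit 46) (nat_lit 5) (nat_lit 49) (nat_lit 5) (nat_lit 47) (nat_lit 5) (nat_lit 398) (nat_lit 358) (nat_lit 144)) (XT.lf (nat_lit 0) (nat_lit 31294366428) (nat_lit 152) (nat_lit 44785079873) (nat_lit 228) (nat_lit 148893111733) (nat_lit 44) (nat_lit 5) (nat_lit 46) (nat_lit 5) (nat_lit 47) (nat_lit 5) (nat_lit 399) (nat_lit 358) (nat_lit 143)))) (XT.nd (nat_lit 78) (nat_lit 152) (nat_lit 0) (XT.lf (nat_lit 0) (nat_lit 127119935935) (nat_lit 228) (nat_lit 76333795698) (nat_lit 76) (nat_lit 29042561747) (nat_lit 44) (nat_lit 5) (nat_lit 47) (nat_lit 5) (nat_lit 45) (nat_lit 5) (nat_lit 400) (nat_lit 358) (nat_lit 142)) (XT.nd (nat_lit 78) (nat_lit 0) (nat_lit 0) (XT.lf (nat_lit 0) (nat_lit 47669020444) (nat_lit 152) (nat_lit 134521662951) (nat_lit 228) (nat_lit 58131620513) (nat_lit 42) (nat_lit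 5) (nat_lit 44) (nat_lit 5) (nat_lit 45) (nat_lit 5) (nat_lit 401) (nat_lit 358) (nat_lit 141)) (XT.lf (nat_lit 0) (nat_lit 180521795369) (nat_lit 152) (nat_lit 60785731647) (nat_lit 228) (nat_lit 7167460079) (nat_lit 42) (nat_lit 5) (nat_lit 44) (nat_lit 5) (nat_lit 45) (nat_lit 5) (nat_lit 402) (nat_lit 358) (nat_lit 140))))) (XT.nd (nat_lit 234) (nat_lit 304) (nat_lit 0) (XT.nd (nat_lit 78) (nat_lit 152) (nat_lit 0) (XT.lf (nat_lit 0) (nat_lit 46153630284) (nat_lit 228) (nat_lit 192920446708) (nat_lit 76) (nat_lit 17860446402) (nat_lit 39) (nat_lit 5) (nat_lit 42) (nat_lit 5) (nat_lit 40) (nat_lit 5) (nat_lit 403) (nat_lit 358) (nat_lit 139)) (XT.nd (nat_lit 78) (nat_lit 152) (nat_lit 0) (XT.lf (nat_lit 0) (nat_lit 104065892172) (nat_lit 228) (nat_lit 61953770464) (nat_lit 76) (nat_lit 99683199437) (nat_lit 39) (nat_lit 5) (nat_lit 42) (nat_lit 5) (nat_lit 40) (nat_lit 5) (nat_lit 404)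 (nat_lit 358) (nat_lit 138)) (XT.lf (nat_lit 0) (nat_lit 78059328247) (nat_lit 152) (nat_lit 88032989659) (nat_lit 228) (nat_lit 108756372302) (nat_lit 37) (nat_lit 5) (nat_lit 39) (nat_lit 5) (nat_lit 40) (nat_lit 5) (nat_lit 405) (nat_lit 358) (nat_lit 137)))) (XT.nd (nat_lit 156) (nat_lit 152) (nat_lit 0) (XT.nd (nat_lit 78) (nat_lit 152) (nat_lit 0) (XT.lf (nat_lit 0) (nat_lit 227223684367) (nat_lit 152) (nat_lit 5045427244) (nat_lit 228) (nat_lit 52130245864) (nat_lit 37) (nat_lit 5) (nat_lit 39) (nat_lit 5) (nat_lit 40) (nat_lit 5) (nat_lit 406) (nat_lit 358) (nat_lit 136)) (XT.lf (nat_lit 0) (nat_lit 9840058555) (nat_lit 152) (nat_lit 203400179860) (nat_lit 76) (nat_lit 81044230478) (nat_lit 35) (nat_lit 5) (nat_lit 37) (nat_lit 5) (nat_lit 36) (nat_lit 5) (nat_lit 407) (nat_lit 358) (nat_lit 135))) (XT.nd (nat_lit 78) (nat_lit 152) (nat_lit 0) (XT.lf (nat_lit 0) (nat_lit 74223680093)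 (nat_lit 152) (nat_lit 57236627121) (nat_lit 76) (nat_lit 173107463009) (nat_lit 35) (nat_lit 5) (nat_lit 37) (nat_lit 5) (nat_lit 36) (nat_lit 5) (nat_lit 408) (nat_lit 358) (nat_lit 134)) (XT.lf (nat_lit 0) (nat_lit 99416789168) (nat_lit 152) (nat_lit 43961712665) (nat_lit 228) (nat_lit 171909133878) (nat_lit 33) (nat_lit 5) (nat_lit 35) (nat_lit 5) (nat_lit 36) (nat_lit 5) (nat_lit 409) (nat_lit 358) (nat_lit 133))))))))
noncomputable def xc226 : XT := (XT.nd (nat_lit 43446) (nat_lit 0) (nat_lit 3040) (XT.nd (nat_lit 936) (nat_lit 304) (nat_lit 0) (XT.nd (nat_lit 468) (nat_lit 304) (nat_lit 0) (XT.nd (nat_lit 234) (nat_lit 228) (nat_lit 0) (XT.nd (nat_lit 78) (nat_lit 152) (nat_lit 0) (XT.lf (nat_lit 0) (nat_lit 217724168798) (nat_lit 228) (nat_lit 61369227240) (nat_lit 76) (nat_lit 47363443274) (nat_lit 33) (nat_lit 5) (nat_lit 36) (nat_lit 5) (nat_lit 34) (nat_lit 4) (nat_lit 410)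 (nat_lit 358) (nat_lit 132)) (XT.nd (nat_lit 78) (nat_lit 76) (nat_lit 0) (XT.lf (nat_lit 0) (nat_lit 103447494429) (nat_lit 76) (nat_lit 194675266989) (nat_lit 152) (nat_lit 39944959603) (nat_lit 32) (nat_lit 5) (nat_lit 33) (nat_lit 5) (nat_lit 34) (nat_lit 4) (nat_lit 411) (nat_lit 358) (nat_lit 131)) (XT.lf (nat_lit 0) (nat_lit 32305116202) (nat_lit 152) (nat_lit 72092841699) (nat_lit 76) (nat_lit 245783177756) (nat_lit 31) (nat_lit 5) (nat_lit 33) (nat_lit 5) (nat_lit 32) (nat_lit 5) (nat_lit 412) (nat_lit 358) (nat_lit 130)))) (XT.nd (nat_lit 78) (nat_lit 76) (nat_lit 0) (XT.lf (nat_lit 0) (nat_lit 101143036995) (nat_lit 152) (nat_lit 7261233234) (nat_lit 228) (nat_lit 254384259714) (nat_lit 29) (nat_lit 5) (nat_lit 31) (nat_lit 5) (nat_lit 32) (nat_lit 5) (nat_lit 413) (nat_lit 358) (nat_lit 129)) (XT.nd (nat_lit 78) (nat_lit 76) (nat_lit 0) (XT.lf (nat_lit 0) (nat_lit 191028223298)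 (nat_lit 228) (nat_lit 91920939634) (nat_lit 76) (nat_lit 92941138979) (nat_lit 29) (nat_lit 5) (nat_lit 32) (nat_lit 5) (nat_lit 30) (nat_lit 4) (nat_lit 414) (nat_lit 358) (nat_lit 128)) (XT.lf (nat_lit 0) (nat_lit 89019754704) (nat_lit 76) (nat_lit 190272372215) (nat_lit 152) (nat_lit 110279597949) (nat_lit 28) (nat_lit 5) (nat_lit 29) (nat_lit 5) (nat_lit 30) (nat_lit 4) (nat_lit 415) (nat_lit 358) (nat_lit 127))))) (XT.nd (nat_lit 234) (nat_lit 76) (nat_lit 0) (XT.nd (nat_lit 78) (nat_lit 228) (nat_lit 0) (XT.lf (nat_lit 0) (nat_lit 282198536943) (nat_lit 76) (nat_lit 91327285417) (nat_lit 152) (nat_lit 30333566813) (nat_lit 28) (nat_lit 5) (nat_lit 29) (nat_lit 5) (nat_lit 30) (nat_lit 4) (nat_lit 416) (nat_lit 358) (nat_lit 126)) (XT.nd (nat_lit 78) (nat_lit 0) (nat_lit 0) (XT.lf (nat_lit 0) (nat_lit 53174797263) (nat_lit 228) (nat_lit 351496121169) (nat_lit 76) (nat_lit 14084624422)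 (nat_lit 25) (nat_lit 5) (nat_lit 28) (nat_lit 5) (nat_lit 26) (nat_lit 4) (nat_lit 417) (nat_lit 358) (nat_lit 125)) (XT.lf (nat_lit 0) (nat_lit 143430379634) (nat_lit 228) (nat_lit 166472430772) (nat_lit 76) (nat_lit 124289269920) (nat_lit 25) (nat_lit 5) (nat_lit 28) (nat_lit 5) (nat_lit 26) (nat_lit 4) (nat_lit 418) (nat_lit 358) (nat_lit 124)))) (XT.nd (nat_lit 78) (nat_lit 0) (nat_lit 0) (XT.lf (nat_lit 0) (nat_lit 28721494005) (nat_lit 76) (nat_lit 209925552053) (nat_lit 152) (nat_lit 211730983393) (nat_lit 24) (nat_lit 5) (nat_lit 25) (nat_lit 5) (nat_lit 26) (nat_lit 4) (nat_lit 419) (nat_lit 358) (nat_lit 123)) (XT.nd (nat_lit 78) (nat_lit 0) (nat_lit 0) (XT.lf (nat_lit 0) (nat_lit 239454448100) (nat_lit 76) (nat_lit 101989273076) (nat_lit 152) (nat_lit 125788596113) (nat_lit 24) (nat_lit 5) (nat_lit 25) (nat_lit 5) (nat_lit 26) (nat_lit 4) (nat_lit 420) (nat_lit 358) (nat_lit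 122)) (XT.lf (nat_lit 0) (nat_lit 449557227133) (nat_lit 152) (nat_lit 24382586149) (nat_lit 0) (nat_lit 10980656407) (nat_lit 24) (nat_lit 5) (nat_lit 26) (nat_lit 4) (nat_lit 24) (nat_lit 4) (nat_lit 421) (nat_lit 358) (nat_lit 121)))))) (XT.nd (nat_lit 42042) (nat_lit 0) (nat_lit 6536) (XT.nd (nat_lit 234) (nat_lit 76) (nat_lit 0) (XT.nd (nat_lit 78) (nat_lit 76) (nat_lit 0) (XT.lf (nat_lit 0) (nat_lit 62449534144) (nat_lit 152) (nat_lit 310555224323) (nat_lit 76) (nat_lit 130203098303) (nat_lit 22) (nat_lit 5) (nat_lit 24) (nat_lit 5) (nat_lit 23) (nat_lit 4) (nat_lit 422) (nat_lit 358) (nat_lit 120)) (XT.nd (nat_lit 78) (nat_lit 76) (nat_lit 0) (XT.lf (nat_lit 0) (nat_lit 164384106974) (nat_lit 152) (nat_lit 101589539159) (nat_lit 76) (nat_lit 256386001123) (nat_lit 22) (nat_lit 5) (nat_lit 24) (nat_lit 5) (nat_lit 23) (nat_lit 4) (nat_lit 423) (nat_lit 358) (nat_lit 119)) (XT.lf (nat_lit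 0) (nat_lit 121720043074) (nat_lit 76) (nat_lit 151595655297) (nat_lit 152) (nat_lit 269058314419) (nat_lit 21) (nat_lit 5) (nat_lit 22) (nat_lit 5) (nat_lit 23) (nat_lit 4) (nat_lit 424) (nat_lit 358) (nat_lit 118)))) (XT.nd (nat_lit 78) (nat_lit 76) (nat_lit 0) (XT.lf (nat_lit 0) (nat_lit 359721878144) (nat_lit 76) (nat_lit 29692360043) (nat_lit 152) (nat_lit 173888839989) (nat_lit 21) (nat_lit 5) (nat_lit 22) (nat_lit 5) (nat_lit 23) (nat_lit 4) (nat_lit 425) (nat_lit 358) (nat_lit 117)) (XT.nd (nat_lit 41652) (nat_lit 0) (nat_lit 6536) (XT.lf (nat_lit 0) (nat_lit 23564402152) (nat_lit 76) (nat_lit 489655947205) (nat_lit 76) (nat_lit 71963115276) (nat_lit 20) (nat_lit 4) (nat_lit 21) (nat_lit 5) (nat_lit 21) (nat_lit 4) (nat_lit 426) (nat_lit 358) (nat_lit 116)) (XT.lf (nat_lit 0) (nat_lit 6151349871) (nat_lit 836) (nat_lit 15036952605) (nat_lit 836) (nat_lit 15036952605) (nat_lit 106)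 (nat_lit 3) (nat_lit 117) (nat_lit 3) (nat_lit 117) (nat_lit 5) (nat_lit 359) (nat_lit 359) (nat_lit 182))))) (XT.nd (nat_lit 234) (nat_lit 0) (nat_lit 152) (XT.nd (nat_lit 78) (nat_lit 0) (nat_lit 76) (XT.lf (nat_lit 76) (nat_lit 4692458357) (nat_lit 0) (nat_lit 8003166336) (nat_lit 836) (nat_lit 61561869871) (nat_lit 107) (nat_lit 5) (nat_lit 106) (nat_lit 3) (nat_lit 117) (nat_lit 5) (nat_lit 360) (nat_lit 359) (nat_lit 181)) (XT.nd (nat_lit 78) (nat_lit 0) (nat_lit 0) (XT.lf (nat_lit 0) (nat_lit 14063633445) (nat_lit 760) (nat_lit 34335486374) (nat_lit 836) (nat_lit 27707937157) (nat_lit 107) (nat_lit 5) (nat_lit 117) (nat_lit 5) (nat_lit 118) (nat_lit 5) (nat_lit 361) (nat_lit 359) (nat_lit 180)) (XT.lf (nat_lit 76) (nat_lit 2607349543) (nat_lit 0) (nat_lit 13063862320) (nat_lit 836) (nat_lit 62369327824) (nat_lit 108) (nat_lit 5) (nat_lit 107) (nat_lit 5) (nat_lit 118) (nat_lit 5)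 (nat_lit 362) (nat_lit 359) (nat_lit 179)))) (XT.nd (nat_lit 78) (nat_lit 0) (nat_lit 0) (XT.lf (nat_lit 0) (nat_lit 18324787247) (nat_lit 760) (nat_lit 37837556574) (nat_lit 836) (nat_lit 23860072419) (nat_lit 108) (nat_lit 5) (nat_lit 118) (nat_lit 5) (nat_lit 119) (nat_lit 5) (nat_lit 363) (nat_lit 359) (nat_lit 178)) (XT.nd (nat_lit 78) (nat_lit 0) (nat_lit 76) (XT.lf (nat_lit 76) (nat_lit 1470301886) (nat_lit 0) (nat_lit 19877184688) (nat_lit 836) (nat_lit 60744078366) (nat_lit 109) (nat_lit 5) (nat_lit 108) (nat_lit 5) (nat_lit 119) (nat_lit 5) (nat_lit 364) (nat_lit 359) (nat_lit 177)) (XT.lf (nat_lit 0) (nat_lit 25456479308) (nat_lit 760) (nat_lit 40470431069) (nat_lit 836) (nat_lit 18290503329) (nat_lit 109) (nat_lit 5) (nat_lit 119) (nat_lit 5) (nat_lit 120) (nat_lit 5) (nat_lit 365) (nat_lit 359) (nat_lit 176))))))) (XT.nd (nat_lit 936) (nat_lit 1976) (nat_lit 0) (XT.nd (nat_lit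 468) (nat_lit 1140) (nat_lit 0) (XT.nd (nat_lit 234) (nat_lit 608) (nat_lit 0) (XT.nd (nat_lit 78) (nat_lit 0) (nat_lit 76) (XT.lf (nat_lit 76) (nat_lit 1406648900) (nat_lit 0) (nat_lit 28711476779) (nat_lit 836) (nat_lit 56314069557) (nat_lit 110) (nat_lit 5) (nat_lit 109) (nat_lit 5) (nat_lit 120) (nat_lit 5) (nat_lit 366) (nat_lit 359) (nat_lit 175)) (XT.nd (nat_lit 78) (nat_lit 0) (nat_lit 0) (XT.lf (nat_lit 0) (nat_lit 35870710092) (nat_lit 760) (nat_lit 42114364464) (nat_lit 836) (nat_lit 10729749002) (nat_lit 110) (nat_lit 5) (nat_lit 120) (nat_lit 5) (nat_lit 121) (nat_lit 5) (nat_lit 367) (nat_lit 359) (nat_lit 174)) (XT.lf (nat_lit 76) (nat_lit 2552945333) (nat_lit 0) (nat_lit 39867956103) (nat_lit 836) (nat_lit 48665183451) (nat_lit 111) (nat_lit 5) (nat_lit 110) (nat_lit 5) (nat_lit 121) (nat_lit 5) (nat_lit 368) (nat_lit 359) (nat_lit 173)))) (XT.nd (nat_lit 78) (nat_lit 760)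 (nat_lit 0) (XT.lf (nat_lit 0) (nat_lit 50025402121) (nat_lit 760) (nat_lit 42639107037) (nat_lit 76) (nat_lit 875060589) (nat_lit 111) (nat_lit 5) (nat_lit 121) (nat_lit 5) (nat_lit 112) (nat_lit 5) (nat_lit 369) (nat_lit 359) (nat_lit 172)) (XT.nd (nat_lit 78) (nat_lit 0) (nat_lit 0) (XT.lf (nat_lit 0) (nat_lit 5057464648) (nat_lit 760) (nat_lit 53684683263) (nat_lit 836) (nat_lit 37336980368) (nat_lit 101) (nat_lit 5) (nat_lit 111) (nat_lit 5) (nat_lit 112) (nat_lit 5) (nat_lit 370) (nat_lit 359) (nat_lit 171)) (XT.lf (nat_lit 0) (nat_lit 56618745989) (nat_lit 760) (nat_lit 11997602156) (nat_lit 836) (nat_lit 30093236146) (nat_lit 101) (nat_lit 5) (nat_lit 111) (nat_lit 5) (nat_lit 112) (nat_lit 5) (nat_lit 371) (nat_lit 359) (nat_lit 170))))) (XT.nd (nat_lit 234) (nat_lit 456) (nat_lit 0) (XT.nd (nat_lit 78) (nat_lit 304) (nat_lit 0) (XT.lf (nat_lit 0) (nat_lit 9080631010) (nat_lit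 380) (nat_lit 70541007619) (nat_lit 456) (nat_lit 21818055857) (nat_lit 96) (nat_lit 5) (nat_lit 101) (nat_lit 5) (nat_lit 102) (nat_lit 5) (nat_lit 372) (nat_lit 359) (nat_lit 169)) (XT.nd (nat_lit 78) (nat_lit 304) (nat_lit 0) (XT.lf (nat_lit 0) (nat_lit 64068339198) (nat_lit 380) (nat_lit 28014735921) (nat_lit 456) (nat_lit 12177941370) (nat_lit 96) (nat_lit 5) (nat_lit 101) (nat_lit 5) (nat_lit 102) (nat_lit 5) (nat_lit 373) (nat_lit 359) (nat_lit 168)) (XT.lf (nat_lit 0) (nat_lit 14795359494) (nat_lit 304) (nat_lit 90862549368) (nat_lit 380) (nat_lit 1540979816) (nat_lit 92) (nat_lit 5) (nat_lit 96) (nat_lit 5) (nat_lit 97) (nat_lit 5) (nat_lit 374) (nat_lit 359) (nat_lit 167)))) (XT.nd (nat_lit 78) (nat_lit 380) (nat_lit 0) (XT.lf (nat_lit 0) (nat_lit 10470349796) (nat_lit 380) (nat_lit 36942613736) (nat_lit 76) (nat_lit 62805641863) (nat_lit 91) (nat_lit 5) (nat_lit 96) (nat_lit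 5) (nat_lit 92) (nat_lit 5) (nat_lit 375) (nat_lit 359) (nat_lit 166)) (XT.nd (nat_lit 78) (nat_lit 0) (nat_lit 0) (XT.lf (nat_lit 0) (nat_lit 21968789310) (nat_lit 380) (nat_lit 1404255854) (nat_lit 456) (nat_lit 89997870678) (nat_lit 86) (nat_lit 5) (nat_lit 91) (nat_lit 5) (nat_lit 92) (nat_lit 5) (nat_lit 376) (nat_lit 359) (nat_lit 165)) (XT.lf (nat_lit 0) (nat_lit 38288693674) (nat_lit 456) (nat_lit 32284253481) (nat_lit 76) (nat_lit 46039504031) (nat_lit 86) (nat_lit 5) (nat_lit 92) (nat_lit 5) (nat_lit 87) (nat_lit 5) (nat_lit 377) (nat_lit 359) (nat_lit 164)))))) (XT.nd (nat_lit 468) (nat_lit 1064) (nat_lit 0) (XT.nd (nat_lit 234) (nat_lit 304) (nat_lit 0) (XT.nd (nat_lit 78) (nat_lit 304) (nat_lit 0) (XT.lf (nat_lit 0) (nat_lit 30750267315) (nat_lit 304) (nat_lit 23702598763) (nat_lit 380) (nat_lit 65538060423) (nat_lit 82) (nat_lit 5) (nat_lit 86) (nat_lit 5) (nat_lit 87) (nat_lit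 5) (nat_lit 378) (nat_lit 359) (nat_lit 163)) (XT.nd (nat_lit 78) (nat_lit 304) (nat_lit 0) (XT.lf (nat_lit 0) (nat_lit 72378895642) (nat_lit 380) (nat_lit 25861339809) (nat_lit 76) (nat_lit 25250407970) (nat_lit 82) (nat_lit 5) (nat_lit 87) (nat_lit 5) (nat_lit 83) (nat_lit 5) (nat_lit 379) (nat_lit 359) (nat_lit 162)) (XT.lf (nat_lit 0) (nat_lit 41630395016) (nat_lit 304) (nat_lit 50609017048) (nat_lit 380) (nat_lit 34874025108) (nat_lit 78) (nat_lit 5) (nat_lit 82) (nat_lit 5) (nat_lit 83) (nat_lit 5) (nat_lit 380) (nat_lit 359) (nat_lit 161)))) (XT.nd (nat_lit 78) (nat_lit 304) (nat_lit 0) (XT.lf (nat_lit 0) (nat_lit 113394154659) (nat_lit 304) (nat_lit 136435231) (nat_lit 380) (nat_lit 17364899182) (nat_lit 78) (nat_lit 5) (nat_lit 82) (nat_lit 5) (nat_lit 83) (nat_lit 5) (nat_lit 381) (nat_lit 359) (nat_lit 160)) (XT.nd (nat_lit 78) (nat_lit 0) (nat_lit 0) (XT.lf (nat_lit 0) (nat_lit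 2695270059) (nat_lit 304) (nat_lit 80018120859) (nat_lit 76) (nat_lit 52067045698) (nat_lit 74) (nat_lit 5) (nat_lit 78) (nat_lit 5) (nat_lit 75) (nat_lit 5) (nat_lit 382) (nat_lit 359) (nat_lit 159)) (XT.lf (nat_lit 0) (nat_lit 23478042586) (nat_lit 304) (nat_lit 7890231960) (nat_lit 76) (nat_lit 107461965211) (nat_lit 74) (nat_lit 5) (nat_lit 78) (nat_lit 5) (nat_lit 75) (nat_lit 5) (nat_lit 383) (nat_lit 359) (nat_lit 158))))) (XT.nd (nat_lit 234) (nat_lit 532) (nat_lit 0) (XT.nd (nat_lit 78) (nat_lit 228) (nat_lit 0) (XT.lf (nat_lit 0) (nat_lit 46763815539) (nat_lit 380) (nat_lit 73310870236) (nat_lit 76) (nat_lit 22934654390) (nat_lit 70) (nat_lit 5) (nat_lit 75) (nat_lit 5) (nat_lit 71) (nat_lit 5) (nat_lit 384) (nat_lit 359) (nat_lit 157)) (XT.nd (nat_lit 78) (nat_lit 0) (nat_lit 0) (XT.lf (nat_lit 0) (nat_lit 3649818853) (nat_lit 228) (nat_lit 68270794225) (nat_lit 304) (nat_lit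 75441445905) (nat_lit 67) (nat_lit 5) (nat_lit 70) (nat_lit 5) (nat_lit 71) (nat_lit 5) (nat_lit 385) (nat_lit 359) (nat_lit 156)) (XT.lf (nat_lit 0) (nat_lit 87003339513) (nat_lit 228) (nat_lit 12573176670) (nat_lit 304) (nat_lit 52293834456) (nat_lit 67) (nat_lit 5) (nat_lit 70) (nat_lit 5) (nat_lit 71) (nat_lit 5) (nat_lit 386) (nat_lit 359) (nat_lit 155)))) (XT.nd (nat_lit 156) (nat_lit 228) (nat_lit 0) (XT.nd (nat_lit 78) (nat_lit 76) (nat_lit 0) (XT.lf (nat_lit 0) (nat_lit 17772141062) (nat_lit 228) (nat_lit 111837042378) (nat_lit 304) (nat_lit 26945175156) (nat_lit 64) (nat_lit 5) (nat_lit 67) (nat_lit 5) (nat_lit 68) (nat_lit 5) (nat_lit 387) (nat_lit 359) (nat_lit 154)) (XT.lf (nat_lit 0) (nat_lit 1003856376) (nat_lit 304) (nat_lit 54841728679) (nat_lit 76) (nat_lit 105561118621) (nat_lit 63) (nat_lit 5) (nat_lit 67) (nat_lit 5) (nat_lit 64) (nat_lit 5) (nat_lit 388) (nat_lit 359)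 (nat_lit 153))) (XT.nd (nat_lit 78) (nat_lit 0) (nat_lit 0) (XT.lf (nat_lit 0) (nat_lit 30036355035) (nat_lit 304) (nat_lit 132575028630) (nat_lit 76) (nat_lit 3838618777) (nat_lit 60) (nat_lit 5) (nat_lit 64) (nat_lit 5) (nat_lit 61) (nat_lit 5) (nat_lit 389) (nat_lit 359) (nat_lit 152)) (XT.lf (nat_lit 0) (nat_lit 62379720737) (nat_lit 304) (nat_lit 43698636705) (nat_lit 76) (nat_lit 65574146739) (nat_lit 60) (nat_lit 5) (nat_lit 64) (nat_lit 5) (nat_lit 61) (nat_lit 5) (nat_lit 390) (nat_lit 359) (nat_lit 151))))))))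
noncomputable def xc227 : XT := (XT.nd (nat_lit 1950) (nat_lit 608) (nat_lit 0) (XT.nd (nat_lit 936) (nat_lit 988) (nat_lit 0) (XT.nd (nat_lit 468) (nat_lit 684) (nat_lit 0) (XT.nd (nat_lit 234) (nat_lit 304) (nat_lit 0) (XT.nd (nat_lit 78) (nat_lit 152) (nat_lit 0) (XT.lf (nat_lit 0) (nat_lit 51261919836) (nat_lit 228) (nat_lit 45878433070) (nat_lit 304) (nat_lit 79934773327) (nat_lit 57) (nat_lit 5) (nat_lit 60) (nat_lit 5) (nat_lit 61) (nat_lit 5) (nat_lit 391) (nat_lit 359) (nat_lit 150)) (XT.nd (nat_lit 78) (nat_lit 152) (nat_lit 0) (XT.lf (nat_lit 0) (nat_lit 134661559755) (nat_lit 304) (nat_lit 30527340558) (nat_lit 76) (nat_lit 17528852048) (nat_lit 57) (nat_lit 5) (nat_lit 61) (nat_lit 5) (nat_lit 58) (nat_lit 5) (nat_lit 392) (nat_lit 359) (nat_lit 149)) (XT.lf (nat_lit 0) (nat_lit 71044228228) (nat_lit 152) (nat_lit 104875675428) (nat_lit 228) (nat_lit 12629552426) (nat_lit 55)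 (nat_lit 5) (nat_lit 57) (nat_lit 5) (nat_lit 58) (nat_lit 5) (nat_lit 393) (nat_lit 359) (nat_lit 148)))) (XT.nd (nat_lit 78) (nat_lit 228) (nat_lit 0) (XT.lf (nat_lit 0) (nat_lit 24307321083) (nat_lit 228) (nat_lit 16285082577) (nat_lit 76) (nat_lit 154034900136) (nat_lit 54) (nat_lit 5) (nat_lit 57) (nat_lit 5) (nat_lit 55) (nat_lit 5) (nat_lit 394) (nat_lit 359) (nat_lit 147)) (XT.nd (nat_lit 78) (nat_lit 0) (nat_lit 0) (XT.lf (nat_lit 0) (nat_lit 64561788020) (nat_lit 304) (nat_lit 108615970261) (nat_lit 76) (nat_lit 27726174350) (nat_lit 51) (nat_lit 5) (nat_lit 55) (nat_lit 5) (nat_lit 52) (nat_lit 5) (nat_lit 395) (nat_lit 359) (nat_lit 146)) (XT.lf (nat_lit 0) (nat_lit 107774532325) (nat_lit 304) (nat_lit 1295865723) (nat_lit 76) (nat_lit 98376717260) (nat_lit 51) (nat_lit 5) (nat_lit 55) (nat_lit 5) (nat_lit 52) (nat_lit 5) (nat_lit 396) (nat_lit 359) (nat_lit 145))))) (XT.nd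 (nat_lit 234) (nat_lit 304) (nat_lit 0) (XT.nd (nat_lit 78) (nat_lit 228) (nat_lit 0) (XT.lf (nat_lit 0) (nat_lit 115072980953) (nat_lit 152) (nat_lit 39871342507) (nat_lit 228) (nat_lit 59283313272) (nat_lit 49) (nat_lit 5) (nat_lit 51) (nat_lit 5) (nat_lit 52) (nat_lit 5) (nat_lit 397) (nat_lit 359) (nat_lit 144)) (XT.nd (nat_lit 78) (nat_lit 76) (nat_lit 0) (XT.lf (nat_lit 0) (nat_lit 15957319138) (nat_lit 152) (nat_lit 189298437577) (nat_lit 228) (nat_lit 16052269977) (nat_lit 47) (nat_lit 5) (nat_lit 49) (nat_lit 5) (nat_lit 50) (nat_lit 5) (nat_lit 398) (nat_lit 359) (nat_lit 143)) (XT.lf (nat_lit 0) (nat_lit 30761443013) (nat_lit 228) (nat_lit 89530719296) (nat_lit 76) (nat_lit 108309360128) (nat_lit 46) (nat_lit 5) (nat_lit 49) (nat_lit 5) (nat_lit 47) (nat_lit 5) (nat_lit 399) (nat_lit 359) (nat_lit 142)))) (XT.nd (nat_lit 78) (nat_lit 152) (nat_lit 0) (XT.lf (nat_lit 0) (nat_lit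 32868817516) (nat_lit 152) (nat_lit 47020548526) (nat_lit 228) (nat_lit 156331520109) (nat_lit 44) (nat_lit 5) (nat_lit 46) (nat_lit 5) (nat_lit 47) (nat_lit 5) (nat_lit 400) (nat_lit 359) (nat_lit 141)) (XT.nd (nat_lit 78) (nat_lit 152) (nat_lit 0) (XT.lf (nat_lit 0) (nat_lit 133481653234) (nat_lit 228) (nat_lit 80140986959) (nat_lit 76) (nat_lit 30498179535) (nat_lit 44) (nat_lit 5) (nat_lit 47) (nat_lit 5) (nat_lit 45) (nat_lit 5) (nat_lit 401) (nat_lit 359) (nat_lit 140)) (XT.lf (nat_lit 0) (nat_lit 50061816788) (nat_lit 152) (nat_lit 141243994780) (nat_lit 228) (nat_lit 61032325647) (nat_lit 42) (nat_lit 5) (nat_lit 44) (nat_lit 5) (nat_lit 45) (nat_lit 5) (nat_lit 402) (nat_lit 359) (nat_lit 139)))))) (XT.nd (nat_lit 468) (nat_lit 456) (nat_lit 0) (XT.nd (nat_lit 234) (nat_lit 304) (nat_lit 0) (XT.nd (nat_lit 78) (nat_lit 228) (nat_lit 0) (XT.lf (nat_lit 0) (nat_lit 189556785444)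 (nat_lit 152) (nat_lit 63821445545) (nat_lit 228) (nat_lit 7520236996) (nat_lit 42) (nat_lit 5) (nat_lit 44) (nat_lit 5) (nat_lit 45) (nat_lit 5) (nat_lit 403) (nat_lit 359) (nat_lit 138)) (XT.nd (nat_lit 78) (nat_lit 0) (nat_lit 0) (XT.lf (nat_lit 0) (nat_lit 48466667098) (nat_lit 228) (nat_lit 202557324075) (nat_lit 76) (nat_lit 18756988736) (nat_lit 39) (nat_lit 5) (nat_lit 42) (nat_lit 5) (nat_lit 40) (nat_lit 5) (nat_lit 404) (nat_lit 359) (nat_lit 137)) (XT.lf (nat_lit 0) (nat_lit 109274287065) (nat_lit 228) (nat_lit 65042749494) (nat_lit 76) (nat_lit 104670711803) (nat_lit 39) (nat_lit 5) (nat_lit 42) (nat_lit 5) (nat_lit 40) (nat_lit 5) (nat_lit 405) (nat_lit 359) (nat_lit 136)))) (XT.nd (nat_lit 78) (nat_lit 152) (nat_lit 0) (XT.lf (nat_lit 0) (nat_lit 81970863677) (nat_lit 152) (nat_lit 92431061326) (nat_lit 228) (nat_lit 114188948442) (nat_lit 37) (nat_lit 5) (nat_lit 39) (nat_lit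 5) (nat_lit 40) (nat_lit 5) (nat_lit 406) (nat_lit 359) (nat_lit 135)) (XT.nd (nat_lit 78) (nat_lit 152) (nat_lit 0) (XT.lf (nat_lit 0) (nat_lit 238593029554) (nat_lit 152) (nat_lit 5294291162) (nat_lit 228) (nat_lit 54731765324) (nat_lit 37) (nat_lit 5) (nat_lit 39) (nat_lit 5) (nat_lit 40) (nat_lit 5) (nat_lit 407) (nat_lit 359) (nat_lit 134)) (XT.lf (nat_lit 0) (nat_lit 10336846187) (nat_lit 152) (nat_lit 213561816722) (nat_lit 76) (nat_lit 85099788713) (nat_lit 35) (nat_lit 5) (nat_lit 37) (nat_lit 5) (nat_lit 36) (nat_lit 5) (nat_lit 408) (nat_lit 359) (nat_lit 133))))) (XT.nd (nat_lit 234) (nat_lit 304) (nat_lit 0) (XT.nd (nat_lit 78) (nat_lit 152) (nat_lit 0) (XT.lf (nat_lit 0) (nat_lit 77939420960) (nat_lit 152) (nat_lit 60090485018) (nat_lit 76) (nat_lit 181766023503) (nat_lit 35) (nat_lit 5) (nat_lit 37) (nat_lit 5) (nat_lit 36) (nat_lit 5) (nat_lit 409) (nat_lit 359) (nat_lit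 132)) (XT.nd (nat_lit 78) (nat_lit 0) (nat_lit 0) (XT.lf (nat_lit 0) (nat_lit 104395473481) (nat_lit 152) (nat_lit 46156415792) (nat_lit 228) (nat_lit 180499903762) (nat_lit 33) (nat_lit 5) (nat_lit 35) (nat_lit 5) (nat_lit 36) (nat_lit 5) (nat_lit 410) (nat_lit 359) (nat_lit 131)) (XT.lf (nat_lit 0) (nat_lit 228614677389) (nat_lit 228) (nat_lit 64430053835) (nat_lit 76) (nat_lit 49734733766) (nat_lit 33) (nat_lit 5) (nat_lit 36) (nat_lit 5) (nat_lit 34) (nat_lit 4) (nat_lit 411) (nat_lit 359) (nat_lit 130)))) (XT.nd (nat_lit 156) (nat_lit 152) (nat_lit 0) (XT.nd (nat_lit 78) (nat_lit 76) (nat_lit 0) (XT.lf (nat_lit 0) (nat_lit 108627380776) (nat_lit 76) (nat_lit 204405731373) (nat_lit 152) (nat_lit 41937783072) (nat_lit 32) (nat_lit 5) (nat_lit 33) (nat_lit 5) (nat_lit 34) (nat_lit 4) (nat_lit 412) (nat_lit 359) (nat_lit 129)) (XT.lf (nat_lit 0) (nat_lit 33924450964) (nat_lit 152) (nat_lit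 75690193882) (nat_lit 76) (nat_lit 258075342542) (nat_lit 31) (nat_lit 5) (nat_lit 33) (nat_lit 5) (nat_lit 32) (nat_lit 5) (nat_lit 413) (nat_lit 359) (nat_lit 128))) (XT.nd (nat_lit 78) (nat_lit 0) (nat_lit 0) (XT.lf (nat_lit 0) (nat_lit 106207361168) (nat_lit 152) (nat_lit 7621119268) (nat_lit 228) (nat_lit 267099275117) (nat_lit 29) (nat_lit 5) (nat_lit 31) (nat_lit 5) (nat_lit 32) (nat_lit 5) (nat_lit 414) (nat_lit 359) (nat_lit 127)) (XT.lf (nat_lit 0) (nat_lit 200583488060) (nat_lit 228) (nat_lit 96510011731) (nat_lit 76) (nat_lit 97591123535) (nat_lit 29) (nat_lit 5) (nat_lit 32) (nat_lit 5) (nat_lit 30) (nat_lit 4) (nat_lit 415) (nat_lit 359) (nat_lit 126))))))) (XT.nd (nat_lit 42588) (nat_lit 0) (nat_lit 5700) (XT.nd (nat_lit 468) (nat_lit 228) (nat_lit 0) (XT.nd (nat_lit 234) (nat_lit 76) (nat_lit 0) (XT.nd (nat_lit 78) (nat_lit 228) (nat_lit 0) (XT.lf (nat_lit 0) (nat_lit 93477604826)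 (nat_lit 76) (nat_lit 199782905672) (nat_lit 152) (nat_lit 115789610797) (nat_lit 28) (nat_lit 5) (nat_lit 29) (nat_lit 5) (nat_lit 30) (nat_lit 4) (nat_lit 416) (nat_lit 359) (nat_lit 125)) (XT.nd (nat_lit 78) (nat_lit 228) (nat_lit 0) (XT.lf (nat_lit 0) (nat_lit 296314999396) (nat_lit 76) (nat_lit 95890711446) (nat_lit 152) (nat_lit 31846467012) (nat_lit 28) (nat_lit 5) (nat_lit 29) (nat_lit 5) (nat_lit 30) (nat_lit 4) (nat_lit 417) (nat_lit 359) (nat_lit 124)) (XT.lf (nat_lit 0) (nat_lit 55837168742) (nat_lit 228) (nat_lit 369064243404) (nat_lit 76) (nat_lit 14791725445) (nat_lit 25) (nat_lit 5) (nat_lit 28) (nat_lit 5) (nat_lit 26) (nat_lit 4) (nat_lit 418) (nat_lit 359) (nat_lit 123)))) (XT.nd (nat_lit 78) (nat_lit 76) (nat_lit 0) (XT.lf (nat_lit 0) (nat_lit 150605357297) (nat_lit 228) (nat_lit 174789686765) (nat_lit 76) (nat_lit 130506466561) (nat_lit 25) (nat_lit 5) (nat_lit 28)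 (nat_lit 5) (nat_lit 26) (nat_lit 4) (nat_lit 419) (nat_lit 359) (nat_lit 122)) (XT.nd (nat_lit 78) (nat_lit 0) (nat_lit 0) (XT.lf (nat_lit 0) (nat_lit 30163831580) (nat_lit 76) (nat_lit 220418958544) (nat_lit 152) (nat_lit 222313970463) (nat_lit 24) (nat_lit 5) (nat_lit 25) (nat_lit 5) (nat_lit 26) (nat_lit 4) (nat_lit 420) (nat_lit 359) (nat_lit 121)) (XT.lf (nat_lit 0) (nat_lit 251433135148) (nat_lit 76) (nat_lit 107086002338) (nat_lit 152) (nat_lit 132074633442) (nat_lit 24) (nat_lit 5) (nat_lit 25) (nat_lit 5) (nat_lit 26) (nat_lit 4) (nat_lit 421) (nat_lit 359) (nat_lit 120))))) (XT.nd (nat_lit 234) (nat_lit 76) (nat_lit 0) (XT.nd (nat_lit 78) (nat_lit 152) (nat_lit 0) (XT.lf (nat_lit 0) (nat_lit 472038205578) (nat_lit 152) (nat_lit 25595921003) (nat_lit 0) (nat_lit 11532210060) (nat_lit 24) (nat_lit 5) (nat_lit 26) (nat_lit 4) (nat_lit 24) (nat_lit 4) (nat_lit 422) (nat_lit 359)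 (nat_lit 119)) (XT.nd (nat_lit 78) (nat_lit 0) (nat_lit 0) (XT.lf (nat_lit 0) (nat_lit 65575119266) (nat_lit 152) (nat_lit 326077181151) (nat_lit 76) (nat_lit 136715793156) (nat_lit 22) (nat_lit 5) (nat_lit 24) (nat_lit 5) (nat_lit 23) (nat_lit 4) (nat_lit 423) (nat_lit 359) (nat_lit 118)) (XT.lf (nat_lit 0) (nat_lit 172606272718) (nat_lit 152) (nat_lit 106663488128) (nat_lit 76) (nat_lit 269207720167) (nat_lit 22) (nat_lit 5) (nat_lit 24) (nat_lit 5) (nat_lit 23) (nat_lit 4) (nat_lit 424) (nat_lit 359) (nat_lit 117)))) (XT.nd (nat_lit 78) (nat_lit 0) (nat_lit 0) (XT.lf (nat_lit 0) (nat_lit 127811484056) (nat_lit 76) (nat_lit 159172903573) (nat_lit 152) (nat_lit 282508180025) (nat_lit 21) (nat_lit 5) (nat_lit 22) (nat_lit 5) (nat_lit 23) (nat_lit 4) (nat_lit 425) (nat_lit 359) (nat_lit 116)) (XT.nd (nat_lit 41730) (nat_lit 0) (nat_lit 6460) (XT.lf (nat_lit 0) (nat_lit 377713151888) (nat_lit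 76) (nat_lit 31174564246) (nat_lit 152) (nat_lit 182580377118) (nat_lit 21) (nat_lit 5) (nat_lit 22) (nat_lit 5) (nat_lit 23) (nat_lit 4) (nat_lit 426) (nat_lit 359) (nat_lit 115)) (XT.lf (nat_lit 0) (nat_lit 6470823558) (nat_lit 836) (nat_lit 15782544324) (nat_lit 836) (nat_lit 15782544324) (nat_lit 106) (nat_lit 3) (nat_lit 117) (nat_lit 3) (nat_lit 117) (nat_lit 5) (nat_lit 360) (nat_lit 360) (nat_lit 180)))))) (XT.nd (nat_lit 468) (nat_lit 760) (nat_lit 0) (XT.nd (nat_lit 234) (nat_lit 0) (nat_lit 152) (XT.nd (nat_lit 78) (nat_lit 0) (nat_lit 76) (XT.lf (nat_lit 76) (nat_lit 4939391293) (nat_lit 0) (nat_lit 8413885292) (nat_lit 836) (nat_lit 64615929519) (nat_lit 107) (nat_lit 5) (nat_lit 106) (nat_lit 3) (nat_lit 117) (nat_lit 5) (nat_lit 361) (nat_lit 360) (nat_lit 179)) (XT.nd (nat_lit 78) (nat_lit 0) (nat_lit 0) (XT.lf (nat_lit 0) (nat_lit 14788439667) (nat_lit 760) (nat_lit 36039272039)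 (nat_lit 836) (nat_lit 29083598174) (nat_lit 107) (nat_lit 5) (nat_lit 117) (nat_lit 5) (nat_lit 118) (nat_lit 5) (nat_lit 362) (nat_lit 360) (nat_lit 178)) (XT.lf (nat_lit 76) (nat_lit 2750496180) (nat_lit 0) (nat_lit 13725070603) (nat_lit 836) (nat_lit 65465942344) (nat_lit 108) (nat_lit 5) (nat_lit 107) (nat_lit 5) (nat_lit 118) (nat_lit 5) (nat_lit 363) (nat_lit 360) (nat_lit 177)))) (XT.nd (nat_lit 78) (nat_lit 0) (nat_lit 0) (XT.lf (nat_lit 0) (nat_lit 19260711550) (nat_lit 760) (nat_lit 39716137409) (nat_lit 836) (nat_lit 25045686866) (nat_lit 108) (nat_lit 5) (nat_lit 118) (nat_lit 5) (nat_lit 119) (nat_lit 5) (nat_lit 364) (nat_lit 360) (nat_lit 176)) (XT.nd (nat_lit 78) (nat_lit 0) (nat_lit 76) (XT.lf (nat_lit 76) (nat_lit 1556899505) (nat_lit 0) (nat_lit 20876913215) (nat_lit 836) (nat_lit 63761366706) (nat_lit 109) (nat_lit 5) (nat_lit 108) (nat_lit 5) (nat_lit 119) (nat_lit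 5) (nat_lit 365) (nat_lit 360) (nat_lit 175)) (XT.lf (nat_lit 0) (nat_lit 26747265351) (nat_lit 760) (nat_lit 42480487935) (nat_lit 836) (nat_lit 19199617602) (nat_lit 109) (nat_lit 5) (nat_lit 119) (nat_lit 5) (nat_lit 120) (nat_lit 5) (nat_lit 366) (nat_lit 360) (nat_lit 174))))) (XT.nd (nat_lit 234) (nat_lit 988) (nat_lit 0) (XT.nd (nat_lit 78) (nat_lit 0) (nat_lit 76) (XT.lf (nat_lit 76) (nat_lit 1490228860) (nat_lit 0) (nat_lit 30151116675) (nat_lit 836) (nat_lit 59111579119) (nat_lit 110) (nat_lit 5) (nat_lit 109) (nat_lit 5) (nat_lit 120) (nat_lit 5) (nat_lit 367) (nat_lit 360) (nat_lit 173)) (XT.nd (nat_lit 78) (nat_lit 0) (nat_lit 0) (XT.lf (nat_lit 0) (nat_lit 37680674253) (nat_lit 760) (nat_lit 44206567123) (nat_lit 836) (nat_lit 11262487959) (nat_lit 110) (nat_lit 5) (nat_lit 120) (nat_lit 5) (nat_lit 121) (nat_lit 5) (nat_lit 368) (nat_lit 360) (nat_lit 172)) (XT.lf (nat_lit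 76) (nat_lit 2693890171) (nat_lit 0) (nat_lit 41863910288) (nat_lit 836) (nat_lit 51081782671) (nat_lit 111) (nat_lit 5) (nat_lit 110) (nat_lit 5) (nat_lit 121) (nat_lit 5) (nat_lit 369) (nat_lit 360) (nat_lit 171)))) (XT.nd (nat_lit 156) (nat_lit 380) (nat_lit 0) (XT.nd (nat_lit 78) (nat_lit 760) (nat_lit 0) (XT.lf (nat_lit 0) (nat_lit 52541733217) (nat_lit 760) (nat_lit 44757592404) (nat_lit 76) (nat_lit 916456894) (nat_lit 111) (nat_lit 5) (nat_lit 121) (nat_lit 5) (nat_lit 112) (nat_lit 5) (nat_lit 370) (nat_lit 360) (nat_lit 170)) (XT.lf (nat_lit 0) (nat_lit 5323590607) (nat_lit 760) (nat_lit 56370215412) (nat_lit 836) (nat_lit 39188539072) (nat_lit 101) (nat_lit 5) (nat_lit 111) (nat_lit 5) (nat_lit 112) (nat_lit 5) (nat_lit 371) (nat_lit 360) (nat_lit 169))) (XT.nd (nat_lit 78) (nat_lit 380) (nat_lit 0) (XT.lf (nat_lit 0) (nat_lit 59462304934) (nat_lit 760) (nat_lit 12598718441)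 (nat_lit 836) (nat_lit 31583335750) (nat_lit 101) (nat_lit 5) (nat_lit 111) (nat_lit 5) (nat_lit 112) (nat_lit 5) (nat_lit 372) (nat_lit 360) (nat_lit 168)) (XT.lf (nat_lit 0) (nat_lit 9547792641) (nat_lit 380) (nat_lit 74068312461) (nat_lit 456) (nat_lit 22894893938) (nat_lit 96) (nat_lit 5) (nat_lit 101) (nat_lit 5) (nat_lit 102) (nat_lit 5) (nat_lit 373) (nat_lit 360) (nat_lit 167))))))))
noncomputable def xc228 : XT := (XT.nd (nat_lit 1872) (nat_lit 2052) (nat_lit 0) (XT.nd (nat_lit 936) (nat_lit 1444) (nat_lit 0) (XT.nd (nat_lit 468) (nat_lit 912) (nat_lit 0) (XT.nd (nat_lit 234) (nat_lit 684) (nat_lit 0) (XT.nd (nat_lit 78) (nat_lit 380) (nat_lit 0) (XT.lf (nat_lit 0) (nat_lit 67284260997) (nat_lit 380) (nat_lit 29415715061) (nat_lit 456) (nat_lit 12773443475) (nat_lit 96) (nat_lit 5) (nat_lit 101) (nat_lit 5) (nat_lit 102) (nat_lit 5) (nat_lit 374) (nat_lit 360) (nat_lit 166)) (XT.nd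 (nat_lit 78) (nat_lit 76) (nat_lit 0) (XT.lf (nat_lit 0) (nat_lit 15548071673) (nat_lit 304) (nat_lit 95405071297) (nat_lit 380) (nat_lit 1605063282) (nat_lit 92) (nat_lit 5) (nat_lit 96) (nat_lit 5) (nat_lit 97) (nat_lit 5) (nat_lit 375) (nat_lit 360) (nat_lit 165)) (XT.lf (nat_lit 0) (nat_lit 11005820188) (nat_lit 380) (nat_lit 38777012388) (nat_lit 76) (nat_lit 65946096440) (nat_lit 91) (nat_lit 5) (nat_lit 96) (nat_lit 5) (nat_lit 92) (nat_lit 5) (nat_lit 376) (nat_lit 360) (nat_lit 164)))) (XT.nd (nat_lit 78) (nat_lit 304) (nat_lit 0) (XT.lf (nat_lit 0) (nat_lit 23079755454) (nat_lit 380) (nat_lit 1473521261) (nat_lit 456) (nat_lit 94485597379) (nat_lit 86) (nat_lit 5) (nat_lit 91) (nat_lit 5) (nat_lit 92) (nat_lit 5) (nat_lit 377) (nat_lit 360) (nat_lit 163)) (XT.nd (nat_lit 78) (nat_lit 304) (nat_lit 0) (XT.lf (nat_lit 0) (nat_lit 40214170343) (nat_lit 456) (nat_lit 33885990510)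 (nat_lit 76) (nat_lit 48342352626) (nat_lit 86) (nat_lit 5) (nat_lit 92) (nat_lit 5) (nat_lit 87) (nat_lit 5) (nat_lit 378) (nat_lit 360) (nat_lit 162)) (XT.lf (nat_lit 0) (nat_lit 32300055106) (nat_lit 304) (nat_lit 24886162090) (nat_lit 380) (nat_lit 68803712461) (nat_lit 82) (nat_lit 5) (nat_lit 86) (nat_lit 5) (nat_lit 87) (nat_lit 5) (nat_lit 379) (nat_lit 360) (nat_lit 161))))) (XT.nd (nat_lit 234) (nat_lit 608) (nat_lit 0) (XT.nd (nat_lit 78) (nat_lit 304) (nat_lit 0) (XT.lf (nat_lit 0) (nat_lit 76008061638) (nat_lit 380) (nat_lit 27142222862) (nat_lit 76) (nat_lit 26514372625) (nat_lit 82) (nat_lit 5) (nat_lit 87) (nat_lit 5) (nat_lit 83) (nat_lit 5) (nat_lit 380) (nat_lit 360) (nat_lit 160)) (XT.nd (nat_lit 78) (nat_lit 0) (nat_lit 0) (XT.lf (nat_lit 0) (nat_lit 43723902189) (nat_lit 304) (nat_lit 53137402124) (nat_lit 380) (nat_lit 36607301580) (nat_lit 78) (nat_lit 5) (nat_lit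 82) (nat_lit 5) (nat_lit 83) (nat_lit 5) (nat_lit 381) (nat_lit 360) (nat_lit 159)) (XT.lf (nat_lit 0) (nat_lit 119075278985) (nat_lit 304) (nat_lit 141289586) (nat_lit 380) (nat_lit 18223215776) (nat_lit 78) (nat_lit 5) (nat_lit 82) (nat_lit 5) (nat_lit 83) (nat_lit 5) (nat_lit 382) (nat_lit 360) (nat_lit 158)))) (XT.nd (nat_lit 78) (nat_lit 304) (nat_lit 0) (XT.lf (nat_lit 0) (nat_lit 2839401490) (nat_lit 304) (nat_lit 84007037379) (nat_lit 76) (nat_lit 54672545088) (nat_lit 74) (nat_lit 5) (nat_lit 78) (nat_lit 5) (nat_lit 75) (nat_lit 5) (nat_lit 383) (nat_lit 360) (nat_lit 157)) (XT.nd (nat_lit 78) (nat_lit 304) (nat_lit 0) (XT.lf (nat_lit 0) (nat_lit 24660866552) (nat_lit 304) (nat_lit 8273324965) (nat_lit 76) (nat_lit 112837108333) (nat_lit 74) (nat_lit 5) (nat_lit 78) (nat_lit 5) (nat_lit 75) (nat_lit 5) (nat_lit 384) (nat_lit 360) (nat_lit 156)) (XT.lf (nat_lit 0) (nat_lit 49110718704)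 (nat_lit 380) (nat_lit 76964780179) (nat_lit 76) (nat_lit 24083867143) (nat_lit 70) (nat_lit 5) (nat_lit 75) (nat_lit 5) (nat_lit 71) (nat_lit 5) (nat_lit 385) (nat_lit 360) (nat_lit 155)))))) (XT.nd (nat_lit 468) (nat_lit 684) (nat_lit 0) (XT.nd (nat_lit 234) (nat_lit 304) (nat_lit 0) (XT.nd (nat_lit 78) (nat_lit 228) (nat_lit 0) (XT.lf (nat_lit 0) (nat_lit 3843755726) (nat_lit 228) (nat_lit 71681364222) (nat_lit 304) (nat_lit 79204612909) (nat_lit 67) (nat_lit 5) (nat_lit 70) (nat_lit 5) (nat_lit 71) (nat_lit 5) (nat_lit 386) (nat_lit 360) (nat_lit 154)) (XT.nd (nat_lit 78) (nat_lit 228) (nat_lit 0) (XT.lf (nat_lit 0) (nat_lit 91364407374) (nat_lit 228) (nat_lit 13199007203) (nat_lit 304) (nat_lit 54900044949) (nat_lit 67) (nat_lit 5) (nat_lit 70) (nat_lit 5) (nat_lit 71) (nat_lit 5) (nat_lit 387) (nat_lit 360) (nat_lit 153)) (XT.lf (nat_lit 0) (nat_lit 18671831788) (nat_lit 228) (nat_lit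 117425714105) (nat_lit 304) (nat_lit 28284130696) (nat_lit 64) (nat_lit 5) (nat_lit 67) (nat_lit 5) (nat_lit 68) (nat_lit 5) (nat_lit 388) (nat_lit 360) (nat_lit 152)))) (XT.nd (nat_lit 78) (nat_lit 228) (nat_lit 0) (XT.lf (nat_lit 0) (nat_lit 1061703922) (nat_lit 304) (nat_lit 57573001804) (nat_lit 76) (nat_lit 110841946066) (nat_lit 63) (nat_lit 5) (nat_lit 67) (nat_lit 5) (nat_lit 64) (nat_lit 5) (nat_lit 389) (nat_lit 360) (nat_lit 151)) (XT.nd (nat_lit 78) (nat_lit 0) (nat_lit 0) (XT.lf (nat_lit 0) (nat_lit 31545678795) (nat_lit 304) (nat_lit 139192813909) (nat_lit 76) (nat_lit 4033630435) (nat_lit 60) (nat_lit 5) (nat_lit 64) (nat_lit 5) (nat_lit 61) (nat_lit 5) (nat_lit 390) (nat_lit 360) (nat_lit 150)) (XT.lf (nat_lit 0) (nat_lit 65505855354) (nat_lit 304) (nat_lit 45873124585) (nat_lit 76) (nat_lit 68855788094) (nat_lit 60) (nat_lit 5) (nat_lit 64) (nat_lit 5) (nat_lit 61) (nat_lit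 5) (nat_lit 391) (nat_lit 360) (nat_lit 149))))) (XT.nd (nat_lit 234) (nat_lit 304) (nat_lit 0) (XT.nd (nat_lit 78) (nat_lit 152) (nat_lit 0) (XT.lf (nat_lit 0) (nat_lit 53835291331) (nat_lit 228) (nat_lit 48169047820) (nat_lit 304) (nat_lit 83924191222) (nat_lit 57) (nat_lit 5) (nat_lit 60) (nat_lit 5) (nat_lit 61) (nat_lit 5) (nat_lit 392) (nat_lit 360) (nat_lit 148)) (XT.nd (nat_lit 78) (nat_lit 152) (nat_lit 0) (XT.lf (nat_lit 0) (nat_lit 141401323677) (nat_lit 304) (nat_lit 32043635162) (nat_lit 76) (nat_lit 18408343281) (nat_lit 57) (nat_lit 5) (nat_lit 61) (nat_lit 5) (nat_lit 58) (nat_lit 5) (nat_lit 393) (nat_lit 360) (nat_lit 147)) (XT.lf (nat_lit 0) (nat_lit 74606349605) (nat_lit 152) (nat_lit 110116071512) (nat_lit 228) (nat_lit 13254178262) (nat_lit 55) (nat_lit 5) (nat_lit 57) (nat_lit 5) (nat_lit 58) (nat_lit 5) (nat_lit 394) (nat_lit 360) (nat_lit 146)))) (XT.nd (nat_lit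 78) (nat_lit 228) (nat_lit 0) (XT.lf (nat_lit 0) (nat_lit 25529003790) (nat_lit 228) (nat_lit 17089686708) (nat_lit 76) (nat_lit 161739659576) (nat_lit 54) (nat_lit 5) (nat_lit 57) (nat_lit 5) (nat_lit 55) (nat_lit 5) (nat_lit 395) (nat_lit 360) (nat_lit 145)) (XT.nd (nat_lit 78) (nat_lit 0) (nat_lit 0) (XT.lf (nat_lit 0) (nat_lit 67796093509) (nat_lit 304) (nat_lit 114037015280) (nat_lit 76) (nat_lit 29115706737) (nat_lit 51) (nat_lit 5) (nat_lit 55) (nat_lit 5) (nat_lit 52) (nat_lit 5) (nat_lit 396) (nat_lit 360) (nat_lit 144)) (XT.lf (nat_lit 0) (nat_lit 113169179026) (nat_lit 304) (nat_lit 1351369967) (nat_lit 76) (nat_lit 103298623285) (nat_lit 51) (nat_lit 5) (nat_lit 55) (nat_lit 5) (nat_lit 52) (nat_lit 5) (nat_lit 397) (nat_lit 360) (nat_lit 143))))))) (XT.nd (nat_lit 936) (nat_lit 836) (nat_lit 0) (XT.nd (nat_lit 468) (nat_lit 532) (nat_lit 0) (XT.nd (nat_lit 234) (nat_lit 304)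 (nat_lit 0) (XT.nd (nat_lit 78) (nat_lit 228) (nat_lit 0) (XT.lf (nat_lit 0) (nat_lit 120835769219) (nat_lit 152) (nat_lit 41861551278) (nat_lit 228) (nat_lit 62241406370) (nat_lit 49) (nat_lit 5) (nat_lit 51) (nat_lit 5) (nat_lit 52) (nat_lit 5) (nat_lit 398) (nat_lit 360) (nat_lit 142)) (XT.nd (nat_lit 78) (nat_lit 76) (nat_lit 0) (XT.lf (nat_lit 0) (nat_lit 16764412316) (nat_lit 152) (nat_lit 198759831818) (nat_lit 228) (nat_lit 16848896380) (nat_lit 47) (nat_lit 5) (nat_lit 49) (nat_lit 5) (nat_lit 50) (nat_lit 5) (nat_lit 399) (nat_lit 360) (nat_lit 141)) (XT.lf (nat_lit 0) (nat_lit 32305034660) (nat_lit 228) (nat_lit 93998282634) (nat_lit 76) (nat_lit 113728002993) (nat_lit 46) (nat_lit 5) (nat_lit 49) (nat_lit 5) (nat_lit 47) (nat_lit 5) (nat_lit 400) (nat_lit 360) (nat_lit 140)))) (XT.nd (nat_lit 78) (nat_lit 152) (nat_lit 0) (XT.lf (nat_lit 0) (nat_lit 34521086298) (nat_lit 152)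 (nat_lit 49368142538) (nat_lit 228) (nat_lit 164142429711) (nat_lit 44) (nat_lit 5) (nat_lit 46) (nat_lit 5) (nat_lit 47) (nat_lit 5) (nat_lit 401) (nat_lit 360) (nat_lit 139)) (XT.nd (nat_lit 78) (nat_lit 152) (nat_lit 0) (XT.lf (nat_lit 0) (nat_lit 140160924559) (nat_lit 228) (nat_lit 84139420866) (nat_lit 76) (nat_lit 32026253772) (nat_lit 44) (nat_lit 5) (nat_lit 47) (nat_lit 5) (nat_lit 45) (nat_lit 5) (nat_lit 402) (nat_lit 360) (nat_lit 138)) (XT.lf (nat_lit 0) (nat_lit 52573384110) (nat_lit 152) (nat_lit 148302791962) (nat_lit 228) (nat_lit 64078612323) (nat_lit 42) (nat_lit 5) (nat_lit 44) (nat_lit 5) (nat_lit 45) (nat_lit 5) (nat_lit 403) (nat_lit 360) (nat_lit 137))))) (XT.nd (nat_lit 234) (nat_lit 304) (nat_lit 0) (XT.nd (nat_lit 78) (nat_lit 228) (nat_lit 0) (XT.lf (nat_lit 0) (nat_lit 199042697556) (nat_lit 152) (nat_lit 67009277292) (nat_lit 228) (nat_lit 7891173031) (nat_lit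 42) (nat_lit 5) (nat_lit 44) (nat_lit 5) (nat_lit 45) (nat_lit 5) (nat_lit 404) (nat_lit 360) (nat_lit 136)) (XT.nd (nat_lit 78) (nat_lit 0) (nat_lit 0) (XT.lf (nat_lit 0) (nat_lit 50894857867) (nat_lit 228) (nat_lit 212676895524) (nat_lit 76) (nat_lit 19698030929) (nat_lit 39) (nat_lit 5) (nat_lit 42) (nat_lit 5) (nat_lit 40) (nat_lit 5) (nat_lit 405) (nat_lit 360) (nat_lit 135)) (XT.lf (nat_lit 0) (nat_lit 114742627528) (nat_lit 228) (nat_lit 68286987202) (nat_lit 76) (nat_lit 109907288113) (nat_lit 39) (nat_lit 5) (nat_lit 42) (nat_lit 5) (nat_lit 40) (nat_lit 5) (nat_lit 406) (nat_lit 360) (nat_lit 134)))) (XT.nd (nat_lit 78) (nat_lit 152) (nat_lit 0) (XT.lf (nat_lit 0) (nat_lit 86077179212) (nat_lit 152) (nat_lit 97049369207) (nat_lit 228) (nat_lit 119893640785) (nat_lit 37) (nat_lit 5) (nat_lit 39) (nat_lit 5) (nat_lit 40) (nat_lit 5) (nat_lit 407) (nat_lit 360) (nat_lit 133)) (XT.nd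 (nat_lit 78) (nat_lit 152) (nat_lit 0) (XT.lf (nat_lit 0) (nat_lit 250530083271) (nat_lit 152) (nat_lit 5555915068) (nat_lit 228) (nat_lit 57463824944) (nat_lit 37) (nat_lit 5) (nat_lit 39) (nat_lit 5) (nat_lit 40) (nat_lit 5) (nat_lit 408) (nat_lit 360) (nat_lit 132)) (XT.lf (nat_lit 0) (nat_lit 10858028366) (nat_lit 152) (nat_lit 224232313787) (nat_lit 76) (nat_lit 89357813714) (nat_lit 35) (nat_lit 5) (nat_lit 37) (nat_lit 5) (nat_lit 36) (nat_lit 5) (nat_lit 409) (nat_lit 360) (nat_lit 131)))))) (XT.nd (nat_lit 468) (nat_lit 380) (nat_lit 0) (XT.nd (nat_lit 234) (nat_lit 304) (nat_lit 0) (XT.nd (nat_lit 78) (nat_lit 152) (nat_lit 0) (XT.lf (nat_lit 0) (nat_lit 81840525216) (nat_lit 152) (nat_lit 63087777106) (nat_lit 76) (nat_lit 190857215693) (nat_lit 35) (nat_lit 5) (nat_lit 37) (nat_lit 5) (nat_lit 36) (nat_lit 5) (nat_lit 410) (nat_lit 360) (nat_lit 130)) (XT.nd (nat_lit 78) (nat_lit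 0) (nat_lit 0) (XT.lf (nat_lit 0) (nat_lit 109622362670) (nat_lit 152) (nat_lit 48461168549) (nat_lit 228) (nat_lit 189520647876) (nat_lit 33) (nat_lit 5) (nat_lit 35) (nat_lit 5) (nat_lit 36) (nat_lit 5) (nat_lit 411) (nat_lit 360) (nat_lit 129)) (XT.lf (nat_lit 0) (nat_lit 240049311623) (nat_lit 228) (nat_lit 67644631569) (nat_lit 76) (nat_lit 52224298870) (nat_lit 33) (nat_lit 5) (nat_lit 36) (nat_lit 5) (nat_lit 34) (nat_lit 4) (nat_lit 412) (nat_lit 360) (nat_lit 128)))) (XT.nd (nat_lit 78) (nat_lit 228) (nat_lit 0) (XT.lf (nat_lit 0) (nat_lit 114065563080) (nat_lit 76) (nat_lit 214623025683) (nat_lit 152) (nat_lit 44030659064) (nat_lit 32) (nat_lit 5) (nat_lit 33) (nat_lit 5) (nat_lit 34) (nat_lit 4) (nat_lit 413) (nat_lit 360) (nat_lit 127)) (XT.nd (nat_lit 78) (nat_lit 152) (nat_lit 0) (XT.lf (nat_lit 0) (nat_lit 35624373242) (nat_lit 152) (nat_lit 79468091420) (nat_lit 76) (nat_lit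 270981836107) (nat_lit 31) (nat_lit 5) (nat_lit 33) (nat_lit 5) (nat_lit 32) (nat_lit 5) (nat_lit 414) (nat_lit 360) (nat_lit 126)) (XT.lf (nat_lit 0) (nat_lit 111524234734) (nat_lit 152) (nat_lit 7999294845) (nat_lit 228) (nat_lit 280450431542) (nat_lit 29) (nat_lit 5) (nat_lit 31) (nat_lit 5) (nat_lit 32) (nat_lit 5) (nat_lit 415) (nat_lit 360) (nat_lit 125))))) (XT.nd (nat_lit 234) (nat_lit 304) (nat_lit 0) (XT.nd (nat_lit 78) (nat_lit 76) (nat_lit 0) (XT.lf (nat_lit 0) (nat_lit 210616157788) (nat_lit 228) (nat_lit 101329185891) (nat_lit 76) (nat_lit 102473335137) (nat_lit 29) (nat_lit 5) (nat_lit 32) (nat_lit 5) (nat_lit 30) (nat_lit 4) (nat_lit 416) (nat_lit 360) (nat_lit 124)) (XT.nd (nat_lit 78) (nat_lit 0) (nat_lit 0) (XT.lf (nat_lit 0) (nat_lit 98157709455) (nat_lit 76) (nat_lit 209769252630) (nat_lit 152) (nat_lit 121575493107) (nat_lit 28) (nat_lit 5) (nat_lit 29) (nat_lit 5)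 (nat_lit 30) (nat_lit 4) (nat_lit 417) (nat_lit 360) (nat_lit 123)) (XT.lf (nat_lit 0) (nat_lit 311136677354) (nat_lit 76) (nat_lit 100682581946) (nat_lit 152) (nat_lit 33435363477) (nat_lit 28) (nat_lit 5) (nat_lit 29) (nat_lit 5) (nat_lit 30) (nat_lit 4) (nat_lit 418) (nat_lit 360) (nat_lit 122)))) (XT.nd (nat_lit 156) (nat_lit 76) (nat_lit 0) (XT.nd (nat_lit 78) (nat_lit 0) (nat_lit 0) (XT.lf (nat_lit 0) (nat_lit 58632321162) (nat_lit 228) (nat_lit 387511393150) (nat_lit 76) (nat_lit 15533914712) (nat_lit 25) (nat_lit 5) (nat_lit 28) (nat_lit 5) (nat_lit 26) (nat_lit 4) (nat_lit 419) (nat_lit 360) (nat_lit 121)) (XT.lf (nat_lit 0) (nat_lit 158138762288) (nat_lit 228) (nat_lit 183523397365) (nat_lit 76) (nat_lit 137034268931) (nat_lit 25) (nat_lit 5) (nat_lit 28) (nat_lit 5) (nat_lit 26) (nat_lit 4) (nat_lit 420) (nat_lit 360) (nat_lit 120))) (XT.nd (nat_lit 78) (nat_lit 0) (nat_lit 0)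 (XT.lf (nat_lit 0) (nat_lit 31677703772) (nat_lit 76) (nat_lit 231437302288) (nat_lit 152) (nat_lit 233426438057) (nat_lit 24) (nat_lit 5) (nat_lit 25) (nat_lit 5) (nat_lit 26) (nat_lit 4) (nat_lit 421) (nat_lit 360) (nat_lit 119)) (XT.lf (nat_lit 0) (nat_lit 264010202013) (nat_lit 76) (nat_lit 112437822280) (nat_lit 152) (nat_lit 138675288039) (nat_lit 24) (nat_lit 5) (nat_lit 25) (nat_lit 5) (nat_lit 26) (nat_lit 4) (nat_lit 422) (nat_lit 360) (nat_lit 118))))))))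
noncomputable def xc229 : XT := (XT.nd (nat_lit 43758) (nat_lit 0) (nat_lit 1292) (XT.nd (nat_lit 42744) (nat_lit 0) (nat_lit 4256) (XT.nd (nat_lit 42276) (nat_lit 0) (nat_lit 6460) (XT.nd (nat_lit 42042) (nat_lit 0) (nat_lit 6384) (XT.nd (nat_lit 78) (nat_lit 152) (nat_lit 0) (XT.lf (nat_lit 0) (nat_lit 495642943147) (nat_lit 152) (nat_lit 26870461313) (nat_lit 0) (nat_lit 12111107033) (nat_lit 24) (nat_lit 5) (nat_lit 26) (nat_lit 4) (nat_lit 24) (nat_lit 4) (nat_lit 423) (nat_lit 360) (nat_lit 117)) (XT.nd (nat_lit 78) (nat_lit 0) (nat_lit 0) (XT.lf (nat_lit 0) (nat_lit 68856694653) (nat_lit 152) (nat_lit 342375775457) (nat_lit 76) (nat_lit 143553886612) (nat_lit 22) (nat_lit 5) (nat_lit 24) (nat_lit 5) (nat_lit 23) (nat_lit 4) (nat_lit 424) (nat_lit 360) (nat_lit 116)) (XT.lf (nat_lit 0) (nat_lit 181239271519) (nat_lit 152) (nat_lit 111991648486) (nat_lit 76) (nat_lit 282670300269)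 (nat_lit 22) (nat_lit 5) (nat_lit 24) (nat_lit 5) (nat_lit 23) (nat_lit 4) (nat_lit 425) (nat_lit 360) (nat_lit 115)))) (XT.nd (nat_lit 78) (nat_lit 0) (nat_lit 0) (XT.lf (nat_lit 0) (nat_lit 6805164005) (nat_lit 836) (nat_lit 16565997245) (nat_lit 836) (nat_lit 16565997245) (nat_lit 106) (nat_lit 3) (nat_lit 117) (nat_lit 3) (nat_lit 117) (nat_lit 5) (nat_lit 361) (nat_lit 361) (nat_lit 178)) (XT.nd (nat_lit 78) (nat_lit 0) (nat_lit 76) (XT.lf (nat_lit 76) (nat_lit 5197526407) (nat_lit 0) (nat_lit 8844158368) (nat_lit 836) (nat_lit 67824926589) (nat_lit 107) (nat_lit 5) (nat_lit 106) (nat_lit 3) (nat_lit 117) (nat_lit 5) (nat_lit 362) (nat_lit 361) (nat_lit 177)) (XT.lf (nat_lit 0) (nat_lit 15547475754) (nat_lit 760) (nat_lit 37829454549) (nat_lit 836) (nat_lit 30528947387) (nat_lit 107) (nat_lit 5) (nat_lit 117) (nat_lit 5) (nat_lit 118) (nat_lit 5) (nat_lit 363) (nat_lit 361) (nat_lit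 176))))) (XT.nd (nat_lit 234) (nat_lit 0) (nat_lit 152) (XT.nd (nat_lit 78) (nat_lit 0) (nat_lit 76) (XT.lf (nat_lit 76) (nat_lit 2899612064) (nat_lit 0) (nat_lit 14418594127) (nat_lit 836) (nat_lit 68719419170) (nat_lit 108) (nat_lit 5) (nat_lit 107) (nat_lit 5) (nat_lit 118) (nat_lit 5) (nat_lit 364) (nat_lit 361) (nat_lit 175)) (XT.nd (nat_lit 78) (nat_lit 0) (nat_lit 0) (XT.lf (nat_lit 0) (nat_lit 20241601950) (nat_lit 760) (nat_lit 41689883516) (nat_lit 836) (nat_lit 26291269011) (nat_lit 108) (nat_lit 5) (nat_lit 118) (nat_lit 5) (nat_lit 119) (nat_lit 5) (nat_lit 365) (nat_lit 361) (nat_lit 174)) (XT.lf (nat_lit 76) (nat_lit 1646610717) (nat_lit 0) (nat_lit 21926082497) (nat_lit 836) (nat_lit 66931371025) (nat_lit 109) (nat_lit 5) (nat_lit 108) (nat_lit 5) (nat_lit 119) (nat_lit 5) (nat_lit 366) (nat_lit 361) (nat_lit 173)))) (XT.nd (nat_lit 78) (nat_lit 0) (nat_lit 0) (XT.lf (nat_lit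 0) (nat_lit 28100920753) (nat_lit 760) (nat_lit 44592299463) (nat_lit 836) (nat_lit 20154690642) (nat_lit 109) (nat_lit 5) (nat_lit 119) (nat_lit 5) (nat_lit 120) (nat_lit 5) (nat_lit 367) (nat_lit 361) (nat_lit 172)) (XT.nd (nat_lit 78) (nat_lit 0) (nat_lit 76) (XT.lf (nat_lit 76) (nat_lit 1576756190) (nat_lit 0) (nat_lit 31662360542) (nat_lit 836) (nat_lit 62050655656) (nat_lit 110) (nat_lit 5) (nat_lit 109) (nat_lit 5) (nat_lit 120) (nat_lit 5) (nat_lit 368) (nat_lit 361) (nat_lit 171)) (XT.lf (nat_lit 0) (nat_lit 39579609241) (nat_lit 760) (nat_lit 46404636464) (nat_lit 836) (nat_lit 11822212364) (nat_lit 110) (nat_lit 5) (nat_lit 120) (nat_lit 5) (nat_lit 121) (nat_lit 5) (nat_lit 369) (nat_lit 361) (nat_lit 170)))))) (XT.nd (nat_lit 468) (nat_lit 1368) (nat_lit 0) (XT.nd (nat_lit 234) (nat_lit 380) (nat_lit 0) (XT.nd (nat_lit 78) (nat_lit 684) (nat_lit 0) (XT.lf (nat_lit 76) (nat_lit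 2840645969) (nat_lit 0) (nat_lit 43959424514) (nat_lit 836) (nat_lit 53620760737) (nat_lit 111) (nat_lit 5) (nat_lit 110) (nat_lit 5) (nat_lit 121) (nat_lit 5) (nat_lit 370) (nat_lit 361) (nat_lit 169)) (XT.nd (nat_lit 78) (nat_lit 760) (nat_lit 0) (XT.lf (nat_lit 0) (nat_lit 55182480639) (nat_lit 760) (nat_lit 46983254350) (nat_lit 76) (nat_lit 960142121) (nat_lit 111) (nat_lit 5) (nat_lit 121) (nat_lit 5) (nat_lit 112) (nat_lit 5) (nat_lit 371) (nat_lit 361) (nat_lit 168)) (XT.lf (nat_lit 0) (nat_lit 5601790752) (nat_lit 760) (nat_lit 59189903493) (nat_lit 836) (nat_lit 41134097260) (nat_lit 101) (nat_lit 5) (nat_lit 111) (nat_lit 5) (nat_lit 112) (nat_lit 5) (nat_lit 372) (nat_lit 361) (nat_lit 167)))) (XT.nd (nat_lit 78) (nat_lit 380) (nat_lit 0) (XT.lf (nat_lit 0) (nat_lit 62446868384) (nat_lit 760) (nat_lit 13229775611) (nat_lit 836) (nat_lit 33149294189) (nat_lit 101) (nat_lit 5)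 (nat_lit 111) (nat_lit 5) (nat_lit 112) (nat_lit 5) (nat_lit 373) (nat_lit 361) (nat_lit 166)) (XT.nd (nat_lit 78) (nat_lit 0) (nat_lit 0) (XT.lf (nat_lit 0) (nat_lit 10037091643) (nat_lit 380) (nat_lit 77771958887) (nat_lit 456) (nat_lit 24026881526) (nat_lit 96) (nat_lit 5) (nat_lit 101) (nat_lit 5) (nat_lit 102) (nat_lit 5) (nat_lit 374) (nat_lit 361) (nat_lit 165)) (XT.lf (nat_lit 0) (nat_lit 70659816304) (nat_lit 380) (nat_lit 30886720626) (nat_lit 456) (nat_lit 13399966021) (nat_lit 96) (nat_lit 5) (nat_lit 101) (nat_lit 5) (nat_lit 102) (nat_lit 5) (nat_lit 375) (nat_lit 361) (nat_lit 164))))) (XT.nd (nat_lit 234) (nat_lit 608) (nat_lit 0) (XT.nd (nat_lit 78) (nat_lit 456) (nat_lit 0) (XT.lf (nat_lit 0) (nat_lit 16337216031) (nat_lit 304) (nat_lit 100174775620) (nat_lit 380) (nat_lit 1673556332) (nat_lit 92) (nat_lit 5) (nat_lit 96) (nat_lit 5) (nat_lit 97) (nat_lit 5) (nat_lit 376)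 (nat_lit 361) (nat_lit 163)) (XT.nd (nat_lit 78) (nat_lit 380) (nat_lit 0) (XT.lf (nat_lit 0) (nat_lit 11566952832) (nat_lit 380) (nat_lit 40704314677) (nat_lit 76) (nat_lit 69243557709) (nat_lit 91) (nat_lit 5) (nat_lit 96) (nat_lit 5) (nat_lit 92) (nat_lit 5) (nat_lit 377) (nat_lit 361) (nat_lit 162)) (XT.lf (nat_lit 0) (nat_lit 24245105294) (nat_lit 380) (nat_lit 1546338017) (nat_lit 456) (nat_lit 99198841572) (nat_lit 86) (nat_lit 5) (nat_lit 91) (nat_lit 5) (nat_lit 92) (nat_lit 5) (nat_lit 378) (nat_lit 361) (nat_lit 161)))) (XT.nd (nat_lit 156) (nat_lit 304) (nat_lit 0) (XT.nd (nat_lit 78) (nat_lit 304) (nat_lit 0) (XT.lf (nat_lit 0) (nat_lit 42234894266) (nat_lit 456) (nat_lit 35568974257) (nat_lit 76) (nat_lit 50760262452) (nat_lit 86) (nat_lit 5) (nat_lit 92) (nat_lit 5) (nat_lit 87) (nat_lit 5) (nat_lit 379) (nat_lit 361) (nat_lit 160)) (XT.lf (nat_lit 0) (nat_lit 33926191127)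 (nat_lit 304) (nat_lit 26129049233) (nat_lit 380) (nat_lit 72233693111) (nat_lit 82) (nat_lit 5) (nat_lit 86) (nat_lit 5) (nat_lit 87) (nat_lit 5) (nat_lit 380) (nat_lit 361) (nat_lit 159))) (XT.nd (nat_lit 78) (nat_lit 304) (nat_lit 0) (XT.lf (nat_lit 0) (nat_lit 79817735661) (nat_lit 380) (nat_lit 28488282815) (nat_lit 76) (nat_lit 27841401239) (nat_lit 82) (nat_lit 5) (nat_lit 87) (nat_lit 5) (nat_lit 83) (nat_lit 5) (nat_lit 381) (nat_lit 361) (nat_lit 158)) (XT.lf (nat_lit 0) (nat_lit 45920970244) (nat_lit 304) (nat_lit 55792398510) (nat_lit 380) (nat_lit 38428211074) (nat_lit 78) (nat_lit 5) (nat_lit 82) (nat_lit 5) (nat_lit 83) (nat_lit 5) (nat_lit 382) (nat_lit 361) (nat_lit 157))))))) (XT.nd (nat_lit 936) (nat_lit 1368) (nat_lit 0) (XT.nd (nat_lit 468) (nat_lit 760) (nat_lit 0) (XT.nd (nat_lit 234) (nat_lit 532) (nat_lit 0) (XT.nd (nat_lit 78) (nat_lit 304) (nat_lit 0) (XT.lf (nat_lit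 0) (nat_lit 125039398121) (nat_lit 304) (nat_lit 146569569) (nat_lit 380) (nat_lit 19125371246) (nat_lit 78) (nat_lit 5) (nat_lit 82) (nat_lit 5) (nat_lit 83) (nat_lit 5) (nat_lit 383) (nat_lit 361) (nat_lit 156)) (XT.nd (nat_lit 78) (nat_lit 0) (nat_lit 0) (XT.lf (nat_lit 0) (nat_lit 2989868552) (nat_lit 304) (nat_lit 88196514397) (nat_lit 76) (nat_lit 57408119829) (nat_lit 74) (nat_lit 5) (nat_lit 78) (nat_lit 5) (nat_lit 75) (nat_lit 5) (nat_lit 384) (nat_lit 361) (nat_lit 155)) (XT.lf (nat_lit 0) (nat_lit 25902002248) (nat_lit 304) (nat_lit 8676634213) (nat_lit 76) (nat_lit 118480818499) (nat_lit 74) (nat_lit 5) (nat_lit 78) (nat_lit 5) (nat_lit 75) (nat_lit 5) (nat_lit 385) (nat_lit 361) (nat_lit 154)))) (XT.nd (nat_lit 78) (nat_lit 228) (nat_lit 0) (XT.lf (nat_lit 0) (nat_lit 51574157032) (nat_lit 380) (nat_lit 80802467198) (nat_lit 76) (nat_lit 25290309964) (nat_lit 70) (nat_lit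 5) (nat_lit 75) (nat_lit 5) (nat_lit 71) (nat_lit 5) (nat_lit 386) (nat_lit 361) (nat_lit 153)) (XT.nd (nat_lit 78) (nat_lit 0) (nat_lit 0) (XT.lf (nat_lit 0) (nat_lit 4046325309) (nat_lit 228) (nat_lit 75262738814) (nat_lit 304) (nat_lit 83156766193) (nat_lit 67) (nat_lit 5) (nat_lit 70) (nat_lit 5) (nat_lit 71) (nat_lit 5) (nat_lit 387) (nat_lit 361) (nat_lit 152)) (XT.lf (nat_lit 0) (nat_lit 95942515168) (nat_lit 228) (nat_lit 13856392212) (nat_lit 304) (nat_lit 57637354472) (nat_lit 67) (nat_lit 5) (nat_lit 70) (nat_lit 5) (nat_lit 71) (nat_lit 5) (nat_lit 388) (nat_lit 361) (nat_lit 151))))) (XT.nd (nat_lit 234) (nat_lit 228) (nat_lit 0) (XT.nd (nat_lit 78) (nat_lit 304) (nat_lit 0) (XT.lf (nat_lit 0) (nat_lit 19615476594) (nat_lit 228) (nat_lit 123294115100) (nat_lit 304) (nat_lit 29690805966) (nat_lit 64) (nat_lit 5) (nat_lit 67) (nat_lit 5) (nat_lit 68) (nat_lit 5) (nat_lit 389)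 (nat_lit 361) (nat_lit 150)) (XT.nd (nat_lit 78) (nat_lit 228) (nat_lit 0) (XT.lf (nat_lit 0) (nat_lit 1121732182) (nat_lit 304) (nat_lit 60441843904) (nat_lit 76) (nat_lit 116386557215) (nat_lit 63) (nat_lit 5) (nat_lit 67) (nat_lit 5) (nat_lit 64) (nat_lit 5) (nat_lit 390) (nat_lit 361) (nat_lit 149)) (XT.lf (nat_lit 0) (nat_lit 33129770906) (nat_lit 304) (nat_lit 146142507981) (nat_lit 76) (nat_lit 4238106260) (nat_lit 60) (nat_lit 5) (nat_lit 64) (nat_lit 5) (nat_lit 61) (nat_lit 5) (nat_lit 391) (nat_lit 361) (nat_lit 148)))) (XT.nd (nat_lit 78) (nat_lit 228) (nat_lit 0) (XT.lf (nat_lit 0) (nat_lit 68787632094) (nat_lit 304) (nat_lit 48157307840) (nat_lit 76) (nat_lit 72301238740) (nat_lit 60) (nat_lit 5) (nat_lit 64) (nat_lit 5) (nat_lit 61) (nat_lit 5) (nat_lit 392) (nat_lit 361) (nat_lit 147)) (XT.nd (nat_lit 78) (nat_lit 0) (nat_lit 0) (XT.lf (nat_lit 0) (nat_lit 56536376083) (nat_lit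 228) (nat_lit 50574500752) (nat_lit 304) (nat_lit 88113760627) (nat_lit 57) (nat_lit 5) (nat_lit 60) (nat_lit 5) (nat_lit 61) (nat_lit 5) (nat_lit 393) (nat_lit 361) (nat_lit 146)) (XT.lf (nat_lit 0) (nat_lit 148477454200) (nat_lit 304) (nat_lit 33636680934) (nat_lit 76) (nat_lit 19331525642) (nat_lit 57) (nat_lit 5) (nat_lit 61) (nat_lit 5) (nat_lit 58) (nat_lit 5) (nat_lit 394) (nat_lit 361) (nat_lit 145)))))) (XT.nd (nat_lit 468) (nat_lit 608) (nat_lit 0) (XT.nd (nat_lit 234) (nat_lit 304) (nat_lit 0) (XT.nd (nat_lit 78) (nat_lit 304) (nat_lit 0) (XT.lf (nat_lit 0) (nat_lit 78345655716) (nat_lit 152) (nat_lit 115618802356) (nat_lit 228) (nat_lit 13910672403) (nat_lit 55) (nat_lit 5) (nat_lit 57) (nat_lit 5) (nat_lit 58) (nat_lit 5) (nat_lit 395) (nat_lit 361) (nat_lit 144)) (XT.nd (nat_lit 78) (nat_lit 228) (nat_lit 0) (XT.lf (nat_lit 0) (nat_lit 26811183370) (nat_lit 228) (nat_lit 17935418212)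 (nat_lit 76) (nat_lit 169829376735) (nat_lit 54) (nat_lit 5) (nat_lit 57) (nat_lit 5) (nat_lit 55) (nat_lit 5) (nat_lit 396) (nat_lit 361) (nat_lit 143)) (XT.lf (nat_lit 0) (nat_lit 71191536360) (nat_lit 304) (nat_lit 119730019338) (nat_lit 76) (nat_lit 30574416038) (nat_lit 51) (nat_lit 5) (nat_lit 55) (nat_lit 5) (nat_lit 52) (nat_lit 5) (nat_lit 397) (nat_lit 361) (nat_lit 142)))) (XT.nd (nat_lit 78) (nat_lit 304) (nat_lit 0) (XT.lf (nat_lit 0) (nat_lit 118833007668) (nat_lit 304) (nat_lit 1410513031) (nat_lit 76) (nat_lit 108466339176) (nat_lit 51) (nat_lit 5) (nat_lit 55) (nat_lit 5) (nat_lit 52) (nat_lit 5) (nat_lit 398) (nat_lit 361) (nat_lit 141)) (XT.nd (nat_lit 78) (nat_lit 152) (nat_lit 0) (XT.lf (nat_lit 0) (nat_lit 126885847221) (nat_lit 152) (nat_lit 43951582716) (nat_lit 228) (nat_lit 65347968692) (nat_lit 49) (nat_lit 5) (nat_lit 51) (nat_lit 5) (nat_lit 52) (nat_lit 5)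 (nat_lit 399) (nat_lit 361) (nat_lit 140)) (XT.lf (nat_lit 0) (nat_lit 17611002294) (nat_lit 152) (nat_lit 208694623738) (nat_lit 228) (nat_lit 17685910727) (nat_lit 47) (nat_lit 5) (nat_lit 49) (nat_lit 5) (nat_lit 50) (nat_lit 5) (nat_lit 400) (nat_lit 361) (nat_lit 139))))) (XT.nd (nat_lit 234) (nat_lit 380) (nat_lit 0) (XT.nd (nat_lit 78) (nat_lit 152) (nat_lit 0) (XT.lf (nat_lit 0) (nat_lit 33925292738) (nat_lit 228) (nat_lit 98690058330) (nat_lit 76) (nat_lit 119417282832) (nat_lit 46) (nat_lit 5) (nat_lit 49) (nat_lit 5) (nat_lit 47) (nat_lit 5) (nat_lit 401) (nat_lit 361) (nat_lit 138)) (XT.nd (nat_lit 78) (nat_lit 0) (nat_lit 0) (XT.lf (nat_lit 0) (nat_lit 36255147785) (nat_lit 152) (nat_lit 51833435456) (nat_lit 228) (nat_lit 172344411602) (nat_lit 44) (nat_lit 5) (nat_lit 46) (nat_lit 5) (nat_lit 47) (nat_lit 5) (nat_lit 402) (nat_lit 361) (nat_lit 137)) (XT.lf (nat_lit 0) (nat_lit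 147173677058) (nat_lit 228) (nat_lit 88338577451) (nat_lit 76) (nat_lit 33630437446) (nat_lit 44) (nat_lit 5) (nat_lit 47) (nat_lit 5) (nat_lit 45) (nat_lit 5) (nat_lit 403) (nat_lit 361) (nat_lit 136)))) (XT.nd (nat_lit 156) (nat_lit 228) (nat_lit 0) (XT.nd (nat_lit 78) (nat_lit 0) (nat_lit 0) (XT.lf (nat_lit 0) (nat_lit 55209741734) (nat_lit 152) (nat_lit 155714845341) (nat_lit 228) (nat_lit 67277708829) (nat_lit 42) (nat_lit 5) (nat_lit 44) (nat_lit 5) (nat_lit 45) (nat_lit 5) (nat_lit 404) (nat_lit 361) (nat_lit 135)) (XT.lf (nat_lit 0) (nat_lit 209002154738) (nat_lit 152) (nat_lit 70356801901) (nat_lit 228) (nat_lit 8281127768) (nat_lit 42) (nat_lit 5) (nat_lit 44) (nat_lit 5) (nat_lit 45) (nat_lit 5) (nat_lit 405) (nat_lit 361) (nat_lit 134))) (XT.nd (nat_lit 78) (nat_lit 0) (nat_lit 0) (XT.lf (nat_lit 0) (nat_lit 53444006578) (nat_lit 228) (nat_lit 223303216713) (nat_lit 76) (nat_lit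 20685828399) (nat_lit 39) (nat_lit 5) (nat_lit 42) (nat_lit 5) (nat_lit 40) (nat_lit 5) (nat_lit 406) (nat_lit 361) (nat_lit 133)) (XT.lf (nat_lit 0) (nat_lit 120483954921) (nat_lit 228) (nat_lit 71694171240) (nat_lit 76) (nat_lit 115405410542) (nat_lit 39) (nat_lit 5) (nat_lit 42) (nat_lit 5) (nat_lit 40) (nat_lit 5) (nat_lit 407) (nat_lit 361) (nat_lit 132))))))))
noncomputable def xc230 : XT := (XT.nd (nat_lit 43758) (nat_lit 0) (nat_lit 2888) (XT.nd (nat_lit 936) (nat_lit 456) (nat_lit 0) (XT.nd (nat_lit 468) (nat_lit 380) (nat_lit 0) (XT.nd (nat_lit 234) (nat_lit 152) (nat_lit 0) (XT.nd (nat_lit 78) (nat_lit 152) (nat_lit 0) (XT.lf (nat_lit 0) (nat_lit 90388087924) (nat_lit 152) (nat_lit 101898894189) (nat_lit 228) (nat_lit 125884009828) (nat_lit 37) (nat_lit 5) (nat_lit 39) (nat_lit 5) (nat_lit 40) (nat_lit 5) (nat_lit 408) (nat_lit 361) (nat_lit 131)) (XT.nd (nat_lit 78) (nat_lit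 152) (nat_lit 0) (XT.lf (nat_lit 0) (nat_lit 263063301484) (nat_lit 152) (nat_lit 5830907509) (nat_lit 228) (nat_lit 60332908575) (nat_lit 37) (nat_lit 5) (nat_lit 39) (nat_lit 5) (nat_lit 40) (nat_lit 5) (nat_lit 409) (nat_lit 361) (nat_lit 130)) (XT.lf (nat_lit 0) (nat_lit 11404866173) (nat_lit 152) (nat_lit 235437041703) (nat_lit 76) (nat_lit 93828457747) (nat_lit 35) (nat_lit 5) (nat_lit 37) (nat_lit 5) (nat_lit 36) (nat_lit 5) (nat_lit 410) (nat_lit 361) (nat_lit 129)))) (XT.nd (nat_lit 78) (nat_lit 152) (nat_lit 0) (XT.lf (nat_lit 0) (nat_lit 85936300418) (nat_lit 152) (nat_lit 66235606177) (nat_lit 76) (nat_lit 200402698713) (nat_lit 35) (nat_lit 5) (nat_lit 37) (nat_lit 5) (nat_lit 36) (nat_lit 5) (nat_lit 411) (nat_lit 361) (nat_lit 128)) (XT.nd (nat_lit 78) (nat_lit 0) (nat_lit 0) (XT.lf (nat_lit 0) (nat_lit 115109934785) (nat_lit 152) (nat_lit 50881444180) (nat_lit 228) (nat_lit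 198992824421) (nat_lit 33) (nat_lit 5) (nat_lit 35) (nat_lit 5) (nat_lit 36) (nat_lit 5) (nat_lit 412) (nat_lit 361) (nat_lit 127)) (XT.lf (nat_lit 0) (nat_lit 252055314949) (nat_lit 228) (nat_lit 71020582006) (nat_lit 76) (nat_lit 54838079270) (nat_lit 33) (nat_lit 5) (nat_lit 36) (nat_lit 5) (nat_lit 34) (nat_lit 4) (nat_lit 413) (nat_lit 361) (nat_lit 126))))) (XT.nd (nat_lit 234) (nat_lit 76) (nat_lit 0) (XT.nd (nat_lit 78) (nat_lit 228) (nat_lit 0) (XT.lf (nat_lit 0) (nat_lit 119775021067) (nat_lit 76) (nat_lit 225351462901) (nat_lit 152) (nat_lit 46228551961) (nat_lit 32) (nat_lit 5) (nat_lit 33) (nat_lit 5) (nat_lit 34) (nat_lit 4) (nat_lit 414) (nat_lit 361) (nat_lit 125)) (XT.nd (nat_lit 78) (nat_lit 152) (nat_lit 0) (XT.lf (nat_lit 0) (nat_lit 37408947667) (nat_lit 152) (nat_lit 83435498571) (nat_lit 76) (nat_lit 284533400873) (nat_lit 31) (nat_lit 5) (nat_lit 33) (nat_lit 5)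 (nat_lit 32) (nat_lit 5) (nat_lit 415) (nat_lit 361) (nat_lit 124)) (XT.lf (nat_lit 0) (nat_lit 117106347159) (nat_lit 152) (nat_lit 8396646991) (nat_lit 228) (nat_lit 294469499757) (nat_lit 29) (nat_lit 5) (nat_lit 31) (nat_lit 5) (nat_lit 32) (nat_lit 5) (nat_lit 416) (nat_lit 361) (nat_lit 123)))) (XT.nd (nat_lit 78) (nat_lit 76) (nat_lit 0) (XT.lf (nat_lit 0) (nat_lit 221150136041) (nat_lit 228) (nat_lit 106389906930) (nat_lit 76) (nat_lit 107599410443) (nat_lit 29) (nat_lit 5) (nat_lit 32) (nat_lit 5) (nat_lit 30) (nat_lit 4) (nat_lit 417) (nat_lit 361) (nat_lit 122)) (XT.nd (nat_lit 78) (nat_lit 0) (nat_lit 0) (XT.lf (nat_lit 0) (nat_lit 103071240631) (nat_lit 76) (nat_lit 220255177098) (nat_lit 152) (nat_lit 127651004061) (nat_lit 28) (nat_lit 5) (nat_lit 29) (nat_lit 5) (nat_lit 30) (nat_lit 4) (nat_lit 418) (nat_lit 361) (nat_lit 121)) (XT.lf (nat_lit 0) (nat_lit 326698888082)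 (nat_lit 76) (nat_lit 105714293745) (nat_lit 152) (nat_lit 35104023364) (nat_lit 28) (nat_lit 5) (nat_lit 29) (nat_lit 5) (nat_lit 30) (nat_lit 4) (nat_lit 419) (nat_lit 361) (nat_lit 120)))))) (XT.nd (nat_lit 42354) (nat_lit 0) (nat_lit 6384) (XT.nd (nat_lit 234) (nat_lit 152) (nat_lit 0) (XT.nd (nat_lit 78) (nat_lit 76) (nat_lit 0) (XT.lf (nat_lit 0) (nat_lit 61566924960) (nat_lit 228) (nat_lit 406881464010) (nat_lit 76) (nat_lit 16312971440) (nat_lit 25) (nat_lit 5) (nat_lit 28) (nat_lit 5) (nat_lit 26) (nat_lit 4) (nat_lit 420) (nat_lit 361) (nat_lit 119)) (XT.nd (nat_lit 78) (nat_lit 76) (nat_lit 0) (XT.lf (nat_lit 0) (nat_lit 166048545869) (nat_lit 228) (nat_lit 192694330283) (nat_lit 76) (nat_lit 143888230943) (nat_lit 25) (nat_lit 5) (nat_lit 28) (nat_lit 5) (nat_lit 26) (nat_lit 4) (nat_lit 421) (nat_lit 361) (nat_lit 118)) (XT.lf (nat_lit 0) (nat_lit 33266741444) (nat_lit 76)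 (nat_lit 243006805331) (nat_lit 152) (nat_lit 245094829411) (nat_lit 24) (nat_lit 5) (nat_lit 25) (nat_lit 5) (nat_lit 26) (nat_lit 4) (nat_lit 422) (nat_lit 361) (nat_lit 117)))) (XT.nd (nat_lit 78) (nat_lit 152) (nat_lit 0) (XT.lf (nat_lit 0) (nat_lit 277215619241) (nat_lit 76) (nat_lit 118057463803) (nat_lit 152) (nat_lit 145606261443) (nat_lit 24) (nat_lit 5) (nat_lit 25) (nat_lit 5) (nat_lit 26) (nat_lit 4) (nat_lit 423) (nat_lit 361) (nat_lit 116)) (XT.nd (nat_lit 78) (nat_lit 152) (nat_lit 0) (XT.lf (nat_lit 0) (nat_lit 520427654741) (nat_lit 152) (nat_lit 28209217267) (nat_lit 0) (nat_lit 12718736280) (nat_lit 24) (nat_lit 5) (nat_lit 26) (nat_lit 4) (nat_lit 24) (nat_lit 4) (nat_lit 424) (nat_lit 361) (nat_lit 115)) (XT.lf (nat_lit 0) (nat_lit 72302086687) (nat_lit 152) (nat_lit 359489788946) (nat_lit 76) (nat_lit 150733670555) (nat_lit 22) (nat_lit 5) (nat_lit 24) (nat_lit 5)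 (nat_lit 23) (nat_lit 4) (nat_lit 425) (nat_lit 361) (nat_lit 114))))) (XT.nd (nat_lit 234) (nat_lit 0) (nat_lit 76) (XT.nd (nat_lit 78) (nat_lit 0) (nat_lit 0) (XT.lf (nat_lit 0) (nat_lit 7155217460) (nat_lit 836) (nat_lit 17389150354) (nat_lit 836) (nat_lit 17389150354) (nat_lit 106) (nat_lit 3) (nat_lit 117) (nat_lit 3) (nat_lit 117) (nat_lit 5) (nat_lit 362) (nat_lit 362) (nat_lit 176)) (XT.nd (nat_lit 78) (nat_lit 0) (nat_lit 76) (XT.lf (nat_lit 76) (nat_lit 5467530210) (nat_lit 0) (nat_lit 9295054551) (nat_lit 836) (nat_lit 71196400215) (nat_lit 107) (nat_lit 5) (nat_lit 106) (nat_lit 3) (nat_lit 117) (nat_lit 5) (nat_lit 363) (nat_lit 362) (nat_lit 175)) (XT.lf (nat_lit 0) (nat_lit 16342640112) (nat_lit 760) (nat_lit 39710241478) (nat_lit 836) (nat_lit 32047385056) (nat_lit 107) (nat_lit 5) (nat_lit 117) (nat_lit 5) (nat_lit 118) (nat_lit 5) (nat_lit 364) (nat_lit 362) (nat_lit 174))))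 (XT.nd (nat_lit 78) (nat_lit 0) (nat_lit 76) (XT.lf (nat_lit 76) (nat_lit 3055106113) (nat_lit 0) (nat_lit 15146117932) (nat_lit 836) (nat_lit 72137412540) (nat_lit 108) (nat_lit 5) (nat_lit 107) (nat_lit 5) (nat_lit 118) (nat_lit 5) (nat_lit 365) (nat_lit 362) (nat_lit 173)) (XT.nd (nat_lit 78) (nat_lit 0) (nat_lit 0) (XT.lf (nat_lit 0) (nat_lit 21269876897) (nat_lit 760) (nat_lit 43763438222) (nat_lit 836) (nat_lit 27599753370) (nat_lit 108) (nat_lit 5) (nat_lit 118) (nat_lit 5) (nat_lit 119) (nat_lit 5) (nat_lit 366) (nat_lit 362) (nat_lit 172)) (XT.lf (nat_lit 76) (nat_lit 1739704278) (nat_lit 0) (nat_lit 23027215304) (nat_lit 836) (nat_lit 70261554981) (nat_lit 109) (nat_lit 5) (nat_lit 108) (nat_lit 5) (nat_lit 119) (nat_lit 5) (nat_lit 367) (nat_lit 362) (nat_lit 171))))))) (XT.nd (nat_lit 936) (nat_lit 1976) (nat_lit 0) (XT.nd (nat_lit 468) (nat_lit 1140) (nat_lit 0) (XT.nd (nat_lit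 234) (nat_lit 608) (nat_lit 0) (XT.nd (nat_lit 78) (nat_lit 0) (nat_lit 0) (XT.lf (nat_lit 0) (nat_lit 29520744237) (nat_lit 760) (nat_lit 46810837004) (nat_lit 836) (nat_lit 21157973618) (nat_lit 109) (nat_lit 5) (nat_lit 119) (nat_lit 5) (nat_lit 120) (nat_lit 5) (nat_lit 368) (nat_lit 362) (nat_lit 170)) (XT.nd (nat_lit 78) (nat_lit 0) (nat_lit 76) (XT.lf (nat_lit 76) (nat_lit 1666492763) (nat_lit 0) (nat_lit 33248823723) (nat_lit 836) (nat_lit 65138220258) (nat_lit 110) (nat_lit 5) (nat_lit 109) (nat_lit 5) (nat_lit 120) (nat_lit 5) (nat_lit 369) (nat_lit 362) (nat_lit 169)) (XT.lf (nat_lit 0) (nat_lit 41572105599) (nat_lit 760) (nat_lit 48713748999) (nat_lit 836) (nat_lit 12410239088) (nat_lit 110) (nat_lit 5) (nat_lit 120) (nat_lit 5) (nat_lit 121) (nat_lit 5) (nat_lit 370) (nat_lit 362) (nat_lit 168)))) (XT.nd (nat_lit 78) (nat_lit 684) (nat_lit 0) (XT.lf (nat_lit 76) (nat_lit 2993618212)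 (nat_lit 0) (nat_lit 46159498881) (nat_lit 836) (nat_lit 56288092590) (nat_lit 111) (nat_lit 5) (nat_lit 110) (nat_lit 5) (nat_lit 121) (nat_lit 5) (nat_lit 371) (nat_lit 362) (nat_lit 167)) (XT.nd (nat_lit 78) (nat_lit 760) (nat_lit 0) (XT.lf (nat_lit 0) (nat_lit 57953995385) (nat_lit 760) (nat_lit 49321335278) (nat_lit 76) (nat_lit 1006210345) (nat_lit 111) (nat_lit 5) (nat_lit 121) (nat_lit 5) (nat_lit 112) (nat_lit 5) (nat_lit 372) (nat_lit 362) (nat_lit 166)) (XT.lf (nat_lit 0) (nat_lit 5892783341) (nat_lit 760) (nat_lit 62150466523) (nat_lit 836) (nat_lit 43178222745) (nat_lit 101) (nat_lit 5) (nat_lit 111) (nat_lit 5) (nat_lit 112) (nat_lit 5) (nat_lit 373) (nat_lit 362) (nat_lit 165))))) (XT.nd (nat_lit 234) (nat_lit 760) (nat_lit 0) (XT.nd (nat_lit 78) (nat_lit 380) (nat_lit 0) (XT.lf (nat_lit 0) (nat_lit 65579595662) (nat_lit 760) (nat_lit 13892281397) (nat_lit 836) (nat_lit 34794778538)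 (nat_lit 101) (nat_lit 5) (nat_lit 111) (nat_lit 5) (nat_lit 112) (nat_lit 5) (nat_lit 374) (nat_lit 362) (nat_lit 164)) (XT.nd (nat_lit 78) (nat_lit 0) (nat_lit 0) (XT.lf (nat_lit 0) (nat_lit 10549748375) (nat_lit 380) (nat_lit 81660766177) (nat_lit 456) (nat_lit 25216654528) (nat_lit 96) (nat_lit 5) (nat_lit 101) (nat_lit 5) (nat_lit 102) (nat_lit 5) (nat_lit 375) (nat_lit 362) (nat_lit 163)) (XT.lf (nat_lit 0) (nat_lit 74203094880) (nat_lit 380) (nat_lit 32431256034) (nat_lit 456) (nat_lit 14058944252) (nat_lit 96) (nat_lit 5) (nat_lit 101) (nat_lit 5) (nat_lit 102) (nat_lit 5) (nat_lit 376) (nat_lit 362) (nat_lit 162)))) (XT.nd (nat_lit 78) (nat_lit 456) (nat_lit 0) (XT.lf (nat_lit 0) (nat_lit 17164726062) (nat_lit 304) (nat_lit 105183016223) (nat_lit 380) (nat_lit 1746567379) (nat_lit 92) (nat_lit 5) (nat_lit 96) (nat_lit 5) (nat_lit 97) (nat_lit 5) (nat_lit 377) (nat_lit 362) (nat_lit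 161)) (XT.nd (nat_lit 78) (nat_lit 380) (nat_lit 0) (XT.lf (nat_lit 0) (nat_lit 12155134156) (nat_lit 380) (nat_lit 42729055735) (nat_lit 76) (nat_lit 72705877497) (nat_lit 91) (nat_lit 5) (nat_lit 96) (nat_lit 5) (nat_lit 92) (nat_lit 5) (nat_lit 378) (nat_lit 362) (nat_lit 160)) (XT.lf (nat_lit 0) (nat_lit 25467666289) (nat_lit 380) (nat_lit 1622875501) (nat_lit 456) (nat_lit 104148773967) (nat_lit 86) (nat_lit 5) (nat_lit 91) (nat_lit 5) (nat_lit 92) (nat_lit 5) (nat_lit 379) (nat_lit 362) (nat_lit 159)))))) (XT.nd (nat_lit 468) (nat_lit 1064) (nat_lit 0) (XT.nd (nat_lit 234) (nat_lit 608) (nat_lit 0) (XT.nd (nat_lit 78) (nat_lit 304) (nat_lit 0) (XT.lf (nat_lit 0) (nat_lit 44355723248) (nat_lit 456) (nat_lit 37337159226) (nat_lit 76) (nat_lit 53298994118) (nat_lit 86) (nat_lit 5) (nat_lit 92) (nat_lit 5) (nat_lit 87) (nat_lit 5) (nat_lit 380) (nat_lit 362) (nat_lit 158)) (XT.nd (nat_lit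 78) (nat_lit 0) (nat_lit 0) (XT.lf (nat_lit 0) (nat_lit 35632598884) (nat_lit 304) (nat_lit 27434212840) (nat_lit 380) (nat_lit 75836121555) (nat_lit 82) (nat_lit 5) (nat_lit 86) (nat_lit 5) (nat_lit 87) (nat_lit 5) (nat_lit 381) (nat_lit 362) (nat_lit 157)) (XT.lf (nat_lit 0) (nat_lit 83817031461) (nat_lit 380) (nat_lit 29902673200) (nat_lit 76) (nat_lit 29234659495) (nat_lit 82) (nat_lit 5) (nat_lit 87) (nat_lit 5) (nat_lit 83) (nat_lit 5) (nat_lit 382) (nat_lit 362) (nat_lit 156)))) (XT.nd (nat_lit 78) (nat_lit 304) (nat_lit 0) (XT.lf (nat_lit 0) (nat_lit 48226880839) (nat_lit 304) (nat_lit 58580318916) (nat_lit 380) (nat_lit 40341045133) (nat_lit 78) (nat_lit 5) (nat_lit 82) (nat_lit 5) (nat_lit 83) (nat_lit 5) (nat_lit 383) (nat_lit 362) (nat_lit 155)) (XT.nd (nat_lit 78) (nat_lit 304) (nat_lit 0) (XT.lf (nat_lit 0) (nat_lit 131300760486) (nat_lit 304) (nat_lit 152279458) (nat_lit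 380) (nat_lit 20073471718) (nat_lit 78) (nat_lit 5) (nat_lit 82) (nat_lit 5) (nat_lit 83) (nat_lit 5) (nat_lit 384) (nat_lit 362) (nat_lit 154)) (XT.lf (nat_lit 0) (nat_lit 3147068997) (nat_lit 304) (nat_lit 92596476307) (nat_lit 76) (nat_lit 60280292248) (nat_lit 74) (nat_lit 5) (nat_lit 78) (nat_lit 5) (nat_lit 75) (nat_lit 5) (nat_lit 385) (nat_lit 362) (nat_lit 153))))) (XT.nd (nat_lit 234) (nat_lit 532) (nat_lit 0) (XT.nd (nat_lit 78) (nat_lit 532) (nat_lit 0) (XT.lf (nat_lit 0) (nat_lit 27204442377) (nat_lit 304) (nat_lit 9101071818) (nat_lit 76) (nat_lit 124406541736) (nat_lit 74) (nat_lit 5) (nat_lit 78) (nat_lit 5) (nat_lit 75) (nat_lit 5) (nat_lit 386) (nat_lit 362) (nat_lit 152)) (XT.nd (nat_lit 78) (nat_lit 228) (nat_lit 0) (XT.lf (nat_lit 0) (nat_lit 54160032587) (nat_lit 380) (nat_lit 84833019592) (nat_lit 76) (nat_lit 26556865792) (nat_lit 70) (nat_lit 5) (nat_lit 75) (nat_lit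 5) (nat_lit 71) (nat_lit 5) (nat_lit 387) (nat_lit 362) (nat_lit 151)) (XT.lf (nat_lit 0) (nat_lit 4258058170) (nat_lit 228) (nat_lit 79023432563) (nat_lit 304) (nat_lit 87307278098) (nat_lit 67) (nat_lit 5) (nat_lit 70) (nat_lit 5) (nat_lit 71) (nat_lit 5) (nat_lit 388) (nat_lit 362) (nat_lit 150)))) (XT.nd (nat_lit 156) (nat_lit 304) (nat_lit 0) (XT.nd (nat_lit 78) (nat_lit 228) (nat_lit 0) (XT.lf (nat_lit 0) (nat_lit 100748609113) (nat_lit 228) (nat_lit 14546884973) (nat_lit 304) (nat_lit 60512244667) (nat_lit 67) (nat_lit 5) (nat_lit 70) (nat_lit 5) (nat_lit 71) (nat_lit 5) (nat_lit 389) (nat_lit 362) (nat_lit 149)) (XT.lf (nat_lit 0) (nat_lit 20605368988) (nat_lit 228) (nat_lit 129456204339) (nat_lit 304) (nat_lit 31168515186) (nat_lit 64) (nat_lit 5) (nat_lit 67) (nat_lit 5) (nat_lit 68) (nat_lit 5) (nat_lit 390) (nat_lit 362) (nat_lit 148))) (XT.nd (nat_lit 78) (nat_lit 228) (nat_lit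 0) (XT.lf (nat_lit 0) (nat_lit 1184116354) (nat_lit 304) (nat_lit 63455039964) (nat_lit 76) (nat_lit 122208165207) (nat_lit 63) (nat_lit 5) (nat_lit 67) (nat_lit 5) (nat_lit 64) (nat_lit 5) (nat_lit 391) (nat_lit 362) (nat_lit 147)) (XT.lf (nat_lit 0) (nat_lit 34792434663) (nat_lit 304) (nat_lit 153440611499) (nat_lit 76) (nat_lit 4452546088) (nat_lit 60) (nat_lit 5) (nat_lit 64) (nat_lit 5) (nat_lit 61) (nat_lit 5) (nat_lit 392) (nat_lit 362) (nat_lit 146))))))))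
noncomputable def xc231 : XT := (XT.nd (nat_lit 1950) (nat_lit 380) (nat_lit 0) (XT.nd (nat_lit 936) (nat_lit 1140) (nat_lit 0) (XT.nd (nat_lit 468) (nat_lit 532) (nat_lit 0) (XT.nd (nat_lit 234) (nat_lit 456) (nat_lit 0) (XT.nd (nat_lit 78) (nat_lit 228) (nat_lit 0) (XT.lf (nat_lit 0) (nat_lit 72232894853) (nat_lit 304) (nat_lit 50556580964) (nat_lit 76) (nat_lit 75918714501) (nat_lit 60) (nat_lit 5) (nat_lit 64) (nat_lit 5) (nat_lit 61) (nat_lit 5) (nat_lit 393) (nat_lit 362) (nat_lit 145)) (XT.nd (nat_lit 78) (nat_lit 0) (nat_lit 0) (XT.lf (nat_lit 0) (nat_lit 59371648570) (nat_lit 228) (nat_lit 53100505192) (nat_lit 304) (nat_lit 92513425842) (nat_lit 57) (nat_lit 5) (nat_lit 60) (nat_lit 5) (nat_lit 61) (nat_lit 5) (nat_lit 394) (nat_lit 362) (nat_lit 144)) (XT.lf (nat_lit 0) (nat_lit 155906827444) (nat_lit 304) (nat_lit 35310228373) (nat_lit 76) (nat_lit 20300610040) (nat_lit 57)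 (nat_lit 5) (nat_lit 61) (nat_lit 5) (nat_lit 58) (nat_lit 5) (nat_lit 395) (nat_lit 362) (nat_lit 143)))) (XT.nd (nat_lit 78) (nat_lit 304) (nat_lit 0) (XT.lf (nat_lit 0) (nat_lit 82271091455) (nat_lit 152) (nat_lit 121396955415) (nat_lit 228) (nat_lit 14600569042) (nat_lit 55) (nat_lit 5) (nat_lit 57) (nat_lit 5) (nat_lit 58) (nat_lit 5) (nat_lit 396) (nat_lit 362) (nat_lit 142)) (XT.nd (nat_lit 78) (nat_lit 228) (nat_lit 0) (XT.lf (nat_lit 0) (nat_lit 28156939265) (nat_lit 228) (nat_lit 18824250045) (nat_lit 76) (nat_lit 178323325554) (nat_lit 54) (nat_lit 5) (nat_lit 57) (nat_lit 5) (nat_lit 55) (nat_lit 5) (nat_lit 397) (nat_lit 362) (nat_lit 141)) (XT.lf (nat_lit 0) (nat_lit 74756227169) (nat_lit 304) (nat_lit 125708496081) (nat_lit 76) (nat_lit 32105788961) (nat_lit 51) (nat_lit 5) (nat_lit 55) (nat_lit 5) (nat_lit 52) (nat_lit 5) (nat_lit 398) (nat_lit 362) (nat_lit 140))))) (XT.nd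 (nat_lit 234) (nat_lit 228) (nat_lit 0) (XT.nd (nat_lit 78) (nat_lit 304) (nat_lit 0) (XT.lf (nat_lit 0) (nat_lit 124779528519) (nat_lit 304) (nat_lit 1473396565) (nat_lit 76) (nat_lit 113892181965) (nat_lit 51) (nat_lit 5) (nat_lit 55) (nat_lit 5) (nat_lit 52) (nat_lit 5) (nat_lit 399) (nat_lit 362) (nat_lit 139)) (XT.nd (nat_lit 78) (nat_lit 152) (nat_lit 0) (XT.lf (nat_lit 0) (nat_lit 133237658440) (nat_lit 152) (nat_lit 46146398925) (nat_lit 228) (nat_lit 68610371211) (nat_lit 49) (nat_lit 5) (nat_lit 51) (nat_lit 5) (nat_lit 52) (nat_lit 5) (nat_lit 400) (nat_lit 362) (nat_lit 138)) (XT.lf (nat_lit 0) (nat_lit 18499143667) (nat_lit 152) (nat_lit 219126452729) (nat_lit 228) (nat_lit 18565280665) (nat_lit 47) (nat_lit 5) (nat_lit 49) (nat_lit 5) (nat_lit 50) (nat_lit 5) (nat_lit 401) (nat_lit 362) (nat_lit 137)))) (XT.nd (nat_lit 78) (nat_lit 152) (nat_lit 0) (XT.lf (nat_lit 0) (nat_lit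 35626098279) (nat_lit 228) (nat_lit 103617179444) (nat_lit 76) (nat_lit 125390758937) (nat_lit 46) (nat_lit 5) (nat_lit 49) (nat_lit 5) (nat_lit 47) (nat_lit 5) (nat_lit 402) (nat_lit 362) (nat_lit 136)) (XT.nd (nat_lit 78) (nat_lit 0) (nat_lit 0) (XT.lf (nat_lit 0) (nat_lit 38075167914) (nat_lit 152) (nat_lit 54422282550) (nat_lit 228) (nat_lit 180956970418) (nat_lit 44) (nat_lit 5) (nat_lit 46) (nat_lit 5) (nat_lit 47) (nat_lit 5) (nat_lit 403) (nat_lit 362) (nat_lit 135)) (XT.lf (nat_lit 0) (nat_lit 154536629637) (nat_lit 228) (nat_lit 92748418378) (nat_lit 76) (nat_lit 35314563387) (nat_lit 44) (nat_lit 5) (nat_lit 47) (nat_lit 5) (nat_lit 45) (nat_lit 5) (nat_lit 404) (nat_lit 362) (nat_lit 134)))))) (XT.nd (nat_lit 468) (nat_lit 608) (nat_lit 0) (XT.nd (nat_lit 234) (nat_lit 152) (nat_lit 0) (XT.nd (nat_lit 78) (nat_lit 228) (nat_lit 0) (XT.lf (nat_lit 0) (nat_lit 57977202444) (nat_lit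 152) (nat_lit 163497788317) (nat_lit 228) (nat_lit 70637209590) (nat_lit 42) (nat_lit 5) (nat_lit 44) (nat_lit 5) (nat_lit 45) (nat_lit 5) (nat_lit 405) (nat_lit 362) (nat_lit 133)) (XT.nd (nat_lit 78) (nat_lit 228) (nat_lit 0) (XT.lf (nat_lit 0) (nat_lit 219458904021) (nat_lit 152) (nat_lit 73871976004) (nat_lit 228) (nat_lit 8691008270) (nat_lit 42) (nat_lit 5) (nat_lit 44) (nat_lit 5) (nat_lit 45) (nat_lit 5) (nat_lit 406) (nat_lit 362) (nat_lit 132)) (XT.lf (nat_lit 0) (nat_lit 56120203114) (nat_lit 228) (nat_lit 234461553433) (nat_lit 76) (nat_lit 21722746508) (nat_lit 39) (nat_lit 5) (nat_lit 42) (nat_lit 5) (nat_lit 40) (nat_lit 5) (nat_lit 407) (nat_lit 362) (nat_lit 131)))) (XT.nd (nat_lit 78) (nat_lit 152) (nat_lit 0) (XT.lf (nat_lit 0) (nat_lit 126511958578) (nat_lit 228) (nat_lit 75272380645) (nat_lit 76) (nat_lit 121178182677) (nat_lit 39) (nat_lit 5) (nat_lit 42) (nat_lit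 5) (nat_lit 40) (nat_lit 5) (nat_lit 408) (nat_lit 362) (nat_lit 130)) (XT.nd (nat_lit 78) (nat_lit 0) (nat_lit 0) (XT.lf (nat_lit 0) (nat_lit 94913886653) (nat_lit 152) (nat_lit 106991169076) (nat_lit 228) (nat_lit 132174298304) (nat_lit 37) (nat_lit 5) (nat_lit 39) (nat_lit 5) (nat_lit 40) (nat_lit 5) (nat_lit 409) (nat_lit 362) (nat_lit 129)) (XT.lf (nat_lit 0) (nat_lit 276222556399) (nat_lit 152) (nat_lit 6119910197) (nat_lit 228) (nat_lit 63345828274) (nat_lit 37) (nat_lit 5) (nat_lit 39) (nat_lit 5) (nat_lit 40) (nat_lit 5) (nat_lit 410) (nat_lit 362) (nat_lit 128))))) (XT.nd (nat_lit 234) (nat_lit 304) (nat_lit 0) (XT.nd (nat_lit 78) (nat_lit 152) (nat_lit 0) (XT.lf (nat_lit 0) (nat_lit 11978679902) (nat_lit 152) (nat_lit 247202646375) (nat_lit 76) (nat_lit 98522378001) (nat_lit 35) (nat_lit 5) (nat_lit 37) (nat_lit 5) (nat_lit 36) (nat_lit 5) (nat_lit 411) (nat_lit 362) (nat_lit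 127)) (XT.nd (nat_lit 78) (nat_lit 152) (nat_lit 0) (XT.lf (nat_lit 0) (nat_lit 90236515840) (nat_lit 152) (nat_lit 69541436568) (nat_lit 76) (nat_lit 210425212094) (nat_lit 35) (nat_lit 5) (nat_lit 37) (nat_lit 5) (nat_lit 36) (nat_lit 5) (nat_lit 412) (nat_lit 362) (nat_lit 126)) (XT.lf (nat_lit 0) (nat_lit 120871285475) (nat_lit 152) (nat_lit 53422992311) (nat_lit 228) (nat_lit 208938968273) (nat_lit 33) (nat_lit 5) (nat_lit 35) (nat_lit 5) (nat_lit 36) (nat_lit 5) (nat_lit 413) (nat_lit 362) (nat_lit 125)))) (XT.nd (nat_lit 156) (nat_lit 228) (nat_lit 0) (XT.nd (nat_lit 78) (nat_lit 76) (nat_lit 0) (XT.lf (nat_lit 0) (nat_lit 264661289536) (nat_lit 228) (nat_lit 74565913926) (nat_lit 76) (nat_lit 57582310178) (nat_lit 33) (nat_lit 5) (nat_lit 36) (nat_lit 5) (nat_lit 34) (nat_lit 4) (nat_lit 414) (nat_lit 362) (nat_lit 124)) (XT.lf (nat_lit 0) (nat_lit 125769377410) (nat_lit 76) (nat_lit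 236616574307) (nat_lit 152) (nat_lit 48536677920) (nat_lit 32) (nat_lit 5) (nat_lit 33) (nat_lit 5) (nat_lit 34) (nat_lit 4) (nat_lit 415) (nat_lit 362) (nat_lit 123))) (XT.nd (nat_lit 78) (nat_lit 152) (nat_lit 0) (XT.lf (nat_lit 0) (nat_lit 39282438827) (nat_lit 152) (nat_lit 87601833662) (nat_lit 76) (nat_lit 298762313964) (nat_lit 31) (nat_lit 5) (nat_lit 33) (nat_lit 5) (nat_lit 32) (nat_lit 5) (nat_lit 416) (nat_lit 362) (nat_lit 122)) (XT.lf (nat_lit 0) (nat_lit 122967016615) (nat_lit 152) (nat_lit 8814109638) (nat_lit 228) (nat_lit 309189842444) (nat_lit 29) (nat_lit 5) (nat_lit 31) (nat_lit 5) (nat_lit 32) (nat_lit 5) (nat_lit 417) (nat_lit 362) (nat_lit 121))))))) (XT.nd (nat_lit 42900) (nat_lit 0) (nat_lit 5092) (XT.nd (nat_lit 468) (nat_lit 0) (nat_lit 0) (XT.nd (nat_lit 234) (nat_lit 304) (nat_lit 0) (XT.nd (nat_lit 78) (nat_lit 76) (nat_lit 0) (XT.lf (nat_lit 0) (nat_lit 232210518456)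 (nat_lit 228) (nat_lit 111704197510) (nat_lit 76) (nat_lit 112981565591) (nat_lit 29) (nat_lit 5) (nat_lit 32) (nat_lit 5) (nat_lit 30) (nat_lit 4) (nat_lit 418) (nat_lit 362) (nat_lit 120)) (XT.nd (nat_lit 78) (nat_lit 0) (nat_lit 0) (XT.lf (nat_lit 0) (nat_lit 108229923481) (nat_lit 76) (nat_lit 231265633763) (nat_lit 152) (nat_lit 134030593991) (nat_lit 28) (nat_lit 5) (nat_lit 29) (nat_lit 5) (nat_lit 30) (nat_lit 4) (nat_lit 419) (nat_lit 362) (nat_lit 119)) (XT.lf (nat_lit 0) (nat_lit 343038709456) (nat_lit 76) (nat_lit 110997815870) (nat_lit 152) (nat_lit 36856405224) (nat_lit 28) (nat_lit 5) (nat_lit 29) (nat_lit 5) (nat_lit 30) (nat_lit 4) (nat_lit 420) (nat_lit 362) (nat_lit 118)))) (XT.nd (nat_lit 78) (nat_lit 76) (nat_lit 0) (XT.lf (nat_lit 0) (nat_lit 64647981175) (nat_lit 228) (nat_lit 427220549639) (nat_lit 76) (nat_lit 17130761503) (nat_lit 25) (nat_lit 5) (nat_lit 28) (nat_lit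 5) (nat_lit 26) (nat_lit 4) (nat_lit 421) (nat_lit 362) (nat_lit 117)) (XT.nd (nat_lit 78) (nat_lit 76) (nat_lit 0) (XT.lf (nat_lit 0) (nat_lit 174353554084) (nat_lit 228) (nat_lit 202324296730) (nat_lit 76) (nat_lit 151084682004) (nat_lit 25) (nat_lit 5) (nat_lit 28) (nat_lit 5) (nat_lit 26) (nat_lit 4) (nat_lit 422) (nat_lit 362) (nat_lit 116)) (XT.lf (nat_lit 0) (nat_lit 34934751970) (nat_lit 76) (nat_lit 255155003130) (nat_lit 152) (nat_lit 257346912788) (nat_lit 24) (nat_lit 5) (nat_lit 25) (nat_lit 5) (nat_lit 26) (nat_lit 4) (nat_lit 423) (nat_lit 362) (nat_lit 115))))) (XT.nd (nat_lit 42198) (nat_lit 0) (nat_lit 6232) (XT.nd (nat_lit 78) (nat_lit 0) (nat_lit 0) (XT.lf (nat_lit 0) (nat_lit 291080851111) (nat_lit 76) (nat_lit 123958296547) (nat_lit 152) (nat_lit 152884042997) (nat_lit 24) (nat_lit 5) (nat_lit 25) (nat_lit 5) (nat_lit 26) (nat_lit 4) (nat_lit 424) (nat_lit 362) (nat_lit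 114)) (XT.nd (nat_lit 42042) (nat_lit 0) (nat_lit 6232) (XT.lf (nat_lit 0) (nat_lit 546451363497) (nat_lit 152) (nat_lit 29615354219) (nat_lit 0) (nat_lit 13356554179) (nat_lit 24) (nat_lit 5) (nat_lit 26) (nat_lit 4) (nat_lit 24) (nat_lit 4) (nat_lit 425) (nat_lit 362) (nat_lit 113)) (XT.lf (nat_lit 0) (nat_lit 7521862918) (nat_lit 836) (nat_lit 18253939615) (nat_lit 836) (nat_lit 18253939615) (nat_lit 106) (nat_lit 3) (nat_lit 117) (nat_lit 3) (nat_lit 117) (nat_lit 5) (nat_lit 363) (nat_lit 363) (nat_lit 174)))) (XT.nd (nat_lit 78) (nat_lit 0) (nat_lit 76) (XT.lf (nat_lit 76) (nat_lit 5750092646) (nat_lit 0) (nat_lit 9767687791) (nat_lit 836) (nat_lit 74738285800) (nat_lit 107) (nat_lit 5) (nat_lit 106) (nat_lit 3) (nat_lit 117) (nat_lit 5) (nat_lit 364) (nat_lit 363) (nat_lit 173)) (XT.nd (nat_lit 78) (nat_lit 0) (nat_lit 0) (XT.lf (nat_lit 0) (nat_lit 17175908689) (nat_lit 760) (nat_lit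 41686061218) (nat_lit 836) (nat_lit 33642489274) (nat_lit 107) (nat_lit 5) (nat_lit 117) (nat_lit 5) (nat_lit 118) (nat_lit 5) (nat_lit 365) (nat_lit 363) (nat_lit 172)) (XT.lf (nat_lit 76) (nat_lit 3217397425) (nat_lit 0) (nat_lit 15909404870) (nat_lit 836) (nat_lit 75727976965) (nat_lit 108) (nat_lit 5) (nat_lit 107) (nat_lit 5) (nat_lit 118) (nat_lit 5) (nat_lit 366) (nat_lit 363) (nat_lit 171)))))) (XT.nd (nat_lit 468) (nat_lit 1292) (nat_lit 0) (XT.nd (nat_lit 234) (nat_lit 0) (nat_lit 76) (XT.nd (nat_lit 78) (nat_lit 0) (nat_lit 0) (XT.lf (nat_lit 0) (nat_lit 22348059948) (nat_lit 760) (nat_lit 45941687713) (nat_lit 836) (nat_lit 28974227124) (nat_lit 108) (nat_lit 5) (nat_lit 118) (nat_lit 5) (nat_lit 119) (nat_lit 5) (nat_lit 367) (nat_lit 363) (nat_lit 170)) (XT.nd (nat_lit 78) (nat_lit 0) (nat_lit 76) (XT.lf (nat_lit 76) (nat_lit 1836451874) (nat_lit 0) (nat_lit 24182955825) (nat_lit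 836) (nat_lit 73759771418) (nat_lit 109) (nat_lit 5) (nat_lit 108) (nat_lit 5) (nat_lit 119) (nat_lit 5) (nat_lit 368) (nat_lit 363) (nat_lit 169)) (XT.lf (nat_lit 0) (nat_lit 31010185028) (nat_lit 760) (nat_lit 49141331298) (nat_lit 836) (nat_lit 22211834606) (nat_lit 109) (nat_lit 5) (nat_lit 119) (nat_lit 5) (nat_lit 120) (nat_lit 5) (nat_lit 369) (nat_lit 363) (nat_lit 168)))) (XT.nd (nat_lit 78) (nat_lit 0) (nat_lit 76) (XT.lf (nat_lit 76) (nat_lit 1759702900) (nat_lit 0) (nat_lit 34914299064) (nat_lit 836) (nat_lit 68381554691) (nat_lit 110) (nat_lit 5) (nat_lit 109) (nat_lit 5) (nat_lit 120) (nat_lit 5) (nat_lit 370) (nat_lit 363) (nat_lit 167)) (XT.nd (nat_lit 78) (nat_lit 0) (nat_lit 0) (XT.lf (nat_lit 0) (nat_lit 43662970195) (nat_lit 760) (nat_lit 51139350926) (nat_lit 836) (nat_lit 13027953859) (nat_lit 110) (nat_lit 5) (nat_lit 120) (nat_lit 5) (nat_lit 121) (nat_lit 5) (nat_lit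 371) (nat_lit 363) (nat_lit 166)) (XT.lf (nat_lit 76) (nat_lit 3153221975) (nat_lit 0) (nat_lit 48469381435) (nat_lit 836) (nat_lit 59090065307) (nat_lit 111) (nat_lit 5) (nat_lit 110) (nat_lit 5) (nat_lit 121) (nat_lit 5) (nat_lit 372) (nat_lit 363) (nat_lit 165))))) (XT.nd (nat_lit 234) (nat_lit 760) (nat_lit 0) (XT.nd (nat_lit 78) (nat_lit 760) (nat_lit 0) (XT.lf (nat_lit 0) (nat_lit 60862933897) (nat_lit 760) (nat_lit 51777350532) (nat_lit 76) (nat_lit 1054762238) (nat_lit 111) (nat_lit 5) (nat_lit 121) (nat_lit 5) (nat_lit 112) (nat_lit 5) (nat_lit 373) (nat_lit 363) (nat_lit 164)) (XT.nd (nat_lit 78) (nat_lit 0) (nat_lit 0) (XT.lf (nat_lit 0) (nat_lit 6197311897) (nat_lit 760) (nat_lit 65258958426) (nat_lit 836) (nat_lit 45325724014) (nat_lit 101) (nat_lit 5) (nat_lit 111) (nat_lit 5) (nat_lit 112) (nat_lit 5) (nat_lit 374) (nat_lit 363) (nat_lit 163)) (XT.lf (nat_lit 0) (nat_lit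 68867993911) (nat_lit 760) (nat_lit 14587817920) (nat_lit 836) (nat_lit 36523650924) (nat_lit 101) (nat_lit 5) (nat_lit 111) (nat_lit 5) (nat_lit 112) (nat_lit 5) (nat_lit 375) (nat_lit 363) (nat_lit 162)))) (XT.nd (nat_lit 156) (nat_lit 380) (nat_lit 0) (XT.nd (nat_lit 78) (nat_lit 0) (nat_lit 0) (XT.lf (nat_lit 0) (nat_lit 11087033662) (nat_lit 380) (nat_lit 85743994368) (nat_lit 456) (nat_lit 26466991950) (nat_lit 96) (nat_lit 5) (nat_lit 101) (nat_lit 5) (nat_lit 102) (nat_lit 5) (nat_lit 376) (nat_lit 363) (nat_lit 161)) (XT.lf (nat_lit 0) (nat_lit 77922580928) (nat_lit 380) (nat_lit 34052999677) (nat_lit 456) (nat_lit 14751895936) (nat_lit 96) (nat_lit 5) (nat_lit 101) (nat_lit 5) (nat_lit 102) (nat_lit 5) (nat_lit 377) (nat_lit 363) (nat_lit 160))) (XT.nd (nat_lit 78) (nat_lit 76) (nat_lit 0) (XT.lf (nat_lit 0) (nat_lit 18032621529) (nat_lit 304) (nat_lit 110441715171) (nat_lit 380)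 (nat_lit 1824220674) (nat_lit 92) (nat_lit 5) (nat_lit 96) (nat_lit 5) (nat_lit 97) (nat_lit 5) (nat_lit 378) (nat_lit 363) (nat_lit 159)) (XT.lf (nat_lit 0) (nat_lit 12771810303) (nat_lit 380) (nat_lit 44856007681) (nat_lit 76) (nat_lit 76341300081) (nat_lit 91) (nat_lit 5) (nat_lit 96) (nat_lit 5) (nat_lit 92) (nat_lit 5) (nat_lit 379) (nat_lit 363) (nat_lit 158))))))))
noncomputable def xc232 : XT := (XT.nd (nat_lit 1872) (nat_lit 1672) (nat_lit 0) (XT.nd (nat_lit 936) (nat_lit 1368) (nat_lit 0) (XT.nd (nat_lit 468) (nat_lit 1064) (nat_lit 0) (XT.nd (nat_lit 234) (nat_lit 304) (nat_lit 0) (XT.nd (nat_lit 78) (nat_lit 304) (nat_lit 0) (XT.lf (nat_lit 0) (nat_lit 26750397204) (nat_lit 380) (nat_lit 1703312322) (nat_lit 456) (nat_lit 109347133588) (nat_lit 86) (nat_lit 5) (nat_lit 91) (nat_lit 5) (nat_lit 92) (nat_lit 5) (nat_lit 380) (nat_lit 363) (nat_lit 157)) (XT.nd (nat_lit 78) (nat_lit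 304) (nat_lit 0) (XT.lf (nat_lit 0) (nat_lit 46581749110) (nat_lit 456) (nat_lit 39194707668) (nat_lit 76) (nat_lit 55964595564) (nat_lit 86) (nat_lit 5) (nat_lit 92) (nat_lit 5) (nat_lit 87) (nat_lit 5) (nat_lit 381) (nat_lit 363) (nat_lit 156)) (XT.lf (nat_lit 0) (nat_lit 37423388193) (nat_lit 304) (nat_lit 28804754453) (nat_lit 380) (nat_lit 79619531976) (nat_lit 82) (nat_lit 5) (nat_lit 86) (nat_lit 5) (nat_lit 87) (nat_lit 5) (nat_lit 382) (nat_lit 363) (nat_lit 155)))) (XT.nd (nat_lit 78) (nat_lit 304) (nat_lit 0) (XT.lf (nat_lit 0) (nat_lit 88015510261) (nat_lit 380) (nat_lit 31388715018) (nat_lit 76) (nat_lit 30697470196) (nat_lit 82) (nat_lit 5) (nat_lit 87) (nat_lit 5) (nat_lit 83) (nat_lit 5) (nat_lit 383) (nat_lit 363) (nat_lit 154)) (XT.nd (nat_lit 78) (nat_lit 0) (nat_lit 0) (XT.lf (nat_lit 0) (nat_lit 50647170080) (nat_lit 304) (nat_lit 61507793347) (nat_lit 380) (nat_lit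 42350318256) (nat_lit 78) (nat_lit 5) (nat_lit 82) (nat_lit 5) (nat_lit 83) (nat_lit 5) (nat_lit 384) (nat_lit 363) (nat_lit 153)) (XT.lf (nat_lit 0) (nat_lit 137874317748) (nat_lit 304) (nat_lit 158425322) (nat_lit 380) (nat_lit 21069736605) (nat_lit 78) (nat_lit 5) (nat_lit 82) (nat_lit 5) (nat_lit 83) (nat_lit 5) (nat_lit 385) (nat_lit 363) (nat_lit 152))))) (XT.nd (nat_lit 234) (nat_lit 456) (nat_lit 0) (XT.nd (nat_lit 78) (nat_lit 304) (nat_lit 0) (XT.lf (nat_lit 0) (nat_lit 3311412939) (nat_lit 304) (nat_lit 97217353356) (nat_lit 76) (nat_lit 63295909063) (nat_lit 74) (nat_lit 5) (nat_lit 78) (nat_lit 5) (nat_lit 75) (nat_lit 5) (nat_lit 386) (nat_lit 363) (nat_lit 151)) (XT.nd (nat_lit 78) (nat_lit 304) (nat_lit 0) (XT.lf (nat_lit 0) (nat_lit 28571322108) (nat_lit 304) (nat_lit 9547604679) (nat_lit 76) (nat_lit 130628394730) (nat_lit 74) (nat_lit 5) (nat_lit 78) (nat_lit 5) (nat_lit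 75) (nat_lit 5) (nat_lit 387) (nat_lit 363) (nat_lit 150)) (XT.lf (nat_lit 0) (nat_lit 56874535534) (nat_lit 380) (nat_lit 89065989424) (nat_lit 76) (nat_lit 27886559720) (nat_lit 70) (nat_lit 5) (nat_lit 75) (nat_lit 5) (nat_lit 71) (nat_lit 5) (nat_lit 388) (nat_lit 363) (nat_lit 149)))) (XT.nd (nat_lit 78) (nat_lit 228) (nat_lit 0) (XT.lf (nat_lit 0) (nat_lit 4479502208) (nat_lit 228) (nat_lit 82972388144) (nat_lit 304) (nat_lit 91665996738) (nat_lit 67) (nat_lit 5) (nat_lit 70) (nat_lit 5) (nat_lit 71) (nat_lit 5) (nat_lit 389) (nat_lit 363) (nat_lit 148)) (XT.nd (nat_lit 78) (nat_lit 228) (nat_lit 0) (XT.lf (nat_lit 0) (nat_lit 105794173978) (nat_lit 228) (nat_lit 15272118701) (nat_lit 304) (nat_lit 63531528077) (nat_lit 67) (nat_lit 5) (nat_lit 70) (nat_lit 5) (nat_lit 71) (nat_lit 5) (nat_lit 390) (nat_lit 363) (nat_lit 147)) (XT.lf (nat_lit 0) (nat_lit 21643908244) (nat_lit 228)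 (nat_lit 135926641298) (nat_lit 304) (nat_lit 32720744956) (nat_lit 64) (nat_lit 5) (nat_lit 67) (nat_lit 5) (nat_lit 68) (nat_lit 5) (nat_lit 391) (nat_lit 363) (nat_lit 146)))))) (XT.nd (nat_lit 468) (nat_lit 684) (nat_lit 0) (XT.nd (nat_lit 234) (nat_lit 380) (nat_lit 0) (XT.nd (nat_lit 78) (nat_lit 228) (nat_lit 0) (XT.lf (nat_lit 0) (nat_lit 1249034247) (nat_lit 304) (nat_lit 66619722904) (nat_lit 76) (nat_lit 128320641614) (nat_lit 63) (nat_lit 5) (nat_lit 67) (nat_lit 5) (nat_lit 64) (nat_lit 5) (nat_lit 392) (nat_lit 363) (nat_lit 145)) (XT.nd (nat_lit 78) (nat_lit 0) (nat_lit 0) (XT.lf (nat_lit 0) (nat_lit 36537657495) (nat_lit 304) (nat_lit 161104458962) (nat_lit 76) (nat_lit 4677472272) (nat_lit 60) (nat_lit 5) (nat_lit 64) (nat_lit 5) (nat_lit 61) (nat_lit 5) (nat_lit 393) (nat_lit 363) (nat_lit 144)) (XT.lf (nat_lit 0) (nat_lit 75849873976) (nat_lit 304) (nat_lit 53076616572)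 (nat_lit 76) (nat_lit 79716839635) (nat_lit 60) (nat_lit 5) (nat_lit 64) (nat_lit 5) (nat_lit 61) (nat_lit 5) (nat_lit 394) (nat_lit 363) (nat_lit 143)))) (XT.nd (nat_lit 78) (nat_lit 152) (nat_lit 0) (XT.lf (nat_lit 0) (nat_lit 62347898738) (nat_lit 228) (nat_lit 55753062789) (nat_lit 304) (nat_lit 97133634261) (nat_lit 57) (nat_lit 5) (nat_lit 60) (nat_lit 5) (nat_lit 61) (nat_lit 5) (nat_lit 395) (nat_lit 363) (nat_lit 142)) (XT.nd (nat_lit 78) (nat_lit 152) (nat_lit 0) (XT.lf (nat_lit 0) (nat_lit 163707157963) (nat_lit 304) (nat_lit 37068223594) (nat_lit 76) (nat_lit 21317915477) (nat_lit 57) (nat_lit 5) (nat_lit 61) (nat_lit 5) (nat_lit 58) (nat_lit 5) (nat_lit 396) (nat_lit 363) (nat_lit 141)) (XT.lf (nat_lit 0) (nat_lit 86392040997) (nat_lit 152) (nat_lit 127464275241) (nat_lit 228) (nat_lit 15325484586) (nat_lit 55) (nat_lit 5) (nat_lit 57) (nat_lit 5) (nat_lit 58) (nat_lit 5) (nat_lit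 397) (nat_lit 363) (nat_lit 140))))) (XT.nd (nat_lit 234) (nat_lit 380) (nat_lit 0) (XT.nd (nat_lit 78) (nat_lit 228) (nat_lit 0) (XT.lf (nat_lit 0) (nat_lit 29569499812) (nat_lit 228) (nat_lit 19758261571) (nat_lit 76) (nat_lit 187241741249) (nat_lit 54) (nat_lit 5) (nat_lit 57) (nat_lit 5) (nat_lit 55) (nat_lit 5) (nat_lit 398) (nat_lit 363) (nat_lit 139)) (XT.nd (nat_lit 78) (nat_lit 0) (nat_lit 0) (XT.lf (nat_lit 0) (nat_lit 78498677069) (nat_lit 304) (nat_lit 131986642678) (nat_lit 76) (nat_lit 33713483961) (nat_lit 51) (nat_lit 5) (nat_lit 55) (nat_lit 5) (nat_lit 52) (nat_lit 5) (nat_lit 399) (nat_lit 363) (nat_lit 138)) (XT.lf (nat_lit 0) (nat_lit 131022922603) (nat_lit 304) (nat_lit 1540134767) (nat_lit 76) (nat_lit 119589082065) (nat_lit 51) (nat_lit 5) (nat_lit 55) (nat_lit 5) (nat_lit 52) (nat_lit 5) (nat_lit 400) (nat_lit 363) (nat_lit 137)))) (XT.nd (nat_lit 78) (nat_lit 228)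 (nat_lit 0) (XT.lf (nat_lit 0) (nat_lit 139906361187) (nat_lit 152) (nat_lit 48451212816) (nat_lit 228) (nat_lit 72036358329) (nat_lit 49) (nat_lit 5) (nat_lit 51) (nat_lit 5) (nat_lit 52) (nat_lit 5) (nat_lit 401) (nat_lit 363) (nat_lit 136)) (XT.nd (nat_lit 78) (nat_lit 76) (nat_lit 0) (XT.lf (nat_lit 0) (nat_lit 19430986345) (nat_lit 152) (nat_lit 230080142989) (nat_lit 228) (nat_lit 19489077035) (nat_lit 47) (nat_lit 5) (nat_lit 49) (nat_lit 5) (nat_lit 50) (nat_lit 5) (nat_lit 402) (nat_lit 363) (nat_lit 135)) (XT.lf (nat_lit 0) (nat_lit 37411521926) (nat_lit 228) (nat_lit 108791342905) (nat_lit 76) (nat_lit 131662666012) (nat_lit 46) (nat_lit 5) (nat_lit 49) (nat_lit 5) (nat_lit 47) (nat_lit 5) (nat_lit 403) (nat_lit 363) (nat_lit 134))))))) (XT.nd (nat_lit 936) (nat_lit 684) (nat_lit 0) (XT.nd (nat_lit 468) (nat_lit 456) (nat_lit 0) (XT.nd (nat_lit 234) (nat_lit 228) (nat_lit 0)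 (XT.nd (nat_lit 78) (nat_lit 152) (nat_lit 0) (XT.lf (nat_lit 0) (nat_lit 39985513830) (nat_lit 152) (nat_lit 57140834611) (nat_lit 228) (nat_lit 190000590581) (nat_lit 44) (nat_lit 5) (nat_lit 46) (nat_lit 5) (nat_lit 47) (nat_lit 5) (nat_lit 404) (nat_lit 363) (nat_lit 133)) (XT.nd (nat_lit 78) (nat_lit 152) (nat_lit 0) (XT.lf (nat_lit 0) (nat_lit 162267332980) (nat_lit 228) (nat_lit 97379410322) (nat_lit 76) (nat_lit 37082653523) (nat_lit 44) (nat_lit 5) (nat_lit 47) (nat_lit 5) (nat_lit 45) (nat_lit 5) (nat_lit 405) (nat_lit 363) (nat_lit 132)) (XT.lf (nat_lit 0) (nat_lit 60882387848) (nat_lit 152) (nat_lit 171670138693) (nat_lit 228) (nat_lit 74165093036) (nat_lit 42) (nat_lit 5) (nat_lit 44) (nat_lit 5) (nat_lit 45) (nat_lit 5) (nat_lit 406) (nat_lit 363) (nat_lit 131)))) (XT.nd (nat_lit 78) (nat_lit 228) (nat_lit 0) (XT.lf (nat_lit 0) (nat_lit 230437873300) (nat_lit 152) (nat_lit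 77563156671) (nat_lit 228) (nat_lit 9121771032) (nat_lit 42) (nat_lit 5) (nat_lit 44) (nat_lit 5) (nat_lit 45) (nat_lit 5) (nat_lit 407) (nat_lit 363) (nat_lit 130)) (XT.nd (nat_lit 78) (nat_lit 0) (nat_lit 0) (XT.lf (nat_lit 0) (nat_lit 58929837947) (nat_lit 228) (nat_lit 246178441430) (nat_lit 76) (nat_lit 22811266317) (nat_lit 39) (nat_lit 5) (nat_lit 42) (nat_lit 5) (nat_lit 40) (nat_lit 5) (nat_lit 408) (nat_lit 363) (nat_lit 129)) (XT.lf (nat_lit 0) (nat_lit 132841008581) (nat_lit 228) (nat_lit 79030104749) (nat_lit 76) (nat_lit 127239360843) (nat_lit 39) (nat_lit 5) (nat_lit 42) (nat_lit 5) (nat_lit 40) (nat_lit 5) (nat_lit 409) (nat_lit 363) (nat_lit 128))))) (XT.nd (nat_lit 234) (nat_lit 152) (nat_lit 0) (XT.nd (nat_lit 78) (nat_lit 152) (nat_lit 0) (XT.lf (nat_lit 0) (nat_lit 99665380834) (nat_lit 152) (nat_lit 112338305923) (nat_lit 228) (nat_lit 138779464906) (nat_lit 37) (nat_lit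 5) (nat_lit 39) (nat_lit 5) (nat_lit 40) (nat_lit 5) (nat_lit 410) (nat_lit 363) (nat_lit 127)) (XT.nd (nat_lit 78) (nat_lit 152) (nat_lit 0) (XT.lf (nat_lit 0) (nat_lit 290039207884) (nat_lit 152) (nat_lit 6423599414) (nat_lit 228) (nat_lit 66509740342) (nat_lit 37) (nat_lit 5) (nat_lit 39) (nat_lit 5) (nat_lit 40) (nat_lit 5) (nat_lit 411) (nat_lit 363) (nat_lit 126)) (XT.lf (nat_lit 0) (nat_lit 12580852374) (nat_lit 152) (nat_lit 259557112105) (nat_lit 76) (nat_lit 103450762087) (nat_lit 35) (nat_lit 5) (nat_lit 37) (nat_lit 5) (nat_lit 36) (nat_lit 5) (nat_lit 412) (nat_lit 363) (nat_lit 125)))) (XT.nd (nat_lit 78) (nat_lit 152) (nat_lit 0) (XT.lf (nat_lit 0) (nat_lit 94751425896) (nat_lit 152) (nat_lit 73013111646) (nat_lit 76) (nat_lit 220948630018) (nat_lit 35) (nat_lit 5) (nat_lit 37) (nat_lit 5) (nat_lit 36) (nat_lit 5) (nat_lit 413) (nat_lit 363) (nat_lit 124)) (XT.nd (nat_lit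 78) (nat_lit 0) (nat_lit 0) (XT.lf (nat_lit 0) (nat_lit 126920159456) (nat_lit 152) (nat_lit 56091852514) (nat_lit 228) (nat_lit 219382744469) (nat_lit 33) (nat_lit 5) (nat_lit 35) (nat_lit 5) (nat_lit 36) (nat_lit 5) (nat_lit 414) (nat_lit 363) (nat_lit 123)) (XT.lf (nat_lit 0) (nat_lit 277897264525) (nat_lit 228) (nat_lit 78289042112) (nat_lit 76) (nat_lit 60463536294) (nat_lit 33) (nat_lit 5) (nat_lit 36) (nat_lit 5) (nat_lit 34) (nat_lit 4) (nat_lit 415) (nat_lit 363) (nat_lit 122)))))) (XT.nd (nat_lit 468) (nat_lit 304) (nat_lit 0) (XT.nd (nat_lit 234) (nat_lit 76) (nat_lit 0) (XT.nd (nat_lit 78) (nat_lit 228) (nat_lit 0) (XT.lf (nat_lit 0) (nat_lit 132062930444) (nat_lit 76) (nat_lit 248445170154) (nat_lit 152) (nat_lit 50960517133) (nat_lit 32) (nat_lit 5) (nat_lit 33) (nat_lit 5) (nat_lit 34) (nat_lit 4) (nat_lit 416) (nat_lit 363) (nat_lit 121)) (XT.nd (nat_lit 78) (nat_lit 152)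 (nat_lit 0) (XT.lf (nat_lit 0) (nat_lit 41249321563) (nat_lit 152) (nat_lit 91976991253) (nat_lit 76) (nat_lit 313702464172) (nat_lit 31) (nat_lit 5) (nat_lit 33) (nat_lit 5) (nat_lit 32) (nat_lit 5) (nat_lit 417) (nat_lit 363) (nat_lit 120)) (XT.lf (nat_lit 0) (nat_lit 129120221956) (nat_lit 152) (nat_lit 9252665731) (nat_lit 228) (nat_lit 324646493477) (nat_lit 29) (nat_lit 5) (nat_lit 31) (nat_lit 5) (nat_lit 32) (nat_lit 5) (nat_lit 418) (nat_lit 363) (nat_lit 119)))) (XT.nd (nat_lit 78) (nat_lit 76) (nat_lit 0) (XT.lf (nat_lit 0) (nat_lit 243823652645) (nat_lit 228) (nat_lit 117284686509) (nat_lit 76) (nat_lit 118632625390) (nat_lit 29) (nat_lit 5) (nat_lit 32) (nat_lit 5) (nat_lit 30) (nat_lit 4) (nat_lit 419) (nat_lit 363) (nat_lit 118)) (XT.nd (nat_lit 78) (nat_lit 0) (nat_lit 0) (XT.lf (nat_lit 0) (nat_lit 113646064389) (nat_lit 76) (nat_lit 242826827297) (nat_lit 152) (nat_lit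 140729438636) (nat_lit 28) (nat_lit 5) (nat_lit 29) (nat_lit 5) (nat_lit 30) (nat_lit 4) (nat_lit 420) (nat_lit 363) (nat_lit 117)) (XT.lf (nat_lit 0) (nat_lit 360195068485) (nat_lit 76) (nat_lit 116545717946) (nat_lit 152) (nat_lit 38696668291) (nat_lit 28) (nat_lit 5) (nat_lit 29) (nat_lit 5) (nat_lit 30) (nat_lit 4) (nat_lit 421) (nat_lit 363) (nat_lit 116))))) (XT.nd (nat_lit 42354) (nat_lit 0) (nat_lit 6232) (XT.nd (nat_lit 78) (nat_lit 76) (nat_lit 0) (XT.lf (nat_lit 0) (nat_lit 67882838255) (nat_lit 228) (nat_lit 448577053247) (nat_lit 76) (nat_lit 17989241973) (nat_lit 25) (nat_lit 5) (nat_lit 28) (nat_lit 5) (nat_lit 26) (nat_lit 4) (nat_lit 422) (nat_lit 363) (nat_lit 115)) (XT.nd (nat_lit 78) (nat_lit 76) (nat_lit 0) (XT.lf (nat_lit 0) (nat_lit 183073572760) (nat_lit 228) (nat_lit 212436203114) (nat_lit 76) (nat_lit 158640766005) (nat_lit 25) (nat_lit 5) (nat_lit 28) (nat_lit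 5) (nat_lit 26) (nat_lit 4) (nat_lit 423) (nat_lit 363) (nat_lit 114)) (XT.lf (nat_lit 0) (nat_lit 36685728530) (nat_lit 76) (nat_lit 267910810005) (nat_lit 152) (nat_lit 270211847459) (nat_lit 24) (nat_lit 5) (nat_lit 25) (nat_lit 5) (nat_lit 26) (nat_lit 4) (nat_lit 424) (nat_lit 363) (nat_lit 113)))) (XT.nd (nat_lit 156) (nat_lit 0) (nat_lit 76) (XT.nd (nat_lit 78) (nat_lit 0) (nat_lit 0) (XT.lf (nat_lit 0) (nat_lit 7906014645) (nat_lit 836) (nat_lit 19162402349) (nat_lit 836) (nat_lit 19162402349) (nat_lit 106) (nat_lit 3) (nat_lit 117) (nat_lit 3) (nat_lit 117) (nat_lit 5) (nat_lit 364) (nat_lit 364) (nat_lit 172)) (XT.lf (nat_lit 76) (nat_lit 6045929183) (nat_lit 0) (nat_lit 10263220037) (nat_lit 836) (nat_lit 78458933038) (nat_lit 107) (nat_lit 5) (nat_lit 106) (nat_lit 3) (nat_lit 117) (nat_lit 5) (nat_lit 365) (nat_lit 364) (nat_lit 171))) (XT.nd (nat_lit 78) (nat_lit 0) (nat_lit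 0) (XT.lf (nat_lit 0) (nat_lit 18049340470) (nat_lit 760) (nat_lit 43761573047) (nat_lit 836) (nat_lit 35318024137) (nat_lit 107) (nat_lit 5) (nat_lit 117) (nat_lit 5) (nat_lit 118) (nat_lit 5) (nat_lit 366) (nat_lit 364) (nat_lit 170)) (XT.lf (nat_lit 76) (nat_lit 3386916734) (nat_lit 0) (nat_lit 16710300094) (nat_lit 836) (nat_lit 79499585607) (nat_lit 108) (nat_lit 5) (nat_lit 107) (nat_lit 5) (nat_lit 118) (nat_lit 5) (nat_lit 367) (nat_lit 364) (nat_lit 169))))))))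
noncomputable def xc233 : XT := (XT.nd (nat_lit 1950) (nat_lit 2432) (nat_lit 0) (XT.nd (nat_lit 936) (nat_lit 2128) (nat_lit 0) (XT.nd (nat_lit 468) (nat_lit 1216) (nat_lit 0) (XT.nd (nat_lit 234) (nat_lit 0) (nat_lit 76) (XT.nd (nat_lit 78) (nat_lit 0) (nat_lit 0) (XT.lf (nat_lit 0) (nat_lit 23478786488) (nat_lit 760) (nat_lit 48229772170) (nat_lit 836) (nat_lit 30417937196) (nat_lit 108) (nat_lit 5) (nat_lit 118) (nat_lit 5) (nat_lit 119) (nat_lit 5) (nat_lit 368) (nat_lit 364) (nat_lit 168)) (XT.nd (nat_lit 78) (nat_lit 0) (nat_lit 76) (XT.lf (nat_lit 76) (nat_lit 1937129236) (nat_lit 0) (nat_lit 25396076185) (nat_lit 836) (nat_lit 77434280342) (nat_lit 109) (nat_lit 5) (nat_lit 108) (nat_lit 5) (nat_lit 119) (nat_lit 5) (nat_lit 369) (nat_lit 364) (nat_lit 167)) (XT.lf (nat_lit 0) (nat_lit 32572851720) (nat_lit 760) (nat_lit 51589284432) (nat_lit 836) (nat_lit 23318764031) (nat_lit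 109) (nat_lit 5) (nat_lit 119) (nat_lit 5) (nat_lit 120) (nat_lit 5) (nat_lit 370) (nat_lit 364) (nat_lit 166)))) (XT.nd (nat_lit 78) (nat_lit 0) (nat_lit 76) (XT.lf (nat_lit 76) (nat_lit 1856654485) (nat_lit 0) (nat_lit 36662766084) (nat_lit 836) (nat_lit 71788318066) (nat_lit 110) (nat_lit 5) (nat_lit 109) (nat_lit 5) (nat_lit 120) (nat_lit 5) (nat_lit 371) (nat_lit 364) (nat_lit 165)) (XT.nd (nat_lit 78) (nat_lit 0) (nat_lit 0) (XT.lf (nat_lit 0) (nat_lit 45857238266) (nat_lit 760) (nat_lit 53687170607) (nat_lit 836) (nat_lit 13676814425) (nat_lit 110) (nat_lit 5) (nat_lit 120) (nat_lit 5) (nat_lit 121) (nat_lit 5) (nat_lit 372) (nat_lit 364) (nat_lit 164)) (XT.lf (nat_lit 76) (nat_lit 3319883394) (nat_lit 0) (nat_lit 50894580765) (nat_lit 836) (nat_lit 62033292461) (nat_lit 111) (nat_lit 5) (nat_lit 110) (nat_lit 5) (nat_lit 121) (nat_lit 5) (nat_lit 373) (nat_lit 364) (nat_lit 163)))))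 (XT.nd (nat_lit 234) (nat_lit 684) (nat_lit 0) (XT.nd (nat_lit 78) (nat_lit 760) (nat_lit 0) (XT.lf (nat_lit 0) (nat_lit 63916274462) (nat_lit 760) (nat_lit 54357101042) (nat_lit 76) (nat_lit 1105905227) (nat_lit 111) (nat_lit 5) (nat_lit 121) (nat_lit 5) (nat_lit 112) (nat_lit 5) (nat_lit 374) (nat_lit 364) (nat_lit 162)) (XT.nd (nat_lit 78) (nat_lit 0) (nat_lit 0) (XT.lf (nat_lit 0) (nat_lit 6516147459) (nat_lit 760) (nat_lit 68522784874) (nat_lit 836) (nat_lit 47581661129) (nat_lit 101) (nat_lit 5) (nat_lit 111) (nat_lit 5) (nat_lit 112) (nat_lit 5) (nat_lit 375) (nat_lit 364) (nat_lit 161)) (XT.lf (nat_lit 0) (nat_lit 72319936433) (nat_lit 760) (nat_lit 15318045509) (nat_lit 836) (nat_lit 38339977198) (nat_lit 101) (nat_lit 5) (nat_lit 111) (nat_lit 5) (nat_lit 112) (nat_lit 5) (nat_lit 376) (nat_lit 364) (nat_lit 160)))) (XT.nd (nat_lit 78) (nat_lit 304) (nat_lit 0) (XT.lf (nat_lit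 0) (nat_lit 11650272300) (nat_lit 380) (nat_lit 90031366316) (nat_lit 456) (nat_lit 27780821996) (nat_lit 96) (nat_lit 5) (nat_lit 101) (nat_lit 5) (nat_lit 102) (nat_lit 5) (nat_lit 377) (nat_lit 364) (nat_lit 159)) (XT.nd (nat_lit 78) (nat_lit 304) (nat_lit 0) (XT.lf (nat_lit 0) (nat_lit 81827173741) (nat_lit 380) (nat_lit 35755813688) (nat_lit 456) (nat_lit 15480424494) (nat_lit 96) (nat_lit 5) (nat_lit 101) (nat_lit 5) (nat_lit 102) (nat_lit 5) (nat_lit 378) (nat_lit 364) (nat_lit 158)) (XT.lf (nat_lit 0) (nat_lit 18943013753) (nat_lit 304) (nat_lit 115963391077) (nat_lit 380) (nat_lit 1906656130) (nat_lit 92) (nat_lit 5) (nat_lit 96) (nat_lit 5) (nat_lit 97) (nat_lit 5) (nat_lit 379) (nat_lit 364) (nat_lit 157)))))) (XT.nd (nat_lit 468) (nat_lit 1064) (nat_lit 0) (XT.nd (nat_lit 234) (nat_lit 608) (nat_lit 0) (XT.nd (nat_lit 78) (nat_lit 380) (nat_lit 0) (XT.lf (nat_lit 0) (nat_lit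 13418491013) (nat_lit 380) (nat_lit 47090190523) (nat_lit 76) (nat_lit 80158481829) (nat_lit 91) (nat_lit 5) (nat_lit 96) (nat_lit 5) (nat_lit 92) (nat_lit 5) (nat_lit 380) (nat_lit 364) (nat_lit 156)) (XT.nd (nat_lit 78) (nat_lit 0) (nat_lit 0) (XT.lf (nat_lit 0) (nat_lit 28096395614) (nat_lit 380) (nat_lit 1787836710) (nat_lit 456) (nat_lit 114806255276) (nat_lit 86) (nat_lit 5) (nat_lit 91) (nat_lit 5) (nat_lit 92) (nat_lit 5) (nat_lit 381) (nat_lit 364) (nat_lit 155)) (XT.lf (nat_lit 0) (nat_lit 48918310215) (nat_lit 456) (nat_lit 41145999044) (nat_lit 76) (nat_lit 58763416490) (nat_lit 86) (nat_lit 5) (nat_lit 92) (nat_lit 5) (nat_lit 87) (nat_lit 5) (nat_lit 382) (nat_lit 364) (nat_lit 154)))) (XT.nd (nat_lit 78) (nat_lit 304) (nat_lit 0) (XT.lf (nat_lit 0) (nat_lit 39302865417) (nat_lit 304) (nat_lit 30243931832) (nat_lit 380) (nat_lit 83592893466) (nat_lit 82) (nat_lit 5) (nat_lit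 86) (nat_lit 5) (nat_lit 87) (nat_lit 5) (nat_lit 383) (nat_lit 364) (nat_lit 153)) (XT.nd (nat_lit 78) (nat_lit 304) (nat_lit 0) (XT.lf (nat_lit 0) (nat_lit 92423203893) (nat_lit 380) (nat_lit 32949904200) (nat_lit 76) (nat_lit 32233321236) (nat_lit 82) (nat_lit 5) (nat_lit 87) (nat_lit 5) (nat_lit 83) (nat_lit 5) (nat_lit 384) (nat_lit 364) (nat_lit 152)) (XT.lf (nat_lit 0) (nat_lit 53187642144) (nat_lit 304) (nat_lit 64581784815) (nat_lit 380) (nat_lit 44460778266) (nat_lit 78) (nat_lit 5) (nat_lit 82) (nat_lit 5) (nat_lit 83) (nat_lit 5) (nat_lit 385) (nat_lit 364) (nat_lit 151))))) (XT.nd (nat_lit 234) (nat_lit 760) (nat_lit 0) (XT.nd (nat_lit 78) (nat_lit 304) (nat_lit 0) (XT.lf (nat_lit 0) (nat_lit 144775760835) (nat_lit 304) (nat_lit 165014970) (nat_lit 380) (nat_lit 22116503527) (nat_lit 78) (nat_lit 5) (nat_lit 82) (nat_lit 5) (nat_lit 83) (nat_lit 5) (nat_lit 386) (nat_lit 364)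 (nat_lit 150)) (XT.nd (nat_lit 78) (nat_lit 0) (nat_lit 0) (XT.lf (nat_lit 0) (nat_lit 3483324168) (nat_lit 304) (nat_lit 102070106043) (nat_lit 76) (nat_lit 66462157761) (nat_lit 74) (nat_lit 5) (nat_lit 78) (nat_lit 5) (nat_lit 75) (nat_lit 5) (nat_lit 387) (nat_lit 364) (nat_lit 149)) (XT.lf (nat_lit 0) (nat_lit 30005926863) (nat_lit 304) (nat_lit 10017256360) (nat_lit 76) (nat_lit 137161198509) (nat_lit 74) (nat_lit 5) (nat_lit 78) (nat_lit 5) (nat_lit 75) (nat_lit 5) (nat_lit 388) (nat_lit 364) (nat_lit 148)))) (XT.nd (nat_lit 156) (nat_lit 228) (nat_lit 0) (XT.nd (nat_lit 78) (nat_lit 228) (nat_lit 0) (XT.lf (nat_lit 0) (nat_lit 59724159198) (nat_lit 380) (nat_lit 93511414838) (nat_lit 76) (nat_lit 29282566291) (nat_lit 70) (nat_lit 5) (nat_lit 75) (nat_lit 5) (nat_lit 71) (nat_lit 5) (nat_lit 389) (nat_lit 364) (nat_lit 147)) (XT.lf (nat_lit 0) (nat_lit 4711224375) (nat_lit 228)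 (nat_lit 87118997531) (nat_lit 304) (nat_lit 96243269123) (nat_lit 67) (nat_lit 5) (nat_lit 70) (nat_lit 5) (nat_lit 71) (nat_lit 5) (nat_lit 390) (nat_lit 364) (nat_lit 146))) (XT.nd (nat_lit 78) (nat_lit 228) (nat_lit 0) (XT.lf (nat_lit 0) (nat_lit 111091260825) (nat_lit 228) (nat_lit 16033810331) (nat_lit 304) (nat_lit 66702364051) (nat_lit 67) (nat_lit 5) (nat_lit 70) (nat_lit 5) (nat_lit 71) (nat_lit 5) (nat_lit 391) (nat_lit 364) (nat_lit 145)) (XT.lf (nat_lit 0) (nat_lit 22733605522) (nat_lit 228) (nat_lit 142720820748) (nat_lit 304) (nat_lit 34351162259) (nat_lit 64) (nat_lit 5) (nat_lit 67) (nat_lit 5) (nat_lit 68) (nat_lit 5) (nat_lit 392) (nat_lit 364) (nat_lit 144))))))) (XT.nd (nat_lit 936) (nat_lit 1064) (nat_lit 0) (XT.nd (nat_lit 468) (nat_lit 684) (nat_lit 0) (XT.nd (nat_lit 234) (nat_lit 380) (nat_lit 0) (XT.nd (nat_lit 78) (nat_lit 228) (nat_lit 0) (XT.lf (nat_lit 0)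 (nat_lit 1316666980) (nat_lit 304) (nat_lit 69943390176) (nat_lit 76) (nat_lit 134738549565) (nat_lit 63) (nat_lit 5) (nat_lit 67) (nat_lit 5) (nat_lit 64) (nat_lit 5) (nat_lit 393) (nat_lit 364) (nat_lit 143)) (XT.nd (nat_lit 78) (nat_lit 0) (nat_lit 0) (XT.lf (nat_lit 0) (nat_lit 38369620732) (nat_lit 304) (nat_lit 169152259587) (nat_lit 76) (nat_lit 4913431037) (nat_lit 60) (nat_lit 5) (nat_lit 64) (nat_lit 5) (nat_lit 61) (nat_lit 5) (nat_lit 394) (nat_lit 364) (nat_lit 142)) (XT.lf (nat_lit 0) (nat_lit 79647206115) (nat_lit 304) (nat_lit 55723378521) (nat_lit 76) (nat_lit 83704667476) (nat_lit 60) (nat_lit 5) (nat_lit 64) (nat_lit 5) (nat_lit 61) (nat_lit 5) (nat_lit 395) (nat_lit 364) (nat_lit 141)))) (XT.nd (nat_lit 78) (nat_lit 152) (nat_lit 0) (XT.lf (nat_lit 0) (nat_lit 65472248540) (nat_lit 228) (nat_lit 58538477686) (nat_lit 304) (nat_lit 101985360988) (nat_lit 57) (nat_lit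 5) (nat_lit 60) (nat_lit 5) (nat_lit 61) (nat_lit 5) (nat_lit 396) (nat_lit 364) (nat_lit 140)) (XT.nd (nat_lit 78) (nat_lit 152) (nat_lit 0) (XT.lf (nat_lit 0) (nat_lit 171897041165) (nat_lit 304) (nat_lit 38914817360) (nat_lit 76) (nat_lit 22385874684) (nat_lit 57) (nat_lit 5) (nat_lit 61) (nat_lit 5) (nat_lit 58) (nat_lit 5) (nat_lit 397) (nat_lit 364) (nat_lit 139)) (XT.lf (nat_lit 0) (nat_lit 90718350501) (nat_lit 152) (nat_lit 133835196083) (nat_lit 228) (nat_lit 16087121258) (nat_lit 55) (nat_lit 5) (nat_lit 57) (nat_lit 5) (nat_lit 58) (nat_lit 5) (nat_lit 398) (nat_lit 364) (nat_lit 138))))) (XT.nd (nat_lit 234) (nat_lit 380) (nat_lit 0) (XT.nd (nat_lit 78) (nat_lit 228) (nat_lit 0) (XT.lf (nat_lit 0) (nat_lit 31052250162) (nat_lit 228) (nat_lit 20739643151) (nat_lit 76) (nat_lit 196605868599) (nat_lit 54) (nat_lit 5) (nat_lit 57) (nat_lit 5) (nat_lit 55) (nat_lit 5) (nat_lit 399)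 (nat_lit 364) (nat_lit 137)) (XT.nd (nat_lit 78) (nat_lit 0) (nat_lit 0) (XT.lf (nat_lit 0) (nat_lit 82427818215) (nat_lit 304) (nat_lit 138579373264) (nat_lit 76) (nat_lit 35401340065) (nat_lit 51) (nat_lit 5) (nat_lit 55) (nat_lit 5) (nat_lit 52) (nat_lit 5) (nat_lit 400) (nat_lit 364) (nat_lit 136)) (XT.lf (nat_lit 0) (nat_lit 137578075679) (nat_lit 304) (nat_lit 1610854316) (nat_lit 76) (nat_lit 125570614174) (nat_lit 51) (nat_lit 5) (nat_lit 55) (nat_lit 5) (nat_lit 52) (nat_lit 5) (nat_lit 401) (nat_lit 364) (nat_lit 135)))) (XT.nd (nat_lit 78) (nat_lit 228) (nat_lit 0) (XT.lf (nat_lit 0) (nat_lit 146907865029) (nat_lit 152) (nat_lit 50871500390) (nat_lit 228) (nat_lit 75634066094) (nat_lit 49) (nat_lit 5) (nat_lit 51) (nat_lit 5) (nat_lit 52) (nat_lit 5) (nat_lit 402) (nat_lit 364) (nat_lit 134)) (XT.nd (nat_lit 78) (nat_lit 76) (nat_lit 0) (XT.lf (nat_lit 0) (nat_lit 20408781008)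 (nat_lit 152) (nat_lit 241581762494) (nat_lit 228) (nat_lit 20459478585) (nat_lit 47) (nat_lit 5) (nat_lit 49) (nat_lit 5) (nat_lit 50) (nat_lit 5) (nat_lit 403) (nat_lit 364) (nat_lit 133)) (XT.lf (nat_lit 0) (nat_lit 39285833834) (nat_lit 228) (nat_lit 114224837024) (nat_lit 76) (nat_lit 138247948182) (nat_lit 46) (nat_lit 5) (nat_lit 49) (nat_lit 5) (nat_lit 47) (nat_lit 5) (nat_lit 404) (nat_lit 364) (nat_lit 132)))))) (XT.nd (nat_lit 468) (nat_lit 532) (nat_lit 0) (XT.nd (nat_lit 234) (nat_lit 228) (nat_lit 0) (XT.nd (nat_lit 78) (nat_lit 152) (nat_lit 0) (XT.lf (nat_lit 0) (nat_lit 41990764596) (nat_lit 152) (nat_lit 59995552471) (nat_lit 228) (nat_lit 199496784865) (nat_lit 44) (nat_lit 5) (nat_lit 46) (nat_lit 5) (nat_lit 47) (nat_lit 5) (nat_lit 405) (nat_lit 364) (nat_lit 131)) (XT.nd (nat_lit 78) (nat_lit 152) (nat_lit 0) (XT.lf (nat_lit 0) (nat_lit 170384211521) (nat_lit 228)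 (nat_lit 102242549569) (nat_lit 76) (nat_lit 38938928572) (nat_lit 44) (nat_lit 5) (nat_lit 47) (nat_lit 5) (nat_lit 45) (nat_lit 5) (nat_lit 406) (nat_lit 364) (nat_lit 130)) (XT.lf (nat_lit 0) (nat_lit 63932244458) (nat_lit 152) (nat_lit 180251342643) (nat_lit 228) (nat_lit 77869740400) (nat_lit 42) (nat_lit 5) (nat_lit 44) (nat_lit 5) (nat_lit 45) (nat_lit 5) (nat_lit 407) (nat_lit 364) (nat_lit 129)))) (XT.nd (nat_lit 78) (nat_lit 228) (nat_lit 0) (XT.lf (nat_lit 0) (nat_lit 241965230981) (nat_lit 152) (nat_lit 81439121186) (nat_lit 228) (nat_lit 9574424072) (nat_lit 42) (nat_lit 5) (nat_lit 44) (nat_lit 5) (nat_lit 45) (nat_lit 5) (nat_lit 408) (nat_lit 364) (nat_lit 128)) (XT.nd (nat_lit 78) (nat_lit 0) (nat_lit 0) (XT.lf (nat_lit 0) (nat_lit 61879617534) (nat_lit 228) (nat_lit 258481749285) (nat_lit 76) (nat_lit 23953990616) (nat_lit 39) (nat_lit 5) (nat_lit 42) (nat_lit 5) (nat_lit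 40) (nat_lit 5) (nat_lit 409) (nat_lit 364) (nat_lit 127)) (XT.lf (nat_lit 0) (nat_lit 139486190143) (nat_lit 228) (nat_lit 82976263114) (nat_lit 76) (nat_lit 133603386964) (nat_lit 39) (nat_lit 5) (nat_lit 42) (nat_lit 5) (nat_lit 40) (nat_lit 5) (nat_lit 410) (nat_lit 364) (nat_lit 126))))) (XT.nd (nat_lit 234) (nat_lit 228) (nat_lit 0) (XT.nd (nat_lit 78) (nat_lit 152) (nat_lit 0) (XT.lf (nat_lit 0) (nat_lit 104653910509) (nat_lit 152) (nat_lit 117953024750) (nat_lit 228) (nat_lit 145715219726) (nat_lit 37) (nat_lit 5) (nat_lit 39) (nat_lit 5) (nat_lit 40) (nat_lit 5) (nat_lit 411) (nat_lit 364) (nat_lit 125)) (XT.nd (nat_lit 78) (nat_lit 152) (nat_lit 0) (XT.lf (nat_lit 0) (nat_lit 304546178405) (nat_lit 152) (nat_lit 6742687510) (nat_lit 228) (nat_lit 69832162193) (nat_lit 37) (nat_lit 5) (nat_lit 39) (nat_lit 5) (nat_lit 40) (nat_lit 5) (nat_lit 412) (nat_lit 364) (nat_lit 124)) (XT.lf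 (nat_lit 0) (nat_lit 13212832387) (nat_lit 152) (nat_lit 272529827948) (nat_lit 76) (nat_lit 108625354782) (nat_lit 35) (nat_lit 5) (nat_lit 37) (nat_lit 5) (nat_lit 36) (nat_lit 5) (nat_lit 413) (nat_lit 364) (nat_lit 123)))) (XT.nd (nat_lit 156) (nat_lit 76) (nat_lit 0) (XT.nd (nat_lit 78) (nat_lit 152) (nat_lit 0) (XT.lf (nat_lit 0) (nat_lit 99491794709) (nat_lit 152) (nat_lit 76658872216) (nat_lit 76) (nat_lit 231998018271) (nat_lit 35) (nat_lit 5) (nat_lit 37) (nat_lit 5) (nat_lit 36) (nat_lit 5) (nat_lit 414) (nat_lit 364) (nat_lit 122)) (XT.lf (nat_lit 0) (nat_lit 133270983489) (nat_lit 152) (nat_lit 58894368574) (nat_lit 228) (nat_lit 230349004399) (nat_lit 33) (nat_lit 5) (nat_lit 35) (nat_lit 5) (nat_lit 36) (nat_lit 5) (nat_lit 415) (nat_lit 364) (nat_lit 121))) (XT.nd (nat_lit 78) (nat_lit 76) (nat_lit 0) (XT.lf (nat_lit 0) (nat_lit 291794767671) (nat_lit 228) (nat_lit 82198807134)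 (nat_lit 76) (nat_lit 63488627492) (nat_lit 33) (nat_lit 5) (nat_lit 36) (nat_lit 5) (nat_lit 34) (nat_lit 4) (nat_lit 416) (nat_lit 364) (nat_lit 120)) (XT.lf (nat_lit 0) (nat_lit 138670688453) (nat_lit 76) (nat_lit 260865403383) (nat_lit 152) (nat_lit 53505826724) (nat_lit 32) (nat_lit 5) (nat_lit 33) (nat_lit 5) (nat_lit 34) (nat_lit 4) (nat_lit 417) (nat_lit 364) (nat_lit 119))))))))
noncomputable def xc234 : XT := (XT.nd (nat_lit 44070) (nat_lit 0) (nat_lit 1444) (XT.nd (nat_lit 43134) (nat_lit 0) (nat_lit 5016) (XT.nd (nat_lit 468) (nat_lit 0) (nat_lit 0) (XT.nd (nat_lit 234) (nat_lit 304) (nat_lit 0) (XT.nd (nat_lit 78) (nat_lit 152) (nat_lit 0) (XT.lf (nat_lit 0) (nat_lit 43314291764) (nat_lit 152) (nat_lit 96571365448) (nat_lit 76) (nat_lit 329389432741) (nat_lit 31) (nat_lit 5) (nat_lit 33) (nat_lit 5) (nat_lit 32) (nat_lit 5) (nat_lit 418) (nat_lit 364) (nat_lit 118)) (XT.nd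 (nat_lit 78) (nat_lit 0) (nat_lit 0) (XT.lf (nat_lit 0) (nat_lit 135580636238) (nat_lit 152) (nat_lit 9713349458) (nat_lit 228) (nat_lit 340876241199) (nat_lit 29) (nat_lit 5) (nat_lit 31) (nat_lit 5) (nat_lit 32) (nat_lit 5) (nat_lit 419) (nat_lit 364) (nat_lit 117)) (XT.lf (nat_lit 0) (nat_lit 256017201051) (nat_lit 228) (nat_lit 123144638860) (nat_lit 76) (nat_lit 124566053956) (nat_lit 29) (nat_lit 5) (nat_lit 32) (nat_lit 5) (nat_lit 30) (nat_lit 4) (nat_lit 420) (nat_lit 364) (nat_lit 116)))) (XT.nd (nat_lit 78) (nat_lit 228) (nat_lit 0) (XT.lf (nat_lit 0) (nat_lit 119332580519) (nat_lit 76) (nat_lit 254966274645) (nat_lit 152) (nat_lit 147763475144) (nat_lit 28) (nat_lit 5) (nat_lit 29) (nat_lit 5) (nat_lit 30) (nat_lit 4) (nat_lit 421) (nat_lit 364) (nat_lit 115)) (XT.nd (nat_lit 78) (nat_lit 228) (nat_lit 0) (XT.lf (nat_lit 0) (nat_lit 378208834205) (nat_lit 76) (nat_lit 122371200018)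 (nat_lit 152) (nat_lit 40629182254) (nat_lit 28) (nat_lit 5) (nat_lit 29) (nat_lit 5) (nat_lit 30) (nat_lit 4) (nat_lit 422) (nat_lit 364) (nat_lit 114)) (XT.lf (nat_lit 0) (nat_lit 71279209664) (nat_lit 228) (nat_lit 471001802621) (nat_lit 76) (nat_lit 18890465881) (nat_lit 25) (nat_lit 5) (nat_lit 28) (nat_lit 5) (nat_lit 26) (nat_lit 4) (nat_lit 423) (nat_lit 364) (nat_lit 113))))) (XT.nd (nat_lit 42432) (nat_lit 0) (nat_lit 6232) (XT.nd (nat_lit 42276) (nat_lit 0) (nat_lit 6156) (XT.lf (nat_lit 0) (nat_lit 192229374728) (nat_lit 228) (nat_lit 223054105377) (nat_lit 76) (nat_lit 166574482219) (nat_lit 25) (nat_lit 5) (nat_lit 28) (nat_lit 5) (nat_lit 26) (nat_lit 4) (nat_lit 424) (nat_lit 364) (nat_lit 112)) (XT.nd (nat_lit 78) (nat_lit 0) (nat_lit 0) (XT.lf (nat_lit 0) (nat_lit 8308624747) (nat_lit 836) (nat_lit 20116681879) (nat_lit 836) (nat_lit 20116681879) (nat_lit 106) (nat_lit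 3) (nat_lit 117) (nat_lit 3) (nat_lit 117) (nat_lit 5) (nat_lit 365) (nat_lit 365) (nat_lit 170)) (XT.lf (nat_lit 76) (nat_lit 6355782926) (nat_lit 0) (nat_lit 10782864355) (nat_lit 836) (nat_lit 82367124993) (nat_lit 107) (nat_lit 5) (nat_lit 106) (nat_lit 3) (nat_lit 117) (nat_lit 5) (nat_lit 366) (nat_lit 365) (nat_lit 169)))) (XT.nd (nat_lit 78) (nat_lit 0) (nat_lit 0) (XT.lf (nat_lit 0) (nat_lit 18965083091) (nat_lit 760) (nat_lit 45941677792) (nat_lit 836) (nat_lit 37077948382) (nat_lit 107) (nat_lit 5) (nat_lit 117) (nat_lit 5) (nat_lit 118) (nat_lit 5) (nat_lit 367) (nat_lit 365) (nat_lit 168)) (XT.nd (nat_lit 78) (nat_lit 0) (nat_lit 76) (XT.lf (nat_lit 76) (nat_lit 3564107866) (nat_lit 0) (nat_lit 17550735717) (nat_lit 836) (nat_lit 83461149734) (nat_lit 108) (nat_lit 5) (nat_lit 107) (nat_lit 5) (nat_lit 118) (nat_lit 5) (nat_lit 368) (nat_lit 365) (nat_lit 167)) (XT.lf (nat_lit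 0) (nat_lit 24664810659) (nat_lit 760) (nat_lit 50633097579) (nat_lit 836) (nat_lit 31934297745) (nat_lit 108) (nat_lit 5) (nat_lit 118) (nat_lit 5) (nat_lit 119) (nat_lit 5) (nat_lit 369) (nat_lit 365) (nat_lit 166)))))) (XT.nd (nat_lit 468) (nat_lit 1292) (nat_lit 0) (XT.nd (nat_lit 234) (nat_lit 0) (nat_lit 152) (XT.nd (nat_lit 78) (nat_lit 0) (nat_lit 76) (XT.lf (nat_lit 76) (nat_lit 2042017233) (nat_lit 0) (nat_lit 26669483231) (nat_lit 836) (nat_lit 81293767921) (nat_lit 109) (nat_lit 5) (nat_lit 108) (nat_lit 5) (nat_lit 119) (nat_lit 5) (nat_lit 370) (nat_lit 365) (nat_lit 165)) (XT.nd (nat_lit 78) (nat_lit 0) (nat_lit 0) (XT.lf (nat_lit 0) (nat_lit 34212521464) (nat_lit 760) (nat_lit 54160482503) (nat_lit 836) (nat_lit 24481380413) (nat_lit 109) (nat_lit 5) (nat_lit 119) (nat_lit 5) (nat_lit 120) (nat_lit 5) (nat_lit 371) (nat_lit 365) (nat_lit 164)) (XT.lf (nat_lit 76) (nat_lit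 1957620035) (nat_lit 0) (nat_lit 38498400594) (nat_lit 836) (nat_lit 75366564483) (nat_lit 110) (nat_lit 5) (nat_lit 109) (nat_lit 5) (nat_lit 120) (nat_lit 5) (nat_lit 372) (nat_lit 365) (nat_lit 163)))) (XT.nd (nat_lit 78) (nat_lit 0) (nat_lit 0) (XT.lf (nat_lit 0) (nat_lit 48160185949) (nat_lit 760) (nat_lit 56363231753) (nat_lit 836) (nat_lit 14358353897) (nat_lit 110) (nat_lit 5) (nat_lit 120) (nat_lit 5) (nat_lit 121) (nat_lit 5) (nat_lit 373) (nat_lit 365) (nat_lit 162)) (XT.nd (nat_lit 78) (nat_lit 0) (nat_lit 76) (XT.lf (nat_lit 76) (nat_lit 3494041119) (nat_lit 0) (nat_lit 53440879199) (nat_lit 836) (nat_lit 65124729318) (nat_lit 111) (nat_lit 5) (nat_lit 110) (nat_lit 5) (nat_lit 121) (nat_lit 5) (nat_lit 374) (nat_lit 365) (nat_lit 161)) (XT.lf (nat_lit 0) (nat_lit 67121334327) (nat_lit 760) (nat_lit 57066686692) (nat_lit 76) (nat_lit 1159753664) (nat_lit 111) (nat_lit 5) (nat_lit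 121) (nat_lit 5) (nat_lit 112) (nat_lit 5) (nat_lit 375) (nat_lit 365) (nat_lit 160))))) (XT.nd (nat_lit 234) (nat_lit 380) (nat_lit 0) (XT.nd (nat_lit 78) (nat_lit 380) (nat_lit 0) (XT.lf (nat_lit 0) (nat_lit 6850090857) (nat_lit 760) (nat_lit 71949720968) (nat_lit 836) (nat_lit 49951357259) (nat_lit 101) (nat_lit 5) (nat_lit 111) (nat_lit 5) (nat_lit 112) (nat_lit 5) (nat_lit 376) (nat_lit 365) (nat_lit 159)) (XT.nd (nat_lit 78) (nat_lit 380) (nat_lit 0) (XT.lf (nat_lit 0) (nat_lit 75943681849) (nat_lit 760) (nat_lit 16084706689) (nat_lit 836) (nat_lit 40248036128) (nat_lit 101) (nat_lit 5) (nat_lit 111) (nat_lit 5) (nat_lit 112) (nat_lit 5) (nat_lit 377) (nat_lit 365) (nat_lit 158)) (XT.lf (nat_lit 0) (nat_lit 12240846645) (nat_lit 380) (nat_lit 94533090848) (nat_lit 456) (nat_lit 29161228583) (nat_lit 96) (nat_lit 5) (nat_lit 101) (nat_lit 5) (nat_lit 102) (nat_lit 5) (nat_lit 378)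 (nat_lit 365) (nat_lit 157)))) (XT.nd (nat_lit 78) (nat_lit 380) (nat_lit 0) (XT.lf (nat_lit 0) (nat_lit 85926209314) (nat_lit 380) (nat_lit 37543753150) (nat_lit 456) (nat_lit 16246222373) (nat_lit 96) (nat_lit 5) (nat_lit 101) (nat_lit 5) (nat_lit 102) (nat_lit 5) (nat_lit 379) (nat_lit 365) (nat_lit 156)) (XT.nd (nat_lit 78) (nat_lit 76) (nat_lit 0) (XT.lf (nat_lit 0) (nat_lit 19898111059) (nat_lit 304) (nat_lit 121761188883) (nat_lit 380) (nat_lit 1994029229) (nat_lit 92) (nat_lit 5) (nat_lit 96) (nat_lit 5) (nat_lit 97) (nat_lit 5) (nat_lit 380) (nat_lit 365) (nat_lit 155)) (XT.lf (nat_lit 0) (nat_lit 14096753609) (nat_lit 380) (nat_lit 49436883685) (nat_lit 76) (nat_lit 84166511810) (nat_lit 91) (nat_lit 5) (nat_lit 96) (nat_lit 5) (nat_lit 92) (nat_lit 5) (nat_lit 381) (nat_lit 365) (nat_lit 154))))))) (XT.nd (nat_lit 936) (nat_lit 1520) (nat_lit 0) (XT.nd (nat_lit 468) (nat_lit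 1064) (nat_lit 0) (XT.nd (nat_lit 234) (nat_lit 304) (nat_lit 0) (XT.nd (nat_lit 78) (nat_lit 304) (nat_lit 0) (XT.lf (nat_lit 0) (nat_lit 29508905689) (nat_lit 380) (nat_lit 1876646933) (nat_lit 456) (nat_lit 120539098660) (nat_lit 86) (nat_lit 5) (nat_lit 91) (nat_lit 5) (nat_lit 92) (nat_lit 5) (nat_lit 382) (nat_lit 365) (nat_lit 153)) (XT.nd (nat_lit 78) (nat_lit 304) (nat_lit 0) (XT.lf (nat_lit 0) (nat_lit 51371004547) (nat_lit 456) (nat_lit 43195640032) (nat_lit 76) (nat_lit 61702123502) (nat_lit 86) (nat_lit 5) (nat_lit 92) (nat_lit 5) (nat_lit 87) (nat_lit 5) (nat_lit 383) (nat_lit 365) (nat_lit 152)) (XT.lf (nat_lit 0) (nat_lit 41275544120) (nat_lit 304) (nat_lit 31755166661) (nat_lit 380) (nat_lit 87765631012) (nat_lit 82) (nat_lit 5) (nat_lit 86) (nat_lit 5) (nat_lit 87) (nat_lit 5) (nat_lit 384) (nat_lit 365) (nat_lit 151)))) (XT.nd (nat_lit 78) (nat_lit 304) (nat_lit 0) (XT.lf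 (nat_lit 0) (nat_lit 97050639026) (nat_lit 380) (nat_lit 34589919529) (nat_lit 76) (nat_lit 33845873946) (nat_lit 82) (nat_lit 5) (nat_lit 87) (nat_lit 5) (nat_lit 83) (nat_lit 5) (nat_lit 385) (nat_lit 365) (nat_lit 150)) (XT.nd (nat_lit 78) (nat_lit 0) (nat_lit 0) (XT.lf (nat_lit 0) (nat_lit 55854383488) (nat_lit 304) (nat_lit 67809605848) (nat_lit 380) (nat_lit 46677417266) (nat_lit 78) (nat_lit 5) (nat_lit 82) (nat_lit 5) (nat_lit 83) (nat_lit 5) (nat_lit 386) (nat_lit 365) (nat_lit 149)) (XT.lf (nat_lit 0) (nat_lit 152021557674) (nat_lit 304) (nat_lit 172057901) (nat_lit 380) (nat_lit 23216233549) (nat_lit 78) (nat_lit 5) (nat_lit 82) (nat_lit 5) (nat_lit 83) (nat_lit 5) (nat_lit 387) (nat_lit 365) (nat_lit 148))))) (XT.nd (nat_lit 234) (nat_lit 456) (nat_lit 0) (XT.nd (nat_lit 78) (nat_lit 304) (nat_lit 0) (XT.lf (nat_lit 0) (nat_lit 3663241472) (nat_lit 304) (nat_lit 107166250818)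 (nat_lit 76) (nat_lit 69786583784) (nat_lit 74) (nat_lit 5) (nat_lit 78) (nat_lit 5) (nat_lit 75) (nat_lit 5) (nat_lit 388) (nat_lit 365) (nat_lit 147)) (XT.nd (nat_lit 78) (nat_lit 304) (nat_lit 0) (XT.lf (nat_lit 0) (nat_lit 31511700440) (nat_lit 304) (nat_lit 10511109152) (nat_lit 76) (nat_lit 144020513802) (nat_lit 74) (nat_lit 5) (nat_lit 78) (nat_lit 5) (nat_lit 75) (nat_lit 5) (nat_lit 389) (nat_lit 365) (nat_lit 146)) (XT.lf (nat_lit 0) (nat_lit 62715715809) (nat_lit 380) (nat_lit 98179843578) (nat_lit 76) (nat_lit 30748217131) (nat_lit 70) (nat_lit 5) (nat_lit 75) (nat_lit 5) (nat_lit 71) (nat_lit 5) (nat_lit 390) (nat_lit 365) (nat_lit 145)))) (XT.nd (nat_lit 78) (nat_lit 228) (nat_lit 0) (XT.lf (nat_lit 0) (nat_lit 4953812402) (nat_lit 228) (nat_lit 91473124261) (nat_lit 304) (nat_lit 101049965504) (nat_lit 67) (nat_lit 5) (nat_lit 70) (nat_lit 5) (nat_lit 71) (nat_lit 5) (nat_lit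 391) (nat_lit 365) (nat_lit 144)) (XT.nd (nat_lit 78) (nat_lit 228) (nat_lit 0) (XT.lf (nat_lit 0) (nat_lit 116652516065) (nat_lit 228) (nat_lit 16833764517) (nat_lit 304) (nat_lit 70032275514) (nat_lit 67) (nat_lit 5) (nat_lit 70) (nat_lit 5) (nat_lit 71) (nat_lit 5) (nat_lit 392) (nat_lit 365) (nat_lit 143)) (XT.lf (nat_lit 0) (nat_lit 23877090212) (nat_lit 228) (nat_lit 149854909300) (nat_lit 304) (nat_lit 36063622916) (nat_lit 64) (nat_lit 5) (nat_lit 67) (nat_lit 5) (nat_lit 68) (nat_lit 5) (nat_lit 393) (nat_lit 365) (nat_lit 142)))))) (XT.nd (nat_lit 468) (nat_lit 836) (nat_lit 0) (XT.nd (nat_lit 234) (nat_lit 380) (nat_lit 0) (XT.nd (nat_lit 78) (nat_lit 228) (nat_lit 0) (XT.lf (nat_lit 0) (nat_lit 1387199668) (nat_lit 304) (nat_lit 73433921251) (nat_lit 76) (nat_lit 141477178513) (nat_lit 63) (nat_lit 5) (nat_lit 67) (nat_lit 5) (nat_lit 64) (nat_lit 5) (nat_lit 394) (nat_lit 365)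 (nat_lit 141)) (XT.nd (nat_lit 78) (nat_lit 0) (nat_lit 0) (XT.lf (nat_lit 0) (nat_lit 40292709807) (nat_lit 304) (nat_lit 177603140300) (nat_lit 76) (nat_lit 5160993883) (nat_lit 60) (nat_lit 5) (nat_lit 64) (nat_lit 5) (nat_lit 61) (nat_lit 5) (nat_lit 395) (nat_lit 365) (nat_lit 140)) (XT.lf (nat_lit 0) (nat_lit 83633955028) (nat_lit 304) (nat_lit 58503135765) (nat_lit 76) (nat_lit 87891702082) (nat_lit 60) (nat_lit 5) (nat_lit 64) (nat_lit 5) (nat_lit 61) (nat_lit 5) (nat_lit 396) (nat_lit 365) (nat_lit 139)))) (XT.nd (nat_lit 78) (nat_lit 152) (nat_lit 0) (XT.lf (nat_lit 0) (nat_lit 68752169235) (nat_lit 228) (nat_lit 61463371419) (nat_lit 304) (nat_lit 107080134719) (nat_lit 57) (nat_lit 5) (nat_lit 60) (nat_lit 5) (nat_lit 61) (nat_lit 5) (nat_lit 397) (nat_lit 365) (nat_lit 138)) (XT.nd (nat_lit 78) (nat_lit 152) (nat_lit 0) (XT.lf (nat_lit 0) (nat_lit 180495997806) (nat_lit 304)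 (nat_lit 40854374634) (nat_lit 76) (nat_lit 23507040013) (nat_lit 57) (nat_lit 5) (nat_lit 61) (nat_lit 5) (nat_lit 58) (nat_lit 5) (nat_lit 398) (nat_lit 365) (nat_lit 137)) (XT.lf (nat_lit 0) (nat_lit 95260351886) (nat_lit 152) (nat_lit 140524876141) (nat_lit 228) (nat_lit 16887270918) (nat_lit 55) (nat_lit 5) (nat_lit 57) (nat_lit 5) (nat_lit 58) (nat_lit 5) (nat_lit 399) (nat_lit 365) (nat_lit 136))))) (XT.nd (nat_lit 234) (nat_lit 532) (nat_lit 0) (XT.nd (nat_lit 78) (nat_lit 228) (nat_lit 0) (XT.lf (nat_lit 0) (nat_lit 32608740547) (nat_lit 228) (nat_lit 21770701048) (nat_lit 76) (nat_lit 206438012630) (nat_lit 54) (nat_lit 5) (nat_lit 57) (nat_lit 5) (nat_lit 55) (nat_lit 5) (nat_lit 400) (nat_lit 365) (nat_lit 135)) (XT.nd (nat_lit 78) (nat_lit 0) (nat_lit 0) (XT.lf (nat_lit 0) (nat_lit 86553025265) (nat_lit 304) (nat_lit 145502354128) (nat_lit 76) (nat_lit 37173386122) (nat_lit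 51) (nat_lit 5) (nat_lit 55) (nat_lit 5) (nat_lit 52) (nat_lit 5) (nat_lit 401) (nat_lit 365) (nat_lit 134)) (XT.lf (nat_lit 0) (nat_lit 144460613881) (nat_lit 304) (nat_lit 1685694366) (nat_lit 76) (nat_lit 131851029696) (nat_lit 51) (nat_lit 5) (nat_lit 55) (nat_lit 5) (nat_lit 52) (nat_lit 5) (nat_lit 402) (nat_lit 365) (nat_lit 133)))) (XT.nd (nat_lit 156) (nat_lit 228) (nat_lit 0) (XT.nd (nat_lit 78) (nat_lit 152) (nat_lit 0) (XT.lf (nat_lit 0) (nat_lit 154258868968) (nat_lit 152) (nat_lit 53413013671) (nat_lit 228) (nat_lit 79412041370) (nat_lit 49) (nat_lit 5) (nat_lit 51) (nat_lit 5) (nat_lit 52) (nat_lit 5) (nat_lit 403) (nat_lit 365) (nat_lit 132)) (XT.lf (nat_lit 0) (nat_lit 21434884772) (nat_lit 152) (nat_lit 253658684956) (nat_lit 228) (nat_lit 21478776957) (nat_lit 47) (nat_lit 5) (nat_lit 49) (nat_lit 5) (nat_lit 50) (nat_lit 5) (nat_lit 404) (nat_lit 365) (nat_lit 131)))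 (XT.nd (nat_lit 78) (nat_lit 152) (nat_lit 0) (XT.lf (nat_lit 0) (nat_lit 41253514018) (nat_lit 228) (nat_lit 119930570461) (nat_lit 76) (nat_lit 145162294679) (nat_lit 46) (nat_lit 5) (nat_lit 49) (nat_lit 5) (nat_lit 47) (nat_lit 5) (nat_lit 405) (nat_lit 365) (nat_lit 130)) (XT.lf (nat_lit 0) (nat_lit 44095722394) (nat_lit 152) (nat_lit 62993222276) (nat_lit 228) (nat_lit 209468145428) (nat_lit 44) (nat_lit 5) (nat_lit 46) (nat_lit 5) (nat_lit 47) (nat_lit 5) (nat_lit 406) (nat_lit 365) (nat_lit 129))))))))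
noncomputable def xc235 : XT := (XT.nd (nat_lit 44304) (nat_lit 0) (nat_lit 2204) (XT.nd (nat_lit 936) (nat_lit 304) (nat_lit 0) (XT.nd (nat_lit 468) (nat_lit 380) (nat_lit 0) (XT.nd (nat_lit 234) (nat_lit 380) (nat_lit 0) (XT.nd (nat_lit 78) (nat_lit 152) (nat_lit 0) (XT.lf (nat_lit 0) (nat_lit 178906607486) (nat_lit 228) (nat_lit 107349387914) (nat_lit 76) (nat_lit 40887818196) (nat_lit 44) (nat_lit 5) (nat_lit 47) (nat_lit 5) (nat_lit 45) (nat_lit 5) (nat_lit 407) (nat_lit 365) (nat_lit 128)) (XT.nd (nat_lit 78) (nat_lit 0) (nat_lit 0) (XT.lf (nat_lit 0) (nat_lit 67134060505) (nat_lit 152) (nat_lit 189261820901) (nat_lit 228) (nat_lit 81759955504) (nat_lit 42) (nat_lit 5) (nat_lit 44) (nat_lit 5) (nat_lit 45) (nat_lit 5) (nat_lit 408) (nat_lit 365) (nat_lit 127)) (XT.lf (nat_lit 0) (nat_lit 254068448554) (nat_lit 152) (nat_lit 85509087841) (nat_lit 228) (nat_lit 10050029165) (nat_lit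 42) (nat_lit 5) (nat_lit 44) (nat_lit 5) (nat_lit 45) (nat_lit 5) (nat_lit 409) (nat_lit 365) (nat_lit 126)))) (XT.nd (nat_lit 78) (nat_lit 152) (nat_lit 0) (XT.lf (nat_lit 0) (nat_lit 64976580442) (nat_lit 228) (nat_lit 271400744489) (nat_lit 76) (nat_lit 25153650222) (nat_lit 39) (nat_lit 5) (nat_lit 42) (nat_lit 5) (nat_lit 40) (nat_lit 5) (nat_lit 410) (nat_lit 365) (nat_lit 125)) (XT.nd (nat_lit 78) (nat_lit 152) (nat_lit 0) (XT.lf (nat_lit 0) (nat_lit 146463339680) (nat_lit 228) (nat_lit 87120226498) (nat_lit 76) (nat_lit 140285423051) (nat_lit 39) (nat_lit 5) (nat_lit 42) (nat_lit 5) (nat_lit 40) (nat_lit 5) (nat_lit 411) (nat_lit 365) (nat_lit 124)) (XT.lf (nat_lit 0) (nat_lit 109891377584) (nat_lit 152) (nat_lit 123848683726) (nat_lit 228) (nat_lit 152998061506) (nat_lit 37) (nat_lit 5) (nat_lit 39) (nat_lit 5) (nat_lit 40) (nat_lit 5) (nat_lit 412) (nat_lit 365) (nat_lit 123)))))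 (XT.nd (nat_lit 234) (nat_lit 228) (nat_lit 0) (XT.nd (nat_lit 78) (nat_lit 152) (nat_lit 0) (XT.lf (nat_lit 0) (nat_lit 319778031658) (nat_lit 152) (nat_lit 7077924493) (nat_lit 228) (nat_lit 73320990106) (nat_lit 37) (nat_lit 5) (nat_lit 39) (nat_lit 5) (nat_lit 40) (nat_lit 5) (nat_lit 413) (nat_lit 365) (nat_lit 122)) (XT.nd (nat_lit 78) (nat_lit 0) (nat_lit 0) (XT.lf (nat_lit 0) (nat_lit 13876138309) (nat_lit 152) (nat_lit 286151657429) (nat_lit 76) (nat_lit 114058486094) (nat_lit 35) (nat_lit 5) (nat_lit 37) (nat_lit 5) (nat_lit 36) (nat_lit 5) (nat_lit 414) (nat_lit 365) (nat_lit 121)) (XT.lf (nat_lit 0) (nat_lit 104468921875) (nat_lit 152) (nat_lit 80487375907) (nat_lit 76) (nat_lit 243599694017) (nat_lit 35) (nat_lit 5) (nat_lit 37) (nat_lit 5) (nat_lit 36) (nat_lit 5) (nat_lit 415) (nat_lit 365) (nat_lit 120)))) (XT.nd (nat_lit 78) (nat_lit 76) (nat_lit 0) (XT.lf (nat_lit 0) (nat_lit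 139938900972) (nat_lit 152) (nat_lit 61837203497) (nat_lit 228) (nat_lit 241863844828) (nat_lit 33) (nat_lit 5) (nat_lit 35) (nat_lit 5) (nat_lit 36) (nat_lit 5) (nat_lit 416) (nat_lit 365) (nat_lit 119)) (XT.nd (nat_lit 78) (nat_lit 76) (nat_lit 0) (XT.lf (nat_lit 0) (nat_lit 306386900540) (nat_lit 228) (nat_lit 86304496167) (nat_lit 76) (nat_lit 66664795268) (nat_lit 33) (nat_lit 5) (nat_lit 36) (nat_lit 5) (nat_lit 34) (nat_lit 4) (nat_lit 417) (nat_lit 365) (nat_lit 118)) (XT.lf (nat_lit 0) (nat_lit 145608405629) (nat_lit 76) (nat_lit 273906836565) (nat_lit 152) (nat_lit 56178654327) (nat_lit 32) (nat_lit 5) (nat_lit 33) (nat_lit 5) (nat_lit 34) (nat_lit 4) (nat_lit 418) (nat_lit 365) (nat_lit 117)))))) (XT.nd (nat_lit 42822) (nat_lit 0) (nat_lit 5928) (XT.nd (nat_lit 234) (nat_lit 76) (nat_lit 0) (XT.nd (nat_lit 78) (nat_lit 152) (nat_lit 0) (XT.lf (nat_lit 0) (nat_lit 45482277665)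 (nat_lit 152) (nat_lit 101395874430) (nat_lit 76) (nat_lit 345860578175) (nat_lit 31) (nat_lit 5) (nat_lit 33) (nat_lit 5) (nat_lit 32) (nat_lit 5) (nat_lit 419) (nat_lit 365) (nat_lit 116)) (XT.nd (nat_lit 78) (nat_lit 0) (nat_lit 0) (XT.lf (nat_lit 0) (nat_lit 142363661867) (nat_lit 152) (nat_lit 10197248623) (nat_lit 228) (nat_lit 357917715888) (nat_lit 29) (nat_lit 5) (nat_lit 31) (nat_lit 5) (nat_lit 32) (nat_lit 5) (nat_lit 420) (nat_lit 365) (nat_lit 115)) (XT.lf (nat_lit 0) (nat_lit 268820206930) (nat_lit 228) (nat_lit 129297986926) (nat_lit 76) (nat_lit 130795986855) (nat_lit 29) (nat_lit 5) (nat_lit 32) (nat_lit 5) (nat_lit 30) (nat_lit 4) (nat_lit 421) (nat_lit 365) (nat_lit 114)))) (XT.nd (nat_lit 78) (nat_lit 0) (nat_lit 0) (XT.lf (nat_lit 0) (nat_lit 125303030779) (nat_lit 76) (nat_lit 267712870448) (nat_lit 152) (nat_lit 155149439899) (nat_lit 28) (nat_lit 5) (nat_lit 29)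 (nat_lit 5) (nat_lit 30) (nat_lit 4) (nat_lit 422) (nat_lit 365) (nat_lit 113)) (XT.nd (nat_lit 42432) (nat_lit 0) (nat_lit 5928) (XT.lf (nat_lit 0) (nat_lit 397122915185) (nat_lit 76) (nat_lit 128488123896) (nat_lit 152) (nat_lit 42658537556) (nat_lit 28) (nat_lit 5) (nat_lit 29) (nat_lit 5) (nat_lit 30) (nat_lit 4) (nat_lit 423) (nat_lit 365) (nat_lit 112)) (XT.lf (nat_lit 0) (nat_lit 8730685799) (nat_lit 836) (nat_lit 21119032448) (nat_lit 836) (nat_lit 21119032448) (nat_lit 106) (nat_lit 3) (nat_lit 117) (nat_lit 3) (nat_lit 117) (nat_lit 5) (nat_lit 366) (nat_lit 366) (nat_lit 168))))) (XT.nd (nat_lit 234) (nat_lit 0) (nat_lit 152) (XT.nd (nat_lit 78) (nat_lit 0) (nat_lit 76) (XT.lf (nat_lit 76) (nat_lit 6680426751) (nat_lit 0) (nat_lit 11327888132) (nat_lit 836) (nat_lit 86472098299) (nat_lit 107) (nat_lit 5) (nat_lit 106) (nat_lit 3) (nat_lit 117) (nat_lit 5) (nat_lit 367) (nat_lit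 366) (nat_lit 167)) (XT.nd (nat_lit 78) (nat_lit 0) (nat_lit 0) (XT.lf (nat_lit 0) (nat_lit 19925378603) (nat_lit 760) (nat_lit 48231529113) (nat_lit 836) (nat_lit 38926424521) (nat_lit 107) (nat_lit 5) (nat_lit 117) (nat_lit 5) (nat_lit 118) (nat_lit 5) (nat_lit 368) (nat_lit 366) (nat_lit 166)) (XT.lf (nat_lit 76) (nat_lit 3749429174) (nat_lit 0) (nat_lit 18432735648) (nat_lit 836) (nat_lit 87622039281) (nat_lit 108) (nat_lit 5) (nat_lit 107) (nat_lit 5) (nat_lit 118) (nat_lit 5) (nat_lit 369) (nat_lit 366) (nat_lit 165)))) (XT.nd (nat_lit 156) (nat_lit 0) (nat_lit 76) (XT.nd (nat_lit 78) (nat_lit 0) (nat_lit 0) (XT.lf (nat_lit 0) (nat_lit 25909012504) (nat_lit 760) (nat_lit 53157348195) (nat_lit 836) (nat_lit 33526898064) (nat_lit 108) (nat_lit 5) (nat_lit 118) (nat_lit 5) (nat_lit 119) (nat_lit 5) (nat_lit 370) (nat_lit 366) (nat_lit 164)) (XT.lf (nat_lit 76) (nat_lit 2151402934) (nat_lit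 0) (nat_lit 28006225634) (nat_lit 836) (nat_lit 85347366578) (nat_lit 109) (nat_lit 5) (nat_lit 108) (nat_lit 5) (nat_lit 119) (nat_lit 5) (nat_lit 371) (nat_lit 366) (nat_lit 163))) (XT.nd (nat_lit 78) (nat_lit 0) (nat_lit 0) (XT.lf (nat_lit 0) (nat_lit 35933149494) (nat_lit 760) (nat_lit 56861008987) (nat_lit 836) (nat_lit 25702436445) (nat_lit 109) (nat_lit 5) (nat_lit 119) (nat_lit 5) (nat_lit 120) (nat_lit 5) (nat_lit 372) (nat_lit 366) (nat_lit 162)) (XT.lf (nat_lit 76) (nat_lit 2062877748) (nat_lit 0) (nat_lit 40425584756) (nat_lit 836) (nat_lit 79124761654) (nat_lit 110) (nat_lit 5) (nat_lit 109) (nat_lit 5) (nat_lit 120) (nat_lit 5) (nat_lit 373) (nat_lit 366) (nat_lit 161))))))) (XT.nd (nat_lit 936) (nat_lit 1900) (nat_lit 0) (XT.nd (nat_lit 468) (nat_lit 1064) (nat_lit 0) (XT.nd (nat_lit 234) (nat_lit 1064) (nat_lit 0) (XT.nd (nat_lit 78) (nat_lit 0) (nat_lit 0) (XT.lf (nat_lit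 0) (nat_lit 50577343338) (nat_lit 760) (nat_lit 59173867368) (nat_lit 836) (nat_lit 15074184290) (nat_lit 110) (nat_lit 5) (nat_lit 120) (nat_lit 5) (nat_lit 121) (nat_lit 5) (nat_lit 374) (nat_lit 366) (nat_lit 160)) (XT.nd (nat_lit 78) (nat_lit 0) (nat_lit 76) (XT.lf (nat_lit 76) (nat_lit 3676147761) (nat_lit 0) (nat_lit 56114346648) (nat_lit 836) (nat_lit 68371688899) (nat_lit 111) (nat_lit 5) (nat_lit 110) (nat_lit 5) (nat_lit 121) (nat_lit 5) (nat_lit 375) (nat_lit 366) (nat_lit 159)) (XT.lf (nat_lit 0) (nat_lit 70485787566) (nat_lit 760) (nat_lit 59912520435) (nat_lit 76) (nat_lit 1216429035) (nat_lit 111) (nat_lit 5) (nat_lit 121) (nat_lit 5) (nat_lit 112) (nat_lit 5) (nat_lit 376) (nat_lit 366) (nat_lit 158)))) (XT.nd (nat_lit 78) (nat_lit 380) (nat_lit 0) (XT.lf (nat_lit 0) (nat_lit 7199975014) (nat_lit 760) (nat_lit 75547929783) (nat_lit 836) (nat_lit 52440410903) (nat_lit 101)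 (nat_lit 5) (nat_lit 111) (nat_lit 5) (nat_lit 112) (nat_lit 5) (nat_lit 377) (nat_lit 366) (nat_lit 157)) (XT.nd (nat_lit 78) (nat_lit 380) (nat_lit 0) (XT.lf (nat_lit 0) (nat_lit 79747894146) (nat_lit 760) (nat_lit 16889630373) (nat_lit 836) (nat_lit 42252329154) (nat_lit 101) (nat_lit 5) (nat_lit 111) (nat_lit 5) (nat_lit 112) (nat_lit 5) (nat_lit 378) (nat_lit 366) (nat_lit 156)) (XT.lf (nat_lit 0) (nat_lit 12860200298) (nat_lit 380) (nat_lit 99259887084) (nat_lit 456) (nat_lit 30611458254) (nat_lit 96) (nat_lit 5) (nat_lit 101) (nat_lit 5) (nat_lit 102) (nat_lit 5) (nat_lit 379) (nat_lit 366) (nat_lit 155))))) (XT.nd (nat_lit 234) (nat_lit 684) (nat_lit 0) (XT.nd (nat_lit 78) (nat_lit 380) (nat_lit 0) (XT.lf (nat_lit 0) (nat_lit 90229482942) (nat_lit 380) (nat_lit 39421075754) (nat_lit 456) (nat_lit 17051074674) (nat_lit 96) (nat_lit 5) (nat_lit 101) (nat_lit 5) (nat_lit 102) (nat_lit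 5) (nat_lit 380) (nat_lit 366) (nat_lit 154)) (XT.nd (nat_lit 78) (nat_lit 76) (nat_lit 0) (XT.lf (nat_lit 0) (nat_lit 20900224429) (nat_lit 304) (nat_lit 127848911140) (nat_lit 380) (nat_lit 2086511001) (nat_lit 92) (nat_lit 5) (nat_lit 96) (nat_lit 5) (nat_lit 97) (nat_lit 5) (nat_lit 381) (nat_lit 366) (nat_lit 153)) (XT.lf (nat_lit 0) (nat_lit 14808247113) (nat_lit 380) (nat_lit 51901638196) (nat_lit 76) (nat_lit 88374933445) (nat_lit 91) (nat_lit 5) (nat_lit 96) (nat_lit 5) (nat_lit 92) (nat_lit 5) (nat_lit 382) (nat_lit 366) (nat_lit 152)))) (XT.nd (nat_lit 78) (nat_lit 304) (nat_lit 0) (XT.lf (nat_lit 0) (nat_lit 30991326297) (nat_lit 380) (nat_lit 1969951739) (nat_lit 456) (nat_lit 126559278645) (nat_lit 86) (nat_lit 5) (nat_lit 91) (nat_lit 5) (nat_lit 92) (nat_lit 5) (nat_lit 383) (nat_lit 366) (nat_lit 151)) (XT.nd (nat_lit 78) (nat_lit 304) (nat_lit 0) (XT.lf (nat_lit 0) (nat_lit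 53945703365) (nat_lit 456) (nat_lit 45348475128) (nat_lit 76) (nat_lit 64787716016) (nat_lit 86) (nat_lit 5) (nat_lit 92) (nat_lit 5) (nat_lit 87) (nat_lit 5) (nat_lit 384) (nat_lit 366) (nat_lit 150)) (XT.lf (nat_lit 0) (nat_lit 43346156185) (nat_lit 304) (nat_lit 33342052646) (nat_lit 380) (nat_lit 92147647594) (nat_lit 82) (nat_lit 5) (nat_lit 86) (nat_lit 5) (nat_lit 87) (nat_lit 5) (nat_lit 385) (nat_lit 366) (nat_lit 149)))))) (XT.nd (nat_lit 468) (nat_lit 988) (nat_lit 0) (XT.nd (nat_lit 234) (nat_lit 608) (nat_lit 0) (XT.nd (nat_lit 78) (nat_lit 304) (nat_lit 0) (XT.lf (nat_lit 0) (nat_lit 101908862531) (nat_lit 380) (nat_lit 36312631033) (nat_lit 76) (nat_lit 35538971859) (nat_lit 82) (nat_lit 5) (nat_lit 87) (nat_lit 5) (nat_lit 83) (nat_lit 5) (nat_lit 386) (nat_lit 366) (nat_lit 148)) (XT.nd (nat_lit 78) (nat_lit 0) (nat_lit 0) (XT.lf (nat_lit 0) (nat_lit 58653777708) (nat_lit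 304) (nat_lit 71198935839) (nat_lit 380) (nat_lit 49005483221) (nat_lit 78) (nat_lit 5) (nat_lit 82) (nat_lit 5) (nat_lit 83) (nat_lit 5) (nat_lit 387) (nat_lit 366) (nat_lit 147)) (XT.lf (nat_lit 0) (nat_lit 159628992744) (nat_lit 304) (nat_lit 179565271) (nat_lit 380) (nat_lit 24371516741) (nat_lit 78) (nat_lit 5) (nat_lit 82) (nat_lit 5) (nat_lit 83) (nat_lit 5) (nat_lit 388) (nat_lit 366) (nat_lit 146)))) (XT.nd (nat_lit 78) (nat_lit 304) (nat_lit 0) (XT.lf (nat_lit 0) (nat_lit 3851619958) (nat_lit 304) (nat_lit 112517887144) (nat_lit 76) (nat_lit 73277108562) (nat_lit 74) (nat_lit 5) (nat_lit 78) (nat_lit 5) (nat_lit 75) (nat_lit 5) (nat_lit 389) (nat_lit 366) (nat_lit 145)) (XT.nd (nat_lit 78) (nat_lit 304) (nat_lit 0) (XT.lf (nat_lit 0) (nat_lit 33092253474) (nat_lit 304) (nat_lit 11030306310) (nat_lit 76) (nat_lit 151222678147) (nat_lit 74) (nat_lit 5) (nat_lit 78) (nat_lit 5) (nat_lit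 75) (nat_lit 5) (nat_lit 390) (nat_lit 366) (nat_lit 144)) (XT.lf (nat_lit 0) (nat_lit 65856352983) (nat_lit 380) (nat_lit 103082357750) (nat_lit 76) (nat_lit 32287008963) (nat_lit 70) (nat_lit 5) (nat_lit 75) (nat_lit 5) (nat_lit 71) (nat_lit 5) (nat_lit 391) (nat_lit 366) (nat_lit 143))))) (XT.nd (nat_lit 234) (nat_lit 532) (nat_lit 0) (XT.nd (nat_lit 78) (nat_lit 228) (nat_lit 0) (XT.lf (nat_lit 0) (nat_lit 5207876545) (nat_lit 228) (nat_lit 96045126825) (nat_lit 304) (nat_lit 106097504980) (nat_lit 67) (nat_lit 5) (nat_lit 70) (nat_lit 5) (nat_lit 71) (nat_lit 5) (nat_lit 392) (nat_lit 366) (nat_lit 142)) (XT.nd (nat_lit 78) (nat_lit 228) (nat_lit 0) (XT.lf (nat_lit 0) (nat_lit 122491211890) (nat_lit 228) (nat_lit 17673877840) (nat_lit 304) (nat_lit 73529166624) (nat_lit 67) (nat_lit 5) (nat_lit 70) (nat_lit 5) (nat_lit 71) (nat_lit 5) (nat_lit 393) (nat_lit 366) (nat_lit 141)) (XT.lf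 (nat_lit 0) (nat_lit 25077116525) (nat_lit 228) (nat_lit 157345883804) (nat_lit 304) (nat_lit 37862180519) (nat_lit 64) (nat_lit 5) (nat_lit 67) (nat_lit 5) (nat_lit 68) (nat_lit 5) (nat_lit 394) (nat_lit 366) (nat_lit 140)))) (XT.nd (nat_lit 156) (nat_lit 228) (nat_lit 0) (XT.nd (nat_lit 78) (nat_lit 228) (nat_lit 0) (XT.lf (nat_lit 0) (nat_lit 1460822090) (nat_lit 304) (nat_lit 77099596059) (nat_lit 76) (nat_lit 148552580721) (nat_lit 63) (nat_lit 5) (nat_lit 67) (nat_lit 5) (nat_lit 64) (nat_lit 5) (nat_lit 395) (nat_lit 366) (nat_lit 139)) (XT.lf (nat_lit 0) (nat_lit 42311524923) (nat_lit 304) (nat_lit 186477190951) (nat_lit 76) (nat_lit 5420759037) (nat_lit 60) (nat_lit 5) (nat_lit 64) (nat_lit 5) (nat_lit 61) (nat_lit 5) (nat_lit 396) (nat_lit 366) (nat_lit 138))) (XT.nd (nat_lit 78) (nat_lit 228) (nat_lit 0) (XT.lf (nat_lit 0) (nat_lit 87819633376) (nat_lit 304) (nat_lit 61422476968)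 (nat_lit 76) (nat_lit 92287920957) (nat_lit 60) (nat_lit 5) (nat_lit 64) (nat_lit 5) (nat_lit 61) (nat_lit 5) (nat_lit 397) (nat_lit 366) (nat_lit 137)) (XT.lf (nat_lit 0) (nat_lit 72195499482) (nat_lit 228) (nat_lit 64534698582) (nat_lit 304) (nat_lit 112430064975) (nat_lit 57) (nat_lit 5) (nat_lit 60) (nat_lit 5) (nat_lit 61) (nat_lit 5) (nat_lit 398) (nat_lit 366) (nat_lit 136))))))))
noncomputable def xc236 : XT := (XT.nd (nat_lit 1872) (nat_lit 76) (nat_lit 0) (XT.nd (nat_lit 936) (nat_lit 988) (nat_lit 0) (XT.nd (nat_lit 468) (nat_lit 532) (nat_lit 0) (XT.nd (nat_lit 234) (nat_lit 380) (nat_lit 0) (XT.nd (nat_lit 78) (nat_lit 228) (nat_lit 0) (XT.lf (nat_lit 0) (nat_lit 189524520675) (nat_lit 304) (nat_lit 42891484663) (nat_lit 76) (nat_lit 24684089605) (nat_lit 57) (nat_lit 5) (nat_lit 61) (nat_lit 5) (nat_lit 58) (nat_lit 5) (nat_lit 399) (nat_lit 366) (nat_lit 135)) (XT.nd (nat_lit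 78) (nat_lit 76) (nat_lit 0) (XT.lf (nat_lit 0) (nat_lit 100028887720) (nat_lit 152) (nat_lit 147549233557) (nat_lit 228) (nat_lit 17727819134) (nat_lit 55) (nat_lit 5) (nat_lit 57) (nat_lit 5) (nat_lit 58) (nat_lit 5) (nat_lit 400) (nat_lit 366) (nat_lit 134)) (XT.lf (nat_lit 0) (nat_lit 34242694924) (nat_lit 228) (nat_lit 22853862620) (nat_lit 76) (nat_lit 216761591811) (nat_lit 54) (nat_lit 5) (nat_lit 57) (nat_lit 5) (nat_lit 55) (nat_lit 5) (nat_lit 401) (nat_lit 366) (nat_lit 133)))) (XT.nd (nat_lit 78) (nat_lit 152) (nat_lit 0) (XT.lf (nat_lit 0) (nat_lit 90884137879) (nat_lit 304) (nat_lit 152772040724) (nat_lit 76) (nat_lit 39033850488) (nat_lit 51) (nat_lit 5) (nat_lit 55) (nat_lit 5) (nat_lit 52) (nat_lit 5) (nat_lit 402) (nat_lit 366) (nat_lit 132)) (XT.nd (nat_lit 78) (nat_lit 152) (nat_lit 0) (XT.lf (nat_lit 0) (nat_lit 151686941099) (nat_lit 304) (nat_lit 1764806598) (nat_lit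 76) (nat_lit 138445290762) (nat_lit 51) (nat_lit 5) (nat_lit 55) (nat_lit 5) (nat_lit 52) (nat_lit 5) (nat_lit 403) (nat_lit 366) (nat_lit 131)) (XT.lf (nat_lit 0) (nat_lit 161976901475) (nat_lit 152) (nat_lit 56081794297) (nat_lit 228) (nat_lit 83379262006) (nat_lit 49) (nat_lit 5) (nat_lit 51) (nat_lit 5) (nat_lit 52) (nat_lit 5) (nat_lit 404) (nat_lit 366) (nat_lit 130))))) (XT.nd (nat_lit 234) (nat_lit 152) (nat_lit 0) (XT.nd (nat_lit 78) (nat_lit 228) (nat_lit 0) (XT.lf (nat_lit 0) (nat_lit 22511767073) (nat_lit 152) (nat_lit 266339654883) (nat_lit 228) (nat_lit 22549381966) (nat_lit 47) (nat_lit 5) (nat_lit 49) (nat_lit 5) (nat_lit 50) (nat_lit 5) (nat_lit 405) (nat_lit 366) (nat_lit 129)) (XT.nd (nat_lit 78) (nat_lit 152) (nat_lit 0) (XT.lf (nat_lit 0) (nat_lit 43319263181) (nat_lit 228) (nat_lit 125922102690) (nat_lit 76) (nat_lit 152422177292) (nat_lit 46) (nat_lit 5) (nat_lit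 49) (nat_lit 5) (nat_lit 47) (nat_lit 5) (nat_lit 406) (nat_lit 366) (nat_lit 128)) (XT.lf (nat_lit 0) (nat_lit 46305424223) (nat_lit 152) (nat_lit 66140971536) (nat_lit 228) (nat_lit 219938397434) (nat_lit 44) (nat_lit 5) (nat_lit 46) (nat_lit 5) (nat_lit 47) (nat_lit 5) (nat_lit 407) (nat_lit 366) (nat_lit 127)))) (XT.nd (nat_lit 78) (nat_lit 152) (nat_lit 0) (XT.lf (nat_lit 0) (nat_lit 187854827102) (nat_lit 228) (nat_lit 112712059910) (nat_lit 76) (nat_lit 42933971642) (nat_lit 44) (nat_lit 5) (nat_lit 47) (nat_lit 5) (nat_lit 45) (nat_lit 5) (nat_lit 408) (nat_lit 366) (nat_lit 126)) (XT.nd (nat_lit 78) (nat_lit 0) (nat_lit 0) (XT.lf (nat_lit 0) (nat_lit 70495483553) (nat_lit 152) (nat_lit 198723017276) (nat_lit 228) (nat_lit 85844985555) (nat_lit 42) (nat_lit 5) (nat_lit 44) (nat_lit 5) (nat_lit 45) (nat_lit 5) (nat_lit 409) (nat_lit 366) (nat_lit 125)) (XT.lf (nat_lit 0) (nat_lit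 266776366241) (nat_lit 152) (nat_lit 89782737785) (nat_lit 228) (nat_lit 10549704219) (nat_lit 42) (nat_lit 5) (nat_lit 44) (nat_lit 5) (nat_lit 45) (nat_lit 5) (nat_lit 410) (nat_lit 366) (nat_lit 124)))))) (XT.nd (nat_lit 468) (nat_lit 456) (nat_lit 0) (XT.nd (nat_lit 234) (nat_lit 152) (nat_lit 0) (XT.nd (nat_lit 78) (nat_lit 152) (nat_lit 0) (XT.lf (nat_lit 0) (nat_lit 68228114254) (nat_lit 228) (nat_lit 284966162884) (nat_lit 76) (nat_lit 26413110579) (nat_lit 39) (nat_lit 5) (nat_lit 42) (nat_lit 5) (nat_lit 40) (nat_lit 5) (nat_lit 411) (nat_lit 366) (nat_lit 123)) (XT.nd (nat_lit 78) (nat_lit 152) (nat_lit 0) (XT.lf (nat_lit 0) (nat_lit 153789082654) (nat_lit 228) (nat_lit 91471838937) (nat_lit 76) (nat_lit 147301387390) (nat_lit 39) (nat_lit 5) (nat_lit 42) (nat_lit 5) (nat_lit 40) (nat_lit 5) (nat_lit 412) (nat_lit 366) (nat_lit 122)) (XT.lf (nat_lit 0) (nat_lit 115390274399)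 (nat_lit 152) (nat_lit 130039310872) (nat_lit 228) (nat_lit 160645316776) (nat_lit 37) (nat_lit 5) (nat_lit 39) (nat_lit 5) (nat_lit 40) (nat_lit 5) (nat_lit 413) (nat_lit 366) (nat_lit 121)))) (XT.nd (nat_lit 78) (nat_lit 152) (nat_lit 0) (XT.lf (nat_lit 0) (nat_lit 335771055085) (nat_lit 152) (nat_lit 7430099727) (nat_lit 228) (nat_lit 76984517892) (nat_lit 37) (nat_lit 5) (nat_lit 39) (nat_lit 5) (nat_lit 40) (nat_lit 5) (nat_lit 414) (nat_lit 366) (nat_lit 120)) (XT.nd (nat_lit 78) (nat_lit 0) (nat_lit 0) (XT.lf (nat_lit 0) (nat_lit 14572361826) (nat_lit 152) (nat_lit 300455011805) (nat_lit 76) (nat_lit 119763100716) (nat_lit 35) (nat_lit 5) (nat_lit 37) (nat_lit 5) (nat_lit 36) (nat_lit 5) (nat_lit 415) (nat_lit 366) (nat_lit 119)) (XT.lf (nat_lit 0) (nat_lit 109694669494) (nat_lit 152) (nat_lit 84507717564) (nat_lit 76) (nat_lit 255781288543) (nat_lit 35) (nat_lit 5) (nat_lit 37)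 (nat_lit 5) (nat_lit 36) (nat_lit 5) (nat_lit 416) (nat_lit 366) (nat_lit 118))))) (XT.nd (nat_lit 234) (nat_lit 228) (nat_lit 0) (XT.nd (nat_lit 78) (nat_lit 76) (nat_lit 0) (XT.lf (nat_lit 0) (nat_lit 146939808205) (nat_lit 152) (nat_lit 64927355277) (nat_lit 228) (nat_lit 253954669912) (nat_lit 33) (nat_lit 5) (nat_lit 35) (nat_lit 5) (nat_lit 36) (nat_lit 5) (nat_lit 417) (nat_lit 366) (nat_lit 117)) (XT.nd (nat_lit 78) (nat_lit 76) (nat_lit 0) (XT.lf (nat_lit 0) (nat_lit 321708417436) (nat_lit 228) (nat_lit 90615864899) (nat_lit 76) (nat_lit 69999609999) (nat_lit 33) (nat_lit 5) (nat_lit 36) (nat_lit 5) (nat_lit 34) (nat_lit 4) (nat_lit 418) (nat_lit 366) (nat_lit 116)) (XT.lf (nat_lit 0) (nat_lit 152892619792) (nat_lit 76) (nat_lit 287600512192) (nat_lit 152) (nat_lit 58985352364) (nat_lit 32) (nat_lit 5) (nat_lit 33) (nat_lit 5) (nat_lit 34) (nat_lit 4) (nat_lit 419) (nat_lit 366)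 (nat_lit 115)))) (XT.nd (nat_lit 78) (nat_lit 152) (nat_lit 0) (XT.lf (nat_lit 0) (nat_lit 47758451696) (nat_lit 152) (nat_lit 106461986256) (nat_lit 76) (nat_lit 363155125266) (nat_lit 31) (nat_lit 5) (nat_lit 33) (nat_lit 5) (nat_lit 32) (nat_lit 5) (nat_lit 420) (nat_lit 366) (nat_lit 114)) (XT.nd (nat_lit 78) (nat_lit 0) (nat_lit 0) (XT.lf (nat_lit 0) (nat_lit 149485467471) (nat_lit 152) (nat_lit 10705507147) (nat_lit 228) (nat_lit 375811481618) (nat_lit 29) (nat_lit 5) (nat_lit 31) (nat_lit 5) (nat_lit 32) (nat_lit 5) (nat_lit 421) (nat_lit 366) (nat_lit 113)) (XT.lf (nat_lit 0) (nat_lit 282263163605) (nat_lit 228) (nat_lit 135759363481) (nat_lit 76) (nat_lit 137337264838) (nat_lit 29) (nat_lit 5) (nat_lit 32) (nat_lit 5) (nat_lit 30) (nat_lit 4) (nat_lit 422) (nat_lit 366) (nat_lit 112))))))) (XT.nd (nat_lit 43368) (nat_lit 0) (nat_lit 3496) (XT.nd (nat_lit 42900) (nat_lit 0) (nat_lit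 6080) (XT.nd (nat_lit 42666) (nat_lit 0) (nat_lit 6004) (XT.nd (nat_lit 42510) (nat_lit 0) (nat_lit 5928) (XT.lf (nat_lit 0) (nat_lit 131571648289) (nat_lit 76) (nat_lit 281096955758) (nat_lit 152) (nat_lit 162904908265) (nat_lit 28) (nat_lit 5) (nat_lit 29) (nat_lit 5) (nat_lit 30) (nat_lit 4) (nat_lit 423) (nat_lit 366) (nat_lit 111)) (XT.nd (nat_lit 78) (nat_lit 0) (nat_lit 0) (XT.lf (nat_lit 0) (nat_lit 9173233525) (nat_lit 836) (nat_lit 22171824410) (nat_lit 836) (nat_lit 22171824410) (nat_lit 106) (nat_lit 3) (nat_lit 117) (nat_lit 3) (nat_lit 117) (nat_lit 5) (nat_lit 367) (nat_lit 367) (nat_lit 166)) (XT.lf (nat_lit 76) (nat_lit 7020665484) (nat_lit 0) (nat_lit 11899616380) (nat_lit 836) (nat_lit 90783564489) (nat_lit 107) (nat_lit 5) (nat_lit 106) (nat_lit 3) (nat_lit 117) (nat_lit 5) (nat_lit 368) (nat_lit 367) (nat_lit 165)))) (XT.nd (nat_lit 78) (nat_lit 0) (nat_lit 0) (XT.lf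 (nat_lit 0) (nat_lit 20932569400) (nat_lit 760) (nat_lit 50636545416) (nat_lit 836) (nat_lit 40867828486) (nat_lit 107) (nat_lit 5) (nat_lit 117) (nat_lit 5) (nat_lit 118) (nat_lit 5) (nat_lit 369) (nat_lit 367) (nat_lit 164)) (XT.nd (nat_lit 78) (nat_lit 0) (nat_lit 76) (XT.lf (nat_lit 76) (nat_lit 3943354977) (nat_lit 0) (nat_lit 19358420635) (nat_lit 836) (nat_lit 91992104566) (nat_lit 108) (nat_lit 5) (nat_lit 107) (nat_lit 5) (nat_lit 118) (nat_lit 5) (nat_lit 370) (nat_lit 367) (nat_lit 163)) (XT.lf (nat_lit 0) (nat_lit 27214405362) (nat_lit 760) (nat_lit 55808499720) (nat_lit 836) (nat_lit 35199510932) (nat_lit 108) (nat_lit 5) (nat_lit 118) (nat_lit 5) (nat_lit 119) (nat_lit 5) (nat_lit 371) (nat_lit 367) (nat_lit 162))))) (XT.nd (nat_lit 234) (nat_lit 0) (nat_lit 152) (XT.nd (nat_lit 78) (nat_lit 0) (nat_lit 76) (XT.lf (nat_lit 76) (nat_lit 2265580645) (nat_lit 0) (nat_lit 29409501308)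 (nat_lit 836) (nat_lit 89604676187) (nat_lit 109) (nat_lit 5) (nat_lit 108) (nat_lit 5) (nat_lit 119) (nat_lit 5) (nat_lit 372) (nat_lit 367) (nat_lit 161)) (XT.nd (nat_lit 78) (nat_lit 0) (nat_lit 0) (XT.lf (nat_lit 0) (nat_lit 37738879039) (nat_lit 760) (nat_lit 59697258854) (nat_lit 836) (nat_lit 26984825398) (nat_lit 109) (nat_lit 5) (nat_lit 119) (nat_lit 5) (nat_lit 120) (nat_lit 5) (nat_lit 373) (nat_lit 367) (nat_lit 160)) (XT.lf (nat_lit 76) (nat_lit 2172712531) (nat_lit 0) (nat_lit 42448917629) (nat_lit 836) (nat_lit 83071810572) (nat_lit 110) (nat_lit 5) (nat_lit 109) (nat_lit 5) (nat_lit 120) (nat_lit 5) (nat_lit 374) (nat_lit 367) (nat_lit 159)))) (XT.nd (nat_lit 78) (nat_lit 0) (nat_lit 0) (XT.lf (nat_lit 0) (nat_lit 53114508092) (nat_lit 760) (nat_lit 62125734458) (nat_lit 836) (nat_lit 15826000261) (nat_lit 110) (nat_lit 5) (nat_lit 120) (nat_lit 5) (nat_lit 121) (nat_lit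 5) (nat_lit 375) (nat_lit 367) (nat_lit 158)) (XT.nd (nat_lit 78) (nat_lit 0) (nat_lit 76) (XT.lf (nat_lit 76) (nat_lit 3866671326) (nat_lit 0) (nat_lit 58921355126) (nat_lit 836) (nat_lit 71781858936) (nat_lit 111) (nat_lit 5) (nat_lit 110) (nat_lit 5) (nat_lit 121) (nat_lit 5) (nat_lit 376) (nat_lit 367) (nat_lit 157)) (XT.lf (nat_lit 0) (nat_lit 74017683768) (nat_lit 760) (nat_lit 62901343199) (nat_lit 76) (nat_lit 1276060181) (nat_lit 111) (nat_lit 5) (nat_lit 121) (nat_lit 5) (nat_lit 112) (nat_lit 5) (nat_lit 377) (nat_lit 367) (nat_lit 156)))))) (XT.nd (nat_lit 468) (nat_lit 1292) (nat_lit 0) (XT.nd (nat_lit 234) (nat_lit 380) (nat_lit 0) (XT.nd (nat_lit 78) (nat_lit 380) (nat_lit 0) (XT.lf (nat_lit 0) (nat_lit 7566667293) (nat_lit 760) (nat_lit 79325981843) (nat_lit 836) (nat_lit 55054708801) (nat_lit 101) (nat_lit 5) (nat_lit 111) (nat_lit 5) (nat_lit 112) (nat_lit 5) (nat_lit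 378) (nat_lit 367) (nat_lit 155)) (XT.nd (nat_lit 78) (nat_lit 380) (nat_lit 0) (XT.lf (nat_lit 0) (nat_lit 83741663642) (nat_lit 760) (nat_lit 17734736245) (nat_lit 836) (nat_lit 44357590710) (nat_lit 101) (nat_lit 5) (nat_lit 111) (nat_lit 5) (nat_lit 112) (nat_lit 5) (nat_lit 379) (nat_lit 367) (nat_lit 154)) (XT.lf (nat_lit 0) (nat_lit 13509841895) (nat_lit 380) (nat_lit 104223009958) (nat_lit 456) (nat_lit 32134927531) (nat_lit 96) (nat_lit 5) (nat_lit 101) (nat_lit 5) (nat_lit 102) (nat_lit 5) (nat_lit 380) (nat_lit 367) (nat_lit 153)))) (XT.nd (nat_lit 78) (nat_lit 380) (nat_lit 0) (XT.lf (nat_lit 0) (nat_lit 94747272882) (nat_lit 380) (nat_lit 41392251941) (nat_lit 456) (nat_lit 17896863040) (nat_lit 96) (nat_lit 5) (nat_lit 101) (nat_lit 5) (nat_lit 102) (nat_lit 5) (nat_lit 381) (nat_lit 367) (nat_lit 152)) (XT.nd (nat_lit 78) (nat_lit 76) (nat_lit 0) (XT.lf (nat_lit 0) (nat_lit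 21951773354) (nat_lit 304) (nat_lit 134241050858) (nat_lit 380) (nat_lit 2184288079) (nat_lit 92) (nat_lit 5) (nat_lit 96) (nat_lit 5) (nat_lit 97) (nat_lit 5) (nat_lit 382) (nat_lit 367) (nat_lit 151)) (XT.lf (nat_lit 0) (nat_lit 15554696497) (nat_lit 380) (nat_lit 54490289563) (nat_lit 76) (nat_lit 92793767233) (nat_lit 91) (nat_lit 5) (nat_lit 96) (nat_lit 5) (nat_lit 92) (nat_lit 5) (nat_lit 383) (nat_lit 367) (nat_lit 150))))) (XT.nd (nat_lit 234) (nat_lit 608) (nat_lit 0) (XT.nd (nat_lit 78) (nat_lit 304) (nat_lit 0) (XT.lf (nat_lit 0) (nat_lit 32547219436) (nat_lit 380) (nat_lit 2067970832) (nat_lit 456) (nat_lit 132881097500) (nat_lit 86) (nat_lit 5) (nat_lit 91) (nat_lit 5) (nat_lit 92) (nat_lit 5) (nat_lit 384) (nat_lit 367) (nat_lit 149)) (XT.nd (nat_lit 78) (nat_lit 304) (nat_lit 0) (XT.lf (nat_lit 0) (nat_lit 56648565486) (nat_lit 456) (nat_lit 47609597836) (nat_lit 76) (nat_lit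 68027542940) (nat_lit 86) (nat_lit 5) (nat_lit 92) (nat_lit 5) (nat_lit 87) (nat_lit 5) (nat_lit 385) (nat_lit 367) (nat_lit 148)) (XT.lf (nat_lit 0) (nat_lit 45519663413) (nat_lit 304) (nat_lit 35008364034) (nat_lit 380) (nat_lit 96749347463) (nat_lit 82) (nat_lit 5) (nat_lit 86) (nat_lit 5) (nat_lit 87) (nat_lit 5) (nat_lit 386) (nat_lit 367) (nat_lit 147)))) (XT.nd (nat_lit 156) (nat_lit 304) (nat_lit 0) (XT.nd (nat_lit 78) (nat_lit 304) (nat_lit 0) (XT.lf (nat_lit 0) (nat_lit 107009468065) (nat_lit 380) (nat_lit 38122108868) (nat_lit 76) (nat_lit 37316649900) (nat_lit 82) (nat_lit 5) (nat_lit 87) (nat_lit 5) (nat_lit 83) (nat_lit 5) (nat_lit 387) (nat_lit 367) (nat_lit 146)) (XT.lf (nat_lit 0) (nat_lit 61592521057) (nat_lit 304) (nat_lit 74757839273) (nat_lit 380) (nat_lit 51450492158) (nat_lit 78) (nat_lit 5) (nat_lit 82) (nat_lit 5) (nat_lit 83) (nat_lit 5) (nat_lit 388) (nat_lit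 367) (nat_lit 145))) (XT.nd (nat_lit 78) (nat_lit 304) (nat_lit 0) (XT.lf (nat_lit 0) (nat_lit 167616208537) (nat_lit 304) (nat_lit 187549860) (nat_lit 380) (nat_lit 25585078080) (nat_lit 78) (nat_lit 5) (nat_lit 82) (nat_lit 5) (nat_lit 83) (nat_lit 5) (nat_lit 389) (nat_lit 367) (nat_lit 144)) (XT.lf (nat_lit 0) (nat_lit 4048932396) (nat_lit 304) (nat_lit 118137725977) (nat_lit 76) (nat_lit 76942048423) (nat_lit 74) (nat_lit 5) (nat_lit 78) (nat_lit 5) (nat_lit 75) (nat_lit 5) (nat_lit 390) (nat_lit 367) (nat_lit 143))))))))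
noncomputable def xc237 : XT := (XT.nd (nat_lit 1950) (nat_lit 608) (nat_lit 0) (XT.nd (nat_lit 936) (nat_lit 1292) (nat_lit 0) (XT.nd (nat_lit 468) (nat_lit 684) (nat_lit 0) (XT.nd (nat_lit 234) (nat_lit 304) (nat_lit 0) (XT.nd (nat_lit 78) (nat_lit 532) (nat_lit 0) (XT.lf (nat_lit 0) (nat_lit 34751372281) (nat_lit 304) (nat_lit 11576054460) (nat_lit 76) (nat_lit 158784844849) (nat_lit 74) (nat_lit 5) (nat_lit 78) (nat_lit 5) (nat_lit 75) (nat_lit 5) (nat_lit 391) (nat_lit 367) (nat_lit 142)) (XT.nd (nat_lit 78) (nat_lit 228) (nat_lit 0) (XT.lf (nat_lit 0) (nat_lit 69153570980) (nat_lit 380) (nat_lit 108230599895) (nat_lit 76) (nat_lit 33902611996) (nat_lit 70) (nat_lit 5) (nat_lit 75) (nat_lit 5) (nat_lit 71) (nat_lit 5) (nat_lit 392) (nat_lit 367) (nat_lit 141)) (XT.lf (nat_lit 0) (nat_lit 5474051345) (nat_lit 228) (nat_lit 100845883259) (nat_lit 304) (nat_lit 111397882452) (nat_lit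 67) (nat_lit 5) (nat_lit 70) (nat_lit 5) (nat_lit 71) (nat_lit 5) (nat_lit 393) (nat_lit 367) (nat_lit 140)))) (XT.nd (nat_lit 78) (nat_lit 304) (nat_lit 0) (XT.lf (nat_lit 0) (nat_lit 128621278173) (nat_lit 228) (nat_lit 18556143248) (nat_lit 304) (nat_lit 77201341358) (nat_lit 67) (nat_lit 5) (nat_lit 70) (nat_lit 5) (nat_lit 71) (nat_lit 5) (nat_lit 394) (nat_lit 367) (nat_lit 139)) (XT.nd (nat_lit 78) (nat_lit 76) (nat_lit 0) (XT.lf (nat_lit 0) (nat_lit 26336570359) (nat_lit 228) (nat_lit 165211571680) (nat_lit 304) (nat_lit 39751095855) (nat_lit 64) (nat_lit 5) (nat_lit 67) (nat_lit 5) (nat_lit 68) (nat_lit 5) (nat_lit 395) (nat_lit 367) (nat_lit 138)) (XT.lf (nat_lit 0) (nat_lit 1537729352) (nat_lit 304) (nat_lit 80949114406) (nat_lit 76) (nat_lit 155981609560) (nat_lit 63) (nat_lit 5) (nat_lit 67) (nat_lit 5) (nat_lit 64) (nat_lit 5) (nat_lit 396) (nat_lit 367) (nat_lit 137)))))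 (XT.nd (nat_lit 234) (nat_lit 228) (nat_lit 0) (XT.nd (nat_lit 78) (nat_lit 228) (nat_lit 0) (XT.lf (nat_lit 0) (nat_lit 44430892214) (nat_lit 304) (nat_lit 195795511846) (nat_lit 76) (nat_lit 5693352961) (nat_lit 60) (nat_lit 5) (nat_lit 64) (nat_lit 5) (nat_lit 61) (nat_lit 5) (nat_lit 397) (nat_lit 367) (nat_lit 136)) (XT.nd (nat_lit 78) (nat_lit 228) (nat_lit 0) (XT.lf (nat_lit 0) (nat_lit 92214225563) (nat_lit 304) (nat_lit 64488325910) (nat_lit 76) (nat_lit 96903798883) (nat_lit 60) (nat_lit 5) (nat_lit 64) (nat_lit 5) (nat_lit 61) (nat_lit 5) (nat_lit 398) (nat_lit 367) (nat_lit 135)) (XT.lf (nat_lit 0) (nat_lit 75810464284) (nat_lit 228) (nat_lit 67759763300) (nat_lit 304) (nat_lit 118047870736) (nat_lit 57) (nat_lit 5) (nat_lit 60) (nat_lit 5) (nat_lit 61) (nat_lit 5) (nat_lit 399) (nat_lit 367) (nat_lit 134)))) (XT.nd (nat_lit 78) (nat_lit 228) (nat_lit 0) (XT.lf (nat_lit 0) (nat_lit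 199004123559) (nat_lit 304) (nat_lit 45030971637) (nat_lit 76) (nat_lit 25919833851) (nat_lit 57) (nat_lit 5) (nat_lit 61) (nat_lit 5) (nat_lit 58) (nat_lit 5) (nat_lit 400) (nat_lit 367) (nat_lit 133)) (XT.nd (nat_lit 78) (nat_lit 76) (nat_lit 0) (XT.lf (nat_lit 0) (nat_lit 105035337312) (nat_lit 152) (nat_lit 154924984223) (nat_lit 228) (nat_lit 18610749473) (nat_lit 55) (nat_lit 5) (nat_lit 57) (nat_lit 5) (nat_lit 58) (nat_lit 5) (nat_lit 401) (nat_lit 367) (nat_lit 132)) (XT.lf (nat_lit 0) (nat_lit 35958020009) (nat_lit 228) (nat_lit 23991681847) (nat_lit 76) (nat_lit 227601193895) (nat_lit 54) (nat_lit 5) (nat_lit 57) (nat_lit 5) (nat_lit 55) (nat_lit 5) (nat_lit 402) (nat_lit 367) (nat_lit 131)))))) (XT.nd (nat_lit 468) (nat_lit 532) (nat_lit 0) (XT.nd (nat_lit 234) (nat_lit 380) (nat_lit 0) (XT.nd (nat_lit 78) (nat_lit 152) (nat_lit 0) (XT.lf (nat_lit 0) (nat_lit 95431484320) (nat_lit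 304) (nat_lit 160405716583) (nat_lit 76) (nat_lit 40987171185) (nat_lit 51) (nat_lit 5) (nat_lit 55) (nat_lit 5) (nat_lit 52) (nat_lit 5) (nat_lit 403) (nat_lit 367) (nat_lit 130)) (XT.nd (nat_lit 78) (nat_lit 152) (nat_lit 0) (XT.lf (nat_lit 0) (nat_lit 159274278199) (nat_lit 304) (nat_lit 1848355331) (nat_lit 76) (nat_lit 145369105940) (nat_lit 51) (nat_lit 5) (nat_lit 55) (nat_lit 5) (nat_lit 52) (nat_lit 5) (nat_lit 404) (nat_lit 367) (nat_lit 129)) (XT.lf (nat_lit 0) (nat_lit 170080362476) (nat_lit 152) (nat_lit 58884187815) (nat_lit 228) (nat_lit 87545158048) (nat_lit 49) (nat_lit 5) (nat_lit 51) (nat_lit 5) (nat_lit 52) (nat_lit 5) (nat_lit 405) (nat_lit 367) (nat_lit 128)))) (XT.nd (nat_lit 78) (nat_lit 228) (nat_lit 0) (XT.lf (nat_lit 0) (nat_lit 23642015801) (nat_lit 152) (nat_lit 279654855931) (nat_lit 228) (nat_lit 23673827174) (nat_lit 47) (nat_lit 5) (nat_lit 49) (nat_lit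 5) (nat_lit 50) (nat_lit 5) (nat_lit 406) (nat_lit 367) (nat_lit 127)) (XT.nd (nat_lit 78) (nat_lit 152) (nat_lit 0) (XT.lf (nat_lit 0) (nat_lit 45488014061) (nat_lit 228) (nat_lit 132213676038) (nat_lit 76) (nat_lit 160044889676) (nat_lit 46) (nat_lit 5) (nat_lit 49) (nat_lit 5) (nat_lit 47) (nat_lit 5) (nat_lit 407) (nat_lit 367) (nat_lit 126)) (XT.lf (nat_lit 0) (nat_lit 48625154127) (nat_lit 152) (nat_lit 69446286005) (nat_lit 228) (nat_lit 230932455387) (nat_lit 44) (nat_lit 5) (nat_lit 46) (nat_lit 5) (nat_lit 47) (nat_lit 5) (nat_lit 408) (nat_lit 367) (nat_lit 125))))) (XT.nd (nat_lit 234) (nat_lit 380) (nat_lit 0) (XT.nd (nat_lit 78) (nat_lit 152) (nat_lit 0) (XT.lf (nat_lit 0) (nat_lit 197250189085) (nat_lit 228) (nat_lit 118343311522) (nat_lit 76) (nat_lit 45082268896) (nat_lit 44) (nat_lit 5) (nat_lit 47) (nat_lit 5) (nat_lit 45) (nat_lit 5) (nat_lit 409) (nat_lit 367) (nat_lit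 124)) (XT.nd (nat_lit 78) (nat_lit 0) (nat_lit 0) (XT.lf (nat_lit 0) (nat_lit 74024538931) (nat_lit 152) (nat_lit 208657449617) (nat_lit 228) (nat_lit 90134543019) (nat_lit 42) (nat_lit 5) (nat_lit 44) (nat_lit 5) (nat_lit 45) (nat_lit 5) (nat_lit 410) (nat_lit 367) (nat_lit 123)) (XT.lf (nat_lit 0) (nat_lit 280119261886) (nat_lit 152) (nat_lit 94270237987) (nat_lit 228) (nat_lit 11074625798) (nat_lit 42) (nat_lit 5) (nat_lit 44) (nat_lit 5) (nat_lit 45) (nat_lit 5) (nat_lit 411) (nat_lit 367) (nat_lit 122)))) (XT.nd (nat_lit 156) (nat_lit 152) (nat_lit 0) (XT.nd (nat_lit 78) (nat_lit 0) (nat_lit 0) (XT.lf (nat_lit 0) (nat_lit 71641973291) (nat_lit 228) (nat_lit 299210281613) (nat_lit 76) (nat_lit 27735378667) (nat_lit 39) (nat_lit 5) (nat_lit 42) (nat_lit 5) (nat_lit 40) (nat_lit 5) (nat_lit 412) (nat_lit 367) (nat_lit 121)) (XT.lf (nat_lit 0) (nat_lit 161480873286) (nat_lit 228) (nat_lit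 96041440965) (nat_lit 76) (nat_lit 154667992530) (nat_lit 39) (nat_lit 5) (nat_lit 42) (nat_lit 5) (nat_lit 40) (nat_lit 5) (nat_lit 413) (nat_lit 367) (nat_lit 120))) (XT.nd (nat_lit 78) (nat_lit 0) (nat_lit 0) (XT.lf (nat_lit 0) (nat_lit 121163713685) (nat_lit 152) (nat_lit 136539637376) (nat_lit 228) (nat_lit 168675180976) (nat_lit 37) (nat_lit 5) (nat_lit 39) (nat_lit 5) (nat_lit 40) (nat_lit 5) (nat_lit 414) (nat_lit 367) (nat_lit 119)) (XT.lf (nat_lit 0) (nat_lit 352563346473) (nat_lit 152) (nat_lit 7800043723) (nat_lit 228) (nat_lit 80831456512) (nat_lit 37) (nat_lit 5) (nat_lit 39) (nat_lit 5) (nat_lit 40) (nat_lit 5) (nat_lit 415) (nat_lit 367) (nat_lit 118))))))) (XT.nd (nat_lit 43524) (nat_lit 0) (nat_lit 4332) (XT.nd (nat_lit 468) (nat_lit 152) (nat_lit 0) (XT.nd (nat_lit 234) (nat_lit 152) (nat_lit 0) (XT.nd (nat_lit 78) (nat_lit 152) (nat_lit 0) (XT.lf (nat_lit 0) (nat_lit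 15303171846) (nat_lit 152) (nat_lit 315473927025) (nat_lit 76) (nat_lit 125752788918) (nat_lit 35) (nat_lit 5) (nat_lit 37) (nat_lit 5) (nat_lit 36) (nat_lit 5) (nat_lit 416) (nat_lit 367) (nat_lit 117)) (XT.nd (nat_lit 78) (nat_lit 152) (nat_lit 0) (XT.lf (nat_lit 0) (nat_lit 115181490520) (nat_lit 152) (nat_lit 88729450708) (nat_lit 76) (nat_lit 268571813129) (nat_lit 35) (nat_lit 5) (nat_lit 37) (nat_lit 5) (nat_lit 36) (nat_lit 5) (nat_lit 417) (nat_lit 367) (nat_lit 116)) (XT.lf (nat_lit 0) (nat_lit 154290392434) (nat_lit 152) (nat_lit 68172173476) (nat_lit 228) (nat_lit 266650256326) (nat_lit 33) (nat_lit 5) (nat_lit 35) (nat_lit 5) (nat_lit 36) (nat_lit 5) (nat_lit 418) (nat_lit 367) (nat_lit 115)))) (XT.nd (nat_lit 78) (nat_lit 152) (nat_lit 0) (XT.lf (nat_lit 0) (nat_lit 337795808257) (nat_lit 228) (nat_lit 95143160570) (nat_lit 76) (nat_lit 73501019041) (nat_lit 33) (nat_lit 5)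 (nat_lit 36) (nat_lit 5) (nat_lit 34) (nat_lit 4) (nat_lit 419) (nat_lit 367) (nat_lit 114)) (XT.nd (nat_lit 78) (nat_lit 76) (nat_lit 0) (XT.lf (nat_lit 0) (nat_lit 160540691943) (nat_lit 76) (nat_lit 301979026508) (nat_lit 152) (nat_lit 61932593063) (nat_lit 32) (nat_lit 5) (nat_lit 33) (nat_lit 5) (nat_lit 34) (nat_lit 4) (nat_lit 420) (nat_lit 367) (nat_lit 113)) (XT.lf (nat_lit 0) (nat_lit 50148242896) (nat_lit 152) (nat_lit 111781745981) (nat_lit 76) (nat_lit 381314258566) (nat_lit 31) (nat_lit 5) (nat_lit 33) (nat_lit 5) (nat_lit 32) (nat_lit 5) (nat_lit 421) (nat_lit 367) (nat_lit 112))))) (XT.nd (nat_lit 42822) (nat_lit 0) (nat_lit 5928) (XT.nd (nat_lit 42666) (nat_lit 0) (nat_lit 5852) (XT.lf (nat_lit 0) (nat_lit 156963026568) (nat_lit 152) (nat_lit 11239327713) (nat_lit 228) (nat_lit 394600132738) (nat_lit 29) (nat_lit 5) (nat_lit 31) (nat_lit 5) (nat_lit 32) (nat_lit 5) (nat_lit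 422) (nat_lit 367) (nat_lit 111)) (XT.nd (nat_lit 78) (nat_lit 0) (nat_lit 0) (XT.lf (nat_lit 0) (nat_lit 9637349566) (nat_lit 836) (nat_lit 23277549726) (nat_lit 836) (nat_lit 23277549726) (nat_lit 106) (nat_lit 3) (nat_lit 117) (nat_lit 3) (nat_lit 117) (nat_lit 5) (nat_lit 368) (nat_lit 368) (nat_lit 164)) (XT.lf (nat_lit 76) (nat_lit 7377338120) (nat_lit 0) (nat_lit 12499435149) (nat_lit 836) (nat_lit 95311732532) (nat_lit 107) (nat_lit 5) (nat_lit 106) (nat_lit 3) (nat_lit 117) (nat_lit 5) (nat_lit 369) (nat_lit 368) (nat_lit 163)))) (XT.nd (nat_lit 78) (nat_lit 0) (nat_lit 0) (XT.lf (nat_lit 0) (nat_lit 21989104326) (nat_lit 760) (nat_lit 53162422435) (nat_lit 836) (nat_lit 42906759809) (nat_lit 107) (nat_lit 5) (nat_lit 117) (nat_lit 5) (nat_lit 118) (nat_lit 5) (nat_lit 370) (nat_lit 368) (nat_lit 162)) (XT.nd (nat_lit 78) (nat_lit 0) (nat_lit 76) (XT.lf (nat_lit 76) (nat_lit 4146377006)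 (nat_lit 0) (nat_lit 20330013507) (nat_lit 836) (nat_lit 96581699200) (nat_lit 108) (nat_lit 5) (nat_lit 107) (nat_lit 5) (nat_lit 118) (nat_lit 5) (nat_lit 371) (nat_lit 368) (nat_lit 161)) (XT.lf (nat_lit 0) (nat_lit 28584143528) (nat_lit 760) (nat_lit 58592833200) (nat_lit 836) (nat_lit 36956101413) (nat_lit 108) (nat_lit 5) (nat_lit 118) (nat_lit 5) (nat_lit 119) (nat_lit 5) (nat_lit 372) (nat_lit 368) (nat_lit 160)))))) (XT.nd (nat_lit 468) (nat_lit 1672) (nat_lit 0) (XT.nd (nat_lit 234) (nat_lit 0) (nat_lit 152) (XT.nd (nat_lit 78) (nat_lit 0) (nat_lit 76) (XT.lf (nat_lit 76) (nat_lit 2384852933) (nat_lit 0) (nat_lit 30882665164) (nat_lit 836) (nat_lit 94075786440) (nat_lit 109) (nat_lit 5) (nat_lit 108) (nat_lit 5) (nat_lit 119) (nat_lit 5) (nat_lit 373) (nat_lit 368) (nat_lit 159)) (XT.nd (nat_lit 78) (nat_lit 0) (nat_lit 0) (XT.lf (nat_lit 0) (nat_lit 39634051626) (nat_lit 760)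 (nat_lit 62675953468) (nat_lit 836) (nat_lit 28331587875) (nat_lit 109) (nat_lit 5) (nat_lit 119) (nat_lit 5) (nat_lit 120) (nat_lit 5) (nat_lit 374) (nat_lit 368) (nat_lit 158)) (XT.lf (nat_lit 76) (nat_lit 2287416997) (nat_lit 0) (nat_lit 44573226218) (nat_lit 836) (nat_lit 87217066258) (nat_lit 110) (nat_lit 5) (nat_lit 109) (nat_lit 5) (nat_lit 120) (nat_lit 5) (nat_lit 375) (nat_lit 368) (nat_lit 157)))) (XT.nd (nat_lit 78) (nat_lit 0) (nat_lit 0) (XT.lf (nat_lit 0) (nat_lit 55777759654) (nat_lit 760) (nat_lit 65225829546) (nat_lit 836) (nat_lit 16615583047) (nat_lit 110) (nat_lit 5) (nat_lit 120) (nat_lit 5) (nat_lit 121) (nat_lit 5) (nat_lit 376) (nat_lit 368) (nat_lit 156)) (XT.nd (nat_lit 78) (nat_lit 0) (nat_lit 76) (XT.lf (nat_lit 76) (nat_lit 4066096663) (nat_lit 0) (nat_lit 61868593989) (nat_lit 836) (nat_lit 75363319767) (nat_lit 111) (nat_lit 5) (nat_lit 110) (nat_lit 5)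 (nat_lit 121) (nat_lit 5) (nat_lit 377) (nat_lit 368) (nat_lit 155)) (XT.lf (nat_lit 0) (nat_lit 77725467569) (nat_lit 760) (nat_lit 66040239604) (nat_lit 76) (nat_lit 1338783548) (nat_lit 111) (nat_lit 5) (nat_lit 121) (nat_lit 5) (nat_lit 112) (nat_lit 5) (nat_lit 378) (nat_lit 368) (nat_lit 154))))) (XT.nd (nat_lit 234) (nat_lit 760) (nat_lit 0) (XT.nd (nat_lit 78) (nat_lit 380) (nat_lit 0) (XT.lf (nat_lit 0) (nat_lit 7951071884) (nat_lit 760) (nat_lit 83292875557) (nat_lit 836) (nat_lit 57800439572) (nat_lit 101) (nat_lit 5) (nat_lit 111) (nat_lit 5) (nat_lit 112) (nat_lit 5) (nat_lit 379) (nat_lit 368) (nat_lit 153)) (XT.nd (nat_lit 78) (nat_lit 380) (nat_lit 0) (XT.lf (nat_lit 0) (nat_lit 87934528945) (nat_lit 760) (nat_lit 18622039363) (nat_lit 836) (nat_lit 46568799132) (nat_lit 101) (nat_lit 5) (nat_lit 111) (nat_lit 5) (nat_lit 112) (nat_lit 5) (nat_lit 380) (nat_lit 368) (nat_lit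 152)) (XT.lf (nat_lit 0) (nat_lit 14191349031) (nat_lit 380) (nat_lit 109434277028) (nat_lit 456) (nat_lit 33735230701) (nat_lit 96) (nat_lit 5) (nat_lit 101) (nat_lit 5) (nat_lit 102) (nat_lit 5) (nat_lit 381) (nat_lit 368) (nat_lit 151)))) (XT.nd (nat_lit 156) (nat_lit 456) (nat_lit 0) (XT.nd (nat_lit 78) (nat_lit 304) (nat_lit 0) (XT.lf (nat_lit 0) (nat_lit 99490365137) (nat_lit 380) (nat_lit 43461975559) (nat_lit 456) (nat_lit 18785569805) (nat_lit 96) (nat_lit 5) (nat_lit 101) (nat_lit 5) (nat_lit 102) (nat_lit 5) (nat_lit 382) (nat_lit 368) (nat_lit 150)) (XT.lf (nat_lit 0) (nat_lit 23055291911) (nat_lit 304) (nat_lit 140952825997) (nat_lit 380) (nat_lit 2287562827) (nat_lit 92) (nat_lit 5) (nat_lit 96) (nat_lit 5) (nat_lit 97) (nat_lit 5) (nat_lit 383) (nat_lit 368) (nat_lit 149))) (XT.nd (nat_lit 78) (nat_lit 380) (nat_lit 0) (XT.lf (nat_lit 0) (nat_lit 16337907084) (nat_lit 380)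 (nat_lit 57208971350) (nat_lit 76) (nat_lit 97433534612) (nat_lit 91) (nat_lit 5) (nat_lit 96) (nat_lit 5) (nat_lit 92) (nat_lit 5) (nat_lit 384) (nat_lit 368) (nat_lit 148)) (XT.lf (nat_lit 0) (nat_lit 34180319024) (nat_lit 380) (nat_lit 2170935365) (nat_lit 456) (nat_lit 139519578608) (nat_lit 86) (nat_lit 5) (nat_lit 91) (nat_lit 5) (nat_lit 92) (nat_lit 5) (nat_lit 385) (nat_lit 368) (nat_lit 147))))))))
noncomputable def xc238 : XT := (XT.nd (nat_lit 1872) (nat_lit 988) (nat_lit 0) (XT.nd (nat_lit 936) (nat_lit 1444) (nat_lit 0) (XT.nd (nat_lit 468) (nat_lit 836) (nat_lit 0) (XT.nd (nat_lit 234) (nat_lit 608) (nat_lit 0) (XT.nd (nat_lit 78) (nat_lit 304) (nat_lit 0) (XT.lf (nat_lit 0) (nat_lit 59486052221) (nat_lit 456) (nat_lit 49984362491) (nat_lit 76) (nat_lit 71429320199) (nat_lit 86) (nat_lit 5) (nat_lit 92) (nat_lit 5) (nat_lit 87) (nat_lit 5) (nat_lit 386) (nat_lit 368) (nat_lit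 146)) (XT.nd (nat_lit 78) (nat_lit 0) (nat_lit 0) (XT.lf (nat_lit 0) (nat_lit 47801269639) (nat_lit 304) (nat_lit 36758064553) (nat_lit 380) (nat_lit 101581660631) (nat_lit 82) (nat_lit 5) (nat_lit 86) (nat_lit 5) (nat_lit 87) (nat_lit 5) (nat_lit 387) (nat_lit 368) (nat_lit 145)) (XT.lf (nat_lit 0) (nat_lit 112364623924) (nat_lit 380) (nat_lit 40022632709) (nat_lit 76) (nat_lit 39183144025) (nat_lit 82) (nat_lit 5) (nat_lit 87) (nat_lit 5) (nat_lit 83) (nat_lit 5) (nat_lit 388) (nat_lit 368) (nat_lit 144)))) (XT.nd (nat_lit 78) (nat_lit 304) (nat_lit 0) (XT.lf (nat_lit 0) (nat_lit 64677638686) (nat_lit 304) (nat_lit 78494784881) (nat_lit 380) (nat_lit 54018241053) (nat_lit 78) (nat_lit 5) (nat_lit 82) (nat_lit 5) (nat_lit 83) (nat_lit 5) (nat_lit 389) (nat_lit 368) (nat_lit 143)) (XT.nd (nat_lit 78) (nat_lit 304) (nat_lit 0) (XT.lf (nat_lit 0) (nat_lit 176002249036) (nat_lit 304) (nat_lit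 196026062) (nat_lit 380) (nat_lit 26859783685) (nat_lit 78) (nat_lit 5) (nat_lit 82) (nat_lit 5) (nat_lit 83) (nat_lit 5) (nat_lit 390) (nat_lit 368) (nat_lit 142)) (XT.lf (nat_lit 0) (nat_lit 4255670572) (nat_lit 304) (nat_lit 124039119738) (nat_lit 76) (nat_lit 80790134458) (nat_lit 74) (nat_lit 5) (nat_lit 78) (nat_lit 5) (nat_lit 75) (nat_lit 5) (nat_lit 391) (nat_lit 368) (nat_lit 141))))) (XT.nd (nat_lit 234) (nat_lit 304) (nat_lit 0) (XT.nd (nat_lit 78) (nat_lit 532) (nat_lit 0) (XT.lf (nat_lit 0) (nat_lit 36493028091) (nat_lit 304) (nat_lit 12149626194) (nat_lit 76) (nat_lit 166725023865) (nat_lit 74) (nat_lit 5) (nat_lit 78) (nat_lit 5) (nat_lit 75) (nat_lit 5) (nat_lit 392) (nat_lit 368) (nat_lit 140)) (XT.nd (nat_lit 78) (nat_lit 228) (nat_lit 0) (XT.lf (nat_lit 0) (nat_lit 72615240775) (nat_lit 380) (nat_lit 113636800418) (nat_lit 76) (nat_lit 35598878728) (nat_lit 70) (nat_lit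 5) (nat_lit 75) (nat_lit 5) (nat_lit 71) (nat_lit 5) (nat_lit 393) (nat_lit 368) (nat_lit 139)) (XT.lf (nat_lit 0) (nat_lit 5752997425) (nat_lit 228) (nat_lit 105886816961) (nat_lit 304) (nat_lit 116963696958) (nat_lit 67) (nat_lit 5) (nat_lit 70) (nat_lit 5) (nat_lit 71) (nat_lit 5) (nat_lit 394) (nat_lit 368) (nat_lit 138)))) (XT.nd (nat_lit 78) (nat_lit 304) (nat_lit 0) (XT.lf (nat_lit 0) (nat_lit 135057335903) (nat_lit 228) (nat_lit 19482654734) (nat_lit 304) (nat_lit 81057523077) (nat_lit 67) (nat_lit 5) (nat_lit 70) (nat_lit 5) (nat_lit 71) (nat_lit 5) (nat_lit 395) (nat_lit 368) (nat_lit 137)) (XT.nd (nat_lit 78) (nat_lit 76) (nat_lit 0) (XT.lf (nat_lit 0) (nat_lit 27658476435) (nat_lit 228) (nat_lit 173470693289) (nat_lit 304) (nat_lit 41734846848) (nat_lit 64) (nat_lit 5) (nat_lit 67) (nat_lit 5) (nat_lit 68) (nat_lit 5) (nat_lit 396) (nat_lit 368) (nat_lit 136)) (XT.lf (nat_lit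 0) (nat_lit 1618122538) (nat_lit 304) (nat_lit 84991616425) (nat_lit 76) (nat_lit 163781959701) (nat_lit 63) (nat_lit 5) (nat_lit 67) (nat_lit 5) (nat_lit 64) (nat_lit 5) (nat_lit 397) (nat_lit 368) (nat_lit 135)))))) (XT.nd (nat_lit 468) (nat_lit 760) (nat_lit 0) (XT.nd (nat_lit 234) (nat_lit 228) (nat_lit 0) (XT.nd (nat_lit 78) (nat_lit 228) (nat_lit 0) (XT.lf (nat_lit 0) (nat_lit 46655875414) (nat_lit 304) (nat_lit 205580263718) (nat_lit 76) (nat_lit 5979431922) (nat_lit 60) (nat_lit 5) (nat_lit 64) (nat_lit 5) (nat_lit 61) (nat_lit 5) (nat_lit 398) (nat_lit 368) (nat_lit 134)) (XT.nd (nat_lit 78) (nat_lit 228) (nat_lit 0) (XT.lf (nat_lit 0) (nat_lit 96828211688) (nat_lit 304) (nat_lit 67707957710) (nat_lit 76) (nat_lit 101750332935) (nat_lit 60) (nat_lit 5) (nat_lit 64) (nat_lit 5) (nat_lit 61) (nat_lit 5) (nat_lit 399) (nat_lit 368) (nat_lit 133)) (XT.lf (nat_lit 0) (nat_lit 79605694825)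 (nat_lit 228) (nat_lit 71146236535) (nat_lit 304) (nat_lit 123946910543) (nat_lit 57) (nat_lit 5) (nat_lit 60) (nat_lit 5) (nat_lit 61) (nat_lit 5) (nat_lit 400) (nat_lit 368) (nat_lit 132)))) (XT.nd (nat_lit 78) (nat_lit 228) (nat_lit 0) (XT.lf (nat_lit 0) (nat_lit 208957392641) (nat_lit 304) (nat_lit 47277905926) (nat_lit 76) (nat_lit 27217222157) (nat_lit 57) (nat_lit 5) (nat_lit 61) (nat_lit 5) (nat_lit 58) (nat_lit 5) (nat_lit 401) (nat_lit 368) (nat_lit 131)) (XT.nd (nat_lit 78) (nat_lit 76) (nat_lit 0) (XT.lf (nat_lit 0) (nat_lit 110291644047) (nat_lit 152) (nat_lit 162669681496) (nat_lit 228) (nat_lit 19538148065) (nat_lit 55) (nat_lit 5) (nat_lit 57) (nat_lit 5) (nat_lit 58) (nat_lit 5) (nat_lit 402) (nat_lit 368) (nat_lit 130)) (XT.lf (nat_lit 0) (nat_lit 37758814741) (nat_lit 228) (nat_lit 25186845164) (nat_lit 76) (nat_lit 238982634537) (nat_lit 54) (nat_lit 5) (nat_lit 57)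 (nat_lit 5) (nat_lit 55) (nat_lit 5) (nat_lit 403) (nat_lit 368) (nat_lit 129))))) (XT.nd (nat_lit 234) (nat_lit 380) (nat_lit 0) (XT.nd (nat_lit 78) (nat_lit 152) (nat_lit 0) (XT.lf (nat_lit 0) (nat_lit 100205906197) (nat_lit 304) (nat_lit 168421534224) (nat_lit 76) (nat_lit 43038006545) (nat_lit 51) (nat_lit 5) (nat_lit 55) (nat_lit 5) (nat_lit 52) (nat_lit 5) (nat_lit 404) (nat_lit 368) (nat_lit 128)) (XT.nd (nat_lit 78) (nat_lit 152) (nat_lit 0) (XT.lf (nat_lit 0) (nat_lit 167240704167) (nat_lit 304) (nat_lit 1936517681) (nat_lit 76) (nat_lit 152638967713) (nat_lit 51) (nat_lit 5) (nat_lit 55) (nat_lit 5) (nat_lit 52) (nat_lit 5) (nat_lit 405) (nat_lit 368) (nat_lit 127)) (XT.lf (nat_lit 0) (nat_lit 178588567381) (nat_lit 152) (nat_lit 61826858705) (nat_lit 228) (nat_lit 91919634038) (nat_lit 49) (nat_lit 5) (nat_lit 51) (nat_lit 5) (nat_lit 52) (nat_lit 5) (nat_lit 406) (nat_lit 368)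 (nat_lit 126)))) (XT.nd (nat_lit 78) (nat_lit 228) (nat_lit 0) (XT.lf (nat_lit 0) (nat_lit 24828343687) (nat_lit 152) (nat_lit 293635982676) (nat_lit 228) (nat_lit 24854775775) (nat_lit 47) (nat_lit 5) (nat_lit 49) (nat_lit 5) (nat_lit 50) (nat_lit 5) (nat_lit 407) (nat_lit 368) (nat_lit 125)) (XT.nd (nat_lit 78) (nat_lit 152) (nat_lit 0) (XT.lf (nat_lit 0) (nat_lit 47764943309) (nat_lit 228) (nat_lit 138820249377) (nat_lit 76) (nat_lit 168048588599) (nat_lit 46) (nat_lit 5) (nat_lit 49) (nat_lit 5) (nat_lit 47) (nat_lit 5) (nat_lit 408) (nat_lit 368) (nat_lit 124)) (XT.lf (nat_lit 0) (nat_lit 51060455998) (nat_lit 152) (nat_lit 72917027418) (nat_lit 228) (nat_lit 242476482311) (nat_lit 44) (nat_lit 5) (nat_lit 46) (nat_lit 5) (nat_lit 47) (nat_lit 5) (nat_lit 409) (nat_lit 368) (nat_lit 123))))))) (XT.nd (nat_lit 936) (nat_lit 76) (nat_lit 0) (XT.nd (nat_lit 468) (nat_lit 380) (nat_lit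 0) (XT.nd (nat_lit 234) (nat_lit 380) (nat_lit 0) (XT.nd (nat_lit 78) (nat_lit 152) (nat_lit 0) (XT.lf (nat_lit 0) (nat_lit 207115075526) (nat_lit 228) (nat_lit 124256530265) (nat_lit 76) (nat_lit 47337832384) (nat_lit 44) (nat_lit 5) (nat_lit 47) (nat_lit 5) (nat_lit 45) (nat_lit 5) (nat_lit 410) (nat_lit 368) (nat_lit 122)) (XT.nd (nat_lit 78) (nat_lit 0) (nat_lit 0) (XT.lf (nat_lit 0) (nat_lit 77729649051) (nat_lit 152) (nat_lit 219088763348) (nat_lit 228) (nat_lit 94638828616) (nat_lit 42) (nat_lit 5) (nat_lit 44) (nat_lit 5) (nat_lit 45) (nat_lit 5) (nat_lit 411) (nat_lit 368) (nat_lit 121)) (XT.lf (nat_lit 0) (nat_lit 294128923242) (nat_lit 152) (nat_lit 98982265362) (nat_lit 228) (nat_lit 11626031798) (nat_lit 42) (nat_lit 5) (nat_lit 44) (nat_lit 5) (nat_lit 45) (nat_lit 5) (nat_lit 412) (nat_lit 368) (nat_lit 120)))) (XT.nd (nat_lit 78) (nat_lit 152) (nat_lit 0) (XT.lf (nat_lit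 0) (nat_lit 75226297193) (nat_lit 228) (nat_lit 314166995771) (nat_lit 76) (nat_lit 29123610239) (nat_lit 39) (nat_lit 5) (nat_lit 42) (nat_lit 5) (nat_lit 40) (nat_lit 5) (nat_lit 413) (nat_lit 368) (nat_lit 119)) (XT.nd (nat_lit 78) (nat_lit 152) (nat_lit 0) (XT.lf (nat_lit 0) (nat_lit 169557036224) (nat_lit 228) (nat_lit 100839894039) (nat_lit 76) (nat_lit 162402785145) (nat_lit 39) (nat_lit 5) (nat_lit 42) (nat_lit 5) (nat_lit 40) (nat_lit 5) (nat_lit 414) (nat_lit 368) (nat_lit 118)) (XT.lf (nat_lit 0) (nat_lit 127225459973) (nat_lit 152) (nat_lit 143365132589) (nat_lit 228) (nat_lit 177106761669) (nat_lit 37) (nat_lit 5) (nat_lit 39) (nat_lit 5) (nat_lit 40) (nat_lit 5) (nat_lit 415) (nat_lit 368) (nat_lit 117))))) (XT.nd (nat_lit 234) (nat_lit 228) (nat_lit 0) (XT.nd (nat_lit 78) (nat_lit 152) (nat_lit 0) (XT.lf (nat_lit 0) (nat_lit 370194904848) (nat_lit 152) (nat_lit 8188630046)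 (nat_lit 228) (nat_lit 84870954712) (nat_lit 37) (nat_lit 5) (nat_lit 39) (nat_lit 5) (nat_lit 40) (nat_lit 5) (nat_lit 416) (nat_lit 368) (nat_lit 116)) (XT.nd (nat_lit 78) (nat_lit 0) (nat_lit 0) (XT.lf (nat_lit 0) (nat_lit 16070318582) (nat_lit 152) (nat_lit 331244144582) (nat_lit 76) (nat_lit 132041818992) (nat_lit 35) (nat_lit 5) (nat_lit 37) (nat_lit 5) (nat_lit 36) (nat_lit 5) (nat_lit 417) (nat_lit 368) (nat_lit 115)) (XT.lf (nat_lit 0) (nat_lit 120942458516) (nat_lit 152) (nat_lit 93162610107) (nat_lit 76) (nat_lit 282001728193) (nat_lit 35) (nat_lit 5) (nat_lit 37) (nat_lit 5) (nat_lit 36) (nat_lit 5) (nat_lit 418) (nat_lit 368) (nat_lit 114)))) (XT.nd (nat_lit 78) (nat_lit 76) (nat_lit 0) (XT.lf (nat_lit 0) (nat_lit 162008171755) (nat_lit 152) (nat_lit 71579376649) (nat_lit 228) (nat_lit 279980821677) (nat_lit 33) (nat_lit 5) (nat_lit 35) (nat_lit 5) (nat_lit 36) (nat_lit 5)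 (nat_lit 419) (nat_lit 368) (nat_lit 113)) (XT.nd (nat_lit 78) (nat_lit 76) (nat_lit 0) (XT.lf (nat_lit 0) (nat_lit 354687385472) (nat_lit 228) (nat_lit 99897146195) (nat_lit 76) (nat_lit 77177365723) (nat_lit 33) (nat_lit 5) (nat_lit 36) (nat_lit 5) (nat_lit 34) (nat_lit 4) (nat_lit 420) (nat_lit 368) (nat_lit 112)) (XT.lf (nat_lit 0) (nat_lit 168570847776) (nat_lit 76) (nat_lit 317076607045) (nat_lit 152) (nat_lit 65027384240) (nat_lit 32) (nat_lit 5) (nat_lit 33) (nat_lit 5) (nat_lit 34) (nat_lit 4) (nat_lit 421) (nat_lit 368) (nat_lit 111)))))) (XT.nd (nat_lit 43134) (nat_lit 0) (nat_lit 5320) (XT.nd (nat_lit 42900) (nat_lit 0) (nat_lit 5776) (XT.nd (nat_lit 42744) (nat_lit 0) (nat_lit 5700) (XT.lf (nat_lit 0) (nat_lit 52657349929) (nat_lit 152) (nat_lit 117367804175) (nat_lit 76) (nat_lit 400381220507) (nat_lit 31) (nat_lit 5) (nat_lit 33) (nat_lit 5) (nat_lit 32) (nat_lit 5) (nat_lit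 422) (nat_lit 368) (nat_lit 110)) (XT.nd (nat_lit 78) (nat_lit 0) (nat_lit 0) (XT.lf (nat_lit 0) (nat_lit 10124164314) (nat_lit 836) (nat_lit 24438827752) (nat_lit 836) (nat_lit 24438827752) (nat_lit 106) (nat_lit 3) (nat_lit 117) (nat_lit 3) (nat_lit 117) (nat_lit 5) (nat_lit 369) (nat_lit 369) (nat_lit 162)) (XT.lf (nat_lit 76) (nat_lit 7751320092) (nat_lit 0) (nat_lit 13128795071) (nat_lit 836) (nat_lit 100067332599) (nat_lit 107) (nat_lit 5) (nat_lit 106) (nat_lit 3) (nat_lit 117) (nat_lit 5) (nat_lit 370) (nat_lit 369) (nat_lit 161)))) (XT.nd (nat_lit 78) (nat_lit 0) (nat_lit 0) (XT.lf (nat_lit 0) (nat_lit 23097544989) (nat_lit 760) (nat_lit 55815146503) (nat_lit 836) (nat_lit 45048052356) (nat_lit 107) (nat_lit 5) (nat_lit 117) (nat_lit 5) (nat_lit 118) (nat_lit 5) (nat_lit 371) (nat_lit 369) (nat_lit 160)) (XT.nd (nat_lit 78) (nat_lit 0) (nat_lit 76) (XT.lf (nat_lit 76) (nat_lit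 4359005861) (nat_lit 0) (nat_lit 21349844650) (nat_lit 836) (nat_lit 101401704257) (nat_lit 108) (nat_lit 5) (nat_lit 107) (nat_lit 5) (nat_lit 118) (nat_lit 5) (nat_lit 372) (nat_lit 369) (nat_lit 159)) (XT.lf (nat_lit 0) (nat_lit 30021530204) (nat_lit 760) (nat_lit 61516949685) (nat_lit 836) (nat_lit 38800836130) (nat_lit 108) (nat_lit 5) (nat_lit 118) (nat_lit 5) (nat_lit 119) (nat_lit 5) (nat_lit 373) (nat_lit 369) (nat_lit 158))))) (XT.nd (nat_lit 234) (nat_lit 532) (nat_lit 0) (XT.nd (nat_lit 78) (nat_lit 0) (nat_lit 76) (XT.lf (nat_lit 76) (nat_lit 2509531639) (nat_lit 0) (nat_lit 32429237234) (nat_lit 836) (nat_lit 98771300428) (nat_lit 109) (nat_lit 5) (nat_lit 108) (nat_lit 5) (nat_lit 119) (nat_lit 5) (nat_lit 374) (nat_lit 369) (nat_lit 157)) (XT.nd (nat_lit 78) (nat_lit 0) (nat_lit 0) (XT.lf (nat_lit 0) (nat_lit 41623217821) (nat_lit 760) (nat_lit 65804156286) (nat_lit 836)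 (nat_lit 29745918931) (nat_lit 109) (nat_lit 5) (nat_lit 119) (nat_lit 5) (nat_lit 120) (nat_lit 5) (nat_lit 375) (nat_lit 369) (nat_lit 156)) (XT.lf (nat_lit 76) (nat_lit 2407292463) (nat_lit 0) (nat_lit 46803577059) (nat_lit 836) (nat_lit 91570359623) (nat_lit 110) (nat_lit 5) (nat_lit 109) (nat_lit 5) (nat_lit 120) (nat_lit 5) (nat_lit 376) (nat_lit 369) (nat_lit 155)))) (XT.nd (nat_lit 156) (nat_lit 684) (nat_lit 0) (XT.nd (nat_lit 78) (nat_lit 0) (nat_lit 0) (XT.lf (nat_lit 0) (nat_lit 58573474082) (nat_lit 760) (nat_lit 68481505027) (nat_lit 836) (nat_lit 17444804623) (nat_lit 110) (nat_lit 5) (nat_lit 120) (nat_lit 5) (nat_lit 121) (nat_lit 5) (nat_lit 377) (nat_lit 369) (nat_lit 154)) (XT.lf (nat_lit 76) (nat_lit 4274926912) (nat_lit 0) (nat_lit 64963085917) (nat_lit 836) (nat_lit 79124563201) (nat_lit 111) (nat_lit 5) (nat_lit 110) (nat_lit 5) (nat_lit 121) (nat_lit 5) (nat_lit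 378) (nat_lit 369) (nat_lit 153))) (XT.nd (nat_lit 78) (nat_lit 760) (nat_lit 0) (XT.lf (nat_lit 0) (nat_lit 81617999100) (nat_lit 760) (nat_lit 69336654527) (nat_lit 76) (nat_lit 1404743458) (nat_lit 111) (nat_lit 5) (nat_lit 121) (nat_lit 5) (nat_lit 112) (nat_lit 5) (nat_lit 379) (nat_lit 369) (nat_lit 152)) (XT.lf (nat_lit 0) (nat_lit 8354132260) (nat_lit 760) (nat_lit 87458058675) (nat_lit 836) (nat_lit 60684108109) (nat_lit 101) (nat_lit 5) (nat_lit 111) (nat_lit 5) (nat_lit 112) (nat_lit 5) (nat_lit 380) (nat_lit 369) (nat_lit 151))))))))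
noncomputable def xc239 : XT := (XT.nd (nat_lit 1950) (nat_lit 1368) (nat_lit 0) (XT.nd (nat_lit 936) (nat_lit 1748) (nat_lit 0) (XT.nd (nat_lit 468) (nat_lit 912) (nat_lit 0) (XT.nd (nat_lit 234) (nat_lit 760) (nat_lit 0) (XT.nd (nat_lit 78) (nat_lit 380) (nat_lit 0) (XT.lf (nat_lit 0) (nat_lit 92336499946) (nat_lit 760) (nat_lit 19553654988) (nat_lit 836) (nat_lit 48891188192) (nat_lit 101) (nat_lit 5) (nat_lit 111) (nat_lit 5) (nat_lit 112) (nat_lit 5) (nat_lit 381) (nat_lit 369) (nat_lit 150)) (XT.nd (nat_lit 78) (nat_lit 0) (nat_lit 0) (XT.lf (nat_lit 0) (nat_lit 14906372302) (nat_lit 380) (nat_lit 114906096613) (nat_lit 456) (nat_lit 35416148057) (nat_lit 96) (nat_lit 5) (nat_lit 101) (nat_lit 5) (nat_lit 102) (nat_lit 5) (nat_lit 382) (nat_lit 369) (nat_lit 149)) (XT.lf (nat_lit 0) (nat_lit 104470079412) (nat_lit 380) (nat_lit 45635175036) (nat_lit 456) (nat_lit 19719282411) (nat_lit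 96) (nat_lit 5) (nat_lit 101) (nat_lit 5) (nat_lit 102) (nat_lit 5) (nat_lit 383) (nat_lit 369) (nat_lit 148)))) (XT.nd (nat_lit 78) (nat_lit 456) (nat_lit 0) (XT.lf (nat_lit 0) (nat_lit 24213435090) (nat_lit 304) (nat_lit 148000215683) (nat_lit 380) (nat_lit 2396553525) (nat_lit 92) (nat_lit 5) (nat_lit 96) (nat_lit 5) (nat_lit 97) (nat_lit 5) (nat_lit 384) (nat_lit 369) (nat_lit 147)) (XT.nd (nat_lit 78) (nat_lit 380) (nat_lit 0) (XT.lf (nat_lit 0) (nat_lit 17159769116) (nat_lit 380) (nat_lit 60064129494) (nat_lit 76) (nat_lit 102305283013) (nat_lit 91) (nat_lit 5) (nat_lit 96) (nat_lit 5) (nat_lit 92) (nat_lit 5) (nat_lit 385) (nat_lit 369) (nat_lit 146)) (XT.lf (nat_lit 0) (nat_lit 35894540069) (nat_lit 380) (nat_lit 2279088475) (nat_lit 456) (nat_lit 146490501969) (nat_lit 86) (nat_lit 5) (nat_lit 91) (nat_lit 5) (nat_lit 92) (nat_lit 5) (nat_lit 386) (nat_lit 369) (nat_lit 145)))))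 (XT.nd (nat_lit 234) (nat_lit 608) (nat_lit 0) (XT.nd (nat_lit 78) (nat_lit 304) (nat_lit 0) (XT.lf (nat_lit 0) (nat_lit 62464943005) (nat_lit 456) (nat_lit 52478396727) (nat_lit 76) (nat_lit 75001149122) (nat_lit 86) (nat_lit 5) (nat_lit 92) (nat_lit 5) (nat_lit 87) (nat_lit 5) (nat_lit 387) (nat_lit 369) (nat_lit 144)) (XT.nd (nat_lit 78) (nat_lit 0) (nat_lit 0) (XT.lf (nat_lit 0) (nat_lit 50196433399) (nat_lit 304) (nat_lit 38595316821) (nat_lit 380) (nat_lit 106656068647) (nat_lit 82) (nat_lit 5) (nat_lit 86) (nat_lit 5) (nat_lit 87) (nat_lit 5) (nat_lit 388) (nat_lit 369) (nat_lit 143)) (XT.lf (nat_lit 0) (nat_lit 117987102245) (nat_lit 380) (nat_lit 42018701667) (nat_lit 76) (nat_lit 41142901345) (nat_lit 82) (nat_lit 5) (nat_lit 87) (nat_lit 5) (nat_lit 83) (nat_lit 5) (nat_lit 389) (nat_lit 369) (nat_lit 142)))) (XT.nd (nat_lit 78) (nat_lit 304) (nat_lit 0) (XT.lf (nat_lit 0) (nat_lit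 67916501642) (nat_lit 304) (nat_lit 82418665752) (nat_lit 380) (nat_lit 56714821393) (nat_lit 78) (nat_lit 5) (nat_lit 82) (nat_lit 5) (nat_lit 83) (nat_lit 5) (nat_lit 390) (nat_lit 369) (nat_lit 141)) (XT.nd (nat_lit 78) (nat_lit 304) (nat_lit 0) (XT.lf (nat_lit 0) (nat_lit 184807105318) (nat_lit 304) (nat_lit 205009867) (nat_lit 380) (nat_lit 28198647429) (nat_lit 78) (nat_lit 5) (nat_lit 82) (nat_lit 5) (nat_lit 83) (nat_lit 5) (nat_lit 391) (nat_lit 369) (nat_lit 140)) (XT.lf (nat_lit 0) (nat_lit 4472346668) (nat_lit 304) (nat_lit 130236093830) (nat_lit 76) (nat_lit 84830533347) (nat_lit 74) (nat_lit 5) (nat_lit 78) (nat_lit 5) (nat_lit 75) (nat_lit 5) (nat_lit 392) (nat_lit 369) (nat_lit 139)))))) (XT.nd (nat_lit 468) (nat_lit 912) (nat_lit 0) (XT.nd (nat_lit 234) (nat_lit 304) (nat_lit 0) (XT.nd (nat_lit 78) (nat_lit 532) (nat_lit 0) (XT.lf (nat_lit 0) (nat_lit 38321386703) (nat_lit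 304) (nat_lit 12752362843) (nat_lit 76) (nat_lit 175062124741) (nat_lit 74) (nat_lit 5) (nat_lit 78) (nat_lit 5) (nat_lit 75) (nat_lit 5) (nat_lit 393) (nat_lit 369) (nat_lit 138)) (XT.nd (nat_lit 78) (nat_lit 228) (nat_lit 0) (XT.lf (nat_lit 0) (nat_lit 76249622991) (nat_lit 380) (nat_lit 119313806451) (nat_lit 76) (nat_lit 37379853170) (nat_lit 70) (nat_lit 5) (nat_lit 75) (nat_lit 5) (nat_lit 71) (nat_lit 5) (nat_lit 394) (nat_lit 369) (nat_lit 137)) (XT.lf (nat_lit 0) (nat_lit 6045403316) (nat_lit 228) (nat_lit 111179923831) (nat_lit 304) (nat_lit 122808181474) (nat_lit 67) (nat_lit 5) (nat_lit 70) (nat_lit 5) (nat_lit 71) (nat_lit 5) (nat_lit 395) (nat_lit 369) (nat_lit 136)))) (XT.nd (nat_lit 78) (nat_lit 304) (nat_lit 0) (XT.lf (nat_lit 0) (nat_lit 141814732242) (nat_lit 228) (nat_lit 20455612254) (nat_lit 304) (nat_lit 85106875105) (nat_lit 67) (nat_lit 5) (nat_lit 70) (nat_lit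 5) (nat_lit 71) (nat_lit 5) (nat_lit 396) (nat_lit 369) (nat_lit 135)) (XT.nd (nat_lit 78) (nat_lit 76) (nat_lit 0) (XT.lf (nat_lit 0) (nat_lit 29046005752) (nat_lit 228) (nat_lit 182142906435) (nat_lit 304) (nat_lit 43818139032) (nat_lit 64) (nat_lit 5) (nat_lit 67) (nat_lit 5) (nat_lit 68) (nat_lit 5) (nat_lit 397) (nat_lit 369) (nat_lit 134)) (XT.lf (nat_lit 0) (nat_lit 1702209362) (nat_lit 304) (nat_lit 89236704093) (nat_lit 76) (nat_lit 171972209308) (nat_lit 63) (nat_lit 5) (nat_lit 67) (nat_lit 5) (nat_lit 64) (nat_lit 5) (nat_lit 398) (nat_lit 369) (nat_lit 133))))) (XT.nd (nat_lit 234) (nat_lit 456) (nat_lit 0) (XT.nd (nat_lit 78) (nat_lit 228) (nat_lit 0) (XT.lf (nat_lit 0) (nat_lit 48991788086) (nat_lit 304) (nat_lit 215854720241) (nat_lit 76) (nat_lit 6279683620) (nat_lit 60) (nat_lit 5) (nat_lit 64) (nat_lit 5) (nat_lit 61) (nat_lit 5) (nat_lit 399) (nat_lit 369) (nat_lit 132))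 (XT.nd (nat_lit 78) (nat_lit 228) (nat_lit 0) (XT.lf (nat_lit 0) (nat_lit 101672592655) (nat_lit 304) (nat_lit 71089015916) (nat_lit 76) (nat_lit 106839068727) (nat_lit 60) (nat_lit 5) (nat_lit 64) (nat_lit 5) (nat_lit 61) (nat_lit 5) (nat_lit 400) (nat_lit 369) (nat_lit 131)) (XT.lf (nat_lit 0) (nat_lit 83590249250) (nat_lit 228) (nat_lit 74702174275) (nat_lit 304) (nat_lit 130141214139) (nat_lit 57) (nat_lit 5) (nat_lit 60) (nat_lit 5) (nat_lit 61) (nat_lit 5) (nat_lit 401) (nat_lit 369) (nat_lit 130)))) (XT.nd (nat_lit 156) (nat_lit 304) (nat_lit 0) (XT.nd (nat_lit 78) (nat_lit 152) (nat_lit 0) (XT.lf (nat_lit 0) (nat_lit 219408040416) (nat_lit 304) (nat_lit 49637615922) (nat_lit 76) (nat_lit 28579350033) (nat_lit 57) (nat_lit 5) (nat_lit 61) (nat_lit 5) (nat_lit 58) (nat_lit 5) (nat_lit 402) (nat_lit 369) (nat_lit 129)) (XT.lf (nat_lit 0) (nat_lit 115810344044) (nat_lit 152) (nat_lit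 170801757916) (nat_lit 228) (nat_lit 20512208409) (nat_lit 55) (nat_lit 5) (nat_lit 57) (nat_lit 5) (nat_lit 58) (nat_lit 5) (nat_lit 403) (nat_lit 369) (nat_lit 128))) (XT.nd (nat_lit 78) (nat_lit 228) (nat_lit 0) (XT.lf (nat_lit 0) (nat_lit 39649380178) (nat_lit 228) (nat_lit 26442177649) (nat_lit 76) (nat_lit 250933018823) (nat_lit 54) (nat_lit 5) (nat_lit 57) (nat_lit 5) (nat_lit 55) (nat_lit 5) (nat_lit 404) (nat_lit 369) (nat_lit 127)) (XT.lf (nat_lit 0) (nat_lit 105218784420) (nat_lit 304) (nat_lit 176838558157) (nat_lit 76) (nat_lit 45191246373) (nat_lit 51) (nat_lit 5) (nat_lit 55) (nat_lit 5) (nat_lit 52) (nat_lit 5) (nat_lit 405) (nat_lit 369) (nat_lit 126))))))) (XT.nd (nat_lit 936) (nat_lit 304) (nat_lit 0) (XT.nd (nat_lit 468) (nat_lit 532) (nat_lit 0) (XT.nd (nat_lit 234) (nat_lit 228) (nat_lit 0) (XT.nd (nat_lit 78) (nat_lit 304) (nat_lit 0) (XT.lf (nat_lit 0) (nat_lit 175605199293)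 (nat_lit 304) (nat_lit 2029483776) (nat_lit 76) (nat_lit 160272191815) (nat_lit 51) (nat_lit 5) (nat_lit 55) (nat_lit 5) (nat_lit 52) (nat_lit 5) (nat_lit 406) (nat_lit 369) (nat_lit 125)) (XT.nd (nat_lit 78) (nat_lit 152) (nat_lit 0) (XT.lf (nat_lit 0) (nat_lit 187521793284) (nat_lit 152) (nat_lit 64916806175) (nat_lit 228) (nat_lit 96513092463) (nat_lit 49) (nat_lit 5) (nat_lit 51) (nat_lit 5) (nat_lit 52) (nat_lit 5) (nat_lit 407) (nat_lit 369) (nat_lit 124)) (XT.lf (nat_lit 0) (nat_lit 26073594972) (nat_lit 152) (nat_lit 308316316004) (nat_lit 228) (nat_lit 26095026802) (nat_lit 47) (nat_lit 5) (nat_lit 49) (nat_lit 5) (nat_lit 50) (nat_lit 5) (nat_lit 408) (nat_lit 369) (nat_lit 123)))) (XT.nd (nat_lit 78) (nat_lit 152) (nat_lit 0) (XT.lf (nat_lit 0) (nat_lit 50155483939) (nat_lit 228) (nat_lit 145757533534) (nat_lit 76) (nat_lit 176452337248) (nat_lit 46) (nat_lit 5) (nat_lit 49)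 (nat_lit 5) (nat_lit 47) (nat_lit 5) (nat_lit 409) (nat_lit 369) (nat_lit 122)) (XT.nd (nat_lit 78) (nat_lit 0) (nat_lit 0) (XT.lf (nat_lit 0) (nat_lit 53617146976) (nat_lit 152) (nat_lit 76561452134) (nat_lit 228) (nat_lit 254597951919) (nat_lit 44) (nat_lit 5) (nat_lit 46) (nat_lit 5) (nat_lit 47) (nat_lit 5) (nat_lit 410) (nat_lit 369) (nat_lit 121)) (XT.lf (nat_lit 0) (nat_lit 217472985299) (nat_lit 228) (nat_lit 130465776885) (nat_lit 76) (nat_lit 49706039234) (nat_lit 44) (nat_lit 5) (nat_lit 47) (nat_lit 5) (nat_lit 45) (nat_lit 5) (nat_lit 411) (nat_lit 369) (nat_lit 120))))) (XT.nd (nat_lit 234) (nat_lit 152) (nat_lit 0) (XT.nd (nat_lit 78) (nat_lit 228) (nat_lit 0) (XT.lf (nat_lit 0) (nat_lit 81619653657) (nat_lit 152) (nat_lit 230041787683) (nat_lit 228) (nat_lit 99368555485) (nat_lit 42) (nat_lit 5) (nat_lit 44) (nat_lit 5) (nat_lit 45) (nat_lit 5) (nat_lit 412) (nat_lit 369)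 (nat_lit 119)) (XT.nd (nat_lit 78) (nat_lit 228) (nat_lit 0) (XT.lf (nat_lit 0) (nat_lit 308838723836) (nat_lit 152) (nat_lit 103930032123) (nat_lit 228) (nat_lit 12205224282) (nat_lit 42) (nat_lit 5) (nat_lit 44) (nat_lit 5) (nat_lit 45) (nat_lit 5) (nat_lit 413) (nat_lit 369) (nat_lit 118)) (XT.lf (nat_lit 0) (nat_lit 78989630409) (nat_lit 228) (nat_lit 329871898917) (nat_lit 76) (nat_lit 30581117407) (nat_lit 39) (nat_lit 5) (nat_lit 42) (nat_lit 5) (nat_lit 40) (nat_lit 5) (nat_lit 414) (nat_lit 369) (nat_lit 117)))) (XT.nd (nat_lit 78) (nat_lit 152) (nat_lit 0) (XT.lf (nat_lit 0) (nat_lit 178036810279) (nat_lit 228) (nat_lit 105878606224) (nat_lit 76) (nat_lit 170524187885) (nat_lit 39) (nat_lit 5) (nat_lit 42) (nat_lit 5) (nat_lit 40) (nat_lit 5) (nat_lit 415) (nat_lit 369) (nat_lit 116)) (XT.nd (nat_lit 78) (nat_lit 0) (nat_lit 0) (XT.lf (nat_lit 0) (nat_lit 133589962544) (nat_lit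 152) (nat_lit 150532040777) (nat_lit 228) (nat_lit 185960123919) (nat_lit 37) (nat_lit 5) (nat_lit 39) (nat_lit 5) (nat_lit 40) (nat_lit 5) (nat_lit 416) (nat_lit 369) (nat_lit 115)) (XT.lf (nat_lit 0) (nat_lit 388707725874) (nat_lit 152) (nat_lit 8596777319) (nat_lit 228) (nat_lit 89112620702) (nat_lit 37) (nat_lit 5) (nat_lit 39) (nat_lit 5) (nat_lit 40) (nat_lit 5) (nat_lit 417) (nat_lit 369) (nat_lit 114)))))) (XT.nd (nat_lit 43290) (nat_lit 0) (nat_lit 5624) (XT.nd (nat_lit 234) (nat_lit 0) (nat_lit 0) (XT.nd (nat_lit 78) (nat_lit 152) (nat_lit 0) (XT.lf (nat_lit 0) (nat_lit 16875637816) (nat_lit 152) (nat_lit 347803196443) (nat_lit 76) (nat_lit 138645171281) (nat_lit 35) (nat_lit 5) (nat_lit 37) (nat_lit 5) (nat_lit 36) (nat_lit 5) (nat_lit 418) (nat_lit 369) (nat_lit 113)) (XT.nd (nat_lit 78) (nat_lit 152) (nat_lit 0) (XT.lf (nat_lit 0) (nat_lit 126991298876) (nat_lit 152) (nat_lit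 97817735500) (nat_lit 76) (nat_lit 296103015879) (nat_lit 35) (nat_lit 5) (nat_lit 37) (nat_lit 5) (nat_lit 36) (nat_lit 5) (nat_lit 419) (nat_lit 369) (nat_lit 112)) (XT.lf (nat_lit 0) (nat_lit 170111536986) (nat_lit 152) (nat_lit 75157070650) (nat_lit 228) (nat_lit 293978096352) (nat_lit 33) (nat_lit 5) (nat_lit 35) (nat_lit 5) (nat_lit 36) (nat_lit 5) (nat_lit 420) (nat_lit 369) (nat_lit 111)))) (XT.nd (nat_lit 42900) (nat_lit 0) (nat_lit 5548) (XT.lf (nat_lit 0) (nat_lit 372423375427) (nat_lit 228) (nat_lit 104889126042) (nat_lit 76) (nat_lit 81037409274) (nat_lit 33) (nat_lit 5) (nat_lit 36) (nat_lit 5) (nat_lit 34) (nat_lit 4) (nat_lit 421) (nat_lit 369) (nat_lit 110)) (XT.nd (nat_lit 78) (nat_lit 0) (nat_lit 0) (XT.lf (nat_lit 0) (nat_lit 10634859849) (nat_lit 836) (nat_lit 25658411353) (nat_lit 836) (nat_lit 25658411353) (nat_lit 106) (nat_lit 3) (nat_lit 117) (nat_lit 3) (nat_lit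 117) (nat_lit 5) (nat_lit 370) (nat_lit 370) (nat_lit 160)) (XT.lf (nat_lit 76) (nat_lit 8143525613) (nat_lit 0) (nat_lit 13789215018) (nat_lit 836) (nat_lit 105061641126) (nat_lit 107) (nat_lit 5) (nat_lit 106) (nat_lit 3) (nat_lit 117) (nat_lit 5) (nat_lit 371) (nat_lit 370) (nat_lit 159))))) (XT.nd (nat_lit 234) (nat_lit 0) (nat_lit 76) (XT.nd (nat_lit 78) (nat_lit 0) (nat_lit 0) (XT.lf (nat_lit 0) (nat_lit 24260572304) (nat_lit 760) (nat_lit 58601008541) (nat_lit 836) (nat_lit 47296785638) (nat_lit 107) (nat_lit 5) (nat_lit 117) (nat_lit 5) (nat_lit 118) (nat_lit 5) (nat_lit 372) (nat_lit 370) (nat_lit 158)) (XT.nd (nat_lit 78) (nat_lit 0) (nat_lit 76) (XT.lf (nat_lit 76) (nat_lit 4581772485) (nat_lit 0) (nat_lit 22420357715) (nat_lit 836) (nat_lit 106463553729) (nat_lit 108) (nat_lit 5) (nat_lit 107) (nat_lit 5) (nat_lit 118) (nat_lit 5) (nat_lit 373) (nat_lit 370) (nat_lit 157)) (XT.lf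 (nat_lit 0) (nat_lit 31530025762) (nat_lit 760) (nat_lit 64587785672) (nat_lit 836) (nat_lit 40738093034) (nat_lit 108) (nat_lit 5) (nat_lit 118) (nat_lit 5) (nat_lit 119) (nat_lit 5) (nat_lit 374) (nat_lit 370) (nat_lit 156)))) (XT.nd (nat_lit 156) (nat_lit 0) (nat_lit 76) (XT.nd (nat_lit 78) (nat_lit 0) (nat_lit 76) (XT.lf (nat_lit 76) (nat_lit 2639938887) (nat_lit 0) (nat_lit 34052911171) (nat_lit 836) (nat_lit 103702359477) (nat_lit 109) (nat_lit 5) (nat_lit 108) (nat_lit 5) (nat_lit 119) (nat_lit 5) (nat_lit 375) (nat_lit 370) (nat_lit 155)) (XT.lf (nat_lit 0) (nat_lit 43711148431) (nat_lit 760) (nat_lit 69089289401) (nat_lit 836) (nat_lit 31231175568) (nat_lit 109) (nat_lit 5) (nat_lit 119) (nat_lit 5) (nat_lit 120) (nat_lit 5) (nat_lit 376) (nat_lit 370) (nat_lit 154))) (XT.nd (nat_lit 78) (nat_lit 0) (nat_lit 76) (XT.lf (nat_lit 76) (nat_lit 2532649935) (nat_lit 0) (nat_lit 49145288366)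 (nat_lit 836) (nat_lit 96142020508) (nat_lit 110) (nat_lit 5) (nat_lit 109) (nat_lit 5) (nat_lit 120) (nat_lit 5) (nat_lit 377) (nat_lit 370) (nat_lit 153)) (XT.lf (nat_lit 0) (nat_lit 61508339574) (nat_lit 760) (nat_lit 71900486404) (nat_lit 836) (nat_lit 18315632087) (nat_lit 110) (nat_lit 5) (nat_lit 120) (nat_lit 5) (nat_lit 121) (nat_lit 5) (nat_lit 378) (nat_lit 370) (nat_lit 152))))))))
noncomputable def xc240 : XT := (XT.nd (nat_lit 1872) (nat_lit 1824) (nat_lit 0) (XT.nd (nat_lit 936) (nat_lit 1900) (nat_lit 0) (XT.nd (nat_lit 468) (nat_lit 1064) (nat_lit 0) (XT.nd (nat_lit 234) (nat_lit 380) (nat_lit 0) (XT.nd (nat_lit 78) (nat_lit 684) (nat_lit 0) (XT.lf (nat_lit 76) (nat_lit 4493684972) (nat_lit 0) (nat_lit 68212203686) (nat_lit 836) (nat_lit 83074512401) (nat_lit 111) (nat_lit 5) (nat_lit 110) (nat_lit 5) (nat_lit 121) (nat_lit 5) (nat_lit 379) (nat_lit 370) (nat_lit 151))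 (XT.nd (nat_lit 78) (nat_lit 760) (nat_lit 0) (XT.lf (nat_lit 0) (nat_lit 85704575384) (nat_lit 760) (nat_lit 72798410558) (nat_lit 76) (nat_lit 1474092407) (nat_lit 111) (nat_lit 5) (nat_lit 121) (nat_lit 5) (nat_lit 112) (nat_lit 5) (nat_lit 380) (nat_lit 370) (nat_lit 150)) (XT.lf (nat_lit 0) (nat_lit 8776833687) (nat_lit 760) (nat_lit 91831450805) (nat_lit 836) (nat_lit 63712550756) (nat_lit 101) (nat_lit 5) (nat_lit 111) (nat_lit 5) (nat_lit 112) (nat_lit 5) (nat_lit 381) (nat_lit 370) (nat_lit 149)))) (XT.nd (nat_lit 78) (nat_lit 380) (nat_lit 0) (XT.lf (nat_lit 0) (nat_lit 96958081909) (nat_lit 760) (nat_lit 20531803640) (nat_lit 836) (nat_lit 51330259260) (nat_lit 101) (nat_lit 5) (nat_lit 111) (nat_lit 5) (nat_lit 112) (nat_lit 5) (nat_lit 382) (nat_lit 370) (nat_lit 148)) (XT.nd (nat_lit 78) (nat_lit 0) (nat_lit 0) (XT.lf (nat_lit 0) (nat_lit 15656639507) (nat_lit 380) (nat_lit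 120651497347) (nat_lit 456) (nat_lit 37181654618) (nat_lit 96) (nat_lit 5) (nat_lit 101) (nat_lit 5) (nat_lit 102) (nat_lit 5) (nat_lit 383) (nat_lit 370) (nat_lit 147)) (XT.lf (nat_lit 0) (nat_lit 109698296325) (nat_lit 380) (nat_lit 47917025124) (nat_lit 456) (nat_lit 20700198110) (nat_lit 96) (nat_lit 5) (nat_lit 101) (nat_lit 5) (nat_lit 102) (nat_lit 5) (nat_lit 384) (nat_lit 370) (nat_lit 146))))) (XT.nd (nat_lit 234) (nat_lit 304) (nat_lit 0) (XT.nd (nat_lit 78) (nat_lit 456) (nat_lit 0) (XT.lf (nat_lit 0) (nat_lit 25428985379) (nat_lit 304) (nat_lit 155399998245) (nat_lit 380) (nat_lit 2511494631) (nat_lit 92) (nat_lit 5) (nat_lit 96) (nat_lit 5) (nat_lit 97) (nat_lit 5) (nat_lit 385) (nat_lit 370) (nat_lit 145)) (XT.nd (nat_lit 78) (nat_lit 380) (nat_lit 0) (XT.lf (nat_lit 0) (nat_lit 18022262495) (nat_lit 380) (nat_lit 63062537399) (nat_lit 76) (nat_lit 107420612170) (nat_lit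 91) (nat_lit 5) (nat_lit 96) (nat_lit 5) (nat_lit 92) (nat_lit 5) (nat_lit 386) (nat_lit 370) (nat_lit 144)) (XT.lf (nat_lit 0) (nat_lit 37693988246) (nat_lit 380) (nat_lit 2392685839) (nat_lit 456) (nat_lit 153810441516) (nat_lit 86) (nat_lit 5) (nat_lit 91) (nat_lit 5) (nat_lit 92) (nat_lit 5) (nat_lit 387) (nat_lit 370) (nat_lit 143)))) (XT.nd (nat_lit 78) (nat_lit 304) (nat_lit 0) (XT.lf (nat_lit 0) (nat_lit 65592351764) (nat_lit 456) (nat_lit 55097614624) (nat_lit 76) (nat_lit 78751535751) (nat_lit 86) (nat_lit 5) (nat_lit 92) (nat_lit 5) (nat_lit 87) (nat_lit 5) (nat_lit 388) (nat_lit 370) (nat_lit 142)) (XT.nd (nat_lit 78) (nat_lit 0) (nat_lit 0) (XT.lf (nat_lit 0) (nat_lit 52710881170) (nat_lit 304) (nat_lit 40524492223) (nat_lit 380) (nat_lit 111984631702) (nat_lit 82) (nat_lit 5) (nat_lit 86) (nat_lit 5) (nat_lit 87) (nat_lit 5) (nat_lit 389) (nat_lit 370) (nat_lit 141)) (XT.lf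 (nat_lit 0) (nat_lit 123890309625) (nat_lit 380) (nat_lit 44115044752) (nat_lit 76) (nat_lit 43200590737) (nat_lit 82) (nat_lit 5) (nat_lit 87) (nat_lit 5) (nat_lit 83) (nat_lit 5) (nat_lit 390) (nat_lit 370) (nat_lit 140)))))) (XT.nd (nat_lit 468) (nat_lit 760) (nat_lit 0) (XT.nd (nat_lit 234) (nat_lit 532) (nat_lit 0) (XT.nd (nat_lit 78) (nat_lit 304) (nat_lit 0) (XT.lf (nat_lit 0) (nat_lit 71316844658) (nat_lit 304) (nat_lit 86538820470) (nat_lit 380) (nat_lit 59546633471) (nat_lit 78) (nat_lit 5) (nat_lit 82) (nat_lit 5) (nat_lit 83) (nat_lit 5) (nat_lit 391) (nat_lit 370) (nat_lit 139)) (XT.nd (nat_lit 78) (nat_lit 304) (nat_lit 0) (XT.lf (nat_lit 0) (nat_lit 194051763378) (nat_lit 304) (nat_lit 214518865) (nat_lit 380) (nat_lit 29604837904) (nat_lit 78) (nat_lit 5) (nat_lit 82) (nat_lit 5) (nat_lit 83) (nat_lit 5) (nat_lit 392) (nat_lit 370) (nat_lit 138)) (XT.lf (nat_lit 0) (nat_lit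 4699494675) (nat_lit 304) (nat_lit 136743379797) (nat_lit 76) (nat_lit 89072869235) (nat_lit 74) (nat_lit 5) (nat_lit 78) (nat_lit 5) (nat_lit 75) (nat_lit 5) (nat_lit 393) (nat_lit 370) (nat_lit 137)))) (XT.nd (nat_lit 78) (nat_lit 532) (nat_lit 0) (XT.lf (nat_lit 0) (nat_lit 40240818584) (nat_lit 304) (nat_lit 13385677437) (nat_lit 76) (nat_lit 183816001664) (nat_lit 74) (nat_lit 5) (nat_lit 78) (nat_lit 5) (nat_lit 75) (nat_lit 5) (nat_lit 394) (nat_lit 370) (nat_lit 136)) (XT.nd (nat_lit 78) (nat_lit 228) (nat_lit 0) (XT.lf (nat_lit 0) (nat_lit 80065387748) (nat_lit 380) (nat_lit 125275112204) (nat_lit 76) (nat_lit 39249780527) (nat_lit 70) (nat_lit 5) (nat_lit 75) (nat_lit 5) (nat_lit 71) (nat_lit 5) (nat_lit 395) (nat_lit 370) (nat_lit 135)) (XT.lf (nat_lit 0) (nat_lit 6351987333) (nat_lit 228) (nat_lit 116737800769) (nat_lit 304) (nat_lit 128945234237) (nat_lit 67) (nat_lit 5) (nat_lit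 70) (nat_lit 5) (nat_lit 71) (nat_lit 5) (nat_lit 396) (nat_lit 370) (nat_lit 134))))) (XT.nd (nat_lit 234) (nat_lit 456) (nat_lit 0) (XT.nd (nat_lit 78) (nat_lit 304) (nat_lit 0) (XT.lf (nat_lit 0) (nat_lit 148909577283) (nat_lit 228) (nat_lit 21477326910) (nat_lit 304) (nat_lit 89359022374) (nat_lit 67) (nat_lit 5) (nat_lit 70) (nat_lit 5) (nat_lit 71) (nat_lit 5) (nat_lit 397) (nat_lit 370) (nat_lit 133)) (XT.nd (nat_lit 78) (nat_lit 76) (nat_lit 0) (XT.lf (nat_lit 0) (nat_lit 30502483359) (nat_lit 228) (nat_lit 191248853100) (nat_lit 304) (nat_lit 46005916588) (nat_lit 64) (nat_lit 5) (nat_lit 67) (nat_lit 5) (nat_lit 68) (nat_lit 5) (nat_lit 398) (nat_lit 370) (nat_lit 132)) (XT.lf (nat_lit 0) (nat_lit 1790204817) (nat_lit 304) (nat_lit 93694463875) (nat_lit 76) (nat_lit 180571864328) (nat_lit 63) (nat_lit 5) (nat_lit 67) (nat_lit 5) (nat_lit 64) (nat_lit 5) (nat_lit 399) (nat_lit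 370) (nat_lit 131)))) (XT.nd (nat_lit 78) (nat_lit 228) (nat_lit 0) (XT.lf (nat_lit 0) (nat_lit 51444206426) (nat_lit 304) (nat_lit 226643323225) (nat_lit 76) (nat_lit 6594828892) (nat_lit 60) (nat_lit 5) (nat_lit 64) (nat_lit 5) (nat_lit 61) (nat_lit 5) (nat_lit 400) (nat_lit 370) (nat_lit 130)) (XT.nd (nat_lit 78) (nat_lit 228) (nat_lit 0) (XT.lf (nat_lit 0) (nat_lit 106758916512) (nat_lit 304) (nat_lit 74639530495) (nat_lit 76) (nat_lit 112182127964) (nat_lit 60) (nat_lit 5) (nat_lit 64) (nat_lit 5) (nat_lit 61) (nat_lit 5) (nat_lit 401) (nat_lit 370) (nat_lit 129)) (XT.lf (nat_lit 0) (nat_lit 87773634442) (nat_lit 228) (nat_lit 78436036651) (nat_lit 304) (nat_lit 136645515724) (nat_lit 57) (nat_lit 5) (nat_lit 60) (nat_lit 5) (nat_lit 61) (nat_lit 5) (nat_lit 402) (nat_lit 370) (nat_lit 128))))))) (XT.nd (nat_lit 936) (nat_lit 684) (nat_lit 0) (XT.nd (nat_lit 468) (nat_lit 532) (nat_lit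 0) (XT.nd (nat_lit 234) (nat_lit 380) (nat_lit 0) (XT.nd (nat_lit 78) (nat_lit 228) (nat_lit 0) (XT.lf (nat_lit 0) (nat_lit 230380962295) (nat_lit 304) (nat_lit 52115700527) (nat_lit 76) (nat_lit 30009466532) (nat_lit 57) (nat_lit 5) (nat_lit 61) (nat_lit 5) (nat_lit 58) (nat_lit 5) (nat_lit 403) (nat_lit 370) (nat_lit 127)) (XT.nd (nat_lit 78) (nat_lit 76) (nat_lit 0) (XT.lf (nat_lit 0) (nat_lit 121604596208) (nat_lit 152) (nat_lit 179340569029) (nat_lit 228) (nat_lit 21535236464) (nat_lit 55) (nat_lit 5) (nat_lit 57) (nat_lit 5) (nat_lit 58) (nat_lit 5) (nat_lit 404) (nat_lit 370) (nat_lit 126)) (XT.lf (nat_lit 0) (nat_lit 41634229867) (nat_lit 228) (nat_lit 27760649549) (nat_lit 76) (nat_lit 263480805873) (nat_lit 54) (nat_lit 5) (nat_lit 57) (nat_lit 5) (nat_lit 55) (nat_lit 5) (nat_lit 405) (nat_lit 370) (nat_lit 125)))) (XT.nd (nat_lit 78) (nat_lit 152) (nat_lit 0) (XT.lf (nat_lit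 0) (nat_lit 110482066420) (nat_lit 304) (nat_lit 185676810076) (nat_lit 76) (nat_lit 47452023659) (nat_lit 51) (nat_lit 5) (nat_lit 55) (nat_lit 5) (nat_lit 52) (nat_lit 5) (nat_lit 406) (nat_lit 370) (nat_lit 124)) (XT.nd (nat_lit 78) (nat_lit 152) (nat_lit 0) (XT.lf (nat_lit 0) (nat_lit 184387690475) (nat_lit 304) (nat_lit 2127457023) (nat_lit 76) (nat_lit 168286958517) (nat_lit 51) (nat_lit 5) (nat_lit 55) (nat_lit 5) (nat_lit 52) (nat_lit 5) (nat_lit 407) (nat_lit 370) (nat_lit 123)) (XT.lf (nat_lit 0) (nat_lit 196901327423) (nat_lit 152) (nat_lit 68161380755) (nat_lit 228) (nat_lit 101336458400) (nat_lit 49) (nat_lit 5) (nat_lit 51) (nat_lit 5) (nat_lit 52) (nat_lit 5) (nat_lit 408) (nat_lit 370) (nat_lit 122))))) (XT.nd (nat_lit 234) (nat_lit 152) (nat_lit 0) (XT.nd (nat_lit 78) (nat_lit 228) (nat_lit 0) (XT.lf (nat_lit 0) (nat_lit 27380752364) (nat_lit 152) (nat_lit 323730802275)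 (nat_lit 228) (nat_lit 27397521669) (nat_lit 47) (nat_lit 5) (nat_lit 49) (nat_lit 5) (nat_lit 50) (nat_lit 5) (nat_lit 409) (nat_lit 370) (nat_lit 121)) (XT.nd (nat_lit 78) (nat_lit 152) (nat_lit 0) (XT.lf (nat_lit 0) (nat_lit 52665338376) (nat_lit 228) (nat_lit 153042028522) (nat_lit 76) (nat_lit 185276150681) (nat_lit 46) (nat_lit 5) (nat_lit 49) (nat_lit 5) (nat_lit 47) (nat_lit 5) (nat_lit 410) (nat_lit 370) (nat_lit 120)) (XT.lf (nat_lit 0) (nat_lit 56301331470) (nat_lit 152) (nat_lit 80388230723) (nat_lit 228) (nat_lit 267325713907) (nat_lit 44) (nat_lit 5) (nat_lit 46) (nat_lit 5) (nat_lit 47) (nat_lit 5) (nat_lit 411) (nat_lit 370) (nat_lit 119)))) (XT.nd (nat_lit 78) (nat_lit 152) (nat_lit 0) (XT.lf (nat_lit 0) (nat_lit 228348590117) (nat_lit 228) (nat_lit 136985818660) (nat_lit 76) (nat_lit 52192534149) (nat_lit 44) (nat_lit 5) (nat_lit 47) (nat_lit 5) (nat_lit 45) (nat_lit 5)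 (nat_lit 412) (nat_lit 370) (nat_lit 118)) (XT.nd (nat_lit 78) (nat_lit 0) (nat_lit 0) (XT.lf (nat_lit 0) (nat_lit 85703831037) (nat_lit 152) (nat_lit 241542594679) (nat_lit 228) (nat_lit 104334974587) (nat_lit 42) (nat_lit 5) (nat_lit 44) (nat_lit 5) (nat_lit 45) (nat_lit 5) (nat_lit 413) (nat_lit 370) (nat_lit 117)) (XT.lf (nat_lit 0) (nat_lit 324283702596) (nat_lit 152) (nat_lit 109125312407) (nat_lit 228) (nat_lit 12813572475) (nat_lit 42) (nat_lit 5) (nat_lit 44) (nat_lit 5) (nat_lit 45) (nat_lit 5) (nat_lit 414) (nat_lit 370) (nat_lit 116)))))) (XT.nd (nat_lit 468) (nat_lit 152) (nat_lit 0) (XT.nd (nat_lit 234) (nat_lit 152) (nat_lit 0) (XT.nd (nat_lit 78) (nat_lit 152) (nat_lit 0) (XT.lf (nat_lit 0) (nat_lit 82940942638) (nat_lit 228) (nat_lit 346362367657) (nat_lit 76) (nat_lit 32111376593) (nat_lit 39) (nat_lit 5) (nat_lit 42) (nat_lit 5) (nat_lit 40) (nat_lit 5) (nat_lit 415)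 (nat_lit 370) (nat_lit 115)) (XT.nd (nat_lit 78) (nat_lit 152) (nat_lit 0) (XT.lf (nat_lit 0) (nat_lit 186940394325) (nat_lit 228) (nat_lit 111169559197) (nat_lit 76) (nat_lit 179051543294) (nat_lit 39) (nat_lit 5) (nat_lit 42) (nat_lit 5) (nat_lit 40) (nat_lit 5) (nat_lit 416) (nat_lit 370) (nat_lit 114)) (XT.lf (nat_lit 0) (nat_lit 140272389989) (nat_lit 152) (nat_lit 158057419739) (nat_lit 228) (nat_lit 195256337975) (nat_lit 37) (nat_lit 5) (nat_lit 39) (nat_lit 5) (nat_lit 40) (nat_lit 5) (nat_lit 417) (nat_lit 370) (nat_lit 113)))) (XT.nd (nat_lit 78) (nat_lit 152) (nat_lit 0) (XT.lf (nat_lit 0) (nat_lit 408145901993) (nat_lit 152) (nat_lit 9025451350) (nat_lit 228) (nat_lit 93566544937) (nat_lit 37) (nat_lit 5) (nat_lit 39) (nat_lit 5) (nat_lit 40) (nat_lit 5) (nat_lit 418) (nat_lit 370) (nat_lit 112)) (XT.nd (nat_lit 78) (nat_lit 0) (nat_lit 0) (XT.lf (nat_lit 0) (nat_lit 17721055358)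 (nat_lit 152) (nat_lit 365190494253) (nat_lit 76) (nat_lit 145578573918) (nat_lit 35) (nat_lit 5) (nat_lit 37) (nat_lit 5) (nat_lit 36) (nat_lit 5) (nat_lit 419) (nat_lit 370) (nat_lit 111)) (XT.lf (nat_lit 0) (nat_lit 133342421582) (nat_lit 152) (nat_lit 102705896549) (nat_lit 76) (nat_lit 310909256266) (nat_lit 35) (nat_lit 5) (nat_lit 37) (nat_lit 5) (nat_lit 36) (nat_lit 5) (nat_lit 420) (nat_lit 370) (nat_lit 110))))) (XT.nd (nat_lit 43134) (nat_lit 0) (nat_lit 5624) (XT.nd (nat_lit 42978) (nat_lit 0) (nat_lit 5548) (XT.lf (nat_lit 0) (nat_lit 178619795598) (nat_lit 152) (nat_lit 78913767874) (nat_lit 228) (nat_lit 308675398984) (nat_lit 33) (nat_lit 5) (nat_lit 35) (nat_lit 5) (nat_lit 36) (nat_lit 5) (nat_lit 421) (nat_lit 370) (nat_lit 109)) (XT.nd (nat_lit 78) (nat_lit 0) (nat_lit 0) (XT.lf (nat_lit 0) (nat_lit 11170672972) (nat_lit 836) (nat_lit 26939193338) (nat_lit 836) (nat_lit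 26939193338) (nat_lit 106) (nat_lit 3) (nat_lit 117) (nat_lit 3) (nat_lit 117) (nat_lit 5) (nat_lit 371) (nat_lit 371) (nat_lit 158)) (XT.lf (nat_lit 76) (nat_lit 8554910072) (nat_lit 0) (nat_lit 14482285923) (nat_lit 836) (nat_lit 110306507215) (nat_lit 107) (nat_lit 5) (nat_lit 106) (nat_lit 3) (nat_lit 117) (nat_lit 5) (nat_lit 372) (nat_lit 371) (nat_lit 157)))) (XT.nd (nat_lit 156) (nat_lit 0) (nat_lit 76) (XT.nd (nat_lit 78) (nat_lit 0) (nat_lit 0) (XT.lf (nat_lit 0) (nat_lit 25480993268) (nat_lit 760) (nat_lit 61526618798) (nat_lit 836) (nat_lit 49658296724) (nat_lit 107) (nat_lit 5) (nat_lit 117) (nat_lit 5) (nat_lit 118) (nat_lit 5) (nat_lit 373) (nat_lit 371) (nat_lit 156)) (XT.lf (nat_lit 76) (nat_lit 4815229663) (nat_lit 0) (nat_lit 23544115585) (nat_lit 836) (nat_lit 111779261357) (nat_lit 108) (nat_lit 5) (nat_lit 107) (nat_lit 5) (nat_lit 118) (nat_lit 5) (nat_lit 374) (nat_lit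 371) (nat_lit 155))) (XT.nd (nat_lit 78) (nat_lit 0) (nat_lit 0) (XT.lf (nat_lit 0) (nat_lit 33113256344) (nat_lit 760) (nat_lit 67812629381) (nat_lit 836) (nat_lit 42772471698) (nat_lit 108) (nat_lit 5) (nat_lit 118) (nat_lit 5) (nat_lit 119) (nat_lit 5) (nat_lit 375) (nat_lit 371) (nat_lit 154)) (XT.lf (nat_lit 76) (nat_lit 2776408091) (nat_lit 0) (nat_lit 35757563146) (nat_lit 836) (nat_lit 108880669313) (nat_lit 109) (nat_lit 5) (nat_lit 108) (nat_lit 5) (nat_lit 119) (nat_lit 5) (nat_lit 376) (nat_lit 371) (nat_lit 153))))))))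
noncomputable def xc241 : XT := (XT.nd (nat_lit 1950) (nat_lit 1900) (nat_lit 0) (XT.nd (nat_lit 936) (nat_lit 1976) (nat_lit 0) (XT.nd (nat_lit 468) (nat_lit 1140) (nat_lit 0) (XT.nd (nat_lit 234) (nat_lit 608) (nat_lit 0) (XT.nd (nat_lit 78) (nat_lit 0) (nat_lit 0) (XT.lf (nat_lit 0) (nat_lit 45902846186) (nat_lit 760) (nat_lit 72539150970) (nat_lit 836) (nat_lit 32790884633) (nat_lit 109) (nat_lit 5) (nat_lit 119) (nat_lit 5) (nat_lit 120) (nat_lit 5) (nat_lit 377) (nat_lit 371) (nat_lit 152)) (XT.nd (nat_lit 78) (nat_lit 0) (nat_lit 76) (XT.lf (nat_lit 76) (nat_lit 2663811094) (nat_lit 0) (nat_lit 51603942765) (nat_lit 836) (nat_lit 100942901945) (nat_lit 110) (nat_lit 5) (nat_lit 109) (nat_lit 5) (nat_lit 120) (nat_lit 5) (nat_lit 378) (nat_lit 371) (nat_lit 151)) (XT.lf (nat_lit 0) (nat_lit 64589372687) (nat_lit 760) (nat_lit 75490890430) (nat_lit 836) (nat_lit 19230132270) (nat_lit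 110) (nat_lit 5) (nat_lit 120) (nat_lit 5) (nat_lit 121) (nat_lit 5) (nat_lit 379) (nat_lit 371) (nat_lit 150)))) (XT.nd (nat_lit 78) (nat_lit 684) (nat_lit 0) (XT.lf (nat_lit 76) (nat_lit 4722914994) (nat_lit 0) (nat_lit 71623687769) (nat_lit 836) (nat_lit 87222542818) (nat_lit 111) (nat_lit 5) (nat_lit 110) (nat_lit 5) (nat_lit 121) (nat_lit 5) (nat_lit 380) (nat_lit 371) (nat_lit 149)) (XT.nd (nat_lit 78) (nat_lit 760) (nat_lit 0) (XT.lf (nat_lit 0) (nat_lit 89994952750) (nat_lit 760) (nat_lit 76433726373) (nat_lit 76) (nat_lit 1546991381) (nat_lit 111) (nat_lit 5) (nat_lit 121) (nat_lit 5) (nat_lit 112) (nat_lit 5) (nat_lit 381) (nat_lit 371) (nat_lit 148)) (XT.lf (nat_lit 0) (nat_lit 9220205814) (nat_lit 760) (nat_lit 96423467061) (nat_lit 836) (nat_lit 66892951302) (nat_lit 101) (nat_lit 5) (nat_lit 111) (nat_lit 5) (nat_lit 112) (nat_lit 5) (nat_lit 382) (nat_lit 371) (nat_lit 147)))))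 (XT.nd (nat_lit 234) (nat_lit 760) (nat_lit 0) (XT.nd (nat_lit 78) (nat_lit 380) (nat_lit 0) (XT.lf (nat_lit 0) (nat_lit 101810300712) (nat_lit 760) (nat_lit 21558816408) (nat_lit 836) (nat_lit 53891794136) (nat_lit 101) (nat_lit 5) (nat_lit 111) (nat_lit 5) (nat_lit 112) (nat_lit 5) (nat_lit 383) (nat_lit 371) (nat_lit 146)) (XT.nd (nat_lit 78) (nat_lit 0) (nat_lit 0) (XT.lf (nat_lit 0) (nat_lit 16443959999) (nat_lit 380) (nat_lit 126684159202) (nat_lit 456) (nat_lit 39035929329) (nat_lit 96) (nat_lit 5) (nat_lit 101) (nat_lit 5) (nat_lit 102) (nat_lit 5) (nat_lit 384) (nat_lit 371) (nat_lit 145)) (XT.lf (nat_lit 0) (nat_lit 115187485919) (nat_lit 380) (nat_lit 50312959225) (nat_lit 456) (nat_lit 21730628949) (nat_lit 96) (nat_lit 5) (nat_lit 101) (nat_lit 5) (nat_lit 102) (nat_lit 5) (nat_lit 385) (nat_lit 371) (nat_lit 144)))) (XT.nd (nat_lit 78) (nat_lit 456) (nat_lit 0) (XT.lf (nat_lit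 0) (nat_lit 26704859623) (nat_lit 304) (nat_lit 163169791154) (nat_lit 380) (nat_lit 2632637099) (nat_lit 92) (nat_lit 5) (nat_lit 96) (nat_lit 5) (nat_lit 97) (nat_lit 5) (nat_lit 386) (nat_lit 371) (nat_lit 143)) (XT.nd (nat_lit 78) (nat_lit 380) (nat_lit 0) (XT.lf (nat_lit 0) (nat_lit 18927461718) (nat_lit 380) (nat_lit 66211311824) (nat_lit 76) (nat_lit 112791701742) (nat_lit 91) (nat_lit 5) (nat_lit 96) (nat_lit 5) (nat_lit 92) (nat_lit 5) (nat_lit 387) (nat_lit 371) (nat_lit 142)) (XT.lf (nat_lit 0) (nat_lit 39582969902) (nat_lit 380) (nat_lit 2511996267) (nat_lit 456) (nat_lit 161496804361) (nat_lit 86) (nat_lit 5) (nat_lit 91) (nat_lit 5) (nat_lit 92) (nat_lit 5) (nat_lit 388) (nat_lit 371) (nat_lit 141)))))) (XT.nd (nat_lit 468) (nat_lit 1064) (nat_lit 0) (XT.nd (nat_lit 234) (nat_lit 608) (nat_lit 0) (XT.nd (nat_lit 78) (nat_lit 304) (nat_lit 0) (XT.lf (nat_lit 0) (nat_lit 68875744053)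 (nat_lit 456) (nat_lit 57848230557) (nat_lit 76) (nat_lit 82689411109) (nat_lit 86) (nat_lit 5) (nat_lit 92) (nat_lit 5) (nat_lit 87) (nat_lit 5) (nat_lit 389) (nat_lit 371) (nat_lit 140)) (XT.nd (nat_lit 78) (nat_lit 0) (nat_lit 0) (XT.lf (nat_lit 0) (nat_lit 55350621240) (nat_lit 304) (nat_lit 42550181289) (nat_lit 380) (nat_lit 117580017140) (nat_lit 82) (nat_lit 5) (nat_lit 86) (nat_lit 5) (nat_lit 87) (nat_lit 5) (nat_lit 390) (nat_lit 371) (nat_lit 139)) (XT.lf (nat_lit 0) (nat_lit 130088319227) (nat_lit 380) (nat_lit 46316631913) (nat_lit 76) (nat_lit 45361113993) (nat_lit 82) (nat_lit 5) (nat_lit 87) (nat_lit 5) (nat_lit 83) (nat_lit 5) (nat_lit 391) (nat_lit 371) (nat_lit 138)))) (XT.nd (nat_lit 78) (nat_lit 304) (nat_lit 0) (XT.lf (nat_lit 0) (nat_lit 74886784790) (nat_lit 304) (nat_lit 90865055308) (nat_lit 380) (nat_lit 62520401434) (nat_lit 78) (nat_lit 5) (nat_lit 82) (nat_lit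 5) (nat_lit 83) (nat_lit 5) (nat_lit 392) (nat_lit 371) (nat_lit 137)) (XT.nd (nat_lit 78) (nat_lit 304) (nat_lit 0) (XT.lf (nat_lit 0) (nat_lit 203758254308) (nat_lit 304) (nat_lit 224572251) (nat_lit 380) (nat_lit 31081685789) (nat_lit 78) (nat_lit 5) (nat_lit 82) (nat_lit 5) (nat_lit 83) (nat_lit 5) (nat_lit 393) (nat_lit 371) (nat_lit 136)) (XT.lf (nat_lit 0) (nat_lit 4937671834) (nat_lit 304) (nat_lit 143576450170) (nat_lit 76) (nat_lit 93527246684) (nat_lit 74) (nat_lit 5) (nat_lit 78) (nat_lit 5) (nat_lit 75) (nat_lit 5) (nat_lit 394) (nat_lit 371) (nat_lit 135))))) (XT.nd (nat_lit 234) (nat_lit 532) (nat_lit 0) (XT.nd (nat_lit 78) (nat_lit 532) (nat_lit 0) (XT.lf (nat_lit 0) (nat_lit 42255909442) (nat_lit 304) (nat_lit 14051057864) (nat_lit 76) (nat_lit 193007500783) (nat_lit 74) (nat_lit 5) (nat_lit 78) (nat_lit 5) (nat_lit 75) (nat_lit 5) (nat_lit 395) (nat_lit 371) (nat_lit 134))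 (XT.nd (nat_lit 78) (nat_lit 228) (nat_lit 0) (XT.lf (nat_lit 0) (nat_lit 84071635464) (nat_lit 380) (nat_lit 131534890880) (nat_lit 76) (nat_lit 41213117352) (nat_lit 70) (nat_lit 5) (nat_lit 75) (nat_lit 5) (nat_lit 71) (nat_lit 5) (nat_lit 396) (nat_lit 371) (nat_lit 133)) (XT.lf (nat_lit 0) (nat_lit 6673499490) (nat_lit 228) (nat_lit 122573675610) (nat_lit 304) (nat_lit 135389451676) (nat_lit 67) (nat_lit 5) (nat_lit 70) (nat_lit 5) (nat_lit 71) (nat_lit 5) (nat_lit 397) (nat_lit 371) (nat_lit 132)))) (XT.nd (nat_lit 156) (nat_lit 304) (nat_lit 0) (XT.nd (nat_lit 78) (nat_lit 228) (nat_lit 0) (XT.lf (nat_lit 0) (nat_lit 156358782614) (nat_lit 228) (nat_lit 22550226401) (nat_lit 304) (nat_lit 93824074185) (nat_lit 67) (nat_lit 5) (nat_lit 70) (nat_lit 5) (nat_lit 71) (nat_lit 5) (nat_lit 398) (nat_lit 371) (nat_lit 131)) (XT.lf (nat_lit 0) (nat_lit 32031396479) (nat_lit 228) (nat_lit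 200810208539) (nat_lit 304) (nat_lit 48303373963) (nat_lit 64) (nat_lit 5) (nat_lit 67) (nat_lit 5) (nat_lit 68) (nat_lit 5) (nat_lit 399) (nat_lit 371) (nat_lit 130))) (XT.nd (nat_lit 78) (nat_lit 228) (nat_lit 0) (XT.lf (nat_lit 0) (nat_lit 1882331825) (nat_lit 304) (nat_lit 98375490540) (nat_lit 76) (nat_lit 189601404986) (nat_lit 63) (nat_lit 5) (nat_lit 67) (nat_lit 5) (nat_lit 64) (nat_lit 5) (nat_lit 400) (nat_lit 371) (nat_lit 129)) (XT.lf (nat_lit 0) (nat_lit 54018982675) (nat_lit 304) (nat_lit 237971740609) (nat_lit 76) (nat_lit 6925623480) (nat_lit 60) (nat_lit 5) (nat_lit 64) (nat_lit 5) (nat_lit 61) (nat_lit 5) (nat_lit 401) (nat_lit 371) (nat_lit 128))))))) (XT.nd (nat_lit 936) (nat_lit 684) (nat_lit 0) (XT.nd (nat_lit 468) (nat_lit 532) (nat_lit 0) (XT.nd (nat_lit 234) (nat_lit 456) (nat_lit 0) (XT.nd (nat_lit 78) (nat_lit 228) (nat_lit 0) (XT.lf (nat_lit 0) (nat_lit 112099306079)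 (nat_lit 304) (nat_lit 78367936755) (nat_lit 76) (nat_lit 117792237355) (nat_lit 60) (nat_lit 5) (nat_lit 64) (nat_lit 5) (nat_lit 61) (nat_lit 5) (nat_lit 402) (nat_lit 371) (nat_lit 127)) (XT.nd (nat_lit 78) (nat_lit 0) (nat_lit 0) (XT.lf (nat_lit 0) (nat_lit 92165828844) (nat_lit 228) (nat_lit 82356708019) (nat_lit 304) (nat_lit 143475288905) (nat_lit 57) (nat_lit 5) (nat_lit 60) (nat_lit 5) (nat_lit 61) (nat_lit 5) (nat_lit 403) (nat_lit 371) (nat_lit 126)) (XT.lf (nat_lit 0) (nat_lit 241902295996) (nat_lit 304) (nat_lit 54718042297) (nat_lit 76) (nat_lit 31510982032) (nat_lit 57) (nat_lit 5) (nat_lit 61) (nat_lit 5) (nat_lit 58) (nat_lit 5) (nat_lit 404) (nat_lit 371) (nat_lit 125)))) (XT.nd (nat_lit 78) (nat_lit 304) (nat_lit 0) (XT.lf (nat_lit 0) (nat_lit 127688213739) (nat_lit 152) (nat_lit 188306439400) (nat_lit 228) (nat_lit 22609656005) (nat_lit 55) (nat_lit 5) (nat_lit 57) (nat_lit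 5) (nat_lit 58) (nat_lit 5) (nat_lit 405) (nat_lit 371) (nat_lit 124)) (XT.nd (nat_lit 78) (nat_lit 228) (nat_lit 0) (XT.lf (nat_lit 0) (nat_lit 43718100707) (nat_lit 228) (nat_lit 29145383176) (nat_lit 76) (nat_lit 276655876650) (nat_lit 54) (nat_lit 5) (nat_lit 57) (nat_lit 5) (nat_lit 55) (nat_lit 5) (nat_lit 406) (nat_lit 371) (nat_lit 123)) (XT.lf (nat_lit 0) (nat_lit 116008294710) (nat_lit 304) (nat_lit 194957316349) (nat_lit 76) (nat_lit 49825726853) (nat_lit 51) (nat_lit 5) (nat_lit 55) (nat_lit 5) (nat_lit 52) (nat_lit 5) (nat_lit 407) (nat_lit 371) (nat_lit 122))))) (XT.nd (nat_lit 234) (nat_lit 228) (nat_lit 0) (XT.nd (nat_lit 78) (nat_lit 304) (nat_lit 0) (XT.lf (nat_lit 0) (nat_lit 193609098779) (nat_lit 304) (nat_lit 2230654416) (nat_lit 76) (nat_lit 176702355977) (nat_lit 51) (nat_lit 5) (nat_lit 55) (nat_lit 5) (nat_lit 52) (nat_lit 5) (nat_lit 408) (nat_lit 371) (nat_lit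 121)) (XT.nd (nat_lit 78) (nat_lit 152) (nat_lit 0) (XT.lf (nat_lit 0) (nat_lit 206749518035) (nat_lit 152) (nat_lit 71568301740) (nat_lit 228) (nat_lit 106401205414) (nat_lit 49) (nat_lit 5) (nat_lit 51) (nat_lit 5) (nat_lit 52) (nat_lit 5) (nat_lit 409) (nat_lit 371) (nat_lit 120)) (XT.lf (nat_lit 0) (nat_lit 28752944306) (nat_lit 152) (nat_lit 339916136466) (nat_lit 228) (nat_lit 28765351065) (nat_lit 47) (nat_lit 5) (nat_lit 49) (nat_lit 5) (nat_lit 50) (nat_lit 5) (nat_lit 410) (nat_lit 371) (nat_lit 119)))) (XT.nd (nat_lit 78) (nat_lit 152) (nat_lit 0) (XT.lf (nat_lit 0) (nat_lit 55300492134) (nat_lit 228) (nat_lit 160691062657) (nat_lit 76) (nat_lit 194541043540) (nat_lit 46) (nat_lit 5) (nat_lit 49) (nat_lit 5) (nat_lit 47) (nat_lit 5) (nat_lit 411) (nat_lit 371) (nat_lit 118)) (XT.nd (nat_lit 78) (nat_lit 0) (nat_lit 0) (XT.lf (nat_lit 0) (nat_lit 59119415862) (nat_lit 152) (nat_lit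 84406468547) (nat_lit 228) (nat_lit 280690062543) (nat_lit 44) (nat_lit 5) (nat_lit 46) (nat_lit 5) (nat_lit 47) (nat_lit 5) (nat_lit 412) (nat_lit 371) (nat_lit 117)) (XT.lf (nat_lit 0) (nat_lit 239767793367) (nat_lit 228) (nat_lit 143832164405) (nat_lit 76) (nat_lit 54803242901) (nat_lit 44) (nat_lit 5) (nat_lit 47) (nat_lit 5) (nat_lit 45) (nat_lit 5) (nat_lit 413) (nat_lit 371) (nat_lit 116)))))) (XT.nd (nat_lit 468) (nat_lit 152) (nat_lit 0) (XT.nd (nat_lit 234) (nat_lit 152) (nat_lit 0) (XT.nd (nat_lit 78) (nat_lit 228) (nat_lit 0) (XT.lf (nat_lit 0) (nat_lit 89991920274) (nat_lit 152) (nat_lit 253618561250) (nat_lit 228) (nat_lit 109549901391) (nat_lit 42) (nat_lit 5) (nat_lit 44) (nat_lit 5) (nat_lit 45) (nat_lit 5) (nat_lit 414) (nat_lit 371) (nat_lit 115)) (XT.nd (nat_lit 78) (nat_lit 228) (nat_lit 0) (XT.lf (nat_lit 0) (nat_lit 340500647425) (nat_lit 152) (nat_lit 114580470253)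 (nat_lit 228) (nat_lit 13452515931) (nat_lit 42) (nat_lit 5) (nat_lit 44) (nat_lit 5) (nat_lit 45) (nat_lit 5) (nat_lit 415) (nat_lit 371) (nat_lit 114)) (XT.lf (nat_lit 0) (nat_lit 87089650276) (nat_lit 228) (nat_lit 363677650479) (nat_lit 76) (nat_lit 33718036866) (nat_lit 39) (nat_lit 5) (nat_lit 42) (nat_lit 5) (nat_lit 40) (nat_lit 5) (nat_lit 416) (nat_lit 371) (nat_lit 113)))) (XT.nd (nat_lit 78) (nat_lit 152) (nat_lit 0) (XT.lf (nat_lit 0) (nat_lit 196288995476) (nat_lit 228) (nat_lit 116725336622) (nat_lit 76) (nat_lit 188005159929) (nat_lit 39) (nat_lit 5) (nat_lit 42) (nat_lit 5) (nat_lit 40) (nat_lit 5) (nat_lit 417) (nat_lit 371) (nat_lit 112)) (XT.nd (nat_lit 78) (nat_lit 0) (nat_lit 0) (XT.lf (nat_lit 0) (nat_lit 147288666465) (nat_lit 152) (nat_lit 165959181360) (nat_lit 228) (nat_lit 205017529351) (nat_lit 37) (nat_lit 5) (nat_lit 39) (nat_lit 5) (nat_lit 40) (nat_lit 5)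 (nat_lit 418) (nat_lit 371) (nat_lit 111)) (XT.lf (nat_lit 0) (nat_lit 428555727548) (nat_lit 152) (nat_lit 9475667378) (nat_lit 228) (nat_lit 98243324067) (nat_lit 37) (nat_lit 5) (nat_lit 39) (nat_lit 5) (nat_lit 40) (nat_lit 5) (nat_lit 419) (nat_lit 371) (nat_lit 110))))) (XT.nd (nat_lit 43290) (nat_lit 0) (nat_lit 5472) (XT.nd (nat_lit 43134) (nat_lit 0) (nat_lit 5396) (XT.lf (nat_lit 0) (nat_lit 18608591709) (nat_lit 152) (nat_lit 383447423036) (nat_lit 76) (nat_lit 152858540322) (nat_lit 35) (nat_lit 5) (nat_lit 37) (nat_lit 5) (nat_lit 36) (nat_lit 5) (nat_lit 420) (nat_lit 371) (nat_lit 109)) (XT.nd (nat_lit 78) (nat_lit 0) (nat_lit 0) (XT.lf (nat_lit 0) (nat_lit 11732898349) (nat_lit 836) (nat_lit 28284213248) (nat_lit 836) (nat_lit 28284213248) (nat_lit 106) (nat_lit 3) (nat_lit 117) (nat_lit 3) (nat_lit 117) (nat_lit 5) (nat_lit 372) (nat_lit 372) (nat_lit 156)) (XT.lf (nat_lit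 76) (nat_lit 8986472518) (nat_lit 0) (nat_lit 15209674734) (nat_lit 836) (nat_lit 115814380452) (nat_lit 107) (nat_lit 5) (nat_lit 106) (nat_lit 3) (nat_lit 117) (nat_lit 5) (nat_lit 373) (nat_lit 372) (nat_lit 155)))) (XT.nd (nat_lit 156) (nat_lit 0) (nat_lit 76) (XT.nd (nat_lit 78) (nat_lit 0) (nat_lit 0) (XT.lf (nat_lit 0) (nat_lit 26761748010) (nat_lit 760) (nat_lit 64598922373) (nat_lit 836) (nat_lit 52138192788) (nat_lit 107) (nat_lit 5) (nat_lit 117) (nat_lit 5) (nat_lit 118) (nat_lit 5) (nat_lit 374) (nat_lit 372) (nat_lit 154)) (XT.lf (nat_lit 76) (nat_lit 5059953554) (nat_lit 0) (nat_lit 24723806611) (nat_lit 836) (nat_lit 117361448860) (nat_lit 108) (nat_lit 5) (nat_lit 107) (nat_lit 5) (nat_lit 118) (nat_lit 5) (nat_lit 375) (nat_lit 372) (nat_lit 153))) (XT.nd (nat_lit 78) (nat_lit 0) (nat_lit 0) (XT.lf (nat_lit 0) (nat_lit 34775022830) (nat_lit 760) (nat_lit 71199137879) (nat_lit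 836) (nat_lit 44908804137) (nat_lit 108) (nat_lit 5) (nat_lit 118) (nat_lit 5) (nat_lit 119) (nat_lit 5) (nat_lit 376) (nat_lit 372) (nat_lit 152)) (XT.lf (nat_lit 76) (nat_lit 2919284967) (nat_lit 0) (nat_lit 37547261183) (nat_lit 836) (nat_lit 114318527597) (nat_lit 109) (nat_lit 5) (nat_lit 108) (nat_lit 5) (nat_lit 119) (nat_lit 5) (nat_lit 377) (nat_lit 372) (nat_lit 151))))))))
noncomputable def xc242 : XT := (XT.nd (nat_lit 1872) (nat_lit 1976) (nat_lit 0) (XT.nd (nat_lit 936) (nat_lit 1748) (nat_lit 0) (XT.nd (nat_lit 468) (nat_lit 1140) (nat_lit 0) (XT.nd (nat_lit 234) (nat_lit 608) (nat_lit 0) (XT.nd (nat_lit 78) (nat_lit 0) (nat_lit 0) (XT.lf (nat_lit 0) (nat_lit 48203557959) (nat_lit 760) (nat_lit 76161933551) (nat_lit 836) (nat_lit 34428751121) (nat_lit 109) (nat_lit 5) (nat_lit 119) (nat_lit 5) (nat_lit 120) (nat_lit 5) (nat_lit 378) (nat_lit 372) (nat_lit 150)) (XT.nd (nat_lit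 78) (nat_lit 0) (nat_lit 76) (XT.lf (nat_lit 76) (nat_lit 2801109278) (nat_lit 0) (nat_lit 54185400657) (nat_lit 836) (nat_lit 105984405693) (nat_lit 110) (nat_lit 5) (nat_lit 109) (nat_lit 5) (nat_lit 120) (nat_lit 5) (nat_lit 379) (nat_lit 372) (nat_lit 149)) (XT.lf (nat_lit 0) (nat_lit 67823935320) (nat_lit 760) (nat_lit 79261244209) (nat_lit 836) (nat_lit 20190476596) (nat_lit 110) (nat_lit 5) (nat_lit 120) (nat_lit 5) (nat_lit 121) (nat_lit 5) (nat_lit 380) (nat_lit 372) (nat_lit 148)))) (XT.nd (nat_lit 78) (nat_lit 684) (nat_lit 0) (XT.lf (nat_lit 76) (nat_lit 4963183894) (nat_lit 0) (nat_lit 75205664809) (nat_lit 836) (nat_lit 91578504243) (nat_lit 111) (nat_lit 5) (nat_lit 110) (nat_lit 5) (nat_lit 121) (nat_lit 5) (nat_lit 381) (nat_lit 372) (nat_lit 147)) (XT.nd (nat_lit 78) (nat_lit 760) (nat_lit 0) (XT.lf (nat_lit 0) (nat_lit 94499370318) (nat_lit 760) (nat_lit 80251236082)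 (nat_lit 76) (nat_lit 1623610206) (nat_lit 111) (nat_lit 5) (nat_lit 121) (nat_lit 5) (nat_lit 112) (nat_lit 5) (nat_lit 382) (nat_lit 372) (nat_lit 146)) (XT.lf (nat_lit 0) (nat_lit 9685325350) (nat_lit 760) (nat_lit 101245042878) (nat_lit 836) (nat_lit 70232857832) (nat_lit 101) (nat_lit 5) (nat_lit 111) (nat_lit 5) (nat_lit 112) (nat_lit 5) (nat_lit 383) (nat_lit 372) (nat_lit 145))))) (XT.nd (nat_lit 234) (nat_lit 760) (nat_lit 0) (XT.nd (nat_lit 78) (nat_lit 380) (nat_lit 0) (XT.lf (nat_lit 0) (nat_lit 106904729315) (nat_lit 760) (nat_lit 22637140527) (nat_lit 836) (nat_lit 56581868571) (nat_lit 101) (nat_lit 5) (nat_lit 111) (nat_lit 5) (nat_lit 112) (nat_lit 5) (nat_lit 384) (nat_lit 372) (nat_lit 144)) (XT.nd (nat_lit 78) (nat_lit 0) (nat_lit 0) (XT.lf (nat_lit 0) (nat_lit 17270229215) (nat_lit 380) (nat_lit 133018446062) (nat_lit 456) (nat_lit 40983364779) (nat_lit 96) (nat_lit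 5) (nat_lit 101) (nat_lit 5) (nat_lit 102) (nat_lit 5) (nat_lit 385) (nat_lit 372) (nat_lit 143)) (XT.lf (nat_lit 0) (nat_lit 120950737564) (nat_lit 380) (nat_lit 52828682330) (nat_lit 456) (nat_lit 22813007048) (nat_lit 96) (nat_lit 5) (nat_lit 101) (nat_lit 5) (nat_lit 102) (nat_lit 5) (nat_lit 386) (nat_lit 372) (nat_lit 142)))) (XT.nd (nat_lit 78) (nat_lit 456) (nat_lit 0) (XT.lf (nat_lit 0) (nat_lit 28044116187) (nat_lit 304) (nat_lit 171328092954) (nat_lit 380) (nat_lit 2760248761) (nat_lit 92) (nat_lit 5) (nat_lit 96) (nat_lit 5) (nat_lit 97) (nat_lit 5) (nat_lit 387) (nat_lit 372) (nat_lit 141)) (XT.nd (nat_lit 78) (nat_lit 380) (nat_lit 0) (XT.lf (nat_lit 0) (nat_lit 19877541015) (nat_lit 380) (nat_lit 69517929620) (nat_lit 76) (nat_lit 118431340311) (nat_lit 91) (nat_lit 5) (nat_lit 96) (nat_lit 5) (nat_lit 92) (nat_lit 5) (nat_lit 388) (nat_lit 372) (nat_lit 140)) (XT.lf (nat_lit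 0) (nat_lit 41566002518) (nat_lit 380) (nat_lit 2637302326) (nat_lit 456) (nat_lit 169567872035) (nat_lit 86) (nat_lit 5) (nat_lit 91) (nat_lit 5) (nat_lit 92) (nat_lit 5) (nat_lit 389) (nat_lit 372) (nat_lit 139)))))) (XT.nd (nat_lit 468) (nat_lit 836) (nat_lit 0) (XT.nd (nat_lit 234) (nat_lit 608) (nat_lit 0) (XT.nd (nat_lit 78) (nat_lit 304) (nat_lit 0) (XT.lf (nat_lit 0) (nat_lit 72322955021) (nat_lit 456) (nat_lit 60736773788) (nat_lit 76) (nat_lit 86824152476) (nat_lit 86) (nat_lit 5) (nat_lit 92) (nat_lit 5) (nat_lit 87) (nat_lit 5) (nat_lit 390) (nat_lit 372) (nat_lit 138)) (XT.nd (nat_lit 78) (nat_lit 0) (nat_lit 0) (XT.lf (nat_lit 0) (nat_lit 58121958207) (nat_lit 304) (nat_lit 44677204598) (nat_lit 380) (nat_lit 123455529428) (nat_lit 82) (nat_lit 5) (nat_lit 86) (nat_lit 5) (nat_lit 87) (nat_lit 5) (nat_lit 391) (nat_lit 372) (nat_lit 137)) (XT.lf (nat_lit 0) (nat_lit 136595904458)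 (nat_lit 380) (nat_lit 48628685660) (nat_lit 76) (nat_lit 47629617511) (nat_lit 82) (nat_lit 5) (nat_lit 87) (nat_lit 5) (nat_lit 83) (nat_lit 5) (nat_lit 392) (nat_lit 372) (nat_lit 136)))) (XT.nd (nat_lit 78) (nat_lit 304) (nat_lit 0) (XT.lf (nat_lit 0) (nat_lit 78634840944) (nat_lit 304) (nat_lit 95407667543) (nat_lit 380) (nat_lit 65643189115) (nat_lit 78) (nat_lit 5) (nat_lit 82) (nat_lit 5) (nat_lit 83) (nat_lit 5) (nat_lit 393) (nat_lit 372) (nat_lit 135)) (XT.nd (nat_lit 78) (nat_lit 304) (nat_lit 0) (XT.lf (nat_lit 0) (nat_lit 213949706942) (nat_lit 304) (nat_lit 235190834) (nat_lit 380) (nat_lit 32632691611) (nat_lit 78) (nat_lit 5) (nat_lit 82) (nat_lit 5) (nat_lit 83) (nat_lit 5) (nat_lit 394) (nat_lit 372) (nat_lit 134)) (XT.lf (nat_lit 0) (nat_lit 5187460120) (nat_lit 304) (nat_lit 150751555112) (nat_lit 76) (nat_lit 98204274766) (nat_lit 74) (nat_lit 5) (nat_lit 78) (nat_lit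 5) (nat_lit 75) (nat_lit 5) (nat_lit 395) (nat_lit 372) (nat_lit 133))))) (XT.nd (nat_lit 234) (nat_lit 304) (nat_lit 0) (XT.nd (nat_lit 78) (nat_lit 532) (nat_lit 0) (XT.lf (nat_lit 0) (nat_lit 44371471289) (nat_lit 304) (nat_lit 14750070218) (nat_lit 76) (nat_lit 202658509868) (nat_lit 74) (nat_lit 5) (nat_lit 78) (nat_lit 5) (nat_lit 75) (nat_lit 5) (nat_lit 396) (nat_lit 372) (nat_lit 132)) (XT.nd (nat_lit 78) (nat_lit 228) (nat_lit 0) (XT.lf (nat_lit 0) (nat_lit 88277918669) (nat_lit 380) (nat_lit 138108028228) (nat_lit 76) (nat_lit 43274542199) (nat_lit 70) (nat_lit 5) (nat_lit 75) (nat_lit 5) (nat_lit 71) (nat_lit 5) (nat_lit 397) (nat_lit 372) (nat_lit 131)) (XT.lf (nat_lit 0) (nat_lit 7010723480) (nat_lit 228) (nat_lit 128701438578) (nat_lit 304) (nat_lit 142156163015) (nat_lit 67) (nat_lit 5) (nat_lit 70) (nat_lit 5) (nat_lit 71) (nat_lit 5) (nat_lit 398) (nat_lit 372) (nat_lit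 130)))) (XT.nd (nat_lit 78) (nat_lit 304) (nat_lit 0) (XT.lf (nat_lit 0) (nat_lit 164180101760) (nat_lit 228) (nat_lit 23676860756) (nat_lit 304) (nat_lit 98512648138) (nat_lit 67) (nat_lit 5) (nat_lit 70) (nat_lit 5) (nat_lit 71) (nat_lit 5) (nat_lit 399) (nat_lit 372) (nat_lit 129)) (XT.nd (nat_lit 78) (nat_lit 76) (nat_lit 0) (XT.lf (nat_lit 0) (nat_lit 33636402993) (nat_lit 228) (nat_lit 210849732828) (nat_lit 304) (nat_lit 50715968099) (nat_lit 64) (nat_lit 5) (nat_lit 67) (nat_lit 5) (nat_lit 68) (nat_lit 5) (nat_lit 400) (nat_lit 372) (nat_lit 128)) (XT.lf (nat_lit 0) (nat_lit 1978821902) (nat_lit 304) (nat_lit 103290912207) (nat_lit 76) (nat_lit 199082334593) (nat_lit 63) (nat_lit 5) (nat_lit 67) (nat_lit 5) (nat_lit 64) (nat_lit 5) (nat_lit 401) (nat_lit 372) (nat_lit 127))))))) (XT.nd (nat_lit 936) (nat_lit 532) (nat_lit 0) (XT.nd (nat_lit 468) (nat_lit 760) (nat_lit 0) (XT.nd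 (nat_lit 234) (nat_lit 228) (nat_lit 0) (XT.nd (nat_lit 78) (nat_lit 228) (nat_lit 0) (XT.lf (nat_lit 0) (nat_lit 56722259182) (nat_lit 304) (nat_lit 249866927387) (nat_lit 76) (nat_lit 7272859886) (nat_lit 60) (nat_lit 5) (nat_lit 64) (nat_lit 5) (nat_lit 61) (nat_lit 5) (nat_lit 402) (nat_lit 372) (nat_lit 126)) (XT.nd (nat_lit 78) (nat_lit 228) (nat_lit 0) (XT.lf (nat_lit 0) (nat_lit 117706487928) (nat_lit 304) (nat_lit 82283095258) (nat_lit 76) (nat_lit 123682758968) (nat_lit 60) (nat_lit 5) (nat_lit 64) (nat_lit 5) (nat_lit 61) (nat_lit 5) (nat_lit 403) (nat_lit 372) (nat_lit 125)) (XT.lf (nat_lit 0) (nat_lit 96777306390) (nat_lit 228) (nat_lit 86473518056) (nat_lit 304) (nat_lit 150646783414) (nat_lit 57) (nat_lit 5) (nat_lit 60) (nat_lit 5) (nat_lit 61) (nat_lit 5) (nat_lit 404) (nat_lit 372) (nat_lit 124)))) (XT.nd (nat_lit 78) (nat_lit 228) (nat_lit 0) (XT.lf (nat_lit 0) (nat_lit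 253999483889) (nat_lit 304) (nat_lit 57450821276) (nat_lit 76) (nat_lit 33087476416) (nat_lit 57) (nat_lit 5) (nat_lit 61) (nat_lit 5) (nat_lit 58) (nat_lit 5) (nat_lit 405) (nat_lit 372) (nat_lit 123)) (XT.nd (nat_lit 78) (nat_lit 76) (nat_lit 0) (XT.lf (nat_lit 0) (nat_lit 134075697189) (nat_lit 152) (nat_lit 197720710956) (nat_lit 228) (nat_lit 23738014287) (nat_lit 55) (nat_lit 5) (nat_lit 57) (nat_lit 5) (nat_lit 58) (nat_lit 5) (nat_lit 406) (nat_lit 372) (nat_lit 122)) (XT.lf (nat_lit 0) (nat_lit 45905964334) (nat_lit 228) (nat_lit 30599660180) (nat_lit 76) (nat_lit 290489605162) (nat_lit 54) (nat_lit 5) (nat_lit 57) (nat_lit 5) (nat_lit 55) (nat_lit 5) (nat_lit 407) (nat_lit 372) (nat_lit 121))))) (XT.nd (nat_lit 234) (nat_lit 380) (nat_lit 0) (XT.nd (nat_lit 78) (nat_lit 152) (nat_lit 0) (XT.lf (nat_lit 0) (nat_lit 121810636855) (nat_lit 304) (nat_lit 204702157921) (nat_lit 76)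 (nat_lit 52318012753) (nat_lit 51) (nat_lit 5) (nat_lit 55) (nat_lit 5) (nat_lit 52) (nat_lit 5) (nat_lit 408) (nat_lit 372) (nat_lit 120)) (XT.nd (nat_lit 78) (nat_lit 152) (nat_lit 0) (XT.lf (nat_lit 0) (nat_lit 203291389346) (nat_lit 304) (nat_lit 2339306903) (nat_lit 76) (nat_lit 185538425735) (nat_lit 51) (nat_lit 5) (nat_lit 55) (nat_lit 5) (nat_lit 52) (nat_lit 5) (nat_lit 409) (nat_lit 372) (nat_lit 119)) (XT.lf (nat_lit 0) (nat_lit 217089827715) (nat_lit 152) (nat_lit 75145675509) (nat_lit 228) (nat_lit 111719382777) (nat_lit 49) (nat_lit 5) (nat_lit 51) (nat_lit 5) (nat_lit 52) (nat_lit 5) (nat_lit 410) (nat_lit 372) (nat_lit 118)))) (XT.nd (nat_lit 78) (nat_lit 228) (nat_lit 0) (XT.lf (nat_lit 0) (nat_lit 30193452587) (nat_lit 152) (nat_lit 356910849483) (nat_lit 228) (nat_lit 30201762212) (nat_lit 47) (nat_lit 5) (nat_lit 49) (nat_lit 5) (nat_lit 50) (nat_lit 5) (nat_lit 411)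 (nat_lit 372) (nat_lit 117)) (XT.nd (nat_lit 78) (nat_lit 152) (nat_lit 0) (XT.lf (nat_lit 0) (nat_lit 58067228160) (nat_lit 228) (nat_lit 168722833667) (nat_lit 76) (nat_lit 204269080139) (nat_lit 46) (nat_lit 5) (nat_lit 49) (nat_lit 5) (nat_lit 47) (nat_lit 5) (nat_lit 412) (nat_lit 372) (nat_lit 116)) (XT.lf (nat_lit 0) (nat_lit 62078123906) (nat_lit 152) (nat_lit 88625727382) (nat_lit 228) (nat_lit 294722808701) (nat_lit 44) (nat_lit 5) (nat_lit 46) (nat_lit 5) (nat_lit 47) (nat_lit 5) (nat_lit 413) (nat_lit 372) (nat_lit 115)))))) (XT.nd (nat_lit 43680) (nat_lit 0) (nat_lit 5244) (XT.nd (nat_lit 234) (nat_lit 380) (nat_lit 0) (XT.nd (nat_lit 78) (nat_lit 152) (nat_lit 0) (XT.lf (nat_lit 0) (nat_lit 251757791873) (nat_lit 228) (nat_lit 151021101254) (nat_lit 76) (nat_lit 57544386492) (nat_lit 44) (nat_lit 5) (nat_lit 47) (nat_lit 5) (nat_lit 45) (nat_lit 5) (nat_lit 414) (nat_lit 372)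 (nat_lit 114)) (XT.nd (nat_lit 78) (nat_lit 0) (nat_lit 0) (XT.lf (nat_lit 0) (nat_lit 94494144573) (nat_lit 152) (nat_lit 266298434289) (nat_lit 228) (nat_lit 115025743921) (nat_lit 42) (nat_lit 5) (nat_lit 44) (nat_lit 5) (nat_lit 45) (nat_lit 5) (nat_lit 415) (nat_lit 372) (nat_lit 113)) (XT.lf (nat_lit 0) (nat_lit 357528182925) (nat_lit 152) (nat_lit 120308488981) (nat_lit 228) (nat_lit 14123567881) (nat_lit 42) (nat_lit 5) (nat_lit 44) (nat_lit 5) (nat_lit 45) (nat_lit 5) (nat_lit 416) (nat_lit 372) (nat_lit 112)))) (XT.nd (nat_lit 156) (nat_lit 152) (nat_lit 0) (XT.lf (nat_lit 0) (nat_lit 91445638918) (nat_lit 228) (nat_lit 381858961066) (nat_lit 76) (nat_lit 35404928681) (nat_lit 39) (nat_lit 5) (nat_lit 42) (nat_lit 5) (nat_lit 40) (nat_lit 5) (nat_lit 417) (nat_lit 372) (nat_lit 111)) (XT.nd (nat_lit 78) (nat_lit 0) (nat_lit 0) (XT.lf (nat_lit 0) (nat_lit 154655509745) (nat_lit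 152) (nat_lit 174256134201) (nat_lit 228) (nat_lit 215266931421) (nat_lit 37) (nat_lit 5) (nat_lit 39) (nat_lit 5) (nat_lit 40) (nat_lit 5) (nat_lit 419) (nat_lit 372) (nat_lit 109)) (XT.lf (nat_lit 0) (nat_lit 449985809122) (nat_lit 152) (nat_lit 9948492435) (nat_lit 228) (nat_lit 103154086082) (nat_lit 37) (nat_lit 5) (nat_lit 39) (nat_lit 5) (nat_lit 40) (nat_lit 5) (nat_lit 420) (nat_lit 372) (nat_lit 108))))) (XT.nd (nat_lit 234) (nat_lit 0) (nat_lit 76) (XT.nd (nat_lit 78) (nat_lit 0) (nat_lit 0) (XT.lf (nat_lit 0) (nat_lit 12322891773) (nat_lit 836) (nat_lit 29696664493) (nat_lit 836) (nat_lit 29696664493) (nat_lit 106) (nat_lit 3) (nat_lit 117) (nat_lit 3) (nat_lit 117) (nat_lit 5) (nat_lit 373) (nat_lit 373) (nat_lit 154)) (XT.nd (nat_lit 78) (nat_lit 0) (nat_lit 76) (XT.lf (nat_lit 76) (nat_lit 9439258222) (nat_lit 0) (nat_lit 15973128553) (nat_lit 836) (nat_lit 121598340178)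 (nat_lit 107) (nat_lit 5) (nat_lit 106) (nat_lit 3) (nat_lit 117) (nat_lit 5) (nat_lit 374) (nat_lit 373) (nat_lit 153)) (XT.lf (nat_lit 0) (nat_lit 28105917115) (nat_lit 760) (nat_lit 67825215553) (nat_lit 836) (nat_lit 54742364312) (nat_lit 107) (nat_lit 5) (nat_lit 117) (nat_lit 5) (nat_lit 118) (nat_lit 5) (nat_lit 375) (nat_lit 373) (nat_lit 152)))) (XT.nd (nat_lit 156) (nat_lit 0) (nat_lit 76) (XT.nd (nat_lit 78) (nat_lit 0) (nat_lit 76) (XT.lf (nat_lit 76) (nat_lit 5316545252) (nat_lit 0) (nat_lit 25962251133) (nat_lit 836) (nat_lit 123223375667) (nat_lit 108) (nat_lit 5) (nat_lit 107) (nat_lit 5) (nat_lit 118) (nat_lit 5) (nat_lit 376) (nat_lit 373) (nat_lit 151)) (XT.lf (nat_lit 0) (nat_lit 36519310179) (nat_lit 760) (nat_lit 74755355117) (nat_lit 836) (nat_lit 47152166208) (nat_lit 108) (nat_lit 5) (nat_lit 118) (nat_lit 5) (nat_lit 119) (nat_lit 5) (nat_lit 377) (nat_lit 373)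 (nat_lit 150))) (XT.nd (nat_lit 78) (nat_lit 0) (nat_lit 76) (XT.lf (nat_lit 76) (nat_lit 3068928554) (nat_lit 0) (nat_lit 39426274926) (nat_lit 836) (nat_lit 120028852905) (nat_lit 109) (nat_lit 5) (nat_lit 108) (nat_lit 5) (nat_lit 119) (nat_lit 5) (nat_lit 378) (nat_lit 373) (nat_lit 149)) (XT.lf (nat_lit 0) (nat_lit 50618787525) (nat_lit 760) (nat_lit 79966243410) (nat_lit 836) (nat_lit 36148666913) (nat_lit 109) (nat_lit 5) (nat_lit 119) (nat_lit 5) (nat_lit 120) (nat_lit 5) (nat_lit 379) (nat_lit 373) (nat_lit 148))))))))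
noncomputable def xc243 : XT := (XT.nd (nat_lit 1950) (nat_lit 1596) (nat_lit 0) (XT.nd (nat_lit 936) (nat_lit 1976) (nat_lit 0) (XT.nd (nat_lit 468) (nat_lit 1140) (nat_lit 0) (XT.nd (nat_lit 234) (nat_lit 608) (nat_lit 0) (XT.nd (nat_lit 78) (nat_lit 0) (nat_lit 76) (XT.lf (nat_lit 76) (nat_lit 2944890482) (nat_lit 0) (nat_lit 56895814231) (nat_lit 836) (nat_lit 111278509107) (nat_lit 110) (nat_lit 5) (nat_lit 109) (nat_lit 5) (nat_lit 120) (nat_lit 5) (nat_lit 380) (nat_lit 373) (nat_lit 147)) (XT.nd (nat_lit 78) (nat_lit 0) (nat_lit 0) (XT.lf (nat_lit 0) (nat_lit 71219752494) (nat_lit 760) (nat_lit 83220505292) (nat_lit 836) (nat_lit 21198946197) (nat_lit 110) (nat_lit 5) (nat_lit 120) (nat_lit 5) (nat_lit 121) (nat_lit 5) (nat_lit 381) (nat_lit 373) (nat_lit 146)) (XT.lf (nat_lit 76) (nat_lit 5215082907) (nat_lit 0) (nat_lit 78966667007) (nat_lit 836) (nat_lit 96152743998) (nat_lit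 111) (nat_lit 5) (nat_lit 110) (nat_lit 5) (nat_lit 121) (nat_lit 5) (nat_lit 382) (nat_lit 373) (nat_lit 145)))) (XT.nd (nat_lit 78) (nat_lit 760) (nat_lit 0) (XT.lf (nat_lit 0) (nat_lit 99228574597) (nat_lit 760) (nat_lit 84260009578) (nat_lit 76) (nat_lit 1704127909) (nat_lit 111) (nat_lit 5) (nat_lit 121) (nat_lit 5) (nat_lit 112) (nat_lit 5) (nat_lit 383) (nat_lit 373) (nat_lit 144)) (XT.nd (nat_lit 78) (nat_lit 0) (nat_lit 0) (XT.lf (nat_lit 0) (nat_lit 10173318825) (nat_lit 760) (nat_lit 106307660068) (nat_lit 836) (nat_lit 73740200464) (nat_lit 101) (nat_lit 5) (nat_lit 111) (nat_lit 5) (nat_lit 112) (nat_lit 5) (nat_lit 384) (nat_lit 373) (nat_lit 143)) (XT.lf (nat_lit 0) (nat_lit 112253515501) (nat_lit 760) (nat_lit 23769345217) (nat_lit 836) (nat_lit 59406866514) (nat_lit 101) (nat_lit 5) (nat_lit 111) (nat_lit 5) (nat_lit 112) (nat_lit 5) (nat_lit 385) (nat_lit 373) (nat_lit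 142))))) (XT.nd (nat_lit 234) (nat_lit 456) (nat_lit 0) (XT.nd (nat_lit 78) (nat_lit 304) (nat_lit 0) (XT.lf (nat_lit 0) (nat_lit 18137433389) (nat_lit 380) (nat_lit 139669439930) (nat_lit 456) (nat_lit 43028577448) (nat_lit 96) (nat_lit 5) (nat_lit 101) (nat_lit 5) (nat_lit 102) (nat_lit 5) (nat_lit 386) (nat_lit 373) (nat_lit 141)) (XT.nd (nat_lit 78) (nat_lit 304) (nat_lit 0) (XT.lf (nat_lit 0) (nat_lit 127001791312) (nat_lit 380) (nat_lit 55470184603) (nat_lit 456) (nat_lit 23949890191) (nat_lit 96) (nat_lit 5) (nat_lit 101) (nat_lit 5) (nat_lit 102) (nat_lit 5) (nat_lit 387) (nat_lit 373) (nat_lit 140)) (XT.lf (nat_lit 0) (nat_lit 29449962433) (nat_lit 304) (nat_lit 179894327299) (nat_lit 380) (nat_lit 2894614765) (nat_lit 92) (nat_lit 5) (nat_lit 96) (nat_lit 5) (nat_lit 97) (nat_lit 5) (nat_lit 388) (nat_lit 373) (nat_lit 139)))) (XT.nd (nat_lit 78) (nat_lit 380) (nat_lit 0) (XT.lf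 (nat_lit 0) (nat_lit 20874779709) (nat_lit 380) (nat_lit 72990245335) (nat_lit 76) (nat_lit 124352955836) (nat_lit 91) (nat_lit 5) (nat_lit 96) (nat_lit 5) (nat_lit 92) (nat_lit 5) (nat_lit 389) (nat_lit 373) (nat_lit 138)) (XT.nd (nat_lit 78) (nat_lit 0) (nat_lit 0) (XT.lf (nat_lit 0) (nat_lit 43647825656) (nat_lit 380) (nat_lit 2768900999) (nat_lit 456) (nat_lit 178042843828) (nat_lit 86) (nat_lit 5) (nat_lit 91) (nat_lit 5) (nat_lit 92) (nat_lit 5) (nat_lit 390) (nat_lit 373) (nat_lit 137)) (XT.lf (nat_lit 0) (nat_lit 75942208228) (nat_lit 456) (nat_lit 63770103817) (nat_lit 76) (nat_lit 91165605733) (nat_lit 86) (nat_lit 5) (nat_lit 92) (nat_lit 5) (nat_lit 87) (nat_lit 5) (nat_lit 391) (nat_lit 373) (nat_lit 136)))))) (XT.nd (nat_lit 468) (nat_lit 1064) (nat_lit 0) (XT.nd (nat_lit 234) (nat_lit 304) (nat_lit 0) (XT.nd (nat_lit 78) (nat_lit 304) (nat_lit 0) (XT.lf (nat_lit 0) (nat_lit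 61031508186) (nat_lit 304) (nat_lit 46910624233) (nat_lit 380) (nat_lit 129625141665) (nat_lit 82) (nat_lit 5) (nat_lit 86) (nat_lit 5) (nat_lit 87) (nat_lit 5) (nat_lit 392) (nat_lit 373) (nat_lit 135)) (XT.nd (nat_lit 78) (nat_lit 304) (nat_lit 0) (XT.lf (nat_lit 0) (nat_lit 143428574303) (nat_lit 380) (nat_lit 51056693323) (nat_lit 76) (nat_lit 50011504570) (nat_lit 82) (nat_lit 5) (nat_lit 87) (nat_lit 5) (nat_lit 83) (nat_lit 5) (nat_lit 393) (nat_lit 373) (nat_lit 134)) (XT.lf (nat_lit 0) (nat_lit 82569954343) (nat_lit 304) (nat_lit 100177469939) (nat_lit 380) (nat_lit 68922416697) (nat_lit 78) (nat_lit 5) (nat_lit 82) (nat_lit 5) (nat_lit 83) (nat_lit 5) (nat_lit 394) (nat_lit 373) (nat_lit 133)))) (XT.nd (nat_lit 78) (nat_lit 304) (nat_lit 0) (XT.lf (nat_lit 0) (nat_lit 224650403101) (nat_lit 304) (nat_lit 246397061) (nat_lit 380) (nat_lit 34261533931) (nat_lit 78) (nat_lit 5) (nat_lit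 82) (nat_lit 5) (nat_lit 83) (nat_lit 5) (nat_lit 395) (nat_lit 373) (nat_lit 132)) (XT.nd (nat_lit 78) (nat_lit 0) (nat_lit 0) (XT.lf (nat_lit 0) (nat_lit 5449467769) (nat_lit 304) (nat_lit 158285760926) (nat_lit 76) (nat_lit 103115092358) (nat_lit 74) (nat_lit 5) (nat_lit 78) (nat_lit 5) (nat_lit 75) (nat_lit 5) (nat_lit 396) (nat_lit 373) (nat_lit 131)) (XT.lf (nat_lit 0) (nat_lit 46592554038) (nat_lit 304) (nat_lit 15484362356) (nat_lit 76) (nat_lit 212792010460) (nat_lit 74) (nat_lit 5) (nat_lit 78) (nat_lit 5) (nat_lit 75) (nat_lit 5) (nat_lit 397) (nat_lit 373) (nat_lit 130))))) (XT.nd (nat_lit 234) (nat_lit 532) (nat_lit 0) (XT.nd (nat_lit 78) (nat_lit 228) (nat_lit 0) (XT.lf (nat_lit 0) (nat_lit 92694264881) (nat_lit 380) (nat_lit 145010157806) (nat_lit 76) (nat_lit 45438966795) (nat_lit 70) (nat_lit 5) (nat_lit 75) (nat_lit 5) (nat_lit 71) (nat_lit 5) (nat_lit 398) (nat_lit 373)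 (nat_lit 129)) (XT.nd (nat_lit 78) (nat_lit 0) (nat_lit 0) (XT.lf (nat_lit 0) (nat_lit 7364478716) (nat_lit 228) (nat_lit 135135675302) (nat_lit 304) (nat_lit 149261466635) (nat_lit 67) (nat_lit 5) (nat_lit 70) (nat_lit 5) (nat_lit 71) (nat_lit 5) (nat_lit 399) (nat_lit 373) (nat_lit 128)) (XT.lf (nat_lit 0) (nat_lit 172392172621) (nat_lit 228) (nat_lit 24859908361) (nat_lit 304) (nat_lit 103435895277) (nat_lit 67) (nat_lit 5) (nat_lit 70) (nat_lit 5) (nat_lit 71) (nat_lit 5) (nat_lit 400) (nat_lit 373) (nat_lit 127)))) (XT.nd (nat_lit 156) (nat_lit 228) (nat_lit 0) (XT.nd (nat_lit 78) (nat_lit 76) (nat_lit 0) (XT.lf (nat_lit 0) (nat_lit 35321340323) (nat_lit 228) (nat_lit 221391325013) (nat_lit 304) (nat_lit 53249431301) (nat_lit 64) (nat_lit 5) (nat_lit 67) (nat_lit 5) (nat_lit 68) (nat_lit 5) (nat_lit 401) (nat_lit 373) (nat_lit 126)) (XT.lf (nat_lit 0) (nat_lit 2079915818) (nat_lit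 304) (nat_lit 108452416675) (nat_lit 76) (nat_lit 209037230785) (nat_lit 63) (nat_lit 5) (nat_lit 67) (nat_lit 5) (nat_lit 64) (nat_lit 5) (nat_lit 402) (nat_lit 373) (nat_lit 125))) (XT.nd (nat_lit 78) (nat_lit 0) (nat_lit 0) (XT.lf (nat_lit 0) (nat_lit 59560483136) (nat_lit 304) (nat_lit 262357189628) (nat_lit 76) (nat_lit 7637369304) (nat_lit 60) (nat_lit 5) (nat_lit 64) (nat_lit 5) (nat_lit 61) (nat_lit 5) (nat_lit 403) (nat_lit 373) (nat_lit 124)) (XT.lf (nat_lit 0) (nat_lit 123593822796) (nat_lit 304) (nat_lit 86394312755) (nat_lit 76) (nat_lit 129867722082) (nat_lit 60) (nat_lit 5) (nat_lit 64) (nat_lit 5) (nat_lit 61) (nat_lit 5) (nat_lit 404) (nat_lit 373) (nat_lit 123))))))) (XT.nd (nat_lit 936) (nat_lit 228) (nat_lit 0) (XT.nd (nat_lit 468) (nat_lit 684) (nat_lit 0) (XT.nd (nat_lit 234) (nat_lit 304) (nat_lit 0) (XT.nd (nat_lit 78) (nat_lit 152) (nat_lit 0) (XT.lf (nat_lit 0)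 (nat_lit 101619061600) (nat_lit 228) (nat_lit 90796263922) (nat_lit 304) (nat_lit 158177063685) (nat_lit 57) (nat_lit 5) (nat_lit 60) (nat_lit 5) (nat_lit 61) (nat_lit 5) (nat_lit 405) (nat_lit 373) (nat_lit 122)) (XT.nd (nat_lit 78) (nat_lit 152) (nat_lit 0) (XT.lf (nat_lit 0) (nat_lit 266701338440) (nat_lit 304) (nat_lit 60320529564) (nat_lit 76) (nat_lit 34742707636) (nat_lit 57) (nat_lit 5) (nat_lit 61) (nat_lit 5) (nat_lit 58) (nat_lit 5) (nat_lit 406) (nat_lit 373) (nat_lit 121)) (XT.lf (nat_lit 0) (nat_lit 140782269134) (nat_lit 152) (nat_lit 207605793749) (nat_lit 228) (nat_lit 24922988000) (nat_lit 55) (nat_lit 5) (nat_lit 57) (nat_lit 5) (nat_lit 58) (nat_lit 5) (nat_lit 407) (nat_lit 373) (nat_lit 120)))) (XT.nd (nat_lit 78) (nat_lit 228) (nat_lit 0) (XT.lf (nat_lit 0) (nat_lit 48203039051) (nat_lit 228) (nat_lit 32126929217) (nat_lit 76) (nat_lit 305014933201) (nat_lit 54) (nat_lit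 5) (nat_lit 57) (nat_lit 5) (nat_lit 55) (nat_lit 5) (nat_lit 408) (nat_lit 373) (nat_lit 119)) (XT.nd (nat_lit 78) (nat_lit 0) (nat_lit 0) (XT.lf (nat_lit 0) (nat_lit 127902916915) (nat_lit 304) (nat_lit 214934522737) (nat_lit 76) (nat_lit 54934820018) (nat_lit 51) (nat_lit 5) (nat_lit 55) (nat_lit 5) (nat_lit 52) (nat_lit 5) (nat_lit 409) (nat_lit 373) (nat_lit 118)) (XT.lf (nat_lit 0) (nat_lit 213457623782) (nat_lit 304) (nat_lit 2453659791) (nat_lit 76) (nat_lit 194816210476) (nat_lit 51) (nat_lit 5) (nat_lit 55) (nat_lit 5) (nat_lit 52) (nat_lit 5) (nat_lit 410) (nat_lit 373) (nat_lit 117))))) (XT.nd (nat_lit 234) (nat_lit 304) (nat_lit 0) (XT.nd (nat_lit 78) (nat_lit 228) (nat_lit 0) (XT.lf (nat_lit 0) (nat_lit 227946889422) (nat_lit 152) (nat_lit 78902014778) (nat_lit 228) (nat_lit 117303644063) (nat_lit 49) (nat_lit 5) (nat_lit 51) (nat_lit 5) (nat_lit 52) (nat_lit 5) (nat_lit 411)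 (nat_lit 373) (nat_lit 116)) (XT.nd (nat_lit 78) (nat_lit 76) (nat_lit 0) (XT.lf (nat_lit 0) (nat_lit 31705720287) (nat_lit 152) (nat_lit 374755399842) (nat_lit 228) (nat_lit 31710166507) (nat_lit 47) (nat_lit 5) (nat_lit 49) (nat_lit 5) (nat_lit 50) (nat_lit 5) (nat_lit 412) (nat_lit 373) (nat_lit 115)) (XT.lf (nat_lit 0) (nat_lit 60972141875) (nat_lit 228) (nat_lit 177156451882) (nat_lit 76) (nat_lit 214483427045) (nat_lit 46) (nat_lit 5) (nat_lit 49) (nat_lit 5) (nat_lit 47) (nat_lit 5) (nat_lit 413) (nat_lit 373) (nat_lit 114)))) (XT.nd (nat_lit 78) (nat_lit 152) (nat_lit 0) (XT.lf (nat_lit 0) (nat_lit 65184512868) (nat_lit 152) (nat_lit 93056048135) (nat_lit 228) (nat_lit 309457355512) (nat_lit 44) (nat_lit 5) (nat_lit 46) (nat_lit 5) (nat_lit 47) (nat_lit 5) (nat_lit 414) (nat_lit 373) (nat_lit 113)) (XT.nd (nat_lit 78) (nat_lit 152) (nat_lit 0) (XT.lf (nat_lit 0) (nat_lit 264347140730)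 (nat_lit 228) (nat_lit 158569733304) (nat_lit 76) (nat_lit 60422496017) (nat_lit 44) (nat_lit 5) (nat_lit 47) (nat_lit 5) (nat_lit 45) (nat_lit 5) (nat_lit 415) (nat_lit 373) (nat_lit 112)) (XT.lf (nat_lit 0) (nat_lit 99221235733) (nat_lit 152) (nat_lit 279612399066) (nat_lit 228) (nat_lit 120775532215) (nat_lit 42) (nat_lit 5) (nat_lit 44) (nat_lit 5) (nat_lit 45) (nat_lit 5) (nat_lit 416) (nat_lit 373) (nat_lit 111)))))) (XT.nd (nat_lit 43758) (nat_lit 0) (nat_lit 5168) (XT.nd (nat_lit 43524) (nat_lit 0) (nat_lit 5092) (XT.nd (nat_lit 78) (nat_lit 228) (nat_lit 0) (XT.lf (nat_lit 0) (nat_lit 375406862483) (nat_lit 152) (nat_lit 126323002062) (nat_lit 228) (nat_lit 14828318748) (nat_lit 42) (nat_lit 5) (nat_lit 44) (nat_lit 5) (nat_lit 45) (nat_lit 5) (nat_lit 417) (nat_lit 373) (nat_lit 110)) (XT.nd (nat_lit 78) (nat_lit 0) (nat_lit 0) (XT.lf (nat_lit 0) (nat_lit 96019286967) (nat_lit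 228) (nat_lit 400949576296) (nat_lit 76) (nat_lit 37176073048) (nat_lit 39) (nat_lit 5) (nat_lit 42) (nat_lit 5) (nat_lit 40) (nat_lit 5) (nat_lit 418) (nat_lit 373) (nat_lit 109)) (XT.lf (nat_lit 0) (nat_lit 216411424691) (nat_lit 228) (nat_lit 128684889952) (nat_lit 76) (nat_lit 207277533967) (nat_lit 39) (nat_lit 5) (nat_lit 42) (nat_lit 5) (nat_lit 40) (nat_lit 5) (nat_lit 419) (nat_lit 373) (nat_lit 108)))) (XT.nd (nat_lit 78) (nat_lit 0) (nat_lit 0) (XT.lf (nat_lit 0) (nat_lit 12942073556) (nat_lit 836) (nat_lit 31179901875) (nat_lit 836) (nat_lit 31179901875) (nat_lit 106) (nat_lit 3) (nat_lit 117) (nat_lit 3) (nat_lit 117) (nat_lit 5) (nat_lit 374) (nat_lit 374) (nat_lit 152)) (XT.nd (nat_lit 78) (nat_lit 0) (nat_lit 76) (XT.lf (nat_lit 76) (nat_lit 9914361341) (nat_lit 0) (nat_lit 16774478933) (nat_lit 836) (nat_lit 127672126306) (nat_lit 107) (nat_lit 5) (nat_lit 106) (nat_lit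 3) (nat_lit 117) (nat_lit 5) (nat_lit 375) (nat_lit 374) (nat_lit 151)) (XT.lf (nat_lit 0) (nat_lit 29516729256) (nat_lit 760) (nat_lit 71213163008) (nat_lit 836) (nat_lit 57476998977) (nat_lit 107) (nat_lit 5) (nat_lit 117) (nat_lit 5) (nat_lit 118) (nat_lit 5) (nat_lit 376) (nat_lit 374) (nat_lit 150))))) (XT.nd (nat_lit 234) (nat_lit 0) (nat_lit 152) (XT.nd (nat_lit 78) (nat_lit 0) (nat_lit 76) (XT.lf (nat_lit 76) (nat_lit 5585632397) (nat_lit 0) (nat_lit 27262408308) (nat_lit 836) (nat_lit 129378970177) (nat_lit 108) (nat_lit 5) (nat_lit 107) (nat_lit 5) (nat_lit 118) (nat_lit 5) (nat_lit 377) (nat_lit 374) (nat_lit 149)) (XT.nd (nat_lit 78) (nat_lit 0) (nat_lit 0) (XT.lf (nat_lit 0) (nat_lit 38350297191) (nat_lit 760) (nat_lit 78489730895) (nat_lit 836) (nat_lit 49507889587) (nat_lit 108) (nat_lit 5) (nat_lit 118) (nat_lit 5) (nat_lit 119) (nat_lit 5) (nat_lit 378) (nat_lit 374) (nat_lit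 148)) (XT.lf (nat_lit 76) (nat_lit 3225712251) (nat_lit 0) (nat_lit 41399085892) (nat_lit 836) (nat_lit 126025215213) (nat_lit 109) (nat_lit 5) (nat_lit 108) (nat_lit 5) (nat_lit 119) (nat_lit 5) (nat_lit 379) (nat_lit 374) (nat_lit 147)))) (XT.nd (nat_lit 156) (nat_lit 0) (nat_lit 76) (XT.nd (nat_lit 78) (nat_lit 0) (nat_lit 0) (XT.lf (nat_lit 0) (nat_lit 53154308913) (nat_lit 760) (nat_lit 83961120824) (nat_lit 836) (nat_lit 37954719974) (nat_lit 109) (nat_lit 5) (nat_lit 119) (nat_lit 5) (nat_lit 120) (nat_lit 5) (nat_lit 380) (nat_lit 374) (nat_lit 146)) (XT.lf (nat_lit 76) (nat_lit 3095514363) (nat_lit 0) (nat_lit 59741642168) (nat_lit 836) (nat_lit 116837793410) (nat_lit 110) (nat_lit 5) (nat_lit 109) (nat_lit 5) (nat_lit 120) (nat_lit 5) (nat_lit 381) (nat_lit 374) (nat_lit 145))) (XT.nd (nat_lit 78) (nat_lit 0) (nat_lit 0) (XT.lf (nat_lit 0) (nat_lit 74784930964) (nat_lit 760) (nat_lit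 87378082822) (nat_lit 836) (nat_lit 22257937290) (nat_lit 110) (nat_lit 5) (nat_lit 120) (nat_lit 5) (nat_lit 121) (nat_lit 5) (nat_lit 382) (nat_lit 374) (nat_lit 144)) (XT.lf (nat_lit 76) (nat_lit 5479229178) (nat_lit 0) (nat_lit 82915652474) (nat_lit 836) (nat_lit 100956131350) (nat_lit 111) (nat_lit 5) (nat_lit 110) (nat_lit 5) (nat_lit 121) (nat_lit 5) (nat_lit 383) (nat_lit 374) (nat_lit 143))))))))
noncomputable def xc244 : XT := (XT.nd (nat_lit 1872) (nat_lit 1368) (nat_lit 0) (XT.nd (nat_lit 936) (nat_lit 1596) (nat_lit 0) (XT.nd (nat_lit 468) (nat_lit 1064) (nat_lit 0) (XT.nd (nat_lit 234) (nat_lit 684) (nat_lit 0) (XT.nd (nat_lit 78) (nat_lit 760) (nat_lit 0) (XT.lf (nat_lit 0) (nat_lit 104193845290) (nat_lit 760) (nat_lit 88469573949) (nat_lit 76) (nat_lit 1788733120) (nat_lit 111) (nat_lit 5) (nat_lit 121) (nat_lit 5) (nat_lit 112) (nat_lit 5) (nat_lit 384) (nat_lit 374) (nat_lit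 142)) (XT.nd (nat_lit 78) (nat_lit 0) (nat_lit 0) (XT.lf (nat_lit 0) (nat_lit 10685365452) (nat_lit 760) (nat_lit 111623374179) (nat_lit 836) (nat_lit 77423310025) (nat_lit 101) (nat_lit 5) (nat_lit 111) (nat_lit 5) (nat_lit 112) (nat_lit 5) (nat_lit 385) (nat_lit 374) (nat_lit 141)) (XT.lf (nat_lit 0) (nat_lit 117869410977) (nat_lit 760) (nat_lit 24958127818) (nat_lit 836) (nat_lit 62373495115) (nat_lit 101) (nat_lit 5) (nat_lit 111) (nat_lit 5) (nat_lit 112) (nat_lit 5) (nat_lit 386) (nat_lit 374) (nat_lit 140)))) (XT.nd (nat_lit 78) (nat_lit 304) (nat_lit 0) (XT.lf (nat_lit 0) (nat_lit 19047654459) (nat_lit 380) (nat_lit 146652976837) (nat_lit 456) (nat_lit 45176418502) (nat_lit 96) (nat_lit 5) (nat_lit 101) (nat_lit 5) (nat_lit 102) (nat_lit 5) (nat_lit 387) (nat_lit 374) (nat_lit 139)) (XT.nd (nat_lit 78) (nat_lit 304) (nat_lit 0) (XT.lf (nat_lit 0) (nat_lit 133355070782) (nat_lit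 380) (nat_lit 58243755653) (nat_lit 456) (nat_lit 25143967730) (nat_lit 96) (nat_lit 5) (nat_lit 101) (nat_lit 5) (nat_lit 102) (nat_lit 5) (nat_lit 388) (nat_lit 374) (nat_lit 138)) (XT.lf (nat_lit 0) (nat_lit 30925762539) (nat_lit 304) (nat_lit 188888889195) (nat_lit 380) (nat_lit 3036038081) (nat_lit 92) (nat_lit 5) (nat_lit 96) (nat_lit 5) (nat_lit 97) (nat_lit 5) (nat_lit 389) (nat_lit 374) (nat_lit 137))))) (XT.nd (nat_lit 234) (nat_lit 608) (nat_lit 0) (XT.nd (nat_lit 78) (nat_lit 380) (nat_lit 0) (XT.lf (nat_lit 0) (nat_lit 21921567803) (nat_lit 380) (nat_lit 76636509740) (nat_lit 76) (nat_lit 130570647627) (nat_lit 91) (nat_lit 5) (nat_lit 96) (nat_lit 5) (nat_lit 92) (nat_lit 5) (nat_lit 390) (nat_lit 374) (nat_lit 136)) (XT.nd (nat_lit 78) (nat_lit 0) (nat_lit 0) (XT.lf (nat_lit 0) (nat_lit 45833412415) (nat_lit 380) (nat_lit 2907104377) (nat_lit 456) (nat_lit 186941882337) (nat_lit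 86) (nat_lit 5) (nat_lit 91) (nat_lit 5) (nat_lit 92) (nat_lit 5) (nat_lit 391) (nat_lit 374) (nat_lit 135)) (XT.lf (nat_lit 0) (nat_lit 79742135379) (nat_lit 456) (nat_lit 66955426551) (nat_lit 76) (nat_lit 95724108817) (nat_lit 86) (nat_lit 5) (nat_lit 92) (nat_lit 5) (nat_lit 87) (nat_lit 5) (nat_lit 392) (nat_lit 374) (nat_lit 134)))) (XT.nd (nat_lit 78) (nat_lit 304) (nat_lit 0) (XT.lf (nat_lit 0) (nat_lit 64086214723) (nat_lit 304) (nat_lit 49255755812) (nat_lit 380) (nat_lit 136103528694) (nat_lit 82) (nat_lit 5) (nat_lit 86) (nat_lit 5) (nat_lit 87) (nat_lit 5) (nat_lit 393) (nat_lit 374) (nat_lit 133)) (XT.nd (nat_lit 78) (nat_lit 304) (nat_lit 0) (XT.lf (nat_lit 0) (nat_lit 150602610384) (nat_lit 380) (nat_lit 53606419945) (nat_lit 76) (nat_lit 52512448219) (nat_lit 82) (nat_lit 5) (nat_lit 87) (nat_lit 5) (nat_lit 83) (nat_lit 5) (nat_lit 394) (nat_lit 374) (nat_lit 132)) (XT.lf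 (nat_lit 0) (nat_lit 86701509975) (nat_lit 304) (nat_lit 105185816470) (nat_lit 380) (nat_lit 72365878236) (nat_lit 78) (nat_lit 5) (nat_lit 82) (nat_lit 5) (nat_lit 83) (nat_lit 5) (nat_lit 395) (nat_lit 374) (nat_lit 131)))))) (XT.nd (nat_lit 468) (nat_lit 760) (nat_lit 0) (XT.nd (nat_lit 234) (nat_lit 532) (nat_lit 0) (XT.nd (nat_lit 78) (nat_lit 304) (nat_lit 0) (XT.lf (nat_lit 0) (nat_lit 235885835556) (nat_lit 304) (nat_lit 258215041) (nat_lit 380) (nat_lit 35972077965) (nat_lit 78) (nat_lit 5) (nat_lit 82) (nat_lit 5) (nat_lit 83) (nat_lit 5) (nat_lit 396) (nat_lit 374) (nat_lit 130)) (XT.nd (nat_lit 78) (nat_lit 0) (nat_lit 0) (XT.lf (nat_lit 0) (nat_lit 5724330856) (nat_lit 304) (nat_lit 166196990521) (nat_lit 76) (nat_lit 108271394688) (nat_lit 74) (nat_lit 5) (nat_lit 78) (nat_lit 5) (nat_lit 75) (nat_lit 5) (nat_lit 397) (nat_lit 374) (nat_lit 129)) (XT.lf (nat_lit 0) (nat_lit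 48924457643) (nat_lit 304) (nat_lit 16255667663) (nat_lit 76) (nat_lit 223432132614) (nat_lit 74) (nat_lit 5) (nat_lit 78) (nat_lit 5) (nat_lit 75) (nat_lit 5) (nat_lit 398) (nat_lit 374) (nat_lit 128)))) (XT.nd (nat_lit 78) (nat_lit 228) (nat_lit 0) (XT.lf (nat_lit 0) (nat_lit 97331200600) (nat_lit 380) (nat_lit 152257698046) (nat_lit 76) (nat_lit 47711547776) (nat_lit 70) (nat_lit 5) (nat_lit 75) (nat_lit 5) (nat_lit 71) (nat_lit 5) (nat_lit 399) (nat_lit 374) (nat_lit 127)) (XT.nd (nat_lit 78) (nat_lit 0) (nat_lit 0) (XT.lf (nat_lit 0) (nat_lit 7735622436) (nat_lit 228) (nat_lit 141891701511) (nat_lit 304) (nat_lit 156722268284) (nat_lit 67) (nat_lit 5) (nat_lit 70) (nat_lit 5) (nat_lit 71) (nat_lit 5) (nat_lit 400) (nat_lit 374) (nat_lit 126)) (XT.lf (nat_lit 0) (nat_lit 181014561999) (nat_lit 228) (nat_lit 26102182298) (nat_lit 304) (nat_lit 108605526534) (nat_lit 67) (nat_lit 5) (nat_lit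 70) (nat_lit 5) (nat_lit 71) (nat_lit 5) (nat_lit 401) (nat_lit 374) (nat_lit 125))))) (XT.nd (nat_lit 234) (nat_lit 228) (nat_lit 0) (XT.nd (nat_lit 78) (nat_lit 304) (nat_lit 0) (XT.lf (nat_lit 0) (nat_lit 37090234714) (nat_lit 228) (nat_lit 232460079966) (nat_lit 304) (nat_lit 55909784768) (nat_lit 64) (nat_lit 5) (nat_lit 67) (nat_lit 5) (nat_lit 68) (nat_lit 5) (nat_lit 402) (nat_lit 374) (nat_lit 124)) (XT.nd (nat_lit 78) (nat_lit 228) (nat_lit 0) (XT.lf (nat_lit 0) (nat_lit 2185864281) (nat_lit 304) (nat_lit 113872279102) (nat_lit 76) (nat_lit 219489799320) (nat_lit 63) (nat_lit 5) (nat_lit 67) (nat_lit 5) (nat_lit 64) (nat_lit 5) (nat_lit 403) (nat_lit 374) (nat_lit 123)) (XT.lf (nat_lit 0) (nat_lit 62540422028) (nat_lit 304) (nat_lit 275472251713) (nat_lit 76) (nat_lit 8020023641) (nat_lit 60) (nat_lit 5) (nat_lit 64) (nat_lit 5) (nat_lit 61) (nat_lit 5) (nat_lit 404) (nat_lit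 374) (nat_lit 122)))) (XT.nd (nat_lit 78) (nat_lit 228) (nat_lit 0) (XT.lf (nat_lit 0) (nat_lit 129775337493) (nat_lit 304) (nat_lit 90711364207) (nat_lit 76) (nat_lit 136361856635) (nat_lit 60) (nat_lit 5) (nat_lit 64) (nat_lit 5) (nat_lit 61) (nat_lit 5) (nat_lit 405) (nat_lit 374) (nat_lit 121)) (XT.nd (nat_lit 78) (nat_lit 0) (nat_lit 0) (XT.lf (nat_lit 0) (nat_lit 106702635896) (nat_lit 228) (nat_lit 95335233549) (nat_lit 304) (nat_lit 166084049387) (nat_lit 57) (nat_lit 5) (nat_lit 60) (nat_lit 5) (nat_lit 61) (nat_lit 5) (nat_lit 406) (nat_lit 374) (nat_lit 120)) (XT.lf (nat_lit 0) (nat_lit 280038110901) (nat_lit 304) (nat_lit 63333986631) (nat_lit 76) (nat_lit 36480620704) (nat_lit 57) (nat_lit 5) (nat_lit 61) (nat_lit 5) (nat_lit 58) (nat_lit 5) (nat_lit 407) (nat_lit 374) (nat_lit 119))))))) (XT.nd (nat_lit 44382) (nat_lit 0) (nat_lit 4332) (XT.nd (nat_lit 468) (nat_lit 608) (nat_lit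 0) (XT.nd (nat_lit 234) (nat_lit 304) (nat_lit 0) (XT.nd (nat_lit 78) (nat_lit 304) (nat_lit 0) (XT.lf (nat_lit 0) (nat_lit 147823910560) (nat_lit 152) (nat_lit 217985219259) (nat_lit 228) (nat_lit 26167389553) (nat_lit 55) (nat_lit 5) (nat_lit 57) (nat_lit 5) (nat_lit 58) (nat_lit 5) (nat_lit 408) (nat_lit 374) (nat_lit 118)) (XT.nd (nat_lit 78) (nat_lit 228) (nat_lit 0) (XT.lf (nat_lit 0) (nat_lit 50614802342) (nat_lit 228) (nat_lit 33730814025) (nat_lit 76) (nat_lit 320266448824) (nat_lit 54) (nat_lit 5) (nat_lit 57) (nat_lit 5) (nat_lit 55) (nat_lit 5) (nat_lit 409) (nat_lit 374) (nat_lit 117)) (XT.lf (nat_lit 0) (nat_lit 134299648445) (nat_lit 304) (nat_lit 225678760820) (nat_lit 76) (nat_lit 57682383356) (nat_lit 51) (nat_lit 5) (nat_lit 55) (nat_lit 5) (nat_lit 52) (nat_lit 5) (nat_lit 410) (nat_lit 374) (nat_lit 116)))) (XT.nd (nat_lit 78) (nat_lit 304) (nat_lit 0) (XT.lf (nat_lit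 0) (nat_lit 224132015147) (nat_lit 304) (nat_lit 2573973206) (nat_lit 76) (nat_lit 204557804179) (nat_lit 51) (nat_lit 5) (nat_lit 55) (nat_lit 5) (nat_lit 52) (nat_lit 5) (nat_lit 411) (nat_lit 374) (nat_lit 115)) (XT.nd (nat_lit 78) (nat_lit 152) (nat_lit 0) (XT.lf (nat_lit 0) (nat_lit 239346565249) (nat_lit 152) (nat_lit 82846258822) (nat_lit 228) (nat_lit 123167277193) (nat_lit 49) (nat_lit 5) (nat_lit 51) (nat_lit 5) (nat_lit 52) (nat_lit 5) (nat_lit 412) (nat_lit 374) (nat_lit 114)) (XT.lf (nat_lit 0) (nat_lit 33293360107) (nat_lit 152) (nat_lit 393492269956) (nat_lit 228) (nat_lit 33294147562) (nat_lit 47) (nat_lit 5) (nat_lit 49) (nat_lit 5) (nat_lit 50) (nat_lit 5) (nat_lit 413) (nat_lit 374) (nat_lit 113))))) (XT.nd (nat_lit 312) (nat_lit 380) (nat_lit 0) (XT.nd (nat_lit 78) (nat_lit 152) (nat_lit 0) (XT.lf (nat_lit 0) (nat_lit 64022156957) (nat_lit 228) (nat_lit 186011985617)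 (nat_lit 76) (nat_lit 225208408284) (nat_lit 46) (nat_lit 5) (nat_lit 49) (nat_lit 5) (nat_lit 47) (nat_lit 5) (nat_lit 414) (nat_lit 374) (nat_lit 112)) (XT.nd (nat_lit 78) (nat_lit 0) (nat_lit 0) (XT.lf (nat_lit 0) (nat_lit 68445990454) (nat_lit 152) (nat_lit 97707974700) (nat_lit 228) (nat_lit 324928777824) (nat_lit 44) (nat_lit 5) (nat_lit 46) (nat_lit 5) (nat_lit 47) (nat_lit 5) (nat_lit 415) (nat_lit 374) (nat_lit 111)) (XT.lf (nat_lit 0) (nat_lit 277565821362) (nat_lit 228) (nat_lit 166496022225) (nat_lit 76) (nat_lit 63444428256) (nat_lit 44) (nat_lit 5) (nat_lit 47) (nat_lit 5) (nat_lit 45) (nat_lit 5) (nat_lit 416) (nat_lit 374) (nat_lit 110)))) (XT.nd (nat_lit 78) (nat_lit 228) (nat_lit 0) (XT.lf (nat_lit 0) (nat_lit 394179264938) (nat_lit 152) (nat_lit 132638325526) (nat_lit 228) (nat_lit 15568439878) (nat_lit 42) (nat_lit 5) (nat_lit 44) (nat_lit 5) (nat_lit 45) (nat_lit 5)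 (nat_lit 418) (nat_lit 374) (nat_lit 108)) (XT.nd (nat_lit 43446) (nat_lit 0) (nat_lit 5092) (XT.lf (nat_lit 0) (nat_lit 100821490411) (nat_lit 228) (nat_lit 420994939171) (nat_lit 76) (nat_lit 39035691152) (nat_lit 39) (nat_lit 5) (nat_lit 42) (nat_lit 5) (nat_lit 40) (nat_lit 5) (nat_lit 419) (nat_lit 374) (nat_lit 107)) (XT.lf (nat_lit 0) (nat_lit 13591932059) (nat_lit 836) (nat_lit 32737449492) (nat_lit 836) (nat_lit 32737449492) (nat_lit 106) (nat_lit 3) (nat_lit 117) (nat_lit 3) (nat_lit 117) (nat_lit 5) (nat_lit 375) (nat_lit 375) (nat_lit 150)))))) (XT.nd (nat_lit 468) (nat_lit 760) (nat_lit 0) (XT.nd (nat_lit 234) (nat_lit 0) (nat_lit 152) (XT.nd (nat_lit 78) (nat_lit 0) (nat_lit 76) (XT.lf (nat_lit 76) (nat_lit 10412927668) (nat_lit 0) (nat_lit 17615646373) (nat_lit 836) (nat_lit 134050171731) (nat_lit 107) (nat_lit 5) (nat_lit 106) (nat_lit 3) (nat_lit 117) (nat_lit 5) (nat_lit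 376) (nat_lit 375) (nat_lit 149)) (XT.nd (nat_lit 78) (nat_lit 0) (nat_lit 0) (XT.lf (nat_lit 0) (nat_lit 30997569152) (nat_lit 760) (nat_lit 74770815877) (nat_lit 836) (nat_lit 60348596272) (nat_lit 107) (nat_lit 5) (nat_lit 117) (nat_lit 5) (nat_lit 118) (nat_lit 5) (nat_lit 377) (nat_lit 375) (nat_lit 148)) (XT.lf (nat_lit 76) (nat_lit 5867870826) (nat_lit 0) (nat_lit 28627383252) (nat_lit 836) (nat_lit 135842862656) (nat_lit 108) (nat_lit 5) (nat_lit 107) (nat_lit 5) (nat_lit 118) (nat_lit 5) (nat_lit 378) (nat_lit 375) (nat_lit 147)))) (XT.nd (nat_lit 78) (nat_lit 0) (nat_lit 0) (XT.lf (nat_lit 0) (nat_lit 40272366702) (nat_lit 760) (nat_lit 82411140815) (nat_lit 836) (nat_lit 51981574378) (nat_lit 108) (nat_lit 5) (nat_lit 118) (nat_lit 5) (nat_lit 119) (nat_lit 5) (nat_lit 379) (nat_lit 375) (nat_lit 146)) (XT.nd (nat_lit 78) (nat_lit 0) (nat_lit 76) (XT.lf (nat_lit 76) (nat_lit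 3390024864) (nat_lit 0) (nat_lit 43470398208) (nat_lit 836) (nat_lit 132321867958) (nat_lit 109) (nat_lit 5) (nat_lit 108) (nat_lit 5) (nat_lit 119) (nat_lit 5) (nat_lit 380) (nat_lit 375) (nat_lit 145)) (XT.lf (nat_lit 0) (nat_lit 55816180379) (nat_lit 760) (nat_lit 88156061440) (nat_lit 836) (nat_lit 39851204014) (nat_lit 109) (nat_lit 5) (nat_lit 119) (nat_lit 5) (nat_lit 120) (nat_lit 5) (nat_lit 381) (nat_lit 375) (nat_lit 144))))) (XT.nd (nat_lit 234) (nat_lit 988) (nat_lit 0) (XT.nd (nat_lit 78) (nat_lit 0) (nat_lit 76) (XT.lf (nat_lit 76) (nat_lit 3253355258) (nat_lit 0) (nat_lit 62729665070) (nat_lit 836) (nat_lit 122675473419) (nat_lit 110) (nat_lit 5) (nat_lit 109) (nat_lit 5) (nat_lit 120) (nat_lit 5) (nat_lit 382) (nat_lit 375) (nat_lit 143)) (XT.nd (nat_lit 78) (nat_lit 0) (nat_lit 0) (XT.lf (nat_lit 0) (nat_lit 78527978733) (nat_lit 760) (nat_lit 91743859767) (nat_lit 836)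 (nat_lit 23369966838) (nat_lit 110) (nat_lit 5) (nat_lit 120) (nat_lit 5) (nat_lit 121) (nat_lit 5) (nat_lit 383) (nat_lit 375) (nat_lit 142)) (XT.lf (nat_lit 76) (nat_lit 5756267395) (nat_lit 0) (nat_lit 87062026586) (nat_lit 836) (nat_lit 106000083180) (nat_lit 111) (nat_lit 5) (nat_lit 110) (nat_lit 5) (nat_lit 121) (nat_lit 5) (nat_lit 384) (nat_lit 375) (nat_lit 141)))) (XT.nd (nat_lit 156) (nat_lit 380) (nat_lit 0) (XT.nd (nat_lit 78) (nat_lit 760) (nat_lit 0) (XT.lf (nat_lit 0) (nat_lit 109407022328) (nat_lit 760) (nat_lit 92889935996) (nat_lit 76) (nat_lit 1877624483) (nat_lit 111) (nat_lit 5) (nat_lit 121) (nat_lit 5) (nat_lit 112) (nat_lit 5) (nat_lit 385) (nat_lit 375) (nat_lit 140)) (XT.lf (nat_lit 0) (nat_lit 11222700107) (nat_lit 760) (nat_lit 117204843213) (nat_lit 836) (nat_lit 81290937693) (nat_lit 101) (nat_lit 5) (nat_lit 111) (nat_lit 5) (nat_lit 112) (nat_lit 5) (nat_lit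 386) (nat_lit 375) (nat_lit 139))) (XT.nd (nat_lit 78) (nat_lit 380) (nat_lit 0) (XT.lf (nat_lit 0) (nat_lit 123765801890) (nat_lit 760) (nat_lit 26206320233) (nat_lit 836) (nat_lit 65488800505) (nat_lit 101) (nat_lit 5) (nat_lit 111) (nat_lit 5) (nat_lit 112) (nat_lit 5) (nat_lit 387) (nat_lit 375) (nat_lit 138)) (XT.lf (nat_lit 0) (nat_lit 20003075186) (nat_lit 380) (nat_lit 153985684556) (nat_lit 456) (nat_lit 47431985170) (nat_lit 96) (nat_lit 5) (nat_lit 101) (nat_lit 5) (nat_lit 102) (nat_lit 5) (nat_lit 388) (nat_lit 375) (nat_lit 137))))))))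
noncomputable def xc245 : XT := (XT.nd (nat_lit 1950) (nat_lit 532) (nat_lit 0) (XT.nd (nat_lit 936) (nat_lit 1596) (nat_lit 0) (XT.nd (nat_lit 468) (nat_lit 912) (nat_lit 0) (XT.nd (nat_lit 234) (nat_lit 684) (nat_lit 0) (XT.nd (nat_lit 78) (nat_lit 380) (nat_lit 0) (XT.lf (nat_lit 0) (nat_lit 140025717659) (nat_lit 380) (nat_lit 61155999509) (nat_lit 456) (nat_lit 26398066824) (nat_lit 96) (nat_lit 5) (nat_lit 101) (nat_lit 5) (nat_lit 102) (nat_lit 5) (nat_lit 389) (nat_lit 375) (nat_lit 136)) (XT.nd (nat_lit 78) (nat_lit 76) (nat_lit 0) (XT.lf (nat_lit 0) (nat_lit 32475045663) (nat_lit 304) (nat_lit 198333193547) (nat_lit 380) (nat_lit 3184840054) (nat_lit 92) (nat_lit 5) (nat_lit 96) (nat_lit 5) (nat_lit 97) (nat_lit 5) (nat_lit 390) (nat_lit 375) (nat_lit 135)) (XT.lf (nat_lit 0) (nat_lit 23020411826) (nat_lit 380) (nat_lit 80465389322) (nat_lit 76) (nat_lit 137099219917) (nat_lit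 91) (nat_lit 5) (nat_lit 96) (nat_lit 5) (nat_lit 92) (nat_lit 5) (nat_lit 391) (nat_lit 375) (nat_lit 134)))) (XT.nd (nat_lit 78) (nat_lit 304) (nat_lit 0) (XT.lf (nat_lit 0) (nat_lit 48127981427) (nat_lit 380) (nat_lit 3052240392) (nat_lit 456) (nat_lit 196286161324) (nat_lit 86) (nat_lit 5) (nat_lit 91) (nat_lit 5) (nat_lit 92) (nat_lit 5) (nat_lit 392) (nat_lit 375) (nat_lit 133)) (XT.nd (nat_lit 78) (nat_lit 304) (nat_lit 0) (XT.lf (nat_lit 0) (nat_lit 83731797015) (nat_lit 456) (nat_lit 70300311295) (nat_lit 76) (nat_lit 100510516342) (nat_lit 86) (nat_lit 5) (nat_lit 92) (nat_lit 5) (nat_lit 87) (nat_lit 5) (nat_lit 393) (nat_lit 375) (nat_lit 132)) (XT.lf (nat_lit 0) (nat_lit 67293365484) (nat_lit 304) (nat_lit 51718181124) (nat_lit 380) (nat_lit 142906101904) (nat_lit 82) (nat_lit 5) (nat_lit 86) (nat_lit 5) (nat_lit 87) (nat_lit 5) (nat_lit 394) (nat_lit 375) (nat_lit 131)))))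 (XT.nd (nat_lit 234) (nat_lit 608) (nat_lit 0) (XT.nd (nat_lit 78) (nat_lit 304) (nat_lit 0) (XT.lf (nat_lit 0) (nat_lit 158135105862) (nat_lit 380) (nat_lit 56283921854) (nat_lit 76) (nat_lit 55138404798) (nat_lit 82) (nat_lit 5) (nat_lit 87) (nat_lit 5) (nat_lit 83) (nat_lit 5) (nat_lit 395) (nat_lit 375) (nat_lit 130)) (XT.nd (nat_lit 78) (nat_lit 0) (nat_lit 0) (XT.lf (nat_lit 0) (nat_lit 91039359093) (nat_lit 304) (nat_lit 110444629319) (nat_lit 380) (nat_lit 75981760089) (nat_lit 78) (nat_lit 5) (nat_lit 82) (nat_lit 5) (nat_lit 83) (nat_lit 5) (nat_lit 396) (nat_lit 375) (nat_lit 129)) (XT.lf (nat_lit 0) (nat_lit 247682768876) (nat_lit 304) (nat_lit 270670580) (nat_lit 380) (nat_lit 37768384664) (nat_lit 78) (nat_lit 5) (nat_lit 82) (nat_lit 5) (nat_lit 83) (nat_lit 5) (nat_lit 397) (nat_lit 375) (nat_lit 128)))) (XT.nd (nat_lit 78) (nat_lit 304) (nat_lit 0) (XT.lf (nat_lit 0) (nat_lit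 6012714926) (nat_lit 304) (nat_lit 174504065942) (nat_lit 76) (nat_lit 113685461214) (nat_lit 74) (nat_lit 5) (nat_lit 78) (nat_lit 5) (nat_lit 75) (nat_lit 5) (nat_lit 398) (nat_lit 375) (nat_lit 127)) (XT.nd (nat_lit 78) (nat_lit 304) (nat_lit 0) (XT.lf (nat_lit 0) (nat_lit 51372744837) (nat_lit 304) (nat_lit 17065809041) (nat_lit 76) (nat_lit 234604212379) (nat_lit 74) (nat_lit 5) (nat_lit 78) (nat_lit 5) (nat_lit 75) (nat_lit 5) (nat_lit 399) (nat_lit 375) (nat_lit 126)) (XT.lf (nat_lit 0) (nat_lit 102199776480) (nat_lit 380) (nat_lit 159867891203) (nat_lit 76) (nat_lit 50097698988) (nat_lit 70) (nat_lit 5) (nat_lit 75) (nat_lit 5) (nat_lit 71) (nat_lit 5) (nat_lit 400) (nat_lit 375) (nat_lit 125)))))) (XT.nd (nat_lit 468) (nat_lit 836) (nat_lit 0) (XT.nd (nat_lit 234) (nat_lit 304) (nat_lit 0) (XT.nd (nat_lit 78) (nat_lit 228) (nat_lit 0) (XT.lf (nat_lit 0) (nat_lit 8125051888) (nat_lit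 228) (nat_lit 148985599462) (nat_lit 304) (nat_lit 164556321215) (nat_lit 67) (nat_lit 5) (nat_lit 70) (nat_lit 5) (nat_lit 71) (nat_lit 5) (nat_lit 401) (nat_lit 375) (nat_lit 124)) (XT.nd (nat_lit 78) (nat_lit 228) (nat_lit 0) (XT.lf (nat_lit 0) (nat_lit 190067812318) (nat_lit 228) (nat_lit 27406637008) (nat_lit 304) (nat_lit 114033840495) (nat_lit 67) (nat_lit 5) (nat_lit 70) (nat_lit 5) (nat_lit 71) (nat_lit 5) (nat_lit 402) (nat_lit 375) (nat_lit 123)) (XT.lf (nat_lit 0) (nat_lit 38947310961) (nat_lit 228) (nat_lit 244082348094) (nat_lit 304) (nat_lit 58703352829) (nat_lit 64) (nat_lit 5) (nat_lit 67) (nat_lit 5) (nat_lit 68) (nat_lit 5) (nat_lit 403) (nat_lit 375) (nat_lit 122)))) (XT.nd (nat_lit 78) (nat_lit 228) (nat_lit 0) (XT.lf (nat_lit 0) (nat_lit 2296928626) (nat_lit 304) (nat_lit 119563391102) (nat_lit 76) (nat_lit 230464930552) (nat_lit 63) (nat_lit 5) (nat_lit 67) (nat_lit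 5) (nat_lit 64) (nat_lit 5) (nat_lit 404) (nat_lit 375) (nat_lit 121)) (XT.nd (nat_lit 78) (nat_lit 0) (nat_lit 0) (XT.lf (nat_lit 0) (nat_lit 65669179851) (nat_lit 304) (nat_lit 289243326979) (nat_lit 76) (nat_lit 8421737632) (nat_lit 60) (nat_lit 5) (nat_lit 64) (nat_lit 5) (nat_lit 61) (nat_lit 5) (nat_lit 405) (nat_lit 375) (nat_lit 120)) (XT.lf (nat_lit 0) (nat_lit 136265758388) (nat_lit 304) (nat_lit 95244515921) (nat_lit 76) (nat_lit 143180628333) (nat_lit 60) (nat_lit 5) (nat_lit 64) (nat_lit 5) (nat_lit 61) (nat_lit 5) (nat_lit 406) (nat_lit 375) (nat_lit 119))))) (XT.nd (nat_lit 234) (nat_lit 456) (nat_lit 0) (XT.nd (nat_lit 78) (nat_lit 152) (nat_lit 0) (XT.lf (nat_lit 0) (nat_lit 112040145210) (nat_lit 228) (nat_lit 100101230083) (nat_lit 304) (nat_lit 174386557995) (nat_lit 57) (nat_lit 5) (nat_lit 60) (nat_lit 5) (nat_lit 61) (nat_lit 5) (nat_lit 407) (nat_lit 375) (nat_lit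 118)) (XT.nd (nat_lit 78) (nat_lit 152) (nat_lit 0) (XT.lf (nat_lit 0) (nat_lit 294041563421) (nat_lit 304) (nat_lit 66498355431) (nat_lit 76) (nat_lit 38305357124) (nat_lit 57) (nat_lit 5) (nat_lit 61) (nat_lit 5) (nat_lit 58) (nat_lit 5) (nat_lit 408) (nat_lit 375) (nat_lit 117)) (XT.lf (nat_lit 0) (nat_lit 155217399031) (nat_lit 152) (nat_lit 228883696387) (nat_lit 228) (nat_lit 27474173682) (nat_lit 55) (nat_lit 5) (nat_lit 57) (nat_lit 5) (nat_lit 58) (nat_lit 5) (nat_lit 409) (nat_lit 375) (nat_lit 116)))) (XT.nd (nat_lit 156) (nat_lit 152) (nat_lit 0) (XT.nd (nat_lit 78) (nat_lit 228) (nat_lit 0) (XT.lf (nat_lit 0) (nat_lit 53147003990) (nat_lit 228) (nat_lit 35415121934) (nat_lit 76) (nat_lit 336280468738) (nat_lit 54) (nat_lit 5) (nat_lit 57) (nat_lit 5) (nat_lit 55) (nat_lit 5) (nat_lit 410) (nat_lit 375) (nat_lit 115)) (XT.lf (nat_lit 0) (nat_lit 141016069130) (nat_lit 304) (nat_lit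 236960442122) (nat_lit 76) (nat_lit 60567248408) (nat_lit 51) (nat_lit 5) (nat_lit 55) (nat_lit 5) (nat_lit 52) (nat_lit 5) (nat_lit 411) (nat_lit 375) (nat_lit 114))) (XT.nd (nat_lit 78) (nat_lit 152) (nat_lit 0) (XT.lf (nat_lit 0) (nat_lit 235339985678) (nat_lit 304) (nat_lit 2700522591) (nat_lit 76) (nat_lit 214786404754) (nat_lit 51) (nat_lit 5) (nat_lit 55) (nat_lit 5) (nat_lit 52) (nat_lit 5) (nat_lit 412) (nat_lit 375) (nat_lit 113)) (XT.lf (nat_lit 0) (nat_lit 251316008121) (nat_lit 152) (nat_lit 86987794716) (nat_lit 228) (nat_lit 129324235998) (nat_lit 49) (nat_lit 5) (nat_lit 51) (nat_lit 5) (nat_lit 52) (nat_lit 5) (nat_lit 413) (nat_lit 375) (nat_lit 112))))))) (XT.nd (nat_lit 44538) (nat_lit 0) (nat_lit 3040) (XT.nd (nat_lit 44070) (nat_lit 0) (nat_lit 4940) (XT.nd (nat_lit 312) (nat_lit 152) (nat_lit 0) (XT.nd (nat_lit 78) (nat_lit 228) (nat_lit 0) (XT.lf (nat_lit 0) (nat_lit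 34960163083) (nat_lit 152) (nat_lit 413166067238) (nat_lit 228) (nat_lit 34957469662) (nat_lit 47) (nat_lit 5) (nat_lit 49) (nat_lit 5) (nat_lit 50) (nat_lit 5) (nat_lit 414) (nat_lit 375) (nat_lit 111)) (XT.nd (nat_lit 78) (nat_lit 152) (nat_lit 0) (XT.lf (nat_lit 0) (nat_lit 67224541892) (nat_lit 228) (nat_lit 195310508834) (nat_lit 76) (nat_lit 236469563289) (nat_lit 46) (nat_lit 5) (nat_lit 49) (nat_lit 5) (nat_lit 47) (nat_lit 5) (nat_lit 415) (nat_lit 375) (nat_lit 110)) (XT.lf (nat_lit 0) (nat_lit 71870332555) (nat_lit 152) (nat_lit 102592579020) (nat_lit 228) (nat_lit 341173905638) (nat_lit 44) (nat_lit 5) (nat_lit 46) (nat_lit 5) (nat_lit 47) (nat_lit 5) (nat_lit 416) (nat_lit 375) (nat_lit 109)))) (XT.nd (nat_lit 43602) (nat_lit 0) (nat_lit 4864) (XT.lf (nat_lit 0) (nat_lit 109395644075) (nat_lit 152) (nat_lit 308270971326) (nat_lit 228) (nat_lit 133152363590) (nat_lit 42) (nat_lit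 5) (nat_lit 44) (nat_lit 5) (nat_lit 45) (nat_lit 5) (nat_lit 418) (nat_lit 375) (nat_lit 107)) (XT.nd (nat_lit 78) (nat_lit 0) (nat_lit 0) (XT.lf (nat_lit 0) (nat_lit 14274027369) (nat_lit 836) (nat_lit 34373009062) (nat_lit 836) (nat_lit 34373009062) (nat_lit 106) (nat_lit 3) (nat_lit 117) (nat_lit 3) (nat_lit 117) (nat_lit 5) (nat_lit 376) (nat_lit 376) (nat_lit 148)) (XT.lf (nat_lit 76) (nat_lit 10936157508) (nat_lit 0) (nat_lit 18498645013) (nat_lit 836) (nat_lit 140747636427) (nat_lit 107) (nat_lit 5) (nat_lit 106) (nat_lit 3) (nat_lit 117) (nat_lit 5) (nat_lit 377) (nat_lit 376) (nat_lit 147))))) (XT.nd (nat_lit 234) (nat_lit 0) (nat_lit 76) (XT.nd (nat_lit 78) (nat_lit 0) (nat_lit 0) (XT.lf (nat_lit 0) (nat_lit 32551985870) (nat_lit 760) (nat_lit 78506630791) (nat_lit 836) (nat_lit 63363982862) (nat_lit 107) (nat_lit 5) (nat_lit 117) (nat_lit 5) (nat_lit 118) (nat_lit 5) (nat_lit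 378) (nat_lit 376) (nat_lit 146)) (XT.nd (nat_lit 78) (nat_lit 0) (nat_lit 76) (XT.lf (nat_lit 76) (nat_lit 6163946281) (nat_lit 0) (nat_lit 30060434527) (nat_lit 836) (nat_lit 142630419821) (nat_lit 108) (nat_lit 5) (nat_lit 107) (nat_lit 5) (nat_lit 118) (nat_lit 5) (nat_lit 379) (nat_lit 376) (nat_lit 145)) (XT.lf (nat_lit 0) (nat_lit 42290116241) (nat_lit 760) (nat_lit 86528907267) (nat_lit 836) (nat_lit 54579102359) (nat_lit 108) (nat_lit 5) (nat_lit 118) (nat_lit 5) (nat_lit 119) (nat_lit 5) (nat_lit 380) (nat_lit 376) (nat_lit 144)))) (XT.nd (nat_lit 78) (nat_lit 0) (nat_lit 76) (XT.lf (nat_lit 76) (nat_lit 3562271687) (nat_lit 0) (nat_lit 45645149885) (nat_lit 836) (nat_lit 138933781750) (nat_lit 109) (nat_lit 5) (nat_lit 108) (nat_lit 5) (nat_lit 119) (nat_lit 5) (nat_lit 381) (nat_lit 376) (nat_lit 143)) (XT.nd (nat_lit 78) (nat_lit 0) (nat_lit 0) (XT.lf (nat_lit 0) (nat_lit 58610759030)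 (nat_lit 760) (nat_lit 92561038730) (nat_lit 836) (nat_lit 41842628651) (nat_lit 109) (nat_lit 5) (nat_lit 119) (nat_lit 5) (nat_lit 120) (nat_lit 5) (nat_lit 382) (nat_lit 376) (nat_lit 142)) (XT.lf (nat_lit 76) (nat_lit 3418803226) (nat_lit 0) (nat_lit 65867001651) (nat_lit 836) (nat_lit 128805428802) (nat_lit 110) (nat_lit 5) (nat_lit 109) (nat_lit 5) (nat_lit 120) (nat_lit 5) (nat_lit 383) (nat_lit 376) (nat_lit 141)))))) (XT.nd (nat_lit 468) (nat_lit 1064) (nat_lit 0) (XT.nd (nat_lit 234) (nat_lit 1064) (nat_lit 0) (XT.nd (nat_lit 78) (nat_lit 0) (nat_lit 0) (XT.lf (nat_lit 0) (nat_lit 82457825489) (nat_lit 760) (nat_lit 96328216295) (nat_lit 836) (nat_lit 24537678498) (nat_lit 110) (nat_lit 5) (nat_lit 120) (nat_lit 5) (nat_lit 121) (nat_lit 5) (nat_lit 384) (nat_lit 376) (nat_lit 140)) (XT.nd (nat_lit 78) (nat_lit 0) (nat_lit 76) (XT.lf (nat_lit 76) (nat_lit 6046871476) (nat_lit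 0) (nat_lit 91415664414) (nat_lit 836) (nat_lit 111296590979) (nat_lit 111) (nat_lit 5) (nat_lit 110) (nat_lit 5) (nat_lit 121) (nat_lit 5) (nat_lit 385) (nat_lit 376) (nat_lit 139)) (XT.lf (nat_lit 0) (nat_lit 114880534237) (nat_lit 760) (nat_lit 97531605902) (nat_lit 76) (nat_lit 1971011110) (nat_lit 111) (nat_lit 5) (nat_lit 121) (nat_lit 5) (nat_lit 112) (nat_lit 5) (nat_lit 386) (nat_lit 376) (nat_lit 138)))) (XT.nd (nat_lit 78) (nat_lit 380) (nat_lit 0) (XT.lf (nat_lit 0) (nat_lit 11786616411) (nat_lit 760) (nat_lit 123065357777) (nat_lit 836) (nat_lit 85352275658) (nat_lit 101) (nat_lit 5) (nat_lit 111) (nat_lit 5) (nat_lit 112) (nat_lit 5) (nat_lit 387) (nat_lit 376) (nat_lit 137)) (XT.nd (nat_lit 78) (nat_lit 380) (nat_lit 0) (XT.lf (nat_lit 0) (nat_lit 129956740841) (nat_lit 760) (nat_lit 27516895676) (nat_lit 836) (nat_lit 68760184416) (nat_lit 101) (nat_lit 5) (nat_lit 111)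 (nat_lit 5) (nat_lit 112) (nat_lit 5) (nat_lit 388) (nat_lit 376) (nat_lit 136)) (XT.lf (nat_lit 0) (nat_lit 21005984505) (nat_lit 380) (nat_lit 161685022186) (nat_lit 456) (nat_lit 49800632721) (nat_lit 96) (nat_lit 5) (nat_lit 101) (nat_lit 5) (nat_lit 102) (nat_lit 5) (nat_lit 389) (nat_lit 376) (nat_lit 135))))) (XT.nd (nat_lit 234) (nat_lit 684) (nat_lit 0) (XT.nd (nat_lit 78) (nat_lit 380) (nat_lit 0) (XT.lf (nat_lit 0) (nat_lit 147029627885) (nat_lit 380) (nat_lit 64213850344) (nat_lit 456) (nat_lit 27715159016) (nat_lit 96) (nat_lit 5) (nat_lit 101) (nat_lit 5) (nat_lit 102) (nat_lit 5) (nat_lit 390) (nat_lit 376) (nat_lit 134)) (XT.nd (nat_lit 78) (nat_lit 76) (nat_lit 0) (XT.lf (nat_lit 0) (nat_lit 34101514497) (nat_lit 304) (nat_lit 208249726142) (nat_lit 380) (nat_lit 3341361032) (nat_lit 92) (nat_lit 5) (nat_lit 96) (nat_lit 5) (nat_lit 97) (nat_lit 5) (nat_lit 391) (nat_lit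 376) (nat_lit 133)) (XT.lf (nat_lit 0) (nat_lit 24173940927) (nat_lit 380) (nat_lit 84485986765) (nat_lit 76) (nat_lit 143954217111) (nat_lit 91) (nat_lit 5) (nat_lit 96) (nat_lit 5) (nat_lit 92) (nat_lit 5) (nat_lit 392) (nat_lit 376) (nat_lit 132)))) (XT.nd (nat_lit 156) (nat_lit 304) (nat_lit 0) (XT.nd (nat_lit 78) (nat_lit 0) (nat_lit 0) (XT.lf (nat_lit 0) (nat_lit 50537009425) (nat_lit 380) (nat_lit 3204653588) (nat_lit 456) (nat_lit 206097915983) (nat_lit 86) (nat_lit 5) (nat_lit 91) (nat_lit 5) (nat_lit 92) (nat_lit 5) (nat_lit 393) (nat_lit 376) (nat_lit 131)) (XT.lf (nat_lit 0) (nat_lit 87920704205) (nat_lit 456) (nat_lit 73812708644) (nat_lit 76) (nat_lit 105536225455) (nat_lit 86) (nat_lit 5) (nat_lit 92) (nat_lit 5) (nat_lit 87) (nat_lit 5) (nat_lit 394) (nat_lit 376) (nat_lit 130))) (XT.nd (nat_lit 78) (nat_lit 0) (nat_lit 0) (XT.lf (nat_lit 0) (nat_lit 70660609745) (nat_lit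 304) (nat_lit 54303761402) (nat_lit 380) (nat_lit 150049045799) (nat_lit 82) (nat_lit 5) (nat_lit 86) (nat_lit 5) (nat_lit 87) (nat_lit 5) (nat_lit 395) (nat_lit 376) (nat_lit 129)) (XT.lf (nat_lit 0) (nat_lit 166044006242) (nat_lit 380) (nat_lit 59095560950) (nat_lit 76) (nat_lit 57895628139) (nat_lit 82) (nat_lit 5) (nat_lit 87) (nat_lit 5) (nat_lit 83) (nat_lit 5) (nat_lit 396) (nat_lit 376) (nat_lit 128))))))))
noncomputable def xc246 : XT := (XT.nd (nat_lit 45630) (nat_lit 0) (nat_lit 1520) (XT.nd (nat_lit 936) (nat_lit 988) (nat_lit 0) (XT.nd (nat_lit 468) (nat_lit 760) (nat_lit 0) (XT.nd (nat_lit 234) (nat_lit 532) (nat_lit 0) (XT.nd (nat_lit 78) (nat_lit 304) (nat_lit 0) (XT.lf (nat_lit 0) (nat_lit 95593842802) (nat_lit 304) (nat_lit 115966427248) (nat_lit 380) (nat_lit 79778660284) (nat_lit 78) (nat_lit 5) (nat_lit 82) (nat_lit 5) (nat_lit 83) (nat_lit 5) (nat_lit 397) (nat_lit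 376) (nat_lit 127)) (XT.nd (nat_lit 78) (nat_lit 304) (nat_lit 0) (XT.lf (nat_lit 0) (nat_lit 260069303276) (nat_lit 304) (nat_lit 283791217) (nat_lit 380) (nat_lit 39654720269) (nat_lit 78) (nat_lit 5) (nat_lit 82) (nat_lit 5) (nat_lit 83) (nat_lit 5) (nat_lit 398) (nat_lit 376) (nat_lit 126)) (XT.lf (nat_lit 0) (nat_lit 6315316683) (nat_lit 304) (nat_lit 183226753044) (nat_lit 76) (nat_lit 119370184880) (nat_lit 74) (nat_lit 5) (nat_lit 78) (nat_lit 5) (nat_lit 75) (nat_lit 5) (nat_lit 399) (nat_lit 376) (nat_lit 125)))) (XT.nd (nat_lit 78) (nat_lit 532) (nat_lit 0) (XT.lf (nat_lit 0) (nat_lit 53943254471) (nat_lit 304) (nat_lit 17916703117) (nat_lit 76) (nat_lit 246334852146) (nat_lit 74) (nat_lit 5) (nat_lit 78) (nat_lit 5) (nat_lit 75) (nat_lit 5) (nat_lit 400) (nat_lit 376) (nat_lit 124)) (XT.nd (nat_lit 78) (nat_lit 228) (nat_lit 0) (XT.lf (nat_lit 0) (nat_lit 107311593740) (nat_lit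 380) (nat_lit 167858844271) (nat_lit 76) (nat_lit 52603104413) (nat_lit 70) (nat_lit 5) (nat_lit 75) (nat_lit 5) (nat_lit 71) (nat_lit 5) (nat_lit 401) (nat_lit 376) (nat_lit 123)) (XT.lf (nat_lit 0) (nat_lit 8533706596) (nat_lit 228) (nat_lit 156434256192) (nat_lit 304) (nat_lit 172782268356) (nat_lit 67) (nat_lit 5) (nat_lit 70) (nat_lit 5) (nat_lit 71) (nat_lit 5) (nat_lit 402) (nat_lit 376) (nat_lit 122))))) (XT.nd (nat_lit 234) (nat_lit 456) (nat_lit 0) (XT.nd (nat_lit 78) (nat_lit 304) (nat_lit 0) (XT.lf (nat_lit 0) (nat_lit 199573490661) (nat_lit 228) (nat_lit 28776375294) (nat_lit 304) (nat_lit 119733752597) (nat_lit 67) (nat_lit 5) (nat_lit 70) (nat_lit 5) (nat_lit 71) (nat_lit 5) (nat_lit 403) (nat_lit 376) (nat_lit 121)) (XT.nd (nat_lit 78) (nat_lit 76) (nat_lit 0) (XT.lf (nat_lit 0) (nat_lit 40897002597) (nat_lit 228) (nat_lit 256285798041) (nat_lit 304) (nat_lit 61636777906)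 (nat_lit 64) (nat_lit 5) (nat_lit 67) (nat_lit 5) (nat_lit 68) (nat_lit 5) (nat_lit 404) (nat_lit 376) (nat_lit 120)) (XT.lf (nat_lit 0) (nat_lit 2413381526) (nat_lit 304) (nat_lit 125539291309) (nat_lit 76) (nat_lit 241988758727) (nat_lit 63) (nat_lit 5) (nat_lit 67) (nat_lit 5) (nat_lit 64) (nat_lit 5) (nat_lit 405) (nat_lit 376) (nat_lit 119)))) (XT.nd (nat_lit 78) (nat_lit 228) (nat_lit 0) (XT.lf (nat_lit 0) (nat_lit 68954214100) (nat_lit 304) (nat_lit 303703191903) (nat_lit 76) (nat_lit 8843471052) (nat_lit 60) (nat_lit 5) (nat_lit 64) (nat_lit 5) (nat_lit 61) (nat_lit 5) (nat_lit 406) (nat_lit 376) (nat_lit 118)) (XT.nd (nat_lit 78) (nat_lit 228) (nat_lit 0) (XT.lf (nat_lit 0) (nat_lit 143080546553) (nat_lit 304) (nat_lit 100004549885) (nat_lit 76) (nat_lit 150340275500) (nat_lit 60) (nat_lit 5) (nat_lit 64) (nat_lit 5) (nat_lit 61) (nat_lit 5) (nat_lit 407) (nat_lit 376) (nat_lit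 117)) (XT.lf (nat_lit 0) (nat_lit 117644308952) (nat_lit 228) (nat_lit 105105597580) (nat_lit 304) (nat_lit 183104349513) (nat_lit 57) (nat_lit 5) (nat_lit 60) (nat_lit 5) (nat_lit 61) (nat_lit 5) (nat_lit 408) (nat_lit 376) (nat_lit 116)))))) (XT.nd (nat_lit 468) (nat_lit 380) (nat_lit 0) (XT.nd (nat_lit 234) (nat_lit 380) (nat_lit 0) (XT.nd (nat_lit 78) (nat_lit 228) (nat_lit 0) (XT.lf (nat_lit 0) (nat_lit 308745044743) (nat_lit 304) (nat_lit 69821159342) (nat_lit 76) (nat_lit 40221264785) (nat_lit 57) (nat_lit 5) (nat_lit 61) (nat_lit 5) (nat_lit 58) (nat_lit 5) (nat_lit 409) (nat_lit 376) (nat_lit 115)) (XT.nd (nat_lit 78) (nat_lit 76) (nat_lit 0) (XT.lf (nat_lit 0) (nat_lit 162980348749) (nat_lit 152) (nat_lit 240327170246) (nat_lit 228) (nat_lit 28846444408) (nat_lit 55) (nat_lit 5) (nat_lit 57) (nat_lit 5) (nat_lit 58) (nat_lit 5) (nat_lit 410) (nat_lit 376) (nat_lit 114)) (XT.lf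 (nat_lit 0) (nat_lit 55805679841) (nat_lit 228) (nat_lit 37183852823) (nat_lit 76) (nat_lit 353095124802) (nat_lit 54) (nat_lit 5) (nat_lit 57) (nat_lit 5) (nat_lit 55) (nat_lit 5) (nat_lit 411) (nat_lit 376) (nat_lit 113)))) (XT.nd (nat_lit 78) (nat_lit 152) (nat_lit 0) (XT.lf (nat_lit 0) (nat_lit 148068177133) (nat_lit 304) (nat_lit 248806417300) (nat_lit 76) (nat_lit 63596287368) (nat_lit 51) (nat_lit 5) (nat_lit 55) (nat_lit 5) (nat_lit 52) (nat_lit 5) (nat_lit 412) (nat_lit 376) (nat_lit 112)) (XT.nd (nat_lit 78) (nat_lit 152) (nat_lit 0) (XT.lf (nat_lit 0) (nat_lit 247108227388) (nat_lit 304) (nat_lit 2833599265) (nat_lit 76) (nat_lit 225526369315) (nat_lit 51) (nat_lit 5) (nat_lit 55) (nat_lit 5) (nat_lit 52) (nat_lit 5) (nat_lit 413) (nat_lit 376) (nat_lit 111)) (XT.lf (nat_lit 0) (nat_lit 263883726540) (nat_lit 152) (nat_lit 91336479647) (nat_lit 228) (nat_lit 135789173372) (nat_lit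 49) (nat_lit 5) (nat_lit 51) (nat_lit 5) (nat_lit 52) (nat_lit 5) (nat_lit 414) (nat_lit 376) (nat_lit 110))))) (XT.nd (nat_lit 43992) (nat_lit 0) (nat_lit 4712) (XT.nd (nat_lit 234) (nat_lit 228) (nat_lit 0) (XT.lf (nat_lit 0) (nat_lit 36710107719) (nat_lit 152) (nat_lit 433823630268) (nat_lit 228) (nat_lit 36704086656) (nat_lit 47) (nat_lit 5) (nat_lit 49) (nat_lit 5) (nat_lit 50) (nat_lit 5) (nat_lit 415) (nat_lit 376) (nat_lit 109)) (XT.nd (nat_lit 43680) (nat_lit 0) (nat_lit 4712) (XT.lf (nat_lit 0) (nat_lit 306018667543) (nat_lit 228) (nat_lit 183557963323) (nat_lit 76) (nat_lit 69948915422) (nat_lit 44) (nat_lit 5) (nat_lit 47) (nat_lit 5) (nat_lit 45) (nat_lit 5) (nat_lit 418) (nat_lit 376) (nat_lit 106)) (XT.lf (nat_lit 0) (nat_lit 14989995139) (nat_lit 836) (nat_lit 36090468673) (nat_lit 836) (nat_lit 36090468673) (nat_lit 106) (nat_lit 3) (nat_lit 117) (nat_lit 3) (nat_lit 117)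 (nat_lit 5) (nat_lit 377) (nat_lit 377) (nat_lit 146)))) (XT.nd (nat_lit 78) (nat_lit 0) (nat_lit 76) (XT.lf (nat_lit 76) (nat_lit 11485308655) (nat_lit 0) (nat_lit 19425587532) (nat_lit 836) (nat_lit 147780443291) (nat_lit 107) (nat_lit 5) (nat_lit 106) (nat_lit 3) (nat_lit 117) (nat_lit 5) (nat_lit 378) (nat_lit 377) (nat_lit 145)) (XT.nd (nat_lit 78) (nat_lit 0) (nat_lit 0) (XT.lf (nat_lit 0) (nat_lit 34183701501) (nat_lit 760) (nat_lit 82429489878) (nat_lit 836) (nat_lit 66530328741) (nat_lit 107) (nat_lit 5) (nat_lit 117) (nat_lit 5) (nat_lit 118) (nat_lit 5) (nat_lit 379) (nat_lit 377) (nat_lit 144)) (XT.lf (nat_lit 76) (nat_lit 6474576169) (nat_lit 0) (nat_lit 31564981979) (nat_lit 836) (nat_lit 149757781203) (nat_lit 108) (nat_lit 5) (nat_lit 107) (nat_lit 5) (nat_lit 118) (nat_lit 5) (nat_lit 380) (nat_lit 377) (nat_lit 143))))))) (XT.nd (nat_lit 936) (nat_lit 2128) (nat_lit 0)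 (XT.nd (nat_lit 468) (nat_lit 1216) (nat_lit 0) (XT.nd (nat_lit 234) (nat_lit 0) (nat_lit 76) (XT.nd (nat_lit 78) (nat_lit 0) (nat_lit 0) (XT.lf (nat_lit 0) (nat_lit 44408369176) (nat_lit 760) (nat_lit 90852821484) (nat_lit 836) (nat_lit 57306650913) (nat_lit 108) (nat_lit 5) (nat_lit 118) (nat_lit 5) (nat_lit 119) (nat_lit 5) (nat_lit 381) (nat_lit 377) (nat_lit 142)) (XT.nd (nat_lit 78) (nat_lit 0) (nat_lit 76) (XT.lf (nat_lit 76) (nat_lit 3742875593) (nat_lit 0) (nat_lit 47928524627) (nat_lit 836) (nat_lit 145876679812) (nat_lit 109) (nat_lit 5) (nat_lit 108) (nat_lit 5) (nat_lit 119) (nat_lit 5) (nat_lit 382) (nat_lit 377) (nat_lit 141)) (XT.lf (nat_lit 0) (nat_lit 61544716149) (nat_lit 760) (nat_lit 97186527598) (nat_lit 836) (nat_lit 43933730094) (nat_lit 109) (nat_lit 5) (nat_lit 119) (nat_lit 5) (nat_lit 120) (nat_lit 5) (nat_lit 383) (nat_lit 377) (nat_lit 140)))) (XT.nd (nat_lit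 78) (nat_lit 0) (nat_lit 76) (XT.lf (nat_lit 76) (nat_lit 3592265115) (nat_lit 0) (nat_lit 69161125727) (nat_lit 836) (nat_lit 135242236943) (nat_lit 110) (nat_lit 5) (nat_lit 109) (nat_lit 5) (nat_lit 120) (nat_lit 5) (nat_lit 384) (nat_lit 377) (nat_lit 139)) (XT.nd (nat_lit 78) (nat_lit 0) (nat_lit 0) (XT.lf (nat_lit 0) (nat_lit 86583844037) (nat_lit 760) (nat_lit 101142054357) (nat_lit 836) (nat_lit 25763848879) (nat_lit 110) (nat_lit 5) (nat_lit 120) (nat_lit 5) (nat_lit 121) (nat_lit 5) (nat_lit 385) (nat_lit 377) (nat_lit 138)) (XT.lf (nat_lit 76) (nat_lit 6351746306) (nat_lit 0) (nat_lit 95986934253) (nat_lit 836) (nat_lit 116858249226) (nat_lit 111) (nat_lit 5) (nat_lit 110) (nat_lit 5) (nat_lit 121) (nat_lit 5) (nat_lit 386) (nat_lit 377) (nat_lit 137))))) (XT.nd (nat_lit 234) (nat_lit 684) (nat_lit 0) (XT.nd (nat_lit 78) (nat_lit 760) (nat_lit 0) (XT.lf (nat_lit 0) (nat_lit 120627427880)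 (nat_lit 760) (nat_lit 102405622120) (nat_lit 76) (nat_lit 2069113052) (nat_lit 111) (nat_lit 5) (nat_lit 121) (nat_lit 5) (nat_lit 112) (nat_lit 5) (nat_lit 387) (nat_lit 377) (nat_lit 136)) (XT.nd (nat_lit 78) (nat_lit 0) (nat_lit 0) (XT.lf (nat_lit 0) (nat_lit 12378469952) (nat_lit 760) (nat_lit 129218872743) (nat_lit 836) (nat_lit 89616978856) (nat_lit 101) (nat_lit 5) (nat_lit 111) (nat_lit 5) (nat_lit 112) (nat_lit 5) (nat_lit 388) (nat_lit 377) (nat_lit 135)) (XT.lf (nat_lit 0) (nat_lit 136456980474) (nat_lit 760) (nat_lit 28892975772) (nat_lit 836) (nat_lit 72195421652) (nat_lit 101) (nat_lit 5) (nat_lit 111) (nat_lit 5) (nat_lit 112) (nat_lit 5) (nat_lit 389) (nat_lit 377) (nat_lit 134)))) (XT.nd (nat_lit 78) (nat_lit 304) (nat_lit 0) (XT.lf (nat_lit 0) (nat_lit 22058783104) (nat_lit 380) (nat_lit 169769321733) (nat_lit 456) (nat_lit 52287987072) (nat_lit 96) (nat_lit 5) (nat_lit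 101) (nat_lit 5) (nat_lit 102) (nat_lit 5) (nat_lit 390) (nat_lit 377) (nat_lit 133)) (XT.nd (nat_lit 78) (nat_lit 304) (nat_lit 0) (XT.lf (nat_lit 0) (nat_lit 154383489635) (nat_lit 380) (nat_lit 67424588993) (nat_lit 456) (nat_lit 29098367171) (nat_lit 96) (nat_lit 5) (nat_lit 101) (nat_lit 5) (nat_lit 102) (nat_lit 5) (nat_lit 391) (nat_lit 377) (nat_lit 132)) (XT.lf (nat_lit 0) (nat_lit 35809054213) (nat_lit 304) (nat_lit 218662097182) (nat_lit 380) (nat_lit 3505961034) (nat_lit 92) (nat_lit 5) (nat_lit 96) (nat_lit 5) (nat_lit 97) (nat_lit 5) (nat_lit 392) (nat_lit 377) (nat_lit 131)))))) (XT.nd (nat_lit 468) (nat_lit 1064) (nat_lit 0) (XT.nd (nat_lit 234) (nat_lit 608) (nat_lit 0) (XT.nd (nat_lit 78) (nat_lit 380) (nat_lit 0) (XT.lf (nat_lit 0) (nat_lit 25384913265) (nat_lit 380) (nat_lit 88707862499) (nat_lit 76) (nat_lit 151151960800) (nat_lit 91) (nat_lit 5) (nat_lit 96) (nat_lit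 5) (nat_lit 92) (nat_lit 5) (nat_lit 393) (nat_lit 377) (nat_lit 130)) (XT.nd (nat_lit 78) (nat_lit 0) (nat_lit 0) (XT.lf (nat_lit 0) (nat_lit 53066244410) (nat_lit 380) (nat_lit 3364705928) (nat_lit 456) (nat_lit 216400495767) (nat_lit 86) (nat_lit 5) (nat_lit 91) (nat_lit 5) (nat_lit 92) (nat_lit 5) (nat_lit 394) (nat_lit 377) (nat_lit 129)) (XT.lf (nat_lit 0) (nat_lit 92318841310) (nat_lit 456) (nat_lit 77500969277) (nat_lit 76) (nat_lit 110813202982) (nat_lit 86) (nat_lit 5) (nat_lit 92) (nat_lit 5) (nat_lit 87) (nat_lit 5) (nat_lit 395) (nat_lit 377) (nat_lit 128)))) (XT.nd (nat_lit 78) (nat_lit 304) (nat_lit 0) (XT.lf (nat_lit 0) (nat_lit 74195976728) (nat_lit 304) (nat_lit 57018651260) (nat_lit 380) (nat_lit 157549356410) (nat_lit 82) (nat_lit 5) (nat_lit 86) (nat_lit 5) (nat_lit 87) (nat_lit 5) (nat_lit 396) (nat_lit 377) (nat_lit 127)) (XT.nd (nat_lit 78) (nat_lit 304) (nat_lit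 0) (XT.lf (nat_lit 0) (nat_lit 174348152211) (nat_lit 380) (nat_lit 62048019726) (nat_lit 76) (nat_lit 60790684467) (nat_lit 82) (nat_lit 5) (nat_lit 87) (nat_lit 5) (nat_lit 83) (nat_lit 5) (nat_lit 397) (nat_lit 377) (nat_lit 126)) (XT.lf (nat_lit 0) (nat_lit 100375816806) (nat_lit 304) (nat_lit 121764355380) (nat_lit 380) (nat_lit 83765608890) (nat_lit 78) (nat_lit 5) (nat_lit 82) (nat_lit 5) (nat_lit 83) (nat_lit 5) (nat_lit 398) (nat_lit 377) (nat_lit 125))))) (XT.nd (nat_lit 234) (nat_lit 760) (nat_lit 0) (XT.nd (nat_lit 78) (nat_lit 304) (nat_lit 0) (XT.lf (nat_lit 0) (nat_lit 273074941643) (nat_lit 304) (nat_lit 297606272) (nat_lit 380) (nat_lit 41635566371) (nat_lit 78) (nat_lit 5) (nat_lit 82) (nat_lit 5) (nat_lit 83) (nat_lit 5) (nat_lit 399) (nat_lit 377) (nat_lit 124)) (XT.nd (nat_lit 78) (nat_lit 0) (nat_lit 0) (XT.lf (nat_lit 0) (nat_lit 6632865748) (nat_lit 304) (nat_lit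 192385808433) (nat_lit 76) (nat_lit 125339102835) (nat_lit 74) (nat_lit 5) (nat_lit 78) (nat_lit 5) (nat_lit 75) (nat_lit 5) (nat_lit 400) (nat_lit 377) (nat_lit 123)) (XT.lf (nat_lit 0) (nat_lit 56642115508) (nat_lit 304) (nat_lit 18810364689) (nat_lit 76) (nat_lit 258651984002) (nat_lit 74) (nat_lit 5) (nat_lit 78) (nat_lit 5) (nat_lit 75) (nat_lit 5) (nat_lit 401) (nat_lit 377) (nat_lit 122)))) (XT.nd (nat_lit 156) (nat_lit 228) (nat_lit 0) (XT.nd (nat_lit 78) (nat_lit 228) (nat_lit 0) (XT.lf (nat_lit 0) (nat_lit 112678831872) (nat_lit 380) (nat_lit 176249571979) (nat_lit 76) (nat_lit 55233731720) (nat_lit 70) (nat_lit 5) (nat_lit 75) (nat_lit 5) (nat_lit 71) (nat_lit 5) (nat_lit 402) (nat_lit 377) (nat_lit 121)) (XT.lf (nat_lit 0) (nat_lit 8962570713) (nat_lit 228) (nat_lit 164255403702) (nat_lit 304) (nat_lit 181419686609) (nat_lit 67) (nat_lit 5) (nat_lit 70) (nat_lit 5) (nat_lit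 71) (nat_lit 5) (nat_lit 403) (nat_lit 377) (nat_lit 120))) (XT.nd (nat_lit 78) (nat_lit 228) (nat_lit 0) (XT.lf (nat_lit 0) (nat_lit 209554240230) (nat_lit 228) (nat_lit 30214655678) (nat_lit 304) (nat_lit 125718825784) (nat_lit 67) (nat_lit 5) (nat_lit 70) (nat_lit 5) (nat_lit 71) (nat_lit 5) (nat_lit 404) (nat_lit 377) (nat_lit 119)) (XT.lf (nat_lit 0) (nat_lit 42943962557) (nat_lit 228) (nat_lit 269099482541) (nat_lit 304) (nat_lit 64717036244) (nat_lit 64) (nat_lit 5) (nat_lit 67) (nat_lit 5) (nat_lit 68) (nat_lit 5) (nat_lit 405) (nat_lit 377) (nat_lit 118))))))))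
noncomputable def xc247 : XT := (XT.nd (nat_lit 45864) (nat_lit 0) (nat_lit 152) (XT.nd (nat_lit 44850) (nat_lit 0) (nat_lit 3572) (XT.nd (nat_lit 468) (nat_lit 456) (nat_lit 0) (XT.nd (nat_lit 234) (nat_lit 380) (nat_lit 0) (XT.nd (nat_lit 78) (nat_lit 228) (nat_lit 0) (XT.lf (nat_lit 0) (nat_lit 2535507716) (nat_lit 304) (nat_lit 131814197509) (nat_lit 76) (nat_lit 254088724234) (nat_lit 63) (nat_lit 5) (nat_lit 67) (nat_lit 5) (nat_lit 64) (nat_lit 5) (nat_lit 406) (nat_lit 377) (nat_lit 117)) (XT.nd (nat_lit 78) (nat_lit 0) (nat_lit 0) (XT.lf (nat_lit 0) (nat_lit 72403353610) (nat_lit 304) (nat_lit 318886264038) (nat_lit 76) (nat_lit 9286231034) (nat_lit 60) (nat_lit 5) (nat_lit 64) (nat_lit 5) (nat_lit 61) (nat_lit 5) (nat_lit 407) (nat_lit 377) (nat_lit 116)) (XT.lf (nat_lit 0) (nat_lit 150235934647) (nat_lit 304) (nat_lit 105002789322) (nat_lit 76) (nat_lit 157857847780) (nat_lit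 60) (nat_lit 5) (nat_lit 64) (nat_lit 5) (nat_lit 61) (nat_lit 5) (nat_lit 408) (nat_lit 377) (nat_lit 115)))) (XT.nd (nat_lit 78) (nat_lit 152) (nat_lit 0) (XT.lf (nat_lit 0) (nat_lit 123528480391) (nat_lit 228) (nat_lit 110360247974) (nat_lit 304) (nat_lit 192258173444) (nat_lit 57) (nat_lit 5) (nat_lit 60) (nat_lit 5) (nat_lit 61) (nat_lit 5) (nat_lit 409) (nat_lit 377) (nat_lit 114)) (XT.nd (nat_lit 78) (nat_lit 152) (nat_lit 0) (XT.lf (nat_lit 0) (nat_lit 324183569680) (nat_lit 304) (nat_lit 73310299974) (nat_lit 76) (nat_lit 42232908345) (nat_lit 57) (nat_lit 5) (nat_lit 61) (nat_lit 5) (nat_lit 58) (nat_lit 5) (nat_lit 410) (nat_lit 377) (nat_lit 113)) (XT.lf (nat_lit 0) (nat_lit 171131252596) (nat_lit 152) (nat_lit 252342883895) (nat_lit 228) (nat_lit 30287462358) (nat_lit 55) (nat_lit 5) (nat_lit 57) (nat_lit 5) (nat_lit 58) (nat_lit 5) (nat_lit 411) (nat_lit 377) (nat_lit 112)))))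 (XT.nd (nat_lit 234) (nat_lit 152) (nat_lit 0) (XT.nd (nat_lit 78) (nat_lit 228) (nat_lit 0) (XT.lf (nat_lit 0) (nat_lit 58597166239) (nat_lit 228) (nat_lit 39041208541) (nat_lit 76) (nat_lit 370750454854) (nat_lit 54) (nat_lit 5) (nat_lit 57) (nat_lit 5) (nat_lit 55) (nat_lit 5) (nat_lit 412) (nat_lit 377) (nat_lit 111)) (XT.nd (nat_lit 78) (nat_lit 0) (nat_lit 0) (XT.lf (nat_lit 0) (nat_lit 155472769252) (nat_lit 304) (nat_lit 261244881541) (nat_lit 76) (nat_lit 66776715378) (nat_lit 51) (nat_lit 5) (nat_lit 55) (nat_lit 5) (nat_lit 52) (nat_lit 5) (nat_lit 413) (nat_lit 377) (nat_lit 110)) (XT.lf (nat_lit 0) (nat_lit 259464765673) (nat_lit 304) (nat_lit 2973511015) (nat_lit 76) (nat_lit 236803272201) (nat_lit 51) (nat_lit 5) (nat_lit 55) (nat_lit 5) (nat_lit 52) (nat_lit 5) (nat_lit 414) (nat_lit 377) (nat_lit 109)))) (XT.nd (nat_lit 43992) (nat_lit 0) (nat_lit 4332) (XT.lf (nat_lit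 0) (nat_lit 277079652561) (nat_lit 152) (nat_lit 95902664350) (nat_lit 228) (nat_lit 142577476098) (nat_lit 49) (nat_lit 5) (nat_lit 51) (nat_lit 5) (nat_lit 52) (nat_lit 5) (nat_lit 415) (nat_lit 377) (nat_lit 108)) (XT.nd (nat_lit 78) (nat_lit 0) (nat_lit 0) (XT.lf (nat_lit 0) (nat_lit 15741550588) (nat_lit 836) (nat_lit 37893911977) (nat_lit 836) (nat_lit 37893911977) (nat_lit 106) (nat_lit 3) (nat_lit 117) (nat_lit 3) (nat_lit 117) (nat_lit 5) (nat_lit 378) (nat_lit 378) (nat_lit 144)) (XT.lf (nat_lit 76) (nat_lit 12061699503) (nat_lit 0) (nat_lit 20398690281) (nat_lit 836) (nat_lit 155165315834) (nat_lit 107) (nat_lit 5) (nat_lit 106) (nat_lit 3) (nat_lit 117) (nat_lit 5) (nat_lit 379) (nat_lit 378) (nat_lit 143)))))) (XT.nd (nat_lit 468) (nat_lit 836) (nat_lit 0) (XT.nd (nat_lit 234) (nat_lit 0) (nat_lit 76) (XT.nd (nat_lit 78) (nat_lit 0) (nat_lit 0) (XT.lf (nat_lit 0) (nat_lit 35896620215)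 (nat_lit 760) (nat_lit 86548721785) (nat_lit 836) (nat_lit 69855164213) (nat_lit 107) (nat_lit 5) (nat_lit 117) (nat_lit 5) (nat_lit 118) (nat_lit 5) (nat_lit 380) (nat_lit 378) (nat_lit 142)) (XT.nd (nat_lit 78) (nat_lit 0) (nat_lit 76) (XT.lf (nat_lit 76) (nat_lit 6800511394) (nat_lit 0) (nat_lit 33144614956) (nat_lit 836) (nat_lit 157241897376) (nat_lit 108) (nat_lit 5) (nat_lit 107) (nat_lit 5) (nat_lit 118) (nat_lit 5) (nat_lit 381) (nat_lit 378) (nat_lit 141)) (XT.lf (nat_lit 0) (nat_lit 46632186385) (nat_lit 760) (nat_lit 95393166734) (nat_lit 836) (nat_lit 60170707663) (nat_lit 108) (nat_lit 5) (nat_lit 118) (nat_lit 5) (nat_lit 119) (nat_lit 5) (nat_lit 382) (nat_lit 378) (nat_lit 140)))) (XT.nd (nat_lit 78) (nat_lit 0) (nat_lit 76) (XT.lf (nat_lit 76) (nat_lit 3932278168) (nat_lit 0) (nat_lit 50325964235) (nat_lit 836) (nat_lit 153167075230) (nat_lit 109) (nat_lit 5) (nat_lit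 108) (nat_lit 5) (nat_lit 119) (nat_lit 5) (nat_lit 383) (nat_lit 378) (nat_lit 139)) (XT.nd (nat_lit 78) (nat_lit 0) (nat_lit 0) (XT.lf (nat_lit 0) (nat_lit 64625053243) (nat_lit 760) (nat_lit 102043529200) (nat_lit 836) (nat_lit 46129482368) (nat_lit 109) (nat_lit 5) (nat_lit 119) (nat_lit 5) (nat_lit 120) (nat_lit 5) (nat_lit 384) (nat_lit 378) (nat_lit 138)) (XT.lf (nat_lit 76) (nat_lit 3774165653) (nat_lit 0) (nat_lit 72619884048) (nat_lit 836) (nat_lit 142001207475) (nat_lit 110) (nat_lit 5) (nat_lit 109) (nat_lit 5) (nat_lit 120) (nat_lit 5) (nat_lit 385) (nat_lit 378) (nat_lit 137))))) (XT.nd (nat_lit 234) (nat_lit 1064) (nat_lit 0) (XT.nd (nat_lit 78) (nat_lit 0) (nat_lit 0) (XT.lf (nat_lit 0) (nat_lit 90915872768) (nat_lit 760) (nat_lit 106196823513) (nat_lit 836) (nat_lit 27051394118) (nat_lit 110) (nat_lit 5) (nat_lit 120) (nat_lit 5) (nat_lit 121) (nat_lit 5) (nat_lit 386)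 (nat_lit 378) (nat_lit 136)) (XT.nd (nat_lit 78) (nat_lit 0) (nat_lit 76) (XT.lf (nat_lit 76) (nat_lit 6671629546) (nat_lit 0) (nat_lit 100786722344) (nat_lit 836) (nat_lit 122698285223) (nat_lit 111) (nat_lit 5) (nat_lit 110) (nat_lit 5) (nat_lit 121) (nat_lit 5) (nat_lit 387) (nat_lit 378) (nat_lit 135)) (XT.lf (nat_lit 0) (nat_lit 126661399666) (nat_lit 760) (nat_lit 107523577534) (nat_lit 76) (nat_lit 2172161799) (nat_lit 111) (nat_lit 5) (nat_lit 121) (nat_lit 5) (nat_lit 112) (nat_lit 5) (nat_lit 388) (nat_lit 378) (nat_lit 134)))) (XT.nd (nat_lit 156) (nat_lit 380) (nat_lit 0) (XT.nd (nat_lit 78) (nat_lit 0) (nat_lit 0) (XT.lf (nat_lit 0) (nat_lit 12999681632) (nat_lit 760) (nat_lit 135680040487) (nat_lit 836) (nat_lit 94095187813) (nat_lit 101) (nat_lit 5) (nat_lit 111) (nat_lit 5) (nat_lit 112) (nat_lit 5) (nat_lit 389) (nat_lit 378) (nat_lit 133)) (XT.lf (nat_lit 0) (nat_lit 143282008718)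 (nat_lit 760) (nat_lit 30337837995) (nat_lit 836) (nat_lit 75802678462) (nat_lit 101) (nat_lit 5) (nat_lit 111) (nat_lit 5) (nat_lit 112) (nat_lit 5) (nat_lit 390) (nat_lit 378) (nat_lit 132))) (XT.nd (nat_lit 78) (nat_lit 0) (nat_lit 0) (XT.lf (nat_lit 0) (nat_lit 23163989265) (nat_lit 380) (nat_lit 178257831755) (nat_lit 456) (nat_lit 54899958048) (nat_lit 96) (nat_lit 5) (nat_lit 101) (nat_lit 5) (nat_lit 102) (nat_lit 5) (nat_lit 391) (nat_lit 378) (nat_lit 131)) (XT.lf (nat_lit 0) (nat_lit 162104823170) (nat_lit 380) (nat_lit 70795860285) (nat_lit 456) (nat_lit 30550972790) (nat_lit 96) (nat_lit 5) (nat_lit 101) (nat_lit 5) (nat_lit 102) (nat_lit 5) (nat_lit 392) (nat_lit 378) (nat_lit 130))))))) (XT.nd (nat_lit 936) (nat_lit 1216) (nat_lit 0) (XT.nd (nat_lit 468) (nat_lit 1140) (nat_lit 0) (XT.nd (nat_lit 234) (nat_lit 304) (nat_lit 0) (XT.nd (nat_lit 78) (nat_lit 456) (nat_lit 0)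 (XT.lf (nat_lit 0) (nat_lit 37601741837) (nat_lit 304) (nat_lit 229595097490) (nat_lit 380) (nat_lit 3679020491) (nat_lit 92) (nat_lit 5) (nat_lit 96) (nat_lit 5) (nat_lit 97) (nat_lit 5) (nat_lit 393) (nat_lit 378) (nat_lit 129)) (XT.nd (nat_lit 78) (nat_lit 380) (nat_lit 0) (XT.lf (nat_lit 0) (nat_lit 26656222686) (nat_lit 380) (nat_lit 93141057344) (nat_lit 76) (nat_lit 158709588620) (nat_lit 91) (nat_lit 5) (nat_lit 96) (nat_lit 5) (nat_lit 92) (nat_lit 5) (nat_lit 394) (nat_lit 378) (nat_lit 128)) (XT.lf (nat_lit 0) (nat_lit 55721719454) (nat_lit 380) (nat_lit 3532777651) (nat_lit 456) (nat_lit 227218419862) (nat_lit 86) (nat_lit 5) (nat_lit 91) (nat_lit 5) (nat_lit 92) (nat_lit 5) (nat_lit 395) (nat_lit 378) (nat_lit 127)))) (XT.nd (nat_lit 78) (nat_lit 304) (nat_lit 0) (XT.lf (nat_lit 0) (nat_lit 96936689856) (nat_lit 456) (nat_lit 81373863729) (nat_lit 76) (nat_lit 116354013930)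 (nat_lit 86) (nat_lit 5) (nat_lit 92) (nat_lit 5) (nat_lit 87) (nat_lit 5) (nat_lit 396) (nat_lit 378) (nat_lit 126)) (XT.nd (nat_lit 78) (nat_lit 0) (nat_lit 0) (XT.lf (nat_lit 0) (nat_lit 77907894835) (nat_lit 304) (nat_lit 59869313336) (nat_lit 380) (nat_lit 165424881665) (nat_lit 82) (nat_lit 5) (nat_lit 86) (nat_lit 5) (nat_lit 87) (nat_lit 5) (nat_lit 397) (nat_lit 378) (nat_lit 125)) (XT.lf (nat_lit 0) (nat_lit 183067324589) (nat_lit 380) (nat_lit 65148317066) (nat_lit 76) (nat_lit 63830468052) (nat_lit 82) (nat_lit 5) (nat_lit 87) (nat_lit 5) (nat_lit 83) (nat_lit 5) (nat_lit 398) (nat_lit 378) (nat_lit 124))))) (XT.nd (nat_lit 234) (nat_lit 532) (nat_lit 0) (XT.nd (nat_lit 78) (nat_lit 304) (nat_lit 0) (XT.lf (nat_lit 0) (nat_lit 105396677364) (nat_lit 304) (nat_lit 127852216477) (nat_lit 380) (nat_lit 87952089419) (nat_lit 78) (nat_lit 5) (nat_lit 82) (nat_lit 5) (nat_lit 83)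 (nat_lit 5) (nat_lit 399) (nat_lit 378) (nat_lit 123)) (XT.nd (nat_lit 78) (nat_lit 304) (nat_lit 0) (XT.lf (nat_lit 0) (nat_lit 286730659885) (nat_lit 304) (nat_lit 312146899) (nat_lit 380) (nat_lit 43715630484) (nat_lit 78) (nat_lit 5) (nat_lit 82) (nat_lit 5) (nat_lit 83) (nat_lit 5) (nat_lit 400) (nat_lit 378) (nat_lit 122)) (XT.lf (nat_lit 0) (nat_lit 6966126477) (nat_lit 304) (nat_lit 202003028774) (nat_lit 76) (nat_lit 131606428691) (nat_lit 74) (nat_lit 5) (nat_lit 78) (nat_lit 5) (nat_lit 75) (nat_lit 5) (nat_lit 401) (nat_lit 378) (nat_lit 121)))) (XT.nd (nat_lit 78) (nat_lit 532) (nat_lit 0) (XT.lf (nat_lit 0) (nat_lit 59475761705) (nat_lit 304) (nat_lit 19748911419) (nat_lit 76) (nat_lit 271584936263) (nat_lit 74) (nat_lit 5) (nat_lit 78) (nat_lit 5) (nat_lit 75) (nat_lit 5) (nat_lit 402) (nat_lit 378) (nat_lit 120)) (XT.nd (nat_lit 78) (nat_lit 228) (nat_lit 0) (XT.lf (nat_lit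 0) (nat_lit 118314277724) (nat_lit 380) (nat_lit 185060041956) (nat_lit 76) (nat_lit 57995846502) (nat_lit 70) (nat_lit 5) (nat_lit 75) (nat_lit 5) (nat_lit 71) (nat_lit 5) (nat_lit 403) (nat_lit 378) (nat_lit 119)) (XT.lf (nat_lit 0) (nat_lit 9412675474) (nat_lit 228) (nat_lit 172467661144) (nat_lit 304) (nat_lit 190489133375) (nat_lit 67) (nat_lit 5) (nat_lit 70) (nat_lit 5) (nat_lit 71) (nat_lit 5) (nat_lit 404) (nat_lit 378) (nat_lit 118)))))) (XT.nd (nat_lit 468) (nat_lit 456) (nat_lit 0) (XT.nd (nat_lit 234) (nat_lit 456) (nat_lit 0) (XT.nd (nat_lit 78) (nat_lit 304) (nat_lit 0) (XT.lf (nat_lit 0) (nat_lit 220033834360) (nat_lit 228) (nat_lit 31724900135) (nat_lit 304) (nat_lit 132003302726) (nat_lit 67) (nat_lit 5) (nat_lit 70) (nat_lit 5) (nat_lit 71) (nat_lit 5) (nat_lit 405) (nat_lit 378) (nat_lit 117)) (XT.nd (nat_lit 78) (nat_lit 76) (nat_lit 0) (XT.lf (nat_lit 0) (nat_lit 45093074363)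 (nat_lit 228) (nat_lit 282553907549) (nat_lit 304) (nat_lit 67951454444) (nat_lit 64) (nat_lit 5) (nat_lit 67) (nat_lit 5) (nat_lit 68) (nat_lit 5) (nat_lit 406) (nat_lit 378) (nat_lit 116)) (XT.lf (nat_lit 0) (nat_lit 2663604748) (nat_lit 304) (nat_lit 138403040387) (nat_lit 76) (nat_lit 266793638969) (nat_lit 63) (nat_lit 5) (nat_lit 67) (nat_lit 5) (nat_lit 64) (nat_lit 5) (nat_lit 407) (nat_lit 378) (nat_lit 115)))) (XT.nd (nat_lit 78) (nat_lit 228) (nat_lit 0) (XT.lf (nat_lit 0) (nat_lit 76024817259) (nat_lit 304) (nat_lit 334828683853) (nat_lit 76) (nat_lit 9751074495) (nat_lit 60) (nat_lit 5) (nat_lit 64) (nat_lit 5) (nat_lit 61) (nat_lit 5) (nat_lit 408) (nat_lit 378) (nat_lit 114)) (XT.nd (nat_lit 78) (nat_lit 228) (nat_lit 0) (XT.lf (nat_lit 0) (nat_lit 157748965634) (nat_lit 304) (nat_lit 110251125562) (nat_lit 76) (nat_lit 165751246749) (nat_lit 60) (nat_lit 5) (nat_lit 64)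 (nat_lit 5) (nat_lit 61) (nat_lit 5) (nat_lit 409) (nat_lit 378) (nat_lit 113)) (XT.lf (nat_lit 0) (nat_lit 129706678552) (nat_lit 228) (nat_lit 115877689412) (nat_lit 304) (nat_lit 201869818131) (nat_lit 57) (nat_lit 5) (nat_lit 60) (nat_lit 5) (nat_lit 61) (nat_lit 5) (nat_lit 410) (nat_lit 378) (nat_lit 112))))) (XT.nd (nat_lit 234) (nat_lit 228) (nat_lit 0) (XT.nd (nat_lit 78) (nat_lit 228) (nat_lit 0) (XT.lf (nat_lit 0) (nat_lit 340393902540) (nat_lit 304) (nat_lit 76974075894) (nat_lit 76) (nat_lit 44345080131) (nat_lit 57) (nat_lit 5) (nat_lit 61) (nat_lit 5) (nat_lit 58) (nat_lit 5) (nat_lit 411) (nat_lit 378) (nat_lit 111)) (XT.nd (nat_lit 78) (nat_lit 76) (nat_lit 0) (XT.lf (nat_lit 0) (nat_lit 179689526254) (nat_lit 152) (nat_lit 264959443181) (nat_lit 228) (nat_lit 31800652464) (nat_lit 55) (nat_lit 5) (nat_lit 57) (nat_lit 5) (nat_lit 58) (nat_lit 5) (nat_lit 412) (nat_lit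 378) (nat_lit 110)) (XT.lf (nat_lit 0) (nat_lit 61528115167) (nat_lit 228) (nat_lit 40991602824) (nat_lit 76) (nat_lit 389288498061) (nat_lit 54) (nat_lit 5) (nat_lit 57) (nat_lit 5) (nat_lit 55) (nat_lit 5) (nat_lit 413) (nat_lit 378) (nat_lit 109)))) (XT.nd (nat_lit 44226) (nat_lit 0) (nat_lit 4180) (XT.nd (nat_lit 44148) (nat_lit 0) (nat_lit 4180) (XT.lf (nat_lit 0) (nat_lit 163247480968) (nat_lit 304) (nat_lit 274305441605) (nat_lit 76) (nat_lit 70116107737) (nat_lit 51) (nat_lit 5) (nat_lit 55) (nat_lit 5) (nat_lit 52) (nat_lit 5) (nat_lit 414) (nat_lit 378) (nat_lit 108)) (XT.lf (nat_lit 0) (nat_lit 16530492691) (nat_lit 836) (nat_lit 39787627867) (nat_lit 836) (nat_lit 39787627867) (nat_lit 106) (nat_lit 3) (nat_lit 117) (nat_lit 3) (nat_lit 117) (nat_lit 5) (nat_lit 379) (nat_lit 379) (nat_lit 142))) (XT.nd (nat_lit 78) (nat_lit 0) (nat_lit 76) (XT.lf (nat_lit 76) (nat_lit 12666712293)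 (nat_lit 0) (nat_lit 21420278648) (nat_lit 836) (nat_lit 162919817796) (nat_lit 107) (nat_lit 5) (nat_lit 106) (nat_lit 3) (nat_lit 117) (nat_lit 5) (nat_lit 380) (nat_lit 379) (nat_lit 141)) (XT.lf (nat_lit 0) (nat_lit 37694837746) (nat_lit 760) (nat_lit 90874123781) (nat_lit 836) (nat_lit 73346397738) (nat_lit 107) (nat_lit 5) (nat_lit 117) (nat_lit 5) (nat_lit 118) (nat_lit 5) (nat_lit 381) (nat_lit 379) (nat_lit 140))))))))
noncomputable def xc248 : XT := (XT.nd (nat_lit 1872) (nat_lit 988) (nat_lit 0) (XT.nd (nat_lit 936) (nat_lit 2204) (nat_lit 0) (XT.nd (nat_lit 468) (nat_lit 836) (nat_lit 0) (XT.nd (nat_lit 234) (nat_lit 0) (nat_lit 152) (XT.nd (nat_lit 78) (nat_lit 0) (nat_lit 76) (XT.lf (nat_lit 76) (nat_lit 7142538249) (nat_lit 0) (nat_lit 34803100923) (nat_lit 836) (nat_lit 165100570124) (nat_lit 108) (nat_lit 5) (nat_lit 107) (nat_lit 5) (nat_lit 118) (nat_lit 5) (nat_lit 382)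 (nat_lit 379) (nat_lit 139)) (XT.nd (nat_lit 78) (nat_lit 0) (nat_lit 0) (XT.lf (nat_lit 0) (nat_lit 48966878472) (nat_lit 760) (nat_lit 100160742690) (nat_lit 836) (nat_lit 63178085862) (nat_lit 108) (nat_lit 5) (nat_lit 118) (nat_lit 5) (nat_lit 119) (nat_lit 5) (nat_lit 383) (nat_lit 379) (nat_lit 138)) (XT.lf (nat_lit 76) (nat_lit 4130940870) (nat_lit 0) (nat_lit 52843181610) (nat_lit 836) (nat_lit 160822310105) (nat_lit 109) (nat_lit 5) (nat_lit 108) (nat_lit 5) (nat_lit 119) (nat_lit 5) (nat_lit 384) (nat_lit 379) (nat_lit 137)))) (XT.nd (nat_lit 78) (nat_lit 0) (nat_lit 0) (XT.lf (nat_lit 0) (nat_lit 67859118863) (nat_lit 760) (nat_lit 107143597018) (nat_lit 836) (nat_lit 48435109111) (nat_lit 109) (nat_lit 5) (nat_lit 119) (nat_lit 5) (nat_lit 120) (nat_lit 5) (nat_lit 385) (nat_lit 379) (nat_lit 136)) (XT.nd (nat_lit 78) (nat_lit 0) (nat_lit 76) (XT.lf (nat_lit 76) (nat_lit 3964948567)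 (nat_lit 0) (nat_lit 76251515017) (nat_lit 836) (nat_lit 149098418584) (nat_lit 110) (nat_lit 5) (nat_lit 109) (nat_lit 5) (nat_lit 120) (nat_lit 5) (nat_lit 386) (nat_lit 379) (nat_lit 135)) (XT.lf (nat_lit 0) (nat_lit 95464239222) (nat_lit 760) (nat_lit 111504548079) (nat_lit 836) (nat_lit 28403376790) (nat_lit 110) (nat_lit 5) (nat_lit 120) (nat_lit 5) (nat_lit 121) (nat_lit 5) (nat_lit 387) (nat_lit 379) (nat_lit 134))))) (XT.nd (nat_lit 234) (nat_lit 380) (nat_lit 0) (XT.nd (nat_lit 78) (nat_lit 684) (nat_lit 0) (XT.lf (nat_lit 76) (nat_lit 7007293494) (nat_lit 0) (nat_lit 105826458804) (nat_lit 836) (nat_lit 128830590447) (nat_lit 111) (nat_lit 5) (nat_lit 110) (nat_lit 5) (nat_lit 121) (nat_lit 5) (nat_lit 388) (nat_lit 379) (nat_lit 133)) (XT.nd (nat_lit 78) (nat_lit 760) (nat_lit 0) (XT.lf (nat_lit 0) (nat_lit 132996828281) (nat_lit 760) (nat_lit 112897646939) (nat_lit 76) (nat_lit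 2280400813) (nat_lit 111) (nat_lit 5) (nat_lit 121) (nat_lit 5) (nat_lit 112) (nat_lit 5) (nat_lit 389) (nat_lit 379) (nat_lit 132)) (XT.lf (nat_lit 0) (nat_lit 13651741161) (nat_lit 760) (nat_lit 142464245783) (nat_lit 836) (nat_lit 98797552659) (nat_lit 101) (nat_lit 5) (nat_lit 111) (nat_lit 5) (nat_lit 112) (nat_lit 5) (nat_lit 390) (nat_lit 379) (nat_lit 131)))) (XT.nd (nat_lit 78) (nat_lit 380) (nat_lit 0) (XT.lf (nat_lit 0) (nat_lit 150448085771) (nat_lit 760) (nat_lit 31854923487) (nat_lit 836) (nat_lit 79590531866) (nat_lit 101) (nat_lit 5) (nat_lit 111) (nat_lit 5) (nat_lit 112) (nat_lit 5) (nat_lit 391) (nat_lit 379) (nat_lit 130)) (XT.nd (nat_lit 78) (nat_lit 0) (nat_lit 0) (XT.lf (nat_lit 0) (nat_lit 24324244970) (nat_lit 380) (nat_lit 187170763192) (nat_lit 456) (nat_lit 57642753341) (nat_lit 96) (nat_lit 5) (nat_lit 101) (nat_lit 5) (nat_lit 102) (nat_lit 5) (nat_lit 392)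 (nat_lit 379) (nat_lit 129)) (XT.lf (nat_lit 0) (nat_lit 170212022653) (nat_lit 380) (nat_lit 74335691251) (nat_lit 456) (nat_lit 32076423706) (nat_lit 96) (nat_lit 5) (nat_lit 101) (nat_lit 5) (nat_lit 102) (nat_lit 5) (nat_lit 393) (nat_lit 379) (nat_lit 128)))))) (XT.nd (nat_lit 468) (nat_lit 1140) (nat_lit 0) (XT.nd (nat_lit 234) (nat_lit 304) (nat_lit 0) (XT.nd (nat_lit 78) (nat_lit 456) (nat_lit 0) (XT.lf (nat_lit 0) (nat_lit 39483856061) (nat_lit 304) (nat_lit 241074757534) (nat_lit 380) (nat_lit 3860941045) (nat_lit 92) (nat_lit 5) (nat_lit 96) (nat_lit 5) (nat_lit 97) (nat_lit 5) (nat_lit 394) (nat_lit 379) (nat_lit 127)) (XT.nd (nat_lit 78) (nat_lit 380) (nat_lit 0) (XT.lf (nat_lit 0) (nat_lit 27990905709) (nat_lit 380) (nat_lit 97796116306) (nat_lit 76) (nat_lit 166645095063) (nat_lit 91) (nat_lit 5) (nat_lit 96) (nat_lit 5) (nat_lit 92) (nat_lit 5) (nat_lit 395) (nat_lit 379)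 (nat_lit 126)) (XT.lf (nat_lit 0) (nat_lit 58509767172) (nat_lit 380) (nat_lit 3709268168) (nat_lit 456) (nat_lit 238577435464) (nat_lit 86) (nat_lit 5) (nat_lit 91) (nat_lit 5) (nat_lit 92) (nat_lit 5) (nat_lit 396) (nat_lit 379) (nat_lit 125)))) (XT.nd (nat_lit 78) (nat_lit 304) (nat_lit 0) (XT.lf (nat_lit 0) (nat_lit 101785253583) (nat_lit 456) (nat_lit 85440603162) (nat_lit 76) (nat_lit 122171851404) (nat_lit 86) (nat_lit 5) (nat_lit 92) (nat_lit 5) (nat_lit 87) (nat_lit 5) (nat_lit 397) (nat_lit 379) (nat_lit 124)) (XT.nd (nat_lit 78) (nat_lit 0) (nat_lit 0) (XT.lf (nat_lit 0) (nat_lit 81805211817) (nat_lit 304) (nat_lit 62862533664) (nat_lit 380) (nat_lit 173694363784) (nat_lit 82) (nat_lit 5) (nat_lit 86) (nat_lit 5) (nat_lit 87) (nat_lit 5) (nat_lit 398) (nat_lit 379) (nat_lit 123)) (XT.lf (nat_lit 0) (nat_lit 192222291516) (nat_lit 380) (nat_lit 68403824849) (nat_lit 76) (nat_lit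 67022217633) (nat_lit 82) (nat_lit 5) (nat_lit 87) (nat_lit 5) (nat_lit 83) (nat_lit 5) (nat_lit 399) (nat_lit 379) (nat_lit 122))))) (XT.nd (nat_lit 234) (nat_lit 532) (nat_lit 0) (XT.nd (nat_lit 78) (nat_lit 304) (nat_lit 0) (XT.lf (nat_lit 0) (nat_lit 110668388527) (nat_lit 304) (nat_lit 134244503790) (nat_lit 380) (nat_lit 92348061313) (nat_lit 78) (nat_lit 5) (nat_lit 82) (nat_lit 5) (nat_lit 83) (nat_lit 5) (nat_lit 400) (nat_lit 379) (nat_lit 121)) (XT.nd (nat_lit 78) (nat_lit 304) (nat_lit 0) (XT.lf (nat_lit 0) (nat_lit 301068980779) (nat_lit 304) (nat_lit 327446137) (nat_lit 380) (nat_lit 45899857173) (nat_lit 78) (nat_lit 5) (nat_lit 82) (nat_lit 5) (nat_lit 83) (nat_lit 5) (nat_lit 401) (nat_lit 379) (nat_lit 120)) (XT.lf (nat_lit 0) (nat_lit 7315899869) (nat_lit 304) (nat_lit 212101302589) (nat_lit 76) (nat_lit 138187086373) (nat_lit 74) (nat_lit 5) (nat_lit 78) (nat_lit 5)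 (nat_lit 75) (nat_lit 5) (nat_lit 402) (nat_lit 379) (nat_lit 119)))) (XT.nd (nat_lit 78) (nat_lit 532) (nat_lit 0) (XT.lf (nat_lit 0) (nat_lit 62450946998) (nat_lit 304) (nat_lit 20734568777) (nat_lit 76) (nat_lit 285164503312) (nat_lit 74) (nat_lit 5) (nat_lit 78) (nat_lit 5) (nat_lit 75) (nat_lit 5) (nat_lit 403) (nat_lit 379) (nat_lit 118)) (XT.nd (nat_lit 78) (nat_lit 228) (nat_lit 0) (XT.lf (nat_lit 0) (nat_lit 124231356017) (nat_lit 380) (nat_lit 194311222175) (nat_lit 76) (nat_lit 60896027214) (nat_lit 70) (nat_lit 5) (nat_lit 75) (nat_lit 5) (nat_lit 71) (nat_lit 5) (nat_lit 404) (nat_lit 379) (nat_lit 117)) (XT.lf (nat_lit 0) (nat_lit 9885101742) (nat_lit 228) (nat_lit 181090579128) (nat_lit 304) (nat_lit 200012195428) (nat_lit 67) (nat_lit 5) (nat_lit 70) (nat_lit 5) (nat_lit 71) (nat_lit 5) (nat_lit 405) (nat_lit 379) (nat_lit 116))))))) (XT.nd (nat_lit 45084) (nat_lit 0) (nat_lit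 2888) (XT.nd (nat_lit 468) (nat_lit 228) (nat_lit 0) (XT.nd (nat_lit 234) (nat_lit 456) (nat_lit 0) (XT.nd (nat_lit 78) (nat_lit 304) (nat_lit 0) (XT.lf (nat_lit 0) (nat_lit 231037233216) (nat_lit 228) (nat_lit 33310702215) (nat_lit 304) (nat_lit 138602139656) (nat_lit 67) (nat_lit 5) (nat_lit 70) (nat_lit 5) (nat_lit 71) (nat_lit 5) (nat_lit 406) (nat_lit 379) (nat_lit 115)) (XT.nd (nat_lit 78) (nat_lit 76) (nat_lit 0) (XT.lf (nat_lit 0) (nat_lit 47349463844) (nat_lit 228) (nat_lit 296681104860) (nat_lit 304) (nat_lit 71347726837) (nat_lit 64) (nat_lit 5) (nat_lit 67) (nat_lit 5) (nat_lit 68) (nat_lit 5) (nat_lit 407) (nat_lit 379) (nat_lit 114)) (XT.lf (nat_lit 0) (nat_lit 2797983756) (nat_lit 304) (nat_lit 145321498984) (nat_lit 76) (nat_lit 280133754951) (nat_lit 63) (nat_lit 5) (nat_lit 67) (nat_lit 5) (nat_lit 64) (nat_lit 5) (nat_lit 408) (nat_lit 379) (nat_lit 113)))) (XT.nd (nat_lit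 78) (nat_lit 228) (nat_lit 0) (XT.lf (nat_lit 0) (nat_lit 79827233603) (nat_lit 304) (nat_lit 351568400687) (nat_lit 76) (nat_lit 10239110677) (nat_lit 60) (nat_lit 5) (nat_lit 64) (nat_lit 5) (nat_lit 61) (nat_lit 5) (nat_lit 409) (nat_lit 379) (nat_lit 112)) (XT.nd (nat_lit 78) (nat_lit 228) (nat_lit 0) (XT.lf (nat_lit 0) (nat_lit 165637533422) (nat_lit 304) (nat_lit 115762046261) (nat_lit 76) (nat_lit 174039268569) (nat_lit 60) (nat_lit 5) (nat_lit 64) (nat_lit 5) (nat_lit 61) (nat_lit 5) (nat_lit 410) (nat_lit 379) (nat_lit 111)) (XT.lf (nat_lit 0) (nat_lit 136193621679) (nat_lit 228) (nat_lit 121671056003) (nat_lit 304) (nat_lit 211962162566) (nat_lit 57) (nat_lit 5) (nat_lit 60) (nat_lit 5) (nat_lit 61) (nat_lit 5) (nat_lit 411) (nat_lit 379) (nat_lit 110))))) (XT.nd (nat_lit 44382) (nat_lit 0) (nat_lit 3952) (XT.nd (nat_lit 78) (nat_lit 228) (nat_lit 0) (XT.lf (nat_lit 0) (nat_lit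 357414644720) (nat_lit 304) (nat_lit 80821202294) (nat_lit 76) (nat_lit 46562811570) (nat_lit 57) (nat_lit 5) (nat_lit 61) (nat_lit 5) (nat_lit 58) (nat_lit 5) (nat_lit 412) (nat_lit 379) (nat_lit 109)) (XT.nd (nat_lit 78) (nat_lit 76) (nat_lit 0) (XT.lf (nat_lit 0) (nat_lit 188675554521) (nat_lit 152) (nat_lit 278206884810) (nat_lit 228) (nat_lit 33389612061) (nat_lit 55) (nat_lit 5) (nat_lit 57) (nat_lit 5) (nat_lit 58) (nat_lit 5) (nat_lit 413) (nat_lit 379) (nat_lit 108)) (XT.lf (nat_lit 0) (nat_lit 64605510148) (nat_lit 228) (nat_lit 43039671724) (nat_lit 76) (nat_lit 408753395041) (nat_lit 54) (nat_lit 5) (nat_lit 57) (nat_lit 5) (nat_lit 55) (nat_lit 5) (nat_lit 414) (nat_lit 379) (nat_lit 107)))) (XT.nd (nat_lit 78) (nat_lit 0) (nat_lit 0) (XT.lf (nat_lit 0) (nat_lit 17358708549) (nat_lit 836) (nat_lit 41776120635) (nat_lit 836) (nat_lit 41776120635) (nat_lit 106) (nat_lit 3) (nat_lit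 117) (nat_lit 3) (nat_lit 117) (nat_lit 5) (nat_lit 380) (nat_lit 380) (nat_lit 140)) (XT.nd (nat_lit 78) (nat_lit 0) (nat_lit 76) (XT.lf (nat_lit 76) (nat_lit 13301796493) (nat_lit 0) (nat_lit 22492792674) (nat_lit 836) (nat_lit 171062394782) (nat_lit 107) (nat_lit 5) (nat_lit 106) (nat_lit 3) (nat_lit 117) (nat_lit 5) (nat_lit 381) (nat_lit 380) (nat_lit 139)) (XT.lf (nat_lit 0) (nat_lit 39582651307) (nat_lit 760) (nat_lit 95415984988) (nat_lit 836) (nat_lit 77012334691) (nat_lit 107) (nat_lit 5) (nat_lit 117) (nat_lit 5) (nat_lit 118) (nat_lit 5) (nat_lit 382) (nat_lit 380) (nat_lit 138)))))) (XT.nd (nat_lit 468) (nat_lit 1140) (nat_lit 0) (XT.nd (nat_lit 234) (nat_lit 0) (nat_lit 152) (XT.nd (nat_lit 78) (nat_lit 0) (nat_lit 76) (XT.lf (nat_lit 76) (nat_lit 7501480386) (nat_lit 0) (nat_lit 36544394489) (nat_lit 836) (nat_lit 173352494667) (nat_lit 108) (nat_lit 5) (nat_lit 107) (nat_lit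 5) (nat_lit 118) (nat_lit 5) (nat_lit 383) (nat_lit 380) (nat_lit 137)) (XT.nd (nat_lit 78) (nat_lit 0) (nat_lit 0) (XT.lf (nat_lit 0) (nat_lit 51418018557) (nat_lit 760) (nat_lit 105166891044) (nat_lit 836) (nat_lit 66335940555) (nat_lit 108) (nat_lit 5) (nat_lit 118) (nat_lit 5) (nat_lit 119) (nat_lit 5) (nat_lit 384) (nat_lit 380) (nat_lit 136)) (XT.lf (nat_lit 76) (nat_lit 4339346229) (nat_lit 0) (nat_lit 55486174398) (nat_lit 836) (nat_lit 168860596688) (nat_lit 109) (nat_lit 5) (nat_lit 108) (nat_lit 5) (nat_lit 119) (nat_lit 5) (nat_lit 385) (nat_lit 380) (nat_lit 135)))) (XT.nd (nat_lit 78) (nat_lit 0) (nat_lit 0) (XT.lf (nat_lit 0) (nat_lit 71254626241) (nat_lit 760) (nat_lit 112498864268) (nat_lit 836) (nat_lit 50856095972) (nat_lit 109) (nat_lit 5) (nat_lit 119) (nat_lit 5) (nat_lit 120) (nat_lit 5) (nat_lit 386) (nat_lit 380) (nat_lit 134)) (XT.nd (nat_lit 78) (nat_lit 0) (nat_lit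 76) (XT.lf (nat_lit 76) (nat_lit 4165077748) (nat_lit 0) (nat_lit 80064668333) (nat_lit 836) (nat_lit 156550755146) (nat_lit 110) (nat_lit 5) (nat_lit 109) (nat_lit 5) (nat_lit 120) (nat_lit 5) (nat_lit 387) (nat_lit 380) (nat_lit 133)) (XT.lf (nat_lit 0) (nat_lit 100239784803) (nat_lit 760) (nat_lit 117077855655) (nat_lit 836) (nat_lit 29823013172) (nat_lit 110) (nat_lit 5) (nat_lit 120) (nat_lit 5) (nat_lit 121) (nat_lit 5) (nat_lit 388) (nat_lit 380) (nat_lit 132))))) (XT.nd (nat_lit 234) (nat_lit 684) (nat_lit 0) (XT.nd (nat_lit 78) (nat_lit 684) (nat_lit 0) (XT.lf (nat_lit 76) (nat_lit 7359547031) (nat_lit 0) (nat_lit 111118144867) (nat_lit 836) (nat_lit 135269753495) (nat_lit 111) (nat_lit 5) (nat_lit 110) (nat_lit 5) (nat_lit 121) (nat_lit 5) (nat_lit 389) (nat_lit 380) (nat_lit 131)) (XT.nd (nat_lit 78) (nat_lit 760) (nat_lit 0) (XT.lf (nat_lit 0) (nat_lit 139648809044) (nat_lit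 760) (nat_lit 118540615932) (nat_lit 76) (nat_lit 2394086092) (nat_lit 111) (nat_lit 5) (nat_lit 121) (nat_lit 5) (nat_lit 112) (nat_lit 5) (nat_lit 390) (nat_lit 380) (nat_lit 130)) (XT.lf (nat_lit 0) (nat_lit 14336210712) (nat_lit 760) (nat_lit 149587642445) (nat_lit 836) (nat_lit 103735258369) (nat_lit 101) (nat_lit 5) (nat_lit 111) (nat_lit 5) (nat_lit 112) (nat_lit 5) (nat_lit 391) (nat_lit 380) (nat_lit 129)))) (XT.nd (nat_lit 156) (nat_lit 304) (nat_lit 0) (XT.nd (nat_lit 78) (nat_lit 380) (nat_lit 0) (XT.lf (nat_lit 0) (nat_lit 157972282910) (nat_lit 760) (nat_lit 33447845255) (nat_lit 836) (nat_lit 83567989961) (nat_lit 101) (nat_lit 5) (nat_lit 111) (nat_lit 5) (nat_lit 112) (nat_lit 5) (nat_lit 392) (nat_lit 380) (nat_lit 128)) (XT.lf (nat_lit 0) (nat_lit 25542322289) (nat_lit 380) (nat_lit 196529337497) (nat_lit 456) (nat_lit 60522893177) (nat_lit 96) (nat_lit 5) (nat_lit 101)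 (nat_lit 5) (nat_lit 102) (nat_lit 5) (nat_lit 393) (nat_lit 380) (nat_lit 127))) (XT.nd (nat_lit 78) (nat_lit 304) (nat_lit 0) (XT.lf (nat_lit 0) (nat_lit 178724400044) (nat_lit 380) (nat_lit 78052510238) (nat_lit 456) (nat_lit 33678342194) (nat_lit 96) (nat_lit 5) (nat_lit 101) (nat_lit 5) (nat_lit 102) (nat_lit 5) (nat_lit 394) (nat_lit 380) (nat_lit 126)) (XT.lf (nat_lit 0) (nat_lit 41459887532) (nat_lit 304) (nat_lit 253128409396) (nat_lit 380) (nat_lit 4052146401) (nat_lit 92) (nat_lit 5) (nat_lit 96) (nat_lit 5) (nat_lit 97) (nat_lit 5) (nat_lit 395) (nat_lit 380) (nat_lit 125))))))))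
noncomputable def xc249 : XT := (XT.nd (nat_lit 46254) (nat_lit 0) (nat_lit 228) (XT.nd (nat_lit 936) (nat_lit 760) (nat_lit 0) (XT.nd (nat_lit 468) (nat_lit 836) (nat_lit 0) (XT.nd (nat_lit 234) (nat_lit 608) (nat_lit 0) (XT.nd (nat_lit 78) (nat_lit 380) (nat_lit 0) (XT.lf (nat_lit 0) (nat_lit 29392148853) (nat_lit 380) (nat_lit 102684113591) (nat_lit 76) (nat_lit 174977374317) (nat_lit 91) (nat_lit 5) (nat_lit 96) (nat_lit 5) (nat_lit 92) (nat_lit 5) (nat_lit 396) (nat_lit 380) (nat_lit 124)) (XT.nd (nat_lit 78) (nat_lit 0) (nat_lit 0) (XT.lf (nat_lit 0) (nat_lit 61437034891) (nat_lit 380) (nat_lit 3894597004) (nat_lit 456) (nat_lit 250504578991) (nat_lit 86) (nat_lit 5) (nat_lit 91) (nat_lit 5) (nat_lit 92) (nat_lit 5) (nat_lit 397) (nat_lit 380) (nat_lit 123)) (XT.lf (nat_lit 0) (nat_lit 106876084728) (nat_lit 456) (nat_lit 89710861209) (nat_lit 76) (nat_lit 128280568036) (nat_lit 86)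 (nat_lit 5) (nat_lit 92) (nat_lit 5) (nat_lit 87) (nat_lit 5) (nat_lit 398) (nat_lit 380) (nat_lit 122)))) (XT.nd (nat_lit 78) (nat_lit 304) (nat_lit 0) (XT.lf (nat_lit 0) (nat_lit 85897215937) (nat_lit 304) (nat_lit 66005437817) (nat_lit 380) (nat_lit 182377483820) (nat_lit 82) (nat_lit 5) (nat_lit 86) (nat_lit 5) (nat_lit 87) (nat_lit 5) (nat_lit 399) (nat_lit 380) (nat_lit 121)) (XT.nd (nat_lit 78) (nat_lit 304) (nat_lit 0) (XT.lf (nat_lit 0) (nat_lit 201834857971) (nat_lit 380) (nat_lit 71822285416) (nat_lit 76) (nat_lit 70373533665) (nat_lit 82) (nat_lit 5) (nat_lit 87) (nat_lit 5) (nat_lit 83) (nat_lit 5) (nat_lit 400) (nat_lit 380) (nat_lit 120)) (XT.lf (nat_lit 0) (nat_lit 116203510715) (nat_lit 304) (nat_lit 140956435545) (nat_lit 380) (nat_lit 96963983583) (nat_lit 78) (nat_lit 5) (nat_lit 82) (nat_lit 5) (nat_lit 83) (nat_lit 5) (nat_lit 401) (nat_lit 380) (nat_lit 119))))) (XT.nd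 (nat_lit 234) (nat_lit 532) (nat_lit 0) (XT.nd (nat_lit 78) (nat_lit 304) (nat_lit 0) (XT.lf (nat_lit 0) (nat_lit 316124051496) (nat_lit 304) (nat_lit 343538982) (nat_lit 380) (nat_lit 48193439750) (nat_lit 78) (nat_lit 5) (nat_lit 82) (nat_lit 5) (nat_lit 83) (nat_lit 5) (nat_lit 402) (nat_lit 380) (nat_lit 118)) (XT.nd (nat_lit 78) (nat_lit 0) (nat_lit 0) (XT.lf (nat_lit 0) (nat_lit 7683025536) (nat_lit 304) (nat_lit 222704664659) (nat_lit 76) (nat_lit 145096745679) (nat_lit 74) (nat_lit 5) (nat_lit 78) (nat_lit 5) (nat_lit 75) (nat_lit 5) (nat_lit 403) (nat_lit 380) (nat_lit 117)) (XT.lf (nat_lit 0) (nat_lit 65574761656) (nat_lit 304) (nat_lit 21769675254) (nat_lit 76) (nat_lit 299423018941) (nat_lit 74) (nat_lit 5) (nat_lit 78) (nat_lit 5) (nat_lit 75) (nat_lit 5) (nat_lit 404) (nat_lit 380) (nat_lit 116)))) (XT.nd (nat_lit 78) (nat_lit 228) (nat_lit 0) (XT.lf (nat_lit 0) (nat_lit 130444161375)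 (nat_lit 380) (nat_lit 204025130785) (nat_lit 76) (nat_lit 63941180852) (nat_lit 70) (nat_lit 5) (nat_lit 75) (nat_lit 5) (nat_lit 71) (nat_lit 5) (nat_lit 405) (nat_lit 380) (nat_lit 115)) (XT.nd (nat_lit 78) (nat_lit 0) (nat_lit 0) (XT.lf (nat_lit 0) (nat_lit 10380982674) (nat_lit 228) (nat_lit 190144686250) (nat_lit 304) (nat_lit 210011540241) (nat_lit 67) (nat_lit 5) (nat_lit 70) (nat_lit 5) (nat_lit 71) (nat_lit 5) (nat_lit 406) (nat_lit 380) (nat_lit 114)) (XT.lf (nat_lit 0) (nat_lit 242590643300) (nat_lit 228) (nat_lit 34975835578) (nat_lit 304) (nat_lit 145531041917) (nat_lit 67) (nat_lit 5) (nat_lit 70) (nat_lit 5) (nat_lit 71) (nat_lit 5) (nat_lit 407) (nat_lit 380) (nat_lit 113)))))) (XT.nd (nat_lit 44772) (nat_lit 0) (nat_lit 3724) (XT.nd (nat_lit 234) (nat_lit 228) (nat_lit 0) (XT.nd (nat_lit 78) (nat_lit 304) (nat_lit 0) (XT.lf (nat_lit 0) (nat_lit 49718511424) (nat_lit 228)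 (nat_lit 311514708342) (nat_lit 304) (nat_lit 74913933743) (nat_lit 64) (nat_lit 5) (nat_lit 67) (nat_lit 5) (nat_lit 68) (nat_lit 5) (nat_lit 408) (nat_lit 380) (nat_lit 112)) (XT.nd (nat_lit 78) (nat_lit 228) (nat_lit 0) (XT.lf (nat_lit 0) (nat_lit 2938970265) (nat_lit 304) (nat_lit 152586037949) (nat_lit 76) (nat_lit 294140836380) (nat_lit 63) (nat_lit 5) (nat_lit 67) (nat_lit 5) (nat_lit 64) (nat_lit 5) (nat_lit 409) (nat_lit 380) (nat_lit 111)) (XT.lf (nat_lit 0) (nat_lit 83819661479) (nat_lit 304) (nat_lit 369145263027) (nat_lit 76) (nat_lit 10751503813) (nat_lit 60) (nat_lit 5) (nat_lit 64) (nat_lit 5) (nat_lit 61) (nat_lit 5) (nat_lit 410) (nat_lit 380) (nat_lit 110)))) (XT.nd (nat_lit 78) (nat_lit 228) (nat_lit 0) (XT.lf (nat_lit 0) (nat_lit 173920425518) (nat_lit 304) (nat_lit 121548665055) (nat_lit 76) (nat_lit 182741648762) (nat_lit 60) (nat_lit 5) (nat_lit 64) (nat_lit 5) (nat_lit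 61) (nat_lit 5) (nat_lit 411) (nat_lit 380) (nat_lit 109)) (XT.nd (nat_lit 78) (nat_lit 0) (nat_lit 0) (XT.lf (nat_lit 0) (nat_lit 143004762354) (nat_lit 228) (nat_lit 127754139072) (nat_lit 304) (nat_lit 222559230810) (nat_lit 57) (nat_lit 5) (nat_lit 60) (nat_lit 5) (nat_lit 61) (nat_lit 5) (nat_lit 412) (nat_lit 380) (nat_lit 108)) (XT.lf (nat_lit 0) (nat_lit 375286326664) (nat_lit 304) (nat_lit 84860831664) (nat_lit 76) (nat_lit 48891385193) (nat_lit 57) (nat_lit 5) (nat_lit 61) (nat_lit 5) (nat_lit 58) (nat_lit 5) (nat_lit 413) (nat_lit 380) (nat_lit 107))))) (XT.nd (nat_lit 234) (nat_lit 0) (nat_lit 76) (XT.nd (nat_lit 78) (nat_lit 0) (nat_lit 0) (XT.lf (nat_lit 0) (nat_lit 18228177966) (nat_lit 836) (nat_lit 43864120658) (nat_lit 836) (nat_lit 43864120658) (nat_lit 106) (nat_lit 3) (nat_lit 117) (nat_lit 3) (nat_lit 117) (nat_lit 5) (nat_lit 381) (nat_lit 381) (nat_lit 138)) (XT.nd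 (nat_lit 78) (nat_lit 0) (nat_lit 76) (XT.lf (nat_lit 76) (nat_lit 13968472336) (nat_lit 0) (nat_lit 23618792937) (nat_lit 836) (nat_lit 179612418010) (nat_lit 107) (nat_lit 5) (nat_lit 106) (nat_lit 3) (nat_lit 117) (nat_lit 5) (nat_lit 382) (nat_lit 381) (nat_lit 137)) (XT.lf (nat_lit 0) (nat_lit 41564569971) (nat_lit 760) (nat_lit 100185110784) (nat_lit 836) (nat_lit 80861697064) (nat_lit 107) (nat_lit 5) (nat_lit 117) (nat_lit 5) (nat_lit 118) (nat_lit 5) (nat_lit 383) (nat_lit 381) (nat_lit 136)))) (XT.nd (nat_lit 156) (nat_lit 0) (nat_lit 76) (XT.nd (nat_lit 78) (nat_lit 0) (nat_lit 76) (XT.lf (nat_lit 76) (nat_lit 7878200867) (nat_lit 0) (nat_lit 38372646884) (nat_lit 836) (nat_lit 182017304013) (nat_lit 108) (nat_lit 5) (nat_lit 107) (nat_lit 5) (nat_lit 118) (nat_lit 5) (nat_lit 384) (nat_lit 381) (nat_lit 135)) (XT.lf (nat_lit 0) (nat_lit 53991455685) (nat_lit 760) (nat_lit 110423522417)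 (nat_lit 836) (nat_lit 69651785564) (nat_lit 108) (nat_lit 5) (nat_lit 118) (nat_lit 5) (nat_lit 119) (nat_lit 5) (nat_lit 385) (nat_lit 381) (nat_lit 134))) (XT.nd (nat_lit 78) (nat_lit 0) (nat_lit 76) (XT.lf (nat_lit 76) (nat_lit 4557999088) (nat_lit 0) (nat_lit 58261239315) (nat_lit 836) (nat_lit 177301060607) (nat_lit 109) (nat_lit 5) (nat_lit 108) (nat_lit 5) (nat_lit 119) (nat_lit 5) (nat_lit 386) (nat_lit 381) (nat_lit 133)) (XT.lf (nat_lit 0) (nat_lit 74819671781) (nat_lit 760) (nat_lit 118122072696) (nat_lit 836) (nat_lit 53398203634) (nat_lit 109) (nat_lit 5) (nat_lit 119) (nat_lit 5) (nat_lit 120) (nat_lit 5) (nat_lit 387) (nat_lit 381) (nat_lit 132))))))) (XT.nd (nat_lit 936) (nat_lit 1976) (nat_lit 0) (XT.nd (nat_lit 468) (nat_lit 1140) (nat_lit 0) (XT.nd (nat_lit 234) (nat_lit 608) (nat_lit 0) (XT.nd (nat_lit 78) (nat_lit 0) (nat_lit 76) (XT.lf (nat_lit 76) (nat_lit 4375038440)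 (nat_lit 0) (nat_lit 84068425619) (nat_lit 836) (nat_lit 164375948806) (nat_lit 110) (nat_lit 5) (nat_lit 109) (nat_lit 5) (nat_lit 120) (nat_lit 5) (nat_lit 388) (nat_lit 381) (nat_lit 131)) (XT.nd (nat_lit 78) (nat_lit 0) (nat_lit 0) (XT.lf (nat_lit 0) (nat_lit 105253890705) (nat_lit 760) (nat_lit 122930007098) (nat_lit 836) (nat_lit 31313680877) (nat_lit 110) (nat_lit 5) (nat_lit 120) (nat_lit 5) (nat_lit 121) (nat_lit 5) (nat_lit 389) (nat_lit 381) (nat_lit 130)) (XT.lf (nat_lit 76) (nat_lit 7729237637) (nat_lit 0) (nat_lit 116674381474) (nat_lit 836) (nat_lit 142031094707) (nat_lit 111) (nat_lit 5) (nat_lit 110) (nat_lit 5) (nat_lit 121) (nat_lit 5) (nat_lit 390) (nat_lit 381) (nat_lit 129)))) (XT.nd (nat_lit 78) (nat_lit 760) (nat_lit 0) (XT.lf (nat_lit 0) (nat_lit 146633189948) (nat_lit 760) (nat_lit 124465911261) (nat_lit 76) (nat_lit 2513486757) (nat_lit 111) (nat_lit 5) (nat_lit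 121) (nat_lit 5) (nat_lit 112) (nat_lit 5) (nat_lit 391) (nat_lit 381) (nat_lit 128)) (XT.nd (nat_lit 78) (nat_lit 0) (nat_lit 0) (XT.lf (nat_lit 0) (nat_lit 15054728724) (nat_lit 760) (nat_lit 157067191799) (nat_lit 836) (nat_lit 108920051289) (nat_lit 101) (nat_lit 5) (nat_lit 111) (nat_lit 5) (nat_lit 112) (nat_lit 5) (nat_lit 392) (nat_lit 381) (nat_lit 127)) (XT.lf (nat_lit 0) (nat_lit 165872523223) (nat_lit 760) (nat_lit 35120396786) (nat_lit 836) (nat_lit 87744513270) (nat_lit 101) (nat_lit 5) (nat_lit 111) (nat_lit 5) (nat_lit 112) (nat_lit 5) (nat_lit 393) (nat_lit 381) (nat_lit 126))))) (XT.nd (nat_lit 234) (nat_lit 456) (nat_lit 0) (XT.nd (nat_lit 78) (nat_lit 304) (nat_lit 0) (XT.lf (nat_lit 0) (nat_lit 26821130078) (nat_lit 380) (nat_lit 206355837156) (nat_lit 456) (nat_lit 63547225744) (nat_lit 96) (nat_lit 5) (nat_lit 101) (nat_lit 5) (nat_lit 102) (nat_lit 5) (nat_lit 394)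 (nat_lit 381) (nat_lit 125)) (XT.nd (nat_lit 78) (nat_lit 304) (nat_lit 0) (XT.lf (nat_lit 0) (nat_lit 187662231165) (nat_lit 380) (nat_lit 81955166973) (nat_lit 456) (nat_lit 35360533502) (nat_lit 96) (nat_lit 5) (nat_lit 101) (nat_lit 5) (nat_lit 102) (nat_lit 5) (nat_lit 395) (nat_lit 381) (nat_lit 124)) (XT.lf (nat_lit 0) (nat_lit 43534549635) (nat_lit 304) (nat_lit 265784751848) (nat_lit 380) (nat_lit 4253083247) (nat_lit 92) (nat_lit 5) (nat_lit 96) (nat_lit 5) (nat_lit 97) (nat_lit 5) (nat_lit 396) (nat_lit 381) (nat_lit 123)))) (XT.nd (nat_lit 78) (nat_lit 380) (nat_lit 0) (XT.lf (nat_lit 0) (nat_lit 30863296303) (nat_lit 380) (nat_lit 107816678880) (nat_lit 76) (nat_lit 183726265255) (nat_lit 91) (nat_lit 5) (nat_lit 96) (nat_lit 5) (nat_lit 92) (nat_lit 5) (nat_lit 397) (nat_lit 381) (nat_lit 122)) (XT.nd (nat_lit 78) (nat_lit 0) (nat_lit 0) (XT.lf (nat_lit 0) (nat_lit 64510500568)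 (nat_lit 380) (nat_lit 4089204793) (nat_lit 456) (nat_lit 263028240370) (nat_lit 86) (nat_lit 5) (nat_lit 91) (nat_lit 5) (nat_lit 92) (nat_lit 5) (nat_lit 398) (nat_lit 381) (nat_lit 121)) (XT.lf (nat_lit 0) (nat_lit 112221311610) (nat_lit 456) (nat_lit 94194796912) (nat_lit 76) (nat_lit 134694708966) (nat_lit 86) (nat_lit 5) (nat_lit 92) (nat_lit 5) (nat_lit 87) (nat_lit 5) (nat_lit 399) (nat_lit 381) (nat_lit 120)))))) (XT.nd (nat_lit 468) (nat_lit 1064) (nat_lit 0) (XT.nd (nat_lit 234) (nat_lit 304) (nat_lit 0) (XT.nd (nat_lit 78) (nat_lit 304) (nat_lit 0) (XT.lf (nat_lit 0) (nat_lit 90193658167) (nat_lit 304) (nat_lit 69305507866) (nat_lit 380) (nat_lit 191494908438) (nat_lit 82) (nat_lit 5) (nat_lit 86) (nat_lit 5) (nat_lit 87) (nat_lit 5) (nat_lit 400) (nat_lit 381) (nat_lit 119)) (XT.nd (nat_lit 78) (nat_lit 304) (nat_lit 0) (XT.lf (nat_lit 0) (nat_lit 211927917767) (nat_lit 380)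 (nat_lit 75411829912) (nat_lit 76) (nat_lit 73892396426) (nat_lit 82) (nat_lit 5) (nat_lit 87) (nat_lit 5) (nat_lit 83) (nat_lit 5) (nat_lit 401) (nat_lit 381) (nat_lit 118)) (XT.lf (nat_lit 0) (nat_lit 122015230705) (nat_lit 304) (nat_lit 148003991168) (nat_lit 380) (nat_lit 101810839637) (nat_lit 78) (nat_lit 5) (nat_lit 82) (nat_lit 5) (nat_lit 83) (nat_lit 5) (nat_lit 402) (nat_lit 381) (nat_lit 117)))) (XT.nd (nat_lit 78) (nat_lit 304) (nat_lit 0) (XT.lf (nat_lit 0) (nat_lit 331931724980) (nat_lit 304) (nat_lit 360462452) (nat_lit 380) (nat_lit 50601832571) (nat_lit 78) (nat_lit 5) (nat_lit 82) (nat_lit 5) (nat_lit 83) (nat_lit 5) (nat_lit 403) (nat_lit 381) (nat_lit 116)) (XT.nd (nat_lit 78) (nat_lit 0) (nat_lit 0) (XT.lf (nat_lit 0) (nat_lit 8068383773) (nat_lit 304) (nat_lit 233838353166) (nat_lit 76) (nat_lit 152351859595) (nat_lit 74) (nat_lit 5) (nat_lit 78) (nat_lit 5) (nat_lit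 75) (nat_lit 5) (nat_lit 404) (nat_lit 381) (nat_lit 115)) (XT.lf (nat_lit 0) (nat_lit 68854649225) (nat_lit 304) (nat_lit 22856687849) (nat_lit 76) (nat_lit 314394433348) (nat_lit 74) (nat_lit 5) (nat_lit 78) (nat_lit 5) (nat_lit 75) (nat_lit 5) (nat_lit 405) (nat_lit 381) (nat_lit 114))))) (XT.nd (nat_lit 234) (nat_lit 532) (nat_lit 0) (XT.nd (nat_lit 78) (nat_lit 228) (nat_lit 0) (XT.lf (nat_lit 0) (nat_lit 136967491945) (nat_lit 380) (nat_lit 214224888460) (nat_lit 76) (nat_lit 67138559422) (nat_lit 70) (nat_lit 5) (nat_lit 75) (nat_lit 5) (nat_lit 71) (nat_lit 5) (nat_lit 406) (nat_lit 381) (nat_lit 113)) (XT.nd (nat_lit 78) (nat_lit 0) (nat_lit 0) (XT.lf (nat_lit 0) (nat_lit 10901506497) (nat_lit 228) (nat_lit 199651537945) (nat_lit 304) (nat_lit 220510969899) (nat_lit 67) (nat_lit 5) (nat_lit 70) (nat_lit 5) (nat_lit 71) (nat_lit 5) (nat_lit 407) (nat_lit 381) (nat_lit 112)) (XT.lf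 (nat_lit 0) (nat_lit 254721579931) (nat_lit 228) (nat_lit 36724262960) (nat_lit 304) (nat_lit 152806501295) (nat_lit 67) (nat_lit 5) (nat_lit 70) (nat_lit 5) (nat_lit 71) (nat_lit 5) (nat_lit 408) (nat_lit 381) (nat_lit 111)))) (XT.nd (nat_lit 156) (nat_lit 228) (nat_lit 0) (XT.nd (nat_lit 78) (nat_lit 76) (nat_lit 0) (XT.lf (nat_lit 0) (nat_lit 52205865011) (nat_lit 228) (nat_lit 327090033999) (nat_lit 304) (nat_lit 78658560646) (nat_lit 64) (nat_lit 5) (nat_lit 67) (nat_lit 5) (nat_lit 68) (nat_lit 5) (nat_lit 409) (nat_lit 381) (nat_lit 110)) (XT.lf (nat_lit 0) (nat_lit 3086905011) (nat_lit 304) (nat_lit 160213946664) (nat_lit 76) (nat_lit 308848235280) (nat_lit 63) (nat_lit 5) (nat_lit 67) (nat_lit 5) (nat_lit 64) (nat_lit 5) (nat_lit 410) (nat_lit 381) (nat_lit 109))) (XT.nd (nat_lit 78) (nat_lit 0) (nat_lit 0) (XT.lf (nat_lit 0) (nat_lit 88011611624) (nat_lit 304) (nat_lit 387601113303)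 (nat_lit 76) (nat_lit 11289475923) (nat_lit 60) (nat_lit 5) (nat_lit 64) (nat_lit 5) (nat_lit 61) (nat_lit 5) (nat_lit 411) (nat_lit 381) (nat_lit 108)) (XT.lf (nat_lit 0) (nat_lit 182617367814) (nat_lit 304) (nat_lit 127624752713) (nat_lit 76) (nat_lit 191879109218) (nat_lit 60) (nat_lit 5) (nat_lit 64) (nat_lit 5) (nat_lit 61) (nat_lit 5) (nat_lit 412) (nat_lit 381) (nat_lit 107))))))))
noncomputable def xc250 : XT := (XT.nd (nat_lit 1872) (nat_lit 1064) (nat_lit 0) (XT.nd (nat_lit 936) (nat_lit 2052) (nat_lit 0) (XT.nd (nat_lit 468) (nat_lit 380) (nat_lit 0) (XT.nd (nat_lit 234) (nat_lit 0) (nat_lit 76) (XT.nd (nat_lit 78) (nat_lit 0) (nat_lit 0) (XT.lf (nat_lit 0) (nat_lit 19140978238) (nat_lit 836) (nat_lit 46056595616) (nat_lit 836) (nat_lit 46056595616) (nat_lit 106) (nat_lit 3) (nat_lit 117) (nat_lit 3) (nat_lit 117) (nat_lit 5) (nat_lit 382) (nat_lit 382) (nat_lit 136)) (XT.nd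 (nat_lit 78) (nat_lit 0) (nat_lit 76) (XT.lf (nat_lit 76) (nat_lit 14668334518) (nat_lit 0) (nat_lit 24800966714) (nat_lit 836) (nat_lit 188590230283) (nat_lit 107) (nat_lit 5) (nat_lit 106) (nat_lit 3) (nat_lit 117) (nat_lit 5) (nat_lit 383) (nat_lit 382) (nat_lit 135)) (XT.lf (nat_lit 0) (nat_lit 43645325543) (nat_lit 760) (nat_lit 105192848452) (nat_lit 836) (nat_lit 84903644173) (nat_lit 107) (nat_lit 5) (nat_lit 117) (nat_lit 5) (nat_lit 118) (nat_lit 5) (nat_lit 384) (nat_lit 382) (nat_lit 134)))) (XT.nd (nat_lit 78) (nat_lit 0) (nat_lit 76) (XT.lf (nat_lit 76) (nat_lit 8273604300) (nat_lit 0) (nat_lit 40292215892) (nat_lit 836) (nat_lit 191115615575) (nat_lit 108) (nat_lit 5) (nat_lit 107) (nat_lit 5) (nat_lit 118) (nat_lit 5) (nat_lit 385) (nat_lit 382) (nat_lit 133)) (XT.nd (nat_lit 78) (nat_lit 0) (nat_lit 0) (XT.lf (nat_lit 0) (nat_lit 56693328878) (nat_lit 760) (nat_lit 115943144634)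 (nat_lit 836) (nat_lit 73133511334) (nat_lit 108) (nat_lit 5) (nat_lit 118) (nat_lit 5) (nat_lit 119) (nat_lit 5) (nat_lit 386) (nat_lit 382) (nat_lit 132)) (XT.lf (nat_lit 76) (nat_lit 4787427884) (nat_lit 0) (nat_lit 61174987174) (nat_lit 836) (nat_lit 186163786276) (nat_lit 109) (nat_lit 5) (nat_lit 108) (nat_lit 5) (nat_lit 119) (nat_lit 5) (nat_lit 387) (nat_lit 382) (nat_lit 131))))) (XT.nd (nat_lit 234) (nat_lit 608) (nat_lit 0) (XT.nd (nat_lit 78) (nat_lit 0) (nat_lit 0) (XT.lf (nat_lit 0) (nat_lit 78562754442) (nat_lit 760) (nat_lit 124026602830) (nat_lit 836) (nat_lit 56067481491) (nat_lit 109) (nat_lit 5) (nat_lit 119) (nat_lit 5) (nat_lit 120) (nat_lit 5) (nat_lit 388) (nat_lit 382) (nat_lit 130)) (XT.nd (nat_lit 78) (nat_lit 0) (nat_lit 76) (XT.lf (nat_lit 76) (nat_lit 4595338485) (nat_lit 0) (nat_lit 88272322065) (nat_lit 836) (nat_lit 172592620081) (nat_lit 110) (nat_lit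 5) (nat_lit 109) (nat_lit 5) (nat_lit 120) (nat_lit 5) (nat_lit 389) (nat_lit 382) (nat_lit 129)) (XT.lf (nat_lit 0) (nat_lit 110518505115) (nat_lit 760) (nat_lit 129074928006) (nat_lit 836) (nat_lit 32878926867) (nat_lit 110) (nat_lit 5) (nat_lit 120) (nat_lit 5) (nat_lit 121) (nat_lit 5) (nat_lit 390) (nat_lit 382) (nat_lit 128)))) (XT.nd (nat_lit 78) (nat_lit 684) (nat_lit 0) (XT.lf (nat_lit 76) (nat_lit 8117253491) (nat_lit 0) (nat_lit 122508399289) (nat_lit 836) (nat_lit 149130702539) (nat_lit 111) (nat_lit 5) (nat_lit 110) (nat_lit 5) (nat_lit 121) (nat_lit 5) (nat_lit 391) (nat_lit 382) (nat_lit 127)) (XT.nd (nat_lit 78) (nat_lit 760) (nat_lit 0) (XT.lf (nat_lit 0) (nat_lit 153966609493) (nat_lit 760) (nat_lit 130687632704) (nat_lit 76) (nat_lit 2638885685) (nat_lit 111) (nat_lit 5) (nat_lit 121) (nat_lit 5) (nat_lit 112) (nat_lit 5) (nat_lit 392) (nat_lit 382) (nat_lit 126)) (XT.lf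 (nat_lit 0) (nat_lit 15809013892) (nat_lit 760) (nat_lit 164920703074) (nat_lit 836) (nat_lit 114364267007) (nat_lit 101) (nat_lit 5) (nat_lit 111) (nat_lit 5) (nat_lit 112) (nat_lit 5) (nat_lit 393) (nat_lit 382) (nat_lit 125)))))) (XT.nd (nat_lit 468) (nat_lit 912) (nat_lit 0) (XT.nd (nat_lit 234) (nat_lit 760) (nat_lit 0) (XT.nd (nat_lit 78) (nat_lit 380) (nat_lit 0) (XT.lf (nat_lit 0) (nat_lit 174167624367) (nat_lit 760) (nat_lit 36876561087) (nat_lit 836) (nat_lit 92130037175) (nat_lit 101) (nat_lit 5) (nat_lit 111) (nat_lit 5) (nat_lit 112) (nat_lit 5) (nat_lit 394) (nat_lit 382) (nat_lit 124)) (XT.nd (nat_lit 78) (nat_lit 0) (nat_lit 0) (XT.lf (nat_lit 0) (nat_lit 28163720981) (nat_lit 380) (nat_lit 216673658751) (nat_lit 456) (nat_lit 66722943410) (nat_lit 96) (nat_lit 5) (nat_lit 101) (nat_lit 5) (nat_lit 102) (nat_lit 5) (nat_lit 395) (nat_lit 382) (nat_lit 123)) (XT.lf (nat_lit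 0) (nat_lit 197046804055) (nat_lit 380) (nat_lit 86052953642) (nat_lit 456) (nat_lit 37126994824) (nat_lit 96) (nat_lit 5) (nat_lit 101) (nat_lit 5) (nat_lit 102) (nat_lit 5) (nat_lit 396) (nat_lit 382) (nat_lit 122)))) (XT.nd (nat_lit 78) (nat_lit 456) (nat_lit 0) (XT.lf (nat_lit 0) (nat_lit 45712789794) (nat_lit 304) (nat_lit 279073918677) (nat_lit 380) (nat_lit 4464222241) (nat_lit 92) (nat_lit 5) (nat_lit 96) (nat_lit 5) (nat_lit 97) (nat_lit 5) (nat_lit 397) (nat_lit 382) (nat_lit 121)) (XT.nd (nat_lit 78) (nat_lit 380) (nat_lit 0) (XT.lf (nat_lit 0) (nat_lit 32407857950) (nat_lit 380) (nat_lit 113206024941) (nat_lit 76) (nat_lit 192912598675) (nat_lit 91) (nat_lit 5) (nat_lit 96) (nat_lit 5) (nat_lit 92) (nat_lit 5) (nat_lit 398) (nat_lit 382) (nat_lit 120)) (XT.lf (nat_lit 0) (nat_lit 67737489481) (nat_lit 380) (nat_lit 4293554320) (nat_lit 456) (nat_lit 276178230556) (nat_lit 86)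 (nat_lit 5) (nat_lit 91) (nat_lit 5) (nat_lit 92) (nat_lit 5) (nat_lit 399) (nat_lit 382) (nat_lit 119))))) (XT.nd (nat_lit 234) (nat_lit 608) (nat_lit 0) (XT.nd (nat_lit 78) (nat_lit 304) (nat_lit 0) (XT.lf (nat_lit 0) (nat_lit 117833667572) (nat_lit 456) (nat_lit 98903078837) (nat_lit 76) (nat_lit 141429546480) (nat_lit 86) (nat_lit 5) (nat_lit 92) (nat_lit 5) (nat_lit 87) (nat_lit 5) (nat_lit 400) (nat_lit 382) (nat_lit 118)) (XT.nd (nat_lit 78) (nat_lit 0) (nat_lit 0) (XT.lf (nat_lit 0) (nat_lit 94704775481) (nat_lit 304) (nat_lit 72770600183) (nat_lit 380) (nat_lit 201068339056) (nat_lit 82) (nat_lit 5) (nat_lit 86) (nat_lit 5) (nat_lit 87) (nat_lit 5) (nat_lit 401) (nat_lit 382) (nat_lit 117)) (XT.lf (nat_lit 0) (nat_lit 222525508119) (nat_lit 380) (nat_lit 79180997577) (nat_lit 76) (nat_lit 77587185025) (nat_lit 82) (nat_lit 5) (nat_lit 87) (nat_lit 5) (nat_lit 83) (nat_lit 5) (nat_lit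 402) (nat_lit 382) (nat_lit 116)))) (XT.nd (nat_lit 78) (nat_lit 304) (nat_lit 0) (XT.lf (nat_lit 0) (nat_lit 128117393107) (nat_lit 304) (nat_lit 155403949317) (nat_lit 380) (nat_lit 106900163365) (nat_lit 78) (nat_lit 5) (nat_lit 82) (nat_lit 5) (nat_lit 83) (nat_lit 5) (nat_lit 403) (nat_lit 382) (nat_lit 115)) (XT.nd (nat_lit 78) (nat_lit 304) (nat_lit 0) (XT.lf (nat_lit 0) (nat_lit 348529645387) (nat_lit 304) (nat_lit 378255661) (nat_lit 380) (nat_lit 53130763958) (nat_lit 78) (nat_lit 5) (nat_lit 82) (nat_lit 5) (nat_lit 83) (nat_lit 5) (nat_lit 404) (nat_lit 382) (nat_lit 114)) (XT.lf (nat_lit 0) (nat_lit 8472897711) (nat_lit 304) (nat_lit 245528869713) (nat_lit 76) (nat_lit 159969703488) (nat_lit 74) (nat_lit 5) (nat_lit 78) (nat_lit 5) (nat_lit 75) (nat_lit 5) (nat_lit 405) (nat_lit 382) (nat_lit 113))))))) (XT.nd (nat_lit 45474) (nat_lit 0) (nat_lit 1976) (XT.nd (nat_lit 468)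 (nat_lit 228) (nat_lit 0) (XT.nd (nat_lit 234) (nat_lit 304) (nat_lit 0) (XT.nd (nat_lit 78) (nat_lit 532) (nat_lit 0) (XT.lf (nat_lit 0) (nat_lit 72298424304) (nat_lit 304) (nat_lit 23998187849) (nat_lit 76) (nat_lit 330114393980) (nat_lit 74) (nat_lit 5) (nat_lit 78) (nat_lit 5) (nat_lit 75) (nat_lit 5) (nat_lit 406) (nat_lit 382) (nat_lit 112)) (XT.nd (nat_lit 78) (nat_lit 228) (nat_lit 0) (XT.lf (nat_lit 0) (nat_lit 143816884683) (nat_lit 380) (nat_lit 224934773368) (nat_lit 76) (nat_lit 70495777213) (nat_lit 70) (nat_lit 5) (nat_lit 75) (nat_lit 5) (nat_lit 71) (nat_lit 5) (nat_lit 407) (nat_lit 382) (nat_lit 111)) (XT.lf (nat_lit 0) (nat_lit 11447919408) (nat_lit 228) (nat_lit 209633767798) (nat_lit 304) (nat_lit 231535477710) (nat_lit 67) (nat_lit 5) (nat_lit 70) (nat_lit 5) (nat_lit 71) (nat_lit 5) (nat_lit 408) (nat_lit 382) (nat_lit 110)))) (XT.nd (nat_lit 78) (nat_lit 304) (nat_lit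 0) (XT.lf (nat_lit 0) (nat_lit 267458932820) (nat_lit 228) (nat_lit 38560145589) (nat_lit 304) (nat_lit 160445835232) (nat_lit 67) (nat_lit 5) (nat_lit 70) (nat_lit 5) (nat_lit 71) (nat_lit 5) (nat_lit 409) (nat_lit 382) (nat_lit 109)) (XT.nd (nat_lit 78) (nat_lit 76) (nat_lit 0) (XT.lf (nat_lit 0) (nat_lit 54817453514) (nat_lit 228) (nat_lit 343444164034) (nat_lit 304) (nat_lit 82590518354) (nat_lit 64) (nat_lit 5) (nat_lit 67) (nat_lit 5) (nat_lit 68) (nat_lit 5) (nat_lit 410) (nat_lit 382) (nat_lit 108)) (XT.lf (nat_lit 0) (nat_lit 3242144803) (nat_lit 304) (nat_lit 168223380339) (nat_lit 76) (nat_lit 324290970927) (nat_lit 63) (nat_lit 5) (nat_lit 67) (nat_lit 5) (nat_lit 64) (nat_lit 5) (nat_lit 411) (nat_lit 382) (nat_lit 107))))) (XT.nd (nat_lit 44772) (nat_lit 0) (nat_lit 3572) (XT.nd (nat_lit 44616) (nat_lit 0) (nat_lit 3496) (XT.lf (nat_lit 0) (nat_lit 92413069368) (nat_lit 304)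 (nat_lit 406979887449) (nat_lit 76) (nat_lit 11854309736) (nat_lit 60) (nat_lit 5) (nat_lit 64) (nat_lit 5) (nat_lit 61) (nat_lit 5) (nat_lit 412) (nat_lit 382) (nat_lit 106)) (XT.nd (nat_lit 78) (nat_lit 0) (nat_lit 0) (XT.lf (nat_lit 0) (nat_lit 20099289167) (nat_lit 836) (nat_lit 48358762292) (nat_lit 836) (nat_lit 48358762292) (nat_lit 106) (nat_lit 3) (nat_lit 117) (nat_lit 3) (nat_lit 117) (nat_lit 5) (nat_lit 383) (nat_lit 383) (nat_lit 134)) (XT.lf (nat_lit 76) (nat_lit 15403056065) (nat_lit 0) (nat_lit 26042134442) (nat_lit 836) (nat_lit 198017194289) (nat_lit 107) (nat_lit 5) (nat_lit 106) (nat_lit 3) (nat_lit 117) (nat_lit 5) (nat_lit 384) (nat_lit 383) (nat_lit 133)))) (XT.nd (nat_lit 78) (nat_lit 0) (nat_lit 0) (XT.lf (nat_lit 0) (nat_lit 45829883951) (nat_lit 760) (nat_lit 110451114121) (nat_lit 836) (nat_lit 89147794415) (nat_lit 107) (nat_lit 5) (nat_lit 117) (nat_lit 5)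 (nat_lit 118) (nat_lit 5) (nat_lit 385) (nat_lit 383) (nat_lit 132)) (XT.nd (nat_lit 78) (nat_lit 0) (nat_lit 76) (XT.lf (nat_lit 76) (nat_lit 8688639064) (nat_lit 0) (nat_lit 42307676268) (nat_lit 836) (nat_lit 200669080128) (nat_lit 108) (nat_lit 5) (nat_lit 107) (nat_lit 5) (nat_lit 118) (nat_lit 5) (nat_lit 386) (nat_lit 383) (nat_lit 131)) (XT.lf (nat_lit 0) (nat_lit 59530081860) (nat_lit 760) (nat_lit 121738892428) (nat_lit 836) (nat_lit 76789403672) (nat_lit 108) (nat_lit 5) (nat_lit 118) (nat_lit 5) (nat_lit 119) (nat_lit 5) (nat_lit 387) (nat_lit 383) (nat_lit 130)))))) (XT.nd (nat_lit 468) (nat_lit 1672) (nat_lit 0) (XT.nd (nat_lit 234) (nat_lit 0) (nat_lit 152) (XT.nd (nat_lit 78) (nat_lit 0) (nat_lit 76) (XT.lf (nat_lit 76) (nat_lit 5028185983) (nat_lit 0) (nat_lit 64234358658) (nat_lit 836) (nat_lit 195469864605) (nat_lit 109) (nat_lit 5) (nat_lit 108) (nat_lit 5) (nat_lit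 119) (nat_lit 5) (nat_lit 388) (nat_lit 383) (nat_lit 129)) (XT.nd (nat_lit 78) (nat_lit 0) (nat_lit 0) (XT.lf (nat_lit 0) (nat_lit 82492796085) (nat_lit 760) (nat_lit 130226505759) (nat_lit 836) (nat_lit 58870282029) (nat_lit 109) (nat_lit 5) (nat_lit 119) (nat_lit 5) (nat_lit 120) (nat_lit 5) (nat_lit 389) (nat_lit 383) (nat_lit 128)) (XT.lf (nat_lit 76) (nat_lit 4826509602) (nat_lit 0) (nat_lit 92686369157) (nat_lit 836) (nat_lit 181220322591) (nat_lit 110) (nat_lit 5) (nat_lit 109) (nat_lit 5) (nat_lit 120) (nat_lit 5) (nat_lit 390) (nat_lit 383) (nat_lit 127)))) (XT.nd (nat_lit 78) (nat_lit 0) (nat_lit 0) (XT.lf (nat_lit 0) (nat_lit 116046171754) (nat_lit 760) (nat_lit 135527241801) (nat_lit 836) (nat_lit 34522475882) (nat_lit 110) (nat_lit 5) (nat_lit 120) (nat_lit 5) (nat_lit 121) (nat_lit 5) (nat_lit 391) (nat_lit 383) (nat_lit 126)) (XT.nd (nat_lit 78) (nat_lit 0) (nat_lit 76)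 (XT.lf (nat_lit 76) (nat_lit 8524525664) (nat_lit 0) (nat_lit 128634090222) (nat_lit 836) (nat_lit 156585471766) (nat_lit 111) (nat_lit 5) (nat_lit 110) (nat_lit 5) (nat_lit 121) (nat_lit 5) (nat_lit 392) (nat_lit 383) (nat_lit 125)) (XT.lf (nat_lit 0) (nat_lit 161666536382) (nat_lit 760) (nat_lit 137220586565) (nat_lit 76) (nat_lit 2770580164) (nat_lit 111) (nat_lit 5) (nat_lit 121) (nat_lit 5) (nat_lit 112) (nat_lit 5) (nat_lit 393) (nat_lit 383) (nat_lit 124))))) (XT.nd (nat_lit 234) (nat_lit 760) (nat_lit 0) (XT.nd (nat_lit 78) (nat_lit 380) (nat_lit 0) (XT.lf (nat_lit 0) (nat_lit 16600869331) (nat_lit 760) (nat_lit 173166875810) (nat_lit 836) (nat_lit 120080859635) (nat_lit 101) (nat_lit 5) (nat_lit 111) (nat_lit 5) (nat_lit 112) (nat_lit 5) (nat_lit 394) (nat_lit 383) (nat_lit 123)) (XT.nd (nat_lit 78) (nat_lit 380) (nat_lit 0) (XT.lf (nat_lit 0) (nat_lit 182877343438) (nat_lit 760)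 (nat_lit 38720520171) (nat_lit 836) (nat_lit 96734995489) (nat_lit 101) (nat_lit 5) (nat_lit 111) (nat_lit 5) (nat_lit 112) (nat_lit 5) (nat_lit 395) (nat_lit 383) (nat_lit 122)) (XT.lf (nat_lit 0) (nat_lit 29573298775) (nat_lit 380) (nat_lit 227507368660) (nat_lit 456) (nat_lit 70057599767) (nat_lit 96) (nat_lit 5) (nat_lit 101) (nat_lit 5) (nat_lit 102) (nat_lit 5) (nat_lit 396) (nat_lit 383) (nat_lit 121)))) (XT.nd (nat_lit 156) (nat_lit 456) (nat_lit 0) (XT.nd (nat_lit 78) (nat_lit 304) (nat_lit 0) (XT.lf (nat_lit 0) (nat_lit 206900469729) (nat_lit 380) (nat_lit 90355627012) (nat_lit 456) (nat_lit 38981924743) (nat_lit 96) (nat_lit 5) (nat_lit 101) (nat_lit 5) (nat_lit 102) (nat_lit 5) (nat_lit 397) (nat_lit 383) (nat_lit 120)) (XT.lf (nat_lit 0) (nat_lit 47999801326) (nat_lit 304) (nat_lit 293027550426) (nat_lit 380) (nat_lit 4686059051) (nat_lit 92) (nat_lit 5) (nat_lit 96) (nat_lit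 5) (nat_lit 97) (nat_lit 5) (nat_lit 398) (nat_lit 383) (nat_lit 119))) (XT.nd (nat_lit 78) (nat_lit 380) (nat_lit 0) (XT.lf (nat_lit 0) (nat_lit 34029517815) (nat_lit 380) (nat_lit 118864976635) (nat_lit 76) (nat_lit 202558246891) (nat_lit 91) (nat_lit 5) (nat_lit 96) (nat_lit 5) (nat_lit 92) (nat_lit 5) (nat_lit 399) (nat_lit 383) (nat_lit 118)) (XT.lf (nat_lit 0) (nat_lit 71125691742) (nat_lit 380) (nat_lit 4508131616) (nat_lit 456) (nat_lit 289985852440) (nat_lit 86) (nat_lit 5) (nat_lit 91) (nat_lit 5) (nat_lit 92) (nat_lit 5) (nat_lit 400) (nat_lit 383) (nat_lit 117))))))))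
noncomputable def xc251 : XT := (XT.nd (nat_lit 46644) (nat_lit 0) (nat_lit 228) (XT.nd (nat_lit 45630) (nat_lit 0) (nat_lit 2432) (XT.nd (nat_lit 468) (nat_lit 760) (nat_lit 0) (XT.nd (nat_lit 234) (nat_lit 608) (nat_lit 0) (XT.nd (nat_lit 78) (nat_lit 304) (nat_lit 0) (XT.lf (nat_lit 0) (nat_lit 123726521364) (nat_lit 456) (nat_lit 103846910402) (nat_lit 76) (nat_lit 148501116381) (nat_lit 86) (nat_lit 5) (nat_lit 92) (nat_lit 5) (nat_lit 87) (nat_lit 5) (nat_lit 401) (nat_lit 383) (nat_lit 116)) (XT.nd (nat_lit 78) (nat_lit 0) (nat_lit 0) (XT.lf (nat_lit 0) (nat_lit 99441315303) (nat_lit 304) (nat_lit 76408964137) (nat_lit 380) (nat_lit 211120563442) (nat_lit 82) (nat_lit 5) (nat_lit 86) (nat_lit 5) (nat_lit 87) (nat_lit 5) (nat_lit 402) (nat_lit 383) (nat_lit 115)) (XT.lf (nat_lit 0) (nat_lit 233652866940) (nat_lit 380) (nat_lit 83138755999) (nat_lit 76) (nat_lit 81466697363) (nat_lit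 82) (nat_lit 5) (nat_lit 87) (nat_lit 5) (nat_lit 83) (nat_lit 5) (nat_lit 403) (nat_lit 383) (nat_lit 114)))) (XT.nd (nat_lit 78) (nat_lit 304) (nat_lit 0) (XT.lf (nat_lit 0) (nat_lit 134524533389) (nat_lit 304) (nat_lit 163173927817) (nat_lit 380) (nat_lit 112244066541) (nat_lit 78) (nat_lit 5) (nat_lit 82) (nat_lit 5) (nat_lit 83) (nat_lit 5) (nat_lit 404) (nat_lit 383) (nat_lit 113)) (XT.nd (nat_lit 78) (nat_lit 304) (nat_lit 0) (XT.lf (nat_lit 0) (nat_lit 365957337778) (nat_lit 304) (nat_lit 396959905) (nat_lit 380) (nat_lit 55786249782) (nat_lit 78) (nat_lit 5) (nat_lit 82) (nat_lit 5) (nat_lit 83) (nat_lit 5) (nat_lit 405) (nat_lit 383) (nat_lit 112)) (XT.lf (nat_lit 0) (nat_lit 8897535565) (nat_lit 304) (nat_lit 257804042349) (nat_lit 76) (nat_lit 167968416248) (nat_lit 74) (nat_lit 5) (nat_lit 78) (nat_lit 5) (nat_lit 75) (nat_lit 5) (nat_lit 406) (nat_lit 383) (nat_lit 111)))))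 (XT.nd (nat_lit 234) (nat_lit 228) (nat_lit 0) (XT.nd (nat_lit 78) (nat_lit 532) (nat_lit 0) (XT.lf (nat_lit 0) (nat_lit 75914291204) (nat_lit 304) (nat_lit 25196886909) (nat_lit 76) (nat_lit 346620330428) (nat_lit 74) (nat_lit 5) (nat_lit 78) (nat_lit 5) (nat_lit 75) (nat_lit 5) (nat_lit 407) (nat_lit 383) (nat_lit 110)) (XT.nd (nat_lit 78) (nat_lit 228) (nat_lit 0) (XT.lf (nat_lit 0) (nat_lit 151008652402) (nat_lit 380) (nat_lit 236180278917) (nat_lit 76) (nat_lit 74020828949) (nat_lit 70) (nat_lit 5) (nat_lit 75) (nat_lit 5) (nat_lit 71) (nat_lit 5) (nat_lit 408) (nat_lit 383) (nat_lit 109)) (XT.lf (nat_lit 0) (nat_lit 12021528609) (nat_lit 228) (nat_lit 220115141408) (nat_lit 304) (nat_lit 243111307664) (nat_lit 67) (nat_lit 5) (nat_lit 70) (nat_lit 5) (nat_lit 71) (nat_lit 5) (nat_lit 409) (nat_lit 383) (nat_lit 108)))) (XT.nd (nat_lit 78) (nat_lit 228) (nat_lit 0) (XT.lf (nat_lit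 0) (nat_lit 280833034919) (nat_lit 228) (nat_lit 40487853078) (nat_lit 304) (nat_lit 168467228011) (nat_lit 67) (nat_lit 5) (nat_lit 70) (nat_lit 5) (nat_lit 71) (nat_lit 5) (nat_lit 410) (nat_lit 383) (nat_lit 107)) (XT.nd (nat_lit 44772) (nat_lit 0) (nat_lit 3192) (XT.lf (nat_lit 0) (nat_lit 57559501022) (nat_lit 228) (nat_lit 360616035125) (nat_lit 304) (nat_lit 86719164158) (nat_lit 64) (nat_lit 5) (nat_lit 67) (nat_lit 5) (nat_lit 68) (nat_lit 5) (nat_lit 411) (nat_lit 383) (nat_lit 106)) (XT.lf (nat_lit 0) (nat_lit 21105398312) (nat_lit 836) (nat_lit 50776098950) (nat_lit 836) (nat_lit 50776098950) (nat_lit 106) (nat_lit 3) (nat_lit 117) (nat_lit 3) (nat_lit 117) (nat_lit 5) (nat_lit 384) (nat_lit 384) (nat_lit 132)))))) (XT.nd (nat_lit 468) (nat_lit 760) (nat_lit 0) (XT.nd (nat_lit 234) (nat_lit 0) (nat_lit 152) (XT.nd (nat_lit 78) (nat_lit 0) (nat_lit 76) (XT.lf (nat_lit 76) (nat_lit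 16174392379) (nat_lit 0) (nat_lit 27345256487) (nat_lit 836) (nat_lit 207915743339) (nat_lit 107) (nat_lit 5) (nat_lit 106) (nat_lit 3) (nat_lit 117) (nat_lit 5) (nat_lit 385) (nat_lit 384) (nat_lit 131)) (XT.nd (nat_lit 78) (nat_lit 0) (nat_lit 0) (XT.lf (nat_lit 0) (nat_lit 48123457178) (nat_lit 760) (nat_lit 115972421070) (nat_lit 836) (nat_lit 93604248112) (nat_lit 107) (nat_lit 5) (nat_lit 117) (nat_lit 5) (nat_lit 118) (nat_lit 5) (nat_lit 386) (nat_lit 384) (nat_lit 130)) (XT.lf (nat_lit 76) (nat_lit 9124299632) (nat_lit 0) (nat_lit 44423830676) (nat_lit 836) (nat_lit 210700433250) (nat_lit 108) (nat_lit 5) (nat_lit 107) (nat_lit 5) (nat_lit 118) (nat_lit 5) (nat_lit 387) (nat_lit 384) (nat_lit 129)))) (XT.nd (nat_lit 78) (nat_lit 0) (nat_lit 0) (XT.lf (nat_lit 0) (nat_lit 62508478505) (nat_lit 760) (nat_lit 127824558649) (nat_lit 836) (nat_lit 80628163445) (nat_lit 108) (nat_lit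 5) (nat_lit 118) (nat_lit 5) (nat_lit 119) (nat_lit 5) (nat_lit 388) (nat_lit 384) (nat_lit 128)) (XT.nd (nat_lit 78) (nat_lit 0) (nat_lit 76) (XT.lf (nat_lit 76) (nat_lit 5280853063) (nat_lit 0) (nat_lit 67446640878) (nat_lit 836) (nat_lit 205241443110) (nat_lit 109) (nat_lit 5) (nat_lit 108) (nat_lit 5) (nat_lit 119) (nat_lit 5) (nat_lit 389) (nat_lit 384) (nat_lit 127)) (XT.lf (nat_lit 0) (nat_lit 86619162801) (nat_lit 760) (nat_lit 136736536524) (nat_lit 836) (nat_lit 61813275915) (nat_lit 109) (nat_lit 5) (nat_lit 119) (nat_lit 5) (nat_lit 120) (nat_lit 5) (nat_lit 390) (nat_lit 384) (nat_lit 126))))) (XT.nd (nat_lit 234) (nat_lit 988) (nat_lit 0) (XT.nd (nat_lit 78) (nat_lit 0) (nat_lit 76) (XT.lf (nat_lit 76) (nat_lit 5069108726) (nat_lit 0) (nat_lit 97321078534) (nat_lit 836) (nat_lit 190279589519) (nat_lit 110) (nat_lit 5) (nat_lit 109) (nat_lit 5) (nat_lit 120) (nat_lit 5) (nat_lit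 391) (nat_lit 384) (nat_lit 125)) (XT.nd (nat_lit 78) (nat_lit 0) (nat_lit 0) (XT.lf (nat_lit 0) (nat_lit 121850059827) (nat_lit 760) (nat_lit 142302304476) (nat_lit 836) (nat_lit 36248239288) (nat_lit 110) (nat_lit 5) (nat_lit 120) (nat_lit 5) (nat_lit 121) (nat_lit 5) (nat_lit 392) (nat_lit 384) (nat_lit 124)) (XT.lf (nat_lit 76) (nat_lit 8952030403) (nat_lit 0) (nat_lit 135066040509) (nat_lit 836) (nat_lit 164413143631) (nat_lit 111) (nat_lit 5) (nat_lit 110) (nat_lit 5) (nat_lit 121) (nat_lit 5) (nat_lit 393) (nat_lit 384) (nat_lit 123)))) (XT.nd (nat_lit 156) (nat_lit 380) (nat_lit 0) (XT.nd (nat_lit 78) (nat_lit 760) (nat_lit 0) (XT.lf (nat_lit 0) (nat_lit 169751311197) (nat_lit 760) (nat_lit 144080320861) (nat_lit 76) (nat_lit 2908882592) (nat_lit 111) (nat_lit 5) (nat_lit 121) (nat_lit 5) (nat_lit 112) (nat_lit 5) (nat_lit 394) (nat_lit 384) (nat_lit 122)) (XT.lf (nat_lit 0) (nat_lit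 17432186943) (nat_lit 760) (nat_lit 181825344391) (nat_lit 836) (nat_lit 126083432573) (nat_lit 101) (nat_lit 5) (nat_lit 111) (nat_lit 5) (nat_lit 112) (nat_lit 5) (nat_lit 395) (nat_lit 384) (nat_lit 121))) (XT.nd (nat_lit 78) (nat_lit 380) (nat_lit 0) (XT.lf (nat_lit 0) (nat_lit 192022424081) (nat_lit 760) (nat_lit 40656665029) (nat_lit 836) (nat_lit 101570345222) (nat_lit 101) (nat_lit 5) (nat_lit 111) (nat_lit 5) (nat_lit 112) (nat_lit 5) (nat_lit 396) (nat_lit 384) (nat_lit 120)) (XT.lf (nat_lit 0) (nat_lit 31053226067) (nat_lit 380) (nat_lit 238882761558) (nat_lit 456) (nat_lit 73559127545) (nat_lit 96) (nat_lit 5) (nat_lit 101) (nat_lit 5) (nat_lit 102) (nat_lit 5) (nat_lit 397) (nat_lit 384) (nat_lit 119))))))) (XT.nd (nat_lit 936) (nat_lit 228) (nat_lit 0) (XT.nd (nat_lit 468) (nat_lit 912) (nat_lit 0) (XT.nd (nat_lit 234) (nat_lit 684) (nat_lit 0) (XT.nd (nat_lit 78) (nat_lit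 380) (nat_lit 0) (XT.lf (nat_lit 0) (nat_lit 217246695457) (nat_lit 380) (nat_lit 94873431662) (nat_lit 456) (nat_lit 40929733160) (nat_lit 96) (nat_lit 5) (nat_lit 101) (nat_lit 5) (nat_lit 102) (nat_lit 5) (nat_lit 398) (nat_lit 384) (nat_lit 118)) (XT.nd (nat_lit 78) (nat_lit 76) (nat_lit 0) (XT.lf (nat_lit 0) (nat_lit 50401035875) (nat_lit 304) (nat_lit 307678869729) (nat_lit 380) (nat_lit 4919115470) (nat_lit 92) (nat_lit 5) (nat_lit 96) (nat_lit 5) (nat_lit 97) (nat_lit 5) (nat_lit 399) (nat_lit 384) (nat_lit 117)) (XT.lf (nat_lit 0) (nat_lit 35732142883) (nat_lit 380) (nat_lit 124807001382) (nat_lit 76) (nat_lit 212686175819) (nat_lit 91) (nat_lit 5) (nat_lit 96) (nat_lit 5) (nat_lit 92) (nat_lit 5) (nat_lit 400) (nat_lit 384) (nat_lit 116)))) (XT.nd (nat_lit 78) (nat_lit 304) (nat_lit 0) (XT.lf (nat_lit 0) (nat_lit 74683180670) (nat_lit 380) (nat_lit 4733447113) (nat_lit 456) (nat_lit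 304483975317) (nat_lit 86) (nat_lit 5) (nat_lit 91) (nat_lit 5) (nat_lit 92) (nat_lit 5) (nat_lit 401) (nat_lit 384) (nat_lit 115)) (XT.nd (nat_lit 78) (nat_lit 304) (nat_lit 0) (XT.lf (nat_lit 0) (nat_lit 129913909032) (nat_lit 456) (nat_lit 109038056487) (nat_lit 76) (nat_lit 155926256170) (nat_lit 86) (nat_lit 5) (nat_lit 92) (nat_lit 5) (nat_lit 87) (nat_lit 5) (nat_lit 402) (nat_lit 384) (nat_lit 114)) (XT.lf (nat_lit 0) (nat_lit 104414561157) (nat_lit 304) (nat_lit 80229261726) (nat_lit 380) (nat_lit 221675509920) (nat_lit 82) (nat_lit 5) (nat_lit 86) (nat_lit 5) (nat_lit 87) (nat_lit 5) (nat_lit 403) (nat_lit 384) (nat_lit 113))))) (XT.nd (nat_lit 234) (nat_lit 608) (nat_lit 0) (XT.nd (nat_lit 78) (nat_lit 304) (nat_lit 0) (XT.lf (nat_lit 0) (nat_lit 245336492976) (nat_lit 380) (nat_lit 87294522409) (nat_lit 76) (nat_lit 85540171085) (nat_lit 82) (nat_lit 5) (nat_lit 87) (nat_lit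 5) (nat_lit 83) (nat_lit 5) (nat_lit 404) (nat_lit 384) (nat_lit 112)) (XT.nd (nat_lit 78) (nat_lit 0) (nat_lit 0) (XT.lf (nat_lit 0) (nat_lit 141251912555) (nat_lit 304) (nat_lit 171332425600) (nat_lit 380) (nat_lit 117855267608) (nat_lit 78) (nat_lit 5) (nat_lit 82) (nat_lit 5) (nat_lit 83) (nat_lit 5) (nat_lit 405) (nat_lit 384) (nat_lit 111)) (XT.lf (nat_lit 0) (nat_lit 384256302282) (nat_lit 304) (nat_lit 416618750) (nat_lit 380) (nat_lit 58574607737) (nat_lit 78) (nat_lit 5) (nat_lit 82) (nat_lit 5) (nat_lit 83) (nat_lit 5) (nat_lit 406) (nat_lit 384) (nat_lit 110)))) (XT.nd (nat_lit 78) (nat_lit 304) (nat_lit 0) (XT.lf (nat_lit 0) (nat_lit 9343312996) (nat_lit 304) (nat_lit 270693091769) (nat_lit 76) (nat_lit 176367043488) (nat_lit 74) (nat_lit 5) (nat_lit 78) (nat_lit 5) (nat_lit 75) (nat_lit 5) (nat_lit 407) (nat_lit 384) (nat_lit 109)) (XT.nd (nat_lit 78) (nat_lit 304) (nat_lit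 0) (XT.lf (nat_lit 0) (nat_lit 79710863528) (nat_lit 304) (nat_lit 26455633447) (nat_lit 76) (nat_lit 363951543546) (nat_lit 74) (nat_lit 5) (nat_lit 78) (nat_lit 5) (nat_lit 75) (nat_lit 5) (nat_lit 408) (nat_lit 384) (nat_lit 108)) (XT.lf (nat_lit 0) (nat_lit 158559922649) (nat_lit 380) (nat_lit 247988174387) (nat_lit 76) (nat_lit 77722108832) (nat_lit 70) (nat_lit 5) (nat_lit 75) (nat_lit 5) (nat_lit 71) (nat_lit 5) (nat_lit 409) (nat_lit 384) (nat_lit 107)))))) (XT.nd (nat_lit 45240) (nat_lit 0) (nat_lit 3116) (XT.nd (nat_lit 45006) (nat_lit 0) (nat_lit 2964) (XT.nd (nat_lit 78) (nat_lit 0) (nat_lit 0) (XT.lf (nat_lit 0) (nat_lit 12623705476) (nat_lit 228) (nat_lit 231120612963) (nat_lit 304) (nat_lit 255266016874) (nat_lit 67) (nat_lit 5) (nat_lit 70) (nat_lit 5) (nat_lit 71) (nat_lit 5) (nat_lit 410) (nat_lit 384) (nat_lit 106)) (XT.nd (nat_lit 44850) (nat_lit 0) (nat_lit 2964) (XT.lf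 (nat_lit 0) (nat_lit 294875734699) (nat_lit 228) (nat_lit 42511973813) (nat_lit 304) (nat_lit 176889774009) (nat_lit 67) (nat_lit 5) (nat_lit 70) (nat_lit 5) (nat_lit 71) (nat_lit 5) (nat_lit 411) (nat_lit 384) (nat_lit 105)) (XT.lf (nat_lit 0) (nat_lit 22161706492) (nat_lit 836) (nat_lit 53314358358) (nat_lit 836) (nat_lit 53314358358) (nat_lit 106) (nat_lit 3) (nat_lit 117) (nat_lit 3) (nat_lit 117) (nat_lit 5) (nat_lit 385) (nat_lit 385) (nat_lit 130)))) (XT.nd (nat_lit 78) (nat_lit 0) (nat_lit 76) (XT.lf (nat_lit 76) (nat_lit 16984185478) (nat_lit 0) (nat_lit 28713440238) (nat_lit 836) (nat_lit 218309434665) (nat_lit 107) (nat_lit 5) (nat_lit 106) (nat_lit 3) (nat_lit 117) (nat_lit 5) (nat_lit 386) (nat_lit 385) (nat_lit 129)) (XT.nd (nat_lit 78) (nat_lit 0) (nat_lit 0) (XT.lf (nat_lit 0) (nat_lit 50531515778) (nat_lit 760) (nat_lit 121769909464) (nat_lit 836) (nat_lit 98283611516)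 (nat_lit 107) (nat_lit 5) (nat_lit 117) (nat_lit 5) (nat_lit 118) (nat_lit 5) (nat_lit 387) (nat_lit 385) (nat_lit 128)) (XT.lf (nat_lit 76) (nat_lit 9581629004) (nat_lit 0) (nat_lit 46645721162) (nat_lit 836) (nat_lit 221233549348) (nat_lit 108) (nat_lit 5) (nat_lit 107) (nat_lit 5) (nat_lit 118) (nat_lit 5) (nat_lit 388) (nat_lit 385) (nat_lit 127))))) (XT.nd (nat_lit 234) (nat_lit 0) (nat_lit 76) (XT.nd (nat_lit 78) (nat_lit 0) (nat_lit 0) (XT.lf (nat_lit 0) (nat_lit 65635619030) (nat_lit 760) (nat_lit 134214627034) (nat_lit 836) (nat_lit 84658927254) (nat_lit 108) (nat_lit 5) (nat_lit 118) (nat_lit 5) (nat_lit 119) (nat_lit 5) (nat_lit 389) (nat_lit 385) (nat_lit 126)) (XT.nd (nat_lit 78) (nat_lit 0) (nat_lit 76) (XT.lf (nat_lit 76) (nat_lit 5546036561) (nat_lit 0) (nat_lit 70819484746) (nat_lit 836) (nat_lit 215501778553) (nat_lit 109) (nat_lit 5) (nat_lit 108) (nat_lit 5) (nat_lit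 119) (nat_lit 5) (nat_lit 390) (nat_lit 385) (nat_lit 125)) (XT.lf (nat_lit 0) (nat_lit 90951687302) (nat_lit 760) (nat_lit 143572189179) (nat_lit 836) (nat_lit 64903467861) (nat_lit 109) (nat_lit 5) (nat_lit 119) (nat_lit 5) (nat_lit 120) (nat_lit 5) (nat_lit 391) (nat_lit 385) (nat_lit 124)))) (XT.nd (nat_lit 156) (nat_lit 0) (nat_lit 76) (XT.nd (nat_lit 78) (nat_lit 0) (nat_lit 76) (XT.lf (nat_lit 76) (nat_lit 5323719395) (nat_lit 0) (nat_lit 102187487036) (nat_lit 836) (nat_lit 199791982417) (nat_lit 110) (nat_lit 5) (nat_lit 109) (nat_lit 5) (nat_lit 120) (nat_lit 5) (nat_lit 392) (nat_lit 385) (nat_lit 123)) (XT.lf (nat_lit 0) (nat_lit 127943995459) (nat_lit 760) (nat_lit 149416241093) (nat_lit 836) (nat_lit 38060324370) (nat_lit 110) (nat_lit 5) (nat_lit 120) (nat_lit 5) (nat_lit 121) (nat_lit 5) (nat_lit 393) (nat_lit 385) (nat_lit 122))) (XT.nd (nat_lit 78) (nat_lit 0) (nat_lit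 76) (XT.lf (nat_lit 76) (nat_lit 9400791521) (nat_lit 0) (nat_lit 141819565460) (nat_lit 836) (nat_lit 172632348003) (nat_lit 111) (nat_lit 5) (nat_lit 110) (nat_lit 5) (nat_lit 121) (nat_lit 5) (nat_lit 394) (nat_lit 385) (nat_lit 121)) (XT.lf (nat_lit 0) (nat_lit 178240190131) (nat_lit 760) (nat_lit 151283162271) (nat_lit 76) (nat_lit 3054121207) (nat_lit 111) (nat_lit 5) (nat_lit 121) (nat_lit 5) (nat_lit 112) (nat_lit 5) (nat_lit 395) (nat_lit 385) (nat_lit 120))))))))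
noncomputable def xc252 : XT := (XT.nd (nat_lit 46800) (nat_lit 0) (nat_lit 304) (XT.nd (nat_lit 936) (nat_lit 608) (nat_lit 0) (XT.nd (nat_lit 468) (nat_lit 988) (nat_lit 0) (XT.nd (nat_lit 234) (nat_lit 380) (nat_lit 0) (XT.nd (nat_lit 78) (nat_lit 380) (nat_lit 0) (XT.lf (nat_lit 0) (nat_lit 18304951977) (nat_lit 760) (nat_lit 190916724800) (nat_lit 836) (nat_lit 132386270830) (nat_lit 101) (nat_lit 5) (nat_lit 111) (nat_lit 5) (nat_lit 112) (nat_lit 5) (nat_lit 396) (nat_lit 385) (nat_lit 119)) (XT.nd (nat_lit 78) (nat_lit 380) (nat_lit 0) (XT.lf (nat_lit 0) (nat_lit 201624645940) (nat_lit 760) (nat_lit 42689606079) (nat_lit 836) (nat_lit 106647592605) (nat_lit 101) (nat_lit 5) (nat_lit 111) (nat_lit 5) (nat_lit 112) (nat_lit 5) (nat_lit 397) (nat_lit 385) (nat_lit 118)) (XT.lf (nat_lit 0) (nat_lit 32607032363) (nat_lit 380) (nat_lit 250826921826) (nat_lit 456) (nat_lit 77235857427)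 (nat_lit 96) (nat_lit 5) (nat_lit 101) (nat_lit 5) (nat_lit 102) (nat_lit 5) (nat_lit 398) (nat_lit 385) (nat_lit 117)))) (XT.nd (nat_lit 78) (nat_lit 380) (nat_lit 0) (XT.lf (nat_lit 0) (nat_lit 228110120699) (nat_lit 380) (nat_lit 99617124378) (nat_lit 456) (nat_lit 42975051728) (nat_lit 96) (nat_lit 5) (nat_lit 101) (nat_lit 5) (nat_lit 102) (nat_lit 5) (nat_lit 399) (nat_lit 385) (nat_lit 116)) (XT.nd (nat_lit 78) (nat_lit 76) (nat_lit 0) (XT.lf (nat_lit 0) (nat_lit 52922216452) (nat_lit 304) (nat_lit 323062760410) (nat_lit 380) (nat_lit 5163940602) (nat_lit 92) (nat_lit 5) (nat_lit 96) (nat_lit 5) (nat_lit 97) (nat_lit 5) (nat_lit 400) (nat_lit 385) (nat_lit 115)) (XT.lf (nat_lit 0) (nat_lit 37519792365) (nat_lit 380) (nat_lit 131046241171) (nat_lit 76) (nat_lit 223320499651) (nat_lit 91) (nat_lit 5) (nat_lit 96) (nat_lit 5) (nat_lit 92) (nat_lit 5) (nat_lit 401) (nat_lit 385) (nat_lit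 114))))) (XT.nd (nat_lit 234) (nat_lit 304) (nat_lit 0) (XT.nd (nat_lit 78) (nat_lit 304) (nat_lit 0) (XT.lf (nat_lit 0) (nat_lit 78418432077) (nat_lit 380) (nat_lit 4970036854) (nat_lit 456) (nat_lit 319707113090) (nat_lit 86) (nat_lit 5) (nat_lit 91) (nat_lit 5) (nat_lit 92) (nat_lit 5) (nat_lit 402) (nat_lit 385) (nat_lit 113)) (XT.nd (nat_lit 78) (nat_lit 304) (nat_lit 0) (XT.lf (nat_lit 0) (nat_lit 136410567386) (nat_lit 456) (nat_lit 114488871389) (nat_lit 76) (nat_lit 163722645142) (nat_lit 86) (nat_lit 5) (nat_lit 92) (nat_lit 5) (nat_lit 87) (nat_lit 5) (nat_lit 403) (nat_lit 385) (nat_lit 112)) (XT.lf (nat_lit 0) (nat_lit 109636359591) (nat_lit 304) (nat_lit 84240588198) (nat_lit 380) (nat_lit 232758304289) (nat_lit 82) (nat_lit 5) (nat_lit 86) (nat_lit 5) (nat_lit 87) (nat_lit 5) (nat_lit 404) (nat_lit 385) (nat_lit 111)))) (XT.nd (nat_lit 78) (nat_lit 304) (nat_lit 0) (XT.lf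 (nat_lit 0) (nat_lit 257604208953) (nat_lit 380) (nat_lit 91658186045) (nat_lit 76) (nat_lit 89817305583) (nat_lit 82) (nat_lit 5) (nat_lit 87) (nat_lit 5) (nat_lit 83) (nat_lit 5) (nat_lit 405) (nat_lit 385) (nat_lit 110)) (XT.nd (nat_lit 78) (nat_lit 0) (nat_lit 0) (XT.lf (nat_lit 0) (nat_lit 148315553531) (nat_lit 304) (nat_lit 179898866737) (nat_lit 380) (nat_lit 123747121908) (nat_lit 78) (nat_lit 5) (nat_lit 82) (nat_lit 5) (nat_lit 83) (nat_lit 5) (nat_lit 406) (nat_lit 385) (nat_lit 109)) (XT.lf (nat_lit 0) (nat_lit 403470112965) (nat_lit 304) (nat_lit 437278122) (nat_lit 380) (nat_lit 61502472333) (nat_lit 78) (nat_lit 5) (nat_lit 82) (nat_lit 5) (nat_lit 83) (nat_lit 5) (nat_lit 407) (nat_lit 385) (nat_lit 108)))))) (XT.nd (nat_lit 45396) (nat_lit 0) (nat_lit 2812) (XT.nd (nat_lit 45162) (nat_lit 0) (nat_lit 2736) (XT.nd (nat_lit 78) (nat_lit 304) (nat_lit 0) (XT.lf (nat_lit 0)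 (nat_lit 9811295564) (nat_lit 304) (nat_lit 284226700826) (nat_lit 76) (nat_lit 185185582898) (nat_lit 74) (nat_lit 5) (nat_lit 78) (nat_lit 5) (nat_lit 75) (nat_lit 5) (nat_lit 408) (nat_lit 385) (nat_lit 107)) (XT.nd (nat_lit 78) (nat_lit 304) (nat_lit 0) (XT.lf (nat_lit 0) (nat_lit 83697184722) (nat_lit 304) (nat_lit 27777419375) (nat_lit 76) (nat_lit 382149299043) (nat_lit 74) (nat_lit 5) (nat_lit 78) (nat_lit 5) (nat_lit 75) (nat_lit 5) (nat_lit 409) (nat_lit 385) (nat_lit 106)) (XT.lf (nat_lit 0) (nat_lit 166488678534) (nat_lit 380) (nat_lit 260386568616) (nat_lit 76) (nat_lit 81608430542) (nat_lit 70) (nat_lit 5) (nat_lit 75) (nat_lit 5) (nat_lit 71) (nat_lit 5) (nat_lit 410) (nat_lit 385) (nat_lit 105)))) (XT.nd (nat_lit 78) (nat_lit 0) (nat_lit 0) (XT.lf (nat_lit 0) (nat_lit 23270733554) (nat_lit 836) (nat_lit 55979581457) (nat_lit 836) (nat_lit 55979581457) (nat_lit 106) (nat_lit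 3) (nat_lit 117) (nat_lit 3) (nat_lit 117) (nat_lit 5) (nat_lit 386) (nat_lit 386) (nat_lit 128)) (XT.nd (nat_lit 78) (nat_lit 0) (nat_lit 76) (XT.lf (nat_lit 76) (nat_lit 17834368429) (nat_lit 0) (nat_lit 30149947558) (nat_lit 836) (nat_lit 229223005409) (nat_lit 107) (nat_lit 5) (nat_lit 106) (nat_lit 3) (nat_lit 117) (nat_lit 5) (nat_lit 387) (nat_lit 386) (nat_lit 127)) (XT.lf (nat_lit 0) (nat_lit 53059801990) (nat_lit 760) (nat_lit 127857377583) (nat_lit 836) (nat_lit 103197022022) (nat_lit 107) (nat_lit 5) (nat_lit 117) (nat_lit 5) (nat_lit 118) (nat_lit 5) (nat_lit 388) (nat_lit 386) (nat_lit 126))))) (XT.nd (nat_lit 234) (nat_lit 0) (nat_lit 152) (XT.nd (nat_lit 78) (nat_lit 0) (nat_lit 76) (XT.lf (nat_lit 76) (nat_lit 10061721239) (nat_lit 0) (nat_lit 48978641191) (nat_lit 836) (nat_lit 232293498412) (nat_lit 108) (nat_lit 5) (nat_lit 107) (nat_lit 5) (nat_lit 118) (nat_lit 5)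 (nat_lit 389) (nat_lit 386) (nat_lit 125)) (XT.nd (nat_lit 78) (nat_lit 0) (nat_lit 0) (XT.lf (nat_lit 0) (nat_lit 68918956989) (nat_lit 760) (nat_lit 140924306642) (nat_lit 836) (nat_lit 88891289160) (nat_lit 108) (nat_lit 5) (nat_lit 118) (nat_lit 5) (nat_lit 119) (nat_lit 5) (nat_lit 390) (nat_lit 386) (nat_lit 124)) (XT.lf (nat_lit 76) (nat_lit 5824373170) (nat_lit 0) (nat_lit 74360923223) (nat_lit 836) (nat_lit 226275292231) (nat_lit 109) (nat_lit 5) (nat_lit 108) (nat_lit 5) (nat_lit 119) (nat_lit 5) (nat_lit 391) (nat_lit 386) (nat_lit 123)))) (XT.nd (nat_lit 78) (nat_lit 0) (nat_lit 0) (XT.lf (nat_lit 0) (nat_lit 95500692401) (nat_lit 760) (nat_lit 150749733630) (nat_lit 836) (nat_lit 68148213272) (nat_lit 109) (nat_lit 5) (nat_lit 119) (nat_lit 5) (nat_lit 120) (nat_lit 5) (nat_lit 392) (nat_lit 386) (nat_lit 122)) (XT.nd (nat_lit 78) (nat_lit 0) (nat_lit 76) (XT.lf (nat_lit 76)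 (nat_lit 5590953195) (nat_lit 0) (nat_lit 107297182998) (nat_lit 836) (nat_lit 209780142466) (nat_lit 110) (nat_lit 5) (nat_lit 109) (nat_lit 5) (nat_lit 120) (nat_lit 5) (nat_lit 393) (nat_lit 386) (nat_lit 121)) (XT.lf (nat_lit 0) (nat_lit 134342494678) (nat_lit 760) (nat_lit 156885984115) (nat_lit 836) (nat_lit 39963044097) (nat_lit 110) (nat_lit 5) (nat_lit 120) (nat_lit 5) (nat_lit 121) (nat_lit 5) (nat_lit 394) (nat_lit 386) (nat_lit 120))))))) (XT.nd (nat_lit 936) (nat_lit 608) (nat_lit 0) (XT.nd (nat_lit 468) (nat_lit 1064) (nat_lit 0) (XT.nd (nat_lit 234) (nat_lit 380) (nat_lit 0) (XT.nd (nat_lit 78) (nat_lit 684) (nat_lit 0) (XT.lf (nat_lit 76) (nat_lit 9871882887) (nat_lit 0) (nat_lit 148910745933) (nat_lit 836) (nat_lit 181262647662) (nat_lit 111) (nat_lit 5) (nat_lit 110) (nat_lit 5) (nat_lit 121) (nat_lit 5) (nat_lit 395) (nat_lit 386) (nat_lit 119)) (XT.nd (nat_lit 78) (nat_lit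 760) (nat_lit 0) (XT.lf (nat_lit 0) (nat_lit 187153390907) (nat_lit 760) (nat_lit 158846254958) (nat_lit 76) (nat_lit 3206640859) (nat_lit 111) (nat_lit 5) (nat_lit 121) (nat_lit 5) (nat_lit 112) (nat_lit 5) (nat_lit 396) (nat_lit 386) (nat_lit 118)) (XT.lf (nat_lit 0) (nat_lit 19221247819) (nat_lit 760) (nat_lit 200462663706) (nat_lit 836) (nat_lit 139004374963) (nat_lit 101) (nat_lit 5) (nat_lit 111) (nat_lit 5) (nat_lit 112) (nat_lit 5) (nat_lit 397) (nat_lit 386) (nat_lit 117)))) (XT.nd (nat_lit 78) (nat_lit 380) (nat_lit 0) (XT.lf (nat_lit 0) (nat_lit 211706876563) (nat_lit 760) (nat_lit 44824184160) (nat_lit 836) (nat_lit 111978820418) (nat_lit 101) (nat_lit 5) (nat_lit 111) (nat_lit 5) (nat_lit 112) (nat_lit 5) (nat_lit 398) (nat_lit 386) (nat_lit 116)) (XT.nd (nat_lit 78) (nat_lit 0) (nat_lit 0) (XT.lf (nat_lit 0) (nat_lit 34238422522) (nat_lit 380) (nat_lit 263368288044) (nat_lit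 456) (nat_lit 81096537831) (nat_lit 96) (nat_lit 5) (nat_lit 101) (nat_lit 5) (nat_lit 102) (nat_lit 5) (nat_lit 399) (nat_lit 386) (nat_lit 115)) (XT.lf (nat_lit 0) (nat_lit 239516615821) (nat_lit 380) (nat_lit 104597999766) (nat_lit 456) (nat_lit 45122744821) (nat_lit 96) (nat_lit 5) (nat_lit 101) (nat_lit 5) (nat_lit 102) (nat_lit 5) (nat_lit 400) (nat_lit 386) (nat_lit 114))))) (XT.nd (nat_lit 234) (nat_lit 304) (nat_lit 0) (XT.nd (nat_lit 78) (nat_lit 456) (nat_lit 0) (XT.lf (nat_lit 0) (nat_lit 55569351114) (nat_lit 304) (nat_lit 339215850535) (nat_lit 380) (nat_lit 5421112106) (nat_lit 92) (nat_lit 5) (nat_lit 96) (nat_lit 5) (nat_lit 97) (nat_lit 5) (nat_lit 401) (nat_lit 386) (nat_lit 113)) (XT.nd (nat_lit 78) (nat_lit 380) (nat_lit 0) (XT.lf (nat_lit 0) (nat_lit 39396727414) (nat_lit 380) (nat_lit 137597546172) (nat_lit 76) (nat_lit 234486538276) (nat_lit 91) (nat_lit 5) (nat_lit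 96) (nat_lit 5) (nat_lit 92) (nat_lit 5) (nat_lit 402) (nat_lit 386) (nat_lit 112)) (XT.lf (nat_lit 0) (nat_lit 82340344495) (nat_lit 380) (nat_lit 5218463761) (nat_lit 456) (nat_lit 335691506393) (nat_lit 86) (nat_lit 5) (nat_lit 91) (nat_lit 5) (nat_lit 92) (nat_lit 5) (nat_lit 403) (nat_lit 386) (nat_lit 111)))) (XT.nd (nat_lit 78) (nat_lit 304) (nat_lit 0) (XT.lf (nat_lit 0) (nat_lit 143231969136) (nat_lit 456) (nat_lit 120212328180) (nat_lit 76) (nat_lit 171908846481) (nat_lit 86) (nat_lit 5) (nat_lit 92) (nat_lit 5) (nat_lit 87) (nat_lit 5) (nat_lit 404) (nat_lit 386) (nat_lit 110)) (XT.nd (nat_lit 78) (nat_lit 0) (nat_lit 0) (XT.lf (nat_lit 0) (nat_lit 115119148433) (nat_lit 304) (nat_lit 88452493695) (nat_lit 380) (nat_lit 244395329592) (nat_lit 82) (nat_lit 5) (nat_lit 86) (nat_lit 5) (nat_lit 87) (nat_lit 5) (nat_lit 405) (nat_lit 386) (nat_lit 109)) (XT.lf (nat_lit 0) (nat_lit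 270485227861) (nat_lit 380) (nat_lit 96240131642) (nat_lit 76) (nat_lit 94308285098) (nat_lit 82) (nat_lit 5) (nat_lit 87) (nat_lit 5) (nat_lit 83) (nat_lit 5) (nat_lit 406) (nat_lit 386) (nat_lit 108)))))) (XT.nd (nat_lit 45552) (nat_lit 0) (nat_lit 2508) (XT.nd (nat_lit 45318) (nat_lit 0) (nat_lit 2432) (XT.nd (nat_lit 78) (nat_lit 304) (nat_lit 0) (XT.lf (nat_lit 0) (nat_lit 155732279368) (nat_lit 304) (nat_lit 188893646678) (nat_lit 380) (nat_lit 129933653441) (nat_lit 78) (nat_lit 5) (nat_lit 82) (nat_lit 5) (nat_lit 83) (nat_lit 5) (nat_lit 407) (nat_lit 386) (nat_lit 107)) (XT.nd (nat_lit 78) (nat_lit 304) (nat_lit 0) (XT.lf (nat_lit 0) (nat_lit 423644521625) (nat_lit 304) (nat_lit 458986413) (nat_lit 380) (nat_lit 64576810653) (nat_lit 78) (nat_lit 5) (nat_lit 82) (nat_lit 5) (nat_lit 83) (nat_lit 5) (nat_lit 408) (nat_lit 386) (nat_lit 106)) (XT.lf (nat_lit 0) (nat_lit 10302601311)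 (nat_lit 304) (nat_lit 298437087540) (nat_lit 76) (nat_lit 194445031871) (nat_lit 74) (nat_lit 5) (nat_lit 78) (nat_lit 5) (nat_lit 75) (nat_lit 5) (nat_lit 409) (nat_lit 386) (nat_lit 105)))) (XT.nd (nat_lit 78) (nat_lit 0) (nat_lit 0) (XT.lf (nat_lit 0) (nat_lit 24435124414) (nat_lit 836) (nat_lit 58778111713) (nat_lit 836) (nat_lit 58778111713) (nat_lit 106) (nat_lit 3) (nat_lit 117) (nat_lit 3) (nat_lit 117) (nat_lit 5) (nat_lit 387) (nat_lit 387) (nat_lit 126)) (XT.nd (nat_lit 78) (nat_lit 0) (nat_lit 76) (XT.lf (nat_lit 76) (nat_lit 18726970005) (nat_lit 0) (nat_lit 31658202585) (nat_lit 836) (nat_lit 240682431426) (nat_lit 107) (nat_lit 5) (nat_lit 106) (nat_lit 3) (nat_lit 117) (nat_lit 5) (nat_lit 388) (nat_lit 387) (nat_lit 125)) (XT.lf (nat_lit 0) (nat_lit 55714343494) (nat_lit 760) (nat_lit 134249314620) (nat_lit 836) (nat_lit 108356174647) (nat_lit 107) (nat_lit 5) (nat_lit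 117) (nat_lit 5) (nat_lit 118) (nat_lit 5) (nat_lit 389) (nat_lit 387) (nat_lit 124))))) (XT.nd (nat_lit 234) (nat_lit 0) (nat_lit 152) (XT.nd (nat_lit 78) (nat_lit 0) (nat_lit 76) (XT.lf (nat_lit 76) (nat_lit 10565724113) (nat_lit 0) (nat_lit 51428148281) (nat_lit 836) (nat_lit 243906605620) (nat_lit 108) (nat_lit 5) (nat_lit 107) (nat_lit 5) (nat_lit 118) (nat_lit 5) (nat_lit 390) (nat_lit 387) (nat_lit 123)) (XT.nd (nat_lit 78) (nat_lit 0) (nat_lit 0) (XT.lf (nat_lit 0) (nat_lit 72366317089) (nat_lit 760) (nat_lit 147969568012) (nat_lit 836) (nat_lit 93335323499) (nat_lit 108) (nat_lit 5) (nat_lit 118) (nat_lit 5) (nat_lit 119) (nat_lit 5) (nat_lit 391) (nat_lit 387) (nat_lit 122)) (XT.lf (nat_lit 76) (nat_lit 6116530404) (nat_lit 0) (nat_lit 78079390463) (nat_lit 836) (nat_lit 237587628044) (nat_lit 109) (nat_lit 5) (nat_lit 108) (nat_lit 5) (nat_lit 119) (nat_lit 5) (nat_lit 392) (nat_lit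 387) (nat_lit 121)))) (XT.nd (nat_lit 156) (nat_lit 0) (nat_lit 76) (XT.nd (nat_lit 78) (nat_lit 0) (nat_lit 0) (XT.lf (nat_lit 0) (nat_lit 100277015670) (nat_lit 760) (nat_lit 158286254319) (nat_lit 836) (nat_lit 71555235744) (nat_lit 109) (nat_lit 5) (nat_lit 119) (nat_lit 5) (nat_lit 120) (nat_lit 5) (nat_lit 393) (nat_lit 387) (nat_lit 120)) (XT.lf (nat_lit 76) (nat_lit 5871451267) (nat_lit 0) (nat_lit 112662333858) (nat_lit 836) (nat_lit 220267844308) (nat_lit 110) (nat_lit 5) (nat_lit 109) (nat_lit 5) (nat_lit 120) (nat_lit 5) (nat_lit 394) (nat_lit 387) (nat_lit 119))) (XT.nd (nat_lit 78) (nat_lit 0) (nat_lit 0) (XT.lf (nat_lit 0) (nat_lit 141060798049) (nat_lit 760) (nat_lit 164729313678) (nat_lit 836) (nat_lit 41960927375) (nat_lit 110) (nat_lit 5) (nat_lit 120) (nat_lit 5) (nat_lit 121) (nat_lit 5) (nat_lit 395) (nat_lit 387) (nat_lit 118)) (XT.lf (nat_lit 76) (nat_lit 10366431035)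 (nat_lit 0) (nat_lit 156356466632) (nat_lit 836) (nat_lit 190324584815) (nat_lit 111) (nat_lit 5) (nat_lit 110) (nat_lit 5) (nat_lit 121) (nat_lit 5) (nat_lit 396) (nat_lit 387) (nat_lit 117))))))))
noncomputable def xc253 : XT := (XT.nd (nat_lit 47112) (nat_lit 0) (nat_lit 304) (XT.nd (nat_lit 936) (nat_lit 0) (nat_lit 0) (XT.nd (nat_lit 468) (nat_lit 1064) (nat_lit 0) (XT.nd (nat_lit 234) (nat_lit 684) (nat_lit 0) (XT.nd (nat_lit 78) (nat_lit 760) (nat_lit 0) (XT.lf (nat_lit 0) (nat_lit 196512140969) (nat_lit 760) (nat_lit 166787601333) (nat_lit 76) (nat_lit 3366803824) (nat_lit 111) (nat_lit 5) (nat_lit 121) (nat_lit 5) (nat_lit 112) (nat_lit 5) (nat_lit 397) (nat_lit 387) (nat_lit 116)) (XT.nd (nat_lit 78) (nat_lit 0) (nat_lit 0) (XT.lf (nat_lit 0) (nat_lit 20183260996) (nat_lit 760) (nat_lit 210485890012) (nat_lit 836) (nat_lit 145953496743) (nat_lit 101) (nat_lit 5) (nat_lit 111)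 (nat_lit 5) (nat_lit 112) (nat_lit 5) (nat_lit 398) (nat_lit 387) (nat_lit 115)) (XT.lf (nat_lit 0) (nat_lit 222293125902) (nat_lit 760) (nat_lit 47065482055) (nat_lit 836) (nat_lit 117576716707) (nat_lit 101) (nat_lit 5) (nat_lit 111) (nat_lit 5) (nat_lit 112) (nat_lit 5) (nat_lit 399) (nat_lit 387) (nat_lit 114)))) (XT.nd (nat_lit 78) (nat_lit 304) (nat_lit 0) (XT.lf (nat_lit 0) (nat_lit 35951285636) (nat_lit 380) (nat_lit 276536720702) (nat_lit 456) (nat_lit 85150355681) (nat_lit 96) (nat_lit 5) (nat_lit 101) (nat_lit 5) (nat_lit 102) (nat_lit 5) (nat_lit 400) (nat_lit 387) (nat_lit 113)) (XT.nd (nat_lit 78) (nat_lit 304) (nat_lit 0) (XT.lf (nat_lit 0) (nat_lit 251493343743) (nat_lit 380) (nat_lit 109827917140) (nat_lit 456) (nat_lit 47377921071) (nat_lit 96) (nat_lit 5) (nat_lit 101) (nat_lit 5) (nat_lit 102) (nat_lit 5) (nat_lit 401) (nat_lit 387) (nat_lit 112)) (XT.lf (nat_lit 0)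 (nat_lit 58348747322) (nat_lit 304) (nat_lit 356176599619) (nat_lit 380) (nat_lit 5691237529) (nat_lit 92) (nat_lit 5) (nat_lit 96) (nat_lit 5) (nat_lit 97) (nat_lit 5) (nat_lit 402) (nat_lit 387) (nat_lit 111))))) (XT.nd (nat_lit 234) (nat_lit 608) (nat_lit 0) (XT.nd (nat_lit 78) (nat_lit 380) (nat_lit 0) (XT.lf (nat_lit 0) (nat_lit 41367421319) (nat_lit 380) (nat_lit 144476510050) (nat_lit 76) (nat_lit 246210877564) (nat_lit 91) (nat_lit 5) (nat_lit 96) (nat_lit 5) (nat_lit 92) (nat_lit 5) (nat_lit 403) (nat_lit 387) (nat_lit 110)) (XT.nd (nat_lit 78) (nat_lit 0) (nat_lit 0) (XT.lf (nat_lit 0) (nat_lit 86458260418) (nat_lit 380) (nat_lit 5479318982) (nat_lit 456) (nat_lit 352475208831) (nat_lit 86) (nat_lit 5) (nat_lit 91) (nat_lit 5) (nat_lit 92) (nat_lit 5) (nat_lit 404) (nat_lit 387) (nat_lit 109)) (XT.lf (nat_lit 0) (nat_lit 150394359775) (nat_lit 456) (nat_lit 126222049552) (nat_lit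 76) (nat_lit 180504351465) (nat_lit 86) (nat_lit 5) (nat_lit 92) (nat_lit 5) (nat_lit 87) (nat_lit 5) (nat_lit 405) (nat_lit 387) (nat_lit 108)))) (XT.nd (nat_lit 78) (nat_lit 304) (nat_lit 0) (XT.lf (nat_lit 0) (nat_lit 120875986455) (nat_lit 304) (nat_lit 92875005987) (nat_lit 380) (nat_lit 256614288895) (nat_lit 82) (nat_lit 5) (nat_lit 86) (nat_lit 5) (nat_lit 87) (nat_lit 5) (nat_lit 406) (nat_lit 387) (nat_lit 107)) (XT.nd (nat_lit 78) (nat_lit 304) (nat_lit 0) (XT.lf (nat_lit 0) (nat_lit 284010222552) (nat_lit 380) (nat_lit 101051264116) (nat_lit 76) (nat_lit 99023802968) (nat_lit 82) (nat_lit 5) (nat_lit 87) (nat_lit 5) (nat_lit 83) (nat_lit 5) (nat_lit 407) (nat_lit 387) (nat_lit 106)) (XT.lf (nat_lit 0) (nat_lit 163519753347) (nat_lit 304) (nat_lit 198338180808) (nat_lit 380) (nat_lit 136429588211) (nat_lit 78) (nat_lit 5) (nat_lit 82) (nat_lit 5) (nat_lit 83) (nat_lit 5) (nat_lit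 408) (nat_lit 387) (nat_lit 105)))))) (XT.nd (nat_lit 45630) (nat_lit 0) (nat_lit 1748) (XT.nd (nat_lit 45396) (nat_lit 0) (nat_lit 2204) (XT.nd (nat_lit 45240) (nat_lit 0) (nat_lit 2128) (XT.lf (nat_lit 0) (nat_lit 444827566763) (nat_lit 304) (nat_lit 481794587) (nat_lit 380) (nat_lit 67804938897) (nat_lit 78) (nat_lit 5) (nat_lit 82) (nat_lit 5) (nat_lit 83) (nat_lit 5) (nat_lit 409) (nat_lit 387) (nat_lit 104)) (XT.nd (nat_lit 78) (nat_lit 0) (nat_lit 0) (XT.lf (nat_lit 0) (nat_lit 25657655404) (nat_lit 836) (nat_lit 61716610210) (nat_lit 836) (nat_lit 61716610210) (nat_lit 106) (nat_lit 3) (nat_lit 117) (nat_lit 3) (nat_lit 117) (nat_lit 5) (nat_lit 388) (nat_lit 388) (nat_lit 124)) (XT.lf (nat_lit 76) (nat_lit 19664119552) (nat_lit 0) (nat_lit 33241799924) (nat_lit 836) (nat_lit 252714989049) (nat_lit 107) (nat_lit 5) (nat_lit 106) (nat_lit 3) (nat_lit 117) (nat_lit 5) (nat_lit 389)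 (nat_lit 388) (nat_lit 123)))) (XT.nd (nat_lit 78) (nat_lit 0) (nat_lit 0) (XT.lf (nat_lit 0) (nat_lit 58501467838) (nat_lit 760) (nat_lit 140960935144) (nat_lit 836) (nat_lit 113773349842) (nat_lit 107) (nat_lit 5) (nat_lit 117) (nat_lit 5) (nat_lit 118) (nat_lit 5) (nat_lit 390) (nat_lit 388) (nat_lit 122)) (XT.nd (nat_lit 78) (nat_lit 0) (nat_lit 76) (XT.lf (nat_lit 76) (nat_lit 11094841894) (nat_lit 0) (nat_lit 54000077264) (nat_lit 836) (nat_lit 256100513939) (nat_lit 108) (nat_lit 5) (nat_lit 107) (nat_lit 5) (nat_lit 118) (nat_lit 5) (nat_lit 391) (nat_lit 388) (nat_lit 121)) (XT.lf (nat_lit 0) (nat_lit 75985913897) (nat_lit 760) (nat_lit 155367181140) (nat_lit 836) (nat_lit 98001608840) (nat_lit 108) (nat_lit 5) (nat_lit 118) (nat_lit 5) (nat_lit 119) (nat_lit 5) (nat_lit 392) (nat_lit 388) (nat_lit 120))))) (XT.nd (nat_lit 234) (nat_lit 532) (nat_lit 0) (XT.nd (nat_lit 78) (nat_lit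 0) (nat_lit 76) (XT.lf (nat_lit 76) (nat_lit 6423208240) (nat_lit 0) (nat_lit 81983741917) (nat_lit 836) (nat_lit 249465713485) (nat_lit 109) (nat_lit 5) (nat_lit 108) (nat_lit 5) (nat_lit 119) (nat_lit 5) (nat_lit 393) (nat_lit 388) (nat_lit 119)) (XT.nd (nat_lit 78) (nat_lit 0) (nat_lit 0) (XT.lf (nat_lit 0) (nat_lit 105292035295) (nat_lit 760) (nat_lit 166199690850) (nat_lit 836) (nat_lit 75132645429) (nat_lit 109) (nat_lit 5) (nat_lit 119) (nat_lit 5) (nat_lit 120) (nat_lit 5) (nat_lit 394) (nat_lit 388) (nat_lit 118)) (XT.lf (nat_lit 76) (nat_lit 6165885883) (nat_lit 0) (nat_lit 118295715140) (nat_lit 836) (nat_lit 231280052595) (nat_lit 110) (nat_lit 5) (nat_lit 109) (nat_lit 5) (nat_lit 120) (nat_lit 5) (nat_lit 395) (nat_lit 388) (nat_lit 117)))) (XT.nd (nat_lit 156) (nat_lit 684) (nat_lit 0) (XT.nd (nat_lit 78) (nat_lit 0) (nat_lit 0) (XT.lf (nat_lit 0) (nat_lit 148114907009) (nat_lit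 760) (nat_lit 172964899867) (nat_lit 836) (nat_lit 44058729819) (nat_lit 110) (nat_lit 5) (nat_lit 120) (nat_lit 5) (nat_lit 121) (nat_lit 5) (nat_lit 396) (nat_lit 388) (nat_lit 116)) (XT.lf (nat_lit 76) (nat_lit 10885617897) (nat_lit 0) (nat_lit 164174456314) (nat_lit 836) (nat_lit 199839729946) (nat_lit 111) (nat_lit 5) (nat_lit 110) (nat_lit 5) (nat_lit 121) (nat_lit 5) (nat_lit 397) (nat_lit 388) (nat_lit 115))) (XT.nd (nat_lit 78) (nat_lit 760) (nat_lit 0) (XT.lf (nat_lit 0) (nat_lit 206338728078) (nat_lit 760) (nat_lit 175126104870) (nat_lit 76) (nat_lit 3534990657) (nat_lit 111) (nat_lit 5) (nat_lit 121) (nat_lit 5) (nat_lit 112) (nat_lit 5) (nat_lit 398) (nat_lit 388) (nat_lit 114)) (XT.lf (nat_lit 0) (nat_lit 21193286438) (nat_lit 760) (nat_lit 221010268976) (nat_lit 836) (nat_lit 153250176597) (nat_lit 101) (nat_lit 5) (nat_lit 111) (nat_lit 5) (nat_lit 112) (nat_lit 5) (nat_lit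 399) (nat_lit 388) (nat_lit 113))))))) (XT.nd (nat_lit 46254) (nat_lit 0) (nat_lit 760) (XT.nd (nat_lit 468) (nat_lit 304) (nat_lit 0) (XT.nd (nat_lit 234) (nat_lit 760) (nat_lit 0) (XT.nd (nat_lit 78) (nat_lit 380) (nat_lit 0) (XT.lf (nat_lit 0) (nat_lit 233408603523) (nat_lit 760) (nat_lit 49418836599) (nat_lit 836) (nat_lit 123454604940) (nat_lit 101) (nat_lit 5) (nat_lit 111) (nat_lit 5) (nat_lit 112) (nat_lit 5) (nat_lit 400) (nat_lit 388) (nat_lit 112)) (XT.nd (nat_lit 78) (nat_lit 0) (nat_lit 0) (XT.lf (nat_lit 0) (nat_lit 37749704329) (nat_lit 380) (nat_lit 290363573295) (nat_lit 456) (nat_lit 89406958236) (nat_lit 96) (nat_lit 5) (nat_lit 101) (nat_lit 5) (nat_lit 102) (nat_lit 5) (nat_lit 401) (nat_lit 388) (nat_lit 111)) (XT.lf (nat_lit 0) (nat_lit 264068824655) (nat_lit 380) (nat_lit 115319328767) (nat_lit 456) (nat_lit 49745945477) (nat_lit 96) (nat_lit 5) (nat_lit 101) (nat_lit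 5) (nat_lit 102) (nat_lit 5) (nat_lit 402) (nat_lit 388) (nat_lit 110)))) (XT.nd (nat_lit 78) (nat_lit 456) (nat_lit 0) (XT.lf (nat_lit 0) (nat_lit 61267027003) (nat_lit 304) (nat_lit 373985390195) (nat_lit 380) (nat_lit 5974955703) (nat_lit 92) (nat_lit 5) (nat_lit 96) (nat_lit 5) (nat_lit 97) (nat_lit 5) (nat_lit 403) (nat_lit 388) (nat_lit 109)) (XT.nd (nat_lit 78) (nat_lit 380) (nat_lit 0) (XT.lf (nat_lit 0) (nat_lit 43436570193) (nat_lit 380) (nat_lit 151699507043) (nat_lit 76) (nat_lit 258521432667) (nat_lit 91) (nat_lit 5) (nat_lit 96) (nat_lit 5) (nat_lit 92) (nat_lit 5) (nat_lit 404) (nat_lit 388) (nat_lit 108)) (XT.lf (nat_lit 0) (nat_lit 90781988585) (nat_lit 380) (nat_lit 5753223282) (nat_lit 456) (nat_lit 370098177543) (nat_lit 86) (nat_lit 5) (nat_lit 91) (nat_lit 5) (nat_lit 92) (nat_lit 5) (nat_lit 405) (nat_lit 388) (nat_lit 107))))) (XT.nd (nat_lit 45552) (nat_lit 0) (nat_lit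 1824) (XT.nd (nat_lit 78) (nat_lit 304) (nat_lit 0) (XT.lf (nat_lit 0) (nat_lit 157914796296) (nat_lit 456) (nat_lit 132532340205) (nat_lit 76) (nat_lit 189529625873) (nat_lit 86) (nat_lit 5) (nat_lit 92) (nat_lit 5) (nat_lit 87) (nat_lit 5) (nat_lit 406) (nat_lit 388) (nat_lit 106)) (XT.nd (nat_lit 78) (nat_lit 0) (nat_lit 0) (XT.lf (nat_lit 0) (nat_lit 126920584508) (nat_lit 304) (nat_lit 97518654343) (nat_lit 380) (nat_lit 269444271207) (nat_lit 82) (nat_lit 5) (nat_lit 86) (nat_lit 5) (nat_lit 87) (nat_lit 5) (nat_lit 407) (nat_lit 388) (nat_lit 105)) (XT.lf (nat_lit 0) (nat_lit 298211398802) (nat_lit 380) (nat_lit 106103034479) (nat_lit 76) (nat_lit 103975087098) (nat_lit 82) (nat_lit 5) (nat_lit 87) (nat_lit 5) (nat_lit 83) (nat_lit 5) (nat_lit 408) (nat_lit 388) (nat_lit 104)))) (XT.nd (nat_lit 78) (nat_lit 0) (nat_lit 0) (XT.lf (nat_lit 0) (nat_lit 26941240912) (nat_lit 836) (nat_lit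 64802071478) (nat_lit 836) (nat_lit 64802071478) (nat_lit 106) (nat_lit 3) (nat_lit 117) (nat_lit 3) (nat_lit 117) (nat_lit 5) (nat_lit 389) (nat_lit 389) (nat_lit 122)) (XT.nd (nat_lit 78) (nat_lit 0) (nat_lit 76) (XT.lf (nat_lit 76) (nat_lit 20648052103) (nat_lit 0) (nat_lit 34904513240) (nat_lit 836) (nat_lit 265349319954) (nat_lit 107) (nat_lit 5) (nat_lit 106) (nat_lit 3) (nat_lit 117) (nat_lit 5) (nat_lit 390) (nat_lit 389) (nat_lit 121)) (XT.lf (nat_lit 0) (nat_lit 61427817574) (nat_lit 760) (nat_lit 148008215273) (nat_lit 836) (nat_lit 119461442696) (nat_lit 107) (nat_lit 5) (nat_lit 117) (nat_lit 5) (nat_lit 118) (nat_lit 5) (nat_lit 391) (nat_lit 389) (nat_lit 120)))))) (XT.nd (nat_lit 468) (nat_lit 1140) (nat_lit 0) (XT.nd (nat_lit 234) (nat_lit 0) (nat_lit 152) (XT.nd (nat_lit 78) (nat_lit 0) (nat_lit 76) (XT.lf (nat_lit 76) (nat_lit 11650338252) (nat_lit 0) (nat_lit 56700554205)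 (nat_lit 836) (nat_lit 268904249875) (nat_lit 108) (nat_lit 5) (nat_lit 107) (nat_lit 5) (nat_lit 118) (nat_lit 5) (nat_lit 392) (nat_lit 389) (nat_lit 119)) (XT.nd (nat_lit 78) (nat_lit 0) (nat_lit 0) (XT.lf (nat_lit 0) (nat_lit 79786371455) (nat_lit 760) (nat_lit 163134755370) (nat_lit 836) (nat_lit 102901253151) (nat_lit 108) (nat_lit 5) (nat_lit 118) (nat_lit 5) (nat_lit 119) (nat_lit 5) (nat_lit 393) (nat_lit 389) (nat_lit 118)) (XT.lf (nat_lit 76) (nat_lit 6745140821) (nat_lit 0) (nat_lit 86083275436) (nat_lit 836) (nat_lit 261937823684) (nat_lit 109) (nat_lit 5) (nat_lit 108) (nat_lit 5) (nat_lit 119) (nat_lit 5) (nat_lit 394) (nat_lit 389) (nat_lit 117)))) (XT.nd (nat_lit 78) (nat_lit 0) (nat_lit 0) (XT.lf (nat_lit 0) (nat_lit 110557697234) (nat_lit 760) (nat_lit 174508880668) (nat_lit 836) (nat_lit 78888958334) (nat_lit 109) (nat_lit 5) (nat_lit 119) (nat_lit 5) (nat_lit 120) (nat_lit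 5) (nat_lit 395) (nat_lit 389) (nat_lit 116)) (XT.nd (nat_lit 78) (nat_lit 0) (nat_lit 76) (XT.lf (nat_lit 76) (nat_lit 6474962084) (nat_lit 0) (nat_lit 124210740888) (nat_lit 836) (nat_lit 242842981367) (nat_lit 110) (nat_lit 5) (nat_lit 109) (nat_lit 5) (nat_lit 120) (nat_lit 5) (nat_lit 396) (nat_lit 389) (nat_lit 115)) (XT.lf (nat_lit 0) (nat_lit 155521622027) (nat_lit 760) (nat_lit 181612347132) (nat_lit 836) (nat_lit 46261445063) (nat_lit 110) (nat_lit 5) (nat_lit 120) (nat_lit 5) (nat_lit 121) (nat_lit 5) (nat_lit 397) (nat_lit 389) (nat_lit 114))))) (XT.nd (nat_lit 234) (nat_lit 684) (nat_lit 0) (XT.nd (nat_lit 78) (nat_lit 684) (nat_lit 0) (XT.lf (nat_lit 76) (nat_lit 11430683653) (nat_lit 0) (nat_lit 172383330015) (nat_lit 836) (nat_lit 209830733125) (nat_lit 111) (nat_lit 5) (nat_lit 110) (nat_lit 5) (nat_lit 121) (nat_lit 5) (nat_lit 398) (nat_lit 389) (nat_lit 113)) (XT.nd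 (nat_lit 78) (nat_lit 760) (nat_lit 0) (XT.lf (nat_lit 0) (nat_lit 216656553425) (nat_lit 760) (nat_lit 183881615076) (nat_lit 76) (nat_lit 3711601089) (nat_lit 111) (nat_lit 5) (nat_lit 121) (nat_lit 5) (nat_lit 112) (nat_lit 5) (nat_lit 399) (nat_lit 389) (nat_lit 112)) (XT.lf (nat_lit 0) (nat_lit 22253732974) (nat_lit 760) (nat_lit 232060859036) (nat_lit 836) (nat_lit 160911782948) (nat_lit 101) (nat_lit 5) (nat_lit 111) (nat_lit 5) (nat_lit 112) (nat_lit 5) (nat_lit 400) (nat_lit 389) (nat_lit 111)))) (XT.nd (nat_lit 156) (nat_lit 304) (nat_lit 0) (XT.nd (nat_lit 78) (nat_lit 380) (nat_lit 0) (XT.lf (nat_lit 0) (nat_lit 245079778665) (nat_lit 760) (nat_lit 51889851392) (nat_lit 836) (nat_lit 129626475683) (nat_lit 101) (nat_lit 5) (nat_lit 111) (nat_lit 5) (nat_lit 112) (nat_lit 5) (nat_lit 401) (nat_lit 389) (nat_lit 110)) (XT.lf (nat_lit 0) (nat_lit 39637964521) (nat_lit 380) (nat_lit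 304881766979) (nat_lit 456) (nat_lit 93876476007) (nat_lit 96) (nat_lit 5) (nat_lit 101) (nat_lit 5) (nat_lit 102) (nat_lit 5) (nat_lit 402) (nat_lit 389) (nat_lit 109))) (XT.nd (nat_lit 78) (nat_lit 304) (nat_lit 0) (XT.lf (nat_lit 0) (nat_lit 277273003959) (nat_lit 380) (nat_lit 121085309510) (nat_lit 456) (nat_lit 52232452141) (nat_lit 96) (nat_lit 5) (nat_lit 101) (nat_lit 5) (nat_lit 102) (nat_lit 5) (nat_lit 403) (nat_lit 389) (nat_lit 108)) (XT.lf (nat_lit 0) (nat_lit 64331142358) (nat_lit 304) (nat_lit 392684623964) (nat_lit 380) (nat_lit 6272938225) (nat_lit 92) (nat_lit 5) (nat_lit 96) (nat_lit 5) (nat_lit 97) (nat_lit 5) (nat_lit 404) (nat_lit 389) (nat_lit 107))))))))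
noncomputable def xc254 : XT := (XT.nd (nat_lit 92976) (nat_lit 0) (nat_lit 456) (XT.nd (nat_lit 46410) (nat_lit 0) (nat_lit 0) (XT.nd (nat_lit 45942) (nat_lit 0) (nat_lit 1596) (XT.nd (nat_lit 45708) (nat_lit 0) (nat_lit 1520) (XT.nd (nat_lit 78) (nat_lit 380) (nat_lit 0) (XT.lf (nat_lit 0) (nat_lit 45609104198) (nat_lit 380) (nat_lit 159283730914) (nat_lit 76) (nat_lit 271447514480) (nat_lit 91) (nat_lit 5) (nat_lit 96) (nat_lit 5) (nat_lit 92) (nat_lit 5) (nat_lit 405) (nat_lit 389) (nat_lit 106)) (XT.nd (nat_lit 78) (nat_lit 0) (nat_lit 0) (XT.lf (nat_lit 0) (nat_lit 95321827375) (nat_lit 380) (nat_lit 6040828528) (nat_lit 456) (nat_lit 388602368298) (nat_lit 86) (nat_lit 5) (nat_lit 91) (nat_lit 5) (nat_lit 92) (nat_lit 5) (nat_lit 406) (nat_lit 389) (nat_lit 105)) (XT.lf (nat_lit 0) (nat_lit 165811187841) (nat_lit 456) (nat_lit 139158220867) (nat_lit 76) (nat_lit 199006158716) (nat_lit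 86) (nat_lit 5) (nat_lit 92) (nat_lit 5) (nat_lit 87) (nat_lit 5) (nat_lit 407) (nat_lit 389) (nat_lit 104)))) (XT.nd (nat_lit 78) (nat_lit 0) (nat_lit 0) (XT.lf (nat_lit 0) (nat_lit 28288940362) (nat_lit 836) (nat_lit 68041840139) (nat_lit 836) (nat_lit 68041840139) (nat_lit 106) (nat_lit 3) (nat_lit 117) (nat_lit 3) (nat_lit 117) (nat_lit 5) (nat_lit 390) (nat_lit 390) (nat_lit 120)) (XT.nd (nat_lit 78) (nat_lit 0) (nat_lit 76) (XT.lf (nat_lit 76) (nat_lit 21681113731) (nat_lit 0) (nat_lit 36650304272) (nat_lit 836) (nat_lit 278615499287) (nat_lit 107) (nat_lit 5) (nat_lit 106) (nat_lit 3) (nat_lit 117) (nat_lit 5) (nat_lit 391) (nat_lit 390) (nat_lit 119)) (XT.lf (nat_lit 0) (nat_lit 64500366134) (nat_lit 760) (nat_lit 155407930682) (nat_lit 836) (nat_lit 125433993618) (nat_lit 107) (nat_lit 5) (nat_lit 117) (nat_lit 5) (nat_lit 118) (nat_lit 5) (nat_lit 392) (nat_lit 390) (nat_lit 118)))))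 (XT.nd (nat_lit 234) (nat_lit 0) (nat_lit 152) (XT.nd (nat_lit 78) (nat_lit 0) (nat_lit 76) (XT.lf (nat_lit 76) (nat_lit 12233539304) (nat_lit 0) (nat_lit 59536011012) (nat_lit 836) (nat_lit 282348292518) (nat_lit 108) (nat_lit 5) (nat_lit 107) (nat_lit 5) (nat_lit 118) (nat_lit 5) (nat_lit 393) (nat_lit 390) (nat_lit 117)) (XT.nd (nat_lit 78) (nat_lit 0) (nat_lit 0) (XT.lf (nat_lit 0) (nat_lit 83776743871) (nat_lit 760) (nat_lit 171290781277) (nat_lit 836) (nat_lit 108045920226) (nat_lit 108) (nat_lit 5) (nat_lit 118) (nat_lit 5) (nat_lit 119) (nat_lit 5) (nat_lit 394) (nat_lit 390) (nat_lit 116)) (XT.lf (nat_lit 76) (nat_lit 7083098242) (nat_lit 0) (nat_lit 90387753423) (nat_lit 836) (nat_lit 275033648677) (nat_lit 109) (nat_lit 5) (nat_lit 108) (nat_lit 5) (nat_lit 119) (nat_lit 5) (nat_lit 395) (nat_lit 390) (nat_lit 115)))) (XT.nd (nat_lit 78) (nat_lit 0) (nat_lit 0) (XT.lf (nat_lit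 0) (nat_lit 116086543705) (nat_lit 760) (nat_lit 183233603862) (nat_lit 836) (nat_lit 82833116575) (nat_lit 109) (nat_lit 5) (nat_lit 119) (nat_lit 5) (nat_lit 120) (nat_lit 5) (nat_lit 396) (nat_lit 390) (nat_lit 114)) (XT.nd (nat_lit 78) (nat_lit 0) (nat_lit 76) (XT.lf (nat_lit 76) (nat_lit 6799419401) (nat_lit 0) (nat_lit 130421495611) (nat_lit 836) (nat_lit 254984156414) (nat_lit 110) (nat_lit 5) (nat_lit 109) (nat_lit 5) (nat_lit 120) (nat_lit 5) (nat_lit 397) (nat_lit 390) (nat_lit 113)) (XT.lf (nat_lit 0) (nat_lit 163298582645) (nat_lit 760) (nat_lit 190692240926) (nat_lit 836) (nat_lit 48574316638) (nat_lit 110) (nat_lit 5) (nat_lit 120) (nat_lit 5) (nat_lit 121) (nat_lit 5) (nat_lit 398) (nat_lit 390) (nat_lit 112)))))) (XT.nd (nat_lit 468) (nat_lit 760) (nat_lit 0) (XT.nd (nat_lit 234) (nat_lit 380) (nat_lit 0) (XT.nd (nat_lit 78) (nat_lit 684) (nat_lit 0) (XT.lf (nat_lit 76)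 (nat_lit 12002929728) (nat_lit 0) (nat_lit 181002633373) (nat_lit 836) (nat_lit 220321377882) (nat_lit 111) (nat_lit 5) (nat_lit 110) (nat_lit 5) (nat_lit 121) (nat_lit 5) (nat_lit 399) (nat_lit 390) (nat_lit 111)) (XT.nd (nat_lit 78) (nat_lit 760) (nat_lit 0) (XT.lf (nat_lit 0) (nat_lit 227490187394) (nat_lit 760) (nat_lit 193074974707) (nat_lit 76) (nat_lit 3897054975) (nat_lit 111) (nat_lit 5) (nat_lit 121) (nat_lit 5) (nat_lit 112) (nat_lit 5) (nat_lit 400) (nat_lit 390) (nat_lit 110)) (XT.lf (nat_lit 0) (nat_lit 23367129115) (nat_lit 760) (nat_lit 243663971476) (nat_lit 836) (nat_lit 168956553520) (nat_lit 101) (nat_lit 5) (nat_lit 111) (nat_lit 5) (nat_lit 112) (nat_lit 5) (nat_lit 401) (nat_lit 390) (nat_lit 109)))) (XT.nd (nat_lit 78) (nat_lit 380) (nat_lit 0) (XT.lf (nat_lit 0) (nat_lit 257334443305) (nat_lit 760) (nat_lit 54484410141) (nat_lit 836) (nat_lit 136107019872) (nat_lit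 101) (nat_lit 5) (nat_lit 111) (nat_lit 5) (nat_lit 112) (nat_lit 5) (nat_lit 402) (nat_lit 390) (nat_lit 108)) (XT.nd (nat_lit 78) (nat_lit 0) (nat_lit 0) (XT.lf (nat_lit 0) (nat_lit 41620565673) (nat_lit 380) (nat_lit 320125868951) (nat_lit 456) (nat_lit 98569546846) (nat_lit 96) (nat_lit 5) (nat_lit 101) (nat_lit 5) (nat_lit 102) (nat_lit 5) (nat_lit 403) (nat_lit 390) (nat_lit 107)) (XT.lf (nat_lit 0) (nat_lit 291137323610) (nat_lit 380) (nat_lit 127139587959) (nat_lit 456) (nat_lit 54843357642) (nat_lit 96) (nat_lit 5) (nat_lit 101) (nat_lit 5) (nat_lit 102) (nat_lit 5) (nat_lit 404) (nat_lit 390) (nat_lit 106))))) (XT.nd (nat_lit 45786) (nat_lit 0) (nat_lit 1520) (XT.nd (nat_lit 78) (nat_lit 456) (nat_lit 0) (XT.lf (nat_lit 0) (nat_lit 67548392451) (nat_lit 304) (nat_lit 412318822745) (nat_lit 380) (nat_lit 6585891021) (nat_lit 92) (nat_lit 5) (nat_lit 96) (nat_lit 5) (nat_lit 97)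 (nat_lit 5) (nat_lit 405) (nat_lit 390) (nat_lit 105)) (XT.nd (nat_lit 78) (nat_lit 380) (nat_lit 0) (XT.lf (nat_lit 0) (nat_lit 47890199313) (nat_lit 380) (nat_lit 167247235843) (nat_lit 76) (nat_lit 285019899438) (nat_lit 91) (nat_lit 5) (nat_lit 96) (nat_lit 5) (nat_lit 92) (nat_lit 5) (nat_lit 406) (nat_lit 390) (nat_lit 104)) (XT.lf (nat_lit 0) (nat_lit 100088589366) (nat_lit 380) (nat_lit 6342819236) (nat_lit 456) (nat_lit 408031835355) (nat_lit 86) (nat_lit 5) (nat_lit 91) (nat_lit 5) (nat_lit 92) (nat_lit 5) (nat_lit 407) (nat_lit 390) (nat_lit 103)))) (XT.nd (nat_lit 156) (nat_lit 0) (nat_lit 76) (XT.nd (nat_lit 78) (nat_lit 0) (nat_lit 0) (XT.lf (nat_lit 0) (nat_lit 29703965525) (nat_lit 836) (nat_lit 71443628369) (nat_lit 836) (nat_lit 71443628369) (nat_lit 106) (nat_lit 3) (nat_lit 117) (nat_lit 3) (nat_lit 117) (nat_lit 5) (nat_lit 391) (nat_lit 391) (nat_lit 118)) (XT.lf (nat_lit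 76) (nat_lit 22765767171) (nat_lit 0) (nat_lit 38483332292) (nat_lit 836) (nat_lit 292545107209) (nat_lit 107) (nat_lit 5) (nat_lit 106) (nat_lit 3) (nat_lit 117) (nat_lit 5) (nat_lit 392) (nat_lit 391) (nat_lit 117))) (XT.nd (nat_lit 78) (nat_lit 0) (nat_lit 0) (XT.lf (nat_lit 0) (nat_lit 67726434492) (nat_lit 760) (nat_lit 163177696509) (nat_lit 836) (nat_lit 131705220543) (nat_lit 107) (nat_lit 5) (nat_lit 117) (nat_lit 5) (nat_lit 118) (nat_lit 5) (nat_lit 393) (nat_lit 391) (nat_lit 116)) (XT.lf (nat_lit 76) (nat_lit 12845836803) (nat_lit 0) (nat_lit 62513200765) (nat_lit 836) (nat_lit 296464646054) (nat_lit 108) (nat_lit 5) (nat_lit 107) (nat_lit 5) (nat_lit 118) (nat_lit 5) (nat_lit 394) (nat_lit 391) (nat_lit 115))))))) (XT.nd (nat_lit 46644) (nat_lit 0) (nat_lit 684) (XT.nd (nat_lit 468) (nat_lit 1216) (nat_lit 0) (XT.nd (nat_lit 234) (nat_lit 0) (nat_lit 76) (XT.nd (nat_lit 78)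 (nat_lit 0) (nat_lit 0) (XT.lf (nat_lit 0) (nat_lit 87966536932) (nat_lit 760) (nat_lit 179854674662) (nat_lit 836) (nat_lit 113447857431) (nat_lit 108) (nat_lit 5) (nat_lit 118) (nat_lit 5) (nat_lit 119) (nat_lit 5) (nat_lit 395) (nat_lit 391) (nat_lit 114)) (XT.nd (nat_lit 78) (nat_lit 0) (nat_lit 76) (XT.lf (nat_lit 76) (nat_lit 7437888419) (nat_lit 0) (nat_lit 94907426097) (nat_lit 836) (nat_lit 288784364044) (nat_lit 109) (nat_lit 5) (nat_lit 108) (nat_lit 5) (nat_lit 119) (nat_lit 5) (nat_lit 396) (nat_lit 391) (nat_lit 113)) (XT.lf (nat_lit 0) (nat_lit 121891743099) (nat_lit 760) (nat_lit 192394630233) (nat_lit 836) (nat_lit 86974509660) (nat_lit 109) (nat_lit 5) (nat_lit 119) (nat_lit 5) (nat_lit 120) (nat_lit 5) (nat_lit 397) (nat_lit 391) (nat_lit 112)))) (XT.nd (nat_lit 78) (nat_lit 0) (nat_lit 76) (XT.lf (nat_lit 76) (nat_lit 7140033648) (nat_lit 0) (nat_lit 136942767832) (nat_lit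 836) (nat_lit 267732480769) (nat_lit 110) (nat_lit 5) (nat_lit 109) (nat_lit 5) (nat_lit 120) (nat_lit 5) (nat_lit 398) (nat_lit 391) (nat_lit 111)) (XT.nd (nat_lit 78) (nat_lit 0) (nat_lit 0) (XT.lf (nat_lit 0) (nat_lit 171464309525) (nat_lit 760) (nat_lit 200226196679) (nat_lit 836) (nat_lit 51002850450) (nat_lit 110) (nat_lit 5) (nat_lit 120) (nat_lit 5) (nat_lit 121) (nat_lit 5) (nat_lit 399) (nat_lit 391) (nat_lit 110)) (XT.lf (nat_lit 76) (nat_lit 12603721922) (nat_lit 0) (nat_lit 190052889175) (nat_lit 836) (nat_lit 231336637797) (nat_lit 111) (nat_lit 5) (nat_lit 110) (nat_lit 5) (nat_lit 121) (nat_lit 5) (nat_lit 400) (nat_lit 391) (nat_lit 109))))) (XT.nd (nat_lit 234) (nat_lit 684) (nat_lit 0) (XT.nd (nat_lit 78) (nat_lit 760) (nat_lit 0) (XT.lf (nat_lit 0) (nat_lit 238865428100) (nat_lit 760) (nat_lit 202728069363) (nat_lit 76) (nat_lit 4091793285) (nat_lit 111) (nat_lit 5)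 (nat_lit 121) (nat_lit 5) (nat_lit 112) (nat_lit 5) (nat_lit 401) (nat_lit 391) (nat_lit 108)) (XT.nd (nat_lit 78) (nat_lit 0) (nat_lit 0) (XT.lf (nat_lit 0) (nat_lit 24536129100) (nat_lit 760) (nat_lit 255847233078) (nat_lit 836) (nat_lit 177403638725) (nat_lit 101) (nat_lit 5) (nat_lit 111) (nat_lit 5) (nat_lit 112) (nat_lit 5) (nat_lit 402) (nat_lit 391) (nat_lit 107)) (XT.lf (nat_lit 0) (nat_lit 270201778355) (nat_lit 760) (nat_lit 57208690675) (nat_lit 836) (nat_lit 142911663750) (nat_lit 101) (nat_lit 5) (nat_lit 111) (nat_lit 5) (nat_lit 112) (nat_lit 5) (nat_lit 403) (nat_lit 391) (nat_lit 106)))) (XT.nd (nat_lit 78) (nat_lit 304) (nat_lit 0) (XT.lf (nat_lit 0) (nat_lit 43702231531) (nat_lit 380) (nat_lit 336132174755) (nat_lit 456) (nat_lit 103497341230) (nat_lit 96) (nat_lit 5) (nat_lit 101) (nat_lit 5) (nat_lit 102) (nat_lit 5) (nat_lit 404) (nat_lit 391) (nat_lit 105)) (XT.nd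 (nat_lit 78) (nat_lit 304) (nat_lit 0) (XT.lf (nat_lit 0) (nat_lit 305694797005) (nat_lit 380) (nat_lit 133496579125) (nat_lit 456) (nat_lit 57584875087) (nat_lit 96) (nat_lit 5) (nat_lit 101) (nat_lit 5) (nat_lit 102) (nat_lit 5) (nat_lit 405) (nat_lit 391) (nat_lit 104)) (XT.lf (nat_lit 0) (nat_lit 70926440622) (nat_lit 304) (nat_lit 432934734478) (nat_lit 380) (nat_lit 6914555988) (nat_lit 92) (nat_lit 5) (nat_lit 96) (nat_lit 5) (nat_lit 97) (nat_lit 5) (nat_lit 406) (nat_lit 391) (nat_lit 103)))))) (XT.nd (nat_lit 468) (nat_lit 380) (nat_lit 0) (XT.nd (nat_lit 234) (nat_lit 0) (nat_lit 76) (XT.nd (nat_lit 78) (nat_lit 0) (nat_lit 0) (XT.lf (nat_lit 0) (nat_lit 31189688195) (nat_lit 836) (nat_lit 75015534253) (nat_lit 836) (nat_lit 75015534253) (nat_lit 106) (nat_lit 3) (nat_lit 117) (nat_lit 3) (nat_lit 117) (nat_lit 5) (nat_lit 392) (nat_lit 392) (nat_lit 116)) (XT.nd (nat_lit 78)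 (nat_lit 0) (nat_lit 76) (XT.lf (nat_lit 76) (nat_lit 23904597710) (nat_lit 0) (nat_lit 40407964038) (nat_lit 836) (nat_lit 307171304027) (nat_lit 107) (nat_lit 5) (nat_lit 106) (nat_lit 3) (nat_lit 117) (nat_lit 5) (nat_lit 393) (nat_lit 392) (nat_lit 115)) (XT.lf (nat_lit 0) (nat_lit 71113708644) (nat_lit 760) (nat_lit 171336009265) (nat_lit 836) (nat_lit 138290052766) (nat_lit 107) (nat_lit 5) (nat_lit 117) (nat_lit 5) (nat_lit 118) (nat_lit 5) (nat_lit 394) (nat_lit 392) (nat_lit 114)))) (XT.nd (nat_lit 78) (nat_lit 0) (nat_lit 76) (XT.lf (nat_lit 76) (nat_lit 13488691486) (nat_lit 0) (nat_lit 65639213822) (nat_lit 836) (nat_lit 311286915917) (nat_lit 108) (nat_lit 5) (nat_lit 107) (nat_lit 5) (nat_lit 118) (nat_lit 5) (nat_lit 395) (nat_lit 392) (nat_lit 113)) (XT.nd (nat_lit 78) (nat_lit 0) (nat_lit 0) (XT.lf (nat_lit 0) (nat_lit 92365730778) (nat_lit 760) (nat_lit 188846822745) (nat_lit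 836) (nat_lit 119119924856) (nat_lit 108) (nat_lit 5) (nat_lit 118) (nat_lit 5) (nat_lit 119) (nat_lit 5) (nat_lit 396) (nat_lit 392) (nat_lit 112)) (XT.lf (nat_lit 76) (nat_lit 7810359045) (nat_lit 0) (nat_lit 99653055908) (nat_lit 836) (nat_lit 303222705089) (nat_lit 109) (nat_lit 5) (nat_lit 108) (nat_lit 5) (nat_lit 119) (nat_lit 5) (nat_lit 397) (nat_lit 392) (nat_lit 111))))) (XT.nd (nat_lit 234) (nat_lit 608) (nat_lit 0) (XT.nd (nat_lit 78) (nat_lit 0) (nat_lit 0) (XT.lf (nat_lit 0) (nat_lit 127987121372) (nat_lit 760) (nat_lit 202013768708) (nat_lit 836) (nat_lit 91322996827) (nat_lit 109) (nat_lit 5) (nat_lit 119) (nat_lit 5) (nat_lit 120) (nat_lit 5) (nat_lit 398) (nat_lit 392) (nat_lit 110)) (XT.nd (nat_lit 78) (nat_lit 0) (nat_lit 76) (XT.lf (nat_lit 76) (nat_lit 7497618801) (nat_lit 0) (nat_lit 143790085308) (nat_lit 836) (nat_lit 281118303478) (nat_lit 110) (nat_lit 5) (nat_lit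 109) (nat_lit 5) (nat_lit 120) (nat_lit 5) (nat_lit 399) (nat_lit 392) (nat_lit 109)) (XT.lf (nat_lit 0) (nat_lit 180038248582) (nat_lit 760) (nat_lit 210236911236) (nat_lit 836) (nat_lit 53552827874) (nat_lit 110) (nat_lit 5) (nat_lit 120) (nat_lit 5) (nat_lit 121) (nat_lit 5) (nat_lit 400) (nat_lit 392) (nat_lit 108)))) (XT.nd (nat_lit 156) (nat_lit 684) (nat_lit 0) (XT.nd (nat_lit 78) (nat_lit 0) (nat_lit 76) (XT.lf (nat_lit 76) (nat_lit 13234493694) (nat_lit 0) (nat_lit 199555646226) (nat_lit 836) (nat_lit 242902735919) (nat_lit 111) (nat_lit 5) (nat_lit 110) (nat_lit 5) (nat_lit 121) (nat_lit 5) (nat_lit 401) (nat_lit 392) (nat_lit 107)) (XT.lf (nat_lit 0) (nat_lit 250809362848) (nat_lit 760) (nat_lit 212863879562) (nat_lit 76) (nat_lit 4296279150) (nat_lit 111) (nat_lit 5) (nat_lit 121) (nat_lit 5) (nat_lit 112) (nat_lit 5) (nat_lit 402) (nat_lit 392) (nat_lit 106))) (XT.nd (nat_lit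 78) (nat_lit 0) (nat_lit 0) (XT.lf (nat_lit 0) (nat_lit 25763519256) (nat_lit 760) (nat_lit 268639651900) (nat_lit 836) (nat_lit 186273147217) (nat_lit 101) (nat_lit 5) (nat_lit 111) (nat_lit 5) (nat_lit 112) (nat_lit 5) (nat_lit 403) (nat_lit 392) (nat_lit 105)) (XT.lf (nat_lit 0) (nat_lit 283712423179) (nat_lit 760) (nat_lit 60069179654) (nat_lit 836) (nat_lit 150056605562) (nat_lit 101) (nat_lit 5) (nat_lit 111) (nat_lit 5) (nat_lit 112) (nat_lit 5) (nat_lit 404) (nat_lit 392) (nat_lit 104))))))))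
noncomputable def xc255 : XT := (XT.nd (nat_lit 139932) (nat_lit 0) (nat_lit 760) (XT.nd (nat_lit 46800) (nat_lit 0) (nat_lit 380) (XT.nd (nat_lit 46332) (nat_lit 0) (nat_lit 912) (XT.nd (nat_lit 46098) (nat_lit 0) (nat_lit 836) (XT.nd (nat_lit 45942) (nat_lit 0) (nat_lit 760) (XT.lf (nat_lit 0) (nat_lit 45887921406) (nat_lit 380) (nat_lit 352938794700) (nat_lit 456) (nat_lit 108671588828) (nat_lit 96) (nat_lit 5) (nat_lit 101) (nat_lit 5) (nat_lit 102) (nat_lit 5) (nat_lit 405) (nat_lit 392) (nat_lit 103)) (XT.nd (nat_lit 78) (nat_lit 0) (nat_lit 0) (XT.lf (nat_lit 0) (nat_lit 32749648246) (nat_lit 836) (nat_lit 78766061049) (nat_lit 836) (nat_lit 78766061049) (nat_lit 106) (nat_lit 3) (nat_lit 117) (nat_lit 3) (nat_lit 117) (nat_lit 5) (nat_lit 393) (nat_lit 393) (nat_lit 114)) (XT.lf (nat_lit 76) (nat_lit 25100319369) (nat_lit 0) (nat_lit 42428784127) (nat_lit 836) (nat_lit 322528909100)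 (nat_lit 107) (nat_lit 5) (nat_lit 106) (nat_lit 3) (nat_lit 117) (nat_lit 5) (nat_lit 394) (nat_lit 393) (nat_lit 113)))) (XT.nd (nat_lit 78) (nat_lit 0) (nat_lit 0) (XT.lf (nat_lit 0) (nat_lit 74670257956) (nat_lit 760) (nat_lit 179902290844) (nat_lit 836) (nat_lit 145204166467) (nat_lit 107) (nat_lit 5) (nat_lit 117) (nat_lit 5) (nat_lit 118) (nat_lit 5) (nat_lit 395) (nat_lit 393) (nat_lit 112)) (XT.nd (nat_lit 78) (nat_lit 0) (nat_lit 76) (XT.lf (nat_lit 76) (nat_lit 14163636575) (nat_lit 0) (nat_lit 68921494712) (nat_lit 836) (nat_lit 326850388752) (nat_lit 108) (nat_lit 5) (nat_lit 107) (nat_lit 5) (nat_lit 118) (nat_lit 5) (nat_lit 396) (nat_lit 393) (nat_lit 111)) (XT.lf (nat_lit 0) (nat_lit 96984803712) (nat_lit 760) (nat_lit 198288632680) (nat_lit 836) (nat_lit 125075625908) (nat_lit 108) (nat_lit 5) (nat_lit 118) (nat_lit 5) (nat_lit 119) (nat_lit 5) (nat_lit 397) (nat_lit 393)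 (nat_lit 110))))) (XT.nd (nat_lit 234) (nat_lit 0) (nat_lit 152) (XT.nd (nat_lit 78) (nat_lit 0) (nat_lit 76) (XT.lf (nat_lit 76) (nat_lit 8201399631) (nat_lit 0) (nat_lit 104635943176) (nat_lit 836) (nat_lit 318383044735) (nat_lit 109) (nat_lit 5) (nat_lit 108) (nat_lit 5) (nat_lit 119) (nat_lit 5) (nat_lit 398) (nat_lit 393) (nat_lit 109)) (XT.nd (nat_lit 78) (nat_lit 0) (nat_lit 0) (XT.lf (nat_lit 0) (nat_lit 134387195008) (nat_lit 760) (nat_lit 212113919243) (nat_lit 836) (nat_lit 95888930508) (nat_lit 109) (nat_lit 5) (nat_lit 119) (nat_lit 5) (nat_lit 120) (nat_lit 5) (nat_lit 399) (nat_lit 393) (nat_lit 108)) (XT.lf (nat_lit 76) (nat_lit 7873028967) (nat_lit 0) (nat_lit 150979752009) (nat_lit 836) (nat_lit 295173491823) (nat_lit 110) (nat_lit 5) (nat_lit 109) (nat_lit 5) (nat_lit 120) (nat_lit 5) (nat_lit 400) (nat_lit 393) (nat_lit 107)))) (XT.nd (nat_lit 78) (nat_lit 0) (nat_lit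 0) (XT.lf (nat_lit 0) (nat_lit 189040817320) (nat_lit 760) (nat_lit 220748216864) (nat_lit 836) (nat_lit 56230319519) (nat_lit 110) (nat_lit 5) (nat_lit 120) (nat_lit 5) (nat_lit 121) (nat_lit 5) (nat_lit 401) (nat_lit 393) (nat_lit 106)) (XT.nd (nat_lit 78) (nat_lit 0) (nat_lit 76) (XT.lf (nat_lit 76) (nat_lit 13896749604) (nat_lit 0) (nat_lit 209533530663) (nat_lit 836) (nat_lit 255047207166) (nat_lit 111) (nat_lit 5) (nat_lit 110) (nat_lit 5) (nat_lit 121) (nat_lit 5) (nat_lit 402) (nat_lit 393) (nat_lit 105)) (XT.lf (nat_lit 0) (nat_lit 263350432663) (nat_lit 760) (nat_lit 223506535427) (nat_lit 76) (nat_lit 4510998959) (nat_lit 111) (nat_lit 5) (nat_lit 121) (nat_lit 5) (nat_lit 112) (nat_lit 5) (nat_lit 403) (nat_lit 393) (nat_lit 104)))))) (XT.nd (nat_lit 46488) (nat_lit 0) (nat_lit 380) (XT.nd (nat_lit 46254) (nat_lit 0) (nat_lit 456) (XT.nd (nat_lit 46098) (nat_lit 0) (nat_lit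 380) (XT.lf (nat_lit 0) (nat_lit 27052224652) (nat_lit 760) (nat_lit 282071686348) (nat_lit 836) (nat_lit 195586193745) (nat_lit 101) (nat_lit 5) (nat_lit 111) (nat_lit 5) (nat_lit 112) (nat_lit 5) (nat_lit 404) (nat_lit 393) (nat_lit 103)) (XT.nd (nat_lit 78) (nat_lit 0) (nat_lit 0) (XT.lf (nat_lit 0) (nat_lit 34387562078) (nat_lit 836) (nat_lit 82704137418) (nat_lit 836) (nat_lit 82704137418) (nat_lit 106) (nat_lit 3) (nat_lit 117) (nat_lit 3) (nat_lit 117) (nat_lit 5) (nat_lit 394) (nat_lit 394) (nat_lit 112)) (XT.lf (nat_lit 76) (nat_lit 26355781390) (nat_lit 0) (nat_lit 44550605997) (nat_lit 836) (nat_lit 338654483689) (nat_lit 107) (nat_lit 5) (nat_lit 106) (nat_lit 3) (nat_lit 117) (nat_lit 5) (nat_lit 395) (nat_lit 394) (nat_lit 111)))) (XT.nd (nat_lit 78) (nat_lit 0) (nat_lit 0) (XT.lf (nat_lit 0) (nat_lit 78404554418) (nat_lit 760) (nat_lit 188896934743) (nat_lit 836) (nat_lit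 152464022013) (nat_lit 107) (nat_lit 5) (nat_lit 117) (nat_lit 5) (nat_lit 118) (nat_lit 5) (nat_lit 396) (nat_lit 394) (nat_lit 110)) (XT.nd (nat_lit 78) (nat_lit 0) (nat_lit 76) (XT.lf (nat_lit 76) (nat_lit 14872281456) (nat_lit 0) (nat_lit 72367859876) (nat_lit 836) (nat_lit 343192116388) (nat_lit 108) (nat_lit 5) (nat_lit 107) (nat_lit 5) (nat_lit 118) (nat_lit 5) (nat_lit 397) (nat_lit 394) (nat_lit 109)) (XT.lf (nat_lit 0) (nat_lit 101834757180) (nat_lit 760) (nat_lit 208202582498) (nat_lit 836) (nat_lit 131329139457) (nat_lit 108) (nat_lit 5) (nat_lit 118) (nat_lit 5) (nat_lit 119) (nat_lit 5) (nat_lit 398) (nat_lit 394) (nat_lit 108))))) (XT.nd (nat_lit 234) (nat_lit 152) (nat_lit 0) (XT.nd (nat_lit 78) (nat_lit 0) (nat_lit 76) (XT.lf (nat_lit 76) (nat_lit 8611943657) (nat_lit 0) (nat_lit 109867953009) (nat_lit 836) (nat_lit 334301475332) (nat_lit 109) (nat_lit 5) (nat_lit 108)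 (nat_lit 5) (nat_lit 119) (nat_lit 5) (nat_lit 399) (nat_lit 394) (nat_lit 107)) (XT.nd (nat_lit 78) (nat_lit 0) (nat_lit 0) (XT.lf (nat_lit 0) (nat_lit 141107205614) (nat_lit 760) (nat_lit 222719127312) (nat_lit 836) (nat_lit 100683180970) (nat_lit 109) (nat_lit 5) (nat_lit 119) (nat_lit 5) (nat_lit 120) (nat_lit 5) (nat_lit 400) (nat_lit 394) (nat_lit 106)) (XT.lf (nat_lit 76) (nat_lit 8267160438) (nat_lit 0) (nat_lit 158528886942) (nat_lit 836) (nat_lit 309931507159) (nat_lit 110) (nat_lit 5) (nat_lit 109) (nat_lit 5) (nat_lit 120) (nat_lit 5) (nat_lit 401) (nat_lit 394) (nat_lit 105)))) (XT.nd (nat_lit 156) (nat_lit 304) (nat_lit 0) (XT.nd (nat_lit 78) (nat_lit 0) (nat_lit 0) (XT.lf (nat_lit 0) (nat_lit 198493453477) (nat_lit 760) (nat_lit 231785137972) (nat_lit 836) (nat_lit 59041699669) (nat_lit 110) (nat_lit 5) (nat_lit 120) (nat_lit 5) (nat_lit 121) (nat_lit 5) (nat_lit 402) (nat_lit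 394) (nat_lit 104)) (XT.lf (nat_lit 76) (nat_lit 14592068921) (nat_lit 0) (nat_lit 220010299826) (nat_lit 836) (nat_lit 267798963852) (nat_lit 111) (nat_lit 5) (nat_lit 110) (nat_lit 5) (nat_lit 121) (nat_lit 5) (nat_lit 403) (nat_lit 394) (nat_lit 103))) (XT.nd (nat_lit 46176) (nat_lit 380) (nat_lit 0) (XT.lf (nat_lit 0) (nat_lit 276518500030) (nat_lit 760) (nat_lit 234681374114) (nat_lit 76) (nat_lit 4736463511) (nat_lit 111) (nat_lit 5) (nat_lit 121) (nat_lit 5) (nat_lit 112) (nat_lit 5) (nat_lit 404) (nat_lit 394) (nat_lit 102)) (XT.lf (nat_lit 0) (nat_lit 36107331493) (nat_lit 836) (nat_lit 86839138682) (nat_lit 836) (nat_lit 86839138682) (nat_lit 106) (nat_lit 3) (nat_lit 117) (nat_lit 3) (nat_lit 117) (nat_lit 5) (nat_lit 395) (nat_lit 395) (nat_lit 110))))))) (XT.nd (nat_lit 47190) (nat_lit 0) (nat_lit 0) (XT.nd (nat_lit 468) (nat_lit 0) (nat_lit 0) (XT.nd (nat_lit 234) (nat_lit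 0) (nat_lit 152) (XT.nd (nat_lit 78) (nat_lit 0) (nat_lit 76) (XT.lf (nat_lit 76) (nat_lit 27673975043) (nat_lit 0) (nat_lit 46778483385) (nat_lit 836) (nat_lit 355586417973) (nat_lit 107) (nat_lit 5) (nat_lit 106) (nat_lit 3) (nat_lit 117) (nat_lit 5) (nat_lit 396) (nat_lit 395) (nat_lit 109)) (XT.nd (nat_lit 78) (nat_lit 0) (nat_lit 0) (XT.lf (nat_lit 0) (nat_lit 82325492856) (nat_lit 760) (nat_lit 198341354593) (nat_lit 836) (nat_lit 160086903134) (nat_lit 107) (nat_lit 5) (nat_lit 117) (nat_lit 5) (nat_lit 118) (nat_lit 5) (nat_lit 397) (nat_lit 395) (nat_lit 108)) (XT.lf (nat_lit 76) (nat_lit 15616315531) (nat_lit 0) (nat_lit 75986516298) (nat_lit 836) (nat_lit 360351004020) (nat_lit 108) (nat_lit 5) (nat_lit 107) (nat_lit 5) (nat_lit 118) (nat_lit 5) (nat_lit 398) (nat_lit 395) (nat_lit 107)))) (XT.nd (nat_lit 78) (nat_lit 0) (nat_lit 0) (XT.lf (nat_lit 0) (nat_lit 106927142008) (nat_lit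 760) (nat_lit 218612274602) (nat_lit 836) (nat_lit 137895353576) (nat_lit 108) (nat_lit 5) (nat_lit 118) (nat_lit 5) (nat_lit 119) (nat_lit 5) (nat_lit 399) (nat_lit 395) (nat_lit 106)) (XT.nd (nat_lit 78) (nat_lit 0) (nat_lit 76) (XT.lf (nat_lit 76) (nat_lit 9042970813) (nat_lit 0) (nat_lit 115361543560) (nat_lit 836) (nat_lit 351015894550) (nat_lit 109) (nat_lit 5) (nat_lit 108) (nat_lit 5) (nat_lit 119) (nat_lit 5) (nat_lit 400) (nat_lit 395) (nat_lit 105)) (XT.lf (nat_lit 0) (nat_lit 148163156239) (nat_lit 760) (nat_lit 233854641145) (nat_lit 836) (nat_lit 105717162184) (nat_lit 109) (nat_lit 5) (nat_lit 119) (nat_lit 5) (nat_lit 120) (nat_lit 5) (nat_lit 401) (nat_lit 395) (nat_lit 104))))) (XT.nd (nat_lit 46488) (nat_lit 0) (nat_lit 0) (XT.nd (nat_lit 78) (nat_lit 228) (nat_lit 0) (XT.lf (nat_lit 76) (nat_lit 8680953855) (nat_lit 0) (nat_lit 166455464925) (nat_lit 836) (nat_lit 325427484552)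 (nat_lit 110) (nat_lit 5) (nat_lit 109) (nat_lit 5) (nat_lit 120) (nat_lit 5) (nat_lit 402) (nat_lit 395) (nat_lit 103)) (XT.nd (nat_lit 46332) (nat_lit 304) (nat_lit 0) (XT.lf (nat_lit 0) (nat_lit 208418666098) (nat_lit 760) (nat_lit 243373950666) (nat_lit 836) (nat_lit 61993661454) (nat_lit 110) (nat_lit 5) (nat_lit 120) (nat_lit 5) (nat_lit 121) (nat_lit 5) (nat_lit 403) (nat_lit 395) (nat_lit 102)) (XT.lf (nat_lit 0) (nat_lit 37913052999) (nat_lit 836) (nat_lit 91180909123) (nat_lit 836) (nat_lit 91180909123) (nat_lit 106) (nat_lit 3) (nat_lit 117) (nat_lit 3) (nat_lit 117) (nat_lit 5) (nat_lit 396) (nat_lit 396) (nat_lit 108)))) (XT.nd (nat_lit 78) (nat_lit 0) (nat_lit 76) (XT.lf (nat_lit 76) (nat_lit 29058040764) (nat_lit 0) (nat_lit 49117722373) (nat_lit 836) (nat_lit 373365022409) (nat_lit 107) (nat_lit 5) (nat_lit 106) (nat_lit 3) (nat_lit 117) (nat_lit 5) (nat_lit 397) (nat_lit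 396) (nat_lit 107)) (XT.nd (nat_lit 78) (nat_lit 0) (nat_lit 0) (XT.lf (nat_lit 0) (nat_lit 86442412139) (nat_lit 760) (nat_lit 208258035123) (nat_lit 836) (nat_lit 168090958059) (nat_lit 107) (nat_lit 5) (nat_lit 117) (nat_lit 5) (nat_lit 118) (nat_lit 5) (nat_lit 398) (nat_lit 396) (nat_lit 106)) (XT.lf (nat_lit 76) (nat_lit 16397512262) (nat_lit 0) (nat_lit 79786081050) (nat_lit 836) (nat_lit 378367902804) (nat_lit 108) (nat_lit 5) (nat_lit 107) (nat_lit 5) (nat_lit 118) (nat_lit 5) (nat_lit 399) (nat_lit 396) (nat_lit 105)))))) (XT.nd (nat_lit 46878) (nat_lit 0) (nat_lit 0) (XT.nd (nat_lit 46644) (nat_lit 152) (nat_lit 0) (XT.nd (nat_lit 78) (nat_lit 0) (nat_lit 0) (XT.lf (nat_lit 0) (nat_lit 112274085928) (nat_lit 760) (nat_lit 229542491941) (nat_lit 836) (nat_lit 144789900979) (nat_lit 108) (nat_lit 5) (nat_lit 118) (nat_lit 5) (nat_lit 119) (nat_lit 5) (nat_lit 400) (nat_lit 396)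 (nat_lit 104)) (XT.nd (nat_lit 78) (nat_lit 0) (nat_lit 76) (XT.lf (nat_lit 76) (nat_lit 9495509351) (nat_lit 0) (nat_lit 121129795705) (nat_lit 836) (nat_lit 368566095582) (nat_lit 109) (nat_lit 5) (nat_lit 108) (nat_lit 5) (nat_lit 119) (nat_lit 5) (nat_lit 401) (nat_lit 396) (nat_lit 103)) (XT.lf (nat_lit 0) (nat_lit 155571849511) (nat_lit 760) (nat_lit 245546971813) (nat_lit 836) (nat_lit 111002858991) (nat_lit 109) (nat_lit 5) (nat_lit 119) (nat_lit 5) (nat_lit 120) (nat_lit 5) (nat_lit 402) (nat_lit 396) (nat_lit 102)))) (XT.nd (nat_lit 78) (nat_lit 0) (nat_lit 0) (XT.lf (nat_lit 0) (nat_lit 39809027581) (nat_lit 836) (nat_lit 95739785425) (nat_lit 836) (nat_lit 95739785425) (nat_lit 106) (nat_lit 3) (nat_lit 117) (nat_lit 3) (nat_lit 117) (nat_lit 5) (nat_lit 397) (nat_lit 397) (nat_lit 106)) (XT.nd (nat_lit 78) (nat_lit 0) (nat_lit 76) (XT.lf (nat_lit 76) (nat_lit 30511275653) (nat_lit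 0) (nat_lit 51573894042) (nat_lit 836) (nat_lit 392032623677) (nat_lit 107) (nat_lit 5) (nat_lit 106) (nat_lit 3) (nat_lit 117) (nat_lit 5) (nat_lit 398) (nat_lit 397) (nat_lit 105)) (XT.lf (nat_lit 0) (nat_lit 90765117454) (nat_lit 760) (nat_lit 218670585678) (nat_lit 836) (nat_lit 176495242714) (nat_lit 107) (nat_lit 5) (nat_lit 117) (nat_lit 5) (nat_lit 118) (nat_lit 5) (nat_lit 399) (nat_lit 397) (nat_lit 104))))) (XT.nd (nat_lit 46800) (nat_lit 0) (nat_lit 0) (XT.nd (nat_lit 78) (nat_lit 76) (nat_lit 0) (XT.lf (nat_lit 76) (nat_lit 17217733412) (nat_lit 0) (nat_lit 83775601825) (nat_lit 836) (nat_lit 397285707090) (nat_lit 108) (nat_lit 5) (nat_lit 107) (nat_lit 5) (nat_lit 118) (nat_lit 5) (nat_lit 400) (nat_lit 397) (nat_lit 103)) (XT.nd (nat_lit 46644) (nat_lit 152) (nat_lit 0) (XT.lf (nat_lit 0) (nat_lit 117888322487) (nat_lit 760) (nat_lit 241019257000) (nat_lit 836) (nat_lit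 152029196232) (nat_lit 108) (nat_lit 5) (nat_lit 118) (nat_lit 5) (nat_lit 119) (nat_lit 5) (nat_lit 401) (nat_lit 397) (nat_lit 102)) (XT.lf (nat_lit 0) (nat_lit 41799770962) (nat_lit 836) (nat_lit 100526621269) (nat_lit 836) (nat_lit 100526621269) (nat_lit 106) (nat_lit 3) (nat_lit 117) (nat_lit 3) (nat_lit 117) (nat_lit 5) (nat_lit 398) (nat_lit 398) (nat_lit 104)))) (XT.nd (nat_lit 46878) (nat_lit 0) (nat_lit 0) (XT.nd (nat_lit 78) (nat_lit 0) (nat_lit 76) (XT.lf (nat_lit 76) (nat_lit 32037141342) (nat_lit 0) (nat_lit 54152847746) (nat_lit 836) (nat_lit 411633665425) (nat_lit 107) (nat_lit 5) (nat_lit 106) (nat_lit 3) (nat_lit 117) (nat_lit 5) (nat_lit 399) (nat_lit 398) (nat_lit 103)) (XT.lf (nat_lit 0) (nat_lit 95303903674) (nat_lit 760) (nat_lit 229603796412) (nat_lit 836) (nat_lit 185319766076) (nat_lit 107) (nat_lit 5) (nat_lit 117) (nat_lit 5) (nat_lit 118) (nat_lit 5) (nat_lit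 400) (nat_lit 398) (nat_lit 102))) (XT.nd (nat_lit 78) (nat_lit 0) (nat_lit 0) (XT.lf (nat_lit 0) (nat_lit 43890024365) (nat_lit 836) (nat_lit 105552813169) (nat_lit 836) (nat_lit 105552813169) (nat_lit 106) (nat_lit 3) (nat_lit 117) (nat_lit 3) (nat_lit 117) (nat_lit 5) (nat_lit 399) (nat_lit 399) (nat_lit 102)) (XT.lf (nat_lit 76) (nat_lit 33639272247) (nat_lit 0) (nat_lit 56860725056) (nat_lit 836) (nat_lit 432214814060) (nat_lit 107) (nat_lit 5) (nat_lit 106) (nat_lit 3) (nat_lit 117) (nat_lit 5) (nat_lit 400) (nat_lit 399) (nat_lit 101))))))))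

set_option maxRecDepth 10000000 in
noncomputable def Tp : PT := (PT.nd (nat_lit 7230600) (PT.nd (nat_lit 6669156) (PT.nd (nat_lit 6106698) (PT.nd (nat_lit 5544630) pc0 pc1) (PT.nd (nat_lit 328068) pc2 pc3)) (PT.nd (nat_lit 327600) (PT.nd (nat_lit 187044) pc4 pc5) (PT.nd (nat_lit 139776) pc6 pc7))) (PT.nd (nat_lit 326508) (PT.nd (nat_lit 186264) (PT.nd (nat_lit 93444) pc8 pc9) (PT.nd (nat_lit 48360) pc10 pc11)) (PT.nd (nat_lit 234156) (PT.nd (nat_lit 93834) pc12 pc13) (PT.nd (nat_lit 233220) pc14 pc15))))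

set_option maxRecDepth 10000000 in
noncomputable def Tx : XT := (XT.nd (nat_lit 10769538) (nat_lit 0) (nat_lit 152) XT.nil (XT.nd (nat_lit 7966062) (nat_lit 0) (nat_lit 0) (XT.nd (nat_lit 3788148) (nat_lit 0) (nat_lit 76) (XT.nd (nat_lit 2620878) (nat_lit 0) (nat_lit 0) (XT.nd (nat_lit 1827384) (nat_lit 0) (nat_lit 0) (XT.nd (nat_lit 1308840) (nat_lit 0) (nat_lit 0) (XT.nd (nat_lit 890448) (nat_lit 0) (nat_lit 0) (XT.nd (nat_lit 654264) (nat_lit 0) (nat_lit 0) (XT.nd (nat_lit 421902) (nat_lit 0) (nat_lit 0) (XT.nd (nat_lit 327054) (nat_lit 0) (nat_lit 0) xc0 xc1) (XT.nd (nat_lit 139074) (nat_lit 0) (nat_lit 0) xc2 xc3)) (XT.nd (nat_lit 140634) (nat_lit 0) (nat_lit 0) (XT.nd (nat_lit 48282) (nat_lit 0) (nat_lit 0) xc4 xc5) (XT.nd (nat_lit 47814) (nat_lit 0) (nat_lit 0) xc6 xc7))) (XT.nd (nat_lit 232284) (nat_lit 0) (nat_lit 0) (XT.nd (nat_lit 138294) (nat_lit 0) (nat_lit 0) (XT.nd (nat_lit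 91026) (nat_lit 0) (nat_lit 0) xc8 xc9) (XT.nd (nat_lit 47034) (nat_lit 0) (nat_lit 0) xc10 xc11)) (XT.nd (nat_lit 93366) (nat_lit 0) (nat_lit 0) (XT.nd (nat_lit 46722) (nat_lit 0) (nat_lit 0) xc12 xc13) (XT.nd (nat_lit 46410) (nat_lit 0) (nat_lit 0) xc14 xc15)))) (XT.nd (nat_lit 282204) (nat_lit 0) (nat_lit 0) (XT.nd (nat_lit 141804) (nat_lit 0) (nat_lit 0) (XT.nd (nat_lit 49998) (nat_lit 0) (nat_lit 0) (XT.nd (nat_lit 46098) (nat_lit 0) (nat_lit 0) xc16 xc17) (XT.nd (nat_lit 45942) (nat_lit 0) (nat_lit 0) xc18 xc19)) (XT.nd (nat_lit 91182) (nat_lit 0) (nat_lit 0) (XT.nd (nat_lit 45630) (nat_lit 0) (nat_lit 0) xc20 xc21) (XT.nd (nat_lit 3822) (nat_lit 0) (nat_lit 0) xc22 xc23))) (XT.nd (nat_lit 139152) (nat_lit 0) (nat_lit 0) (XT.nd (nat_lit 49062) (nat_lit 0) (nat_lit 0) (XT.nd (nat_lit 45162) (nat_lit 0) (nat_lit 0) xc24 xc25) (XT.nd (nat_lit 45084) (nat_lit 0) (nat_lit 0) xc26 xc27))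 (XT.nd (nat_lit 48672) (nat_lit 0) (nat_lit 0) (XT.nd (nat_lit 3822) (nat_lit 0) (nat_lit 0) xc28 xc29) (XT.nd (nat_lit 44616) (nat_lit 0) (nat_lit 0) xc30 xc31))))) (XT.nd (nat_lit 421902) (nat_lit 0) (nat_lit 0) (XT.nd (nat_lit 232518) (nat_lit 0) (nat_lit 0) (XT.nd (nat_lit 136890) (nat_lit 0) (nat_lit 0) (XT.nd (nat_lit 88842) (nat_lit 0) (nat_lit 0) (XT.nd (nat_lit 44460) (nat_lit 0) (nat_lit 0) xc32 xc33) (XT.nd (nat_lit 3822) (nat_lit 0) (nat_lit 0) xc34 xc35)) (XT.nd (nat_lit 47892) (nat_lit 0) (nat_lit 0) (XT.nd (nat_lit 3822) (nat_lit 0) (nat_lit 0) xc36 xc37) (XT.nd (nat_lit 43836) (nat_lit 0) (nat_lit 0) xc38 xc39))) (XT.nd (nat_lit 95004) (nat_lit 0) (nat_lit 0) (XT.nd (nat_lit 47580) (nat_lit 0) (nat_lit 0) (XT.nd (nat_lit 43680) (nat_lit 0) (nat_lit 0) xc40 xc41) (XT.nd (nat_lit 43524) (nat_lit 0) (nat_lit 0) xc42 xc43)) (XT.nd (nat_lit 47268) (nat_lit 0) (nat_lit 0) (XT.nd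 (nat_lit 43368) (nat_lit 0) (nat_lit 0) xc44 xc45) (XT.nd (nat_lit 43212) (nat_lit 0) (nat_lit 0) xc46 xc47)))) (XT.nd (nat_lit 186888) (nat_lit 0) (nat_lit 0) (XT.nd (nat_lit 93756) (nat_lit 0) (nat_lit 0) (XT.nd (nat_lit 46956) (nat_lit 0) (nat_lit 0) (XT.nd (nat_lit 43056) (nat_lit 0) (nat_lit 0) xc48 xc49) (XT.nd (nat_lit 42900) (nat_lit 0) (nat_lit 0) xc50 xc51)) (XT.nd (nat_lit 46644) (nat_lit 0) (nat_lit 0) (XT.nd (nat_lit 42744) (nat_lit 0) (nat_lit 0) xc52 xc53) (XT.nd (nat_lit 42588) (nat_lit 0) (nat_lit 0) xc54 xc55))) (XT.nd (nat_lit 92664) (nat_lit 0) (nat_lit 0) (XT.nd (nat_lit 46410) (nat_lit 0) (nat_lit 0) (XT.nd (nat_lit 42510) (nat_lit 0) (nat_lit 0) xc56 xc57) (XT.nd (nat_lit 42354) (nat_lit 0) (nat_lit 76) xc58 xc59)) (XT.nd (nat_lit 46098) (nat_lit 0) (nat_lit 0) (XT.nd (nat_lit 42198) (nat_lit 0) (nat_lit 228) xc60 xc61) (XT.nd (nat_lit 42042) (nat_lit 0) (nat_lit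 380) xc62 xc63)))))) (XT.nd (nat_lit 606684) (nat_lit 0) (nat_lit 0) (XT.nd (nat_lit 324948) (nat_lit 0) (nat_lit 0) (XT.nd (nat_lit 144612) (nat_lit 0) (nat_lit 0) (XT.nd (nat_lit 91416) (nat_lit 0) (nat_lit 0) (XT.nd (nat_lit 45786) (nat_lit 0) (nat_lit 0) (XT.nd (nat_lit 3822) (nat_lit 0) (nat_lit 0) xc64 xc65) (XT.nd (nat_lit 3822) (nat_lit 0) (nat_lit 0) xc66 xc67)) (XT.nd (nat_lit 45474) (nat_lit 0) (nat_lit 0) (XT.nd (nat_lit 3822) (nat_lit 76) (nat_lit 0) xc68 xc69) (XT.nd (nat_lit 3822) (nat_lit 456) (nat_lit 0) xc70 xc71))) (XT.nd (nat_lit 90480) (nat_lit 0) (nat_lit 0) (XT.nd (nat_lit 45318) (nat_lit 0) (nat_lit 0) (XT.nd (nat_lit 41418) (nat_lit 0) (nat_lit 76) xc72 xc73) (XT.nd (nat_lit 41262) (nat_lit 0) (nat_lit 304) xc74 xc75)) (XT.nd (nat_lit 45006) (nat_lit 0) (nat_lit 0) (XT.nd (nat_lit 41106) (nat_lit 0) (nat_lit 988) xc76 xc77) (XT.nd (nat_lit 3822) (nat_lit 76) (nat_lit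 0) xc78 xc79)))) (XT.nd (nat_lit 141570) (nat_lit 0) (nat_lit 0) (XT.nd (nat_lit 52494) (nat_lit 0) (nat_lit 0) (XT.nd (nat_lit 44772) (nat_lit 0) (nat_lit 76) (XT.nd (nat_lit 3822) (nat_lit 304) (nat_lit 0) xc80 xc81) (XT.nd (nat_lit 3822) (nat_lit 1140) (nat_lit 0) xc82 xc83)) (XT.nd (nat_lit 44616) (nat_lit 0) (nat_lit 0) (XT.nd (nat_lit 40716) (nat_lit 0) (nat_lit 532) xc84 xc85) (XT.nd (nat_lit 3822) (nat_lit 0) (nat_lit 0) xc86 xc87))) (XT.nd (nat_lit 52026) (nat_lit 0) (nat_lit 0) (XT.nd (nat_lit 44304) (nat_lit 0) (nat_lit 76) (XT.nd (nat_lit 3822) (nat_lit 228) (nat_lit 0) xc88 xc89) (XT.nd (nat_lit 3822) (nat_lit 912) (nat_lit 0) xc90 xc91)) (XT.nd (nat_lit 44148) (nat_lit 0) (nat_lit 0) (XT.nd (nat_lit 40248) (nat_lit 0) (nat_lit 532) xc92 xc93) (XT.nd (nat_lit 3822) (nat_lit 0) (nat_lit 0) xc94 xc95))))) (XT.nd (nat_lit 278850) (nat_lit 0) (nat_lit 0) (XT.nd (nat_lit 139152)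 (nat_lit 0) (nat_lit 0) (XT.nd (nat_lit 51558) (nat_lit 0) (nat_lit 0) (XT.nd (nat_lit 43836) (nat_lit 0) (nat_lit 228) (XT.nd (nat_lit 3822) (nat_lit 304) (nat_lit 0) xc96 xc97) (XT.nd (nat_lit 3822) (nat_lit 1444) (nat_lit 0) xc98 xc99)) (XT.nd (nat_lit 43758) (nat_lit 0) (nat_lit 0) (XT.nd (nat_lit 39858) (nat_lit 0) (nat_lit 1292) xc100 xc101) (XT.nd (nat_lit 3822) (nat_lit 76) (nat_lit 0) xc102 xc103))) (XT.nd (nat_lit 51636) (nat_lit 0) (nat_lit 0) (XT.nd (nat_lit 7722) (nat_lit 76) (nat_lit 0) (XT.nd (nat_lit 3822) (nat_lit 836) (nat_lit 0) xc104 xc105) (XT.nd (nat_lit 40014) (nat_lit 0) (nat_lit 532) xc106 xc107)) (XT.nd (nat_lit 43992) (nat_lit 0) (nat_lit 0) (XT.nd (nat_lit 40092) (nat_lit 0) (nat_lit 2356) xc108 xc109) (XT.nd (nat_lit 3822) (nat_lit 304) (nat_lit 0) xc110 xc111)))) (XT.nd (nat_lit 140400) (nat_lit 0) (nat_lit 0) (XT.nd (nat_lit 51870) (nat_lit 0) (nat_lit 0)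 (XT.nd (nat_lit 7722) (nat_lit 152) (nat_lit 0) (XT.nd (nat_lit 3822) (nat_lit 1368) (nat_lit 0) xc112 xc113) (XT.nd (nat_lit 40248) (nat_lit 0) (nat_lit 988) xc114 xc115)) (XT.nd (nat_lit 44226) (nat_lit 0) (nat_lit 0) (XT.nd (nat_lit 3822) (nat_lit 76) (nat_lit 0) xc116 xc117) (XT.nd (nat_lit 3822) (nat_lit 532) (nat_lit 0) xc118 xc119))) (XT.nd (nat_lit 52104) (nat_lit 0) (nat_lit 76) (XT.nd (nat_lit 7722) (nat_lit 228) (nat_lit 0) (XT.nd (nat_lit 3822) (nat_lit 1672) (nat_lit 0) xc120 xc121) (XT.nd (nat_lit 40482) (nat_lit 0) (nat_lit 1064) xc122 xc123)) (XT.nd (nat_lit 44538) (nat_lit 0) (nat_lit 0) (XT.nd (nat_lit 3822) (nat_lit 0) (nat_lit 0) xc124 xc125) (XT.nd (nat_lit 3900) (nat_lit 380) (nat_lit 0) xc126 xc127))))))) (XT.nd (nat_lit 1316016) (nat_lit 0) (nat_lit 456) (XT.nd (nat_lit 610896) (nat_lit 0) (nat_lit 152) (XT.nd (nat_lit 284778) (nat_lit 0) (nat_lit 0) (XT.nd (nat_lit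 142038) (nat_lit 0) (nat_lit 0) (XT.nd (nat_lit 52416) (nat_lit 0) (nat_lit 0) (XT.nd (nat_lit 7722) (nat_lit 76) (nat_lit 0) (XT.nd (nat_lit 3822) (nat_lit 1368) (nat_lit 0) xc128 xc129) (XT.nd (nat_lit 40794) (nat_lit 0) (nat_lit 608) xc130 xc131)) (XT.nd (nat_lit 44772) (nat_lit 0) (nat_lit 0) (XT.nd (nat_lit 40872) (nat_lit 0) (nat_lit 1900) xc132 xc133) (XT.nd (nat_lit 3822) (nat_lit 152) (nat_lit 0) xc134 xc135))) (XT.nd (nat_lit 52650) (nat_lit 0) (nat_lit 0) (XT.nd (nat_lit 44928) (nat_lit 0) (nat_lit 228) (XT.nd (nat_lit 3822) (nat_lit 836) (nat_lit 0) xc136 xc137) (XT.nd (nat_lit 3822) (nat_lit 1900) (nat_lit 0) xc138 xc139)) (XT.nd (nat_lit 45006) (nat_lit 0) (nat_lit 0) (XT.nd (nat_lit 41106) (nat_lit 0) (nat_lit 912) xc140 xc141) (XT.nd (nat_lit 41184) (nat_lit 0) (nat_lit 1976) xc142 xc143)))) (XT.nd (nat_lit 143676) (nat_lit 0) (nat_lit 0) (XT.nd (nat_lit 90558) (nat_lit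 0) (nat_lit 0) (XT.nd (nat_lit 45240) (nat_lit 0) (nat_lit 0) (XT.nd (nat_lit 3822) (nat_lit 228) (nat_lit 0) xc144 xc145) (XT.nd (nat_lit 3822) (nat_lit 760) (nat_lit 0) xc146 xc147)) (XT.nd (nat_lit 7722) (nat_lit 152) (nat_lit 0) (XT.nd (nat_lit 3822) (nat_lit 1444) (nat_lit 0) xc148 xc149) (XT.nd (nat_lit 41496) (nat_lit 0) (nat_lit 456) xc150 xc151))) (XT.nd (nat_lit 91026) (nat_lit 0) (nat_lit 76) (XT.nd (nat_lit 45474) (nat_lit 0) (nat_lit 0) (XT.nd (nat_lit 41574) (nat_lit 0) (nat_lit 1140) xc152 xc153) (XT.nd (nat_lit 41652) (nat_lit 0) (nat_lit 2128) xc154 xc155)) (XT.nd (nat_lit 45630) (nat_lit 0) (nat_lit 76) (XT.nd (nat_lit 3822) (nat_lit 152) (nat_lit 0) xc156 xc157) (XT.nd (nat_lit 3822) (nat_lit 456) (nat_lit 0) xc158 xc159))))) (XT.nd (nat_lit 330564) (nat_lit 0) (nat_lit 76) (XT.nd (nat_lit 145548) (nat_lit 0) (nat_lit 0) (XT.nd (nat_lit 53586) (nat_lit 0) (nat_lit 0)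 (XT.nd (nat_lit 45864) (nat_lit 0) (nat_lit 0) (XT.nd (nat_lit 3822) (nat_lit 988) (nat_lit 0) xc160 xc161) (XT.nd (nat_lit 3822) (nat_lit 1748) (nat_lit 0) xc162 xc163)) (XT.nd (nat_lit 45942) (nat_lit 0) (nat_lit 0) (XT.nd (nat_lit 42042) (nat_lit 0) (nat_lit 304) xc164 xc165) (XT.nd (nat_lit 42120) (nat_lit 0) (nat_lit 608) xc166 xc167))) (XT.nd (nat_lit 92274) (nat_lit 0) (nat_lit 76) (XT.nd (nat_lit 46098) (nat_lit 0) (nat_lit 0) (XT.nd (nat_lit 42198) (nat_lit 0) (nat_lit 988) xc168 xc169) (XT.nd (nat_lit 42276) (nat_lit 0) (nat_lit 1444) xc170 xc171)) (XT.nd (nat_lit 46332) (nat_lit 0) (nat_lit 0) (XT.nd (nat_lit 42432) (nat_lit 0) (nat_lit 1976) xc172 xc173) (XT.nd (nat_lit 3822) (nat_lit 0) (nat_lit 0) xc174 xc175)))) (XT.nd (nat_lit 186498) (nat_lit 0) (nat_lit 76) (XT.nd (nat_lit 93054) (nat_lit 0) (nat_lit 0) (XT.nd (nat_lit 46488) (nat_lit 0) (nat_lit 0) (XT.nd (nat_lit 3822)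 (nat_lit 152) (nat_lit 0) xc176 xc177) (XT.nd (nat_lit 3822) (nat_lit 304) (nat_lit 0) xc178 xc179)) (XT.nd (nat_lit 46644) (nat_lit 0) (nat_lit 0) (XT.nd (nat_lit 3822) (nat_lit 456) (nat_lit 0) xc180 xc181) (XT.nd (nat_lit 3822) (nat_lit 608) (nat_lit 0) xc182 xc183))) (XT.nd (nat_lit 93834) (nat_lit 0) (nat_lit 76) (XT.nd (nat_lit 46878) (nat_lit 0) (nat_lit 76) (XT.nd (nat_lit 3822) (nat_lit 608) (nat_lit 0) xc184 xc185) (XT.nd (nat_lit 3822) (nat_lit 532) (nat_lit 0) xc186 xc187)) (XT.nd (nat_lit 47034) (nat_lit 0) (nat_lit 0) (XT.nd (nat_lit 3822) (nat_lit 532) (nat_lit 0) xc188 xc189) (XT.nd (nat_lit 3900) (nat_lit 456) (nat_lit 0) xc190 xc191)))))) (XT.nd (nat_lit 891462) (nat_lit 0) (nat_lit 760) (XT.nd (nat_lit 420966) (nat_lit 0) (nat_lit 228) (XT.nd (nat_lit 189540) (nat_lit 0) (nat_lit 76) (XT.nd (nat_lit 94614) (nat_lit 0) (nat_lit 0) (XT.nd (nat_lit 47268) (nat_lit 0) (nat_lit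 0) (XT.nd (nat_lit 3822) (nat_lit 304) (nat_lit 0) xc192 xc193) (XT.nd (nat_lit 3822) (nat_lit 228) (nat_lit 0) xc194 xc195)) (XT.nd (nat_lit 47424) (nat_lit 0) (nat_lit 0) (XT.nd (nat_lit 3822) (nat_lit 0) (nat_lit 0) xc196 xc197) (XT.nd (nat_lit 43602) (nat_lit 0) (nat_lit 1672) xc198 xc199))) (XT.nd (nat_lit 95394) (nat_lit 0) (nat_lit 76) (XT.nd (nat_lit 47658) (nat_lit 0) (nat_lit 76) (XT.nd (nat_lit 43758) (nat_lit 0) (nat_lit 1064) xc200 xc201) (XT.nd (nat_lit 43836) (nat_lit 0) (nat_lit 532) xc202 xc203)) (XT.nd (nat_lit 47814) (nat_lit 0) (nat_lit 0) (XT.nd (nat_lit 43914) (nat_lit 0) (nat_lit 76) xc204 xc205) (XT.nd (nat_lit 43992) (nat_lit 0) (nat_lit 76) xc206 xc207)))) (XT.nd (nat_lit 233922) (nat_lit 0) (nat_lit 228) (XT.nd (nat_lit 96330) (nat_lit 0) (nat_lit 152) (XT.nd (nat_lit 48126) (nat_lit 0) (nat_lit 76) (XT.nd (nat_lit 3822) (nat_lit 988) (nat_lit 0) xc208 xc209)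 (XT.nd (nat_lit 3822) (nat_lit 228) (nat_lit 0) xc210 xc211)) (XT.nd (nat_lit 48360) (nat_lit 0) (nat_lit 0) (XT.nd (nat_lit 44460) (nat_lit 0) (nat_lit 836) xc212 xc213) (XT.nd (nat_lit 44538) (nat_lit 0) (nat_lit 76) xc214 xc215))) (XT.nd (nat_lit 97422) (nat_lit 0) (nat_lit 152) (XT.nd (nat_lit 48672) (nat_lit 0) (nat_lit 76) (XT.nd (nat_lit 3822) (nat_lit 1520) (nat_lit 0) xc216 xc217) (XT.nd (nat_lit 3822) (nat_lit 152) (nat_lit 0) xc218 xc219)) (XT.nd (nat_lit 48828) (nat_lit 0) (nat_lit 76) (XT.nd (nat_lit 44928) (nat_lit 0) (nat_lit 152) xc220 xc221) (XT.nd (nat_lit 45084) (nat_lit 0) (nat_lit 0) xc222 xc223))))) (XT.nd (nat_lit 609258) (nat_lit 0) (nat_lit 1064) (XT.nd (nat_lit 281190) (nat_lit 0) (nat_lit 380) (XT.nd (nat_lit 140088) (nat_lit 0) (nat_lit 228) (XT.nd (nat_lit 49140) (nat_lit 0) (nat_lit 76) (XT.nd (nat_lit 45240) (nat_lit 0) (nat_lit 1064) xc224 xc225) (XT.nd (nat_lit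 45396) (nat_lit 0) (nat_lit 76) xc226 xc227)) (XT.nd (nat_lit 49530) (nat_lit 0) (nat_lit 0) (XT.nd (nat_lit 3822) (nat_lit 152) (nat_lit 0) xc228 xc229) (XT.nd (nat_lit 45708) (nat_lit 0) (nat_lit 152) xc230 xc231))) (XT.nd (nat_lit 142116) (nat_lit 0) (nat_lit 304) (XT.nd (nat_lit 49842) (nat_lit 0) (nat_lit 76) (XT.nd (nat_lit 45942) (nat_lit 0) (nat_lit 608) xc232 xc233) (XT.nd (nat_lit 46020) (nat_lit 0) (nat_lit 228) xc234 xc235)) (XT.nd (nat_lit 92742) (nat_lit 0) (nat_lit 228) (XT.nd (nat_lit 46254) (nat_lit 0) (nat_lit 76) xc236 xc237) (XT.nd (nat_lit 46488) (nat_lit 0) (nat_lit 152) xc238 xc239)))) (XT.nd (nat_lit 422136) (nat_lit 0) (nat_lit 1596) (XT.nd (nat_lit 187902) (nat_lit 0) (nat_lit 456) (XT.nd (nat_lit 93678) (nat_lit 0) (nat_lit 304) (XT.nd (nat_lit 46722) (nat_lit 0) (nat_lit 152) xc240 xc241) (XT.nd (nat_lit 47034) (nat_lit 0) (nat_lit 152) xc242 xc243)) (XT.nd (nat_lit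 94770) (nat_lit 0) (nat_lit 380) (XT.nd (nat_lit 47268) (nat_lit 0) (nat_lit 228) xc244 xc245) (XT.nd (nat_lit 47580) (nat_lit 0) (nat_lit 380) xc246 xc247))) (XT.nd (nat_lit 282360) (nat_lit 0) (nat_lit 1216) (XT.nd (nat_lit 140634) (nat_lit 0) (nat_lit 456) (XT.nd (nat_lit 47970) (nat_lit 0) (nat_lit 228) xc248 xc249) (XT.nd (nat_lit 48360) (nat_lit 0) (nat_lit 304) xc250 xc251)) (XT.nd (nat_lit 188214) (nat_lit 0) (nat_lit 1216) (XT.nd (nat_lit 93834) (nat_lit 0) (nat_lit 608) xc252 xc253) (XT.nd (nat_lit 140634) (nat_lit 0) (nat_lit 760) xc254 xc255)))))))) XT.nil))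

set_option maxRecDepth 10000000 in
noncomputable def Te : XT := XT.nil

set_option maxRecDepth 10000000 in
noncomputable def Tz : ZL := (ZL.cons (nat_lit 76) (nat_lit 6) (nat_lit 271700575972612819038) (ZL.cons (nat_lit 152) (nat_lit 3) (nat_lit 132640238312752495173) (ZL.cons (nat_lit 228) (nat_lit 6) (nat_lit 259179661346151276272) (ZL.cons (nat_lit 304) (nat_lit 6) (nat_lit 253383604383886548926) (ZL.cons (nat_lit 380) (nat_lit 3) (nat_lit 126543070708758720211) (ZL.cons (nat_lit 456) (nat_lit 6) (nat_lit 247297744573508585214) (ZL.cons (nat_lit 532) (nat_lit 6) (nat_lit 241800688916877070514) (ZL.cons (nat_lit 608) (nat_lit 3) (nat_lit 120758695426834197874) (ZL.cons (nat_lit 684) (nat_lit 6) (nat_lit 236028780477413980080) (ZL.cons (nat_lit 760) (nat_lit 6) (nat_lit 230818845324801875310) (ZL.cons (nat_lit 836) (nat_lit 3) (nat_lit 115274518822777759196) (ZL.cons (nat_lit 912) (nat_lit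 6) (nat_lit 225348413414559165306) (ZL.cons (nat_lit 988) (nat_lit 6) (nat_lit 220414525345779691406) (ZL.cons (nat_lit 1064) (nat_lit 3) (nat_lit 110078782825629675741) (ZL.cons (nat_lit 1140) (nat_lit 6) (nat_lit 215233942873561243812) (ZL.cons (nat_lit 1216) (nat_lit 6) (nat_lit 210565822170089370610) (ZL.cons (nat_lit 1292) (nat_lit 3) (nat_lit 105160549325749285341) (ZL.cons (nat_lit 1368) (nat_lit 6) (nat_lit 205664295431443903746) (ZL.cons (nat_lit 1444) (nat_lit 6) (nat_lit 201252445586682827128) (ZL.cons (nat_lit 1520) (nat_lit 3) (nat_lit 100509687784488651695) (ZL.cons (nat_lit 1596) (nat_lit 6) (nat_lit 196620003249683696682) (ZL.cons (nat_lit 1672) (nat_lit 6) (nat_lit 192455703777564765512) (ZL.cons (nat_lit 1748) (nat_lit 3) (nat_lit 96116866166065466689) (ZL.cons (nat_lit 1824) (nat_lit 6) (nat_lit 188083189331839887782) (ZL.cons (nat_lit 1900) (nat_lit 6) (nat_lit 184158492003571771692)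 (ZL.cons (nat_lit 1976) (nat_lit 3) (nat_lit 91973545313484061020) (ZL.cons (nat_lit 2052) (nat_lit 6) (nat_lit 180450295829878327688) (ZL.cons (nat_lit 2128) (nat_lit 6) (nat_lit 180037559808890249798) (ZL.cons (nat_lit 2204) (nat_lit 6) (nat_lit 176345288470896561830) (ZL.cons (nat_lit 2280) (nat_lit 3) (nat_lit 88071976913256066796) (ZL.cons (nat_lit 2356) (nat_lit 6) (nat_lit 172861485490753739836) (ZL.cons (nat_lit 2432) (nat_lit 6) (nat_lit 172468403566003189466) (ZL.cons (nat_lit 2508) (nat_lit 6) (nat_lit 169002157717219348504) (ZL.cons (nat_lit 2584) (nat_lit 3) (nat_lit 84405205218426613186) (ZL.cons (nat_lit 2660) (nat_lit 6) (nat_lit 165736963313853982514) (ZL.cons (nat_lit 2736) (nat_lit 6) (nat_lit 165362599575996315494) (ZL.cons (nat_lit 2812) (nat_lit 6) (nat_lit 162116761909954226092) (ZL.cons (nat_lit 2888) (nat_lit 3) (nat_lit 80967072726231340602) (ZL.cons (nat_lit 2964)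 (nat_lit 6) (nat_lit 159065169253807810334) (ZL.cons (nat_lit 3040) (nat_lit 6) (nat_lit 158708632360610032220) (ZL.cons (nat_lit 3116) (nat_lit 6) (nat_lit 156200555910756719614) (ZL.cons (nat_lit 3192) (nat_lit 6) (nat_lit 155678380507362528902) (ZL.cons (nat_lit 3268) (nat_lit 3) (nat_lit 77752230035828147838) (ZL.cons (nat_lit 3344) (nat_lit 6) (nat_lit 152836175007355296240) (ZL.cons (nat_lit 3420) (nat_lit 6) (nat_lit 152496616061452650416) (ZL.cons (nat_lit 3496) (nat_lit 6) (nat_lit 150175248704635936062) (ZL.cons (nat_lit 3572) (nat_lit 6) (nat_lit 149677938796641468720) (ZL.cons (nat_lit 3648) (nat_lit 3) (nat_lit 74756150143222528061) (ZL.cons (nat_lit 3724) (nat_lit 6) (nat_lit 147041717140877962052) (ZL.cons (nat_lit 3800) (nat_lit 6) (nat_lit 146718327668589727936) (ZL.cons (nat_lit 3876) (nat_lit 6) (nat_lit 144581674375934122070) (ZL.cons (nat_lit 3952) (nat_lit 6) (nat_lit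 144108045892129867456) (ZL.cons (nat_lit 4028) (nat_lit 3) (nat_lit 71975147465019022969) (ZL.cons (nat_lit 4104) (nat_lit 6) (nat_lit 142291953257131511056) (ZL.cons (nat_lit 4180) (nat_lit 6) (nat_lit 141675240000454855970) (ZL.cons (nat_lit 4256) (nat_lit 6) (nat_lit 141367250026847013954) (ZL.cons (nat_lit 4332) (nat_lit 6) (nat_lit 139414117598584514880) (ZL.cons (nat_lit 4408) (nat_lit 6) (nat_lit 138963042852104272392) (ZL.cons (nat_lit 4484) (nat_lit 3) (nat_lit 69406401920294125947) (ZL.cons (nat_lit 4560) (nat_lit 6) (nat_lit 137319295061752486226) (ZL.cons (nat_lit 4636) (nat_lit 6) (nat_lit 136731949103012814718) (ZL.cons (nat_lit 4712) (nat_lit 6) (nat_lit 136438625318624393748) (ZL.cons (nat_lit 4788) (nat_lit 6) (nat_lit 135385784717252027086) (ZL.cons (nat_lit 4864) (nat_lit 6) (nat_lit 134668656651598613652) (ZL.cons (nat_lit 4940) (nat_lit 6) (nat_lit 134239061654950763662)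 (ZL.cons (nat_lit 5016) (nat_lit 3) (nat_lit 67047988441039181595) (ZL.cons (nat_lit 5092) (nat_lit 6) (nat_lit 132768252896786873480) (ZL.cons (nat_lit 5168) (nat_lit 6) (nat_lit 132208875793225281564) (ZL.cons (nat_lit 5244) (nat_lit 6) (nat_lit 131929519808093452072) (ZL.cons (nat_lit 5320) (nat_lit 6) (nat_lit 131026213067732804344) (ZL.cons (nat_lit 5396) (nat_lit 6) (nat_lit 130343233957586696308) (ZL.cons (nat_lit 5472) (nat_lit 6) (nat_lit 129934095865541124890) (ZL.cons (nat_lit 5548) (nat_lit 3) (nat_lit 64898912326640847935) (ZL.cons (nat_lit 5624) (nat_lit 6) (nat_lit 129438389450557706076) (ZL.cons (nat_lit 5700) (nat_lit 6) (nat_lit 128637694143664439834) (ZL.cons (nat_lit 5776) (nat_lit 6) (nat_lit 128104954045034352296) (ZL.cons (nat_lit 5852) (nat_lit 6) (nat_lit 127838900725861181350) (ZL.cons (nat_lit 5928) (nat_lit 6) (nat_lit 127088195542377744862) (ZL.cons (nat_lit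 6004) (nat_lit 6) (nat_lit 126437739247000499118) (ZL.cons (nat_lit 6080) (nat_lit 6) (nat_lit 126048083921242812052) (ZL.cons (nat_lit 6156) (nat_lit 3) (nat_lit 62959150907164535063) (ZL.cons (nat_lit 6232) (nat_lit 6) (nat_lit 125691048871342595454) (ZL.cons (nat_lit 6308) (nat_lit 6) (nat_lit 124928481912396627606) (ZL.cons (nat_lit 6384) (nat_lit 6) (nat_lit 124421110389891782334) (ZL.cons (nat_lit 6460) (nat_lit 6) (nat_lit 124167726276393524288) (ZL.cons (nat_lit 6536) (nat_lit 6) (nat_lit 124442927590866050780) (ZL.cons (nat_lit 6612) (nat_lit 6) (nat_lit 123573588571378442832) (ZL.cons (nat_lit 6688) (nat_lit 6) (nat_lit 122954106385304875456) (ZL.cons (nat_lit 6764) (nat_lit 6) (nat_lit 122583006075059459204) (ZL.cons (nat_lit 6840) (nat_lit 3) (nat_lit 61229702034237471542) (ZL.cons (nat_lit 6916) (nat_lit 6) (nat_lit 123340859983613642870) (ZL.cons (nat_lit 6992) (nat_lit 6)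 (nat_lit 122369833287419711020) (ZL.cons (nat_lit 7068) (nat_lit 6) (nat_lit 121643579040804503544) (ZL.cons (nat_lit 7144) (nat_lit 6) (nat_lit 121160368066990365188) (ZL.cons (nat_lit 7220) (nat_lit 6) (nat_lit 120919049863658690862) (ZL.cons (nat_lit 7296) (nat_lit 6) (nat_lit 121314349976511006620) (ZL.cons (nat_lit 7372) (nat_lit 6) (nat_lit 120486408053189475242) (ZL.cons (nat_lit 7448) (nat_lit 6) (nat_lit 119896425018833696786) (ZL.cons (nat_lit 7524) (nat_lit 6) (nat_lit 119542996151933300356) (ZL.cons (nat_lit 7600) (nat_lit 3) (nat_lit 59712639977593071075) (ZL.cons (nat_lit 7676) (nat_lit 6) (nat_lit 120404625583150166048) (ZL.cons (nat_lit 7752) (nat_lit 6) (nat_lit 119479838253441659524) (ZL.cons (nat_lit 7828) (nat_lit 6) (nat_lit 118788167542379557166) (ZL.cons (nat_lit 7904) (nat_lit 6) (nat_lit 118327966614937520636) (ZL.cons (nat_lit 7980) (nat_lit 6) (nat_lit 118098139754621640326)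 (ZL.cons (nat_lit 8056) (nat_lit 3) (nat_lit 58954815639000919652) (ZL.cons (nat_lit 8132) (nat_lit 6) (nat_lit 117978457500229926972) (ZL.cons (nat_lit 8208) (nat_lit 6) (nat_lit 118185100038871875900) (ZL.cons (nat_lit 8284) (nat_lit 6) (nat_lit 118530050899972071678) (ZL.cons (nat_lit 8360) (nat_lit 6) (nat_lit 119014131395104562392) (ZL.cons (nat_lit 8436) (nat_lit 6) (nat_lit 119638494096876806356) (ZL.cons (nat_lit 8512) (nat_lit 6) (nat_lit 118621473046799752072) (ZL.cons (nat_lit 8588) (nat_lit 6) (nat_lit 117832956929350674568) (ZL.cons (nat_lit 8664) (nat_lit 6) (nat_lit 117271068325202314136) (ZL.cons (nat_lit 8740) (nat_lit 6) (nat_lit 116934469404344793726) (ZL.cons (nat_lit 8816) (nat_lit 3) (nat_lit 58411179370388035811) (ZL.cons (nat_lit 8892) (nat_lit 6) (nat_lit 116493286487343670884) (ZL.cons (nat_lit 8968) (nat_lit 6) (nat_lit 116634380242911250604) (ZL.cons (nat_lit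 9044) (nat_lit 6) (nat_lit 116916903691559666186) (ZL.cons (nat_lit 9120) (nat_lit 6) (nat_lit 117341529508166651950) (ZL.cons (nat_lit 9196) (nat_lit 6) (nat_lit 117909268706581272150) (ZL.cons (nat_lit 9272) (nat_lit 6) (nat_lit 117028518868763646886) (ZL.cons (nat_lit 9348) (nat_lit 6) (nat_lit 116369784858228311308) (ZL.cons (nat_lit 9424) (nat_lit 6) (nat_lit 115931498260664466996) (ZL.cons (nat_lit 9500) (nat_lit 6) (nat_lit 115712615536554104792) (ZL.cons (nat_lit 9576) (nat_lit 3) (nat_lit 57606606454472465742) (ZL.cons (nat_lit 9652) (nat_lit 6) (nat_lit 115285480442284423536) (ZL.cons (nat_lit 9728) (nat_lit 6) (nat_lit 115502455107858469910) (ZL.cons (nat_lit 9804) (nat_lit 6) (nat_lit 115864653512013675478) (ZL.cons (nat_lit 9880) (nat_lit 6) (nat_lit 116372938031902790728) (ZL.cons (nat_lit 9956) (nat_lit 6) (nat_lit 115621970300998907390) (ZL.cons (nat_lit 10032) (nat_lit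 6) (nat_lit 115086838297048087932) (ZL.cons (nat_lit 10108) (nat_lit 6) (nat_lit 114766267896231401826) (ZL.cons (nat_lit 10184) (nat_lit 3) (nat_lit 57329747917844880863) (ZL.cons (nat_lit 10260) (nat_lit 6) (nat_lit 114135188970799426062) (ZL.cons (nat_lit 10336) (nat_lit 6) (nat_lit 114283337414145384768) (ZL.cons (nat_lit 10412) (nat_lit 6) (nat_lit 114579987035226221128) (ZL.cons (nat_lit 10488) (nat_lit 6) (nat_lit 115025844142663556182) (ZL.cons (nat_lit 10564) (nat_lit 6) (nat_lit 114398478418344188964) (ZL.cons (nat_lit 10640) (nat_lit 6) (nat_lit 113981062611140527712) (ZL.cons (nat_lit 10716) (nat_lit 6) (nat_lit 113772602873892563710) (ZL.cons (nat_lit 10792) (nat_lit 3) (nat_lit 56590383519619218380) (ZL.cons (nat_lit 10868) (nat_lit 6) (nat_lit 113256647949244903414) (ZL.cons (nat_lit 10944) (nat_lit 6) (nat_lit 113484471348097652106) (ZL.cons (nat_lit 11020) (nat_lit 6) (nat_lit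 113864779672460617952) (ZL.cons (nat_lit 11096) (nat_lit 6) (nat_lit 113355130144888408940) (ZL.cons (nat_lit 11172) (nat_lit 6) (nat_lit 113049825001253469792) (ZL.cons (nat_lit 11248) (nat_lit 3) (nat_lit 56474068662273572945) (ZL.cons (nat_lit 11324) (nat_lit 6) (nat_lit 112419942214431072318) (ZL.cons (nat_lit 11400) (nat_lit 6) (nat_lit 112575498079944328958) (ZL.cons (nat_lit 11476) (nat_lit 6) (nat_lit 112886980182079207136) (ZL.cons (nat_lit 11552) (nat_lit 6) (nat_lit 112489441318075720228) (ZL.cons (nat_lit 11628) (nat_lit 6) (nat_lit 112290908234982421180) (ZL.cons (nat_lit 11704) (nat_lit 3) (nat_lit 55885614026596214990) (ZL.cons (nat_lit 11780) (nat_lit 6) (nat_lit 111850903008699219966) (ZL.cons (nat_lit 11856) (nat_lit 6) (nat_lit 112090117577494606092) (ZL.cons (nat_lit 11932) (nat_lit 6) (nat_lit 111799350774032759284) (ZL.cons (nat_lit 12008) (nat_lit 3) (nat_lit 55851252683822892069)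 (ZL.cons (nat_lit 12084) (nat_lit 6) (nat_lit 111308960908002217728) (ZL.cons (nat_lit 12160) (nat_lit 6) (nat_lit 111472294566791137200) (ZL.cons (nat_lit 12236) (nat_lit 6) (nat_lit 111283215440035614294) (ZL.cons (nat_lit 12312) (nat_lit 3) (nat_lit 55474190719759164689) (ZL.cons (nat_lit 12388) (nat_lit 6) (nat_lit 111032040142800458864) (ZL.cons (nat_lit 12464) (nat_lit 3) (nat_lit 55469903211215955552) (ZL.cons (nat_lit 12540) (nat_lit 6) (nat_lit 110768306080703545660) (ZL.cons (nat_lit 12616) (nat_lit 1) (nat_lit 18446744073709551617) ZL.nil))))))))))))))))))))))))))))))))))))))))))))))))))))))))))))))))))))))))))))))))))))))))))))))))))))))))))))))))))))))))))))))))))))))))))))))))))))))))))))))))))))))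

noncomputable def vl : XL := ⟨(nat_lit 0), (nat_lit 76), (nat_lit 58830), (nat_lit 152), (nat_lit 447866638), (nat_lit 76), (nat_lit 58830), (nat_lit 1), (nat_lit 5), (nat_lit 2), (nat_lit 4), (nat_lit 1), (nat_lit 4), (nat_lit 0), (nat_lit 0), (nat_lit 0)⟩

noncomputable def cp0 : Nat := (nat_lit 2911381598020101413651687090588312794532243881675975709629017525699693903034499055222170181390473932253879233605971155525211493928265756735339481842107174501072632027975455763351198690306690353420040254198316623384486509208202874149371809689028364520094960580996514407105621231368075854669152604096162135224429672093274098238714976159833101121410931592984719556782031832907608942283050213033804610724303027576929828388213455884565401115398777334970717365147313417802693070149778093620749040256285141671547914276589048475443917884653124744592131544387867521853754809437124674846625132274427422972391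34442207368488820241611487898132525617985619097300722732401735951493034470586581740769314450051208557457849975525285054685214670718700144931607449392288567385365577045006014503146519666943966600744849794441350041063481152125695679544930759988686605767089314513450060226174636858297592663539205947557789967902199457351120478042514159008161555719695453557319869757065000014505720498598960093130050330389731834993068552144349436732768096422717951277078506454830049752723660651932602241504856123912426739435253721080781269887130696908014758638988329960406049231038076373597980637942237971432472421091345703105990726547928860613156694800660084883740763778241503026641754955930580939591993394613369391166003087018892051013737850034354049675100601769582515119363716935167646066119599550357321542681432193401124929640977777845552969468563825378012061720470062012722865158172662516375585641672364038991777007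27356347734031546574147172873716818851842023733673531163186653124939793432691682001330224486744954106696945563080464131800611229068350869540944853477231650627123235537059698414439703827507814582340807080293365571863303220380957851338011762585310730783626211683948985650810342547360508073222153822948777731618236651317473727544985610820694253767368357473638480852843217666360784580561620133792332312342600286290750614790760702864839132195416956155604312446273230094983284250407962856856475588548954103128364043531746560839991234692139276354466599429347245882978464880345680449312011183083746874700318776268615655107690790882661321645579281742738106235239657061415319796493928278904678103846634578389027133862326292922678843683981132506712470319611446014714529847279681646923098451732598086559184840617639214018903934588207429100792953822888615129717031117965351840384197708707934915259752141799447148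01734273243106708591374430486746817994596046232705809762240838092910870140870096541186429826954612945570969587891798047500097855730283422593290597085017170976304090866260807512702907473022812119552844121988207468645962069237234112312483253805195921635080225059601639314226232812535651101513305261858154586802106182338159191320313855168339003085641872311151152760777790323781593260953081821077179400987721154477383563562839297941832190967452804320687231068742413849546324203002481243126046661484144709823250986827874004120438195937624170426266646956115707490760363319378824699293248934507643441731023133300988790726844213685524867628065180923917542682979460613826048133678355032025661028872829238992670946876797706803761310118627035268362095089978094082397974084574961099479921234541523568565753216489652960204737201146233509904818846949074852610506609981558096636627868252894600682319738540450195037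092947673419796581653544317992403709258961015899084743491328827528140796094408705476197511727609562645827987405283107846521636329368701818737363379029029742541270377047531025106562857764001464383137132545985926270804181429633401533168876639634393153435151901435376304327109188285014407291430544609722026924238507199711751153261526907691668910604416360227654955191465220757900045251730263118620672132042842772957364860325811295009137506734831062602508053607098057386360460798701454275021875861529051812397709003295073239040)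

noncomputable def cp1 : Nat := (nat_lit 34477293788976601460405795261231161698556181181609068949740502607283646284436486233146764306726361991950005915719791571861029419836161222448108380362857337297514395396577918857707763739340794347585748694660574845189705799147375739057789903754221852892391618933402944879721021716093744018485337927028557867813949462628925218437176776763446616221965990609953286976357433156371062999956305982318920025192419617854148626504402077243180835660425643175287931662271795845127776412667404798454149803080060653456476394670629726564426568796273486268820214219781948146762695719737583321126578142614752013891940082890193009579819330418296597031088163944226262577859831908981996208687625891639484754520686420045315249614185420016173955254009623830932845250609833366755602940316031763430484628049208574100439825732828486436238827253016360482285986536178875623185938312397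17620142590916491568134390039808549574095624903527870611684954811605845926115346790196763536666634209126375729194286455709521278118994179180519566156017458749494325929266985568506096399052157998972744651837963464871779671886684811501278220469239974147981839235306584219161739140076946347262015588229849207950067375826840185236316605176648415369318539301762046670733382319123466633601891328769137409733704362831159536196547288834213532007030919161303519446073318978823639810920734361071195899661562695915209868538056035056927402365510116779699185093369107461624900379272252246260230364337231436532404593942141270217151475750533696268389116758100755117881904936502045988610603058619887953185130731712369689582174219346650166539894417047717514706823624146494477502193390563239348921590088003601728086959928217005145023663898182264283233394666493091981104780614478108571607069411562306801942404518671332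72911372958040143659602262193684884735291763323523150619540596416689635830335358414954916529392219305169802552805301308832696029949008763746258047729783079208333338300009888165803386861631088276163498827267019312891233372819637504029024330367591360835381841135892356579263267189926253961996563219737894341749711821503247551579335516514006517098539709028893267128497352257910362881410818956827775575895870270279507273183602228147628584639787787137536302862464525299657208890858214888876126846103199629642733134033331195167361984317204399018480064674652173286502219187111739842601400124704635286839541847943888267254411925966864743146535676504025333378152248828485394836485242697645087108070525499290450598611279029240291134997283834454603808480228147357619906078450536960591387768286430307574228952232114034651554881154302114082675098664959736936107368099145419161747770688687542835634731326650683278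6015952960937671034924352415827612262704107156537983459661206531617038250247797849597925095718015629322337202954566339446792908602637084744182377759558202085051693636667581556752937556202171522109875882404772783895053331519495437185279027285131842510106749044558887360584147551722854881928671612763991779302270510673121904238971386562657068211275566000908352251783506416570037236984436648692298388718987823237605915670014960480296859966581781746414357025010119910359997461135274185342451389799508723486051019603926206624637461524930015442307735066415221744153739170003733357815388182259655581175067091367802630083161229723968545117646723670843644566178553805653499586193074701354834450690743534495818216272459639074670955594487513652537884813499004549042220994385467485123911313955326318202286205870092285657215364748511235455827437890931085331415722000243265635478378770748565009744424849715719446098486519854938138768485071305698616496076991030015396745221816142217971807834083333068311375115925865539522414723754926542157441864570683630225833846389211254640372732300974830385273784931522097960162716581952086990968551706189473205891528546150402477057359478784)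

noncomputable def rc0 : Nat := (nat_lit 29373190627702095844020144728069229159739607183209644108769658717889176376748310411777740896790087820769180881198619295332216738117131727176914147163884609696863868513099949155090890843814420930199499674110687901005238246377744676636826334093311851447185228815496833021829705788229195386260977853640959034146257793877434623454192842956910865471462539477043090751545670419718303149777180173409018080902293203169470951458042250555133428767455339406071515802772607533724557337869965603599954408353598566239739673352427519125149005674367294973017414583118859151207656084429340243575704947807648839179236865472589602786996197780147664723986617651098079255553038666174856488659794870185011424149636815630979568234075439005755643555505029872942643598804076433707307194714832345075429961690803856612867411638258736233644427719281674761477865070615060067096615933580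10647675211087305898697626094737317726715780716477407943575819434545910650441524005788224864005546774627571901412265364375336754048822496722075369929741634756008980170454071143202870847318699873510122146094105181406218774474566221098139717031606590812749159977389555375092473324262268252994684120661141455769496377442114348064731958264780556840204132337391766085541186751657966460151363240761628255114067232309912992907449650577301554619031603542798216356758895946114543789774898169799908371992237059747766186215564348964650932749037671528013924005816989531180081184734054304634967759416952184327570427793316611745736086564989924322506968605322715278784254094209538757615521919428222683547459955592554984528578586161265842644399886006321651899649141208857634162857952945309308114659932568848843370037338859880477827052418854499778984926591782027612423342378946637796297850366680412422574214288616847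51427746623459895117491654054630439001869874465718237924335477413580390390708923552065500139868874307963889965007705759405171293628091640790147344864454069174963622630797834848445346693245664423588118772904424684143627320239631082938067157334161514536309599087930427307495534907217693193091905934981916190642526390475753479020854756338849109966635665099256683883912444544241478325797326348090777748513620765292786213322478651455291099334587528025289730456746246883154281531271149429593962470795483067755198147519060977381101444955308596960960027679441031561410652387115269606554024093158175192664907372667520942290565903928645776552550385264998881283779477901734306877824153947530691813821938694493330702096210463221465141424175353451306236170114288491967753257722847337550960523540271267724934545086928179013546420884424168567575867321629633200793556132121991508702186698714708074992360842218017466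6945922645138108286485165162508104169774142834496571553018109625951048907197367238097669188569825189430904861326466332109475196422835418565771882702045378344944049540055568343089242339425874417689284573452006170737086637514157594743416217847969549091662785519547861062121604268843345710862115426553049047689475250193970394830455753479080931229944697450396117995629316664566899295634008946086095345478417390629877604066353729408381899364953424762570129747459874514105443224977949501995324646115545703649778568695039549692298053418672683333465144939156466583559338208146871926716772460522809454603770860523288423652728377216731165779089556333601476072899875032546657647904354132562324999311539483581775751718114539749780346353066637526448425625634464136802158540223386147274906593918397538374575833860613204166016380562822996488670867820518913096248590699383272108534531533420942613002807175423143425510174581974351066399546622974843594789049633254471710615874020986739408618449127685769829972916023222580336933256950578817828126817317077493301533461112387268416825264118147402747176062481784816332653982205245864003864425988226231931312149158882192125722699497472)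

noncomputable def rc1 : Nat := (nat_lit 30480437937773264896094246178939198530915686008609987213393440788494444904661940223477106553240441472127714048573350463042247853635092955743384629210713771283952605623392233319508870942584033691058657265702761469551745674416038704938796580858984132877438971359125091263201470696708915526970483629107009991536497928448829013853844122889986581885641205428560250133457952428506202263132329955927543146744913507157301915495627191236366047487968979992777844014656021967376748729435266144413596873717798641829210782455698242085166721699005811526231364297326992009377541985955669586292636522825072731417841522060176643744404894573433221067973925232900078230215797218383854577358565862583683495234294190637868793925740177442683797450805917434892421261691945450503704062524925432491932734601657090226735523023316386696565318583502959903054444504092426016319426859335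77025794748619807092017507330421276239266434140846870611141790454905058713752095793167917370843032475800161052047632327579902642455789161497446599295891065801826906770476995367397288143158858819747869966003315611560333335677435172464959783775066397267956766226540448856564880638946049387074360336847603040407593459768003886202639010087105100590677097777641045259765955285617698994400289744222998147926005408727646738892593545833377649290395590250754529605494079509250989633846646422652370099198827986647551703566766170321324450960171740893980353658527197844223416393950584492141747148294278610410648167484276007661214068807737943825547605555545757984717256794937728717571778058272131492633725048888888264721151225384457360674245427597641602758991118770030268830274427843790236061510237883621983137415183717299170061623517042537929732876007196272688876021472589914368102972300430679181907185351399168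71933892884152090452974455100859408148776569735808851753796574598380957151394025689799414717631807688506285563057404994867986520426449849810093025357996622366225152374428234501494443211611082248443304726804538558226463730561558808175197204812782758192939918285697285508391947040131430124892633972983647458524124499132902608830308663866053335345211283956523378351987061949007192015853138474114079319597588139972195645820610487722463021241367827743123653289878273992808447182375597875299898797689584496280822133525087140400945037725638071100764315583297479427825417663010737430002024170364066101961773195229330530903621987794736888389629299688476668562463116968200349094034502842443929815662704427091207975313806263894852929281391884044078440010093751670548513428754755629365187641121881644251193340653379034443567014761311828168001604755558894527366166304558114965034242206973274384295203191671284250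8106904445365154820233461051683165574513172851131180283195105043027048695171668550581617764477994775081063466437266475642993221815402531125096317531093736980153427933629449660430124491820078343940566788470097215063071375744392978133922861358022281481259528595800386381077398500207670229119289717908377545834919658036453583519019664313318484844051321568403997696445095971925640656917903496710796911330306421413666772145493044802692554722005027312621480960050666390122208994732366041336337567579567666572302028018037546185929013428599945029475355103287469053525793132394440337774211077206699207926798266249691940223040526379170349191717950313012333404186632213012721439474068876511623985417312068506899143169887504942703570361047401699739271400713684024125029975260761309821948039556619932474420501777129731313471992227105381686607634896795360141199942501828594070313435417783558870882851259856405638135402280050171473816201519273754805366645939636375060965975430185335077393475335368309540430610687822012858626793046863502389165562639060317871104952809815805075439780167215185274473908156571951843423358421234755144728438518898673906253266659696213602853002936320)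

noncomputable def rc2 : Nat := (nat_lit 31716696192480348822888629137942975595866828179497834125368728496882251204949728110154406696236952576203052383287860986528279005281256728483211316548016056390444949015213038015705093045618326864867766228956426461513948918935371078137883716761146225109882666770450116590105883418300043245548872946362886449266762910211232250303704377214447511582709637018197609129739113240135602896796979740228097124095437365214334373888894138255864765796412700770958657353289618858023438965410641661719584284007323322040034569026595898042044744556209516338069584097084126822085766275969226116995232602900215186478864236492037611215625075217943830225725852198305305406935209979884032556871777284625376633814696456589852595487329640239453814818639522911406339327925646970665886928343916037967632205917237139375027259789581267527927055611039716559008271572146445994748725558648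41320244647854774229955126053274344730737897431038645875834097837387622796770638479969390638701782332961761676756066877558116481717506973962527652999082372403958267240233800597422667228192257233442765036372355519645936953031954599586291374147211075757887758568770956664502713914084903995414695265570787998752117523952368779046588754363784776092441673696591046230903765085549957370935441587420637387059356011893868811059794486526906964860095301116362824307622189752303861866924713161862266704720763353886781300277650218153544584841064824982956884297415969192533150488679902673108128573165006864832443925942253440954087651151138208955608989395840150070317418424211587483789775330717357030352721468881466169894745952959410836952935181234657654792690556137072323639494839859090576424018479809371520948345572397996251875041071163992646920706809250232179869693722820027899342322236285010335337032206659364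33101306777469729655834251410712595976556028609281874716530978444682035681416774164893281875699952003002633775487096879466607134390450513261968621613571510847905352362913314274853156729310262579151480201017128866263943189085015634969262208802165027602757916302139762887120474020646727761329182951795082058425625048837179948151053966122637137470290640480042318025510866548768092014897144337172371253386844198907086550556520130022302485952472942401814339180980765910840069005135392796738682591440288845168647950868906657499754070626944484106134430790857286647714608028431282432239086985463607547633242688224158008791841097530946654507691895536264349939364025845449383190404341476508264882667517303978565549913013582354931130643731889837426253007568403496810184576824441083798230497870574087188302776829586123680336122071386451372798132320596157274317540660796860855307007302168383718991585730763376605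0230214048366457484762518015105144432673830511760921039973303966380718102928831694722339285016385113235376198096837479707248733848747828071651656754351709151060636552374146703277578773313259993580991536204172071171792556121890359613807222906188668984242847844156349629169321171171870848736719038056189221582799070526664561159748233627027671771503648919914329682078858549754818773713702150755972533628392163358319649678544722243525502951401855396472790001552429497186298564757470565762094108967155916828459666423705207881753704079615324792889001026923821557310277971933783932948814506915479901488895335708600313118876609987965761554588135698671418719618786386459169037037148465207528009648986313538485342821693422898590508773295634677649230781957511049822256160955429540242882734069327241777330834794843466706980204917593083585115587766796989335369227354732136064101664898959679001106929639125210487770500747120116256381835093088319069316790705465611758361530907661146654402729555849100482177761026515708631526495753351660576973144619740701074144772347125099866026234923254233338041638681417869687033517413562389743410673786129428643910153445428491736799340658688)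

noncomputable def rc3 : Nat := (nat_lit 33057857486439922985984040920668430747397321917284930653404131863389471709997879688721700604957127689585916624405325270301465550268879290368100521251465673923286165278951686853486000826056697993074401798146996676670645412151663117052152094509187375651860218589481000943562568093674816786898430038556936786335289674140916975163177325845793028454346742137907558808487784251902583233798024033893616038196696397711926764045654719294261550976643927985000887170224896007342147783568829247418104164754225522572832731838454571194478140075542160253733181455629359553369941901349230423336872910352631661121481242021542449475543905094016043695158604385770569879874492289788358949235281799018206742945246790440763818514313048361779678189559188362326977171910678077113062806941851021429633673873263283889030536959584237729516276530708429976673902739872400679233264584006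62490080146154766945750682208491200861402906967785615161402994898472883311743831704555465654946292478576901109675936722852527424095185604239241570932468816573097917758343639866373709471647966829380870159885839546982048544891916273588889436198754413390526820305143324344790335965456698430626601124137532009659788383456885667198666633187617879186910484790857291660650481456153741591132793430099437887361601276688458124215964020350326501667931088235656271314024173928920625565642024213200026095970626360469550069578522311044630847500441373133848880716860799096368972558364836616221117122344027083564178738073692762868132112570304858927458134370554517020196329254858614735628003205670436676961836926021357393248272410186258100249873085908947960864982267694769627627057119772539819057752677478288905003234086248108094652163484892574990627496403384218808718018091979728378325929141542102773941972278053057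62606173667617367082021343995389090680506011208048105322828383223260411387263687671335279281182513478407276438191342010150142826098416450658352674331730104853788310060719744685006303339424924622497854977972607462362613755975206225106400716968175024403953970573733925934674112589225210464567223175563949680891486184281273739409890413553456651808725408382782121193049695941036164392146539730637963375373026713205023310990553215001518143623757599902950157599877224607511644133657114729596755782499360812241823842158674904351745356181119549064585673421765809183981394259680180145653616599760965062894459239608998962969999394008555125303947205859000981017029347789002451350089009675917712134809510929740936106334709829585368821190175428187569489362611156093374833978265459406655355158797852980701123713760330633146623344612637442678557912067629362471616598311012418351702640561696774581095008832095880199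6093607269907041341448588060276158155425214248961909464625801096304546357127069977552250009243466228486851362790751706623761574219269675250922578189886265668500431498040886888984079852979983089154345376099995028283069184049120509654343766041170621653361700902892928572388483464878033835225811963350010227441763968970983615865761218073569488249469029287327180141065417458980829576089960018972648729973935778489713512425140115216662899808547112620028936942384044278494303228782640209146030811610822579823731947950405578788321491286337421571164968368453395030922293075596639402740999819086242685103266981286273934263852230733015298327448618191645553785817980454935297508894392013282233048868329930697308945344116514692373583213431907955765135069570418469099460279568467301376184481162811180573768548308964674662498870006000566874720673986551323564165864374903952735911217949331117862561330383292645647559081551330940052557192404479635552942816836081555896264804617443956803030170500848288441835194173652265351019980174482083786748585859742947418659798008370510335748551586188665395043061516110785413930655646625226044205544169555365822536306717196028615991081566208)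

noncomputable def rc4 : Nat := (nat_lit 34477293788976601460405795261231161698556181181609068949740502607283646284436486233146764306726361991950005915719791571861029419836161222448108380362857337297514395396577918857707763739340794347585748694660574845189705799147375739057789903754221852892391618933402944879721021716093744018485337927028557867813949462628925218437176776763446616221965990609953286976357433156371062999956305982318920025192419617854148626504402077243180835660425643175287931662271795845127776412667404798454149803080060653456476394670629726564426568796273486268820214219781948146762695719737583321126578142614752013891940082890193009579819330418296597031088163944226262577859831908981996208687625891639484754520686420045315249614185420016173955254009623830932845250609833366755602940316031763430484628049208574100439825732828486436238827253016360482285986536178875623185938312397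17620142590916491568134390039808549574095624903527870611684954811605845926115346790196763536666634209126375729194286455709521278118994179180519566156017458749494325929266985568506096399052157998972744651837963464871779671886684811501278220469239974147981839235306584219161739140076946347262015588229849207950067375826840185236316605176648415369318539301762046670733382319123466633601891328769137409733704362831159536196547288834213532007030919161303519446073318978823639810920734361071195899661562695915209868538056035056927402365510116779699185093369107461624900379272252246260230364337231436532404593942141270217151475750533696268389116758100755117881904936502045988610603058619887953185130731712369689582174219346650166539894417047717514706823624146494477502193390563239348921590088003601728086959928217005145023663898182264283233394666493091981104780614478108571607069411562306801942404518671332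72911372958040143659602262193684884735291763323523150619540596416689635830335358414954916529392219305169802552805301308832696029949008763746258047729783079208333338300009888165803386861631088276163498827267019312891233372819637504029024330367591360835381841135892356579263267189926253961996563219737894341749711821503247551579335516514006517098539709028893267128497352257910362881410818956827775575895870270279507273183602228147628584639787787137536302862464525299657208890858214888876126846103199629642733134033331195167361984317204399018480064674652173286502219187111739842601400124704635286839541847943888267254411925966864743146535676504025333378152248828485394836485242697645087108070525499290450598611279029240291134997283834454603808480228147357619906078450536960591387768286430307574228952232114034651554881154302114082675098664959736936107368099145419161747770688687542835634731326650683278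6015952960937671034924352415827612262704107156537983459661206531617038250247797849597925095718015629322337202954566339446792908602637084744182377759558202085051693636667581556752937556202171522109875882404772783895053331519495437185279027285131842510106749044558887360584147551722854881928671612763991779302270510673121904238971386562657068211275566000908352251783506416570037236984436648692298388718987823237605915670014960480296859966581781746414357025010119910359997461135274185342451389799508723486051019603926206624637461524930015442307735066415221744153739170003733357815388182259655581175067091367802630083161229723968545117646723670843644566178553805653499586193074701354834450690743534495818216272459639074670955594487513652537884813499004549042220994385467485123911313955326318202286205870092285657215364748511235455827437890931085331415722000243265635478378770748565009744424849715719446098486519854938138768485071305698616496076991030015396745221816142217971807834083333068311375115925865539522414723754926542157441864570683630225833846389211254640372732300974830385273784931522097960162716581952086990968551706189473205891528546150402477057359478784)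

end Vale.Agent.Lib.P154.PChain.BH.S4
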