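import Vale.Agent.Lib.P154.PChain.BH.R4_0

set_option linter.all false

namespace Vale.Agent.Lib.P154.PChain.BH.S5

open Vale.Agent.Lib.P154.Chain

noncomputable def pc0 : PT := (PT.nd (nat_lit 5122962) (PT.nd (nat_lit 4842006) (PT.nd (nat_lit 4701528) (PT.nd (nat_lit 4654572) (PT.nd (nat_lit 4560972) (PT.nd (nat_lit 4560894) PT.nil (PT.lf (nat_lit 76) (nat_lit 6) (nat_lit 1) (nat_lit 3) (nat_lit 176) (nat_lit 97) (nat_lit 177))) (PT.nd (nat_lit 46800) (PT.lf (nat_lit 76) (nat_lit 6) (nat_lit 1) (nat_lit 1) (nat_lit 177) (nat_lit 97) (nat_lit 176)) (PT.lf (nat_lit 152) (nat_lit 3) (nat_lit 2) (nat_lit 1) (nat_lit 176) (nat_lit 98) (nat_lit 176)))) (PT.nd (nat_lit 46800) (PT.nd (nat_lit 78) (PT.lf (nat_lit 228) (nat_lit 6) (nat_lit 3) (nat_lit 3) (nat_lit 175) (nat_lit 99) (nat_lit 176)) (PT.lf (nat_lit 228) (nat_lit 6) (nat_lit 3) (nat_lit 1) (nat_lit 176) (nat_lit 99) (nat_lit 175))) (PT.nd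 (nat_lit 78) (PT.lf (nat_lit 304) (nat_lit 6) (nat_lit 4) (nat_lit 3) (nat_lit 174) (nat_lit 100) (nat_lit 176)) (PT.lf (nat_lit 380) (nat_lit 3) (nat_lit 5) (nat_lit 1) (nat_lit 175) (nat_lit 100) (nat_lit 175))))) (PT.nd (nat_lit 93522) (PT.nd (nat_lit 46722) (PT.lf (nat_lit 304) (nat_lit 6) (nat_lit 4) (nat_lit 1) (nat_lit 176) (nat_lit 100) (nat_lit 174)) (PT.nd (nat_lit 78) (PT.lf (nat_lit 456) (nat_lit 6) (nat_lit 6) (nat_lit 3) (nat_lit 174) (nat_lit 101) (nat_lit 175)) (PT.lf (nat_lit 456) (nat_lit 6) (nat_lit 6) (nat_lit 1) (nat_lit 175) (nat_lit 101) (nat_lit 174)))) (PT.nd (nat_lit 156) (PT.nd (nat_lit 78) (PT.lf (nat_lit 532) (nat_lit 6) (nat_lit 7) (nat_lit 3) (nat_lit 173) (nat_lit 102) (nat_lit 175)) (PT.lf (nat_lit 608) (nat_lit 3) (nat_lit 8) (nat_lit 1) (nat_lit 174) (nat_lit 102) (nat_lit 174))) (PT.nd (nat_lit 46722) (PT.lf (nat_lit 532) (nat_lit 6) (nat_lit 7) (nat_lit 1)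 (nat_lit 175) (nat_lit 102) (nat_lit 173)) (PT.lf (nat_lit 684) (nat_lit 6) (nat_lit 9) (nat_lit 3) (nat_lit 173) (nat_lit 103) (nat_lit 174)))))) (PT.nd (nat_lit 140478) (PT.nd (nat_lit 46878) (PT.nd (nat_lit 46722) (PT.lf (nat_lit 684) (nat_lit 6) (nat_lit 9) (nat_lit 1) (nat_lit 174) (nat_lit 103) (nat_lit 173)) (PT.nd (nat_lit 78) (PT.lf (nat_lit 760) (nat_lit 6) (nat_lit 10) (nat_lit 3) (nat_lit 172) (nat_lit 104) (nat_lit 174)) (PT.lf (nat_lit 836) (nat_lit 3) (nat_lit 11) (nat_lit 1) (nat_lit 173) (nat_lit 104) (nat_lit 173)))) (PT.nd (nat_lit 46800) (PT.nd (nat_lit 46722) (PT.lf (nat_lit 760) (nat_lit 6) (nat_lit 10) (nat_lit 1) (nat_lit 174) (nat_lit 104) (nat_lit 172)) (PT.lf (nat_lit 912) (nat_lit 6) (nat_lit 12) (nat_lit 3) (nat_lit 172) (nat_lit 105) (nat_lit 173))) (PT.nd (nat_lit 46722) (PT.lf (nat_lit 912) (nat_lit 6) (nat_lit 12) (nat_lit 1) (nat_lit 173) (nat_lit 105) (nat_lit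 172)) (PT.lf (nat_lit 988) (nat_lit 6) (nat_lit 13) (nat_lit 3) (nat_lit 171) (nat_lit 106) (nat_lit 173))))) (PT.nd (nat_lit 46878) (PT.nd (nat_lit 78) (PT.lf (nat_lit 1064) (nat_lit 3) (nat_lit 14) (nat_lit 1) (nat_lit 172) (nat_lit 106) (nat_lit 172)) (PT.nd (nat_lit 46722) (PT.lf (nat_lit 988) (nat_lit 6) (nat_lit 13) (nat_lit 1) (nat_lit 173) (nat_lit 106) (nat_lit 171)) (PT.lf (nat_lit 1140) (nat_lit 6) (nat_lit 15) (nat_lit 3) (nat_lit 171) (nat_lit 107) (nat_lit 172)))) (PT.nd (nat_lit 46800) (PT.nd (nat_lit 46722) (PT.lf (nat_lit 1140) (nat_lit 6) (nat_lit 15) (nat_lit 1) (nat_lit 172) (nat_lit 107) (nat_lit 171)) (PT.lf (nat_lit 1216) (nat_lit 6) (nat_lit 16) (nat_lit 3) (nat_lit 170) (nat_lit 108) (nat_lit 172))) (PT.nd (nat_lit 78) (PT.lf (nat_lit 1292) (nat_lit 3) (nat_lit 17) (nat_lit 1) (nat_lit 171) (nat_lit 108) (nat_lit 171)) (PT.lf (nat_lit 1216) (nat_lit 6) (nat_lit 16) (nat_lit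 1) (nat_lit 172) (nat_lit 108) (nat_lit 170))))))) (PT.nd (nat_lit 234312) (PT.nd (nat_lit 140478) (PT.nd (nat_lit 46878) (PT.nd (nat_lit 78) (PT.lf (nat_lit 1368) (nat_lit 6) (nat_lit 18) (nat_lit 3) (nat_lit 170) (nat_lit 109) (nat_lit 171)) (PT.nd (nat_lit 46722) (PT.lf (nat_lit 1368) (nat_lit 6) (nat_lit 18) (nat_lit 1) (nat_lit 171) (nat_lit 109) (nat_lit 170)) (PT.lf (nat_lit 1444) (nat_lit 6) (nat_lit 19) (nat_lit 3) (nat_lit 169) (nat_lit 110) (nat_lit 171)))) (PT.nd (nat_lit 46800) (PT.nd (nat_lit 78) (PT.lf (nat_lit 1520) (nat_lit 3) (nat_lit 20) (nat_lit 1) (nat_lit 170) (nat_lit 110) (nat_lit 170)) (PT.lf (nat_lit 1444) (nat_lit 6) (nat_lit 19) (nat_lit 1) (nat_lit 171) (nat_lit 110) (nat_lit 169))) (PT.nd (nat_lit 78) (PT.lf (nat_lit 1596) (nat_lit 6) (nat_lit 21) (nat_lit 3) (nat_lit 169) (nat_lit 111) (nat_lit 170)) (PT.lf (nat_lit 1596) (nat_lit 6) (nat_lit 21) (nat_lit 1) (nat_lit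 170) (nat_lit 111) (nat_lit 169))))) (PT.nd (nat_lit 46878) (PT.nd (nat_lit 78) (PT.lf (nat_lit 1672) (nat_lit 6) (nat_lit 22) (nat_lit 3) (nat_lit 168) (nat_lit 112) (nat_lit 170)) (PT.nd (nat_lit 78) (PT.lf (nat_lit 1748) (nat_lit 3) (nat_lit 23) (nat_lit 1) (nat_lit 169) (nat_lit 112) (nat_lit 169)) (PT.lf (nat_lit 1672) (nat_lit 6) (nat_lit 22) (nat_lit 1) (nat_lit 170) (nat_lit 112) (nat_lit 168)))) (PT.nd (nat_lit 46800) (PT.nd (nat_lit 78) (PT.lf (nat_lit 1824) (nat_lit 6) (nat_lit 24) (nat_lit 3) (nat_lit 168) (nat_lit 113) (nat_lit 169)) (PT.lf (nat_lit 1824) (nat_lit 6) (nat_lit 24) (nat_lit 1) (nat_lit 169) (nat_lit 113) (nat_lit 168))) (PT.nd (nat_lit 78) (PT.lf (nat_lit 1900) (nat_lit 6) (nat_lit 25) (nat_lit 3) (nat_lit 167) (nat_lit 114) (nat_lit 169)) (PT.lf (nat_lit 1976) (nat_lit 3) (nat_lit 26) (nat_lit 1) (nat_lit 168) (nat_lit 114) (nat_lit 168)))))) (PT.nd (nat_lit 93678)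 (PT.nd (nat_lit 46800) (PT.nd (nat_lit 46644) (PT.lf (nat_lit 1900) (nat_lit 6) (nat_lit 25) (nat_lit 1) (nat_lit 169) (nat_lit 114) (nat_lit 167)) (PT.nd (nat_lit 78) (PT.lf (nat_lit 2052) (nat_lit 6) (nat_lit 27) (nat_lit 3) (nat_lit 166) (nat_lit 115) (nat_lit 169)) (PT.lf (nat_lit 2128) (nat_lit 6) (nat_lit 28) (nat_lit 3) (nat_lit 167) (nat_lit 115) (nat_lit 168)))) (PT.nd (nat_lit 46722) (PT.nd (nat_lit 78) (PT.lf (nat_lit 2128) (nat_lit 6) (nat_lit 28) (nat_lit 1) (nat_lit 168) (nat_lit 115) (nat_lit 167)) (PT.lf (nat_lit 2052) (nat_lit 6) (nat_lit 27) (nat_lit 1) (nat_lit 169) (nat_lit 115) (nat_lit 166))) (PT.nd (nat_lit 78) (PT.lf (nat_lit 2204) (nat_lit 6) (nat_lit 29) (nat_lit 3) (nat_lit 166) (nat_lit 116) (nat_lit 168)) (PT.lf (nat_lit 2280) (nat_lit 3) (nat_lit 30) (nat_lit 1) (nat_lit 167) (nat_lit 116) (nat_lit 167))))) (PT.nd (nat_lit 46800) (PT.nd (nat_lit 46644) (PT.lf (nat_lit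 2204) (nat_lit 6) (nat_lit 29) (nat_lit 1) (nat_lit 168) (nat_lit 116) (nat_lit 166)) (PT.nd (nat_lit 78) (PT.lf (nat_lit 2356) (nat_lit 6) (nat_lit 31) (nat_lit 3) (nat_lit 165) (nat_lit 117) (nat_lit 168)) (PT.lf (nat_lit 2432) (nat_lit 6) (nat_lit 32) (nat_lit 3) (nat_lit 166) (nat_lit 117) (nat_lit 167)))) (PT.nd (nat_lit 46722) (PT.nd (nat_lit 78) (PT.lf (nat_lit 2432) (nat_lit 6) (nat_lit 32) (nat_lit 1) (nat_lit 167) (nat_lit 117) (nat_lit 166)) (PT.lf (nat_lit 2356) (nat_lit 6) (nat_lit 31) (nat_lit 1) (nat_lit 168) (nat_lit 117) (nat_lit 165))) (PT.nd (nat_lit 78) (PT.lf (nat_lit 2508) (nat_lit 6) (nat_lit 33) (nat_lit 3) (nat_lit 165) (nat_lit 118) (nat_lit 167)) (PT.lf (nat_lit 2584) (nat_lit 3) (nat_lit 34) (nat_lit 1) (nat_lit 166) (nat_lit 118) (nat_lit 166))))))))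
noncomputable def pc1 : PT := (PT.nd (nat_lit 327834) (PT.nd (nat_lit 187278) (PT.nd (nat_lit 93678) (PT.nd (nat_lit 46800) (PT.nd (nat_lit 46644) (PT.lf (nat_lit 2508) (nat_lit 6) (nat_lit 33) (nat_lit 1) (nat_lit 167) (nat_lit 118) (nat_lit 165)) (PT.nd (nat_lit 78) (PT.lf (nat_lit 2660) (nat_lit 6) (nat_lit 35) (nat_lit 3) (nat_lit 164) (nat_lit 119) (nat_lit 167)) (PT.lf (nat_lit 2736) (nat_lit 6) (nat_lit 36) (nat_lit 3) (nat_lit 165) (nat_lit 119) (nat_lit 166)))) (PT.nd (nat_lit 46722) (PT.nd (nat_lit 78) (PT.lf (nat_lit 2736) (nat_lit 6) (nat_lit 36) (nat_lit 1) (nat_lit 166) (nat_lit 119) (nat_lit 165)) (PT.lf (nat_lit 2660) (nat_lit 6) (nat_lit 35) (nat_lit 1) (nat_lit 167) (nat_lit 119) (nat_lit 164))) (PT.nd (nat_lit 78) (PT.lf (nat_lit 2812) (nat_lit 6) (nat_lit 37) (nat_lit 3) (nat_lit 164) (nat_lit 120) (nat_lit 166)) (PT.lf (nat_lit 2888) (nat_lit 3) (nat_lit 38) (nat_lit 1)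 (nat_lit 165) (nat_lit 120) (nat_lit 165))))) (PT.nd (nat_lit 46800) (PT.nd (nat_lit 46644) (PT.lf (nat_lit 2812) (nat_lit 6) (nat_lit 37) (nat_lit 1) (nat_lit 166) (nat_lit 120) (nat_lit 164)) (PT.nd (nat_lit 78) (PT.lf (nat_lit 2964) (nat_lit 6) (nat_lit 39) (nat_lit 3) (nat_lit 163) (nat_lit 121) (nat_lit 166)) (PT.lf (nat_lit 3040) (nat_lit 6) (nat_lit 40) (nat_lit 3) (nat_lit 164) (nat_lit 121) (nat_lit 165)))) (PT.nd (nat_lit 46644) (PT.nd (nat_lit 78) (PT.lf (nat_lit 3040) (nat_lit 6) (nat_lit 40) (nat_lit 1) (nat_lit 165) (nat_lit 121) (nat_lit 164)) (PT.lf (nat_lit 2964) (nat_lit 6) (nat_lit 39) (nat_lit 1) (nat_lit 166) (nat_lit 121) (nat_lit 163))) (PT.nd (nat_lit 78) (PT.lf (nat_lit 3116) (nat_lit 6) (nat_lit 41) (nat_lit 3) (nat_lit 162) (nat_lit 122) (nat_lit 166)) (PT.lf (nat_lit 3192) (nat_lit 6) (nat_lit 42) (nat_lit 3) (nat_lit 163) (nat_lit 122) (nat_lit 165)))))) (PT.nd (nat_lit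 93522) (PT.nd (nat_lit 46722) (PT.nd (nat_lit 78) (PT.lf (nat_lit 3268) (nat_lit 3) (nat_lit 43) (nat_lit 1) (nat_lit 164) (nat_lit 122) (nat_lit 164)) (PT.nd (nat_lit 78) (PT.lf (nat_lit 3192) (nat_lit 6) (nat_lit 42) (nat_lit 1) (nat_lit 165) (nat_lit 122) (nat_lit 163)) (PT.lf (nat_lit 3116) (nat_lit 6) (nat_lit 41) (nat_lit 1) (nat_lit 166) (nat_lit 122) (nat_lit 162)))) (PT.nd (nat_lit 156) (PT.nd (nat_lit 78) (PT.lf (nat_lit 3344) (nat_lit 6) (nat_lit 44) (nat_lit 3) (nat_lit 162) (nat_lit 123) (nat_lit 165)) (PT.lf (nat_lit 3420) (nat_lit 6) (nat_lit 45) (nat_lit 3) (nat_lit 163) (nat_lit 123) (nat_lit 164))) (PT.nd (nat_lit 78) (PT.lf (nat_lit 3420) (nat_lit 6) (nat_lit 45) (nat_lit 1) (nat_lit 164) (nat_lit 123) (nat_lit 163)) (PT.lf (nat_lit 3344) (nat_lit 6) (nat_lit 44) (nat_lit 1) (nat_lit 165) (nat_lit 123) (nat_lit 162))))) (PT.nd (nat_lit 234) (PT.nd (nat_lit 78) (PT.lf (nat_lit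 3496) (nat_lit 6) (nat_lit 46) (nat_lit 3) (nat_lit 161) (nat_lit 124) (nat_lit 165)) (PT.nd (nat_lit 78) (PT.lf (nat_lit 3572) (nat_lit 6) (nat_lit 47) (nat_lit 3) (nat_lit 162) (nat_lit 124) (nat_lit 164)) (PT.lf (nat_lit 3648) (nat_lit 3) (nat_lit 48) (nat_lit 1) (nat_lit 163) (nat_lit 124) (nat_lit 163)))) (PT.nd (nat_lit 46644) (PT.nd (nat_lit 78) (PT.lf (nat_lit 3572) (nat_lit 6) (nat_lit 47) (nat_lit 1) (nat_lit 164) (nat_lit 124) (nat_lit 162)) (PT.lf (nat_lit 3496) (nat_lit 6) (nat_lit 46) (nat_lit 1) (nat_lit 165) (nat_lit 124) (nat_lit 161))) (PT.nd (nat_lit 78) (PT.lf (nat_lit 3724) (nat_lit 6) (nat_lit 49) (nat_lit 3) (nat_lit 161) (nat_lit 125) (nat_lit 164)) (PT.lf (nat_lit 3800) (nat_lit 6) (nat_lit 50) (nat_lit 3) (nat_lit 162) (nat_lit 125) (nat_lit 163))))))) (PT.nd (nat_lit 140400) (PT.nd (nat_lit 93444) (PT.nd (nat_lit 46722) (PT.nd (nat_lit 78) (PT.lf (nat_lit 3800) (nat_lit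 6) (nat_lit 50) (nat_lit 1) (nat_lit 163) (nat_lit 125) (nat_lit 162)) (PT.nd (nat_lit 46566) (PT.lf (nat_lit 3724) (nat_lit 6) (nat_lit 49) (nat_lit 1) (nat_lit 164) (nat_lit 125) (nat_lit 161)) (PT.lf (nat_lit 3876) (nat_lit 6) (nat_lit 51) (nat_lit 3) (nat_lit 160) (nat_lit 126) (nat_lit 164)))) (PT.nd (nat_lit 156) (PT.nd (nat_lit 78) (PT.lf (nat_lit 3952) (nat_lit 6) (nat_lit 52) (nat_lit 3) (nat_lit 161) (nat_lit 126) (nat_lit 163)) (PT.lf (nat_lit 4028) (nat_lit 3) (nat_lit 53) (nat_lit 1) (nat_lit 162) (nat_lit 126) (nat_lit 162))) (PT.nd (nat_lit 78) (PT.lf (nat_lit 3952) (nat_lit 6) (nat_lit 52) (nat_lit 1) (nat_lit 163) (nat_lit 126) (nat_lit 161)) (PT.lf (nat_lit 3876) (nat_lit 6) (nat_lit 51) (nat_lit 1) (nat_lit 164) (nat_lit 126) (nat_lit 160))))) (PT.nd (nat_lit 234) (PT.nd (nat_lit 78) (PT.lf (nat_lit 4104) (nat_lit 6) (nat_lit 54) (nat_lit 3) (nat_lit 159) (nat_lit 127) (nat_lit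 164)) (PT.nd (nat_lit 78) (PT.lf (nat_lit 4180) (nat_lit 6) (nat_lit 55) (nat_lit 3) (nat_lit 160) (nat_lit 127) (nat_lit 163)) (PT.lf (nat_lit 4256) (nat_lit 6) (nat_lit 56) (nat_lit 3) (nat_lit 161) (nat_lit 127) (nat_lit 162)))) (PT.nd (nat_lit 156) (PT.nd (nat_lit 78) (PT.lf (nat_lit 4256) (nat_lit 6) (nat_lit 56) (nat_lit 1) (nat_lit 162) (nat_lit 127) (nat_lit 161)) (PT.lf (nat_lit 4180) (nat_lit 6) (nat_lit 55) (nat_lit 1) (nat_lit 163) (nat_lit 127) (nat_lit 160))) (PT.nd (nat_lit 46488) (PT.lf (nat_lit 4104) (nat_lit 6) (nat_lit 54) (nat_lit 1) (nat_lit 164) (nat_lit 127) (nat_lit 159)) (PT.lf (nat_lit 4332) (nat_lit 6) (nat_lit 57) (nat_lit 3) (nat_lit 159) (nat_lit 128) (nat_lit 163)))))) (PT.nd (nat_lit 46956) (PT.nd (nat_lit 234) (PT.nd (nat_lit 78) (PT.lf (nat_lit 4408) (nat_lit 6) (nat_lit 58) (nat_lit 3) (nat_lit 160) (nat_lit 128) (nat_lit 162)) (PT.nd (nat_lit 78) (PT.lf (nat_lit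 4484) (nat_lit 3) (nat_lit 59) (nat_lit 1) (nat_lit 161) (nat_lit 128) (nat_lit 161)) (PT.lf (nat_lit 4408) (nat_lit 6) (nat_lit 58) (nat_lit 1) (nat_lit 162) (nat_lit 128) (nat_lit 160)))) (PT.nd (nat_lit 46566) (PT.nd (nat_lit 46488) (PT.lf (nat_lit 4332) (nat_lit 6) (nat_lit 57) (nat_lit 1) (nat_lit 163) (nat_lit 128) (nat_lit 159)) (PT.lf (nat_lit 4560) (nat_lit 6) (nat_lit 60) (nat_lit 3) (nat_lit 158) (nat_lit 129) (nat_lit 163))) (PT.nd (nat_lit 78) (PT.lf (nat_lit 4636) (nat_lit 6) (nat_lit 61) (nat_lit 3) (nat_lit 159) (nat_lit 129) (nat_lit 162)) (PT.lf (nat_lit 4712) (nat_lit 6) (nat_lit 62) (nat_lit 3) (nat_lit 160) (nat_lit 129) (nat_lit 161))))) (PT.nd (nat_lit 46566) (PT.nd (nat_lit 78) (PT.lf (nat_lit 4712) (nat_lit 6) (nat_lit 62) (nat_lit 1) (nat_lit 161) (nat_lit 129) (nat_lit 160)) (PT.nd (nat_lit 78) (PT.lf (nat_lit 4636) (nat_lit 6) (nat_lit 61) (nat_lit 1) (nat_lit 162)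 (nat_lit 129) (nat_lit 159)) (PT.lf (nat_lit 4560) (nat_lit 6) (nat_lit 60) (nat_lit 1) (nat_lit 163) (nat_lit 129) (nat_lit 158)))) (PT.nd (nat_lit 156) (PT.nd (nat_lit 78) (PT.lf (nat_lit 4788) (nat_lit 6) (nat_lit 63) (nat_lit 3) (nat_lit 157) (nat_lit 130) (nat_lit 163)) (PT.lf (nat_lit 4864) (nat_lit 6) (nat_lit 64) (nat_lit 3) (nat_lit 158) (nat_lit 130) (nat_lit 162))) (PT.nd (nat_lit 78) (PT.lf (nat_lit 4940) (nat_lit 6) (nat_lit 65) (nat_lit 3) (nat_lit 159) (nat_lit 130) (nat_lit 161)) (PT.lf (nat_lit 5016) (nat_lit 3) (nat_lit 66) (nat_lit 1) (nat_lit 160) (nat_lit 130) (nat_lit 160))))))))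
noncomputable def pc2 : PT := (PT.nd (nat_lit 187356) (PT.nd (nat_lit 93756) (PT.nd (nat_lit 46878) (PT.nd (nat_lit 46566) (PT.nd (nat_lit 78) (PT.lf (nat_lit 4940) (nat_lit 6) (nat_lit 65) (nat_lit 1) (nat_lit 161) (nat_lit 130) (nat_lit 159)) (PT.nd (nat_lit 78) (PT.lf (nat_lit 4864) (nat_lit 6) (nat_lit 64) (nat_lit 1) (nat_lit 162) (nat_lit 130) (nat_lit 158)) (PT.lf (nat_lit 4788) (nat_lit 6) (nat_lit 63) (nat_lit 1) (nat_lit 163) (nat_lit 130) (nat_lit 157)))) (PT.nd (nat_lit 156) (PT.nd (nat_lit 78) (PT.lf (nat_lit 5092) (nat_lit 6) (nat_lit 67) (nat_lit 3) (nat_lit 157) (nat_lit 131) (nat_lit 162)) (PT.lf (nat_lit 5168) (nat_lit 6) (nat_lit 68) (nat_lit 3) (nat_lit 158) (nat_lit 131) (nat_lit 161))) (PT.nd (nat_lit 78) (PT.lf (nat_lit 5244) (nat_lit 6) (nat_lit 69) (nat_lit 3) (nat_lit 159) (nat_lit 131) (nat_lit 160)) (PT.lf (nat_lit 5244) (nat_lit 6) (nat_lit 69) (nat_lit 1) (nat_lit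 160) (nat_lit 131) (nat_lit 159))))) (PT.nd (nat_lit 46566) (PT.nd (nat_lit 78) (PT.lf (nat_lit 5168) (nat_lit 6) (nat_lit 68) (nat_lit 1) (nat_lit 161) (nat_lit 131) (nat_lit 158)) (PT.nd (nat_lit 46410) (PT.lf (nat_lit 5092) (nat_lit 6) (nat_lit 67) (nat_lit 1) (nat_lit 162) (nat_lit 131) (nat_lit 157)) (PT.lf (nat_lit 5320) (nat_lit 6) (nat_lit 70) (nat_lit 3) (nat_lit 156) (nat_lit 132) (nat_lit 162)))) (PT.nd (nat_lit 156) (PT.nd (nat_lit 78) (PT.lf (nat_lit 5396) (nat_lit 6) (nat_lit 71) (nat_lit 3) (nat_lit 157) (nat_lit 132) (nat_lit 161)) (PT.lf (nat_lit 5472) (nat_lit 6) (nat_lit 72) (nat_lit 3) (nat_lit 158) (nat_lit 132) (nat_lit 160))) (PT.nd (nat_lit 78) (PT.lf (nat_lit 5548) (nat_lit 3) (nat_lit 73) (nat_lit 1) (nat_lit 159) (nat_lit 132) (nat_lit 159)) (PT.lf (nat_lit 5472) (nat_lit 6) (nat_lit 72) (nat_lit 1) (nat_lit 160) (nat_lit 132) (nat_lit 158)))))) (PT.nd (nat_lit 46800)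 (PT.nd (nat_lit 46488) (PT.nd (nat_lit 78) (PT.lf (nat_lit 5396) (nat_lit 6) (nat_lit 71) (nat_lit 1) (nat_lit 161) (nat_lit 132) (nat_lit 157)) (PT.nd (nat_lit 46332) (PT.lf (nat_lit 5320) (nat_lit 6) (nat_lit 70) (nat_lit 1) (nat_lit 162) (nat_lit 132) (nat_lit 156)) (PT.lf (nat_lit 5624) (nat_lit 6) (nat_lit 74) (nat_lit 3) (nat_lit 155) (nat_lit 133) (nat_lit 162)))) (PT.nd (nat_lit 156) (PT.nd (nat_lit 78) (PT.lf (nat_lit 5700) (nat_lit 6) (nat_lit 75) (nat_lit 3) (nat_lit 156) (nat_lit 133) (nat_lit 161)) (PT.lf (nat_lit 5776) (nat_lit 6) (nat_lit 76) (nat_lit 3) (nat_lit 157) (nat_lit 133) (nat_lit 160))) (PT.nd (nat_lit 78) (PT.lf (nat_lit 5852) (nat_lit 6) (nat_lit 77) (nat_lit 3) (nat_lit 158) (nat_lit 133) (nat_lit 159)) (PT.lf (nat_lit 5852) (nat_lit 6) (nat_lit 77) (nat_lit 1) (nat_lit 159) (nat_lit 133) (nat_lit 158))))) (PT.nd (nat_lit 46488) (PT.nd (nat_lit 78) (PT.lf (nat_lit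 5776) (nat_lit 6) (nat_lit 76) (nat_lit 1) (nat_lit 160) (nat_lit 133) (nat_lit 157)) (PT.nd (nat_lit 78) (PT.lf (nat_lit 5700) (nat_lit 6) (nat_lit 75) (nat_lit 1) (nat_lit 161) (nat_lit 133) (nat_lit 156)) (PT.lf (nat_lit 5624) (nat_lit 6) (nat_lit 74) (nat_lit 1) (nat_lit 162) (nat_lit 133) (nat_lit 155)))) (PT.nd (nat_lit 156) (PT.nd (nat_lit 78) (PT.lf (nat_lit 5928) (nat_lit 6) (nat_lit 78) (nat_lit 3) (nat_lit 155) (nat_lit 134) (nat_lit 161)) (PT.lf (nat_lit 6004) (nat_lit 6) (nat_lit 79) (nat_lit 3) (nat_lit 156) (nat_lit 134) (nat_lit 160))) (PT.nd (nat_lit 78) (PT.lf (nat_lit 6080) (nat_lit 6) (nat_lit 80) (nat_lit 3) (nat_lit 157) (nat_lit 134) (nat_lit 159)) (PT.lf (nat_lit 6156) (nat_lit 3) (nat_lit 81) (nat_lit 1) (nat_lit 158) (nat_lit 134) (nat_lit 158))))))) (PT.nd (nat_lit 93522) (PT.nd (nat_lit 46800) (PT.nd (nat_lit 46488) (PT.nd (nat_lit 78) (PT.lf (nat_lit 6080) (nat_lit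 6) (nat_lit 80) (nat_lit 1) (nat_lit 159) (nat_lit 134) (nat_lit 157)) (PT.nd (nat_lit 78) (PT.lf (nat_lit 6004) (nat_lit 6) (nat_lit 79) (nat_lit 1) (nat_lit 160) (nat_lit 134) (nat_lit 156)) (PT.lf (nat_lit 5928) (nat_lit 6) (nat_lit 78) (nat_lit 1) (nat_lit 161) (nat_lit 134) (nat_lit 155)))) (PT.nd (nat_lit 156) (PT.nd (nat_lit 78) (PT.lf (nat_lit 6232) (nat_lit 6) (nat_lit 82) (nat_lit 3) (nat_lit 154) (nat_lit 135) (nat_lit 161)) (PT.lf (nat_lit 6308) (nat_lit 6) (nat_lit 83) (nat_lit 3) (nat_lit 155) (nat_lit 135) (nat_lit 160))) (PT.nd (nat_lit 78) (PT.lf (nat_lit 6384) (nat_lit 6) (nat_lit 84) (nat_lit 3) (nat_lit 156) (nat_lit 135) (nat_lit 159)) (PT.lf (nat_lit 6460) (nat_lit 6) (nat_lit 85) (nat_lit 3) (nat_lit 157) (nat_lit 135) (nat_lit 158))))) (PT.nd (nat_lit 234) (PT.nd (nat_lit 78) (PT.lf (nat_lit 6460) (nat_lit 6) (nat_lit 85) (nat_lit 1) (nat_lit 158) (nat_lit 135) (nat_lit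 157)) (PT.nd (nat_lit 78) (PT.lf (nat_lit 6384) (nat_lit 6) (nat_lit 84) (nat_lit 1) (nat_lit 159) (nat_lit 135) (nat_lit 156)) (PT.lf (nat_lit 6308) (nat_lit 6) (nat_lit 83) (nat_lit 1) (nat_lit 160) (nat_lit 135) (nat_lit 155)))) (PT.nd (nat_lit 46332) (PT.nd (nat_lit 46254) (PT.lf (nat_lit 6232) (nat_lit 6) (nat_lit 82) (nat_lit 1) (nat_lit 161) (nat_lit 135) (nat_lit 154)) (PT.lf (nat_lit 6536) (nat_lit 6) (nat_lit 86) (nat_lit 3) (nat_lit 153) (nat_lit 136) (nat_lit 161))) (PT.nd (nat_lit 78) (PT.lf (nat_lit 6612) (nat_lit 6) (nat_lit 87) (nat_lit 3) (nat_lit 154) (nat_lit 136) (nat_lit 160)) (PT.lf (nat_lit 6688) (nat_lit 6) (nat_lit 88) (nat_lit 3) (nat_lit 155) (nat_lit 136) (nat_lit 159)))))) (PT.nd (nat_lit 46644) (PT.nd (nat_lit 234) (PT.nd (nat_lit 78) (PT.lf (nat_lit 6764) (nat_lit 6) (nat_lit 89) (nat_lit 3) (nat_lit 156) (nat_lit 136) (nat_lit 158)) (PT.nd (nat_lit 78) (PT.lf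 (nat_lit 6840) (nat_lit 3) (nat_lit 90) (nat_lit 1) (nat_lit 157) (nat_lit 136) (nat_lit 157)) (PT.lf (nat_lit 6764) (nat_lit 6) (nat_lit 89) (nat_lit 1) (nat_lit 158) (nat_lit 136) (nat_lit 156)))) (PT.nd (nat_lit 156) (PT.nd (nat_lit 78) (PT.lf (nat_lit 6688) (nat_lit 6) (nat_lit 88) (nat_lit 1) (nat_lit 159) (nat_lit 136) (nat_lit 155)) (PT.lf (nat_lit 6612) (nat_lit 6) (nat_lit 87) (nat_lit 1) (nat_lit 160) (nat_lit 136) (nat_lit 154))) (PT.nd (nat_lit 46176) (PT.lf (nat_lit 6536) (nat_lit 6) (nat_lit 86) (nat_lit 1) (nat_lit 161) (nat_lit 136) (nat_lit 153)) (PT.lf (nat_lit 6916) (nat_lit 6) (nat_lit 91) (nat_lit 3) (nat_lit 152) (nat_lit 137) (nat_lit 161))))) (PT.nd (nat_lit 234) (PT.nd (nat_lit 78) (PT.lf (nat_lit 6992) (nat_lit 6) (nat_lit 92) (nat_lit 3) (nat_lit 153) (nat_lit 137) (nat_lit 160)) (PT.nd (nat_lit 78) (PT.lf (nat_lit 7068) (nat_lit 6) (nat_lit 93) (nat_lit 3) (nat_lit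 154) (nat_lit 137) (nat_lit 159)) (PT.lf (nat_lit 7144) (nat_lit 6) (nat_lit 94) (nat_lit 3) (nat_lit 155) (nat_lit 137) (nat_lit 158)))) (PT.nd (nat_lit 156) (PT.nd (nat_lit 78) (PT.lf (nat_lit 7220) (nat_lit 6) (nat_lit 95) (nat_lit 3) (nat_lit 156) (nat_lit 137) (nat_lit 157)) (PT.lf (nat_lit 7220) (nat_lit 6) (nat_lit 95) (nat_lit 1) (nat_lit 157) (nat_lit 137) (nat_lit 156))) (PT.nd (nat_lit 78) (PT.lf (nat_lit 7144) (nat_lit 6) (nat_lit 94) (nat_lit 1) (nat_lit 158) (nat_lit 137) (nat_lit 155)) (PT.lf (nat_lit 7068) (nat_lit 6) (nat_lit 93) (nat_lit 1) (nat_lit 159) (nat_lit 137) (nat_lit 154))))))))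
noncomputable def pc3 : PT := (PT.nd (nat_lit 140400) (PT.nd (nat_lit 93288) (PT.nd (nat_lit 46644) (PT.nd (nat_lit 46332) (PT.nd (nat_lit 78) (PT.lf (nat_lit 6992) (nat_lit 6) (nat_lit 92) (nat_lit 1) (nat_lit 160) (nat_lit 137) (nat_lit 153)) (PT.nd (nat_lit 46176) (PT.lf (nat_lit 6916) (nat_lit 6) (nat_lit 91) (nat_lit 1) (nat_lit 161) (nat_lit 137) (nat_lit 152)) (PT.lf (nat_lit 7296) (nat_lit 6) (nat_lit 96) (nat_lit 3) (nat_lit 152) (nat_lit 138) (nat_lit 160)))) (PT.nd (nat_lit 156) (PT.nd (nat_lit 78) (PT.lf (nat_lit 7372) (nat_lit 6) (nat_lit 97) (nat_lit 3) (nat_lit 153) (nat_lit 138) (nat_lit 159)) (PT.lf (nat_lit 7448) (nat_lit 6) (nat_lit 98) (nat_lit 3) (nat_lit 154) (nat_lit 138) (nat_lit 158))) (PT.nd (nat_lit 78) (PT.lf (nat_lit 7524) (nat_lit 6) (nat_lit 99) (nat_lit 3) (nat_lit 155) (nat_lit 138) (nat_lit 157)) (PT.lf (nat_lit 7600) (nat_lit 3) (nat_lit 100) (nat_lit 1) (nat_lit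 156) (nat_lit 138) (nat_lit 156))))) (PT.nd (nat_lit 234) (PT.nd (nat_lit 78) (PT.lf (nat_lit 7524) (nat_lit 6) (nat_lit 99) (nat_lit 1) (nat_lit 157) (nat_lit 138) (nat_lit 155)) (PT.nd (nat_lit 78) (PT.lf (nat_lit 7448) (nat_lit 6) (nat_lit 98) (nat_lit 1) (nat_lit 158) (nat_lit 138) (nat_lit 154)) (PT.lf (nat_lit 7372) (nat_lit 6) (nat_lit 97) (nat_lit 1) (nat_lit 159) (nat_lit 138) (nat_lit 153)))) (PT.nd (nat_lit 46254) (PT.nd (nat_lit 46176) (PT.lf (nat_lit 7296) (nat_lit 6) (nat_lit 96) (nat_lit 1) (nat_lit 160) (nat_lit 138) (nat_lit 152)) (PT.lf (nat_lit 7676) (nat_lit 6) (nat_lit 101) (nat_lit 3) (nat_lit 151) (nat_lit 139) (nat_lit 160))) (PT.nd (nat_lit 78) (PT.lf (nat_lit 7752) (nat_lit 6) (nat_lit 102) (nat_lit 3) (nat_lit 152) (nat_lit 139) (nat_lit 159)) (PT.lf (nat_lit 7828) (nat_lit 6) (nat_lit 103) (nat_lit 3) (nat_lit 153) (nat_lit 139) (nat_lit 158)))))) (PT.nd (nat_lit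 46566) (PT.nd (nat_lit 234) (PT.nd (nat_lit 78) (PT.lf (nat_lit 7904) (nat_lit 6) (nat_lit 104) (nat_lit 3) (nat_lit 154) (nat_lit 139) (nat_lit 157)) (PT.nd (nat_lit 78) (PT.lf (nat_lit 7980) (nat_lit 6) (nat_lit 105) (nat_lit 3) (nat_lit 155) (nat_lit 139) (nat_lit 156)) (PT.lf (nat_lit 7980) (nat_lit 6) (nat_lit 105) (nat_lit 1) (nat_lit 156) (nat_lit 139) (nat_lit 155)))) (PT.nd (nat_lit 156) (PT.nd (nat_lit 78) (PT.lf (nat_lit 7904) (nat_lit 6) (nat_lit 104) (nat_lit 1) (nat_lit 157) (nat_lit 139) (nat_lit 154)) (PT.lf (nat_lit 7828) (nat_lit 6) (nat_lit 103) (nat_lit 1) (nat_lit 158) (nat_lit 139) (nat_lit 153))) (PT.nd (nat_lit 78) (PT.lf (nat_lit 7752) (nat_lit 6) (nat_lit 102) (nat_lit 1) (nat_lit 159) (nat_lit 139) (nat_lit 152)) (PT.lf (nat_lit 7676) (nat_lit 6) (nat_lit 101) (nat_lit 1) (nat_lit 160) (nat_lit 139) (nat_lit 151))))) (PT.nd (nat_lit 234) (PT.nd (nat_lit 78) (PT.lf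 (nat_lit 8436) (nat_lit 6) (nat_lit 111) (nat_lit 3) (nat_lit 150) (nat_lit 140) (nat_lit 160)) (PT.nd (nat_lit 78) (PT.lf (nat_lit 8512) (nat_lit 6) (nat_lit 112) (nat_lit 3) (nat_lit 151) (nat_lit 140) (nat_lit 159)) (PT.lf (nat_lit 8588) (nat_lit 6) (nat_lit 113) (nat_lit 3) (nat_lit 152) (nat_lit 140) (nat_lit 158)))) (PT.nd (nat_lit 156) (PT.nd (nat_lit 78) (PT.lf (nat_lit 8664) (nat_lit 6) (nat_lit 114) (nat_lit 3) (nat_lit 153) (nat_lit 140) (nat_lit 157)) (PT.lf (nat_lit 8740) (nat_lit 6) (nat_lit 115) (nat_lit 3) (nat_lit 154) (nat_lit 140) (nat_lit 156))) (PT.nd (nat_lit 78) (PT.lf (nat_lit 8816) (nat_lit 3) (nat_lit 116) (nat_lit 1) (nat_lit 155) (nat_lit 140) (nat_lit 155)) (PT.lf (nat_lit 8740) (nat_lit 6) (nat_lit 115) (nat_lit 1) (nat_lit 156) (nat_lit 140) (nat_lit 154))))))) (PT.nd (nat_lit 47034) (PT.nd (nat_lit 46488) (PT.nd (nat_lit 234) (PT.nd (nat_lit 78) (PT.lf (nat_lit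 8664) (nat_lit 6) (nat_lit 114) (nat_lit 1) (nat_lit 157) (nat_lit 140) (nat_lit 153)) (PT.nd (nat_lit 78) (PT.lf (nat_lit 8588) (nat_lit 6) (nat_lit 113) (nat_lit 1) (nat_lit 158) (nat_lit 140) (nat_lit 152)) (PT.lf (nat_lit 8512) (nat_lit 6) (nat_lit 112) (nat_lit 1) (nat_lit 159) (nat_lit 140) (nat_lit 151)))) (PT.nd (nat_lit 46098) (PT.nd (nat_lit 46020) (PT.lf (nat_lit 8436) (nat_lit 6) (nat_lit 111) (nat_lit 1) (nat_lit 160) (nat_lit 140) (nat_lit 150)) (PT.lf (nat_lit 8360) (nat_lit 6) (nat_lit 110) (nat_lit 3) (nat_lit 149) (nat_lit 141) (nat_lit 160))) (PT.nd (nat_lit 78) (PT.lf (nat_lit 9196) (nat_lit 6) (nat_lit 121) (nat_lit 3) (nat_lit 150) (nat_lit 141) (nat_lit 159)) (PT.lf (nat_lit 9272) (nat_lit 6) (nat_lit 122) (nat_lit 3) (nat_lit 151) (nat_lit 141) (nat_lit 158))))) (PT.nd (nat_lit 234) (PT.nd (nat_lit 78) (PT.lf (nat_lit 9348) (nat_lit 6) (nat_lit 123) (nat_lit 3) (nat_lit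 152) (nat_lit 141) (nat_lit 157)) (PT.nd (nat_lit 78) (PT.lf (nat_lit 9424) (nat_lit 6) (nat_lit 124) (nat_lit 3) (nat_lit 153) (nat_lit 141) (nat_lit 156)) (PT.lf (nat_lit 9500) (nat_lit 6) (nat_lit 125) (nat_lit 3) (nat_lit 154) (nat_lit 141) (nat_lit 155)))) (PT.nd (nat_lit 156) (PT.nd (nat_lit 78) (PT.lf (nat_lit 9500) (nat_lit 6) (nat_lit 125) (nat_lit 1) (nat_lit 155) (nat_lit 141) (nat_lit 154)) (PT.lf (nat_lit 9424) (nat_lit 6) (nat_lit 124) (nat_lit 1) (nat_lit 156) (nat_lit 141) (nat_lit 153))) (PT.nd (nat_lit 78) (PT.lf (nat_lit 9348) (nat_lit 6) (nat_lit 123) (nat_lit 1) (nat_lit 157) (nat_lit 141) (nat_lit 152)) (PT.lf (nat_lit 9272) (nat_lit 6) (nat_lit 122) (nat_lit 1) (nat_lit 158) (nat_lit 141) (nat_lit 151)))))) (PT.nd (nat_lit 46410) (PT.nd (nat_lit 46098) (PT.nd (nat_lit 78) (PT.lf (nat_lit 9196) (nat_lit 6) (nat_lit 121) (nat_lit 1) (nat_lit 159) (nat_lit 141) (nat_lit 150))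 (PT.nd (nat_lit 45942) (PT.lf (nat_lit 8360) (nat_lit 6) (nat_lit 110) (nat_lit 1) (nat_lit 160) (nat_lit 141) (nat_lit 149)) (PT.lf (nat_lit 8284) (nat_lit 6) (nat_lit 109) (nat_lit 3) (nat_lit 148) (nat_lit 142) (nat_lit 160)))) (PT.nd (nat_lit 156) (PT.nd (nat_lit 78) (PT.lf (nat_lit 9120) (nat_lit 6) (nat_lit 120) (nat_lit 3) (nat_lit 149) (nat_lit 142) (nat_lit 159)) (PT.lf (nat_lit 9880) (nat_lit 6) (nat_lit 130) (nat_lit 3) (nat_lit 150) (nat_lit 142) (nat_lit 158))) (PT.nd (nat_lit 78) (PT.lf (nat_lit 9956) (nat_lit 6) (nat_lit 131) (nat_lit 3) (nat_lit 151) (nat_lit 142) (nat_lit 157)) (PT.lf (nat_lit 10032) (nat_lit 6) (nat_lit 132) (nat_lit 3) (nat_lit 152) (nat_lit 142) (nat_lit 156))))) (PT.nd (nat_lit 234) (PT.nd (nat_lit 78) (PT.lf (nat_lit 10108) (nat_lit 6) (nat_lit 133) (nat_lit 3) (nat_lit 153) (nat_lit 142) (nat_lit 155)) (PT.nd (nat_lit 78) (PT.lf (nat_lit 10184) (nat_lit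 3) (nat_lit 134) (nat_lit 1) (nat_lit 154) (nat_lit 142) (nat_lit 154)) (PT.lf (nat_lit 10108) (nat_lit 6) (nat_lit 133) (nat_lit 1) (nat_lit 155) (nat_lit 142) (nat_lit 153)))) (PT.nd (nat_lit 156) (PT.nd (nat_lit 78) (PT.lf (nat_lit 10032) (nat_lit 6) (nat_lit 132) (nat_lit 1) (nat_lit 156) (nat_lit 142) (nat_lit 152)) (PT.lf (nat_lit 9956) (nat_lit 6) (nat_lit 131) (nat_lit 1) (nat_lit 157) (nat_lit 142) (nat_lit 151))) (PT.nd (nat_lit 78) (PT.lf (nat_lit 9880) (nat_lit 6) (nat_lit 130) (nat_lit 1) (nat_lit 158) (nat_lit 142) (nat_lit 150)) (PT.lf (nat_lit 9120) (nat_lit 6) (nat_lit 120) (nat_lit 1) (nat_lit 159) (nat_lit 142) (nat_lit 149))))))))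
noncomputable def pc4 : PT := (PT.nd (nat_lit 93678) (PT.nd (nat_lit 46878) (PT.nd (nat_lit 46332) (PT.nd (nat_lit 46020) (PT.nd (nat_lit 45864) (PT.lf (nat_lit 8284) (nat_lit 6) (nat_lit 109) (nat_lit 1) (nat_lit 160) (nat_lit 142) (nat_lit 148)) (PT.nd (nat_lit 78) (PT.lf (nat_lit 8208) (nat_lit 6) (nat_lit 108) (nat_lit 3) (nat_lit 147) (nat_lit 143) (nat_lit 160)) (PT.lf (nat_lit 9044) (nat_lit 6) (nat_lit 119) (nat_lit 3) (nat_lit 148) (nat_lit 143) (nat_lit 159)))) (PT.nd (nat_lit 156) (PT.nd (nat_lit 78) (PT.lf (nat_lit 9804) (nat_lit 6) (nat_lit 129) (nat_lit 3) (nat_lit 149) (nat_lit 143) (nat_lit 158)) (PT.lf (nat_lit 10488) (nat_lit 6) (nat_lit 138) (nat_lit 3) (nat_lit 150) (nat_lit 143) (nat_lit 157))) (PT.nd (nat_lit 78) (PT.lf (nat_lit 10564) (nat_lit 6) (nat_lit 139) (nat_lit 3) (nat_lit 151) (nat_lit 143) (nat_lit 156)) (PT.lf (nat_lit 10640) (nat_lit 6) (nat_lit 140) (nat_lit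 3) (nat_lit 152) (nat_lit 143) (nat_lit 155))))) (PT.nd (nat_lit 234) (PT.nd (nat_lit 78) (PT.lf (nat_lit 10716) (nat_lit 6) (nat_lit 141) (nat_lit 3) (nat_lit 153) (nat_lit 143) (nat_lit 154)) (PT.nd (nat_lit 78) (PT.lf (nat_lit 10716) (nat_lit 6) (nat_lit 141) (nat_lit 1) (nat_lit 154) (nat_lit 143) (nat_lit 153)) (PT.lf (nat_lit 10640) (nat_lit 6) (nat_lit 140) (nat_lit 1) (nat_lit 155) (nat_lit 143) (nat_lit 152)))) (PT.nd (nat_lit 156) (PT.nd (nat_lit 78) (PT.lf (nat_lit 10564) (nat_lit 6) (nat_lit 139) (nat_lit 1) (nat_lit 156) (nat_lit 143) (nat_lit 151)) (PT.lf (nat_lit 10488) (nat_lit 6) (nat_lit 138) (nat_lit 1) (nat_lit 157) (nat_lit 143) (nat_lit 150))) (PT.nd (nat_lit 78) (PT.lf (nat_lit 9804) (nat_lit 6) (nat_lit 129) (nat_lit 1) (nat_lit 158) (nat_lit 143) (nat_lit 149)) (PT.lf (nat_lit 9044) (nat_lit 6) (nat_lit 119) (nat_lit 1) (nat_lit 159) (nat_lit 143) (nat_lit 148))))))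 (PT.nd (nat_lit 46254) (PT.nd (nat_lit 45942) (PT.nd (nat_lit 45786) (PT.lf (nat_lit 8208) (nat_lit 6) (nat_lit 108) (nat_lit 1) (nat_lit 160) (nat_lit 143) (nat_lit 147)) (PT.nd (nat_lit 78) (PT.lf (nat_lit 8132) (nat_lit 6) (nat_lit 107) (nat_lit 3) (nat_lit 146) (nat_lit 144) (nat_lit 160)) (PT.lf (nat_lit 8968) (nat_lit 6) (nat_lit 118) (nat_lit 3) (nat_lit 147) (nat_lit 144) (nat_lit 159)))) (PT.nd (nat_lit 156) (PT.nd (nat_lit 78) (PT.lf (nat_lit 9728) (nat_lit 6) (nat_lit 128) (nat_lit 3) (nat_lit 148) (nat_lit 144) (nat_lit 158)) (PT.lf (nat_lit 10412) (nat_lit 6) (nat_lit 137) (nat_lit 3) (nat_lit 149) (nat_lit 144) (nat_lit 157))) (PT.nd (nat_lit 78) (PT.lf (nat_lit 11020) (nat_lit 6) (nat_lit 145) (nat_lit 3) (nat_lit 150) (nat_lit 144) (nat_lit 156)) (PT.lf (nat_lit 11096) (nat_lit 6) (nat_lit 146) (nat_lit 3) (nat_lit 151) (nat_lit 144) (nat_lit 155))))) (PT.nd (nat_lit 234) (PT.nd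 (nat_lit 78) (PT.lf (nat_lit 11172) (nat_lit 6) (nat_lit 147) (nat_lit 3) (nat_lit 152) (nat_lit 144) (nat_lit 154)) (PT.nd (nat_lit 78) (PT.lf (nat_lit 11248) (nat_lit 3) (nat_lit 148) (nat_lit 1) (nat_lit 153) (nat_lit 144) (nat_lit 153)) (PT.lf (nat_lit 11172) (nat_lit 6) (nat_lit 147) (nat_lit 1) (nat_lit 154) (nat_lit 144) (nat_lit 152)))) (PT.nd (nat_lit 156) (PT.nd (nat_lit 78) (PT.lf (nat_lit 11096) (nat_lit 6) (nat_lit 146) (nat_lit 1) (nat_lit 155) (nat_lit 144) (nat_lit 151)) (PT.lf (nat_lit 11020) (nat_lit 6) (nat_lit 145) (nat_lit 1) (nat_lit 156) (nat_lit 144) (nat_lit 150))) (PT.nd (nat_lit 78) (PT.lf (nat_lit 10412) (nat_lit 6) (nat_lit 137) (nat_lit 1) (nat_lit 157) (nat_lit 144) (nat_lit 149)) (PT.lf (nat_lit 9728) (nat_lit 6) (nat_lit 128) (nat_lit 1) (nat_lit 158) (nat_lit 144) (nat_lit 148))))))) (PT.nd (nat_lit 46722) (PT.nd (nat_lit 46176) (PT.nd (nat_lit 45864) (PT.nd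 (nat_lit 78) (PT.lf (nat_lit 8968) (nat_lit 6) (nat_lit 118) (nat_lit 1) (nat_lit 159) (nat_lit 144) (nat_lit 147)) (PT.nd (nat_lit 45708) (PT.lf (nat_lit 8132) (nat_lit 6) (nat_lit 107) (nat_lit 1) (nat_lit 160) (nat_lit 144) (nat_lit 146)) (PT.lf (nat_lit 8056) (nat_lit 3) (nat_lit 106) (nat_lit 3) (nat_lit 145) (nat_lit 145) (nat_lit 160)))) (PT.nd (nat_lit 156) (PT.nd (nat_lit 78) (PT.lf (nat_lit 8892) (nat_lit 6) (nat_lit 117) (nat_lit 3) (nat_lit 146) (nat_lit 145) (nat_lit 159)) (PT.lf (nat_lit 9652) (nat_lit 6) (nat_lit 127) (nat_lit 3) (nat_lit 147) (nat_lit 145) (nat_lit 158))) (PT.nd (nat_lit 78) (PT.lf (nat_lit 10336) (nat_lit 6) (nat_lit 136) (nat_lit 3) (nat_lit 148) (nat_lit 145) (nat_lit 157)) (PT.lf (nat_lit 10944) (nat_lit 6) (nat_lit 144) (nat_lit 3) (nat_lit 149) (nat_lit 145) (nat_lit 156))))) (PT.nd (nat_lit 234) (PT.nd (nat_lit 78) (PT.lf (nat_lit 11476) (nat_lit 6) (nat_lit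 151) (nat_lit 3) (nat_lit 150) (nat_lit 145) (nat_lit 155)) (PT.nd (nat_lit 78) (PT.lf (nat_lit 11552) (nat_lit 6) (nat_lit 152) (nat_lit 3) (nat_lit 151) (nat_lit 145) (nat_lit 154)) (PT.lf (nat_lit 11628) (nat_lit 6) (nat_lit 153) (nat_lit 3) (nat_lit 152) (nat_lit 145) (nat_lit 153)))) (PT.nd (nat_lit 156) (PT.nd (nat_lit 78) (PT.lf (nat_lit 11628) (nat_lit 6) (nat_lit 153) (nat_lit 1) (nat_lit 153) (nat_lit 145) (nat_lit 152)) (PT.lf (nat_lit 11552) (nat_lit 6) (nat_lit 152) (nat_lit 1) (nat_lit 154) (nat_lit 145) (nat_lit 151))) (PT.nd (nat_lit 78) (PT.lf (nat_lit 11476) (nat_lit 6) (nat_lit 151) (nat_lit 1) (nat_lit 155) (nat_lit 145) (nat_lit 150)) (PT.lf (nat_lit 10944) (nat_lit 6) (nat_lit 144) (nat_lit 1) (nat_lit 156) (nat_lit 145) (nat_lit 149)))))) (PT.nd (nat_lit 46098) (PT.nd (nat_lit 234) (PT.nd (nat_lit 78) (PT.lf (nat_lit 10336) (nat_lit 6) (nat_lit 136) (nat_lit 1) (nat_lit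 157) (nat_lit 145) (nat_lit 148)) (PT.nd (nat_lit 78) (PT.lf (nat_lit 9652) (nat_lit 6) (nat_lit 127) (nat_lit 1) (nat_lit 158) (nat_lit 145) (nat_lit 147)) (PT.lf (nat_lit 8892) (nat_lit 6) (nat_lit 117) (nat_lit 1) (nat_lit 159) (nat_lit 145) (nat_lit 146)))) (PT.nd (nat_lit 45708) (PT.nd (nat_lit 45630) (PT.lf (nat_lit 8056) (nat_lit 3) (nat_lit 106) (nat_lit 0) (nat_lit 160) (nat_lit 145) (nat_lit 145)) (PT.lf (nat_lit 8132) (nat_lit 6) (nat_lit 107) (nat_lit 5) (nat_lit 144) (nat_lit 146) (nat_lit 160))) (PT.nd (nat_lit 78) (PT.lf (nat_lit 8892) (nat_lit 6) (nat_lit 117) (nat_lit 5) (nat_lit 145) (nat_lit 146) (nat_lit 159)) (PT.lf (nat_lit 9576) (nat_lit 3) (nat_lit 126) (nat_lit 3) (nat_lit 146) (nat_lit 146) (nat_lit 158))))) (PT.nd (nat_lit 234) (PT.nd (nat_lit 78) (PT.lf (nat_lit 10260) (nat_lit 6) (nat_lit 135) (nat_lit 3) (nat_lit 147) (nat_lit 146) (nat_lit 157)) (PT.nd (nat_lit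 78) (PT.lf (nat_lit 10868) (nat_lit 6) (nat_lit 143) (nat_lit 3) (nat_lit 148) (nat_lit 146) (nat_lit 156)) (PT.lf (nat_lit 11400) (nat_lit 6) (nat_lit 150) (nat_lit 3) (nat_lit 149) (nat_lit 146) (nat_lit 155)))) (PT.nd (nat_lit 156) (PT.nd (nat_lit 78) (PT.lf (nat_lit 11856) (nat_lit 6) (nat_lit 156) (nat_lit 3) (nat_lit 150) (nat_lit 146) (nat_lit 154)) (PT.lf (nat_lit 11932) (nat_lit 6) (nat_lit 157) (nat_lit 3) (nat_lit 151) (nat_lit 146) (nat_lit 153))) (PT.nd (nat_lit 78) (PT.lf (nat_lit 12008) (nat_lit 3) (nat_lit 158) (nat_lit 1) (nat_lit 152) (nat_lit 146) (nat_lit 152)) (PT.lf (nat_lit 11932) (nat_lit 6) (nat_lit 157) (nat_lit 1) (nat_lit 153) (nat_lit 146) (nat_lit 151))))))))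
noncomputable def pc5 : PT := (PT.nd (nat_lit 93054) (PT.nd (nat_lit 46566) (PT.nd (nat_lit 46020) (PT.nd (nat_lit 234) (PT.nd (nat_lit 78) (PT.lf (nat_lit 11856) (nat_lit 6) (nat_lit 156) (nat_lit 1) (nat_lit 154) (nat_lit 146) (nat_lit 150)) (PT.nd (nat_lit 78) (PT.lf (nat_lit 11400) (nat_lit 6) (nat_lit 150) (nat_lit 1) (nat_lit 155) (nat_lit 146) (nat_lit 149)) (PT.lf (nat_lit 10868) (nat_lit 6) (nat_lit 143) (nat_lit 1) (nat_lit 156) (nat_lit 146) (nat_lit 148)))) (PT.nd (nat_lit 156) (PT.nd (nat_lit 78) (PT.lf (nat_lit 10260) (nat_lit 6) (nat_lit 135) (nat_lit 1) (nat_lit 157) (nat_lit 146) (nat_lit 147)) (PT.lf (nat_lit 9576) (nat_lit 3) (nat_lit 126) (nat_lit 0) (nat_lit 158) (nat_lit 146) (nat_lit 146))) (PT.nd (nat_lit 78) (PT.lf (nat_lit 8892) (nat_lit 6) (nat_lit 117) (nat_lit 0) (nat_lit 159) (nat_lit 146) (nat_lit 145)) (PT.lf (nat_lit 8132) (nat_lit 6) (nat_lit 107) (nat_lit 0)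 (nat_lit 160) (nat_lit 146) (nat_lit 144))))) (PT.nd (nat_lit 234) (PT.nd (nat_lit 78) (PT.lf (nat_lit 8208) (nat_lit 6) (nat_lit 108) (nat_lit 5) (nat_lit 143) (nat_lit 147) (nat_lit 160)) (PT.nd (nat_lit 78) (PT.lf (nat_lit 8968) (nat_lit 6) (nat_lit 118) (nat_lit 5) (nat_lit 144) (nat_lit 147) (nat_lit 159)) (PT.lf (nat_lit 9652) (nat_lit 6) (nat_lit 127) (nat_lit 5) (nat_lit 145) (nat_lit 147) (nat_lit 158)))) (PT.nd (nat_lit 156) (PT.nd (nat_lit 78) (PT.lf (nat_lit 10260) (nat_lit 6) (nat_lit 135) (nat_lit 5) (nat_lit 146) (nat_lit 147) (nat_lit 157)) (PT.lf (nat_lit 10792) (nat_lit 3) (nat_lit 142) (nat_lit 3) (nat_lit 147) (nat_lit 147) (nat_lit 156))) (PT.nd (nat_lit 78) (PT.lf (nat_lit 11324) (nat_lit 6) (nat_lit 149) (nat_lit 3) (nat_lit 148) (nat_lit 147) (nat_lit 155)) (PT.lf (nat_lit 11780) (nat_lit 6) (nat_lit 155) (nat_lit 3) (nat_lit 149) (nat_lit 147) (nat_lit 154)))))) (PT.nd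 (nat_lit 546) (PT.nd (nat_lit 234) (PT.nd (nat_lit 78) (PT.lf (nat_lit 12160) (nat_lit 6) (nat_lit 160) (nat_lit 3) (nat_lit 150) (nat_lit 147) (nat_lit 153)) (PT.nd (nat_lit 78) (PT.lf (nat_lit 12236) (nat_lit 6) (nat_lit 161) (nat_lit 3) (nat_lit 151) (nat_lit 147) (nat_lit 152)) (PT.lf (nat_lit 12236) (nat_lit 6) (nat_lit 161) (nat_lit 1) (nat_lit 152) (nat_lit 147) (nat_lit 151)))) (PT.nd (nat_lit 156) (PT.nd (nat_lit 78) (PT.lf (nat_lit 12160) (nat_lit 6) (nat_lit 160) (nat_lit 1) (nat_lit 153) (nat_lit 147) (nat_lit 150)) (PT.lf (nat_lit 11780) (nat_lit 6) (nat_lit 155) (nat_lit 1) (nat_lit 154) (nat_lit 147) (nat_lit 149))) (PT.nd (nat_lit 78) (PT.lf (nat_lit 11324) (nat_lit 6) (nat_lit 149) (nat_lit 1) (nat_lit 155) (nat_lit 147) (nat_lit 148)) (PT.lf (nat_lit 10792) (nat_lit 3) (nat_lit 142) (nat_lit 0) (nat_lit 156) (nat_lit 147) (nat_lit 147))))) (PT.nd (nat_lit 234) (PT.nd (nat_lit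 78) (PT.lf (nat_lit 10260) (nat_lit 6) (nat_lit 135) (nat_lit 0) (nat_lit 157) (nat_lit 147) (nat_lit 146)) (PT.nd (nat_lit 78) (PT.lf (nat_lit 9652) (nat_lit 6) (nat_lit 127) (nat_lit 0) (nat_lit 158) (nat_lit 147) (nat_lit 145)) (PT.lf (nat_lit 8968) (nat_lit 6) (nat_lit 118) (nat_lit 0) (nat_lit 159) (nat_lit 147) (nat_lit 144)))) (PT.nd (nat_lit 45552) (PT.nd (nat_lit 45474) (PT.lf (nat_lit 8208) (nat_lit 6) (nat_lit 108) (nat_lit 0) (nat_lit 160) (nat_lit 147) (nat_lit 143)) (PT.lf (nat_lit 8284) (nat_lit 6) (nat_lit 109) (nat_lit 5) (nat_lit 142) (nat_lit 148) (nat_lit 160))) (PT.nd (nat_lit 78) (PT.lf (nat_lit 9044) (nat_lit 6) (nat_lit 119) (nat_lit 5) (nat_lit 143) (nat_lit 148) (nat_lit 159)) (PT.lf (nat_lit 9728) (nat_lit 6) (nat_lit 128) (nat_lit 5) (nat_lit 144) (nat_lit 148) (nat_lit 158))))))) (PT.nd (nat_lit 1092) (PT.nd (nat_lit 546) (PT.nd (nat_lit 234) (PT.nd (nat_lit 78)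 (PT.lf (nat_lit 10336) (nat_lit 6) (nat_lit 136) (nat_lit 5) (nat_lit 145) (nat_lit 148) (nat_lit 157)) (PT.nd (nat_lit 78) (PT.lf (nat_lit 10868) (nat_lit 6) (nat_lit 143) (nat_lit 5) (nat_lit 146) (nat_lit 148) (nat_lit 156)) (PT.lf (nat_lit 11324) (nat_lit 6) (nat_lit 149) (nat_lit 5) (nat_lit 147) (nat_lit 148) (nat_lit 155)))) (PT.nd (nat_lit 156) (PT.nd (nat_lit 78) (PT.lf (nat_lit 11704) (nat_lit 3) (nat_lit 154) (nat_lit 3) (nat_lit 148) (nat_lit 148) (nat_lit 154)) (PT.lf (nat_lit 12084) (nat_lit 6) (nat_lit 159) (nat_lit 3) (nat_lit 149) (nat_lit 148) (nat_lit 153))) (PT.nd (nat_lit 78) (PT.lf (nat_lit 12388) (nat_lit 6) (nat_lit 163) (nat_lit 3) (nat_lit 150) (nat_lit 148) (nat_lit 152)) (PT.lf (nat_lit 12464) (nat_lit 3) (nat_lit 164) (nat_lit 1) (nat_lit 151) (nat_lit 148) (nat_lit 151))))) (PT.nd (nat_lit 234) (PT.nd (nat_lit 78) (PT.lf (nat_lit 12388) (nat_lit 6) (nat_lit 163)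 (nat_lit 1) (nat_lit 152) (nat_lit 148) (nat_lit 150)) (PT.nd (nat_lit 78) (PT.lf (nat_lit 12084) (nat_lit 6) (nat_lit 159) (nat_lit 1) (nat_lit 153) (nat_lit 148) (nat_lit 149)) (PT.lf (nat_lit 11704) (nat_lit 3) (nat_lit 154) (nat_lit 0) (nat_lit 154) (nat_lit 148) (nat_lit 148)))) (PT.nd (nat_lit 156) (PT.nd (nat_lit 78) (PT.lf (nat_lit 11324) (nat_lit 6) (nat_lit 149) (nat_lit 0) (nat_lit 155) (nat_lit 148) (nat_lit 147)) (PT.lf (nat_lit 10868) (nat_lit 6) (nat_lit 143) (nat_lit 0) (nat_lit 156) (nat_lit 148) (nat_lit 146))) (PT.nd (nat_lit 78) (PT.lf (nat_lit 10336) (nat_lit 6) (nat_lit 136) (nat_lit 0) (nat_lit 157) (nat_lit 148) (nat_lit 145)) (PT.lf (nat_lit 9728) (nat_lit 6) (nat_lit 128) (nat_lit 0) (nat_lit 158) (nat_lit 148) (nat_lit 144)))))) (PT.nd (nat_lit 45864) (PT.nd (nat_lit 45552) (PT.nd (nat_lit 78) (PT.lf (nat_lit 9044) (nat_lit 6) (nat_lit 119) (nat_lit 0) (nat_lit 159)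 (nat_lit 148) (nat_lit 143)) (PT.nd (nat_lit 45396) (PT.lf (nat_lit 8284) (nat_lit 6) (nat_lit 109) (nat_lit 0) (nat_lit 160) (nat_lit 148) (nat_lit 142)) (PT.lf (nat_lit 8360) (nat_lit 6) (nat_lit 110) (nat_lit 5) (nat_lit 141) (nat_lit 149) (nat_lit 160)))) (PT.nd (nat_lit 156) (PT.nd (nat_lit 78) (PT.lf (nat_lit 9120) (nat_lit 6) (nat_lit 120) (nat_lit 5) (nat_lit 142) (nat_lit 149) (nat_lit 159)) (PT.lf (nat_lit 9804) (nat_lit 6) (nat_lit 129) (nat_lit 5) (nat_lit 143) (nat_lit 149) (nat_lit 158))) (PT.nd (nat_lit 78) (PT.lf (nat_lit 10412) (nat_lit 6) (nat_lit 137) (nat_lit 5) (nat_lit 144) (nat_lit 149) (nat_lit 157)) (PT.lf (nat_lit 10944) (nat_lit 6) (nat_lit 144) (nat_lit 5) (nat_lit 145) (nat_lit 149) (nat_lit 156))))) (PT.nd (nat_lit 234) (PT.nd (nat_lit 78) (PT.lf (nat_lit 11400) (nat_lit 6) (nat_lit 150) (nat_lit 5) (nat_lit 146) (nat_lit 149) (nat_lit 155)) (PT.nd (nat_lit 78)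 (PT.lf (nat_lit 11780) (nat_lit 6) (nat_lit 155) (nat_lit 5) (nat_lit 147) (nat_lit 149) (nat_lit 154)) (PT.lf (nat_lit 12084) (nat_lit 6) (nat_lit 159) (nat_lit 5) (nat_lit 148) (nat_lit 149) (nat_lit 153)))) (PT.nd (nat_lit 156) (PT.nd (nat_lit 78) (PT.lf (nat_lit 12312) (nat_lit 3) (nat_lit 162) (nat_lit 3) (nat_lit 149) (nat_lit 149) (nat_lit 152)) (PT.lf (nat_lit 12540) (nat_lit 6) (nat_lit 165) (nat_lit 3) (nat_lit 150) (nat_lit 149) (nat_lit 151))) (PT.nd (nat_lit 78) (PT.lf (nat_lit 12540) (nat_lit 6) (nat_lit 165) (nat_lit 1) (nat_lit 151) (nat_lit 149) (nat_lit 150)) (PT.lf (nat_lit 12312) (nat_lit 3) (nat_lit 162) (nat_lit 0) (nat_lit 152) (nat_lit 149) (nat_lit 149))))))))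
noncomputable def pc6 : PT := (PT.nd (nat_lit 47424) (PT.nd (nat_lit 46332) (PT.nd (nat_lit 546) (PT.nd (nat_lit 234) (PT.nd (nat_lit 78) (PT.lf (nat_lit 12084) (nat_lit 6) (nat_lit 159) (nat_lit 0) (nat_lit 153) (nat_lit 149) (nat_lit 148)) (PT.nd (nat_lit 78) (PT.lf (nat_lit 11780) (nat_lit 6) (nat_lit 155) (nat_lit 0) (nat_lit 154) (nat_lit 149) (nat_lit 147)) (PT.lf (nat_lit 11400) (nat_lit 6) (nat_lit 150) (nat_lit 0) (nat_lit 155) (nat_lit 149) (nat_lit 146)))) (PT.nd (nat_lit 156) (PT.nd (nat_lit 78) (PT.lf (nat_lit 10944) (nat_lit 6) (nat_lit 144) (nat_lit 0) (nat_lit 156) (nat_lit 149) (nat_lit 145)) (PT.lf (nat_lit 10412) (nat_lit 6) (nat_lit 137) (nat_lit 0) (nat_lit 157) (nat_lit 149) (nat_lit 144))) (PT.nd (nat_lit 78) (PT.lf (nat_lit 9804) (nat_lit 6) (nat_lit 129) (nat_lit 0) (nat_lit 158) (nat_lit 149) (nat_lit 143)) (PT.lf (nat_lit 9120) (nat_lit 6) (nat_lit 120) (nat_lit 0)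 (nat_lit 159) (nat_lit 149) (nat_lit 142))))) (PT.nd (nat_lit 45474) (PT.nd (nat_lit 45318) (PT.lf (nat_lit 8360) (nat_lit 6) (nat_lit 110) (nat_lit 0) (nat_lit 160) (nat_lit 149) (nat_lit 141)) (PT.nd (nat_lit 78) (PT.lf (nat_lit 8436) (nat_lit 6) (nat_lit 111) (nat_lit 5) (nat_lit 140) (nat_lit 150) (nat_lit 160)) (PT.lf (nat_lit 9196) (nat_lit 6) (nat_lit 121) (nat_lit 5) (nat_lit 141) (nat_lit 150) (nat_lit 159)))) (PT.nd (nat_lit 156) (PT.nd (nat_lit 78) (PT.lf (nat_lit 9880) (nat_lit 6) (nat_lit 130) (nat_lit 5) (nat_lit 142) (nat_lit 150) (nat_lit 158)) (PT.lf (nat_lit 10488) (nat_lit 6) (nat_lit 138) (nat_lit 5) (nat_lit 143) (nat_lit 150) (nat_lit 157))) (PT.nd (nat_lit 78) (PT.lf (nat_lit 11020) (nat_lit 6) (nat_lit 145) (nat_lit 5) (nat_lit 144) (nat_lit 150) (nat_lit 156)) (PT.lf (nat_lit 11476) (nat_lit 6) (nat_lit 151) (nat_lit 5) (nat_lit 145) (nat_lit 150) (nat_lit 155))))))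 (PT.nd (nat_lit 546) (PT.nd (nat_lit 234) (PT.nd (nat_lit 78) (PT.lf (nat_lit 11856) (nat_lit 6) (nat_lit 156) (nat_lit 5) (nat_lit 146) (nat_lit 150) (nat_lit 154)) (PT.nd (nat_lit 78) (PT.lf (nat_lit 12160) (nat_lit 6) (nat_lit 160) (nat_lit 5) (nat_lit 147) (nat_lit 150) (nat_lit 153)) (PT.lf (nat_lit 12388) (nat_lit 6) (nat_lit 163) (nat_lit 5) (nat_lit 148) (nat_lit 150) (nat_lit 152)))) (PT.nd (nat_lit 156) (PT.nd (nat_lit 78) (PT.lf (nat_lit 12540) (nat_lit 6) (nat_lit 165) (nat_lit 5) (nat_lit 149) (nat_lit 150) (nat_lit 151)) (PT.lf (nat_lit 12616) (nat_lit 1) (nat_lit 166) (nat_lit 0) (nat_lit 150) (nat_lit 150) (nat_lit 150))) (PT.nd (nat_lit 78) (PT.lf (nat_lit 12540) (nat_lit 6) (nat_lit 165) (nat_lit 0) (nat_lit 151) (nat_lit 150) (nat_lit 149)) (PT.lf (nat_lit 12388) (nat_lit 6) (nat_lit 163) (nat_lit 0) (nat_lit 152) (nat_lit 150) (nat_lit 148))))) (PT.nd (nat_lit 234) (PT.nd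 (nat_lit 78) (PT.lf (nat_lit 12160) (nat_lit 6) (nat_lit 160) (nat_lit 0) (nat_lit 153) (nat_lit 150) (nat_lit 147)) (PT.nd (nat_lit 78) (PT.lf (nat_lit 11856) (nat_lit 6) (nat_lit 156) (nat_lit 0) (nat_lit 154) (nat_lit 150) (nat_lit 146)) (PT.lf (nat_lit 11476) (nat_lit 6) (nat_lit 151) (nat_lit 0) (nat_lit 155) (nat_lit 150) (nat_lit 145)))) (PT.nd (nat_lit 156) (PT.nd (nat_lit 78) (PT.lf (nat_lit 11020) (nat_lit 6) (nat_lit 145) (nat_lit 0) (nat_lit 156) (nat_lit 150) (nat_lit 144)) (PT.lf (nat_lit 10488) (nat_lit 6) (nat_lit 138) (nat_lit 0) (nat_lit 157) (nat_lit 150) (nat_lit 143))) (PT.nd (nat_lit 78) (PT.lf (nat_lit 9880) (nat_lit 6) (nat_lit 130) (nat_lit 0) (nat_lit 158) (nat_lit 150) (nat_lit 142)) (PT.lf (nat_lit 9196) (nat_lit 6) (nat_lit 121) (nat_lit 0) (nat_lit 159) (nat_lit 150) (nat_lit 141))))))) (PT.nd (nat_lit 46254) (PT.nd (nat_lit 45708) (PT.nd (nat_lit 45396) (PT.nd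 (nat_lit 45240) (PT.lf (nat_lit 8436) (nat_lit 6) (nat_lit 111) (nat_lit 0) (nat_lit 160) (nat_lit 150) (nat_lit 140)) (PT.nd (nat_lit 78) (PT.lf (nat_lit 7676) (nat_lit 6) (nat_lit 101) (nat_lit 5) (nat_lit 139) (nat_lit 151) (nat_lit 160)) (PT.lf (nat_lit 8512) (nat_lit 6) (nat_lit 112) (nat_lit 5) (nat_lit 140) (nat_lit 151) (nat_lit 159)))) (PT.nd (nat_lit 156) (PT.nd (nat_lit 78) (PT.lf (nat_lit 9272) (nat_lit 6) (nat_lit 122) (nat_lit 5) (nat_lit 141) (nat_lit 151) (nat_lit 158)) (PT.lf (nat_lit 9956) (nat_lit 6) (nat_lit 131) (nat_lit 5) (nat_lit 142) (nat_lit 151) (nat_lit 157))) (PT.nd (nat_lit 78) (PT.lf (nat_lit 10564) (nat_lit 6) (nat_lit 139) (nat_lit 5) (nat_lit 143) (nat_lit 151) (nat_lit 156)) (PT.lf (nat_lit 11096) (nat_lit 6) (nat_lit 146) (nat_lit 5) (nat_lit 144) (nat_lit 151) (nat_lit 155))))) (PT.nd (nat_lit 234) (PT.nd (nat_lit 78) (PT.lf (nat_lit 11552) (nat_lit 6) (nat_lit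 152) (nat_lit 5) (nat_lit 145) (nat_lit 151) (nat_lit 154)) (PT.nd (nat_lit 78) (PT.lf (nat_lit 11932) (nat_lit 6) (nat_lit 157) (nat_lit 5) (nat_lit 146) (nat_lit 151) (nat_lit 153)) (PT.lf (nat_lit 12236) (nat_lit 6) (nat_lit 161) (nat_lit 5) (nat_lit 147) (nat_lit 151) (nat_lit 152)))) (PT.nd (nat_lit 156) (PT.nd (nat_lit 78) (PT.lf (nat_lit 12464) (nat_lit 3) (nat_lit 164) (nat_lit 4) (nat_lit 148) (nat_lit 151) (nat_lit 151)) (PT.lf (nat_lit 12540) (nat_lit 6) (nat_lit 165) (nat_lit 4) (nat_lit 149) (nat_lit 151) (nat_lit 150))) (PT.nd (nat_lit 78) (PT.lf (nat_lit 12540) (nat_lit 6) (nat_lit 165) (nat_lit 2) (nat_lit 150) (nat_lit 151) (nat_lit 149)) (PT.lf (nat_lit 12464) (nat_lit 3) (nat_lit 164) (nat_lit 0) (nat_lit 151) (nat_lit 151) (nat_lit 148)))))) (PT.nd (nat_lit 546) (PT.nd (nat_lit 234) (PT.nd (nat_lit 78) (PT.lf (nat_lit 12236) (nat_lit 6) (nat_lit 161) (nat_lit 0) (nat_lit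 152) (nat_lit 151) (nat_lit 147)) (PT.nd (nat_lit 78) (PT.lf (nat_lit 11932) (nat_lit 6) (nat_lit 157) (nat_lit 0) (nat_lit 153) (nat_lit 151) (nat_lit 146)) (PT.lf (nat_lit 11552) (nat_lit 6) (nat_lit 152) (nat_lit 0) (nat_lit 154) (nat_lit 151) (nat_lit 145)))) (PT.nd (nat_lit 156) (PT.nd (nat_lit 78) (PT.lf (nat_lit 11096) (nat_lit 6) (nat_lit 146) (nat_lit 0) (nat_lit 155) (nat_lit 151) (nat_lit 144)) (PT.lf (nat_lit 10564) (nat_lit 6) (nat_lit 139) (nat_lit 0) (nat_lit 156) (nat_lit 151) (nat_lit 143))) (PT.nd (nat_lit 78) (PT.lf (nat_lit 9956) (nat_lit 6) (nat_lit 131) (nat_lit 0) (nat_lit 157) (nat_lit 151) (nat_lit 142)) (PT.lf (nat_lit 9272) (nat_lit 6) (nat_lit 122) (nat_lit 0) (nat_lit 158) (nat_lit 151) (nat_lit 141))))) (PT.nd (nat_lit 45240) (PT.nd (nat_lit 78) (PT.lf (nat_lit 8512) (nat_lit 6) (nat_lit 112) (nat_lit 0) (nat_lit 159) (nat_lit 151) (nat_lit 140)) (PT.nd (nat_lit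 45084) (PT.lf (nat_lit 7676) (nat_lit 6) (nat_lit 101) (nat_lit 0) (nat_lit 160) (nat_lit 151) (nat_lit 139)) (PT.lf (nat_lit 6916) (nat_lit 6) (nat_lit 91) (nat_lit 5) (nat_lit 137) (nat_lit 152) (nat_lit 161)))) (PT.nd (nat_lit 156) (PT.nd (nat_lit 78) (PT.lf (nat_lit 7296) (nat_lit 6) (nat_lit 96) (nat_lit 5) (nat_lit 138) (nat_lit 152) (nat_lit 160)) (PT.lf (nat_lit 7752) (nat_lit 6) (nat_lit 102) (nat_lit 5) (nat_lit 139) (nat_lit 152) (nat_lit 159))) (PT.nd (nat_lit 78) (PT.lf (nat_lit 8588) (nat_lit 6) (nat_lit 113) (nat_lit 5) (nat_lit 140) (nat_lit 152) (nat_lit 158)) (PT.lf (nat_lit 9348) (nat_lit 6) (nat_lit 123) (nat_lit 5) (nat_lit 141) (nat_lit 152) (nat_lit 157))))))))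
noncomputable def pc7 : PT := (PT.nd (nat_lit 47034) (PT.nd (nat_lit 1092) (PT.nd (nat_lit 546) (PT.nd (nat_lit 234) (PT.nd (nat_lit 78) (PT.lf (nat_lit 10032) (nat_lit 6) (nat_lit 132) (nat_lit 5) (nat_lit 142) (nat_lit 152) (nat_lit 156)) (PT.nd (nat_lit 78) (PT.lf (nat_lit 10640) (nat_lit 6) (nat_lit 140) (nat_lit 5) (nat_lit 143) (nat_lit 152) (nat_lit 155)) (PT.lf (nat_lit 11172) (nat_lit 6) (nat_lit 147) (nat_lit 5) (nat_lit 144) (nat_lit 152) (nat_lit 154)))) (PT.nd (nat_lit 156) (PT.nd (nat_lit 78) (PT.lf (nat_lit 11628) (nat_lit 6) (nat_lit 153) (nat_lit 5) (nat_lit 145) (nat_lit 152) (nat_lit 153)) (PT.lf (nat_lit 12008) (nat_lit 3) (nat_lit 158) (nat_lit 4) (nat_lit 146) (nat_lit 152) (nat_lit 152))) (PT.nd (nat_lit 78) (PT.lf (nat_lit 12236) (nat_lit 6) (nat_lit 161) (nat_lit 4) (nat_lit 147) (nat_lit 152) (nat_lit 151)) (PT.lf (nat_lit 12388) (nat_lit 6) (nat_lit 163) (nat_lit 4)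 (nat_lit 148) (nat_lit 152) (nat_lit 150))))) (PT.nd (nat_lit 234) (PT.nd (nat_lit 78) (PT.lf (nat_lit 12312) (nat_lit 3) (nat_lit 162) (nat_lit 2) (nat_lit 149) (nat_lit 152) (nat_lit 149)) (PT.nd (nat_lit 78) (PT.lf (nat_lit 12388) (nat_lit 6) (nat_lit 163) (nat_lit 2) (nat_lit 150) (nat_lit 152) (nat_lit 148)) (PT.lf (nat_lit 12236) (nat_lit 6) (nat_lit 161) (nat_lit 2) (nat_lit 151) (nat_lit 152) (nat_lit 147)))) (PT.nd (nat_lit 156) (PT.nd (nat_lit 78) (PT.lf (nat_lit 12008) (nat_lit 3) (nat_lit 158) (nat_lit 0) (nat_lit 152) (nat_lit 152) (nat_lit 146)) (PT.lf (nat_lit 11628) (nat_lit 6) (nat_lit 153) (nat_lit 0) (nat_lit 153) (nat_lit 152) (nat_lit 145))) (PT.nd (nat_lit 78) (PT.lf (nat_lit 11172) (nat_lit 6) (nat_lit 147) (nat_lit 0) (nat_lit 154) (nat_lit 152) (nat_lit 144)) (PT.lf (nat_lit 10640) (nat_lit 6) (nat_lit 140) (nat_lit 0) (nat_lit 155) (nat_lit 152) (nat_lit 143)))))) (PT.nd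 (nat_lit 45396) (PT.nd (nat_lit 234) (PT.nd (nat_lit 78) (PT.lf (nat_lit 10032) (nat_lit 6) (nat_lit 132) (nat_lit 0) (nat_lit 156) (nat_lit 152) (nat_lit 142)) (PT.nd (nat_lit 78) (PT.lf (nat_lit 9348) (nat_lit 6) (nat_lit 123) (nat_lit 0) (nat_lit 157) (nat_lit 152) (nat_lit 141)) (PT.lf (nat_lit 8588) (nat_lit 6) (nat_lit 113) (nat_lit 0) (nat_lit 158) (nat_lit 152) (nat_lit 140)))) (PT.nd (nat_lit 156) (PT.nd (nat_lit 78) (PT.lf (nat_lit 7752) (nat_lit 6) (nat_lit 102) (nat_lit 0) (nat_lit 159) (nat_lit 152) (nat_lit 139)) (PT.lf (nat_lit 7296) (nat_lit 6) (nat_lit 96) (nat_lit 0) (nat_lit 160) (nat_lit 152) (nat_lit 138))) (PT.nd (nat_lit 44928) (PT.lf (nat_lit 6916) (nat_lit 6) (nat_lit 91) (nat_lit 0) (nat_lit 161) (nat_lit 152) (nat_lit 137)) (PT.lf (nat_lit 6536) (nat_lit 6) (nat_lit 86) (nat_lit 5) (nat_lit 136) (nat_lit 153) (nat_lit 161))))) (PT.nd (nat_lit 234) (PT.nd (nat_lit 78)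 (PT.lf (nat_lit 6992) (nat_lit 6) (nat_lit 92) (nat_lit 5) (nat_lit 137) (nat_lit 153) (nat_lit 160)) (PT.nd (nat_lit 78) (PT.lf (nat_lit 7372) (nat_lit 6) (nat_lit 97) (nat_lit 5) (nat_lit 138) (nat_lit 153) (nat_lit 159)) (PT.lf (nat_lit 7828) (nat_lit 6) (nat_lit 103) (nat_lit 5) (nat_lit 139) (nat_lit 153) (nat_lit 158)))) (PT.nd (nat_lit 156) (PT.nd (nat_lit 78) (PT.lf (nat_lit 8664) (nat_lit 6) (nat_lit 114) (nat_lit 5) (nat_lit 140) (nat_lit 153) (nat_lit 157)) (PT.lf (nat_lit 9424) (nat_lit 6) (nat_lit 124) (nat_lit 5) (nat_lit 141) (nat_lit 153) (nat_lit 156))) (PT.nd (nat_lit 78) (PT.lf (nat_lit 10108) (nat_lit 6) (nat_lit 133) (nat_lit 5) (nat_lit 142) (nat_lit 153) (nat_lit 155)) (PT.lf (nat_lit 10716) (nat_lit 6) (nat_lit 141) (nat_lit 5) (nat_lit 143) (nat_lit 153) (nat_lit 154))))))) (PT.nd (nat_lit 1092) (PT.nd (nat_lit 546) (PT.nd (nat_lit 234) (PT.nd (nat_lit 78) (PT.lf (nat_lit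 11248) (nat_lit 3) (nat_lit 148) (nat_lit 4) (nat_lit 144) (nat_lit 153) (nat_lit 153)) (PT.nd (nat_lit 78) (PT.lf (nat_lit 11628) (nat_lit 6) (nat_lit 153) (nat_lit 4) (nat_lit 145) (nat_lit 153) (nat_lit 152)) (PT.lf (nat_lit 11932) (nat_lit 6) (nat_lit 157) (nat_lit 4) (nat_lit 146) (nat_lit 153) (nat_lit 151)))) (PT.nd (nat_lit 156) (PT.nd (nat_lit 78) (PT.lf (nat_lit 12160) (nat_lit 6) (nat_lit 160) (nat_lit 4) (nat_lit 147) (nat_lit 153) (nat_lit 150)) (PT.lf (nat_lit 12084) (nat_lit 6) (nat_lit 159) (nat_lit 4) (nat_lit 148) (nat_lit 153) (nat_lit 149))) (PT.nd (nat_lit 78) (PT.lf (nat_lit 12084) (nat_lit 6) (nat_lit 159) (nat_lit 2) (nat_lit 149) (nat_lit 153) (nat_lit 148)) (PT.lf (nat_lit 12160) (nat_lit 6) (nat_lit 160) (nat_lit 2) (nat_lit 150) (nat_lit 153) (nat_lit 147))))) (PT.nd (nat_lit 234) (PT.nd (nat_lit 78) (PT.lf (nat_lit 11932) (nat_lit 6) (nat_lit 157) (nat_lit 2) (nat_lit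 151) (nat_lit 153) (nat_lit 146)) (PT.nd (nat_lit 78) (PT.lf (nat_lit 11628) (nat_lit 6) (nat_lit 153) (nat_lit 2) (nat_lit 152) (nat_lit 153) (nat_lit 145)) (PT.lf (nat_lit 11248) (nat_lit 3) (nat_lit 148) (nat_lit 0) (nat_lit 153) (nat_lit 153) (nat_lit 144)))) (PT.nd (nat_lit 156) (PT.nd (nat_lit 78) (PT.lf (nat_lit 10716) (nat_lit 6) (nat_lit 141) (nat_lit 0) (nat_lit 154) (nat_lit 153) (nat_lit 143)) (PT.lf (nat_lit 10108) (nat_lit 6) (nat_lit 133) (nat_lit 0) (nat_lit 155) (nat_lit 153) (nat_lit 142))) (PT.nd (nat_lit 78) (PT.lf (nat_lit 9424) (nat_lit 6) (nat_lit 124) (nat_lit 0) (nat_lit 156) (nat_lit 153) (nat_lit 141)) (PT.lf (nat_lit 8664) (nat_lit 6) (nat_lit 114) (nat_lit 0) (nat_lit 157) (nat_lit 153) (nat_lit 140)))))) (PT.nd (nat_lit 45318) (PT.nd (nat_lit 234) (PT.nd (nat_lit 78) (PT.lf (nat_lit 7828) (nat_lit 6) (nat_lit 103) (nat_lit 0) (nat_lit 158) (nat_lit 153) (nat_lit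 139)) (PT.nd (nat_lit 78) (PT.lf (nat_lit 7372) (nat_lit 6) (nat_lit 97) (nat_lit 0) (nat_lit 159) (nat_lit 153) (nat_lit 138)) (PT.lf (nat_lit 6992) (nat_lit 6) (nat_lit 92) (nat_lit 0) (nat_lit 160) (nat_lit 153) (nat_lit 137)))) (PT.nd (nat_lit 44928) (PT.nd (nat_lit 44850) (PT.lf (nat_lit 6536) (nat_lit 6) (nat_lit 86) (nat_lit 0) (nat_lit 161) (nat_lit 153) (nat_lit 136)) (PT.lf (nat_lit 6232) (nat_lit 6) (nat_lit 82) (nat_lit 5) (nat_lit 135) (nat_lit 154) (nat_lit 161))) (PT.nd (nat_lit 78) (PT.lf (nat_lit 6612) (nat_lit 6) (nat_lit 87) (nat_lit 5) (nat_lit 136) (nat_lit 154) (nat_lit 160)) (PT.lf (nat_lit 7068) (nat_lit 6) (nat_lit 93) (nat_lit 5) (nat_lit 137) (nat_lit 154) (nat_lit 159))))) (PT.nd (nat_lit 312) (PT.nd (nat_lit 156) (PT.nd (nat_lit 78) (PT.lf (nat_lit 7448) (nat_lit 6) (nat_lit 98) (nat_lit 5) (nat_lit 138) (nat_lit 154) (nat_lit 158)) (PT.lf (nat_lit 7904) (nat_lit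 6) (nat_lit 104) (nat_lit 5) (nat_lit 139) (nat_lit 154) (nat_lit 157))) (PT.nd (nat_lit 78) (PT.lf (nat_lit 8740) (nat_lit 6) (nat_lit 115) (nat_lit 5) (nat_lit 140) (nat_lit 154) (nat_lit 156)) (PT.lf (nat_lit 9500) (nat_lit 6) (nat_lit 125) (nat_lit 5) (nat_lit 141) (nat_lit 154) (nat_lit 155)))) (PT.nd (nat_lit 156) (PT.nd (nat_lit 78) (PT.lf (nat_lit 10184) (nat_lit 3) (nat_lit 134) (nat_lit 4) (nat_lit 142) (nat_lit 154) (nat_lit 154)) (PT.lf (nat_lit 10716) (nat_lit 6) (nat_lit 141) (nat_lit 4) (nat_lit 143) (nat_lit 154) (nat_lit 153))) (PT.nd (nat_lit 78) (PT.lf (nat_lit 11172) (nat_lit 6) (nat_lit 147) (nat_lit 4) (nat_lit 144) (nat_lit 154) (nat_lit 152)) (PT.lf (nat_lit 11552) (nat_lit 6) (nat_lit 152) (nat_lit 4) (nat_lit 145) (nat_lit 154) (nat_lit 151))))))))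
noncomputable def pc8 : PT := (PT.nd (nat_lit 46800) (PT.nd (nat_lit 1092) (PT.nd (nat_lit 546) (PT.nd (nat_lit 234) (PT.nd (nat_lit 78) (PT.lf (nat_lit 11856) (nat_lit 6) (nat_lit 156) (nat_lit 4) (nat_lit 146) (nat_lit 154) (nat_lit 150)) (PT.nd (nat_lit 78) (PT.lf (nat_lit 11780) (nat_lit 6) (nat_lit 155) (nat_lit 4) (nat_lit 147) (nat_lit 154) (nat_lit 149)) (PT.lf (nat_lit 11704) (nat_lit 3) (nat_lit 154) (nat_lit 2) (nat_lit 148) (nat_lit 154) (nat_lit 148)))) (PT.nd (nat_lit 156) (PT.nd (nat_lit 78) (PT.lf (nat_lit 11780) (nat_lit 6) (nat_lit 155) (nat_lit 2) (nat_lit 149) (nat_lit 154) (nat_lit 147)) (PT.lf (nat_lit 11856) (nat_lit 6) (nat_lit 156) (nat_lit 2) (nat_lit 150) (nat_lit 154) (nat_lit 146))) (PT.nd (nat_lit 78) (PT.lf (nat_lit 11552) (nat_lit 6) (nat_lit 152) (nat_lit 2) (nat_lit 151) (nat_lit 154) (nat_lit 145)) (PT.lf (nat_lit 11172) (nat_lit 6) (nat_lit 147) (nat_lit 2)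 (nat_lit 152) (nat_lit 154) (nat_lit 144))))) (PT.nd (nat_lit 234) (PT.nd (nat_lit 78) (PT.lf (nat_lit 10716) (nat_lit 6) (nat_lit 141) (nat_lit 2) (nat_lit 153) (nat_lit 154) (nat_lit 143)) (PT.nd (nat_lit 78) (PT.lf (nat_lit 10184) (nat_lit 3) (nat_lit 134) (nat_lit 0) (nat_lit 154) (nat_lit 154) (nat_lit 142)) (PT.lf (nat_lit 9500) (nat_lit 6) (nat_lit 125) (nat_lit 0) (nat_lit 155) (nat_lit 154) (nat_lit 141)))) (PT.nd (nat_lit 156) (PT.nd (nat_lit 78) (PT.lf (nat_lit 8740) (nat_lit 6) (nat_lit 115) (nat_lit 0) (nat_lit 156) (nat_lit 154) (nat_lit 140)) (PT.lf (nat_lit 7904) (nat_lit 6) (nat_lit 104) (nat_lit 0) (nat_lit 157) (nat_lit 154) (nat_lit 139))) (PT.nd (nat_lit 78) (PT.lf (nat_lit 7448) (nat_lit 6) (nat_lit 98) (nat_lit 0) (nat_lit 158) (nat_lit 154) (nat_lit 138)) (PT.lf (nat_lit 7068) (nat_lit 6) (nat_lit 93) (nat_lit 0) (nat_lit 159) (nat_lit 154) (nat_lit 137)))))) (PT.nd (nat_lit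 45162) (PT.nd (nat_lit 44850) (PT.nd (nat_lit 78) (PT.lf (nat_lit 6612) (nat_lit 6) (nat_lit 87) (nat_lit 0) (nat_lit 160) (nat_lit 154) (nat_lit 136)) (PT.nd (nat_lit 44694) (PT.lf (nat_lit 6232) (nat_lit 6) (nat_lit 82) (nat_lit 0) (nat_lit 161) (nat_lit 154) (nat_lit 135)) (PT.lf (nat_lit 5624) (nat_lit 6) (nat_lit 74) (nat_lit 5) (nat_lit 133) (nat_lit 155) (nat_lit 162)))) (PT.nd (nat_lit 156) (PT.nd (nat_lit 78) (PT.lf (nat_lit 5928) (nat_lit 6) (nat_lit 78) (nat_lit 5) (nat_lit 134) (nat_lit 155) (nat_lit 161)) (PT.lf (nat_lit 6308) (nat_lit 6) (nat_lit 83) (nat_lit 5) (nat_lit 135) (nat_lit 155) (nat_lit 160))) (PT.nd (nat_lit 78) (PT.lf (nat_lit 6688) (nat_lit 6) (nat_lit 88) (nat_lit 5) (nat_lit 136) (nat_lit 155) (nat_lit 159)) (PT.lf (nat_lit 7144) (nat_lit 6) (nat_lit 94) (nat_lit 5) (nat_lit 137) (nat_lit 155) (nat_lit 158))))) (PT.nd (nat_lit 234) (PT.nd (nat_lit 78) (PT.lf (nat_lit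 7524) (nat_lit 6) (nat_lit 99) (nat_lit 5) (nat_lit 138) (nat_lit 155) (nat_lit 157)) (PT.nd (nat_lit 78) (PT.lf (nat_lit 7980) (nat_lit 6) (nat_lit 105) (nat_lit 5) (nat_lit 139) (nat_lit 155) (nat_lit 156)) (PT.lf (nat_lit 8816) (nat_lit 3) (nat_lit 116) (nat_lit 4) (nat_lit 140) (nat_lit 155) (nat_lit 155)))) (PT.nd (nat_lit 156) (PT.nd (nat_lit 78) (PT.lf (nat_lit 9500) (nat_lit 6) (nat_lit 125) (nat_lit 4) (nat_lit 141) (nat_lit 155) (nat_lit 154)) (PT.lf (nat_lit 10108) (nat_lit 6) (nat_lit 133) (nat_lit 4) (nat_lit 142) (nat_lit 155) (nat_lit 153))) (PT.nd (nat_lit 78) (PT.lf (nat_lit 10640) (nat_lit 6) (nat_lit 140) (nat_lit 4) (nat_lit 143) (nat_lit 155) (nat_lit 152)) (PT.lf (nat_lit 11096) (nat_lit 6) (nat_lit 146) (nat_lit 4) (nat_lit 144) (nat_lit 155) (nat_lit 151))))))) (PT.nd (nat_lit 1092) (PT.nd (nat_lit 546) (PT.nd (nat_lit 234) (PT.nd (nat_lit 78) (PT.lf (nat_lit 11476) (nat_lit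 6) (nat_lit 151) (nat_lit 4) (nat_lit 145) (nat_lit 155) (nat_lit 150)) (PT.nd (nat_lit 78) (PT.lf (nat_lit 11400) (nat_lit 6) (nat_lit 150) (nat_lit 4) (nat_lit 146) (nat_lit 155) (nat_lit 149)) (PT.lf (nat_lit 11324) (nat_lit 6) (nat_lit 149) (nat_lit 4) (nat_lit 147) (nat_lit 155) (nat_lit 148)))) (PT.nd (nat_lit 156) (PT.nd (nat_lit 78) (PT.lf (nat_lit 11324) (nat_lit 6) (nat_lit 149) (nat_lit 2) (nat_lit 148) (nat_lit 155) (nat_lit 147)) (PT.lf (nat_lit 11400) (nat_lit 6) (nat_lit 150) (nat_lit 2) (nat_lit 149) (nat_lit 155) (nat_lit 146))) (PT.nd (nat_lit 78) (PT.lf (nat_lit 11476) (nat_lit 6) (nat_lit 151) (nat_lit 2) (nat_lit 150) (nat_lit 155) (nat_lit 145)) (PT.lf (nat_lit 11096) (nat_lit 6) (nat_lit 146) (nat_lit 2) (nat_lit 151) (nat_lit 155) (nat_lit 144))))) (PT.nd (nat_lit 234) (PT.nd (nat_lit 78) (PT.lf (nat_lit 10640) (nat_lit 6) (nat_lit 140) (nat_lit 2) (nat_lit 152) (nat_lit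 155) (nat_lit 143)) (PT.nd (nat_lit 78) (PT.lf (nat_lit 10108) (nat_lit 6) (nat_lit 133) (nat_lit 2) (nat_lit 153) (nat_lit 155) (nat_lit 142)) (PT.lf (nat_lit 9500) (nat_lit 6) (nat_lit 125) (nat_lit 2) (nat_lit 154) (nat_lit 155) (nat_lit 141)))) (PT.nd (nat_lit 156) (PT.nd (nat_lit 78) (PT.lf (nat_lit 8816) (nat_lit 3) (nat_lit 116) (nat_lit 0) (nat_lit 155) (nat_lit 155) (nat_lit 140)) (PT.lf (nat_lit 7980) (nat_lit 6) (nat_lit 105) (nat_lit 0) (nat_lit 156) (nat_lit 155) (nat_lit 139))) (PT.nd (nat_lit 78) (PT.lf (nat_lit 7524) (nat_lit 6) (nat_lit 99) (nat_lit 0) (nat_lit 157) (nat_lit 155) (nat_lit 138)) (PT.lf (nat_lit 7144) (nat_lit 6) (nat_lit 94) (nat_lit 0) (nat_lit 158) (nat_lit 155) (nat_lit 137)))))) (PT.nd (nat_lit 45006) (PT.nd (nat_lit 234) (PT.nd (nat_lit 78) (PT.lf (nat_lit 6688) (nat_lit 6) (nat_lit 88) (nat_lit 0) (nat_lit 159) (nat_lit 155) (nat_lit 136)) (PT.nd (nat_lit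 78) (PT.lf (nat_lit 6308) (nat_lit 6) (nat_lit 83) (nat_lit 0) (nat_lit 160) (nat_lit 155) (nat_lit 135)) (PT.lf (nat_lit 5928) (nat_lit 6) (nat_lit 78) (nat_lit 0) (nat_lit 161) (nat_lit 155) (nat_lit 134)))) (PT.nd (nat_lit 44616) (PT.nd (nat_lit 44538) (PT.lf (nat_lit 5624) (nat_lit 6) (nat_lit 74) (nat_lit 0) (nat_lit 162) (nat_lit 155) (nat_lit 133)) (PT.lf (nat_lit 5320) (nat_lit 6) (nat_lit 70) (nat_lit 5) (nat_lit 132) (nat_lit 156) (nat_lit 162))) (PT.nd (nat_lit 78) (PT.lf (nat_lit 5700) (nat_lit 6) (nat_lit 75) (nat_lit 5) (nat_lit 133) (nat_lit 156) (nat_lit 161)) (PT.lf (nat_lit 6004) (nat_lit 6) (nat_lit 79) (nat_lit 5) (nat_lit 134) (nat_lit 156) (nat_lit 160))))) (PT.nd (nat_lit 234) (PT.nd (nat_lit 78) (PT.lf (nat_lit 6384) (nat_lit 6) (nat_lit 84) (nat_lit 5) (nat_lit 135) (nat_lit 156) (nat_lit 159)) (PT.nd (nat_lit 78) (PT.lf (nat_lit 6764) (nat_lit 6) (nat_lit 89) (nat_lit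 5) (nat_lit 136) (nat_lit 156) (nat_lit 158)) (PT.lf (nat_lit 7220) (nat_lit 6) (nat_lit 95) (nat_lit 5) (nat_lit 137) (nat_lit 156) (nat_lit 157)))) (PT.nd (nat_lit 156) (PT.nd (nat_lit 78) (PT.lf (nat_lit 7600) (nat_lit 3) (nat_lit 100) (nat_lit 4) (nat_lit 138) (nat_lit 156) (nat_lit 156)) (PT.lf (nat_lit 7980) (nat_lit 6) (nat_lit 105) (nat_lit 4) (nat_lit 139) (nat_lit 156) (nat_lit 155))) (PT.nd (nat_lit 78) (PT.lf (nat_lit 8740) (nat_lit 6) (nat_lit 115) (nat_lit 4) (nat_lit 140) (nat_lit 156) (nat_lit 154)) (PT.lf (nat_lit 9424) (nat_lit 6) (nat_lit 124) (nat_lit 4) (nat_lit 141) (nat_lit 156) (nat_lit 153))))))))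
noncomputable def pc9 : PT := (PT.nd (nat_lit 46488) (PT.nd (nat_lit 1092) (PT.nd (nat_lit 546) (PT.nd (nat_lit 234) (PT.nd (nat_lit 78) (PT.lf (nat_lit 10032) (nat_lit 6) (nat_lit 132) (nat_lit 4) (nat_lit 142) (nat_lit 156) (nat_lit 152)) (PT.nd (nat_lit 78) (PT.lf (nat_lit 10564) (nat_lit 6) (nat_lit 139) (nat_lit 4) (nat_lit 143) (nat_lit 156) (nat_lit 151)) (PT.lf (nat_lit 11020) (nat_lit 6) (nat_lit 145) (nat_lit 4) (nat_lit 144) (nat_lit 156) (nat_lit 150)))) (PT.nd (nat_lit 156) (PT.nd (nat_lit 78) (PT.lf (nat_lit 10944) (nat_lit 6) (nat_lit 144) (nat_lit 4) (nat_lit 145) (nat_lit 156) (nat_lit 149)) (PT.lf (nat_lit 10868) (nat_lit 6) (nat_lit 143) (nat_lit 4) (nat_lit 146) (nat_lit 156) (nat_lit 148))) (PT.nd (nat_lit 78) (PT.lf (nat_lit 10792) (nat_lit 3) (nat_lit 142) (nat_lit 2) (nat_lit 147) (nat_lit 156) (nat_lit 147)) (PT.lf (nat_lit 10868) (nat_lit 6) (nat_lit 143) (nat_lit 2)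 (nat_lit 148) (nat_lit 156) (nat_lit 146))))) (PT.nd (nat_lit 234) (PT.nd (nat_lit 78) (PT.lf (nat_lit 10944) (nat_lit 6) (nat_lit 144) (nat_lit 2) (nat_lit 149) (nat_lit 156) (nat_lit 145)) (PT.nd (nat_lit 78) (PT.lf (nat_lit 11020) (nat_lit 6) (nat_lit 145) (nat_lit 2) (nat_lit 150) (nat_lit 156) (nat_lit 144)) (PT.lf (nat_lit 10564) (nat_lit 6) (nat_lit 139) (nat_lit 2) (nat_lit 151) (nat_lit 156) (nat_lit 143)))) (PT.nd (nat_lit 156) (PT.nd (nat_lit 78) (PT.lf (nat_lit 10032) (nat_lit 6) (nat_lit 132) (nat_lit 2) (nat_lit 152) (nat_lit 156) (nat_lit 142)) (PT.lf (nat_lit 9424) (nat_lit 6) (nat_lit 124) (nat_lit 2) (nat_lit 153) (nat_lit 156) (nat_lit 141))) (PT.nd (nat_lit 78) (PT.lf (nat_lit 8740) (nat_lit 6) (nat_lit 115) (nat_lit 2) (nat_lit 154) (nat_lit 156) (nat_lit 140)) (PT.lf (nat_lit 7980) (nat_lit 6) (nat_lit 105) (nat_lit 2) (nat_lit 155) (nat_lit 156) (nat_lit 139)))))) (PT.nd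 (nat_lit 44850) (PT.nd (nat_lit 234) (PT.nd (nat_lit 78) (PT.lf (nat_lit 7600) (nat_lit 3) (nat_lit 100) (nat_lit 0) (nat_lit 156) (nat_lit 156) (nat_lit 138)) (PT.nd (nat_lit 78) (PT.lf (nat_lit 7220) (nat_lit 6) (nat_lit 95) (nat_lit 0) (nat_lit 157) (nat_lit 156) (nat_lit 137)) (PT.lf (nat_lit 6764) (nat_lit 6) (nat_lit 89) (nat_lit 0) (nat_lit 158) (nat_lit 156) (nat_lit 136)))) (PT.nd (nat_lit 156) (PT.nd (nat_lit 78) (PT.lf (nat_lit 6384) (nat_lit 6) (nat_lit 84) (nat_lit 0) (nat_lit 159) (nat_lit 156) (nat_lit 135)) (PT.lf (nat_lit 6004) (nat_lit 6) (nat_lit 79) (nat_lit 0) (nat_lit 160) (nat_lit 156) (nat_lit 134))) (PT.nd (nat_lit 78) (PT.lf (nat_lit 5700) (nat_lit 6) (nat_lit 75) (nat_lit 0) (nat_lit 161) (nat_lit 156) (nat_lit 133)) (PT.lf (nat_lit 5320) (nat_lit 6) (nat_lit 70) (nat_lit 0) (nat_lit 162) (nat_lit 156) (nat_lit 132))))) (PT.nd (nat_lit 234) (PT.nd (nat_lit 78) (PT.lf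 (nat_lit 4788) (nat_lit 6) (nat_lit 63) (nat_lit 5) (nat_lit 130) (nat_lit 157) (nat_lit 163)) (PT.nd (nat_lit 78) (PT.lf (nat_lit 5092) (nat_lit 6) (nat_lit 67) (nat_lit 5) (nat_lit 131) (nat_lit 157) (nat_lit 162)) (PT.lf (nat_lit 5396) (nat_lit 6) (nat_lit 71) (nat_lit 5) (nat_lit 132) (nat_lit 157) (nat_lit 161)))) (PT.nd (nat_lit 156) (PT.nd (nat_lit 78) (PT.lf (nat_lit 5776) (nat_lit 6) (nat_lit 76) (nat_lit 5) (nat_lit 133) (nat_lit 157) (nat_lit 160)) (PT.lf (nat_lit 6080) (nat_lit 6) (nat_lit 80) (nat_lit 5) (nat_lit 134) (nat_lit 157) (nat_lit 159))) (PT.nd (nat_lit 78) (PT.lf (nat_lit 6460) (nat_lit 6) (nat_lit 85) (nat_lit 5) (nat_lit 135) (nat_lit 157) (nat_lit 158)) (PT.lf (nat_lit 6840) (nat_lit 3) (nat_lit 90) (nat_lit 4) (nat_lit 136) (nat_lit 157) (nat_lit 157))))))) (PT.nd (nat_lit 1092) (PT.nd (nat_lit 546) (PT.nd (nat_lit 234) (PT.nd (nat_lit 78) (PT.lf (nat_lit 7220) (nat_lit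 6) (nat_lit 95) (nat_lit 4) (nat_lit 137) (nat_lit 157) (nat_lit 156)) (PT.nd (nat_lit 78) (PT.lf (nat_lit 7524) (nat_lit 6) (nat_lit 99) (nat_lit 4) (nat_lit 138) (nat_lit 157) (nat_lit 155)) (PT.lf (nat_lit 7904) (nat_lit 6) (nat_lit 104) (nat_lit 4) (nat_lit 139) (nat_lit 157) (nat_lit 154)))) (PT.nd (nat_lit 156) (PT.nd (nat_lit 78) (PT.lf (nat_lit 8664) (nat_lit 6) (nat_lit 114) (nat_lit 4) (nat_lit 140) (nat_lit 157) (nat_lit 153)) (PT.lf (nat_lit 9348) (nat_lit 6) (nat_lit 123) (nat_lit 4) (nat_lit 141) (nat_lit 157) (nat_lit 152))) (PT.nd (nat_lit 78) (PT.lf (nat_lit 9956) (nat_lit 6) (nat_lit 131) (nat_lit 4) (nat_lit 142) (nat_lit 157) (nat_lit 151)) (PT.lf (nat_lit 10488) (nat_lit 6) (nat_lit 138) (nat_lit 4) (nat_lit 143) (nat_lit 157) (nat_lit 150))))) (PT.nd (nat_lit 234) (PT.nd (nat_lit 78) (PT.lf (nat_lit 10412) (nat_lit 6) (nat_lit 137) (nat_lit 4) (nat_lit 144) (nat_lit 157)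 (nat_lit 149)) (PT.nd (nat_lit 78) (PT.lf (nat_lit 10336) (nat_lit 6) (nat_lit 136) (nat_lit 4) (nat_lit 145) (nat_lit 157) (nat_lit 148)) (PT.lf (nat_lit 10260) (nat_lit 6) (nat_lit 135) (nat_lit 4) (nat_lit 146) (nat_lit 157) (nat_lit 147)))) (PT.nd (nat_lit 156) (PT.nd (nat_lit 78) (PT.lf (nat_lit 10260) (nat_lit 6) (nat_lit 135) (nat_lit 2) (nat_lit 147) (nat_lit 157) (nat_lit 146)) (PT.lf (nat_lit 10336) (nat_lit 6) (nat_lit 136) (nat_lit 2) (nat_lit 148) (nat_lit 157) (nat_lit 145))) (PT.nd (nat_lit 78) (PT.lf (nat_lit 10412) (nat_lit 6) (nat_lit 137) (nat_lit 2) (nat_lit 149) (nat_lit 157) (nat_lit 144)) (PT.lf (nat_lit 10488) (nat_lit 6) (nat_lit 138) (nat_lit 2) (nat_lit 150) (nat_lit 157) (nat_lit 143)))))) (PT.nd (nat_lit 546) (PT.nd (nat_lit 234) (PT.nd (nat_lit 78) (PT.lf (nat_lit 9956) (nat_lit 6) (nat_lit 131) (nat_lit 2) (nat_lit 151) (nat_lit 157) (nat_lit 142)) (PT.nd (nat_lit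 78) (PT.lf (nat_lit 9348) (nat_lit 6) (nat_lit 123) (nat_lit 2) (nat_lit 152) (nat_lit 157) (nat_lit 141)) (PT.lf (nat_lit 8664) (nat_lit 6) (nat_lit 114) (nat_lit 2) (nat_lit 153) (nat_lit 157) (nat_lit 140)))) (PT.nd (nat_lit 156) (PT.nd (nat_lit 78) (PT.lf (nat_lit 7904) (nat_lit 6) (nat_lit 104) (nat_lit 2) (nat_lit 154) (nat_lit 157) (nat_lit 139)) (PT.lf (nat_lit 7524) (nat_lit 6) (nat_lit 99) (nat_lit 2) (nat_lit 155) (nat_lit 157) (nat_lit 138))) (PT.nd (nat_lit 78) (PT.lf (nat_lit 7220) (nat_lit 6) (nat_lit 95) (nat_lit 2) (nat_lit 156) (nat_lit 157) (nat_lit 137)) (PT.lf (nat_lit 6840) (nat_lit 3) (nat_lit 90) (nat_lit 0) (nat_lit 157) (nat_lit 157) (nat_lit 136))))) (PT.nd (nat_lit 234) (PT.nd (nat_lit 78) (PT.lf (nat_lit 6460) (nat_lit 6) (nat_lit 85) (nat_lit 0) (nat_lit 158) (nat_lit 157) (nat_lit 135)) (PT.nd (nat_lit 78) (PT.lf (nat_lit 6080) (nat_lit 6) (nat_lit 80) (nat_lit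 0) (nat_lit 159) (nat_lit 157) (nat_lit 134)) (PT.lf (nat_lit 5776) (nat_lit 6) (nat_lit 76) (nat_lit 0) (nat_lit 160) (nat_lit 157) (nat_lit 133)))) (PT.nd (nat_lit 156) (PT.nd (nat_lit 78) (PT.lf (nat_lit 5396) (nat_lit 6) (nat_lit 71) (nat_lit 0) (nat_lit 161) (nat_lit 157) (nat_lit 132)) (PT.lf (nat_lit 5092) (nat_lit 6) (nat_lit 67) (nat_lit 0) (nat_lit 162) (nat_lit 157) (nat_lit 131))) (PT.nd (nat_lit 44226) (PT.lf (nat_lit 4788) (nat_lit 6) (nat_lit 63) (nat_lit 0) (nat_lit 163) (nat_lit 157) (nat_lit 130)) (PT.lf (nat_lit 4560) (nat_lit 6) (nat_lit 60) (nat_lit 5) (nat_lit 129) (nat_lit 158) (nat_lit 163))))))))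
noncomputable def pc10 : PT := (PT.nd (nat_lit 2184) (PT.nd (nat_lit 1092) (PT.nd (nat_lit 546) (PT.nd (nat_lit 234) (PT.nd (nat_lit 78) (PT.lf (nat_lit 4864) (nat_lit 6) (nat_lit 64) (nat_lit 5) (nat_lit 130) (nat_lit 158) (nat_lit 162)) (PT.nd (nat_lit 78) (PT.lf (nat_lit 5168) (nat_lit 6) (nat_lit 68) (nat_lit 5) (nat_lit 131) (nat_lit 158) (nat_lit 161)) (PT.lf (nat_lit 5472) (nat_lit 6) (nat_lit 72) (nat_lit 5) (nat_lit 132) (nat_lit 158) (nat_lit 160)))) (PT.nd (nat_lit 156) (PT.nd (nat_lit 78) (PT.lf (nat_lit 5852) (nat_lit 6) (nat_lit 77) (nat_lit 5) (nat_lit 133) (nat_lit 158) (nat_lit 159)) (PT.lf (nat_lit 6156) (nat_lit 3) (nat_lit 81) (nat_lit 4) (nat_lit 134) (nat_lit 158) (nat_lit 158))) (PT.nd (nat_lit 78) (PT.lf (nat_lit 6460) (nat_lit 6) (nat_lit 85) (nat_lit 4) (nat_lit 135) (nat_lit 158) (nat_lit 157)) (PT.lf (nat_lit 6764) (nat_lit 6) (nat_lit 89) (nat_lit 4) (nat_lit 136)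 (nat_lit 158) (nat_lit 156))))) (PT.nd (nat_lit 234) (PT.nd (nat_lit 78) (PT.lf (nat_lit 7144) (nat_lit 6) (nat_lit 94) (nat_lit 4) (nat_lit 137) (nat_lit 158) (nat_lit 155)) (PT.nd (nat_lit 78) (PT.lf (nat_lit 7448) (nat_lit 6) (nat_lit 98) (nat_lit 4) (nat_lit 138) (nat_lit 158) (nat_lit 154)) (PT.lf (nat_lit 7828) (nat_lit 6) (nat_lit 103) (nat_lit 4) (nat_lit 139) (nat_lit 158) (nat_lit 153)))) (PT.nd (nat_lit 156) (PT.nd (nat_lit 78) (PT.lf (nat_lit 8588) (nat_lit 6) (nat_lit 113) (nat_lit 4) (nat_lit 140) (nat_lit 158) (nat_lit 152)) (PT.lf (nat_lit 9272) (nat_lit 6) (nat_lit 122) (nat_lit 4) (nat_lit 141) (nat_lit 158) (nat_lit 151))) (PT.nd (nat_lit 78) (PT.lf (nat_lit 9880) (nat_lit 6) (nat_lit 130) (nat_lit 4) (nat_lit 142) (nat_lit 158) (nat_lit 150)) (PT.lf (nat_lit 9804) (nat_lit 6) (nat_lit 129) (nat_lit 4) (nat_lit 143) (nat_lit 158) (nat_lit 149)))))) (PT.nd (nat_lit 546) (PT.nd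 (nat_lit 234) (PT.nd (nat_lit 78) (PT.lf (nat_lit 9728) (nat_lit 6) (nat_lit 128) (nat_lit 4) (nat_lit 144) (nat_lit 158) (nat_lit 148)) (PT.nd (nat_lit 78) (PT.lf (nat_lit 9652) (nat_lit 6) (nat_lit 127) (nat_lit 4) (nat_lit 145) (nat_lit 158) (nat_lit 147)) (PT.lf (nat_lit 9576) (nat_lit 3) (nat_lit 126) (nat_lit 2) (nat_lit 146) (nat_lit 158) (nat_lit 146)))) (PT.nd (nat_lit 156) (PT.nd (nat_lit 78) (PT.lf (nat_lit 9652) (nat_lit 6) (nat_lit 127) (nat_lit 2) (nat_lit 147) (nat_lit 158) (nat_lit 145)) (PT.lf (nat_lit 9728) (nat_lit 6) (nat_lit 128) (nat_lit 2) (nat_lit 148) (nat_lit 158) (nat_lit 144))) (PT.nd (nat_lit 78) (PT.lf (nat_lit 9804) (nat_lit 6) (nat_lit 129) (nat_lit 2) (nat_lit 149) (nat_lit 158) (nat_lit 143)) (PT.lf (nat_lit 9880) (nat_lit 6) (nat_lit 130) (nat_lit 2) (nat_lit 150) (nat_lit 158) (nat_lit 142))))) (PT.nd (nat_lit 234) (PT.nd (nat_lit 78) (PT.lf (nat_lit 9272)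 (nat_lit 6) (nat_lit 122) (nat_lit 2) (nat_lit 151) (nat_lit 158) (nat_lit 141)) (PT.nd (nat_lit 78) (PT.lf (nat_lit 8588) (nat_lit 6) (nat_lit 113) (nat_lit 2) (nat_lit 152) (nat_lit 158) (nat_lit 140)) (PT.lf (nat_lit 7828) (nat_lit 6) (nat_lit 103) (nat_lit 2) (nat_lit 153) (nat_lit 158) (nat_lit 139)))) (PT.nd (nat_lit 156) (PT.nd (nat_lit 78) (PT.lf (nat_lit 7448) (nat_lit 6) (nat_lit 98) (nat_lit 2) (nat_lit 154) (nat_lit 158) (nat_lit 138)) (PT.lf (nat_lit 7144) (nat_lit 6) (nat_lit 94) (nat_lit 2) (nat_lit 155) (nat_lit 158) (nat_lit 137))) (PT.nd (nat_lit 78) (PT.lf (nat_lit 6764) (nat_lit 6) (nat_lit 89) (nat_lit 2) (nat_lit 156) (nat_lit 158) (nat_lit 136)) (PT.lf (nat_lit 6460) (nat_lit 6) (nat_lit 85) (nat_lit 2) (nat_lit 157) (nat_lit 158) (nat_lit 135))))))) (PT.nd (nat_lit 45084) (PT.nd (nat_lit 44538) (PT.nd (nat_lit 234) (PT.nd (nat_lit 78) (PT.lf (nat_lit 6156) (nat_lit 3)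 (nat_lit 81) (nat_lit 0) (nat_lit 158) (nat_lit 158) (nat_lit 134)) (PT.nd (nat_lit 78) (PT.lf (nat_lit 5852) (nat_lit 6) (nat_lit 77) (nat_lit 0) (nat_lit 159) (nat_lit 158) (nat_lit 133)) (PT.lf (nat_lit 5472) (nat_lit 6) (nat_lit 72) (nat_lit 0) (nat_lit 160) (nat_lit 158) (nat_lit 132)))) (PT.nd (nat_lit 156) (PT.nd (nat_lit 78) (PT.lf (nat_lit 5168) (nat_lit 6) (nat_lit 68) (nat_lit 0) (nat_lit 161) (nat_lit 158) (nat_lit 131)) (PT.lf (nat_lit 4864) (nat_lit 6) (nat_lit 64) (nat_lit 0) (nat_lit 162) (nat_lit 158) (nat_lit 130))) (PT.nd (nat_lit 44070) (PT.lf (nat_lit 4560) (nat_lit 6) (nat_lit 60) (nat_lit 0) (nat_lit 163) (nat_lit 158) (nat_lit 129)) (PT.lf (nat_lit 4104) (nat_lit 6) (nat_lit 54) (nat_lit 5) (nat_lit 127) (nat_lit 159) (nat_lit 164))))) (PT.nd (nat_lit 234) (PT.nd (nat_lit 78) (PT.lf (nat_lit 4332) (nat_lit 6) (nat_lit 57) (nat_lit 5) (nat_lit 128) (nat_lit 159) (nat_lit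 163)) (PT.nd (nat_lit 78) (PT.lf (nat_lit 4636) (nat_lit 6) (nat_lit 61) (nat_lit 5) (nat_lit 129) (nat_lit 159) (nat_lit 162)) (PT.lf (nat_lit 4940) (nat_lit 6) (nat_lit 65) (nat_lit 5) (nat_lit 130) (nat_lit 159) (nat_lit 161)))) (PT.nd (nat_lit 156) (PT.nd (nat_lit 78) (PT.lf (nat_lit 5244) (nat_lit 6) (nat_lit 69) (nat_lit 5) (nat_lit 131) (nat_lit 159) (nat_lit 160)) (PT.lf (nat_lit 5548) (nat_lit 3) (nat_lit 73) (nat_lit 4) (nat_lit 132) (nat_lit 159) (nat_lit 159))) (PT.nd (nat_lit 78) (PT.lf (nat_lit 5852) (nat_lit 6) (nat_lit 77) (nat_lit 4) (nat_lit 133) (nat_lit 159) (nat_lit 158)) (PT.lf (nat_lit 6080) (nat_lit 6) (nat_lit 80) (nat_lit 4) (nat_lit 134) (nat_lit 159) (nat_lit 157)))))) (PT.nd (nat_lit 546) (PT.nd (nat_lit 234) (PT.nd (nat_lit 78) (PT.lf (nat_lit 6384) (nat_lit 6) (nat_lit 84) (nat_lit 4) (nat_lit 135) (nat_lit 159) (nat_lit 156)) (PT.nd (nat_lit 78) (PT.lf (nat_lit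 6688) (nat_lit 6) (nat_lit 88) (nat_lit 4) (nat_lit 136) (nat_lit 159) (nat_lit 155)) (PT.lf (nat_lit 7068) (nat_lit 6) (nat_lit 93) (nat_lit 4) (nat_lit 137) (nat_lit 159) (nat_lit 154)))) (PT.nd (nat_lit 156) (PT.nd (nat_lit 78) (PT.lf (nat_lit 7372) (nat_lit 6) (nat_lit 97) (nat_lit 4) (nat_lit 138) (nat_lit 159) (nat_lit 153)) (PT.lf (nat_lit 7752) (nat_lit 6) (nat_lit 102) (nat_lit 4) (nat_lit 139) (nat_lit 159) (nat_lit 152))) (PT.nd (nat_lit 78) (PT.lf (nat_lit 8512) (nat_lit 6) (nat_lit 112) (nat_lit 4) (nat_lit 140) (nat_lit 159) (nat_lit 151)) (PT.lf (nat_lit 9196) (nat_lit 6) (nat_lit 121) (nat_lit 4) (nat_lit 141) (nat_lit 159) (nat_lit 150))))) (PT.nd (nat_lit 234) (PT.nd (nat_lit 78) (PT.lf (nat_lit 9120) (nat_lit 6) (nat_lit 120) (nat_lit 4) (nat_lit 142) (nat_lit 159) (nat_lit 149)) (PT.nd (nat_lit 78) (PT.lf (nat_lit 9044) (nat_lit 6) (nat_lit 119) (nat_lit 4) (nat_lit 143)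 (nat_lit 159) (nat_lit 148)) (PT.lf (nat_lit 8968) (nat_lit 6) (nat_lit 118) (nat_lit 4) (nat_lit 144) (nat_lit 159) (nat_lit 147)))) (PT.nd (nat_lit 156) (PT.nd (nat_lit 78) (PT.lf (nat_lit 8892) (nat_lit 6) (nat_lit 117) (nat_lit 4) (nat_lit 145) (nat_lit 159) (nat_lit 146)) (PT.lf (nat_lit 8892) (nat_lit 6) (nat_lit 117) (nat_lit 2) (nat_lit 146) (nat_lit 159) (nat_lit 145))) (PT.nd (nat_lit 78) (PT.lf (nat_lit 8968) (nat_lit 6) (nat_lit 118) (nat_lit 2) (nat_lit 147) (nat_lit 159) (nat_lit 144)) (PT.lf (nat_lit 9044) (nat_lit 6) (nat_lit 119) (nat_lit 2) (nat_lit 148) (nat_lit 159) (nat_lit 143))))))))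
noncomputable def pc11 : PT := (PT.nd (nat_lit 46020) (PT.nd (nat_lit 1092) (PT.nd (nat_lit 546) (PT.nd (nat_lit 234) (PT.nd (nat_lit 78) (PT.lf (nat_lit 9120) (nat_lit 6) (nat_lit 120) (nat_lit 2) (nat_lit 149) (nat_lit 159) (nat_lit 142)) (PT.nd (nat_lit 78) (PT.lf (nat_lit 9196) (nat_lit 6) (nat_lit 121) (nat_lit 2) (nat_lit 150) (nat_lit 159) (nat_lit 141)) (PT.lf (nat_lit 8512) (nat_lit 6) (nat_lit 112) (nat_lit 2) (nat_lit 151) (nat_lit 159) (nat_lit 140)))) (PT.nd (nat_lit 156) (PT.nd (nat_lit 78) (PT.lf (nat_lit 7752) (nat_lit 6) (nat_lit 102) (nat_lit 2) (nat_lit 152) (nat_lit 159) (nat_lit 139)) (PT.lf (nat_lit 7372) (nat_lit 6) (nat_lit 97) (nat_lit 2) (nat_lit 153) (nat_lit 159) (nat_lit 138))) (PT.nd (nat_lit 78) (PT.lf (nat_lit 7068) (nat_lit 6) (nat_lit 93) (nat_lit 2) (nat_lit 154) (nat_lit 159) (nat_lit 137)) (PT.lf (nat_lit 6688) (nat_lit 6) (nat_lit 88) (nat_lit 2) (nat_lit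 155) (nat_lit 159) (nat_lit 136))))) (PT.nd (nat_lit 234) (PT.nd (nat_lit 78) (PT.lf (nat_lit 6384) (nat_lit 6) (nat_lit 84) (nat_lit 2) (nat_lit 156) (nat_lit 159) (nat_lit 135)) (PT.nd (nat_lit 78) (PT.lf (nat_lit 6080) (nat_lit 6) (nat_lit 80) (nat_lit 2) (nat_lit 157) (nat_lit 159) (nat_lit 134)) (PT.lf (nat_lit 5852) (nat_lit 6) (nat_lit 77) (nat_lit 2) (nat_lit 158) (nat_lit 159) (nat_lit 133)))) (PT.nd (nat_lit 156) (PT.nd (nat_lit 78) (PT.lf (nat_lit 5548) (nat_lit 3) (nat_lit 73) (nat_lit 0) (nat_lit 159) (nat_lit 159) (nat_lit 132)) (PT.lf (nat_lit 5244) (nat_lit 6) (nat_lit 69) (nat_lit 0) (nat_lit 160) (nat_lit 159) (nat_lit 131))) (PT.nd (nat_lit 78) (PT.lf (nat_lit 4940) (nat_lit 6) (nat_lit 65) (nat_lit 0) (nat_lit 161) (nat_lit 159) (nat_lit 130)) (PT.lf (nat_lit 4636) (nat_lit 6) (nat_lit 61) (nat_lit 0) (nat_lit 162) (nat_lit 159) (nat_lit 129)))))) (PT.nd (nat_lit 44382) (PT.nd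 (nat_lit 44070) (PT.nd (nat_lit 78) (PT.lf (nat_lit 4332) (nat_lit 6) (nat_lit 57) (nat_lit 0) (nat_lit 163) (nat_lit 159) (nat_lit 128)) (PT.nd (nat_lit 43914) (PT.lf (nat_lit 4104) (nat_lit 6) (nat_lit 54) (nat_lit 0) (nat_lit 164) (nat_lit 159) (nat_lit 127)) (PT.lf (nat_lit 3876) (nat_lit 6) (nat_lit 51) (nat_lit 5) (nat_lit 126) (nat_lit 160) (nat_lit 164)))) (PT.nd (nat_lit 156) (PT.nd (nat_lit 78) (PT.lf (nat_lit 4180) (nat_lit 6) (nat_lit 55) (nat_lit 5) (nat_lit 127) (nat_lit 160) (nat_lit 163)) (PT.lf (nat_lit 4408) (nat_lit 6) (nat_lit 58) (nat_lit 5) (nat_lit 128) (nat_lit 160) (nat_lit 162))) (PT.nd (nat_lit 78) (PT.lf (nat_lit 4712) (nat_lit 6) (nat_lit 62) (nat_lit 5) (nat_lit 129) (nat_lit 160) (nat_lit 161)) (PT.lf (nat_lit 5016) (nat_lit 3) (nat_lit 66) (nat_lit 4) (nat_lit 130) (nat_lit 160) (nat_lit 160))))) (PT.nd (nat_lit 234) (PT.nd (nat_lit 78) (PT.lf (nat_lit 5244) (nat_lit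 6) (nat_lit 69) (nat_lit 4) (nat_lit 131) (nat_lit 160) (nat_lit 159)) (PT.nd (nat_lit 78) (PT.lf (nat_lit 5472) (nat_lit 6) (nat_lit 72) (nat_lit 4) (nat_lit 132) (nat_lit 160) (nat_lit 158)) (PT.lf (nat_lit 5776) (nat_lit 6) (nat_lit 76) (nat_lit 4) (nat_lit 133) (nat_lit 160) (nat_lit 157)))) (PT.nd (nat_lit 156) (PT.nd (nat_lit 78) (PT.lf (nat_lit 6004) (nat_lit 6) (nat_lit 79) (nat_lit 4) (nat_lit 134) (nat_lit 160) (nat_lit 156)) (PT.lf (nat_lit 6308) (nat_lit 6) (nat_lit 83) (nat_lit 4) (nat_lit 135) (nat_lit 160) (nat_lit 155))) (PT.nd (nat_lit 78) (PT.lf (nat_lit 6612) (nat_lit 6) (nat_lit 87) (nat_lit 4) (nat_lit 136) (nat_lit 160) (nat_lit 154)) (PT.lf (nat_lit 6992) (nat_lit 6) (nat_lit 92) (nat_lit 4) (nat_lit 137) (nat_lit 160) (nat_lit 153))))))) (PT.nd (nat_lit 1092) (PT.nd (nat_lit 546) (PT.nd (nat_lit 234) (PT.nd (nat_lit 78) (PT.lf (nat_lit 7296) (nat_lit 6) (nat_lit 96) (nat_lit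 4) (nat_lit 138) (nat_lit 160) (nat_lit 152)) (PT.nd (nat_lit 78) (PT.lf (nat_lit 7676) (nat_lit 6) (nat_lit 101) (nat_lit 4) (nat_lit 139) (nat_lit 160) (nat_lit 151)) (PT.lf (nat_lit 8436) (nat_lit 6) (nat_lit 111) (nat_lit 4) (nat_lit 140) (nat_lit 160) (nat_lit 150)))) (PT.nd (nat_lit 156) (PT.nd (nat_lit 78) (PT.lf (nat_lit 8360) (nat_lit 6) (nat_lit 110) (nat_lit 4) (nat_lit 141) (nat_lit 160) (nat_lit 149)) (PT.lf (nat_lit 8284) (nat_lit 6) (nat_lit 109) (nat_lit 4) (nat_lit 142) (nat_lit 160) (nat_lit 148))) (PT.nd (nat_lit 78) (PT.lf (nat_lit 8208) (nat_lit 6) (nat_lit 108) (nat_lit 4) (nat_lit 143) (nat_lit 160) (nat_lit 147)) (PT.lf (nat_lit 8132) (nat_lit 6) (nat_lit 107) (nat_lit 4) (nat_lit 144) (nat_lit 160) (nat_lit 146))))) (PT.nd (nat_lit 234) (PT.nd (nat_lit 78) (PT.lf (nat_lit 8056) (nat_lit 3) (nat_lit 106) (nat_lit 2) (nat_lit 145) (nat_lit 160) (nat_lit 145)) (PT.nd (nat_lit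 78) (PT.lf (nat_lit 8132) (nat_lit 6) (nat_lit 107) (nat_lit 2) (nat_lit 146) (nat_lit 160) (nat_lit 144)) (PT.lf (nat_lit 8208) (nat_lit 6) (nat_lit 108) (nat_lit 2) (nat_lit 147) (nat_lit 160) (nat_lit 143)))) (PT.nd (nat_lit 156) (PT.nd (nat_lit 78) (PT.lf (nat_lit 8284) (nat_lit 6) (nat_lit 109) (nat_lit 2) (nat_lit 148) (nat_lit 160) (nat_lit 142)) (PT.lf (nat_lit 8360) (nat_lit 6) (nat_lit 110) (nat_lit 2) (nat_lit 149) (nat_lit 160) (nat_lit 141))) (PT.nd (nat_lit 78) (PT.lf (nat_lit 8436) (nat_lit 6) (nat_lit 111) (nat_lit 2) (nat_lit 150) (nat_lit 160) (nat_lit 140)) (PT.lf (nat_lit 7676) (nat_lit 6) (nat_lit 101) (nat_lit 2) (nat_lit 151) (nat_lit 160) (nat_lit 139)))))) (PT.nd (nat_lit 546) (PT.nd (nat_lit 234) (PT.nd (nat_lit 78) (PT.lf (nat_lit 7296) (nat_lit 6) (nat_lit 96) (nat_lit 2) (nat_lit 152) (nat_lit 160) (nat_lit 138)) (PT.nd (nat_lit 78) (PT.lf (nat_lit 6992) (nat_lit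 6) (nat_lit 92) (nat_lit 2) (nat_lit 153) (nat_lit 160) (nat_lit 137)) (PT.lf (nat_lit 6612) (nat_lit 6) (nat_lit 87) (nat_lit 2) (nat_lit 154) (nat_lit 160) (nat_lit 136)))) (PT.nd (nat_lit 156) (PT.nd (nat_lit 78) (PT.lf (nat_lit 6308) (nat_lit 6) (nat_lit 83) (nat_lit 2) (nat_lit 155) (nat_lit 160) (nat_lit 135)) (PT.lf (nat_lit 6004) (nat_lit 6) (nat_lit 79) (nat_lit 2) (nat_lit 156) (nat_lit 160) (nat_lit 134))) (PT.nd (nat_lit 78) (PT.lf (nat_lit 5776) (nat_lit 6) (nat_lit 76) (nat_lit 2) (nat_lit 157) (nat_lit 160) (nat_lit 133)) (PT.lf (nat_lit 5472) (nat_lit 6) (nat_lit 72) (nat_lit 2) (nat_lit 158) (nat_lit 160) (nat_lit 132))))) (PT.nd (nat_lit 234) (PT.nd (nat_lit 78) (PT.lf (nat_lit 5244) (nat_lit 6) (nat_lit 69) (nat_lit 2) (nat_lit 159) (nat_lit 160) (nat_lit 131)) (PT.nd (nat_lit 78) (PT.lf (nat_lit 5016) (nat_lit 3) (nat_lit 66) (nat_lit 0) (nat_lit 160) (nat_lit 160) (nat_lit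 130)) (PT.lf (nat_lit 4712) (nat_lit 6) (nat_lit 62) (nat_lit 0) (nat_lit 161) (nat_lit 160) (nat_lit 129)))) (PT.nd (nat_lit 156) (PT.nd (nat_lit 78) (PT.lf (nat_lit 4408) (nat_lit 6) (nat_lit 58) (nat_lit 0) (nat_lit 162) (nat_lit 160) (nat_lit 128)) (PT.lf (nat_lit 4180) (nat_lit 6) (nat_lit 55) (nat_lit 0) (nat_lit 163) (nat_lit 160) (nat_lit 127))) (PT.nd (nat_lit 43758) (PT.lf (nat_lit 3876) (nat_lit 6) (nat_lit 51) (nat_lit 0) (nat_lit 164) (nat_lit 160) (nat_lit 126)) (PT.lf (nat_lit 3496) (nat_lit 6) (nat_lit 46) (nat_lit 5) (nat_lit 124) (nat_lit 161) (nat_lit 165))))))))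
noncomputable def pc12 : PT := (PT.nd (nat_lit 46722) (PT.nd (nat_lit 2184) (PT.nd (nat_lit 546) (PT.nd (nat_lit 234) (PT.nd (nat_lit 78) (PT.lf (nat_lit 3724) (nat_lit 6) (nat_lit 49) (nat_lit 5) (nat_lit 125) (nat_lit 161) (nat_lit 164)) (PT.nd (nat_lit 78) (PT.lf (nat_lit 3952) (nat_lit 6) (nat_lit 52) (nat_lit 5) (nat_lit 126) (nat_lit 161) (nat_lit 163)) (PT.lf (nat_lit 4256) (nat_lit 6) (nat_lit 56) (nat_lit 5) (nat_lit 127) (nat_lit 161) (nat_lit 162)))) (PT.nd (nat_lit 156) (PT.nd (nat_lit 78) (PT.lf (nat_lit 4484) (nat_lit 3) (nat_lit 59) (nat_lit 4) (nat_lit 128) (nat_lit 161) (nat_lit 161)) (PT.lf (nat_lit 4712) (nat_lit 6) (nat_lit 62) (nat_lit 4) (nat_lit 129) (nat_lit 161) (nat_lit 160))) (PT.nd (nat_lit 78) (PT.lf (nat_lit 4940) (nat_lit 6) (nat_lit 65) (nat_lit 4) (nat_lit 130) (nat_lit 161) (nat_lit 159)) (PT.lf (nat_lit 5168) (nat_lit 6) (nat_lit 68) (nat_lit 4) (nat_lit 131)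 (nat_lit 161) (nat_lit 158))))) (PT.nd (nat_lit 234) (PT.nd (nat_lit 78) (PT.lf (nat_lit 5396) (nat_lit 6) (nat_lit 71) (nat_lit 4) (nat_lit 132) (nat_lit 161) (nat_lit 157)) (PT.nd (nat_lit 78) (PT.lf (nat_lit 5700) (nat_lit 6) (nat_lit 75) (nat_lit 4) (nat_lit 133) (nat_lit 161) (nat_lit 156)) (PT.lf (nat_lit 5928) (nat_lit 6) (nat_lit 78) (nat_lit 4) (nat_lit 134) (nat_lit 161) (nat_lit 155)))) (PT.nd (nat_lit 156) (PT.nd (nat_lit 78) (PT.lf (nat_lit 6232) (nat_lit 6) (nat_lit 82) (nat_lit 4) (nat_lit 135) (nat_lit 161) (nat_lit 154)) (PT.lf (nat_lit 6536) (nat_lit 6) (nat_lit 86) (nat_lit 4) (nat_lit 136) (nat_lit 161) (nat_lit 153))) (PT.nd (nat_lit 1170) (PT.lf (nat_lit 6916) (nat_lit 6) (nat_lit 91) (nat_lit 4) (nat_lit 137) (nat_lit 161) (nat_lit 152)) (PT.lf (nat_lit 6916) (nat_lit 6) (nat_lit 91) (nat_lit 2) (nat_lit 152) (nat_lit 161) (nat_lit 137)))))) (PT.nd (nat_lit 546) (PT.nd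 (nat_lit 234) (PT.nd (nat_lit 78) (PT.lf (nat_lit 6536) (nat_lit 6) (nat_lit 86) (nat_lit 2) (nat_lit 153) (nat_lit 161) (nat_lit 136)) (PT.nd (nat_lit 78) (PT.lf (nat_lit 6232) (nat_lit 6) (nat_lit 82) (nat_lit 2) (nat_lit 154) (nat_lit 161) (nat_lit 135)) (PT.lf (nat_lit 5928) (nat_lit 6) (nat_lit 78) (nat_lit 2) (nat_lit 155) (nat_lit 161) (nat_lit 134)))) (PT.nd (nat_lit 156) (PT.nd (nat_lit 78) (PT.lf (nat_lit 5700) (nat_lit 6) (nat_lit 75) (nat_lit 2) (nat_lit 156) (nat_lit 161) (nat_lit 133)) (PT.lf (nat_lit 5396) (nat_lit 6) (nat_lit 71) (nat_lit 2) (nat_lit 157) (nat_lit 161) (nat_lit 132))) (PT.nd (nat_lit 78) (PT.lf (nat_lit 5168) (nat_lit 6) (nat_lit 68) (nat_lit 2) (nat_lit 158) (nat_lit 161) (nat_lit 131)) (PT.lf (nat_lit 4940) (nat_lit 6) (nat_lit 65) (nat_lit 2) (nat_lit 159) (nat_lit 161) (nat_lit 130))))) (PT.nd (nat_lit 234) (PT.nd (nat_lit 78) (PT.lf (nat_lit 4712) (nat_lit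 6) (nat_lit 62) (nat_lit 2) (nat_lit 160) (nat_lit 161) (nat_lit 129)) (PT.nd (nat_lit 78) (PT.lf (nat_lit 4484) (nat_lit 3) (nat_lit 59) (nat_lit 0) (nat_lit 161) (nat_lit 161) (nat_lit 128)) (PT.lf (nat_lit 4256) (nat_lit 6) (nat_lit 56) (nat_lit 0) (nat_lit 162) (nat_lit 161) (nat_lit 127)))) (PT.nd (nat_lit 156) (PT.nd (nat_lit 78) (PT.lf (nat_lit 3952) (nat_lit 6) (nat_lit 52) (nat_lit 0) (nat_lit 163) (nat_lit 161) (nat_lit 126)) (PT.lf (nat_lit 3724) (nat_lit 6) (nat_lit 49) (nat_lit 0) (nat_lit 164) (nat_lit 161) (nat_lit 125))) (PT.nd (nat_lit 43524) (PT.lf (nat_lit 3496) (nat_lit 6) (nat_lit 46) (nat_lit 0) (nat_lit 165) (nat_lit 161) (nat_lit 124)) (PT.lf (nat_lit 3116) (nat_lit 6) (nat_lit 41) (nat_lit 5) (nat_lit 122) (nat_lit 162) (nat_lit 166))))))) (PT.nd (nat_lit 2730) (PT.nd (nat_lit 546) (PT.nd (nat_lit 234) (PT.nd (nat_lit 78) (PT.lf (nat_lit 3344) (nat_lit 6) (nat_lit 44)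 (nat_lit 5) (nat_lit 123) (nat_lit 162) (nat_lit 165)) (PT.nd (nat_lit 78) (PT.lf (nat_lit 3572) (nat_lit 6) (nat_lit 47) (nat_lit 5) (nat_lit 124) (nat_lit 162) (nat_lit 164)) (PT.lf (nat_lit 3800) (nat_lit 6) (nat_lit 50) (nat_lit 5) (nat_lit 125) (nat_lit 162) (nat_lit 163)))) (PT.nd (nat_lit 156) (PT.nd (nat_lit 78) (PT.lf (nat_lit 4028) (nat_lit 3) (nat_lit 53) (nat_lit 4) (nat_lit 126) (nat_lit 162) (nat_lit 162)) (PT.lf (nat_lit 4256) (nat_lit 6) (nat_lit 56) (nat_lit 4) (nat_lit 127) (nat_lit 162) (nat_lit 161))) (PT.nd (nat_lit 78) (PT.lf (nat_lit 4408) (nat_lit 6) (nat_lit 58) (nat_lit 4) (nat_lit 128) (nat_lit 162) (nat_lit 160)) (PT.lf (nat_lit 4636) (nat_lit 6) (nat_lit 61) (nat_lit 4) (nat_lit 129) (nat_lit 162) (nat_lit 159))))) (PT.nd (nat_lit 234) (PT.nd (nat_lit 78) (PT.lf (nat_lit 4864) (nat_lit 6) (nat_lit 64) (nat_lit 4) (nat_lit 130) (nat_lit 162) (nat_lit 158)) (PT.nd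 (nat_lit 78) (PT.lf (nat_lit 5092) (nat_lit 6) (nat_lit 67) (nat_lit 4) (nat_lit 131) (nat_lit 162) (nat_lit 157)) (PT.lf (nat_lit 5320) (nat_lit 6) (nat_lit 70) (nat_lit 4) (nat_lit 132) (nat_lit 162) (nat_lit 156)))) (PT.nd (nat_lit 1794) (PT.nd (nat_lit 1716) (PT.lf (nat_lit 5624) (nat_lit 6) (nat_lit 74) (nat_lit 4) (nat_lit 133) (nat_lit 162) (nat_lit 155)) (PT.lf (nat_lit 5624) (nat_lit 6) (nat_lit 74) (nat_lit 2) (nat_lit 155) (nat_lit 162) (nat_lit 133))) (PT.nd (nat_lit 78) (PT.lf (nat_lit 5320) (nat_lit 6) (nat_lit 70) (nat_lit 2) (nat_lit 156) (nat_lit 162) (nat_lit 132)) (PT.lf (nat_lit 5092) (nat_lit 6) (nat_lit 67) (nat_lit 2) (nat_lit 157) (nat_lit 162) (nat_lit 131)))))) (PT.nd (nat_lit 546) (PT.nd (nat_lit 234) (PT.nd (nat_lit 78) (PT.lf (nat_lit 4864) (nat_lit 6) (nat_lit 64) (nat_lit 2) (nat_lit 158) (nat_lit 162) (nat_lit 130)) (PT.nd (nat_lit 78) (PT.lf (nat_lit 4636) (nat_lit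 6) (nat_lit 61) (nat_lit 2) (nat_lit 159) (nat_lit 162) (nat_lit 129)) (PT.lf (nat_lit 4408) (nat_lit 6) (nat_lit 58) (nat_lit 2) (nat_lit 160) (nat_lit 162) (nat_lit 128)))) (PT.nd (nat_lit 156) (PT.nd (nat_lit 78) (PT.lf (nat_lit 4256) (nat_lit 6) (nat_lit 56) (nat_lit 2) (nat_lit 161) (nat_lit 162) (nat_lit 127)) (PT.lf (nat_lit 4028) (nat_lit 3) (nat_lit 53) (nat_lit 0) (nat_lit 162) (nat_lit 162) (nat_lit 126))) (PT.nd (nat_lit 78) (PT.lf (nat_lit 3800) (nat_lit 6) (nat_lit 50) (nat_lit 0) (nat_lit 163) (nat_lit 162) (nat_lit 125)) (PT.lf (nat_lit 3572) (nat_lit 6) (nat_lit 47) (nat_lit 0) (nat_lit 164) (nat_lit 162) (nat_lit 124))))) (PT.nd (nat_lit 43524) (PT.nd (nat_lit 78) (PT.lf (nat_lit 3344) (nat_lit 6) (nat_lit 44) (nat_lit 0) (nat_lit 165) (nat_lit 162) (nat_lit 123)) (PT.nd (nat_lit 43368) (PT.lf (nat_lit 3116) (nat_lit 6) (nat_lit 41) (nat_lit 0) (nat_lit 166) (nat_lit 162) (nat_lit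 122)) (PT.lf (nat_lit 2964) (nat_lit 6) (nat_lit 39) (nat_lit 5) (nat_lit 121) (nat_lit 163) (nat_lit 166)))) (PT.nd (nat_lit 156) (PT.nd (nat_lit 78) (PT.lf (nat_lit 3192) (nat_lit 6) (nat_lit 42) (nat_lit 5) (nat_lit 122) (nat_lit 163) (nat_lit 165)) (PT.lf (nat_lit 3420) (nat_lit 6) (nat_lit 45) (nat_lit 5) (nat_lit 123) (nat_lit 163) (nat_lit 164))) (PT.nd (nat_lit 78) (PT.lf (nat_lit 3648) (nat_lit 3) (nat_lit 48) (nat_lit 4) (nat_lit 124) (nat_lit 163) (nat_lit 163)) (PT.lf (nat_lit 3800) (nat_lit 6) (nat_lit 50) (nat_lit 4) (nat_lit 125) (nat_lit 163) (nat_lit 162))))))))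
noncomputable def pc13 : PT := (PT.nd (nat_lit 49764) (PT.nd (nat_lit 3120) (PT.nd (nat_lit 2574) (PT.nd (nat_lit 234) (PT.nd (nat_lit 78) (PT.lf (nat_lit 3952) (nat_lit 6) (nat_lit 52) (nat_lit 4) (nat_lit 126) (nat_lit 163) (nat_lit 161)) (PT.nd (nat_lit 78) (PT.lf (nat_lit 4180) (nat_lit 6) (nat_lit 55) (nat_lit 4) (nat_lit 127) (nat_lit 163) (nat_lit 160)) (PT.lf (nat_lit 4332) (nat_lit 6) (nat_lit 57) (nat_lit 4) (nat_lit 128) (nat_lit 163) (nat_lit 159)))) (PT.nd (nat_lit 2184) (PT.nd (nat_lit 78) (PT.lf (nat_lit 4560) (nat_lit 6) (nat_lit 60) (nat_lit 4) (nat_lit 129) (nat_lit 163) (nat_lit 158)) (PT.lf (nat_lit 4788) (nat_lit 6) (nat_lit 63) (nat_lit 4) (nat_lit 130) (nat_lit 163) (nat_lit 157))) (PT.nd (nat_lit 78) (PT.lf (nat_lit 4788) (nat_lit 6) (nat_lit 63) (nat_lit 2) (nat_lit 157) (nat_lit 163) (nat_lit 130)) (PT.lf (nat_lit 4560) (nat_lit 6) (nat_lit 60) (nat_lit 2) (nat_lit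 158) (nat_lit 163) (nat_lit 129))))) (PT.nd (nat_lit 234) (PT.nd (nat_lit 78) (PT.lf (nat_lit 4332) (nat_lit 6) (nat_lit 57) (nat_lit 2) (nat_lit 159) (nat_lit 163) (nat_lit 128)) (PT.nd (nat_lit 78) (PT.lf (nat_lit 4180) (nat_lit 6) (nat_lit 55) (nat_lit 2) (nat_lit 160) (nat_lit 163) (nat_lit 127)) (PT.lf (nat_lit 3952) (nat_lit 6) (nat_lit 52) (nat_lit 2) (nat_lit 161) (nat_lit 163) (nat_lit 126)))) (PT.nd (nat_lit 156) (PT.nd (nat_lit 78) (PT.lf (nat_lit 3800) (nat_lit 6) (nat_lit 50) (nat_lit 2) (nat_lit 162) (nat_lit 163) (nat_lit 125)) (PT.lf (nat_lit 3648) (nat_lit 3) (nat_lit 48) (nat_lit 0) (nat_lit 163) (nat_lit 163) (nat_lit 124))) (PT.nd (nat_lit 78) (PT.lf (nat_lit 3420) (nat_lit 6) (nat_lit 45) (nat_lit 0) (nat_lit 164) (nat_lit 163) (nat_lit 123)) (PT.lf (nat_lit 3192) (nat_lit 6) (nat_lit 42) (nat_lit 0) (nat_lit 165) (nat_lit 163) (nat_lit 122)))))) (PT.nd (nat_lit 43680) (PT.nd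 (nat_lit 43368) (PT.nd (nat_lit 43212) (PT.lf (nat_lit 2964) (nat_lit 6) (nat_lit 39) (nat_lit 0) (nat_lit 166) (nat_lit 163) (nat_lit 121)) (PT.nd (nat_lit 78) (PT.lf (nat_lit 2660) (nat_lit 6) (nat_lit 35) (nat_lit 5) (nat_lit 119) (nat_lit 164) (nat_lit 167)) (PT.lf (nat_lit 2812) (nat_lit 6) (nat_lit 37) (nat_lit 5) (nat_lit 120) (nat_lit 164) (nat_lit 166)))) (PT.nd (nat_lit 156) (PT.nd (nat_lit 78) (PT.lf (nat_lit 3040) (nat_lit 6) (nat_lit 40) (nat_lit 5) (nat_lit 121) (nat_lit 164) (nat_lit 165)) (PT.lf (nat_lit 3268) (nat_lit 3) (nat_lit 43) (nat_lit 4) (nat_lit 122) (nat_lit 164) (nat_lit 164))) (PT.nd (nat_lit 78) (PT.lf (nat_lit 3420) (nat_lit 6) (nat_lit 45) (nat_lit 4) (nat_lit 123) (nat_lit 164) (nat_lit 163)) (PT.lf (nat_lit 3572) (nat_lit 6) (nat_lit 47) (nat_lit 4) (nat_lit 124) (nat_lit 164) (nat_lit 162))))) (PT.nd (nat_lit 2652) (PT.nd (nat_lit 78) (PT.lf (nat_lit 3724)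 (nat_lit 6) (nat_lit 49) (nat_lit 4) (nat_lit 125) (nat_lit 164) (nat_lit 161)) (PT.nd (nat_lit 78) (PT.lf (nat_lit 3876) (nat_lit 6) (nat_lit 51) (nat_lit 4) (nat_lit 126) (nat_lit 164) (nat_lit 160)) (PT.lf (nat_lit 4104) (nat_lit 6) (nat_lit 54) (nat_lit 4) (nat_lit 127) (nat_lit 164) (nat_lit 159)))) (PT.nd (nat_lit 156) (PT.nd (nat_lit 78) (PT.lf (nat_lit 4104) (nat_lit 6) (nat_lit 54) (nat_lit 2) (nat_lit 159) (nat_lit 164) (nat_lit 127)) (PT.lf (nat_lit 3876) (nat_lit 6) (nat_lit 51) (nat_lit 2) (nat_lit 160) (nat_lit 164) (nat_lit 126))) (PT.nd (nat_lit 78) (PT.lf (nat_lit 3724) (nat_lit 6) (nat_lit 49) (nat_lit 2) (nat_lit 161) (nat_lit 164) (nat_lit 125)) (PT.lf (nat_lit 3572) (nat_lit 6) (nat_lit 47) (nat_lit 2) (nat_lit 162) (nat_lit 164) (nat_lit 124))))))) (PT.nd (nat_lit 46800) (PT.nd (nat_lit 43446) (PT.nd (nat_lit 234) (PT.nd (nat_lit 78) (PT.lf (nat_lit 3420) (nat_lit 6) (nat_lit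 45) (nat_lit 2) (nat_lit 163) (nat_lit 164) (nat_lit 123)) (PT.nd (nat_lit 78) (PT.lf (nat_lit 3268) (nat_lit 3) (nat_lit 43) (nat_lit 0) (nat_lit 164) (nat_lit 164) (nat_lit 122)) (PT.lf (nat_lit 3040) (nat_lit 6) (nat_lit 40) (nat_lit 0) (nat_lit 165) (nat_lit 164) (nat_lit 121)))) (PT.nd (nat_lit 43056) (PT.nd (nat_lit 78) (PT.lf (nat_lit 2812) (nat_lit 6) (nat_lit 37) (nat_lit 0) (nat_lit 166) (nat_lit 164) (nat_lit 120)) (PT.lf (nat_lit 2660) (nat_lit 6) (nat_lit 35) (nat_lit 0) (nat_lit 167) (nat_lit 164) (nat_lit 119))) (PT.nd (nat_lit 78) (PT.lf (nat_lit 2356) (nat_lit 6) (nat_lit 31) (nat_lit 5) (nat_lit 117) (nat_lit 165) (nat_lit 168)) (PT.lf (nat_lit 2508) (nat_lit 6) (nat_lit 33) (nat_lit 5) (nat_lit 118) (nat_lit 165) (nat_lit 167))))) (PT.nd (nat_lit 234) (PT.nd (nat_lit 78) (PT.lf (nat_lit 2736) (nat_lit 6) (nat_lit 36) (nat_lit 5) (nat_lit 119) (nat_lit 165) (nat_lit 166)) (PT.nd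 (nat_lit 78) (PT.lf (nat_lit 2888) (nat_lit 3) (nat_lit 38) (nat_lit 4) (nat_lit 120) (nat_lit 165) (nat_lit 165)) (PT.lf (nat_lit 3040) (nat_lit 6) (nat_lit 40) (nat_lit 4) (nat_lit 121) (nat_lit 165) (nat_lit 164)))) (PT.nd (nat_lit 156) (PT.nd (nat_lit 78) (PT.lf (nat_lit 3192) (nat_lit 6) (nat_lit 42) (nat_lit 4) (nat_lit 122) (nat_lit 165) (nat_lit 163)) (PT.lf (nat_lit 3344) (nat_lit 6) (nat_lit 44) (nat_lit 4) (nat_lit 123) (nat_lit 165) (nat_lit 162))) (PT.nd (nat_lit 2886) (PT.lf (nat_lit 3496) (nat_lit 6) (nat_lit 46) (nat_lit 4) (nat_lit 124) (nat_lit 165) (nat_lit 161)) (PT.lf (nat_lit 3496) (nat_lit 6) (nat_lit 46) (nat_lit 2) (nat_lit 161) (nat_lit 165) (nat_lit 124)))))) (PT.nd (nat_lit 43212) (PT.nd (nat_lit 234) (PT.nd (nat_lit 78) (PT.lf (nat_lit 3344) (nat_lit 6) (nat_lit 44) (nat_lit 2) (nat_lit 162) (nat_lit 165) (nat_lit 123)) (PT.nd (nat_lit 78) (PT.lf (nat_lit 3192) (nat_lit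 6) (nat_lit 42) (nat_lit 2) (nat_lit 163) (nat_lit 165) (nat_lit 122)) (PT.lf (nat_lit 3040) (nat_lit 6) (nat_lit 40) (nat_lit 2) (nat_lit 164) (nat_lit 165) (nat_lit 121)))) (PT.nd (nat_lit 156) (PT.nd (nat_lit 78) (PT.lf (nat_lit 2888) (nat_lit 3) (nat_lit 38) (nat_lit 0) (nat_lit 165) (nat_lit 165) (nat_lit 120)) (PT.lf (nat_lit 2736) (nat_lit 6) (nat_lit 36) (nat_lit 0) (nat_lit 166) (nat_lit 165) (nat_lit 119))) (PT.nd (nat_lit 78) (PT.lf (nat_lit 2508) (nat_lit 6) (nat_lit 33) (nat_lit 0) (nat_lit 167) (nat_lit 165) (nat_lit 118)) (PT.lf (nat_lit 2356) (nat_lit 6) (nat_lit 31) (nat_lit 0) (nat_lit 168) (nat_lit 165) (nat_lit 117))))) (PT.nd (nat_lit 234) (PT.nd (nat_lit 78) (PT.lf (nat_lit 2052) (nat_lit 6) (nat_lit 27) (nat_lit 5) (nat_lit 115) (nat_lit 166) (nat_lit 169)) (PT.nd (nat_lit 78) (PT.lf (nat_lit 2204) (nat_lit 6) (nat_lit 29) (nat_lit 5) (nat_lit 116) (nat_lit 166) (nat_lit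 168)) (PT.lf (nat_lit 2432) (nat_lit 6) (nat_lit 32) (nat_lit 5) (nat_lit 117) (nat_lit 166) (nat_lit 167)))) (PT.nd (nat_lit 156) (PT.nd (nat_lit 78) (PT.lf (nat_lit 2584) (nat_lit 3) (nat_lit 34) (nat_lit 4) (nat_lit 118) (nat_lit 166) (nat_lit 166)) (PT.lf (nat_lit 2736) (nat_lit 6) (nat_lit 36) (nat_lit 4) (nat_lit 119) (nat_lit 166) (nat_lit 165))) (PT.nd (nat_lit 78) (PT.lf (nat_lit 2812) (nat_lit 6) (nat_lit 37) (nat_lit 4) (nat_lit 120) (nat_lit 166) (nat_lit 164)) (PT.lf (nat_lit 2964) (nat_lit 6) (nat_lit 39) (nat_lit 4) (nat_lit 121) (nat_lit 166) (nat_lit 163))))))))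
noncomputable def pc14 : PT := (PT.nd (nat_lit 97188) (PT.nd (nat_lit 46644) (PT.nd (nat_lit 3588) (PT.nd (nat_lit 3276) (PT.nd (nat_lit 3120) (PT.lf (nat_lit 3116) (nat_lit 6) (nat_lit 41) (nat_lit 4) (nat_lit 122) (nat_lit 166) (nat_lit 162)) (PT.nd (nat_lit 78) (PT.lf (nat_lit 3116) (nat_lit 6) (nat_lit 41) (nat_lit 2) (nat_lit 162) (nat_lit 166) (nat_lit 122)) (PT.lf (nat_lit 2964) (nat_lit 6) (nat_lit 39) (nat_lit 2) (nat_lit 163) (nat_lit 166) (nat_lit 121)))) (PT.nd (nat_lit 156) (PT.nd (nat_lit 78) (PT.lf (nat_lit 2812) (nat_lit 6) (nat_lit 37) (nat_lit 2) (nat_lit 164) (nat_lit 166) (nat_lit 120)) (PT.lf (nat_lit 2736) (nat_lit 6) (nat_lit 36) (nat_lit 2) (nat_lit 165) (nat_lit 166) (nat_lit 119))) (PT.nd (nat_lit 78) (PT.lf (nat_lit 2584) (nat_lit 3) (nat_lit 34) (nat_lit 0) (nat_lit 166) (nat_lit 166) (nat_lit 118)) (PT.lf (nat_lit 2432) (nat_lit 6) (nat_lit 32) (nat_lit 0) (nat_lit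 167) (nat_lit 166) (nat_lit 117))))) (PT.nd (nat_lit 42744) (PT.nd (nat_lit 78) (PT.lf (nat_lit 2204) (nat_lit 6) (nat_lit 29) (nat_lit 0) (nat_lit 168) (nat_lit 166) (nat_lit 116)) (PT.nd (nat_lit 42588) (PT.lf (nat_lit 2052) (nat_lit 6) (nat_lit 27) (nat_lit 0) (nat_lit 169) (nat_lit 166) (nat_lit 115)) (PT.lf (nat_lit 1900) (nat_lit 6) (nat_lit 25) (nat_lit 5) (nat_lit 114) (nat_lit 167) (nat_lit 169)))) (PT.nd (nat_lit 156) (PT.nd (nat_lit 78) (PT.lf (nat_lit 2128) (nat_lit 6) (nat_lit 28) (nat_lit 5) (nat_lit 115) (nat_lit 167) (nat_lit 168)) (PT.lf (nat_lit 2280) (nat_lit 3) (nat_lit 30) (nat_lit 4) (nat_lit 116) (nat_lit 167) (nat_lit 167))) (PT.nd (nat_lit 78) (PT.lf (nat_lit 2432) (nat_lit 6) (nat_lit 32) (nat_lit 4) (nat_lit 117) (nat_lit 167) (nat_lit 166)) (PT.lf (nat_lit 2508) (nat_lit 6) (nat_lit 33) (nat_lit 4) (nat_lit 118) (nat_lit 167) (nat_lit 165)))))) (PT.nd (nat_lit 46332)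 (PT.nd (nat_lit 3666) (PT.nd (nat_lit 3510) (PT.lf (nat_lit 2660) (nat_lit 6) (nat_lit 35) (nat_lit 4) (nat_lit 119) (nat_lit 167) (nat_lit 164)) (PT.nd (nat_lit 78) (PT.lf (nat_lit 2660) (nat_lit 6) (nat_lit 35) (nat_lit 2) (nat_lit 164) (nat_lit 167) (nat_lit 119)) (PT.lf (nat_lit 2508) (nat_lit 6) (nat_lit 33) (nat_lit 2) (nat_lit 165) (nat_lit 167) (nat_lit 118)))) (PT.nd (nat_lit 156) (PT.nd (nat_lit 78) (PT.lf (nat_lit 2432) (nat_lit 6) (nat_lit 32) (nat_lit 2) (nat_lit 166) (nat_lit 167) (nat_lit 117)) (PT.lf (nat_lit 2280) (nat_lit 3) (nat_lit 30) (nat_lit 0) (nat_lit 167) (nat_lit 167) (nat_lit 116))) (PT.nd (nat_lit 78) (PT.lf (nat_lit 2128) (nat_lit 6) (nat_lit 28) (nat_lit 0) (nat_lit 168) (nat_lit 167) (nat_lit 115)) (PT.lf (nat_lit 1900) (nat_lit 6) (nat_lit 25) (nat_lit 0) (nat_lit 169) (nat_lit 167) (nat_lit 114))))) (PT.nd (nat_lit 234) (PT.nd (nat_lit 78) (PT.lf (nat_lit 1672)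 (nat_lit 6) (nat_lit 22) (nat_lit 5) (nat_lit 112) (nat_lit 168) (nat_lit 170)) (PT.nd (nat_lit 78) (PT.lf (nat_lit 1824) (nat_lit 6) (nat_lit 24) (nat_lit 5) (nat_lit 113) (nat_lit 168) (nat_lit 169)) (PT.lf (nat_lit 1976) (nat_lit 3) (nat_lit 26) (nat_lit 4) (nat_lit 114) (nat_lit 168) (nat_lit 168)))) (PT.nd (nat_lit 156) (PT.nd (nat_lit 78) (PT.lf (nat_lit 2128) (nat_lit 6) (nat_lit 28) (nat_lit 4) (nat_lit 115) (nat_lit 168) (nat_lit 167)) (PT.lf (nat_lit 2204) (nat_lit 6) (nat_lit 29) (nat_lit 4) (nat_lit 116) (nat_lit 168) (nat_lit 166))) (PT.nd (nat_lit 3744) (PT.lf (nat_lit 2356) (nat_lit 6) (nat_lit 31) (nat_lit 4) (nat_lit 117) (nat_lit 168) (nat_lit 165)) (PT.lf (nat_lit 2356) (nat_lit 6) (nat_lit 31) (nat_lit 2) (nat_lit 165) (nat_lit 168) (nat_lit 117))))))) (PT.nd (nat_lit 47112) (PT.nd (nat_lit 42666) (PT.nd (nat_lit 234) (PT.nd (nat_lit 78) (PT.lf (nat_lit 2204) (nat_lit 6)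 (nat_lit 29) (nat_lit 2) (nat_lit 166) (nat_lit 168) (nat_lit 116)) (PT.nd (nat_lit 78) (PT.lf (nat_lit 2128) (nat_lit 6) (nat_lit 28) (nat_lit 2) (nat_lit 167) (nat_lit 168) (nat_lit 115)) (PT.lf (nat_lit 1976) (nat_lit 3) (nat_lit 26) (nat_lit 0) (nat_lit 168) (nat_lit 168) (nat_lit 114)))) (PT.nd (nat_lit 42276) (PT.nd (nat_lit 78) (PT.lf (nat_lit 1824) (nat_lit 6) (nat_lit 24) (nat_lit 0) (nat_lit 169) (nat_lit 168) (nat_lit 113)) (PT.lf (nat_lit 1672) (nat_lit 6) (nat_lit 22) (nat_lit 0) (nat_lit 170) (nat_lit 168) (nat_lit 112))) (PT.nd (nat_lit 78) (PT.lf (nat_lit 1444) (nat_lit 6) (nat_lit 19) (nat_lit 5) (nat_lit 110) (nat_lit 169) (nat_lit 171)) (PT.lf (nat_lit 1596) (nat_lit 6) (nat_lit 21) (nat_lit 5) (nat_lit 111) (nat_lit 169) (nat_lit 170))))) (PT.nd (nat_lit 234) (PT.nd (nat_lit 78) (PT.lf (nat_lit 1748) (nat_lit 3) (nat_lit 23) (nat_lit 4) (nat_lit 112) (nat_lit 169) (nat_lit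 169)) (PT.nd (nat_lit 78) (PT.lf (nat_lit 1824) (nat_lit 6) (nat_lit 24) (nat_lit 4) (nat_lit 113) (nat_lit 169) (nat_lit 168)) (PT.lf (nat_lit 1900) (nat_lit 6) (nat_lit 25) (nat_lit 4) (nat_lit 114) (nat_lit 169) (nat_lit 167)))) (PT.nd (nat_lit 4056) (PT.nd (nat_lit 3978) (PT.lf (nat_lit 2052) (nat_lit 6) (nat_lit 27) (nat_lit 4) (nat_lit 115) (nat_lit 169) (nat_lit 166)) (PT.lf (nat_lit 2052) (nat_lit 6) (nat_lit 27) (nat_lit 2) (nat_lit 166) (nat_lit 169) (nat_lit 115))) (PT.nd (nat_lit 78) (PT.lf (nat_lit 1900) (nat_lit 6) (nat_lit 25) (nat_lit 2) (nat_lit 167) (nat_lit 169) (nat_lit 114)) (PT.lf (nat_lit 1824) (nat_lit 6) (nat_lit 24) (nat_lit 2) (nat_lit 168) (nat_lit 169) (nat_lit 113)))))) (PT.nd (nat_lit 42432) (PT.nd (nat_lit 42120) (PT.nd (nat_lit 78) (PT.lf (nat_lit 1748) (nat_lit 3) (nat_lit 23) (nat_lit 0) (nat_lit 169) (nat_lit 169) (nat_lit 112)) (PT.nd (nat_lit 78) (PT.lf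 (nat_lit 1596) (nat_lit 6) (nat_lit 21) (nat_lit 0) (nat_lit 170) (nat_lit 169) (nat_lit 111)) (PT.lf (nat_lit 1444) (nat_lit 6) (nat_lit 19) (nat_lit 0) (nat_lit 171) (nat_lit 169) (nat_lit 110)))) (PT.nd (nat_lit 156) (PT.nd (nat_lit 78) (PT.lf (nat_lit 1216) (nat_lit 6) (nat_lit 16) (nat_lit 5) (nat_lit 108) (nat_lit 170) (nat_lit 172)) (PT.lf (nat_lit 1368) (nat_lit 6) (nat_lit 18) (nat_lit 5) (nat_lit 109) (nat_lit 170) (nat_lit 171))) (PT.nd (nat_lit 78) (PT.lf (nat_lit 1520) (nat_lit 3) (nat_lit 20) (nat_lit 4) (nat_lit 110) (nat_lit 170) (nat_lit 170)) (PT.lf (nat_lit 1596) (nat_lit 6) (nat_lit 21) (nat_lit 4) (nat_lit 111) (nat_lit 170) (nat_lit 169))))) (PT.nd (nat_lit 4524) (PT.nd (nat_lit 4368) (PT.lf (nat_lit 1672) (nat_lit 6) (nat_lit 22) (nat_lit 4) (nat_lit 112) (nat_lit 170) (nat_lit 168)) (PT.nd (nat_lit 78) (PT.lf (nat_lit 1672) (nat_lit 6) (nat_lit 22) (nat_lit 2) (nat_lit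 168) (nat_lit 170) (nat_lit 112)) (PT.lf (nat_lit 1596) (nat_lit 6) (nat_lit 21) (nat_lit 2) (nat_lit 169) (nat_lit 170) (nat_lit 111)))) (PT.nd (nat_lit 156) (PT.nd (nat_lit 78) (PT.lf (nat_lit 1520) (nat_lit 3) (nat_lit 20) (nat_lit 0) (nat_lit 170) (nat_lit 170) (nat_lit 110)) (PT.lf (nat_lit 1368) (nat_lit 6) (nat_lit 18) (nat_lit 0) (nat_lit 171) (nat_lit 170) (nat_lit 109))) (PT.nd (nat_lit 41730) (PT.lf (nat_lit 1216) (nat_lit 6) (nat_lit 16) (nat_lit 0) (nat_lit 172) (nat_lit 170) (nat_lit 108)) (PT.lf (nat_lit 988) (nat_lit 6) (nat_lit 13) (nat_lit 5) (nat_lit 106) (nat_lit 171) (nat_lit 173))))))))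
noncomputable def pc15 : PT := (PT.nd (nat_lit 99060) (PT.nd (nat_lit 51792) (PT.nd (nat_lit 5070) (PT.nd (nat_lit 234) (PT.nd (nat_lit 78) (PT.lf (nat_lit 1140) (nat_lit 6) (nat_lit 15) (nat_lit 5) (nat_lit 107) (nat_lit 171) (nat_lit 172)) (PT.nd (nat_lit 78) (PT.lf (nat_lit 1292) (nat_lit 3) (nat_lit 17) (nat_lit 4) (nat_lit 108) (nat_lit 171) (nat_lit 171)) (PT.lf (nat_lit 1368) (nat_lit 6) (nat_lit 18) (nat_lit 4) (nat_lit 109) (nat_lit 171) (nat_lit 170)))) (PT.nd (nat_lit 4680) (PT.nd (nat_lit 4602) (PT.lf (nat_lit 1444) (nat_lit 6) (nat_lit 19) (nat_lit 4) (nat_lit 110) (nat_lit 171) (nat_lit 169)) (PT.lf (nat_lit 1444) (nat_lit 6) (nat_lit 19) (nat_lit 2) (nat_lit 169) (nat_lit 171) (nat_lit 110))) (PT.nd (nat_lit 78) (PT.lf (nat_lit 1368) (nat_lit 6) (nat_lit 18) (nat_lit 2) (nat_lit 170) (nat_lit 171) (nat_lit 109)) (PT.lf (nat_lit 1292) (nat_lit 3) (nat_lit 17) (nat_lit 0) (nat_lit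 171) (nat_lit 171) (nat_lit 108))))) (PT.nd (nat_lit 41652) (PT.nd (nat_lit 78) (PT.lf (nat_lit 1140) (nat_lit 6) (nat_lit 15) (nat_lit 0) (nat_lit 172) (nat_lit 171) (nat_lit 107)) (PT.nd (nat_lit 41496) (PT.lf (nat_lit 988) (nat_lit 6) (nat_lit 13) (nat_lit 0) (nat_lit 173) (nat_lit 171) (nat_lit 106)) (PT.lf (nat_lit 760) (nat_lit 6) (nat_lit 10) (nat_lit 5) (nat_lit 104) (nat_lit 172) (nat_lit 174)))) (PT.nd (nat_lit 156) (PT.nd (nat_lit 78) (PT.lf (nat_lit 912) (nat_lit 6) (nat_lit 12) (nat_lit 5) (nat_lit 105) (nat_lit 172) (nat_lit 173)) (PT.lf (nat_lit 1064) (nat_lit 3) (nat_lit 14) (nat_lit 4) (nat_lit 106) (nat_lit 172) (nat_lit 172))) (PT.nd (nat_lit 78) (PT.lf (nat_lit 1140) (nat_lit 6) (nat_lit 15) (nat_lit 4) (nat_lit 107) (nat_lit 172) (nat_lit 171)) (PT.lf (nat_lit 1216) (nat_lit 6) (nat_lit 16) (nat_lit 4) (nat_lit 108) (nat_lit 172) (nat_lit 170)))))) (PT.nd (nat_lit 41730)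 (PT.nd (nat_lit 234) (PT.nd (nat_lit 78) (PT.lf (nat_lit 1216) (nat_lit 6) (nat_lit 16) (nat_lit 2) (nat_lit 170) (nat_lit 172) (nat_lit 108)) (PT.nd (nat_lit 78) (PT.lf (nat_lit 1140) (nat_lit 6) (nat_lit 15) (nat_lit 2) (nat_lit 171) (nat_lit 172) (nat_lit 107)) (PT.lf (nat_lit 1064) (nat_lit 3) (nat_lit 14) (nat_lit 0) (nat_lit 172) (nat_lit 172) (nat_lit 106)))) (PT.nd (nat_lit 41340) (PT.nd (nat_lit 78) (PT.lf (nat_lit 912) (nat_lit 6) (nat_lit 12) (nat_lit 0) (nat_lit 173) (nat_lit 172) (nat_lit 105)) (PT.lf (nat_lit 760) (nat_lit 6) (nat_lit 10) (nat_lit 0) (nat_lit 174) (nat_lit 172) (nat_lit 104))) (PT.nd (nat_lit 78) (PT.lf (nat_lit 532) (nat_lit 6) (nat_lit 7) (nat_lit 5) (nat_lit 102) (nat_lit 173) (nat_lit 175)) (PT.lf (nat_lit 684) (nat_lit 6) (nat_lit 9) (nat_lit 5) (nat_lit 103) (nat_lit 173) (nat_lit 174))))) (PT.nd (nat_lit 5226) (PT.nd (nat_lit 78) (PT.lf (nat_lit 836) (nat_lit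 3) (nat_lit 11) (nat_lit 4) (nat_lit 104) (nat_lit 173) (nat_lit 173)) (PT.nd (nat_lit 78) (PT.lf (nat_lit 912) (nat_lit 6) (nat_lit 12) (nat_lit 4) (nat_lit 105) (nat_lit 173) (nat_lit 172)) (PT.lf (nat_lit 988) (nat_lit 6) (nat_lit 13) (nat_lit 4) (nat_lit 106) (nat_lit 173) (nat_lit 171)))) (PT.nd (nat_lit 156) (PT.nd (nat_lit 78) (PT.lf (nat_lit 988) (nat_lit 6) (nat_lit 13) (nat_lit 2) (nat_lit 171) (nat_lit 173) (nat_lit 106)) (PT.lf (nat_lit 912) (nat_lit 6) (nat_lit 12) (nat_lit 2) (nat_lit 172) (nat_lit 173) (nat_lit 105))) (PT.nd (nat_lit 78) (PT.lf (nat_lit 836) (nat_lit 3) (nat_lit 11) (nat_lit 0) (nat_lit 173) (nat_lit 173) (nat_lit 104)) (PT.lf (nat_lit 684) (nat_lit 6) (nat_lit 9) (nat_lit 0) (nat_lit 174) (nat_lit 173) (nat_lit 103))))))) (PT.nd (nat_lit 88062) (PT.nd (nat_lit 46722) (PT.nd (nat_lit 41184) (PT.nd (nat_lit 41028) (PT.lf (nat_lit 532) (nat_lit 6) (nat_lit 7) (nat_lit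 0) (nat_lit 175) (nat_lit 173) (nat_lit 102)) (PT.nd (nat_lit 78) (PT.lf (nat_lit 304) (nat_lit 6) (nat_lit 4) (nat_lit 5) (nat_lit 100) (nat_lit 174) (nat_lit 176)) (PT.lf (nat_lit 456) (nat_lit 6) (nat_lit 6) (nat_lit 5) (nat_lit 101) (nat_lit 174) (nat_lit 175)))) (PT.nd (nat_lit 156) (PT.nd (nat_lit 78) (PT.lf (nat_lit 608) (nat_lit 3) (nat_lit 8) (nat_lit 4) (nat_lit 102) (nat_lit 174) (nat_lit 174)) (PT.lf (nat_lit 684) (nat_lit 6) (nat_lit 9) (nat_lit 4) (nat_lit 103) (nat_lit 174) (nat_lit 173))) (PT.nd (nat_lit 5304) (PT.lf (nat_lit 760) (nat_lit 6) (nat_lit 10) (nat_lit 4) (nat_lit 104) (nat_lit 174) (nat_lit 172)) (PT.lf (nat_lit 760) (nat_lit 6) (nat_lit 10) (nat_lit 2) (nat_lit 172) (nat_lit 174) (nat_lit 104))))) (PT.nd (nat_lit 234) (PT.nd (nat_lit 78) (PT.lf (nat_lit 684) (nat_lit 6) (nat_lit 9) (nat_lit 2) (nat_lit 173) (nat_lit 174) (nat_lit 103)) (PT.nd (nat_lit 78) (PT.lf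 (nat_lit 608) (nat_lit 3) (nat_lit 8) (nat_lit 0) (nat_lit 174) (nat_lit 174) (nat_lit 102)) (PT.lf (nat_lit 456) (nat_lit 6) (nat_lit 6) (nat_lit 0) (nat_lit 175) (nat_lit 174) (nat_lit 101)))) (PT.nd (nat_lit 40950) (PT.nd (nat_lit 40872) (PT.lf (nat_lit 304) (nat_lit 6) (nat_lit 4) (nat_lit 0) (nat_lit 176) (nat_lit 174) (nat_lit 100)) (PT.lf (nat_lit 228) (nat_lit 6) (nat_lit 3) (nat_lit 5) (nat_lit 99) (nat_lit 175) (nat_lit 176))) (PT.nd (nat_lit 78) (PT.lf (nat_lit 380) (nat_lit 3) (nat_lit 5) (nat_lit 4) (nat_lit 100) (nat_lit 175) (nat_lit 175)) (PT.lf (nat_lit 456) (nat_lit 6) (nat_lit 6) (nat_lit 4) (nat_lit 101) (nat_lit 175) (nat_lit 174)))))) (PT.nd (nat_lit 46644) (PT.nd (nat_lit 5694) (PT.nd (nat_lit 5538) (PT.lf (nat_lit 532) (nat_lit 6) (nat_lit 7) (nat_lit 4) (nat_lit 102) (nat_lit 175) (nat_lit 173)) (PT.nd (nat_lit 78) (PT.lf (nat_lit 532) (nat_lit 6) (nat_lit 7) (nat_lit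 2) (nat_lit 173) (nat_lit 175) (nat_lit 102)) (PT.lf (nat_lit 456) (nat_lit 6) (nat_lit 6) (nat_lit 2) (nat_lit 174) (nat_lit 175) (nat_lit 101)))) (PT.nd (nat_lit 40794) (PT.nd (nat_lit 78) (PT.lf (nat_lit 380) (nat_lit 3) (nat_lit 5) (nat_lit 0) (nat_lit 175) (nat_lit 175) (nat_lit 100)) (PT.lf (nat_lit 228) (nat_lit 6) (nat_lit 3) (nat_lit 0) (nat_lit 176) (nat_lit 175) (nat_lit 99))) (PT.nd (nat_lit 78) (PT.lf (nat_lit 76) (nat_lit 6) (nat_lit 1) (nat_lit 5) (nat_lit 97) (nat_lit 176) (nat_lit 177)) (PT.lf (nat_lit 152) (nat_lit 3) (nat_lit 2) (nat_lit 4) (nat_lit 98) (nat_lit 176) (nat_lit 176))))) (PT.nd (nat_lit 6006) (PT.nd (nat_lit 5850) (PT.nd (nat_lit 78) (PT.lf (nat_lit 228) (nat_lit 6) (nat_lit 3) (nat_lit 4) (nat_lit 99) (nat_lit 176) (nat_lit 175)) (PT.lf (nat_lit 304) (nat_lit 6) (nat_lit 4) (nat_lit 4) (nat_lit 100) (nat_lit 176) (nat_lit 174))) (PT.nd (nat_lit 78) (PT.lf (nat_lit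 304) (nat_lit 6) (nat_lit 4) (nat_lit 2) (nat_lit 174) (nat_lit 176) (nat_lit 100)) (PT.lf (nat_lit 228) (nat_lit 6) (nat_lit 3) (nat_lit 2) (nat_lit 175) (nat_lit 176) (nat_lit 99)))) (PT.nd (nat_lit 40716) (PT.nd (nat_lit 78) (PT.lf (nat_lit 152) (nat_lit 3) (nat_lit 2) (nat_lit 0) (nat_lit 176) (nat_lit 176) (nat_lit 98)) (PT.lf (nat_lit 76) (nat_lit 6) (nat_lit 1) (nat_lit 0) (nat_lit 177) (nat_lit 176) (nat_lit 97))) (PT.nd (nat_lit 6162) (PT.lf (nat_lit 76) (nat_lit 6) (nat_lit 1) (nat_lit 4) (nat_lit 97) (nat_lit 177) (nat_lit 176)) (PT.lf (nat_lit 76) (nat_lit 6) (nat_lit 1) (nat_lit 2) (nat_lit 176) (nat_lit 177) (nat_lit 97))))))))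
noncomputable def xc0 : XT := (XT.nd (nat_lit 187122) (nat_lit 0) (nat_lit 0) (XT.nd (nat_lit 140088) (nat_lit 0) (nat_lit 0) (XT.nd (nat_lit 93366) (nat_lit 0) (nat_lit 0) (XT.nd (nat_lit 46722) (nat_lit 0) (nat_lit 0) (XT.nd (nat_lit 46644) (nat_lit 0) (nat_lit 152) (XT.lf (nat_lit 0) (nat_lit 12377665690) (nat_lit 152) (nat_lit 79673215921) (nat_lit 0) (nat_lit 12240306647) (nat_lit 2) (nat_lit 5) (nat_lit 4) (nat_lit 4) (nat_lit 2) (nat_lit 4) (nat_lit 397) (nat_lit 252) (nat_lit 251)) (XT.lf (nat_lit 0) (nat_lit 39027068173) (nat_lit 76) (nat_lit 3139268971) (nat_lit 76) (nat_lit 3139268971) (nat_lit 4) (nat_lit 4) (nat_lit 5) (nat_lit 5) (nat_lit 5) (nat_lit 4) (nat_lit 394) (nat_lit 253) (nat_lit 253))) (XT.nd (nat_lit 78) (nat_lit 152) (nat_lit 0) (XT.lf (nat_lit 0) (nat_lit 94367897373) (nat_lit 76) (nat_lit 365949672) (nat_lit 76) (nat_lit 217395867) (nat_lit 4) (nat_lit 4) (nat_lit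 5) (nat_lit 5) (nat_lit 5) (nat_lit 4) (nat_lit 395) (nat_lit 253) (nat_lit 252)) (XT.nd (nat_lit 78) (nat_lit 0) (nat_lit 0) (XT.lf (nat_lit 0) (nat_lit 5994304003) (nat_lit 152) (nat_lit 87800466757) (nat_lit 0) (nat_lit 5712717965) (nat_lit 2) (nat_lit 5) (nat_lit 4) (nat_lit 4) (nat_lit 2) (nat_lit 4) (nat_lit 396) (nat_lit 253) (nat_lit 251)) (XT.lf (nat_lit 0) (nat_lit 12324353479) (nat_lit 152) (nat_lit 80060820800) (nat_lit 0) (nat_lit 11911949305) (nat_lit 2) (nat_lit 5) (nat_lit 4) (nat_lit 4) (nat_lit 2) (nat_lit 4) (nat_lit 397) (nat_lit 253) (nat_lit 250))))) (XT.nd (nat_lit 234) (nat_lit 152) (nat_lit 0) (XT.nd (nat_lit 78) (nat_lit 0) (nat_lit 0) (XT.lf (nat_lit 0) (nat_lit 23378471368) (nat_lit 76) (nat_lit 8949789528) (nat_lit 76) (nat_lit 8949789528) (nat_lit 4) (nat_lit 4) (nat_lit 5) (nat_lit 5) (nat_lit 5) (nat_lit 4) (nat_lit 392) (nat_lit 254) (nat_lit 254)) (XT.nd (nat_lit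 78) (nat_lit 0) (nat_lit 0) (XT.lf (nat_lit 0) (nat_lit 62126396794) (nat_lit 76) (nat_lit 12256717084) (nat_lit 76) (nat_lit 12100735589) (nat_lit 4) (nat_lit 4) (nat_lit 5) (nat_lit 5) (nat_lit 5) (nat_lit 4) (nat_lit 393) (nat_lit 254) (nat_lit 253)) (XT.lf (nat_lit 0) (nat_lit 77853958052) (nat_lit 76) (nat_lit 6532431271) (nat_lit 76) (nat_lit 6227895971) (nat_lit 4) (nat_lit 4) (nat_lit 5) (nat_lit 5) (nat_lit 5) (nat_lit 4) (nat_lit 394) (nat_lit 254) (nat_lit 252)))) (XT.nd (nat_lit 78) (nat_lit 152) (nat_lit 0) (XT.lf (nat_lit 0) (nat_lit 93977073085) (nat_lit 76) (nat_lit 713092366) (nat_lit 76) (nat_lit 267077252) (nat_lit 4) (nat_lit 4) (nat_lit 5) (nat_lit 5) (nat_lit 5) (nat_lit 4) (nat_lit 395) (nat_lit 254) (nat_lit 251)) (XT.nd (nat_lit 78) (nat_lit 0) (nat_lit 0) (XT.lf (nat_lit 0) (nat_lit 5841965594) (nat_lit 152) (nat_lit 88396527432) (nat_lit 0) (nat_lit 5278123075) (nat_lit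 2) (nat_lit 5) (nat_lit 4) (nat_lit 4) (nat_lit 2) (nat_lit 4) (nat_lit 396) (nat_lit 254) (nat_lit 250)) (XT.lf (nat_lit 0) (nat_lit 12080243082) (nat_lit 152) (nat_lit 80836953429) (nat_lit 0) (nat_lit 11391811862) (nat_lit 2) (nat_lit 5) (nat_lit 4) (nat_lit 4) (nat_lit 2) (nat_lit 4) (nat_lit 397) (nat_lit 254) (nat_lit 249)))))) (XT.nd (nat_lit 468) (nat_lit 152) (nat_lit 0) (XT.nd (nat_lit 234) (nat_lit 0) (nat_lit 0) (XT.nd (nat_lit 78) (nat_lit 0) (nat_lit 0) (XT.lf (nat_lit 0) (nat_lit 8583721273) (nat_lit 76) (nat_lit 14525221960) (nat_lit 76) (nat_lit 14525221960) (nat_lit 4) (nat_lit 4) (nat_lit 5) (nat_lit 5) (nat_lit 5) (nat_lit 4) (nat_lit 390) (nat_lit 255) (nat_lit 255)) (XT.nd (nat_lit 78) (nat_lit 0) (nat_lit 0) (XT.lf (nat_lit 0) (nat_lit 31709001941) (nat_lit 76) (nat_lit 23638233145) (nat_lit 76) (nat_lit 23474452575) (nat_lit 4) (nat_lit 4) (nat_lit 5) (nat_lit 5) (nat_lit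 5) (nat_lit 4) (nat_lit 391) (nat_lit 255) (nat_lit 254)) (XT.lf (nat_lit 0) (nat_lit 46546755528) (nat_lit 76) (nat_lit 18166167052) (nat_lit 76) (nat_lit 17846404987) (nat_lit 4) (nat_lit 4) (nat_lit 5) (nat_lit 5) (nat_lit 5) (nat_lit 4) (nat_lit 392) (nat_lit 255) (nat_lit 253)))) (XT.nd (nat_lit 78) (nat_lit 0) (nat_lit 0) (XT.lf (nat_lit 0) (nat_lit 61716031292) (nat_lit 76) (nat_lit 12621216913) (nat_lit 76) (nat_lit 12152901043) (nat_lit 4) (nat_lit 4) (nat_lit 5) (nat_lit 5) (nat_lit 5) (nat_lit 4) (nat_lit 393) (nat_lit 255) (nat_lit 252)) (XT.nd (nat_lit 78) (nat_lit 0) (nat_lit 0) (XT.lf (nat_lit 0) (nat_lit 77252946556) (nat_lit 76) (nat_lit 6990180465) (nat_lit 76) (nat_lit 6380384780) (nat_lit 4) (nat_lit 4) (nat_lit 5) (nat_lit 5) (nat_lit 5) (nat_lit 4) (nat_lit 394) (nat_lit 255) (nat_lit 251)) (XT.lf (nat_lit 0) (nat_lit 93194493976) (nat_lit 76) (nat_lit 1259650479) (nat_lit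 76) (nat_lit 515112114) (nat_lit 4) (nat_lit 4) (nat_lit 5) (nat_lit 5) (nat_lit 5) (nat_lit 4) (nat_lit 395) (nat_lit 255) (nat_lit 250))))) (XT.nd (nat_lit 46332) (nat_lit 0) (nat_lit 152) (XT.nd (nat_lit 78) (nat_lit 0) (nat_lit 0) (XT.lf (nat_lit 0) (nat_lit 5493877688) (nat_lit 152) (nat_lit 89391538645) (nat_lit 0) (nat_lit 4646436206) (nat_lit 2) (nat_lit 5) (nat_lit 4) (nat_lit 4) (nat_lit 2) (nat_lit 4) (nat_lit 396) (nat_lit 255) (nat_lit 249)) (XT.nd (nat_lit 46176) (nat_lit 0) (nat_lit 228) (XT.lf (nat_lit 0) (nat_lit 11644753282) (nat_lit 152) (nat_lit 82003461741) (nat_lit 0) (nat_lit 10678655894) (nat_lit 2) (nat_lit 5) (nat_lit 4) (nat_lit 4) (nat_lit 2) (nat_lit 4) (nat_lit 397) (nat_lit 255) (nat_lit 248)) (XT.lf (nat_lit 0) (nat_lit 14488611674) (nat_lit 152) (nat_lit 5359941905) (nat_lit 0) (nat_lit 14488611674) (nat_lit 5) (nat_lit 5) (nat_lit 7) (nat_lit 4) (nat_lit 5)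 (nat_lit 4) (nat_lit 388) (nat_lit 256) (nat_lit 256)))) (XT.nd (nat_lit 78) (nat_lit 0) (nat_lit 0) (XT.lf (nat_lit 0) (nat_lit 2887454585) (nat_lit 76) (nat_lit 34587655194) (nat_lit 76) (nat_lit 34415685596) (nat_lit 4) (nat_lit 4) (nat_lit 5) (nat_lit 5) (nat_lit 5) (nat_lit 4) (nat_lit 389) (nat_lit 256) (nat_lit 255)) (XT.nd (nat_lit 78) (nat_lit 0) (nat_lit 0) (XT.lf (nat_lit 0) (nat_lit 16946745979) (nat_lit 76) (nat_lit 29330361316) (nat_lit 76) (nat_lit 28994611148) (nat_lit 4) (nat_lit 4) (nat_lit 5) (nat_lit 5) (nat_lit 5) (nat_lit 4) (nat_lit 390) (nat_lit 256) (nat_lit 254)) (XT.lf (nat_lit 0) (nat_lit 31278118164) (nat_lit 76) (nat_lit 24020957965) (nat_lit 76) (nat_lit 23529226302) (nat_lit 4) (nat_lit 4) (nat_lit 5) (nat_lit 5) (nat_lit 5) (nat_lit 4) (nat_lit 391) (nat_lit 256) (nat_lit 253))))))) (XT.nd (nat_lit 46878) (nat_lit 0) (nat_lit 0) (XT.nd (nat_lit 46410) (nat_lit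 0) (nat_lit 152) (XT.nd (nat_lit 234) (nat_lit 152) (nat_lit 0) (XT.nd (nat_lit 78) (nat_lit 0) (nat_lit 0) (XT.lf (nat_lit 0) (nat_lit 45915693457) (nat_lit 76) (nat_lit 18646803705) (nat_lit 76) (nat_lit 18006518237) (nat_lit 4) (nat_lit 4) (nat_lit 5) (nat_lit 5) (nat_lit 5) (nat_lit 4) (nat_lit 392) (nat_lit 256) (nat_lit 252)) (XT.nd (nat_lit 78) (nat_lit 0) (nat_lit 0) (XT.lf (nat_lit 0) (nat_lit 60894323227) (nat_lit 76) (nat_lit 13195102931) (nat_lit 76) (nat_lit 12413337648) (nat_lit 4) (nat_lit 4) (nat_lit 5) (nat_lit 5) (nat_lit 5) (nat_lit 4) (nat_lit 393) (nat_lit 256) (nat_lit 251)) (XT.lf (nat_lit 0) (nat_lit 76249670877) (nat_lit 76) (nat_lit 7652875403) (nat_lit 76) (nat_lit 6736367439) (nat_lit 4) (nat_lit 4) (nat_lit 5) (nat_lit 5) (nat_lit 5) (nat_lit 4) (nat_lit 394) (nat_lit 256) (nat_lit 250)))) (XT.nd (nat_lit 78) (nat_lit 152) (nat_lit 0) (XT.lf (nat_lit 0) (nat_lit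 92018296761) (nat_lit 76) (nat_lit 2006925340) (nat_lit 76) (nat_lit 962091015) (nat_lit 4) (nat_lit 4) (nat_lit 5) (nat_lit 5) (nat_lit 5) (nat_lit 4) (nat_lit 395) (nat_lit 256) (nat_lit 249)) (XT.nd (nat_lit 78) (nat_lit 0) (nat_lit 0) (XT.lf (nat_lit 0) (nat_lit 4949211505) (nat_lit 152) (nat_lit 90787869471) (nat_lit 0) (nat_lit 3816153342) (nat_lit 2) (nat_lit 5) (nat_lit 4) (nat_lit 4) (nat_lit 2) (nat_lit 4) (nat_lit 396) (nat_lit 256) (nat_lit 248)) (XT.lf (nat_lit 0) (nat_lit 11016847200) (nat_lit 152) (nat_lit 83563123137) (nat_lit 0) (nat_lit 9770783412) (nat_lit 2) (nat_lit 5) (nat_lit 4) (nat_lit 4) (nat_lit 2) (nat_lit 4) (nat_lit 397) (nat_lit 256) (nat_lit 247))))) (XT.nd (nat_lit 234) (nat_lit 76) (nat_lit 0) (XT.nd (nat_lit 78) (nat_lit 0) (nat_lit 0) (XT.lf (nat_lit 0) (nat_lit 6424705620) (nat_lit 152) (nat_lit 18505013792) (nat_lit 0) (nat_lit 6424705620) (nat_lit 5) (nat_lit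 5) (nat_lit 7) (nat_lit 4) (nat_lit 5) (nat_lit 4) (nat_lit 386) (nat_lit 257) (nat_lit 257)) (XT.nd (nat_lit 78) (nat_lit 0) (nat_lit 0) (XT.lf (nat_lit 0) (nat_lit 20864214551) (nat_lit 152) (nat_lit 24069191618) (nat_lit 0) (nat_lit 20683646473) (nat_lit 5) (nat_lit 5) (nat_lit 7) (nat_lit 4) (nat_lit 5) (nat_lit 4) (nat_lit 387) (nat_lit 257) (nat_lit 256)) (XT.lf (nat_lit 0) (nat_lit 29041632760) (nat_lit 152) (nat_lit 10947093293) (nat_lit 0) (nat_lit 28689095083) (nat_lit 5) (nat_lit 5) (nat_lit 7) (nat_lit 4) (nat_lit 5) (nat_lit 4) (nat_lit 388) (nat_lit 257) (nat_lit 255)))) (XT.nd (nat_lit 78) (nat_lit 0) (nat_lit 0) (XT.lf (nat_lit 0) (nat_lit 2435026619) (nat_lit 76) (nat_lit 34989516255) (nat_lit 76) (nat_lit 34473198008) (nat_lit 4) (nat_lit 4) (nat_lit 5) (nat_lit 5) (nat_lit 5) (nat_lit 4) (nat_lit 389) (nat_lit 257) (nat_lit 254)) (XT.nd (nat_lit 78) (nat_lit 0) (nat_lit 0)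 (XT.lf (nat_lit 0) (nat_lit 16284130804) (nat_lit 76) (nat_lit 29835029802) (nat_lit 76) (nat_lit 29162730060) (nat_lit 4) (nat_lit 4) (nat_lit 5) (nat_lit 5) (nat_lit 5) (nat_lit 4) (nat_lit 390) (nat_lit 257) (nat_lit 253)) (XT.lf (nat_lit 0) (nat_lit 30415324696) (nat_lit 76) (nat_lit 24623538285) (nat_lit 76) (nat_lit 23802684738) (nat_lit 4) (nat_lit 4) (nat_lit 5) (nat_lit 5) (nat_lit 5) (nat_lit 4) (nat_lit 391) (nat_lit 257) (nat_lit 252)))))) (XT.nd (nat_lit 46254) (nat_lit 0) (nat_lit 152) (XT.nd (nat_lit 234) (nat_lit 152) (nat_lit 0) (XT.nd (nat_lit 78) (nat_lit 0) (nat_lit 0) (XT.lf (nat_lit 0) (nat_lit 44862253995) (nat_lit 76) (nat_lit 19342633390) (nat_lit 76) (nat_lit 18380300029) (nat_lit 4) (nat_lit 4) (nat_lit 5) (nat_lit 5) (nat_lit 5) (nat_lit 4) (nat_lit 392) (nat_lit 257) (nat_lit 251)) (XT.nd (nat_lit 78) (nat_lit 0) (nat_lit 0) (XT.lf (nat_lit 0) (nat_lit 59659316151)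 (nat_lit 76) (nat_lit 13979741535) (nat_lit 76) (nat_lit 12882665493) (nat_lit 4) (nat_lit 4) (nat_lit 5) (nat_lit 5) (nat_lit 5) (nat_lit 4) (nat_lit 393) (nat_lit 257) (nat_lit 250)) (XT.lf (nat_lit 0) (nat_lit 74841742265) (nat_lit 76) (nat_lit 8522093929) (nat_lit 76) (nat_lit 7296691526) (nat_lit 4) (nat_lit 4) (nat_lit 5) (nat_lit 5) (nat_lit 5) (nat_lit 4) (nat_lit 394) (nat_lit 257) (nat_lit 249)))) (XT.nd (nat_lit 78) (nat_lit 152) (nat_lit 0) (XT.lf (nat_lit 0) (nat_lit 90445680971) (nat_lit 76) (nat_lit 2956696174) (nat_lit 76) (nat_lit 1609078188) (nat_lit 4) (nat_lit 4) (nat_lit 5) (nat_lit 5) (nat_lit 5) (nat_lit 4) (nat_lit 395) (nat_lit 257) (nat_lit 248)) (XT.nd (nat_lit 78) (nat_lit 0) (nat_lit 0) (XT.lf (nat_lit 0) (nat_lit 4206670219) (nat_lit 152) (nat_lit 92588844507) (nat_lit 0) (nat_lit 2785297617) (nat_lit 2) (nat_lit 5) (nat_lit 4) (nat_lit 4) (nat_lit 2) (nat_lit 4)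 (nat_lit 396) (nat_lit 257) (nat_lit 247)) (XT.lf (nat_lit 0) (nat_lit 10195029820) (nat_lit 152) (nat_lit 85519651096) (nat_lit 0) (nat_lit 8666032814) (nat_lit 2) (nat_lit 5) (nat_lit 4) (nat_lit 4) (nat_lit 2) (nat_lit 4) (nat_lit 397) (nat_lit 257) (nat_lit 246))))) (XT.nd (nat_lit 234) (nat_lit 76) (nat_lit 0) (XT.nd (nat_lit 78) (nat_lit 152) (nat_lit 0) (XT.lf (nat_lit 0) (nat_lit 26231398615) (nat_lit 76) (nat_lit 1213326363) (nat_lit 76) (nat_lit 1213326363) (nat_lit 7) (nat_lit 4) (nat_lit 8) (nat_lit 5) (nat_lit 8) (nat_lit 4) (nat_lit 384) (nat_lit 258) (nat_lit 258)) (XT.nd (nat_lit 78) (nat_lit 0) (nat_lit 0) (XT.lf (nat_lit 0) (nat_lit 5167736445) (nat_lit 152) (nat_lit 49800412707) (nat_lit 0) (nat_lit 4978139963) (nat_lit 5) (nat_lit 5) (nat_lit 7) (nat_lit 4) (nat_lit 5) (nat_lit 4) (nat_lit 385) (nat_lit 258) (nat_lit 257)) (XT.lf (nat_lit 0) (nat_lit 12917041123) (nat_lit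 152) (nat_lit 37248597542) (nat_lit 0) (nat_lit 12546876562) (nat_lit 5) (nat_lit 5) (nat_lit 7) (nat_lit 4) (nat_lit 5) (nat_lit 4) (nat_lit 386) (nat_lit 258) (nat_lit 256)))) (XT.nd (nat_lit 78) (nat_lit 76) (nat_lit 0) (XT.lf (nat_lit 0) (nat_lit 20815685766) (nat_lit 152) (nat_lit 24534971058) (nat_lit 0) (nat_lit 20273551607) (nat_lit 5) (nat_lit 5) (nat_lit 7) (nat_lit 4) (nat_lit 5) (nat_lit 4) (nat_lit 387) (nat_lit 258) (nat_lit 255)) (XT.nd (nat_lit 78) (nat_lit 76) (nat_lit 0) (XT.lf (nat_lit 0) (nat_lit 28882476673) (nat_lit 152) (nat_lit 11629262718) (nat_lit 0) (nat_lit 28176561943) (nat_lit 5) (nat_lit 5) (nat_lit 7) (nat_lit 4) (nat_lit 5) (nat_lit 4) (nat_lit 388) (nat_lit 258) (nat_lit 254)) (XT.lf (nat_lit 0) (nat_lit 1529093478) (nat_lit 76) (nat_lit 35622225591) (nat_lit 76) (nat_lit 34760329366) (nat_lit 4) (nat_lit 4) (nat_lit 5) (nat_lit 5) (nat_lit 5) (nat_lit 4) (nat_lit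 389) (nat_lit 258) (nat_lit 253))))))))
noncomputable def xc1 : XT := (XT.nd (nat_lit 92976) (nat_lit 0) (nat_lit 0) (XT.nd (nat_lit 46566) (nat_lit 0) (nat_lit 0) (XT.nd (nat_lit 468) (nat_lit 152) (nat_lit 0) (XT.nd (nat_lit 234) (nat_lit 0) (nat_lit 0) (XT.nd (nat_lit 78) (nat_lit 0) (nat_lit 0) (XT.lf (nat_lit 0) (nat_lit 15178019369) (nat_lit 76) (nat_lit 30565650971) (nat_lit 76) (nat_lit 29555200942) (nat_lit 4) (nat_lit 4) (nat_lit 5) (nat_lit 5) (nat_lit 5) (nat_lit 4) (nat_lit 390) (nat_lit 258) (nat_lit 252)) (XT.nd (nat_lit 78) (nat_lit 0) (nat_lit 0) (XT.lf (nat_lit 0) (nat_lit 29118567267) (nat_lit 76) (nat_lit 25447408819) (nat_lit 76) (nat_lit 24295478975) (nat_lit 4) (nat_lit 4) (nat_lit 5) (nat_lit 5) (nat_lit 5) (nat_lit 4) (nat_lit 391) (nat_lit 258) (nat_lit 251)) (XT.lf (nat_lit 0) (nat_lit 43383928952) (nat_lit 76) (nat_lit 20255312843) (nat_lit 76) (nat_lit 18968640319)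 (nat_lit 4) (nat_lit 4) (nat_lit 5) (nat_lit 5) (nat_lit 5) (nat_lit 4) (nat_lit 392) (nat_lit 258) (nat_lit 250)))) (XT.nd (nat_lit 78) (nat_lit 0) (nat_lit 0) (XT.lf (nat_lit 0) (nat_lit 58008069572) (nat_lit 76) (nat_lit 14977000911) (nat_lit 76) (nat_lit 13562002025) (nat_lit 4) (nat_lit 4) (nat_lit 5) (nat_lit 5) (nat_lit 5) (nat_lit 4) (nat_lit 393) (nat_lit 258) (nat_lit 249)) (XT.nd (nat_lit 78) (nat_lit 0) (nat_lit 0) (XT.lf (nat_lit 0) (nat_lit 73025808509) (nat_lit 76) (nat_lit 9599905613) (nat_lit 76) (nat_lit 8062691144) (nat_lit 4) (nat_lit 4) (nat_lit 5) (nat_lit 5) (nat_lit 5) (nat_lit 4) (nat_lit 394) (nat_lit 258) (nat_lit 248)) (XT.lf (nat_lit 0) (nat_lit 88472902283) (nat_lit 76) (nat_lit 4111224342) (nat_lit 76) (nat_lit 2457614079) (nat_lit 4) (nat_lit 4) (nat_lit 5) (nat_lit 5) (nat_lit 5) (nat_lit 4) (nat_lit 395) (nat_lit 258) (nat_lit 247))))) (XT.nd (nat_lit 45864)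 (nat_lit 0) (nat_lit 228) (XT.nd (nat_lit 78) (nat_lit 0) (nat_lit 0) (XT.lf (nat_lit 0) (nat_lit 3264485877) (nat_lit 152) (nat_lit 94798751788) (nat_lit 0) (nat_lit 1551414616) (nat_lit 2) (nat_lit 5) (nat_lit 4) (nat_lit 4) (nat_lit 2) (nat_lit 4) (nat_lit 396) (nat_lit 258) (nat_lit 246)) (XT.nd (nat_lit 45708) (nat_lit 0) (nat_lit 380) (XT.lf (nat_lit 0) (nat_lit 9177344435) (nat_lit 152) (nat_lit 87877704020) (nat_lit 0) (nat_lit 7361773742) (nat_lit 2) (nat_lit 5) (nat_lit 4) (nat_lit 4) (nat_lit 2) (nat_lit 4) (nat_lit 397) (nat_lit 258) (nat_lit 245)) (XT.lf (nat_lit 0) (nat_lit 9349610773) (nat_lit 76) (nat_lit 8433294802) (nat_lit 76) (nat_lit 8433294802) (nat_lit 7) (nat_lit 4) (nat_lit 8) (nat_lit 5) (nat_lit 8) (nat_lit 4) (nat_lit 382) (nat_lit 259) (nat_lit 259)))) (XT.nd (nat_lit 78) (nat_lit 152) (nat_lit 0) (XT.lf (nat_lit 0) (nat_lit 35292454943) (nat_lit 76) (nat_lit 9862695061)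 (nat_lit 76) (nat_lit 9657646465) (nat_lit 7) (nat_lit 4) (nat_lit 8) (nat_lit 5) (nat_lit 8) (nat_lit 4) (nat_lit 383) (nat_lit 259) (nat_lit 258)) (XT.nd (nat_lit 78) (nat_lit 152) (nat_lit 0) (XT.lf (nat_lit 0) (nat_lit 52222270774) (nat_lit 76) (nat_lit 2748935162) (nat_lit 76) (nat_lit 2348602189) (nat_lit 7) (nat_lit 4) (nat_lit 8) (nat_lit 5) (nat_lit 8) (nat_lit 4) (nat_lit 384) (nat_lit 259) (nat_lit 257)) (XT.lf (nat_lit 0) (nat_lit 5116781221) (nat_lit 152) (nat_lit 50289481119) (nat_lit 0) (nat_lit 4547540353) (nat_lit 5) (nat_lit 5) (nat_lit 7) (nat_lit 4) (nat_lit 5) (nat_lit 4) (nat_lit 385) (nat_lit 259) (nat_lit 256)))))) (XT.nd (nat_lit 468) (nat_lit 152) (nat_lit 0) (XT.nd (nat_lit 234) (nat_lit 76) (nat_lit 0) (XT.nd (nat_lit 78) (nat_lit 0) (nat_lit 0) (XT.lf (nat_lit 0) (nat_lit 12749927231) (nat_lit 152) (nat_lit 37964875437) (nat_lit 0) (nat_lit 12008716765) (nat_lit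 5) (nat_lit 5) (nat_lit 7) (nat_lit 4) (nat_lit 5) (nat_lit 4) (nat_lit 386) (nat_lit 259) (nat_lit 255)) (XT.nd (nat_lit 78) (nat_lit 0) (nat_lit 0) (XT.lf (nat_lit 0) (nat_lit 20537944572) (nat_lit 152) (nat_lit 25467638937) (nat_lit 0) (nat_lit 19632953537) (nat_lit 5) (nat_lit 5) (nat_lit 7) (nat_lit 4) (nat_lit 5) (nat_lit 4) (nat_lit 387) (nat_lit 259) (nat_lit 254)) (XT.lf (nat_lit 0) (nat_lit 28499376143) (nat_lit 152) (nat_lit 12768016296) (nat_lit 0) (nat_lit 27438403613) (nat_lit 5) (nat_lit 5) (nat_lit 7) (nat_lit 4) (nat_lit 5) (nat_lit 4) (nat_lit 388) (nat_lit 259) (nat_lit 253)))) (XT.nd (nat_lit 78) (nat_lit 0) (nat_lit 0) (XT.lf (nat_lit 0) (nat_lit 167498177) (nat_lit 76) (nat_lit 36487289651) (nat_lit 76) (nat_lit 35277763316) (nat_lit 4) (nat_lit 4) (nat_lit 5) (nat_lit 5) (nat_lit 5) (nat_lit 4) (nat_lit 389) (nat_lit 259) (nat_lit 252)) (XT.nd (nat_lit 78) (nat_lit 0)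 (nat_lit 0) (XT.lf (nat_lit 0) (nat_lit 13625778074) (nat_lit 76) (nat_lit 31523964397) (nat_lit 76) (nat_lit 30172958247) (nat_lit 4) (nat_lit 4) (nat_lit 5) (nat_lit 5) (nat_lit 5) (nat_lit 4) (nat_lit 390) (nat_lit 259) (nat_lit 251)) (XT.lf (nat_lit 0) (nat_lit 27384758359) (nat_lit 76) (nat_lit 26494531164) (nat_lit 76) (nat_lit 25008782333) (nat_lit 4) (nat_lit 4) (nat_lit 5) (nat_lit 5) (nat_lit 5) (nat_lit 4) (nat_lit 391) (nat_lit 259) (nat_lit 250))))) (XT.nd (nat_lit 234) (nat_lit 152) (nat_lit 0) (XT.nd (nat_lit 78) (nat_lit 0) (nat_lit 0) (XT.lf (nat_lit 0) (nat_lit 41477198507) (nat_lit 76) (nat_lit 21387015111) (nat_lit 76) (nat_lit 19772939919) (nat_lit 4) (nat_lit 4) (nat_lit 5) (nat_lit 5) (nat_lit 5) (nat_lit 4) (nat_lit 392) (nat_lit 259) (nat_lit 249)) (XT.nd (nat_lit 78) (nat_lit 0) (nat_lit 0) (XT.lf (nat_lit 0) (nat_lit 55936651950) (nat_lit 76) (nat_lit 16189255487)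 (nat_lit 76) (nat_lit 14452964712) (nat_lit 4) (nat_lit 4) (nat_lit 5) (nat_lit 5) (nat_lit 5) (nat_lit 4) (nat_lit 393) (nat_lit 259) (nat_lit 248)) (XT.lf (nat_lit 0) (nat_lit 70797545955) (nat_lit 76) (nat_lit 10888876673) (nat_lit 76) (nat_lit 9036190104) (nat_lit 4) (nat_lit 4) (nat_lit 5) (nat_lit 5) (nat_lit 5) (nat_lit 4) (nat_lit 394) (nat_lit 259) (nat_lit 247)))) (XT.nd (nat_lit 78) (nat_lit 152) (nat_lit 0) (XT.lf (nat_lit 0) (nat_lit 86095263605) (nat_lit 76) (nat_lit 5473258719) (nat_lit 76) (nat_lit 3509719013) (nat_lit 4) (nat_lit 4) (nat_lit 5) (nat_lit 5) (nat_lit 5) (nat_lit 4) (nat_lit 395) (nat_lit 259) (nat_lit 246)) (XT.nd (nat_lit 78) (nat_lit 0) (nat_lit 0) (XT.lf (nat_lit 0) (nat_lit 2120415180) (nat_lit 152) (nat_lit 97422852999) (nat_lit 0) (nat_lit 111566519) (nat_lit 2) (nat_lit 5) (nat_lit 4) (nat_lit 4) (nat_lit 2) (nat_lit 4) (nat_lit 396) (nat_lit 259) (nat_lit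 245)) (XT.lf (nat_lit 0) (nat_lit 7961367985) (nat_lit 152) (nat_lit 90642896318) (nat_lit 0) (nat_lit 5854900816) (nat_lit 2) (nat_lit 5) (nat_lit 4) (nat_lit 4) (nat_lit 2) (nat_lit 4) (nat_lit 397) (nat_lit 259) (nat_lit 244))))))) (XT.nd (nat_lit 936) (nat_lit 152) (nat_lit 0) (XT.nd (nat_lit 468) (nat_lit 76) (nat_lit 0) (XT.nd (nat_lit 234) (nat_lit 152) (nat_lit 0) (XT.nd (nat_lit 78) (nat_lit 76) (nat_lit 0) (XT.lf (nat_lit 0) (nat_lit 8728095696) (nat_lit 152) (nat_lit 6554375574) (nat_lit 0) (nat_lit 8728095696) (nat_lit 8) (nat_lit 5) (nat_lit 10) (nat_lit 4) (nat_lit 8) (nat_lit 4) (nat_lit 380) (nat_lit 260) (nat_lit 260)) (XT.nd (nat_lit 78) (nat_lit 0) (nat_lit 0) (XT.lf (nat_lit 0) (nat_lit 2403062885) (nat_lit 76) (nat_lit 23992595760) (nat_lit 76) (nat_lit 23777294735) (nat_lit 7) (nat_lit 4) (nat_lit 8) (nat_lit 5) (nat_lit 8) (nat_lit 4) (nat_lit 381) (nat_lit 260) (nat_lit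 259)) (XT.lf (nat_lit 0) (nat_lit 18446668767) (nat_lit 76) (nat_lit 17204986163) (nat_lit 76) (nat_lit 16784636542) (nat_lit 7) (nat_lit 4) (nat_lit 8) (nat_lit 5) (nat_lit 8) (nat_lit 4) (nat_lit 382) (nat_lit 260) (nat_lit 258)))) (XT.nd (nat_lit 78) (nat_lit 152) (nat_lit 0) (XT.lf (nat_lit 0) (nat_lit 34799375707) (nat_lit 76) (nat_lit 10318325459) (nat_lit 76) (nat_lit 9702691461) (nat_lit 7) (nat_lit 4) (nat_lit 8) (nat_lit 5) (nat_lit 8) (nat_lit 4) (nat_lit 383) (nat_lit 260) (nat_lit 257)) (XT.nd (nat_lit 78) (nat_lit 152) (nat_lit 0) (XT.lf (nat_lit 0) (nat_lit 51500118722) (nat_lit 76) (nat_lit 3316216836) (nat_lit 76) (nat_lit 2514597717) (nat_lit 7) (nat_lit 4) (nat_lit 8) (nat_lit 5) (nat_lit 8) (nat_lit 4) (nat_lit 384) (nat_lit 260) (nat_lit 256)) (XT.lf (nat_lit 0) (nat_lit 4825152967) (nat_lit 152) (nat_lit 51268782392) (nat_lit 0) (nat_lit 3874912380) (nat_lit 5) (nat_lit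 5) (nat_lit 7) (nat_lit 4) (nat_lit 5) (nat_lit 4) (nat_lit 385) (nat_lit 260) (nat_lit 255))))) (XT.nd (nat_lit 234) (nat_lit 76) (nat_lit 0) (XT.nd (nat_lit 78) (nat_lit 0) (nat_lit 0) (XT.lf (nat_lit 0) (nat_lit 12347671675) (nat_lit 152) (nat_lit 39160566694) (nat_lit 0) (nat_lit 11233650518) (nat_lit 5) (nat_lit 5) (nat_lit 7) (nat_lit 4) (nat_lit 5) (nat_lit 4) (nat_lit 386) (nat_lit 260) (nat_lit 254)) (XT.nd (nat_lit 78) (nat_lit 0) (nat_lit 0) (XT.lf (nat_lit 0) (nat_lit 20030329682) (nat_lit 152) (nat_lit 26869415893) (nat_lit 0) (nat_lit 18760327029) (nat_lit 5) (nat_lit 5) (nat_lit 7) (nat_lit 4) (nat_lit 5) (nat_lit 4) (nat_lit 387) (nat_lit 260) (nat_lit 253)) (XT.lf (nat_lit 0) (nat_lit 27891419029) (nat_lit 152) (nat_lit 14366065346) (nat_lit 0) (nat_lit 26472862571) (nat_lit 5) (nat_lit 5) (nat_lit 7) (nat_lit 4) (nat_lit 5) (nat_lit 4) (nat_lit 388) (nat_lit 260) (nat_lit 252))))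 (XT.nd (nat_lit 78) (nat_lit 76) (nat_lit 0) (XT.lf (nat_lit 0) (nat_lit 35949656596) (nat_lit 152) (nat_lit 1620745169) (nat_lit 0) (nat_lit 34389620324) (nat_lit 5) (nat_lit 5) (nat_lit 7) (nat_lit 4) (nat_lit 5) (nat_lit 4) (nat_lit 389) (nat_lit 260) (nat_lit 251)) (XT.nd (nat_lit 78) (nat_lit 0) (nat_lit 0) (XT.lf (nat_lit 0) (nat_lit 11623711107) (nat_lit 76) (nat_lit 32712251778) (nat_lit 76) (nat_lit 31017472826) (nat_lit 4) (nat_lit 4) (nat_lit 5) (nat_lit 5) (nat_lit 5) (nat_lit 4) (nat_lit 390) (nat_lit 260) (nat_lit 250)) (XT.lf (nat_lit 0) (nat_lit 25209769855) (nat_lit 76) (nat_lit 27767398468) (nat_lit 76) (nat_lit 25944293154) (nat_lit 4) (nat_lit 4) (nat_lit 5) (nat_lit 5) (nat_lit 5) (nat_lit 4) (nat_lit 391) (nat_lit 260) (nat_lit 249)))))) (XT.nd (nat_lit 45786) (nat_lit 0) (nat_lit 380) (XT.nd (nat_lit 234) (nat_lit 152) (nat_lit 0) (XT.nd (nat_lit 78) (nat_lit 0) (nat_lit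 0) (XT.lf (nat_lit 0) (nat_lit 39137522826) (nat_lit 76) (nat_lit 22740434724) (nat_lit 76) (nat_lit 20795113826) (nat_lit 4) (nat_lit 4) (nat_lit 5) (nat_lit 5) (nat_lit 5) (nat_lit 4) (nat_lit 392) (nat_lit 260) (nat_lit 248)) (XT.nd (nat_lit 78) (nat_lit 0) (nat_lit 0) (XT.lf (nat_lit 0) (nat_lit 53440131338) (nat_lit 76) (nat_lit 17619391583) (nat_lit 76) (nat_lit 15557674892) (nat_lit 4) (nat_lit 4) (nat_lit 5) (nat_lit 5) (nat_lit 5) (nat_lit 4) (nat_lit 393) (nat_lit 260) (nat_lit 247)) (XT.lf (nat_lit 0) (nat_lit 68151649218) (nat_lit 76) (nat_lit 12392076086) (nat_lit 76) (nat_lit 10219506259) (nat_lit 4) (nat_lit 4) (nat_lit 5) (nat_lit 5) (nat_lit 5) (nat_lit 4) (nat_lit 394) (nat_lit 260) (nat_lit 246)))) (XT.nd (nat_lit 78) (nat_lit 152) (nat_lit 0) (XT.lf (nat_lit 0) (nat_lit 83307103892) (nat_lit 76) (nat_lit 7046042244) (nat_lit 76) (nat_lit 4767898001) (nat_lit 4) (nat_lit 4)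 (nat_lit 5) (nat_lit 5) (nat_lit 5) (nat_lit 4) (nat_lit 395) (nat_lit 260) (nat_lit 245)) (XT.nd (nat_lit 78) (nat_lit 76) (nat_lit 0) (XT.lf (nat_lit 0) (nat_lit 794321347) (nat_lit 152) (nat_lit 766218969) (nat_lit 76) (nat_lit 98140237339) (nat_lit 3) (nat_lit 5) (nat_lit 5) (nat_lit 5) (nat_lit 4) (nat_lit 4) (nat_lit 396) (nat_lit 260) (nat_lit 244)) (XT.lf (nat_lit 0) (nat_lit 6544205286) (nat_lit 152) (nat_lit 93821811783) (nat_lit 0) (nat_lit 4141826245) (nat_lit 2) (nat_lit 5) (nat_lit 4) (nat_lit 4) (nat_lit 2) (nat_lit 4) (nat_lit 397) (nat_lit 260) (nat_lit 243))))) (XT.nd (nat_lit 234) (nat_lit 76) (nat_lit 0) (XT.nd (nat_lit 78) (nat_lit 0) (nat_lit 0) (XT.lf (nat_lit 0) (nat_lit 230634476) (nat_lit 152) (nat_lit 21557740679) (nat_lit 0) (nat_lit 230634476) (nat_lit 8) (nat_lit 5) (nat_lit 10) (nat_lit 4) (nat_lit 8) (nat_lit 4) (nat_lit 378) (nat_lit 261) (nat_lit 261)) (XT.nd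 (nat_lit 78) (nat_lit 0) (nat_lit 0) (XT.lf (nat_lit 0) (nat_lit 8930068270) (nat_lit 152) (nat_lit 28344878289) (nat_lit 0) (nat_lit 8704002194) (nat_lit 8) (nat_lit 5) (nat_lit 10) (nat_lit 4) (nat_lit 8) (nat_lit 4) (nat_lit 379) (nat_lit 261) (nat_lit 260)) (XT.lf (nat_lit 0) (nat_lit 17548876437) (nat_lit 152) (nat_lit 13368756941) (nat_lit 0) (nat_lit 17107509335) (nat_lit 8) (nat_lit 5) (nat_lit 10) (nat_lit 4) (nat_lit 8) (nat_lit 4) (nat_lit 380) (nat_lit 261) (nat_lit 259)))) (XT.nd (nat_lit 78) (nat_lit 0) (nat_lit 0) (XT.lf (nat_lit 0) (nat_lit 1885329687) (nat_lit 76) (nat_lit 24471007678) (nat_lit 76) (nat_lit 23824591980) (nat_lit 7) (nat_lit 4) (nat_lit 8) (nat_lit 5) (nat_lit 8) (nat_lit 4) (nat_lit 381) (nat_lit 261) (nat_lit 258)) (XT.nd (nat_lit 78) (nat_lit 0) (nat_lit 0) (XT.lf (nat_lit 0) (nat_lit 17688409113) (nat_lit 76) (nat_lit 17800631921) (nat_lit 76) (nat_lit 16958931847)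 (nat_lit 7) (nat_lit 4) (nat_lit 8) (nat_lit 5) (nat_lit 8) (nat_lit 4) (nat_lit 382) (nat_lit 261) (nat_lit 257)) (XT.lf (nat_lit 0) (nat_lit 33812043237) (nat_lit 76) (nat_lit 11025622493) (nat_lit 76) (nat_lit 9997937298) (nat_lit 7) (nat_lit 4) (nat_lit 8) (nat_lit 5) (nat_lit 8) (nat_lit 4) (nat_lit 383) (nat_lit 261) (nat_lit 256))))))))
noncomputable def xc2 : XT := (XT.nd (nat_lit 47034) (nat_lit 0) (nat_lit 0) (XT.nd (nat_lit 936) (nat_lit 152) (nat_lit 0) (XT.nd (nat_lit 468) (nat_lit 76) (nat_lit 0) (XT.nd (nat_lit 234) (nat_lit 0) (nat_lit 0) (XT.nd (nat_lit 78) (nat_lit 152) (nat_lit 0) (XT.lf (nat_lit 0) (nat_lit 50294621666) (nat_lit 76) (nat_lit 4129848419) (nat_lit 76) (nat_lit 2925034538) (nat_lit 7) (nat_lit 4) (nat_lit 8) (nat_lit 5) (nat_lit 8) (nat_lit 4) (nat_lit 384) (nat_lit 261) (nat_lit 255)) (XT.nd (nat_lit 78) (nat_lit 0) (nat_lit 0) (XT.lf (nat_lit 0) (nat_lit 4292157332)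 (nat_lit 152) (nat_lit 52740648196) (nat_lit 0) (nat_lit 2958654547) (nat_lit 5) (nat_lit 5) (nat_lit 7) (nat_lit 4) (nat_lit 5) (nat_lit 4) (nat_lit 385) (nat_lit 261) (nat_lit 254)) (XT.lf (nat_lit 0) (nat_lit 11709316705) (nat_lit 152) (nat_lit 40838518196) (nat_lit 0) (nat_lit 10219832424) (nat_lit 5) (nat_lit 5) (nat_lit 7) (nat_lit 4) (nat_lit 5) (nat_lit 4) (nat_lit 386) (nat_lit 261) (nat_lit 253)))) (XT.nd (nat_lit 78) (nat_lit 0) (nat_lit 0) (XT.lf (nat_lit 0) (nat_lit 19291632487) (nat_lit 152) (nat_lit 28743639490) (nat_lit 0) (nat_lit 17653594401) (nat_lit 5) (nat_lit 5) (nat_lit 7) (nat_lit 4) (nat_lit 5) (nat_lit 4) (nat_lit 387) (nat_lit 261) (nat_lit 252)) (XT.nd (nat_lit 78) (nat_lit 0) (nat_lit 0) (XT.lf (nat_lit 0) (nat_lit 27057157811) (nat_lit 152) (nat_lit 16427214746) (nat_lit 0) (nat_lit 25277639911) (nat_lit 5) (nat_lit 5) (nat_lit 7) (nat_lit 4) (nat_lit 5) (nat_lit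 4) (nat_lit 388) (nat_lit 261) (nat_lit 251)) (XT.lf (nat_lit 0) (nat_lit 35024382023) (nat_lit 152) (nat_lit 3859919145) (nat_lit 0) (nat_lit 33110121443) (nat_lit 5) (nat_lit 5) (nat_lit 7) (nat_lit 4) (nat_lit 5) (nat_lit 4) (nat_lit 389) (nat_lit 261) (nat_lit 250))))) (XT.nd (nat_lit 234) (nat_lit 0) (nat_lit 0) (XT.nd (nat_lit 78) (nat_lit 0) (nat_lit 0) (XT.lf (nat_lit 0) (nat_lit 9167051642) (nat_lit 76) (nat_lit 34133342371) (nat_lit 76) (nat_lit 32090755429) (nat_lit 4) (nat_lit 4) (nat_lit 5) (nat_lit 5) (nat_lit 5) (nat_lit 4) (nat_lit 390) (nat_lit 261) (nat_lit 249)) (XT.nd (nat_lit 78) (nat_lit 0) (nat_lit 0) (XT.lf (nat_lit 0) (nat_lit 22588423212) (nat_lit 76) (nat_lit 29269041369) (nat_lit 76) (nat_lit 27104238844) (nat_lit 4) (nat_lit 4) (nat_lit 5) (nat_lit 5) (nat_lit 5) (nat_lit 4) (nat_lit 391) (nat_lit 261) (nat_lit 248)) (XT.lf (nat_lit 0) (nat_lit 36359331253) (nat_lit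 76) (nat_lit 24318794108) (nat_lit 76) (nat_lit 22037595789) (nat_lit 4) (nat_lit 4) (nat_lit 5) (nat_lit 5) (nat_lit 5) (nat_lit 4) (nat_lit 392) (nat_lit 261) (nat_lit 247)))) (XT.nd (nat_lit 78) (nat_lit 0) (nat_lit 0) (XT.lf (nat_lit 0) (nat_lit 50512563639) (nat_lit 76) (nat_lit 19270814284) (nat_lit 76) (nat_lit 16878762829) (nat_lit 4) (nat_lit 4) (nat_lit 5) (nat_lit 5) (nat_lit 5) (nat_lit 4) (nat_lit 393) (nat_lit 261) (nat_lit 246)) (XT.nd (nat_lit 78) (nat_lit 0) (nat_lit 0) (XT.lf (nat_lit 0) (nat_lit 65081818544) (nat_lit 76) (nat_lit 14113082900) (nat_lit 76) (nat_lit 11615457029) (nat_lit 4) (nat_lit 4) (nat_lit 5) (nat_lit 5) (nat_lit 5) (nat_lit 4) (nat_lit 394) (nat_lit 261) (nat_lit 245)) (XT.lf (nat_lit 0) (nat_lit 80101784669) (nat_lit 76) (nat_lit 8833319640) (nat_lit 76) (nat_lit 6235146707) (nat_lit 4) (nat_lit 4) (nat_lit 5) (nat_lit 5) (nat_lit 5) (nat_lit 4) (nat_lit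 395) (nat_lit 261) (nat_lit 244)))))) (XT.nd (nat_lit 45630) (nat_lit 0) (nat_lit 228) (XT.nd (nat_lit 45396) (nat_lit 0) (nat_lit 456) (XT.nd (nat_lit 78) (nat_lit 152) (nat_lit 0) (XT.lf (nat_lit 0) (nat_lit 95608223839) (nat_lit 76) (nat_lit 3418953642) (nat_lit 76) (nat_lit 725021602) (nat_lit 4) (nat_lit 4) (nat_lit 5) (nat_lit 5) (nat_lit 5) (nat_lit 4) (nat_lit 396) (nat_lit 261) (nat_lit 243)) (XT.nd (nat_lit 45240) (nat_lit 0) (nat_lit 608) (XT.lf (nat_lit 0) (nat_lit 4922482143) (nat_lit 152) (nat_lit 97422019261) (nat_lit 0) (nat_lit 2218471279) (nat_lit 2) (nat_lit 5) (nat_lit 4) (nat_lit 4) (nat_lit 2) (nat_lit 4) (nat_lit 397) (nat_lit 261) (nat_lit 242)) (XT.lf (nat_lit 0) (nat_lit 4647442851) (nat_lit 76) (nat_lit 7784043882) (nat_lit 76) (nat_lit 7784043882) (nat_lit 10) (nat_lit 4) (nat_lit 11) (nat_lit 5) (nat_lit 11) (nat_lit 4) (nat_lit 376) (nat_lit 262) (nat_lit 262))))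 (XT.nd (nat_lit 78) (nat_lit 152) (nat_lit 0) (XT.lf (nat_lit 0) (nat_lit 26822873679) (nat_lit 76) (nat_lit 7805177232) (nat_lit 76) (nat_lit 7560686770) (nat_lit 10) (nat_lit 4) (nat_lit 11) (nat_lit 5) (nat_lit 11) (nat_lit 4) (nat_lit 377) (nat_lit 262) (nat_lit 261)) (XT.nd (nat_lit 78) (nat_lit 0) (nat_lit 0) (XT.lf (nat_lit 0) (nat_lit 558588248) (nat_lit 152) (nat_lit 43388487442) (nat_lit 0) (nat_lit 95152790) (nat_lit 8) (nat_lit 5) (nat_lit 10) (nat_lit 4) (nat_lit 8) (nat_lit 4) (nat_lit 378) (nat_lit 262) (nat_lit 260)) (XT.lf (nat_lit 0) (nat_lit 8894006533) (nat_lit 152) (nat_lit 28877890165) (nat_lit 0) (nat_lit 8215270050) (nat_lit 8) (nat_lit 5) (nat_lit 10) (nat_lit 4) (nat_lit 8) (nat_lit 4) (nat_lit 379) (nat_lit 262) (nat_lit 259))))) (XT.nd (nat_lit 234) (nat_lit 152) (nat_lit 0) (XT.nd (nat_lit 78) (nat_lit 76) (nat_lit 0) (XT.lf (nat_lit 0) (nat_lit 17385785144) (nat_lit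 152) (nat_lit 14149393382) (nat_lit 0) (nat_lit 16502000066) (nat_lit 8) (nat_lit 5) (nat_lit 10) (nat_lit 4) (nat_lit 8) (nat_lit 4) (nat_lit 380) (nat_lit 262) (nat_lit 258)) (XT.nd (nat_lit 78) (nat_lit 0) (nat_lit 0) (XT.lf (nat_lit 0) (nat_lit 848630594) (nat_lit 76) (nat_lit 25213669564) (nat_lit 76) (nat_lit 24134600109) (nat_lit 7) (nat_lit 4) (nat_lit 8) (nat_lit 5) (nat_lit 8) (nat_lit 4) (nat_lit 381) (nat_lit 262) (nat_lit 257)) (XT.lf (nat_lit 0) (nat_lit 16422637204) (nat_lit 76) (nat_lit 18654945084) (nat_lit 76) (nat_lit 17389890508) (nat_lit 7) (nat_lit 4) (nat_lit 8) (nat_lit 5) (nat_lit 8) (nat_lit 4) (nat_lit 382) (nat_lit 262) (nat_lit 256)))) (XT.nd (nat_lit 78) (nat_lit 152) (nat_lit 0) (XT.lf (nat_lit 0) (nat_lit 32328106742) (nat_lit 76) (nat_lit 11986270205) (nat_lit 76) (nat_lit 10544086942) (nat_lit 7) (nat_lit 4) (nat_lit 8) (nat_lit 5) (nat_lit 8) (nat_lit 4) (nat_lit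 383) (nat_lit 262) (nat_lit 255)) (XT.nd (nat_lit 78) (nat_lit 152) (nat_lit 0) (XT.lf (nat_lit 0) (nat_lit 48602909374) (nat_lit 76) (nat_lit 5191767130) (nat_lit 76) (nat_lit 3580889880) (nat_lit 7) (nat_lit 4) (nat_lit 8) (nat_lit 5) (nat_lit 8) (nat_lit 4) (nat_lit 384) (nat_lit 262) (nat_lit 254)) (XT.lf (nat_lit 0) (nat_lit 3516525278) (nat_lit 152) (nat_lit 54708582972) (nat_lit 0) (nat_lit 1796585288) (nat_lit 5) (nat_lit 5) (nat_lit 7) (nat_lit 4) (nat_lit 5) (nat_lit 4) (nat_lit 385) (nat_lit 262) (nat_lit 253))))))) (XT.nd (nat_lit 45942) (nat_lit 0) (nat_lit 228) (XT.nd (nat_lit 468) (nat_lit 152) (nat_lit 0) (XT.nd (nat_lit 234) (nat_lit 76) (nat_lit 0) (XT.nd (nat_lit 78) (nat_lit 0) (nat_lit 0) (XT.lf (nat_lit 0) (nat_lit 10833342426) (nat_lit 152) (nat_lit 43002725067) (nat_lit 0) (nat_lit 8964848632) (nat_lit 5) (nat_lit 5) (nat_lit 7) (nat_lit 4) (nat_lit 5) (nat_lit 4) (nat_lit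 386) (nat_lit 262) (nat_lit 252)) (XT.nd (nat_lit 78) (nat_lit 0) (nat_lit 0) (XT.lf (nat_lit 0) (nat_lit 18320094185) (nat_lit 152) (nat_lit 31094772165) (nat_lit 0) (nat_lit 16310120576) (nat_lit 5) (nat_lit 5) (nat_lit 7) (nat_lit 4) (nat_lit 5) (nat_lit 4) (nat_lit 387) (nat_lit 262) (nat_lit 251)) (XT.lf (nat_lit 0) (nat_lit 25994606155) (nat_lit 152) (nat_lit 18956371996) (nat_lit 0) (nat_lit 23849889865) (nat_lit 5) (nat_lit 5) (nat_lit 7) (nat_lit 4) (nat_lit 5) (nat_lit 4) (nat_lit 388) (nat_lit 262) (nat_lit 250)))) (XT.nd (nat_lit 78) (nat_lit 76) (nat_lit 0) (XT.lf (nat_lit 0) (nat_lit 33875150981) (nat_lit 152) (nat_lit 6558623609) (nat_lit 0) (nat_lit 31602108330) (nat_lit 5) (nat_lit 5) (nat_lit 7) (nat_lit 4) (nat_lit 5) (nat_lit 4) (nat_lit 389) (nat_lit 262) (nat_lit 249)) (XT.nd (nat_lit 78) (nat_lit 0) (nat_lit 0) (XT.lf (nat_lit 0) (nat_lit 6249950490) (nat_lit 76) (nat_lit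 35790619724) (nat_lit 76) (nat_lit 33395361490) (nat_lit 4) (nat_lit 4) (nat_lit 5) (nat_lit 5) (nat_lit 5) (nat_lit 4) (nat_lit 390) (nat_lit 262) (nat_lit 248)) (XT.lf (nat_lit 0) (nat_lit 19514477129) (nat_lit 76) (nat_lit 31003035206) (nat_lit 76) (nat_lit 28491381178) (nat_lit 4) (nat_lit 4) (nat_lit 5) (nat_lit 5) (nat_lit 5) (nat_lit 4) (nat_lit 391) (nat_lit 262) (nat_lit 247))))) (XT.nd (nat_lit 234) (nat_lit 152) (nat_lit 0) (XT.nd (nat_lit 78) (nat_lit 0) (nat_lit 0) (XT.lf (nat_lit 0) (nat_lit 33136009044) (nat_lit 76) (nat_lit 26125851262) (nat_lit 76) (nat_lit 23503344098) (nat_lit 4) (nat_lit 4) (nat_lit 5) (nat_lit 5) (nat_lit 5) (nat_lit 4) (nat_lit 392) (nat_lit 262) (nat_lit 246)) (XT.nd (nat_lit 78) (nat_lit 0) (nat_lit 0) (XT.lf (nat_lit 0) (nat_lit 47146978454) (nat_lit 76) (nat_lit 21147455551) (nat_lit 76) (nat_lit 18419373971) (nat_lit 4) (nat_lit 4) (nat_lit 5) (nat_lit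 5) (nat_lit 5) (nat_lit 4) (nat_lit 393) (nat_lit 262) (nat_lit 245)) (XT.lf (nat_lit 0) (nat_lit 61580744811) (nat_lit 76) (nat_lit 16055994749) (nat_lit 76) (nat_lit 13227366106) (nat_lit 4) (nat_lit 4) (nat_lit 5) (nat_lit 5) (nat_lit 5) (nat_lit 4) (nat_lit 394) (nat_lit 262) (nat_lit 244)))) (XT.nd (nat_lit 78) (nat_lit 152) (nat_lit 0) (XT.lf (nat_lit 0) (nat_lit 76471674223) (nat_lit 76) (nat_lit 10839346331) (nat_lit 76) (nat_lit 7914958581) (nat_lit 4) (nat_lit 4) (nat_lit 5) (nat_lit 5) (nat_lit 5) (nat_lit 4) (nat_lit 395) (nat_lit 262) (nat_lit 243)) (XT.nd (nat_lit 78) (nat_lit 152) (nat_lit 0) (XT.lf (nat_lit 0) (nat_lit 91855221285) (nat_lit 76) (nat_lit 5485089704) (nat_lit 76) (nat_lit 2469502805) (nat_lit 4) (nat_lit 4) (nat_lit 5) (nat_lit 5) (nat_lit 5) (nat_lit 4) (nat_lit 396) (nat_lit 262) (nat_lit 242)) (XT.lf (nat_lit 0) (nat_lit 3092337310) (nat_lit 152) (nat_lit 101452090674)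 (nat_lit 0) (nat_lit 80256501) (nat_lit 2) (nat_lit 5) (nat_lit 4) (nat_lit 4) (nat_lit 2) (nat_lit 4) (nat_lit 397) (nat_lit 262) (nat_lit 241)))))) (XT.nd (nat_lit 468) (nat_lit 228) (nat_lit 0) (XT.nd (nat_lit 234) (nat_lit 152) (nat_lit 0) (XT.nd (nat_lit 78) (nat_lit 76) (nat_lit 0) (XT.lf (nat_lit 0) (nat_lit 3258884130) (nat_lit 152) (nat_lit 12070330965) (nat_lit 0) (nat_lit 3258884130) (nat_lit 11) (nat_lit 5) (nat_lit 13) (nat_lit 4) (nat_lit 11) (nat_lit 4) (nat_lit 374) (nat_lit 263) (nat_lit 263)) (XT.nd (nat_lit 78) (nat_lit 76) (nat_lit 0) (XT.lf (nat_lit 0) (nat_lit 15619458430) (nat_lit 152) (nat_lit 7780902762) (nat_lit 0) (nat_lit 15362743445) (nat_lit 11) (nat_lit 5) (nat_lit 13) (nat_lit 4) (nat_lit 11) (nat_lit 4) (nat_lit 375) (nat_lit 263) (nat_lit 262)) (XT.lf (nat_lit 0) (nat_lit 9019672095) (nat_lit 76) (nat_lit 15958425329) (nat_lit 76) (nat_lit 15457219882) (nat_lit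 10) (nat_lit 4) (nat_lit 11) (nat_lit 5) (nat_lit 11) (nat_lit 4) (nat_lit 376) (nat_lit 263) (nat_lit 261)))) (XT.nd (nat_lit 78) (nat_lit 152) (nat_lit 0) (XT.lf (nat_lit 0) (nat_lit 26285551873) (nat_lit 76) (nat_lit 8322774397) (nat_lit 76) (nat_lit 7588720891) (nat_lit 10) (nat_lit 4) (nat_lit 11) (nat_lit 5) (nat_lit 11) (nat_lit 4) (nat_lit 377) (nat_lit 263) (nat_lit 260)) (XT.nd (nat_lit 78) (nat_lit 76) (nat_lit 0) (XT.lf (nat_lit 0) (nat_lit 394168695) (nat_lit 152) (nat_lit 155651110) (nat_lit 76) (nat_lit 43504841560) (nat_lit 9) (nat_lit 5) (nat_lit 11) (nat_lit 5) (nat_lit 10) (nat_lit 4) (nat_lit 378) (nat_lit 263) (nat_lit 259)) (XT.lf (nat_lit 0) (nat_lit 8595731121) (nat_lit 152) (nat_lit 29945182993) (nat_lit 0) (nat_lit 7462708193) (nat_lit 8) (nat_lit 5) (nat_lit 10) (nat_lit 4) (nat_lit 8) (nat_lit 4) (nat_lit 379) (nat_lit 263) (nat_lit 258))))) (XT.nd (nat_lit 234) (nat_lit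 152) (nat_lit 0) (XT.nd (nat_lit 78) (nat_lit 76) (nat_lit 0) (XT.lf (nat_lit 0) (nat_lit 16966529203) (nat_lit 152) (nat_lit 15452519129) (nat_lit 0) (nat_lit 15638221898) (nat_lit 8) (nat_lit 5) (nat_lit 10) (nat_lit 4) (nat_lit 8) (nat_lit 4) (nat_lit 380) (nat_lit 263) (nat_lit 257)) (XT.nd (nat_lit 78) (nat_lit 76) (nat_lit 0) (XT.lf (nat_lit 0) (nat_lit 25519667110) (nat_lit 152) (nat_lit 695657772) (nat_lit 0) (nat_lit 24005374684) (nat_lit 8) (nat_lit 5) (nat_lit 10) (nat_lit 4) (nat_lit 8) (nat_lit 4) (nat_lit 381) (nat_lit 263) (nat_lit 256)) (XT.lf (nat_lit 0) (nat_lit 14646339297) (nat_lit 76) (nat_lit 19769959730) (nat_lit 76) (nat_lit 18078538618) (nat_lit 7) (nat_lit 4) (nat_lit 8) (nat_lit 5) (nat_lit 8) (nat_lit 4) (nat_lit 382) (nat_lit 263) (nat_lit 255)))) (XT.nd (nat_lit 78) (nat_lit 152) (nat_lit 0) (XT.lf (nat_lit 0) (nat_lit 30344033039) (nat_lit 76) (nat_lit 13202555850)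 (nat_lit 76) (nat_lit 11342440751) (nat_lit 7) (nat_lit 4) (nat_lit 8) (nat_lit 5) (nat_lit 8) (nat_lit 4) (nat_lit 383) (nat_lit 263) (nat_lit 254)) (XT.nd (nat_lit 78) (nat_lit 152) (nat_lit 0) (XT.lf (nat_lit 0) (nat_lit 46420953960) (nat_lit 76) (nat_lit 6504501345) (nat_lit 76) (nat_lit 4483725306) (nat_lit 7) (nat_lit 4) (nat_lit 8) (nat_lit 5) (nat_lit 8) (nat_lit 4) (nat_lit 384) (nat_lit 263) (nat_lit 253)) (XT.lf (nat_lit 0) (nat_lit 2496410061) (nat_lit 152) (nat_lit 57177272281) (nat_lit 0) (nat_lit 385937772) (nat_lit 5) (nat_lit 5) (nat_lit 7) (nat_lit 4) (nat_lit 5) (nat_lit 4) (nat_lit 385) (nat_lit 263) (nat_lit 252))))))))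
noncomputable def xc3 : XT := (XT.nd (nat_lit 46722) (nat_lit 0) (nat_lit 76) (XT.nd (nat_lit 45786) (nat_lit 0) (nat_lit 304) (XT.nd (nat_lit 468) (nat_lit 76) (nat_lit 0) (XT.nd (nat_lit 234) (nat_lit 76) (nat_lit 0) (XT.nd (nat_lit 78) (nat_lit 0) (nat_lit 0) (XT.lf (nat_lit 0) (nat_lit 9717663187) (nat_lit 152) (nat_lit 45658340179) (nat_lit 0) (nat_lit 7465711083) (nat_lit 5) (nat_lit 5) (nat_lit 7) (nat_lit 4) (nat_lit 5) (nat_lit 4) (nat_lit 386) (nat_lit 263) (nat_lit 251)) (XT.nd (nat_lit 78) (nat_lit 0) (nat_lit 0) (XT.lf (nat_lit 0) (nat_lit 17113401591) (nat_lit 152) (nat_lit 33928411852) (nat_lit 0) (nat_lit 14726706807) (nat_lit 5) (nat_lit 5) (nat_lit 7) (nat_lit 4) (nat_lit 5) (nat_lit 4) (nat_lit 387) (nat_lit 263) (nat_lit 250)) (XT.lf (nat_lit 0) (nat_lit 24701234174) (nat_lit 152) (nat_lit 21959558898) (nat_lit 0) (nat_lit 22186213028) (nat_lit 5) (nat_lit 5) (nat_lit 7)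 (nat_lit 4) (nat_lit 5) (nat_lit 4) (nat_lit 388) (nat_lit 263) (nat_lit 249)))) (XT.nd (nat_lit 78) (nat_lit 76) (nat_lit 0) (XT.lf (nat_lit 0) (nat_lit 32499227205) (nat_lit 152) (nat_lit 9723284049) (nat_lit 0) (nat_lit 29861990475) (nat_lit 5) (nat_lit 5) (nat_lit 7) (nat_lit 4) (nat_lit 5) (nat_lit 4) (nat_lit 389) (nat_lit 263) (nat_lit 248)) (XT.nd (nat_lit 78) (nat_lit 0) (nat_lit 0) (XT.lf (nat_lit 0) (nat_lit 2865462171) (nat_lit 76) (nat_lit 37688029736) (nat_lit 76) (nat_lit 34934397214) (nat_lit 4) (nat_lit 4) (nat_lit 5) (nat_lit 5) (nat_lit 5) (nat_lit 4) (nat_lit 390) (nat_lit 263) (nat_lit 247)) (XT.lf (nat_lit 0) (nat_lit 15980612685) (nat_lit 76) (nat_lit 32973508535) (nat_lit 76) (nat_lit 30109022876) (nat_lit 4) (nat_lit 4) (nat_lit 5) (nat_lit 5) (nat_lit 5) (nat_lit 4) (nat_lit 391) (nat_lit 263) (nat_lit 246))))) (XT.nd (nat_lit 234) (nat_lit 76) (nat_lit 0) (XT.nd (nat_lit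 78) (nat_lit 0) (nat_lit 0) (XT.lf (nat_lit 0) (nat_lit 29459881624) (nat_lit 76) (nat_lit 28165908704) (nat_lit 76) (nat_lit 25195848629) (nat_lit 4) (nat_lit 4) (nat_lit 5) (nat_lit 5) (nat_lit 5) (nat_lit 4) (nat_lit 392) (nat_lit 263) (nat_lit 245)) (XT.nd (nat_lit 78) (nat_lit 0) (nat_lit 0) (XT.lf (nat_lit 0) (nat_lit 43335362486) (nat_lit 76) (nat_lit 23253783575) (nat_lit 76) (nat_lit 20183176438) (nat_lit 4) (nat_lit 4) (nat_lit 5) (nat_lit 5) (nat_lit 5) (nat_lit 4) (nat_lit 393) (nat_lit 263) (nat_lit 244)) (XT.lf (nat_lit 0) (nat_lit 57640092129) (nat_lit 76) (nat_lit 18225437614) (nat_lit 76) (nat_lit 15059071370) (nat_lit 4) (nat_lit 4) (nat_lit 5) (nat_lit 5) (nat_lit 5) (nat_lit 4) (nat_lit 394) (nat_lit 263) (nat_lit 243)))) (XT.nd (nat_lit 78) (nat_lit 76) (nat_lit 0) (XT.lf (nat_lit 0) (nat_lit 72408129434) (nat_lit 76) (nat_lit 13068898568) (nat_lit 76) (nat_lit 9811333174)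 (nat_lit 4) (nat_lit 4) (nat_lit 5) (nat_lit 5) (nat_lit 5) (nat_lit 4) (nat_lit 395) (nat_lit 263) (nat_lit 242)) (XT.nd (nat_lit 78) (nat_lit 76) (nat_lit 0) (XT.lf (nat_lit 0) (nat_lit 87674636394) (nat_lit 76) (nat_lit 7771888963) (nat_lit 76) (nat_lit 4427467236) (nat_lit 4) (nat_lit 4) (nat_lit 5) (nat_lit 5) (nat_lit 5) (nat_lit 4) (nat_lit 396) (nat_lit 263) (nat_lit 241)) (XT.lf (nat_lit 0) (nat_lit 1083775906) (nat_lit 152) (nat_lit 1227076953) (nat_lit 76) (nat_lit 102381241917) (nat_lit 3) (nat_lit 5) (nat_lit 5) (nat_lit 5) (nat_lit 4) (nat_lit 4) (nat_lit 397) (nat_lit 263) (nat_lit 240)))))) (XT.nd (nat_lit 468) (nat_lit 228) (nat_lit 0) (XT.nd (nat_lit 234) (nat_lit 76) (nat_lit 0) (XT.nd (nat_lit 78) (nat_lit 152) (nat_lit 0) (XT.lf (nat_lit 0) (nat_lit 6384807892) (nat_lit 76) (nat_lit 5366102410) (nat_lit 76) (nat_lit 5366102410) (nat_lit 13) (nat_lit 4) (nat_lit 14) (nat_lit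 5) (nat_lit 14) (nat_lit 4) (nat_lit 372) (nat_lit 264) (nat_lit 264)) (XT.nd (nat_lit 78) (nat_lit 152) (nat_lit 0) (XT.lf (nat_lit 0) (nat_lit 31114721556) (nat_lit 76) (nat_lit 2416835022) (nat_lit 76) (nat_lit 2139197765) (nat_lit 13) (nat_lit 4) (nat_lit 14) (nat_lit 5) (nat_lit 14) (nat_lit 4) (nat_lit 373) (nat_lit 264) (nat_lit 263)) (XT.lf (nat_lit 0) (nat_lit 6641426213) (nat_lit 152) (nat_lit 24423997289) (nat_lit 0) (nat_lit 6115160494) (nat_lit 11) (nat_lit 5) (nat_lit 13) (nat_lit 4) (nat_lit 11) (nat_lit 4) (nat_lit 374) (nat_lit 264) (nat_lit 262)))) (XT.nd (nat_lit 78) (nat_lit 76) (nat_lit 0) (XT.lf (nat_lit 0) (nat_lit 15604170875) (nat_lit 152) (nat_lit 8334081320) (nat_lit 0) (nat_lit 14833414694) (nat_lit 11) (nat_lit 5) (nat_lit 13) (nat_lit 4) (nat_lit 11) (nat_lit 4) (nat_lit 375) (nat_lit 264) (nat_lit 261)) (XT.nd (nat_lit 78) (nat_lit 0) (nat_lit 0) (XT.lf (nat_lit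 0) (nat_lit 8193376001) (nat_lit 76) (nat_lit 16629161951) (nat_lit 76) (nat_lit 15625557710) (nat_lit 10) (nat_lit 4) (nat_lit 11) (nat_lit 5) (nat_lit 11) (nat_lit 4) (nat_lit 376) (nat_lit 264) (nat_lit 260)) (XT.lf (nat_lit 0) (nat_lit 25209628923) (nat_lit 76) (nat_lit 9114710637) (nat_lit 76) (nat_lit 7889346341) (nat_lit 10) (nat_lit 4) (nat_lit 11) (nat_lit 5) (nat_lit 11) (nat_lit 4) (nat_lit 377) (nat_lit 264) (nat_lit 259))))) (XT.nd (nat_lit 234) (nat_lit 76) (nat_lit 0) (XT.nd (nat_lit 78) (nat_lit 152) (nat_lit 0) (XT.lf (nat_lit 0) (nat_lit 42589327774) (nat_lit 76) (nat_lit 1461164585) (nat_lit 76) (nat_lit 24600235) (nat_lit 10) (nat_lit 4) (nat_lit 11) (nat_lit 5) (nat_lit 11) (nat_lit 4) (nat_lit 378) (nat_lit 264) (nat_lit 258)) (XT.nd (nat_lit 78) (nat_lit 0) (nat_lit 0) (XT.lf (nat_lit 0) (nat_lit 8034531853) (nat_lit 152) (nat_lit 31549297946) (nat_lit 0) (nat_lit 6444524807)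 (nat_lit 8) (nat_lit 5) (nat_lit 10) (nat_lit 4) (nat_lit 8) (nat_lit 4) (nat_lit 379) (nat_lit 264) (nat_lit 257)) (XT.lf (nat_lit 0) (nat_lit 16290110385) (nat_lit 152) (nat_lit 17281236863) (nat_lit 0) (nat_lit 14514118217) (nat_lit 8) (nat_lit 5) (nat_lit 10) (nat_lit 4) (nat_lit 8) (nat_lit 4) (nat_lit 380) (nat_lit 264) (nat_lit 256)))) (XT.nd (nat_lit 78) (nat_lit 76) (nat_lit 0) (XT.lf (nat_lit 0) (nat_lit 24733515385) (nat_lit 152) (nat_lit 2738282915) (nat_lit 0) (nat_lit 22780394531) (nat_lit 8) (nat_lit 5) (nat_lit 10) (nat_lit 4) (nat_lit 8) (nat_lit 4) (nat_lit 381) (nat_lit 264) (nat_lit 255)) (XT.nd (nat_lit 78) (nat_lit 0) (nat_lit 0) (XT.lf (nat_lit 0) (nat_lit 12355286112) (nat_lit 76) (nat_lit 21148330656) (nat_lit 76) (nat_lit 19026515815) (nat_lit 7) (nat_lit 4) (nat_lit 8) (nat_lit 5) (nat_lit 8) (nat_lit 4) (nat_lit 382) (nat_lit 264) (nat_lit 254)) (XT.lf (nat_lit 0)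 (nat_lit 27855098142) (nat_lit 76) (nat_lit 14677375347) (nat_lit 76) (nat_lit 12394899566) (nat_lit 7) (nat_lit 4) (nat_lit 8) (nat_lit 5) (nat_lit 8) (nat_lit 4) (nat_lit 383) (nat_lit 264) (nat_lit 253))))))) (XT.nd (nat_lit 936) (nat_lit 0) (nat_lit 0) (XT.nd (nat_lit 468) (nat_lit 76) (nat_lit 0) (XT.nd (nat_lit 234) (nat_lit 0) (nat_lit 0) (XT.nd (nat_lit 78) (nat_lit 152) (nat_lit 0) (XT.lf (nat_lit 0) (nat_lit 43743560291) (nat_lit 76) (nat_lit 8071176624) (nat_lit 76) (nat_lit 5635690424) (nat_lit 7) (nat_lit 4) (nat_lit 8) (nat_lit 5) (nat_lit 8) (nat_lit 4) (nat_lit 384) (nat_lit 264) (nat_lit 252)) (XT.nd (nat_lit 78) (nat_lit 76) (nat_lit 0) (XT.lf (nat_lit 0) (nat_lit 1242477232) (nat_lit 152) (nat_lit 58981626) (nat_lit 76) (nat_lit 58803478413) (nat_lit 6) (nat_lit 5) (nat_lit 8) (nat_lit 5) (nat_lit 7) (nat_lit 4) (nat_lit 385) (nat_lit 264) (nat_lit 251)) (XT.lf (nat_lit 0)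 (nat_lit 8359622607) (nat_lit 152) (nat_lit 48811686427) (nat_lit 0) (nat_lit 5718850404) (nat_lit 5) (nat_lit 5) (nat_lit 7) (nat_lit 4) (nat_lit 5) (nat_lit 4) (nat_lit 386) (nat_lit 264) (nat_lit 250)))) (XT.nd (nat_lit 78) (nat_lit 0) (nat_lit 0) (XT.lf (nat_lit 0) (nat_lit 15668681626) (nat_lit 152) (nat_lit 37251305314) (nat_lit 0) (nat_lit 12899583060) (nat_lit 5) (nat_lit 5) (nat_lit 7) (nat_lit 4) (nat_lit 5) (nat_lit 4) (nat_lit 387) (nat_lit 264) (nat_lit 249)) (XT.nd (nat_lit 78) (nat_lit 0) (nat_lit 0) (XT.lf (nat_lit 0) (nat_lit 23173962413) (nat_lit 152) (nat_lit 25443925898) (nat_lit 0) (nat_lit 20282648264) (nat_lit 5) (nat_lit 5) (nat_lit 7) (nat_lit 4) (nat_lit 5) (nat_lit 4) (nat_lit 388) (nat_lit 264) (nat_lit 248)) (XT.lf (nat_lit 0) (nat_lit 30893334685) (nat_lit 152) (nat_lit 13361435370) (nat_lit 0) (nat_lit 27885624743) (nat_lit 5) (nat_lit 5) (nat_lit 7) (nat_lit 4)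 (nat_lit 5) (nat_lit 4) (nat_lit 389) (nat_lit 264) (nat_lit 247))))) (XT.nd (nat_lit 234) (nat_lit 0) (nat_lit 0) (XT.nd (nat_lit 78) (nat_lit 76) (nat_lit 0) (XT.lf (nat_lit 0) (nat_lit 38845177900) (nat_lit 152) (nat_lit 975065896) (nat_lit 0) (nat_lit 35726614822) (nat_lit 5) (nat_lit 5) (nat_lit 7) (nat_lit 4) (nat_lit 5) (nat_lit 4) (nat_lit 390) (nat_lit 264) (nat_lit 246)) (XT.nd (nat_lit 78) (nat_lit 0) (nat_lit 0) (XT.lf (nat_lit 0) (nat_lit 11978415918) (nat_lit 76) (nat_lit 35185152961) (nat_lit 76) (nat_lit 31961015467) (nat_lit 4) (nat_lit 4) (nat_lit 5) (nat_lit 5) (nat_lit 5) (nat_lit 4) (nat_lit 391) (nat_lit 264) (nat_lit 245)) (XT.lf (nat_lit 0) (nat_lit 25322196309) (nat_lit 76) (nat_lit 30443823712) (nat_lit 76) (nat_lit 27119139155) (nat_lit 4) (nat_lit 4) (nat_lit 5) (nat_lit 5) (nat_lit 5) (nat_lit 4) (nat_lit 392) (nat_lit 264) (nat_lit 244)))) (XT.nd (nat_lit 78) (nat_lit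 0) (nat_lit 0) (XT.lf (nat_lit 0) (nat_lit 39068640458) (nat_lit 76) (nat_lit 25594813425) (nat_lit 76) (nat_lit 22174369761) (nat_lit 4) (nat_lit 4) (nat_lit 5) (nat_lit 5) (nat_lit 5) (nat_lit 4) (nat_lit 393) (nat_lit 264) (nat_lit 243)) (XT.nd (nat_lit 78) (nat_lit 0) (nat_lit 0) (XT.lf (nat_lit 0) (nat_lit 53250477993) (nat_lit 76) (nat_lit 20626576836) (nat_lit 76) (nat_lit 17114934022) (nat_lit 4) (nat_lit 4) (nat_lit 5) (nat_lit 5) (nat_lit 5) (nat_lit 4) (nat_lit 394) (nat_lit 264) (nat_lit 242)) (XT.lf (nat_lit 0) (nat_lit 67901475196) (nat_lit 76) (nat_lit 15527284811) (nat_lit 76) (nat_lit 11928785664) (nat_lit 4) (nat_lit 4) (nat_lit 5) (nat_lit 5) (nat_lit 5) (nat_lit 4) (nat_lit 395) (nat_lit 264) (nat_lit 241)))))) (XT.nd (nat_lit 45162) (nat_lit 0) (nat_lit 304) (XT.nd (nat_lit 44928) (nat_lit 0) (nat_lit 684) (XT.nd (nat_lit 78) (nat_lit 0) (nat_lit 0) (XT.lf (nat_lit 0) (nat_lit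 83056515391) (nat_lit 76) (nat_lit 10284796178) (nat_lit 76) (nat_lit 6603576714) (nat_lit 4) (nat_lit 4) (nat_lit 5) (nat_lit 5) (nat_lit 5) (nat_lit 4) (nat_lit 396) (nat_lit 264) (nat_lit 240)) (XT.nd (nat_lit 44772) (nat_lit 0) (nat_lit 760) (XT.lf (nat_lit 0) (nat_lit 98751682010) (nat_lit 76) (nat_lit 4886628823) (nat_lit 76) (nat_lit 1126628104) (nat_lit 4) (nat_lit 4) (nat_lit 5) (nat_lit 5) (nat_lit 5) (nat_lit 4) (nat_lit 397) (nat_lit 264) (nat_lit 239)) (XT.lf (nat_lit 0) (nat_lit 2326235682) (nat_lit 152) (nat_lit 11136201864) (nat_lit 0) (nat_lit 2326235682) (nat_lit 14) (nat_lit 5) (nat_lit 16) (nat_lit 4) (nat_lit 14) (nat_lit 4) (nat_lit 370) (nat_lit 265) (nat_lit 265)))) (XT.nd (nat_lit 78) (nat_lit 76) (nat_lit 0) (XT.lf (nat_lit 0) (nat_lit 14003754866) (nat_lit 152) (nat_lit 5156863715) (nat_lit 0) (nat_lit 13712235747) (nat_lit 14) (nat_lit 5) (nat_lit 16) (nat_lit 4)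 (nat_lit 14) (nat_lit 4) (nat_lit 371) (nat_lit 265) (nat_lit 264)) (XT.nd (nat_lit 78) (nat_lit 0) (nat_lit 0) (XT.lf (nat_lit 0) (nat_lit 12484025059) (nat_lit 76) (nat_lit 11161795890) (nat_lit 76) (nat_lit 10592639514) (nat_lit 13) (nat_lit 4) (nat_lit 14) (nat_lit 5) (nat_lit 14) (nat_lit 4) (nat_lit 372) (nat_lit 265) (nat_lit 263)) (XT.lf (nat_lit 0) (nat_lit 30557139663) (nat_lit 76) (nat_lit 2977923187) (nat_lit 76) (nat_lit 2144350377) (nat_lit 13) (nat_lit 4) (nat_lit 14) (nat_lit 5) (nat_lit 14) (nat_lit 4) (nat_lit 373) (nat_lit 265) (nat_lit 262))))) (XT.nd (nat_lit 234) (nat_lit 152) (nat_lit 0) (XT.nd (nat_lit 78) (nat_lit 76) (nat_lit 0) (XT.lf (nat_lit 0) (nat_lit 6486428774) (nat_lit 152) (nat_lit 25274677975) (nat_lit 0) (nat_lit 5432644322) (nat_lit 11) (nat_lit 5) (nat_lit 13) (nat_lit 4) (nat_lit 11) (nat_lit 4) (nat_lit 374) (nat_lit 265) (nat_lit 261)) (XT.nd (nat_lit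 78) (nat_lit 76) (nat_lit 0) (XT.lf (nat_lit 0) (nat_lit 15316844382) (nat_lit 152) (nat_lit 9441755529) (nat_lit 0) (nat_lit 14030211871) (nat_lit 11) (nat_lit 5) (nat_lit 13) (nat_lit 4) (nat_lit 11) (nat_lit 4) (nat_lit 375) (nat_lit 265) (nat_lit 260)) (XT.lf (nat_lit 0) (nat_lit 6814030048) (nat_lit 76) (nat_lit 17581894622) (nat_lit 76) (nat_lit 16073502055) (nat_lit 10) (nat_lit 4) (nat_lit 11) (nat_lit 5) (nat_lit 11) (nat_lit 4) (nat_lit 376) (nat_lit 265) (nat_lit 259)))) (XT.nd (nat_lit 78) (nat_lit 152) (nat_lit 0) (XT.lf (nat_lit 0) (nat_lit 23592543109) (nat_lit 76) (nat_lit 10182871517) (nat_lit 76) (nat_lit 8463278896) (nat_lit 10) (nat_lit 4) (nat_lit 11) (nat_lit 5) (nat_lit 11) (nat_lit 4) (nat_lit 377) (nat_lit 265) (nat_lit 258)) (XT.nd (nat_lit 78) (nat_lit 152) (nat_lit 0) (XT.lf (nat_lit 0) (nat_lit 40745823044) (nat_lit 76) (nat_lit 2639257092) (nat_lit 76) (nat_lit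 718521563) (nat_lit 10) (nat_lit 4) (nat_lit 11) (nat_lit 5) (nat_lit 11) (nat_lit 4) (nat_lit 378) (nat_lit 265) (nat_lit 257)) (XT.lf (nat_lit 0) (nat_lit 7209072543) (nat_lit 152) (nat_lit 33694054346) (nat_lit 0) (nat_lit 5158295646) (nat_lit 8) (nat_lit 5) (nat_lit 10) (nat_lit 4) (nat_lit 8) (nat_lit 4) (nat_lit 379) (nat_lit 265) (nat_lit 256))))))))
noncomputable def xc4 : XT := (XT.nd (nat_lit 46332) (nat_lit 0) (nat_lit 0) (XT.nd (nat_lit 858) (nat_lit 76) (nat_lit 0) (XT.nd (nat_lit 390) (nat_lit 152) (nat_lit 0) (XT.nd (nat_lit 156) (nat_lit 76) (nat_lit 0) (XT.nd (nat_lit 78) (nat_lit 0) (nat_lit 0) (XT.lf (nat_lit 0) (nat_lit 15354918168) (nat_lit 152) (nat_lit 19639900672) (nat_lit 0) (nat_lit 13127012585) (nat_lit 8) (nat_lit 5) (nat_lit 10) (nat_lit 4) (nat_lit 8) (nat_lit 4) (nat_lit 380) (nat_lit 265) (nat_lit 255)) (XT.lf (nat_lit 0) (nat_lit 23693815639) (nat_lit 152) (nat_lit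 5300668067) (nat_lit 0) (nat_lit 21297216069) (nat_lit 8) (nat_lit 5) (nat_lit 10) (nat_lit 4) (nat_lit 8) (nat_lit 4) (nat_lit 381) (nat_lit 265) (nat_lit 254))) (XT.nd (nat_lit 78) (nat_lit 0) (nat_lit 0) (XT.lf (nat_lit 0) (nat_lit 9544022760) (nat_lit 76) (nat_lit 22793339698) (nat_lit 76) (nat_lit 20236079188) (nat_lit 7) (nat_lit 4) (nat_lit 8) (nat_lit 5) (nat_lit 8) (nat_lit 4) (nat_lit 382) (nat_lit 265) (nat_lit 253)) (XT.nd (nat_lit 78) (nat_lit 0) (nat_lit 0) (XT.lf (nat_lit 0) (nat_lit 24855376018) (nat_lit 76) (nat_lit 16414240170) (nat_lit 76) (nat_lit 13703969241) (nat_lit 7) (nat_lit 4) (nat_lit 8) (nat_lit 5) (nat_lit 8) (nat_lit 4) (nat_lit 383) (nat_lit 265) (nat_lit 252)) (XT.lf (nat_lit 0) (nat_lit 40564353621) (nat_lit 76) (nat_lit 9895523144) (nat_lit 76) (nat_lit 7039528006) (nat_lit 7) (nat_lit 4) (nat_lit 8) (nat_lit 5) (nat_lit 8) (nat_lit 4) (nat_lit 384) (nat_lit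 265) (nat_lit 251))))) (XT.nd (nat_lit 234) (nat_lit 0) (nat_lit 0) (XT.nd (nat_lit 78) (nat_lit 152) (nat_lit 0) (XT.lf (nat_lit 0) (nat_lit 56708357898) (nat_lit 76) (nat_lit 3221667864) (nat_lit 76) (nat_lit 226887766) (nat_lit 7) (nat_lit 4) (nat_lit 8) (nat_lit 5) (nat_lit 8) (nat_lit 4) (nat_lit 385) (nat_lit 265) (nat_lit 250)) (XT.nd (nat_lit 78) (nat_lit 0) (nat_lit 0) (XT.lf (nat_lit 0) (nat_lit 6755987258) (nat_lit 152) (nat_lit 52470271776) (nat_lit 0) (nat_lit 3720107402) (nat_lit 5) (nat_lit 5) (nat_lit 7) (nat_lit 4) (nat_lit 5) (nat_lit 4) (nat_lit 386) (nat_lit 265) (nat_lit 249)) (XT.lf (nat_lit 0) (nat_lit 13982494480) (nat_lit 152) (nat_lit 41071364201) (nat_lit 0) (nat_lit 10824399041) (nat_lit 5) (nat_lit 5) (nat_lit 7) (nat_lit 4) (nat_lit 5) (nat_lit 4) (nat_lit 387) (nat_lit 265) (nat_lit 248)))) (XT.nd (nat_lit 78) (nat_lit 0) (nat_lit 0) (XT.lf (nat_lit 0) (nat_lit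 21409154509) (nat_lit 152) (nat_lit 29417769106) (nat_lit 0) (nat_lit 18134663277) (nat_lit 5) (nat_lit 5) (nat_lit 7) (nat_lit 4) (nat_lit 5) (nat_lit 4) (nat_lit 388) (nat_lit 265) (nat_lit 247)) (XT.nd (nat_lit 78) (nat_lit 0) (nat_lit 0) (XT.lf (nat_lit 0) (nat_lit 29053649869) (nat_lit 152) (nat_lit 17481739837) (nat_lit 0) (nat_lit 25668305500) (nat_lit 5) (nat_lit 5) (nat_lit 7) (nat_lit 4) (nat_lit 5) (nat_lit 4) (nat_lit 389) (nat_lit 265) (nat_lit 246)) (XT.lf (nat_lit 0) (nat_lit 36934181739) (nat_lit 152) (nat_lit 5234857276) (nat_lit 0) (nat_lit 33443262954) (nat_lit 5) (nat_lit 5) (nat_lit 7) (nat_lit 4) (nat_lit 5) (nat_lit 4) (nat_lit 390) (nat_lit 265) (nat_lit 245)))))) (XT.nd (nat_lit 468) (nat_lit 0) (nat_lit 0) (XT.nd (nat_lit 234) (nat_lit 0) (nat_lit 0) (XT.nd (nat_lit 78) (nat_lit 0) (nat_lit 0) (XT.lf (nat_lit 0) (nat_lit 7498357789) (nat_lit 76) (nat_lit 37643234303)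 (nat_lit 76) (nat_lit 34051768456) (nat_lit 4) (nat_lit 4) (nat_lit 5) (nat_lit 5) (nat_lit 5) (nat_lit 4) (nat_lit 391) (nat_lit 265) (nat_lit 244)) (XT.nd (nat_lit 78) (nat_lit 0) (nat_lit 0) (XT.lf (nat_lit 0) (nat_lit 20713101466) (nat_lit 76) (nat_lit 32965019895) (nat_lit 76) (nat_lit 29277794941) (nat_lit 4) (nat_lit 4) (nat_lit 5) (nat_lit 5) (nat_lit 5) (nat_lit 4) (nat_lit 392) (nat_lit 265) (nat_lit 243)) (XT.lf (nat_lit 0) (nat_lit 34336653508) (nat_lit 76) (nat_lit 28176118980) (nat_lit 76) (nat_lit 24397694875) (nat_lit 4) (nat_lit 4) (nat_lit 5) (nat_lit 5) (nat_lit 5) (nat_lit 4) (nat_lit 393) (nat_lit 265) (nat_lit 242)))) (XT.nd (nat_lit 78) (nat_lit 0) (nat_lit 0) (XT.lf (nat_lit 0) (nat_lit 48401450941) (nat_lit 76) (nat_lit 23265129412) (nat_lit 76) (nat_lit 19399848975) (nat_lit 4) (nat_lit 4) (nat_lit 5) (nat_lit 5) (nat_lit 5) (nat_lit 4) (nat_lit 394) (nat_lit 265) (nat_lit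 241)) (XT.nd (nat_lit 78) (nat_lit 0) (nat_lit 0) (XT.lf (nat_lit 0) (nat_lit 62940981379) (nat_lit 76) (nat_lit 18220358359) (nat_lit 76) (nat_lit 14272357605) (nat_lit 4) (nat_lit 4) (nat_lit 5) (nat_lit 5) (nat_lit 5) (nat_lit 4) (nat_lit 395) (nat_lit 265) (nat_lit 240)) (XT.lf (nat_lit 0) (nat_lit 77989862751) (nat_lit 76) (nat_lit 13029794463) (nat_lit 76) (nat_lit 9003012454) (nat_lit 4) (nat_lit 4) (nat_lit 5) (nat_lit 5) (nat_lit 5) (nat_lit 4) (nat_lit 396) (nat_lit 265) (nat_lit 239))))) (XT.nd (nat_lit 44772) (nat_lit 0) (nat_lit 684) (XT.nd (nat_lit 44616) (nat_lit 0) (nat_lit 912) (XT.lf (nat_lit 0) (nat_lit 93583925729) (nat_lit 76) (nat_lit 7681079236) (nat_lit 76) (nat_lit 3579267461) (nat_lit 4) (nat_lit 4) (nat_lit 5) (nat_lit 5) (nat_lit 5) (nat_lit 4) (nat_lit 397) (nat_lit 265) (nat_lit 238)) (XT.nd (nat_lit 78) (nat_lit 0) (nat_lit 0) (XT.lf (nat_lit 0) (nat_lit 1555868137)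 (nat_lit 76) (nat_lit 6515865743) (nat_lit 76) (nat_lit 6515865743) (nat_lit 16) (nat_lit 4) (nat_lit 17) (nat_lit 5) (nat_lit 17) (nat_lit 4) (nat_lit 368) (nat_lit 266) (nat_lit 266)) (XT.lf (nat_lit 0) (nat_lit 21639073015) (nat_lit 76) (nat_lit 4511779723) (nat_lit 76) (nat_lit 4196501796) (nat_lit 16) (nat_lit 4) (nat_lit 17) (nat_lit 5) (nat_lit 17) (nat_lit 4) (nat_lit 369) (nat_lit 266) (nat_lit 265)))) (XT.nd (nat_lit 78) (nat_lit 76) (nat_lit 0) (XT.lf (nat_lit 0) (nat_lit 4806554262) (nat_lit 152) (nat_lit 22566422442) (nat_lit 0) (nat_lit 4208940068) (nat_lit 14) (nat_lit 5) (nat_lit 16) (nat_lit 4) (nat_lit 14) (nat_lit 4) (nat_lit 370) (nat_lit 266) (nat_lit 264)) (XT.nd (nat_lit 78) (nat_lit 76) (nat_lit 0) (XT.lf (nat_lit 0) (nat_lit 14013064261) (nat_lit 152) (nat_lit 5730900249) (nat_lit 0) (nat_lit 13137812811) (nat_lit 14) (nat_lit 5) (nat_lit 16) (nat_lit 4) (nat_lit 14)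 (nat_lit 4) (nat_lit 371) (nat_lit 266) (nat_lit 263)) (XT.lf (nat_lit 0) (nat_lit 11626572904) (nat_lit 76) (nat_lit 11882435558) (nat_lit 76) (nat_lit 10742767673) (nat_lit 13) (nat_lit 4) (nat_lit 14) (nat_lit 5) (nat_lit 14) (nat_lit 4) (nat_lit 372) (nat_lit 266) (nat_lit 262))))))) (XT.nd (nat_lit 936) (nat_lit 228) (nat_lit 0) (XT.nd (nat_lit 468) (nat_lit 228) (nat_lit 0) (XT.nd (nat_lit 234) (nat_lit 76) (nat_lit 0) (XT.nd (nat_lit 78) (nat_lit 152) (nat_lit 0) (XT.lf (nat_lit 0) (nat_lit 29440648302) (nat_lit 76) (nat_lit 3823798184) (nat_lit 76) (nat_lit 2432305124) (nat_lit 13) (nat_lit 4) (nat_lit 14) (nat_lit 5) (nat_lit 14) (nat_lit 4) (nat_lit 373) (nat_lit 266) (nat_lit 261)) (XT.nd (nat_lit 78) (nat_lit 0) (nat_lit 0) (XT.lf (nat_lit 0) (nat_lit 6052406902) (nat_lit 152) (nat_lit 26694729416) (nat_lit 0) (nat_lit 4468594706) (nat_lit 11) (nat_lit 5) (nat_lit 13) (nat_lit 4)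 (nat_lit 11) (nat_lit 4) (nat_lit 374) (nat_lit 266) (nat_lit 260)) (XT.lf (nat_lit 0) (nat_lit 14756794840) (nat_lit 152) (nat_lit 11106562707) (nat_lit 0) (nat_lit 12951222588) (nat_lit 11) (nat_lit 5) (nat_lit 13) (nat_lit 4) (nat_lit 11) (nat_lit 4) (nat_lit 375) (nat_lit 266) (nat_lit 259)))) (XT.nd (nat_lit 78) (nat_lit 0) (nat_lit 0) (XT.lf (nat_lit 0) (nat_lit 4878350081) (nat_lit 76) (nat_lit 18818891754) (nat_lit 76) (nat_lit 16802119449) (nat_lit 10) (nat_lit 4) (nat_lit 11) (nat_lit 5) (nat_lit 11) (nat_lit 4) (nat_lit 376) (nat_lit 266) (nat_lit 258)) (XT.nd (nat_lit 78) (nat_lit 0) (nat_lit 0) (XT.lf (nat_lit 0) (nat_lit 21430444225) (nat_lit 76) (nat_lit 11529800276) (nat_lit 76) (nat_lit 9311885062) (nat_lit 10) (nat_lit 4) (nat_lit 11) (nat_lit 5) (nat_lit 11) (nat_lit 4) (nat_lit 377) (nat_lit 266) (nat_lit 257)) (XT.lf (nat_lit 0) (nat_lit 38368087097) (nat_lit 76) (nat_lit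 4090882638) (nat_lit 76) (nat_lit 1681402750) (nat_lit 10) (nat_lit 4) (nat_lit 11) (nat_lit 5) (nat_lit 11) (nat_lit 4) (nat_lit 378) (nat_lit 266) (nat_lit 256))))) (XT.nd (nat_lit 234) (nat_lit 76) (nat_lit 0) (XT.nd (nat_lit 78) (nat_lit 0) (nat_lit 0) (XT.lf (nat_lit 0) (nat_lit 6117387809) (nat_lit 152) (nat_lit 36384558756) (nat_lit 0) (nat_lit 3600958261) (nat_lit 8) (nat_lit 5) (nat_lit 10) (nat_lit 4) (nat_lit 8) (nat_lit 4) (nat_lit 379) (nat_lit 266) (nat_lit 255)) (XT.nd (nat_lit 78) (nat_lit 0) (nat_lit 0) (XT.lf (nat_lit 0) (nat_lit 14158725905) (nat_lit 152) (nat_lit 22534126425) (nat_lit 0) (nat_lit 11473602369) (nat_lit 8) (nat_lit 5) (nat_lit 10) (nat_lit 4) (nat_lit 8) (nat_lit 4) (nat_lit 380) (nat_lit 266) (nat_lit 254)) (XT.lf (nat_lit 0) (nat_lit 22398092396) (nat_lit 152) (nat_lit 8388914145) (nat_lit 0) (nat_lit 19552307920) (nat_lit 8) (nat_lit 5) (nat_lit 10) (nat_lit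 4) (nat_lit 8) (nat_lit 4) (nat_lit 381) (nat_lit 266) (nat_lit 253)))) (XT.nd (nat_lit 78) (nat_lit 0) (nat_lit 0) (XT.lf (nat_lit 0) (nat_lit 6205855757) (nat_lit 76) (nat_lit 24708903545) (nat_lit 76) (nat_lit 21710108650) (nat_lit 7) (nat_lit 4) (nat_lit 8) (nat_lit 5) (nat_lit 8) (nat_lit 4) (nat_lit 382) (nat_lit 266) (nat_lit 252)) (XT.nd (nat_lit 78) (nat_lit 0) (nat_lit 0) (XT.lf (nat_lit 0) (nat_lit 21337724470) (nat_lit 76) (nat_lit 18417285713) (nat_lit 76) (nat_lit 15272766610) (nat_lit 7) (nat_lit 4) (nat_lit 8) (nat_lit 5) (nat_lit 8) (nat_lit 4) (nat_lit 383) (nat_lit 266) (nat_lit 251)) (XT.lf (nat_lit 0) (nat_lit 36875764411) (nat_lit 76) (nat_lit 11981884588) (nat_lit 76) (nat_lit 8698580524) (nat_lit 7) (nat_lit 4) (nat_lit 8) (nat_lit 5) (nat_lit 8) (nat_lit 4) (nat_lit 384) (nat_lit 266) (nat_lit 250)))))) (XT.nd (nat_lit 468) (nat_lit 76) (nat_lit 0) (XT.nd (nat_lit 234)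 (nat_lit 0) (nat_lit 0) (XT.nd (nat_lit 78) (nat_lit 152) (nat_lit 0) (XT.lf (nat_lit 0) (nat_lit 52856970914) (nat_lit 76) (nat_lit 5387377786) (nat_lit 76) (nat_lit 1971897569) (nat_lit 7) (nat_lit 4) (nat_lit 8) (nat_lit 5) (nat_lit 8) (nat_lit 4) (nat_lit 385) (nat_lit 266) (nat_lit 249)) (XT.nd (nat_lit 78) (nat_lit 0) (nat_lit 0) (XT.lf (nat_lit 0) (nat_lit 4902938959) (nat_lit 152) (nat_lit 56642807145) (nat_lit 0) (nat_lit 1464723165) (nat_lit 5) (nat_lit 5) (nat_lit 7) (nat_lit 4) (nat_lit 5) (nat_lit 4) (nat_lit 386) (nat_lit 266) (nat_lit 248)) (XT.lf (nat_lit 0) (nat_lit 12050825423) (nat_lit 152) (nat_lit 45397683891) (nat_lit 0) (nat_lit 8496213836) (nat_lit 5) (nat_lit 5) (nat_lit 7) (nat_lit 4) (nat_lit 5) (nat_lit 4) (nat_lit 387) (nat_lit 266) (nat_lit 247)))) (XT.nd (nat_lit 78) (nat_lit 0) (nat_lit 0) (XT.lf (nat_lit 0) (nat_lit 19402608540) (nat_lit 152) (nat_lit 33890550055)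 (nat_lit 0) (nat_lit 15737143816) (nat_lit 5) (nat_lit 5) (nat_lit 7) (nat_lit 4) (nat_lit 5) (nat_lit 4) (nat_lit 388) (nat_lit 266) (nat_lit 246)) (XT.nd (nat_lit 78) (nat_lit 0) (nat_lit 0) (XT.lf (nat_lit 0) (nat_lit 26975792554) (nat_lit 152) (nat_lit 22094007699) (nat_lit 0) (nat_lit 23204753414) (nat_lit 5) (nat_lit 5) (nat_lit 7) (nat_lit 4) (nat_lit 5) (nat_lit 4) (nat_lit 389) (nat_lit 266) (nat_lit 245)) (XT.lf (nat_lit 0) (nat_lit 34788408857) (nat_lit 152) (nat_lit 9979969817) (nat_lit 0) (nat_lit 30916822655) (nat_lit 5) (nat_lit 5) (nat_lit 7) (nat_lit 4) (nat_lit 5) (nat_lit 4) (nat_lit 390) (nat_lit 266) (nat_lit 244))))) (XT.nd (nat_lit 234) (nat_lit 0) (nat_lit 0) (XT.nd (nat_lit 78) (nat_lit 0) (nat_lit 0) (XT.lf (nat_lit 0) (nat_lit 2529771491) (nat_lit 76) (nat_lit 40353605136) (nat_lit 76) (nat_lit 36386259826) (nat_lit 4) (nat_lit 4) (nat_lit 5) (nat_lit 5) (nat_lit 5)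 (nat_lit 4) (nat_lit 391) (nat_lit 266) (nat_lit 243)) (XT.nd (nat_lit 78) (nat_lit 0) (nat_lit 0) (XT.lf (nat_lit 0) (nat_lit 15621623061) (nat_lit 76) (nat_lit 35735500100) (nat_lit 76) (nat_lit 31676955641) (nat_lit 4) (nat_lit 4) (nat_lit 5) (nat_lit 5) (nat_lit 5) (nat_lit 4) (nat_lit 392) (nat_lit 266) (nat_lit 242)) (XT.lf (nat_lit 0) (nat_lit 29128135000) (nat_lit 76) (nat_lit 31003846206) (nat_lit 76) (nat_lit 26858445414) (nat_lit 4) (nat_lit 4) (nat_lit 5) (nat_lit 5) (nat_lit 5) (nat_lit 4) (nat_lit 393) (nat_lit 266) (nat_lit 241)))) (XT.nd (nat_lit 78) (nat_lit 0) (nat_lit 0) (XT.lf (nat_lit 0) (nat_lit 43081465669) (nat_lit 76) (nat_lit 26147377610) (nat_lit 76) (nat_lit 21919256501) (nat_lit 4) (nat_lit 4) (nat_lit 5) (nat_lit 5) (nat_lit 5) (nat_lit 4) (nat_lit 394) (nat_lit 266) (nat_lit 240)) (XT.nd (nat_lit 78) (nat_lit 0) (nat_lit 0) (XT.lf (nat_lit 0) (nat_lit 57514837284)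 (nat_lit 76) (nat_lit 21154531294) (nat_lit 76) (nat_lit 16847628930) (nat_lit 4) (nat_lit 4) (nat_lit 5) (nat_lit 5) (nat_lit 5) (nat_lit 4) (nat_lit 395) (nat_lit 266) (nat_lit 239)) (XT.lf (nat_lit 0) (nat_lit 72462615015) (nat_lit 76) (nat_lit 16013419526) (nat_lit 76) (nat_lit 11631487396) (nat_lit 4) (nat_lit 4) (nat_lit 5) (nat_lit 5) (nat_lit 5) (nat_lit 4) (nat_lit 396) (nat_lit 266) (nat_lit 238))))))))
noncomputable def xc5 : XT := (XT.nd (nat_lit 46254) (nat_lit 0) (nat_lit 0) (XT.nd (nat_lit 45318) (nat_lit 0) (nat_lit 76) (XT.nd (nat_lit 44850) (nat_lit 0) (nat_lit 456) (XT.nd (nat_lit 44616) (nat_lit 0) (nat_lit 760) (XT.nd (nat_lit 44460) (nat_lit 0) (nat_lit 988) (XT.lf (nat_lit 0) (nat_lit 87960388810) (nat_lit 76) (nat_lit 10711801566) (nat_lit 76) (nat_lit 6258412516) (nat_lit 4) (nat_lit 4) (nat_lit 5) (nat_lit 5) (nat_lit 5) (nat_lit 4) (nat_lit 397) (nat_lit 266) (nat_lit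 237)) (XT.nd (nat_lit 78) (nat_lit 152) (nat_lit 0) (XT.lf (nat_lit 0) (nat_lit 10969739766) (nat_lit 76) (nat_lit 1266507768) (nat_lit 76) (nat_lit 1266507768) (nat_lit 19) (nat_lit 4) (nat_lit 20) (nat_lit 5) (nat_lit 20) (nat_lit 4) (nat_lit 366) (nat_lit 267) (nat_lit 267)) (XT.lf (nat_lit 0) (nat_lit 6788792000) (nat_lit 152) (nat_lit 14816985948) (nat_lit 0) (nat_lit 6457750177) (nat_lit 17) (nat_lit 5) (nat_lit 19) (nat_lit 4) (nat_lit 17) (nat_lit 4) (nat_lit 367) (nat_lit 267) (nat_lit 266)))) (XT.nd (nat_lit 78) (nat_lit 152) (nat_lit 0) (XT.lf (nat_lit 0) (nat_lit 2815417728) (nat_lit 76) (nat_lit 13505361963) (nat_lit 76) (nat_lit 12859042212) (nat_lit 16) (nat_lit 4) (nat_lit 17) (nat_lit 5) (nat_lit 17) (nat_lit 4) (nat_lit 368) (nat_lit 267) (nat_lit 265)) (XT.nd (nat_lit 78) (nat_lit 152) (nat_lit 0) (XT.lf (nat_lit 0) (nat_lit 21060546327) (nat_lit 76) (nat_lit 5121208918) (nat_lit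 76) (nat_lit 4174624474) (nat_lit 16) (nat_lit 4) (nat_lit 17) (nat_lit 5) (nat_lit 17) (nat_lit 4) (nat_lit 369) (nat_lit 267) (nat_lit 264)) (XT.lf (nat_lit 0) (nat_lit 4671555625) (nat_lit 152) (nat_lit 23449178625) (nat_lit 0) (nat_lit 3474904345) (nat_lit 14) (nat_lit 5) (nat_lit 16) (nat_lit 4) (nat_lit 14) (nat_lit 4) (nat_lit 370) (nat_lit 267) (nat_lit 263))))) (XT.nd (nat_lit 234) (nat_lit 228) (nat_lit 0) (XT.nd (nat_lit 78) (nat_lit 76) (nat_lit 0) (XT.lf (nat_lit 0) (nat_lit 13740186098) (nat_lit 152) (nat_lit 6880340073) (nat_lit 0) (nat_lit 12279118384) (nat_lit 14) (nat_lit 5) (nat_lit 16) (nat_lit 4) (nat_lit 14) (nat_lit 4) (nat_lit 371) (nat_lit 267) (nat_lit 262)) (XT.nd (nat_lit 78) (nat_lit 0) (nat_lit 0) (XT.lf (nat_lit 0) (nat_lit 10195217768) (nat_lit 76) (nat_lit 12895839635) (nat_lit 76) (nat_lit 11182946746) (nat_lit 13) (nat_lit 4) (nat_lit 14) (nat_lit 5) (nat_lit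 14) (nat_lit 4) (nat_lit 372) (nat_lit 267) (nat_lit 261)) (XT.lf (nat_lit 0) (nat_lit 27762589159) (nat_lit 76) (nat_lit 4956474003) (nat_lit 76) (nat_lit 3003747613) (nat_lit 13) (nat_lit 4) (nat_lit 14) (nat_lit 5) (nat_lit 14) (nat_lit 4) (nat_lit 373) (nat_lit 267) (nat_lit 260)))) (XT.nd (nat_lit 78) (nat_lit 76) (nat_lit 0) (XT.lf (nat_lit 0) (nat_lit 5338327212) (nat_lit 152) (nat_lit 28687532689) (nat_lit 0) (nat_lit 3220716291) (nat_lit 11) (nat_lit 5) (nat_lit 13) (nat_lit 4) (nat_lit 11) (nat_lit 4) (nat_lit 374) (nat_lit 267) (nat_lit 259)) (XT.nd (nat_lit 78) (nat_lit 76) (nat_lit 0) (XT.lf (nat_lit 0) (nat_lit 13922688797) (nat_lit 152) (nat_lit 13332466681) (nat_lit 0) (nat_lit 11593877822) (nat_lit 11) (nat_lit 5) (nat_lit 13) (nat_lit 4) (nat_lit 11) (nat_lit 4) (nat_lit 375) (nat_lit 267) (nat_lit 258)) (XT.lf (nat_lit 0) (nat_lit 2381727337) (nat_lit 76) (nat_lit 20343098578)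 (nat_lit 76) (nat_lit 17813144696) (nat_lit 10) (nat_lit 4) (nat_lit 11) (nat_lit 5) (nat_lit 11) (nat_lit 4) (nat_lit 376) (nat_lit 267) (nat_lit 257)))))) (XT.nd (nat_lit 468) (nat_lit 152) (nat_lit 0) (XT.nd (nat_lit 234) (nat_lit 76) (nat_lit 0) (XT.nd (nat_lit 78) (nat_lit 152) (nat_lit 0) (XT.lf (nat_lit 0) (nat_lit 18718184418) (nat_lit 76) (nat_lit 13158703887) (nat_lit 76) (nat_lit 10437185331) (nat_lit 10) (nat_lit 4) (nat_lit 11) (nat_lit 5) (nat_lit 11) (nat_lit 4) (nat_lit 377) (nat_lit 267) (nat_lit 256)) (XT.nd (nat_lit 78) (nat_lit 152) (nat_lit 0) (XT.lf (nat_lit 0) (nat_lit 35450458658) (nat_lit 76) (nat_lit 5819497476) (nat_lit 76) (nat_lit 2915536372) (nat_lit 10) (nat_lit 4) (nat_lit 11) (nat_lit 5) (nat_lit 11) (nat_lit 4) (nat_lit 378) (nat_lit 267) (nat_lit 255)) (XT.lf (nat_lit 0) (nat_lit 4756878404) (nat_lit 152) (nat_lit 39627217138) (nat_lit 0) (nat_lit 1768804704)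 (nat_lit 8) (nat_lit 5) (nat_lit 10) (nat_lit 4) (nat_lit 8) (nat_lit 4) (nat_lit 379) (nat_lit 267) (nat_lit 254)))) (XT.nd (nat_lit 78) (nat_lit 76) (nat_lit 0) (XT.lf (nat_lit 0) (nat_lit 12698685519) (nat_lit 152) (nat_lit 25970805133) (nat_lit 0) (nat_lit 9549950879) (nat_lit 8) (nat_lit 5) (nat_lit 10) (nat_lit 4) (nat_lit 8) (nat_lit 4) (nat_lit 380) (nat_lit 267) (nat_lit 253)) (XT.nd (nat_lit 78) (nat_lit 76) (nat_lit 0) (XT.lf (nat_lit 0) (nat_lit 20843260600) (nat_lit 152) (nat_lit 12010374116) (nat_lit 0) (nat_lit 17541515541) (nat_lit 8) (nat_lit 5) (nat_lit 10) (nat_lit 4) (nat_lit 8) (nat_lit 4) (nat_lit 381) (nat_lit 267) (nat_lit 252)) (XT.lf (nat_lit 0) (nat_lit 2332837086) (nat_lit 76) (nat_lit 26899583061) (nat_lit 76) (nat_lit 23452113794) (nat_lit 7) (nat_lit 4) (nat_lit 8) (nat_lit 5) (nat_lit 8) (nat_lit 4) (nat_lit 382) (nat_lit 267) (nat_lit 251))))) (XT.nd (nat_lit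 234) (nat_lit 152) (nat_lit 0) (XT.nd (nat_lit 78) (nat_lit 0) (nat_lit 0) (XT.lf (nat_lit 0) (nat_lit 17293768137) (nat_lit 76) (nat_lit 20691281131) (nat_lit 76) (nat_lit 17105026903) (nat_lit 7) (nat_lit 4) (nat_lit 8) (nat_lit 5) (nat_lit 8) (nat_lit 4) (nat_lit 383) (nat_lit 267) (nat_lit 250)) (XT.nd (nat_lit 78) (nat_lit 0) (nat_lit 0) (XT.lf (nat_lit 0) (nat_lit 32669010305) (nat_lit 76) (nat_lit 14335228484) (nat_lit 76) (nat_lit 10616798103) (nat_lit 7) (nat_lit 4) (nat_lit 8) (nat_lit 5) (nat_lit 8) (nat_lit 4) (nat_lit 384) (nat_lit 267) (nat_lit 249)) (XT.lf (nat_lit 0) (nat_lit 48495171310) (nat_lit 76) (nat_lit 7816291661) (nat_lit 76) (nat_lit 3971979229) (nat_lit 7) (nat_lit 4) (nat_lit 8) (nat_lit 5) (nat_lit 8) (nat_lit 4) (nat_lit 385) (nat_lit 267) (nat_lit 248)))) (XT.nd (nat_lit 78) (nat_lit 0) (nat_lit 0) (XT.lf (nat_lit 0) (nat_lit 1732763497) (nat_lit 76) (nat_lit 1073622510)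 (nat_lit 152) (nat_lit 60275924947) (nat_lit 5) (nat_lit 5) (nat_lit 6) (nat_lit 5) (nat_lit 7) (nat_lit 4) (nat_lit 386) (nat_lit 267) (nat_lit 247)) (XT.nd (nat_lit 78) (nat_lit 0) (nat_lit 0) (XT.lf (nat_lit 0) (nat_lit 9869075243) (nat_lit 152) (nat_lit 50240565147) (nat_lit 0) (nat_lit 5909484146) (nat_lit 5) (nat_lit 5) (nat_lit 7) (nat_lit 4) (nat_lit 5) (nat_lit 4) (nat_lit 387) (nat_lit 267) (nat_lit 246)) (XT.lf (nat_lit 0) (nat_lit 17149547014) (nat_lit 152) (nat_lit 38872918224) (nat_lit 0) (nat_lit 13084381502) (nat_lit 5) (nat_lit 5) (nat_lit 7) (nat_lit 4) (nat_lit 5) (nat_lit 4) (nat_lit 388) (nat_lit 267) (nat_lit 245))))))) (XT.nd (nat_lit 45162) (nat_lit 0) (nat_lit 456) (XT.nd (nat_lit 468) (nat_lit 0) (nat_lit 0) (XT.nd (nat_lit 234) (nat_lit 76) (nat_lit 0) (XT.nd (nat_lit 78) (nat_lit 0) (nat_lit 0) (XT.lf (nat_lit 0) (nat_lit 24654815461) (nat_lit 152) (nat_lit 27209220546)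 (nat_lit 0) (nat_lit 20489102886) (nat_lit 5) (nat_lit 5) (nat_lit 7) (nat_lit 4) (nat_lit 5) (nat_lit 4) (nat_lit 389) (nat_lit 267) (nat_lit 244)) (XT.nd (nat_lit 78) (nat_lit 0) (nat_lit 0) (XT.lf (nat_lit 0) (nat_lit 32402750272) (nat_lit 152) (nat_lit 15221701406) (nat_lit 0) (nat_lit 28141278590) (nat_lit 5) (nat_lit 5) (nat_lit 7) (nat_lit 4) (nat_lit 5) (nat_lit 4) (nat_lit 390) (nat_lit 267) (nat_lit 243)) (XT.lf (nat_lit 0) (nat_lit 40411798909) (nat_lit 152) (nat_lit 2881819091) (nat_lit 0) (nat_lit 36059128078) (nat_lit 5) (nat_lit 5) (nat_lit 7) (nat_lit 4) (nat_lit 5) (nat_lit 4) (nat_lit 391) (nat_lit 267) (nat_lit 242)))) (XT.nd (nat_lit 78) (nat_lit 0) (nat_lit 0) (XT.lf (nat_lit 0) (nat_lit 10035638525) (nat_lit 76) (nat_lit 38761860708) (nat_lit 76) (nat_lit 34322333544) (nat_lit 4) (nat_lit 4) (nat_lit 5) (nat_lit 5) (nat_lit 5) (nat_lit 4) (nat_lit 392) (nat_lit 267) (nat_lit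 241)) (XT.nd (nat_lit 78) (nat_lit 0) (nat_lit 0) (XT.lf (nat_lit 0) (nat_lit 23430683700) (nat_lit 76) (nat_lit 34084727787) (nat_lit 76) (nat_lit 29562480305) (nat_lit 4) (nat_lit 4) (nat_lit 5) (nat_lit 5) (nat_lit 5) (nat_lit 4) (nat_lit 393) (nat_lit 267) (nat_lit 240)) (XT.lf (nat_lit 0) (nat_lit 37277855546) (nat_lit 76) (nat_lit 29280183927) (nat_lit 76) (nat_lit 24679155191) (nat_lit 4) (nat_lit 4) (nat_lit 5) (nat_lit 5) (nat_lit 5) (nat_lit 4) (nat_lit 394) (nat_lit 267) (nat_lit 239))))) (XT.nd (nat_lit 44460) (nat_lit 0) (nat_lit 1140) (XT.nd (nat_lit 78) (nat_lit 0) (nat_lit 0) (XT.lf (nat_lit 0) (nat_lit 51610123520) (nat_lit 76) (nat_lit 24336789740) (nat_lit 76) (nat_lit 19660731237) (nat_lit 4) (nat_lit 4) (nat_lit 5) (nat_lit 5) (nat_lit 5) (nat_lit 4) (nat_lit 395) (nat_lit 267) (nat_lit 238)) (XT.nd (nat_lit 78) (nat_lit 0) (nat_lit 0) (XT.lf (nat_lit 0) (nat_lit 66461612069)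 (nat_lit 76) (nat_lit 19242775238) (nat_lit 76) (nat_lit 14495259816) (nat_lit 4) (nat_lit 4) (nat_lit 5) (nat_lit 5) (nat_lit 5) (nat_lit 4) (nat_lit 396) (nat_lit 267) (nat_lit 237)) (XT.lf (nat_lit 0) (nat_lit 81867681882) (nat_lit 76) (nat_lit 13986011817) (nat_lit 76) (nat_lit 9170442184) (nat_lit 4) (nat_lit 4) (nat_lit 5) (nat_lit 5) (nat_lit 5) (nat_lit 4) (nat_lit 397) (nat_lit 267) (nat_lit 236)))) (XT.nd (nat_lit 78) (nat_lit 76) (nat_lit 0) (XT.lf (nat_lit 0) (nat_lit 2519870766) (nat_lit 152) (nat_lit 7481073248) (nat_lit 0) (nat_lit 2519870766) (nat_lit 20) (nat_lit 5) (nat_lit 22) (nat_lit 4) (nat_lit 20) (nat_lit 4) (nat_lit 364) (nat_lit 268) (nat_lit 268)) (XT.nd (nat_lit 78) (nat_lit 0) (nat_lit 0) (XT.lf (nat_lit 0) (nat_lit 3036080029) (nat_lit 76) (nat_lit 11660732515) (nat_lit 76) (nat_lit 11302710782) (nat_lit 19) (nat_lit 4) (nat_lit 20) (nat_lit 5) (nat_lit 20) (nat_lit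 4) (nat_lit 365) (nat_lit 268) (nat_lit 267)) (XT.lf (nat_lit 0) (nat_lit 21646714576) (nat_lit 76) (nat_lit 3031190416) (nat_lit 76) (nat_lit 2332195605) (nat_lit 19) (nat_lit 4) (nat_lit 20) (nat_lit 5) (nat_lit 20) (nat_lit 4) (nat_lit 366) (nat_lit 268) (nat_lit 266)))))) (XT.nd (nat_lit 468) (nat_lit 228) (nat_lit 0) (XT.nd (nat_lit 234) (nat_lit 228) (nat_lit 0) (XT.nd (nat_lit 78) (nat_lit 76) (nat_lit 0) (XT.lf (nat_lit 0) (nat_lit 6827078843) (nat_lit 152) (nat_lit 15412585373) (nat_lit 0) (nat_lit 5833165177) (nat_lit 17) (nat_lit 5) (nat_lit 19) (nat_lit 4) (nat_lit 17) (nat_lit 4) (nat_lit 367) (nat_lit 268) (nat_lit 265)) (XT.nd (nat_lit 78) (nat_lit 0) (nat_lit 0) (XT.lf (nat_lit 0) (nat_lit 1925756566) (nat_lit 76) (nat_lit 14281061335) (nat_lit 76) (nat_lit 12986882976) (nat_lit 16) (nat_lit 4) (nat_lit 17) (nat_lit 5) (nat_lit 17) (nat_lit 4) (nat_lit 368) (nat_lit 268) (nat_lit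 264)) (XT.lf (nat_lit 0) (nat_lit 19902115508) (nat_lit 76) (nat_lit 6026240402) (nat_lit 76) (nat_lit 4446095669) (nat_lit 16) (nat_lit 4) (nat_lit 17) (nat_lit 5) (nat_lit 17) (nat_lit 4) (nat_lit 369) (nat_lit 268) (nat_lit 263)))) (XT.nd (nat_lit 78) (nat_lit 76) (nat_lit 0) (XT.lf (nat_lit 0) (nat_lit 4247154026) (nat_lit 152) (nat_lit 24922774079) (nat_lit 0) (nat_lit 2448616492) (nat_lit 14) (nat_lit 5) (nat_lit 16) (nat_lit 4) (nat_lit 14) (nat_lit 4) (nat_lit 370) (nat_lit 268) (nat_lit 262)) (XT.nd (nat_lit 78) (nat_lit 76) (nat_lit 0) (XT.lf (nat_lit 0) (nat_lit 13184470665) (nat_lit 152) (nat_lit 8607919946) (nat_lit 0) (nat_lit 11134107955) (nat_lit 14) (nat_lit 5) (nat_lit 16) (nat_lit 4) (nat_lit 14) (nat_lit 4) (nat_lit 371) (nat_lit 268) (nat_lit 261)) (XT.lf (nat_lit 0) (nat_lit 8186551662) (nat_lit 76) (nat_lit 14204420987) (nat_lit 76) (nat_lit 11914224776) (nat_lit 13) (nat_lit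 4) (nat_lit 14) (nat_lit 5) (nat_lit 14) (nat_lit 4) (nat_lit 372) (nat_lit 268) (nat_lit 260))))) (XT.nd (nat_lit 234) (nat_lit 76) (nat_lit 0) (XT.nd (nat_lit 78) (nat_lit 152) (nat_lit 0) (XT.lf (nat_lit 0) (nat_lit 25518966856) (nat_lit 76) (nat_lit 6378647491) (nat_lit 76) (nat_lit 3860038422) (nat_lit 13) (nat_lit 4) (nat_lit 14) (nat_lit 5) (nat_lit 14) (nat_lit 4) (nat_lit 373) (nat_lit 268) (nat_lit 259)) (XT.nd (nat_lit 78) (nat_lit 0) (nat_lit 0) (XT.lf (nat_lit 0) (nat_lit 4342489514) (nat_lit 152) (nat_lit 31257832563) (nat_lit 0) (nat_lit 1686037938) (nat_lit 11) (nat_lit 5) (nat_lit 13) (nat_lit 4) (nat_lit 11) (nat_lit 4) (nat_lit 374) (nat_lit 268) (nat_lit 258)) (XT.lf (nat_lit 0) (nat_lit 12812540287) (nat_lit 152) (nat_lit 16124767222) (nat_lit 0) (nat_lit 9954945802) (nat_lit 11) (nat_lit 5) (nat_lit 13) (nat_lit 4) (nat_lit 11) (nat_lit 4) (nat_lit 375) (nat_lit 268) (nat_lit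 257)))) (XT.nd (nat_lit 78) (nat_lit 76) (nat_lit 0) (XT.lf (nat_lit 0) (nat_lit 21482915345) (nat_lit 152) (nat_lit 668478490) (nat_lit 0) (nat_lit 18433756186) (nat_lit 11) (nat_lit 5) (nat_lit 13) (nat_lit 4) (nat_lit 11) (nat_lit 4) (nat_lit 376) (nat_lit 268) (nat_lit 256)) (XT.nd (nat_lit 78) (nat_lit 0) (nat_lit 0) (XT.lf (nat_lit 0) (nat_lit 15449305926) (nat_lit 76) (nat_lit 15073460693) (nat_lit 76) (nat_lit 11841858987) (nat_lit 10) (nat_lit 4) (nat_lit 11) (nat_lit 5) (nat_lit 11) (nat_lit 4) (nat_lit 377) (nat_lit 268) (nat_lit 255)) (XT.lf (nat_lit 0) (nat_lit 31985990993) (nat_lit 76) (nat_lit 7829217354) (nat_lit 76) (nat_lit 4423860841) (nat_lit 10) (nat_lit 4) (nat_lit 11) (nat_lit 5) (nat_lit 11) (nat_lit 4) (nat_lit 378) (nat_lit 268) (nat_lit 254))))))))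
noncomputable def xc6 : XT := (XT.nd (nat_lit 45942) (nat_lit 0) (nat_lit 76) (XT.nd (nat_lit 936) (nat_lit 76) (nat_lit 0) (XT.nd (nat_lit 468) (nat_lit 152) (nat_lit 0) (XT.nd (nat_lit 234) (nat_lit 76) (nat_lit 0) (XT.nd (nat_lit 78) (nat_lit 0) (nat_lit 0) (XT.lf (nat_lit 0) (nat_lit 2778318871) (nat_lit 76) (nat_lit 349344257) (nat_lit 152) (nat_lit 43083763961) (nat_lit 8) (nat_lit 5) (nat_lit 9) (nat_lit 5) (nat_lit 10) (nat_lit 4) (nat_lit 379) (nat_lit 268) (nat_lit 253)) (XT.nd (nat_lit 78) (nat_lit 0) (nat_lit 0) (XT.lf (nat_lit 0) (nat_lit 10971320723) (nat_lit 152) (nat_lit 29958119366) (nat_lit 0) (nat_lit 7351477992) (nat_lit 8) (nat_lit 5) (nat_lit 10) (nat_lit 4) (nat_lit 8) (nat_lit 4) (nat_lit 380) (nat_lit 268) (nat_lit 252)) (XT.lf (nat_lit 0) (nat_lit 19025618271) (nat_lit 152) (nat_lit 16173670504) (nat_lit 0) (nat_lit 15260051331) (nat_lit 8) (nat_lit 5) (nat_lit 10)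 (nat_lit 4) (nat_lit 8) (nat_lit 4) (nat_lit 381) (nat_lit 268) (nat_lit 251)))) (XT.nd (nat_lit 78) (nat_lit 76) (nat_lit 0) (XT.lf (nat_lit 0) (nat_lit 27306374559) (nat_lit 152) (nat_lit 2043583407) (nat_lit 0) (nat_lit 23402022659) (nat_lit 8) (nat_lit 5) (nat_lit 10) (nat_lit 4) (nat_lit 8) (nat_lit 4) (nat_lit 382) (nat_lit 268) (nat_lit 250)) (XT.nd (nat_lit 78) (nat_lit 0) (nat_lit 0) (XT.lf (nat_lit 0) (nat_lit 12713878552) (nat_lit 76) (nat_lit 23241640700) (nat_lit 76) (nat_lit 19205112646) (nat_lit 7) (nat_lit 4) (nat_lit 8) (nat_lit 5) (nat_lit 8) (nat_lit 4) (nat_lit 383) (nat_lit 268) (nat_lit 249)) (XT.lf (nat_lit 0) (nat_lit 27934075222) (nat_lit 76) (nat_lit 16961158031) (nat_lit 76) (nat_lit 12798747927) (nat_lit 7) (nat_lit 4) (nat_lit 8) (nat_lit 5) (nat_lit 8) (nat_lit 4) (nat_lit 384) (nat_lit 268) (nat_lit 248))))) (XT.nd (nat_lit 234) (nat_lit 0) (nat_lit 0) (XT.nd (nat_lit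 78) (nat_lit 152) (nat_lit 0) (XT.lf (nat_lit 0) (nat_lit 43612573847) (nat_lit 76) (nat_lit 10514192616) (nat_lit 76) (nat_lit 6231894845) (nat_lit 7) (nat_lit 4) (nat_lit 8) (nat_lit 5) (nat_lit 8) (nat_lit 4) (nat_lit 385) (nat_lit 268) (nat_lit 247)) (XT.nd (nat_lit 78) (nat_lit 76) (nat_lit 0) (XT.lf (nat_lit 0) (nat_lit 501108914) (nat_lit 152) (nat_lit 3379225405) (nat_lit 76) (nat_lit 59280535055) (nat_lit 6) (nat_lit 5) (nat_lit 8) (nat_lit 5) (nat_lit 7) (nat_lit 4) (nat_lit 386) (nat_lit 268) (nat_lit 246)) (XT.lf (nat_lit 0) (nat_lit 7432049295) (nat_lit 152) (nat_lit 55611538636) (nat_lit 0) (nat_lit 3058051092) (nat_lit 5) (nat_lit 5) (nat_lit 7) (nat_lit 4) (nat_lit 5) (nat_lit 4) (nat_lit 387) (nat_lit 268) (nat_lit 245)))) (XT.nd (nat_lit 78) (nat_lit 0) (nat_lit 0) (XT.lf (nat_lit 0) (nat_lit 14644605499) (nat_lit 152) (nat_lit 44376736392) (nat_lit 0) (nat_lit 10170060233)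 (nat_lit 5) (nat_lit 5) (nat_lit 7) (nat_lit 4) (nat_lit 5) (nat_lit 4) (nat_lit 388) (nat_lit 268) (nat_lit 244)) (XT.nd (nat_lit 78) (nat_lit 0) (nat_lit 0) (XT.lf (nat_lit 0) (nat_lit 22085192455) (nat_lit 152) (nat_lit 32839557457) (nat_lit 0) (nat_lit 17514888081) (nat_lit 5) (nat_lit 5) (nat_lit 7) (nat_lit 4) (nat_lit 5) (nat_lit 4) (nat_lit 389) (nat_lit 268) (nat_lit 243)) (XT.lf (nat_lit 0) (nat_lit 29771525844) (nat_lit 152) (nat_lit 20972532356) (nat_lit 0) (nat_lit 25110022321) (nat_lit 5) (nat_lit 5) (nat_lit 7) (nat_lit 4) (nat_lit 5) (nat_lit 4) (nat_lit 390) (nat_lit 268) (nat_lit 242)))))) (XT.nd (nat_lit 468) (nat_lit 0) (nat_lit 0) (XT.nd (nat_lit 234) (nat_lit 0) (nat_lit 0) (XT.nd (nat_lit 78) (nat_lit 76) (nat_lit 0) (XT.lf (nat_lit 0) (nat_lit 37721906461) (nat_lit 152) (nat_lit 8747406270) (nat_lit 0) (nat_lit 32973546605) (nat_lit 5) (nat_lit 5) (nat_lit 7) (nat_lit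 4) (nat_lit 5) (nat_lit 4) (nat_lit 391) (nat_lit 268) (nat_lit 241)) (XT.nd (nat_lit 78) (nat_lit 0) (nat_lit 0) (XT.lf (nat_lit 0) (nat_lit 3941847896) (nat_lit 76) (nat_lit 42051307341) (nat_lit 76) (nat_lit 37220227168) (nat_lit 4) (nat_lit 4) (nat_lit 5) (nat_lit 5) (nat_lit 5) (nat_lit 4) (nat_lit 392) (nat_lit 268) (nat_lit 240)) (XT.lf (nat_lit 0) (nat_lit 17230734248) (nat_lit 76) (nat_lit 37426099155) (nat_lit 76) (nat_lit 32516237727) (nat_lit 4) (nat_lit 4) (nat_lit 5) (nat_lit 5) (nat_lit 5) (nat_lit 4) (nat_lit 393) (nat_lit 268) (nat_lit 239)))) (XT.nd (nat_lit 78) (nat_lit 0) (nat_lit 0) (XT.lf (nat_lit 0) (nat_lit 30976802452) (nat_lit 76) (nat_lit 32671007425) (nat_lit 76) (nat_lit 27686116231) (nat_lit 4) (nat_lit 4) (nat_lit 5) (nat_lit 5) (nat_lit 5) (nat_lit 4) (nat_lit 394) (nat_lit 268) (nat_lit 238)) (XT.nd (nat_lit 78) (nat_lit 0) (nat_lit 0) (XT.lf (nat_lit 0) (nat_lit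 45212781244) (nat_lit 76) (nat_lit 27774710504) (nat_lit 76) (nat_lit 22718362389) (nat_lit 4) (nat_lit 4) (nat_lit 5) (nat_lit 5) (nat_lit 5) (nat_lit 4) (nat_lit 395) (nat_lit 268) (nat_lit 237)) (XT.lf (nat_lit 0) (nat_lit 59972565811) (nat_lit 76) (nat_lit 22725550541) (nat_lit 76) (nat_lit 17601148217) (nat_lit 4) (nat_lit 4) (nat_lit 5) (nat_lit 5) (nat_lit 5) (nat_lit 4) (nat_lit 396) (nat_lit 268) (nat_lit 236))))) (XT.nd (nat_lit 44304) (nat_lit 0) (nat_lit 1140) (XT.nd (nat_lit 44148) (nat_lit 0) (nat_lit 1368) (XT.lf (nat_lit 0) (nat_lit 75291298497) (nat_lit 76) (nat_lit 17511505728) (nat_lit 76) (nat_lit 12322289871) (nat_lit 4) (nat_lit 4) (nat_lit 5) (nat_lit 5) (nat_lit 5) (nat_lit 4) (nat_lit 397) (nat_lit 268) (nat_lit 235)) (XT.nd (nat_lit 78) (nat_lit 76) (nat_lit 0) (XT.lf (nat_lit 0) (nat_lit 5090614664) (nat_lit 152) (nat_lit 1451490867) (nat_lit 0) (nat_lit 5090614664)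 (nat_lit 23) (nat_lit 5) (nat_lit 25) (nat_lit 4) (nat_lit 23) (nat_lit 4) (nat_lit 362) (nat_lit 269) (nat_lit 269)) (XT.lf (nat_lit 0) (nat_lit 15718540990) (nat_lit 76) (nat_lit 4400743033) (nat_lit 76) (nat_lit 4013542529) (nat_lit 22) (nat_lit 4) (nat_lit 23) (nat_lit 5) (nat_lit 23) (nat_lit 4) (nat_lit 363) (nat_lit 269) (nat_lit 268)))) (XT.nd (nat_lit 78) (nat_lit 76) (nat_lit 0) (XT.lf (nat_lit 0) (nat_lit 5258376898) (nat_lit 152) (nat_lit 15263551158) (nat_lit 0) (nat_lit 4524432347) (nat_lit 20) (nat_lit 5) (nat_lit 22) (nat_lit 4) (nat_lit 20) (nat_lit 4) (nat_lit 364) (nat_lit 269) (nat_lit 267)) (XT.nd (nat_lit 78) (nat_lit 0) (nat_lit 0) (XT.lf (nat_lit 0) (nat_lit 2435911867) (nat_lit 76) (nat_lit 12323969285) (nat_lit 76) (nat_lit 11249051655) (nat_lit 19) (nat_lit 4) (nat_lit 20) (nat_lit 5) (nat_lit 20) (nat_lit 4) (nat_lit 365) (nat_lit 269) (nat_lit 266)) (XT.lf (nat_lit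 0) (nat_lit 20767722645) (nat_lit 76) (nat_lit 3827906373) (nat_lit 76) (nat_lit 2428252478) (nat_lit 19) (nat_lit 4) (nat_lit 20) (nat_lit 5) (nat_lit 20) (nat_lit 4) (nat_lit 366) (nat_lit 269) (nat_lit 265))))))) (XT.nd (nat_lit 936) (nat_lit 380) (nat_lit 0) (XT.nd (nat_lit 468) (nat_lit 228) (nat_lit 0) (XT.nd (nat_lit 234) (nat_lit 228) (nat_lit 0) (XT.nd (nat_lit 78) (nat_lit 76) (nat_lit 0) (XT.lf (nat_lit 0) (nat_lit 6572701864) (nat_lit 152) (nat_lit 16605202318) (nat_lit 0) (nat_lit 4913549895) (nat_lit 17) (nat_lit 5) (nat_lit 19) (nat_lit 4) (nat_lit 17) (nat_lit 4) (nat_lit 367) (nat_lit 269) (nat_lit 264)) (XT.nd (nat_lit 78) (nat_lit 0) (nat_lit 0) (XT.lf (nat_lit 0) (nat_lit 440634548) (nat_lit 76) (nat_lit 15360676505) (nat_lit 76) (nat_lit 13415558162) (nat_lit 16) (nat_lit 4) (nat_lit 17) (nat_lit 5) (nat_lit 17) (nat_lit 4) (nat_lit 368) (nat_lit 269) (nat_lit 263)) (XT.lf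 (nat_lit 0) (nat_lit 18161022388) (nat_lit 76) (nat_lit 7229029012) (nat_lit 76) (nat_lit 5011561741) (nat_lit 16) (nat_lit 4) (nat_lit 17) (nat_lit 5) (nat_lit 17) (nat_lit 4) (nat_lit 369) (nat_lit 269) (nat_lit 262)))) (XT.nd (nat_lit 78) (nat_lit 76) (nat_lit 0) (XT.lf (nat_lit 0) (nat_lit 3532338988) (nat_lit 152) (nat_lit 26990717364) (nat_lit 0) (nat_lit 1127632967) (nat_lit 14) (nat_lit 5) (nat_lit 16) (nat_lit 4) (nat_lit 14) (nat_lit 4) (nat_lit 370) (nat_lit 269) (nat_lit 261)) (XT.nd (nat_lit 78) (nat_lit 76) (nat_lit 0) (XT.lf (nat_lit 0) (nat_lit 12344594832) (nat_lit 152) (nat_lit 10917753154) (nat_lit 0) (nat_lit 9700055310) (nat_lit 14) (nat_lit 5) (nat_lit 16) (nat_lit 4) (nat_lit 14) (nat_lit 4) (nat_lit 371) (nat_lit 269) (nat_lit 260)) (XT.lf (nat_lit 0) (nat_lit 5595792047) (nat_lit 76) (nat_lit 15811295284) (nat_lit 76) (nat_lit 12938342904) (nat_lit 13) (nat_lit 4) (nat_lit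 14) (nat_lit 5) (nat_lit 14) (nat_lit 4) (nat_lit 372) (nat_lit 269) (nat_lit 259))))) (XT.nd (nat_lit 234) (nat_lit 76) (nat_lit 0) (XT.nd (nat_lit 78) (nat_lit 152) (nat_lit 0) (XT.lf (nat_lit 0) (nat_lit 22704439435) (nat_lit 76) (nat_lit 8093704773) (nat_lit 76) (nat_lit 5003216338) (nat_lit 13) (nat_lit 4) (nat_lit 14) (nat_lit 5) (nat_lit 14) (nat_lit 4) (nat_lit 373) (nat_lit 269) (nat_lit 258)) (XT.nd (nat_lit 78) (nat_lit 0) (nat_lit 0) (XT.lf (nat_lit 0) (nat_lit 2922023836) (nat_lit 76) (nat_lit 141862600) (nat_lit 152) (nat_lit 34271249869) (nat_lit 11) (nat_lit 5) (nat_lit 12) (nat_lit 5) (nat_lit 13) (nat_lit 4) (nat_lit 374) (nat_lit 269) (nat_lit 257)) (XT.lf (nat_lit 0) (nat_lit 11423706098) (nat_lit 152) (nat_lit 19490112666) (nat_lit 0) (nat_lit 8030524307) (nat_lit 11) (nat_lit 5) (nat_lit 13) (nat_lit 4) (nat_lit 11) (nat_lit 4) (nat_lit 375) (nat_lit 269) (nat_lit 256))))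 (XT.nd (nat_lit 78) (nat_lit 76) (nat_lit 0) (XT.lf (nat_lit 0) (nat_lit 19990397880) (nat_lit 152) (nat_lit 4235185084) (nat_lit 0) (nat_lit 16414773542) (nat_lit 11) (nat_lit 5) (nat_lit 13) (nat_lit 4) (nat_lit 11) (nat_lit 4) (nat_lit 376) (nat_lit 269) (nat_lit 255)) (XT.nd (nat_lit 78) (nat_lit 0) (nat_lit 0) (XT.lf (nat_lit 0) (nat_lit 11616025704) (nat_lit 76) (nat_lit 17278629638) (nat_lit 76) (nat_lit 13529250493) (nat_lit 10) (nat_lit 4) (nat_lit 11) (nat_lit 5) (nat_lit 11) (nat_lit 4) (nat_lit 377) (nat_lit 269) (nat_lit 254)) (XT.lf (nat_lit 0) (nat_lit 27966435369) (nat_lit 76) (nat_lit 10124827321) (nat_lit 76) (nat_lit 6209967407) (nat_lit 10) (nat_lit 4) (nat_lit 11) (nat_lit 5) (nat_lit 11) (nat_lit 4) (nat_lit 378) (nat_lit 269) (nat_lit 253)))))) (XT.nd (nat_lit 468) (nat_lit 152) (nat_lit 0) (XT.nd (nat_lit 234) (nat_lit 76) (nat_lit 0) (XT.nd (nat_lit 78) (nat_lit 76)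 (nat_lit 0) (XT.lf (nat_lit 0) (nat_lit 1257523251) (nat_lit 152) (nat_lit 1519688445) (nat_lit 76) (nat_lit 43500463198) (nat_lit 9) (nat_lit 5) (nat_lit 11) (nat_lit 5) (nat_lit 10) (nat_lit 4) (nat_lit 379) (nat_lit 269) (nat_lit 252)) (XT.nd (nat_lit 78) (nat_lit 0) (nat_lit 0) (XT.lf (nat_lit 0) (nat_lit 8972518744) (nat_lit 152) (nat_lit 34505562728) (nat_lit 0) (nat_lit 4872949249) (nat_lit 8) (nat_lit 5) (nat_lit 10) (nat_lit 4) (nat_lit 8) (nat_lit 4) (nat_lit 380) (nat_lit 269) (nat_lit 251)) (XT.lf (nat_lit 0) (nat_lit 16940837689) (nat_lit 152) (nat_lit 20888715919) (nat_lit 0) (nat_lit 12702483233) (nat_lit 8) (nat_lit 5) (nat_lit 10) (nat_lit 4) (nat_lit 8) (nat_lit 4) (nat_lit 381) (nat_lit 269) (nat_lit 250)))) (XT.nd (nat_lit 78) (nat_lit 76) (nat_lit 0) (XT.lf (nat_lit 0) (nat_lit 25139709593) (nat_lit 152) (nat_lit 6918249825) (nat_lit 0) (nat_lit 20769178984) (nat_lit 8)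 (nat_lit 5) (nat_lit 10) (nat_lit 4) (nat_lit 8) (nat_lit 4) (nat_lit 382) (nat_lit 269) (nat_lit 249)) (XT.nd (nat_lit 78) (nat_lit 0) (nat_lit 0) (XT.lf (nat_lit 0) (nat_lit 7587151217) (nat_lit 76) (nat_lit 26074436702) (nat_lit 76) (nat_lit 21578024043) (nat_lit 7) (nat_lit 4) (nat_lit 8) (nat_lit 5) (nat_lit 8) (nat_lit 4) (nat_lit 383) (nat_lit 269) (nat_lit 248)) (XT.lf (nat_lit 0) (nat_lit 22659685507) (nat_lit 76) (nat_lit 19865925442) (nat_lit 76) (nat_lit 15249625116) (nat_lit 7) (nat_lit 4) (nat_lit 8) (nat_lit 5) (nat_lit 8) (nat_lit 4) (nat_lit 384) (nat_lit 269) (nat_lit 247))))) (XT.nd (nat_lit 234) (nat_lit 0) (nat_lit 0) (XT.nd (nat_lit 78) (nat_lit 152) (nat_lit 0) (XT.lf (nat_lit 0) (nat_lit 38197553294) (nat_lit 76) (nat_lit 13487504226) (nat_lit 76) (nat_lit 8757025168) (nat_lit 7) (nat_lit 4) (nat_lit 8) (nat_lit 5) (nat_lit 8) (nat_lit 4) (nat_lit 385) (nat_lit 269) (nat_lit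 246)) (XT.nd (nat_lit 78) (nat_lit 152) (nat_lit 0) (XT.lf (nat_lit 0) (nat_lit 54237749502) (nat_lit 76) (nat_lit 6923986335) (nat_lit 76) (nat_lit 2084765630) (nat_lit 7) (nat_lit 4) (nat_lit 8) (nat_lit 5) (nat_lit 8) (nat_lit 4) (nat_lit 386) (nat_lit 269) (nat_lit 245)) (XT.lf (nat_lit 0) (nat_lit 4668415580) (nat_lit 76) (nat_lit 66165582) (nat_lit 152) (nat_lit 61457862834) (nat_lit 5) (nat_lit 5) (nat_lit 6) (nat_lit 5) (nat_lit 7) (nat_lit 4) (nat_lit 387) (nat_lit 269) (nat_lit 244)))) (XT.nd (nat_lit 78) (nat_lit 0) (nat_lit 0) (XT.lf (nat_lit 0) (nat_lit 11881819850) (nat_lit 152) (nat_lit 50415108890) (nat_lit 0) (nat_lit 6987241151) (nat_lit 5) (nat_lit 5) (nat_lit 7) (nat_lit 4) (nat_lit 5) (nat_lit 4) (nat_lit 388) (nat_lit 269) (nat_lit 243)) (XT.nd (nat_lit 78) (nat_lit 0) (nat_lit 0) (XT.lf (nat_lit 0) (nat_lit 19260805384) (nat_lit 152) (nat_lit 38998423995) (nat_lit 0) (nat_lit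 14275027535) (nat_lit 5) (nat_lit 5) (nat_lit 7) (nat_lit 4) (nat_lit 5) (nat_lit 4) (nat_lit 389) (nat_lit 269) (nat_lit 242)) (XT.lf (nat_lit 0) (nat_lit 26888470753) (nat_lit 152) (nat_lit 27246155123) (nat_lit 0) (nat_lit 21815836571) (nat_lit 5) (nat_lit 5) (nat_lit 7) (nat_lit 4) (nat_lit 5) (nat_lit 4) (nat_lit 390) (nat_lit 269) (nat_lit 241))))))))
noncomputable def xc7 : XT := (XT.nd (nat_lit 45786) (nat_lit 0) (nat_lit 0) (XT.nd (nat_lit 44850) (nat_lit 0) (nat_lit 532) (XT.nd (nat_lit 468) (nat_lit 0) (nat_lit 0) (XT.nd (nat_lit 234) (nat_lit 0) (nat_lit 0) (XT.nd (nat_lit 78) (nat_lit 76) (nat_lit 0) (XT.lf (nat_lit 0) (nat_lit 34782977066) (nat_lit 152) (nat_lit 15130320682) (nat_lit 0) (nat_lit 29627622566) (nat_lit 5) (nat_lit 5) (nat_lit 7) (nat_lit 4) (nat_lit 5) (nat_lit 4) (nat_lit 391) (nat_lit 269) (nat_lit 240)) (XT.nd (nat_lit 78) (nat_lit 76) (nat_lit 0) (XT.lf (nat_lit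 0) (nat_lit 42963120765) (nat_lit 152) (nat_lit 2622073448) (nat_lit 0) (nat_lit 37728985011) (nat_lit 5) (nat_lit 5) (nat_lit 7) (nat_lit 4) (nat_lit 5) (nat_lit 4) (nat_lit 392) (nat_lit 269) (nat_lit 239)) (XT.lf (nat_lit 0) (nat_lit 10513524859) (nat_lit 76) (nat_lit 41035915957) (nat_lit 76) (nat_lit 35726750437) (nat_lit 4) (nat_lit 4) (nat_lit 5) (nat_lit 5) (nat_lit 5) (nat_lit 4) (nat_lit 393) (nat_lit 269) (nat_lit 238)))) (XT.nd (nat_lit 78) (nat_lit 0) (nat_lit 0) (XT.lf (nat_lit 0) (nat_lit 24163303881) (nat_lit 76) (nat_lit 36327921493) (nat_lit 76) (nat_lit 30947299053) (nat_lit 4) (nat_lit 4) (nat_lit 5) (nat_lit 5) (nat_lit 5) (nat_lit 4) (nat_lit 394) (nat_lit 269) (nat_lit 237)) (XT.nd (nat_lit 78) (nat_lit 0) (nat_lit 0) (XT.lf (nat_lit 0) (nat_lit 38307578691) (nat_lit 76) (nat_lit 31476479110) (nat_lit 76) (nat_lit 26027802461) (nat_lit 4) (nat_lit 4) (nat_lit 5) (nat_lit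 5) (nat_lit 5) (nat_lit 4) (nat_lit 395) (nat_lit 269) (nat_lit 236)) (XT.lf (nat_lit 0) (nat_lit 52980026131) (nat_lit 76) (nat_lit 26470037757) (nat_lit 76) (nat_lit 20956547574) (nat_lit 4) (nat_lit 4) (nat_lit 5) (nat_lit 5) (nat_lit 5) (nat_lit 4) (nat_lit 396) (nat_lit 269) (nat_lit 235))))) (XT.nd (nat_lit 44148) (nat_lit 0) (nat_lit 1216) (XT.nd (nat_lit 43992) (nat_lit 0) (nat_lit 1444) (XT.lf (nat_lit 0) (nat_lit 68215580601) (nat_lit 76) (nat_lit 21296677333) (nat_lit 76) (nat_lit 15721459976) (nat_lit 4) (nat_lit 4) (nat_lit 5) (nat_lit 5) (nat_lit 5) (nat_lit 4) (nat_lit 397) (nat_lit 269) (nat_lit 234)) (XT.nd (nat_lit 78) (nat_lit 152) (nat_lit 0) (XT.lf (nat_lit 0) (nat_lit 2548740582) (nat_lit 76) (nat_lit 4139905373) (nat_lit 76) (nat_lit 4139905373) (nat_lit 25) (nat_lit 4) (nat_lit 26) (nat_lit 5) (nat_lit 26) (nat_lit 4) (nat_lit 360) (nat_lit 270) (nat_lit 270)) (XT.lf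 (nat_lit 0) (nat_lit 961913321) (nat_lit 152) (nat_lit 20926949897) (nat_lit 0) (nat_lit 555352792) (nat_lit 23) (nat_lit 5) (nat_lit 25) (nat_lit 4) (nat_lit 23) (nat_lit 4) (nat_lit 361) (nat_lit 270) (nat_lit 269)))) (XT.nd (nat_lit 78) (nat_lit 228) (nat_lit 0) (XT.lf (nat_lit 0) (nat_lit 10431588930) (nat_lit 152) (nat_lit 3200722806) (nat_lit 0) (nat_lit 9637827898) (nat_lit 23) (nat_lit 5) (nat_lit 25) (nat_lit 4) (nat_lit 23) (nat_lit 4) (nat_lit 362) (nat_lit 270) (nat_lit 268)) (XT.nd (nat_lit 78) (nat_lit 152) (nat_lit 0) (XT.lf (nat_lit 0) (nat_lit 15125667903) (nat_lit 76) (nat_lit 5089513874) (nat_lit 76) (nat_lit 3926990457) (nat_lit 22) (nat_lit 4) (nat_lit 23) (nat_lit 5) (nat_lit 23) (nat_lit 4) (nat_lit 363) (nat_lit 270) (nat_lit 267)) (XT.lf (nat_lit 0) (nat_lit 5180859004) (nat_lit 152) (nat_lit 16168482772) (nat_lit 0) (nat_lit 3711222415) (nat_lit 20) (nat_lit 5) (nat_lit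 22) (nat_lit 4) (nat_lit 20) (nat_lit 4) (nat_lit 364) (nat_lit 270) (nat_lit 266)))))) (XT.nd (nat_lit 468) (nat_lit 228) (nat_lit 0) (XT.nd (nat_lit 234) (nat_lit 228) (nat_lit 0) (XT.nd (nat_lit 78) (nat_lit 152) (nat_lit 0) (XT.lf (nat_lit 0) (nat_lit 1234146571) (nat_lit 76) (nat_lit 13294000227) (nat_lit 76) (nat_lit 11499627373) (nat_lit 19) (nat_lit 4) (nat_lit 20) (nat_lit 5) (nat_lit 20) (nat_lit 4) (nat_lit 365) (nat_lit 270) (nat_lit 265)) (XT.nd (nat_lit 78) (nat_lit 152) (nat_lit 0) (XT.lf (nat_lit 0) (nat_lit 19300410903) (nat_lit 76) (nat_lit 4925060352) (nat_lit 76) (nat_lit 2821414863) (nat_lit 19) (nat_lit 4) (nat_lit 20) (nat_lit 5) (nat_lit 20) (nat_lit 4) (nat_lit 366) (nat_lit 270) (nat_lit 264)) (XT.lf (nat_lit 0) (nat_lit 6025055404) (nat_lit 152) (nat_lit 18397676346) (nat_lit 0) (nat_lit 3696714769) (nat_lit 17) (nat_lit 5) (nat_lit 19) (nat_lit 4) (nat_lit 17) (nat_lit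 4) (nat_lit 367) (nat_lit 270) (nat_lit 263)))) (XT.nd (nat_lit 78) (nat_lit 228) (nat_lit 0) (XT.lf (nat_lit 0) (nat_lit 15119091833) (nat_lit 152) (nat_lit 1611414030) (nat_lit 0) (nat_lit 12518402271) (nat_lit 17) (nat_lit 5) (nat_lit 19) (nat_lit 4) (nat_lit 17) (nat_lit 4) (nat_lit 368) (nat_lit 270) (nat_lit 262)) (XT.nd (nat_lit 78) (nat_lit 152) (nat_lit 0) (XT.lf (nat_lit 0) (nat_lit 15833121508) (nat_lit 76) (nat_lit 8732438531) (nat_lit 76) (nat_lit 5872369037) (nat_lit 16) (nat_lit 4) (nat_lit 17) (nat_lit 5) (nat_lit 17) (nat_lit 4) (nat_lit 369) (nat_lit 270) (nat_lit 261)) (XT.lf (nat_lit 0) (nat_lit 2029257068) (nat_lit 76) (nat_lit 500967102) (nat_lit 152) (nat_lit 29161780656) (nat_lit 14) (nat_lit 5) (nat_lit 15) (nat_lit 5) (nat_lit 16) (nat_lit 4) (nat_lit 370) (nat_lit 270) (nat_lit 260))))) (XT.nd (nat_lit 234) (nat_lit 152) (nat_lit 0) (XT.nd (nat_lit 78) (nat_lit 76)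 (nat_lit 0) (XT.lf (nat_lit 0) (nat_lit 11218558894) (nat_lit 152) (nat_lit 13815339300) (nat_lit 0) (nat_lit 7973546037) (nat_lit 14) (nat_lit 5) (nat_lit 16) (nat_lit 4) (nat_lit 14) (nat_lit 4) (nat_lit 371) (nat_lit 270) (nat_lit 259)) (XT.nd (nat_lit 78) (nat_lit 0) (nat_lit 0) (XT.lf (nat_lit 0) (nat_lit 2416770448) (nat_lit 76) (nat_lit 17720288417) (nat_lit 76) (nat_lit 14257739505) (nat_lit 13) (nat_lit 4) (nat_lit 14) (nat_lit 5) (nat_lit 14) (nat_lit 4) (nat_lit 372) (nat_lit 270) (nat_lit 258)) (XT.lf (nat_lit 0) (nat_lit 19312305640) (nat_lit 76) (nat_lit 10105729321) (nat_lit 76) (nat_lit 6436003214) (nat_lit 13) (nat_lit 4) (nat_lit 14) (nat_lit 5) (nat_lit 14) (nat_lit 4) (nat_lit 373) (nat_lit 270) (nat_lit 257)))) (XT.nd (nat_lit 78) (nat_lit 76) (nat_lit 0) (XT.lf (nat_lit 0) (nat_lit 1525086663) (nat_lit 152) (nat_lit 771111795) (nat_lit 76) (nat_lit 35096054350) (nat_lit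 12) (nat_lit 5) (nat_lit 14) (nat_lit 5) (nat_lit 13) (nat_lit 4) (nat_lit 374) (nat_lit 270) (nat_lit 256)) (XT.nd (nat_lit 78) (nat_lit 0) (nat_lit 0) (XT.lf (nat_lit 0) (nat_lit 9752879484) (nat_lit 152) (nat_lit 23436515740) (nat_lit 0) (nat_lit 5816031382) (nat_lit 11) (nat_lit 5) (nat_lit 13) (nat_lit 4) (nat_lit 11) (nat_lit 4) (nat_lit 375) (nat_lit 270) (nat_lit 255)) (XT.lf (nat_lit 0) (nat_lit 18220825288) (nat_lit 152) (nat_lit 8373360681) (nat_lit 0) (nat_lit 14110222379) (nat_lit 11) (nat_lit 5) (nat_lit 13) (nat_lit 4) (nat_lit 11) (nat_lit 4) (nat_lit 376) (nat_lit 270) (nat_lit 254))))))) (XT.nd (nat_lit 936) (nat_lit 76) (nat_lit 0) (XT.nd (nat_lit 468) (nat_lit 228) (nat_lit 0) (XT.nd (nat_lit 234) (nat_lit 152) (nat_lit 0) (XT.nd (nat_lit 78) (nat_lit 0) (nat_lit 0) (XT.lf (nat_lit 0) (nat_lit 7209216896) (nat_lit 76) (nat_lit 19779461124) (nat_lit 76) (nat_lit 15503377447)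 (nat_lit 10) (nat_lit 4) (nat_lit 11) (nat_lit 5) (nat_lit 11) (nat_lit 4) (nat_lit 377) (nat_lit 270) (nat_lit 253)) (XT.nd (nat_lit 78) (nat_lit 0) (nat_lit 0) (XT.lf (nat_lit 0) (nat_lit 23382221415) (nat_lit 76) (nat_lit 12711793113) (nat_lit 76) (nat_lit 8278108704) (nat_lit 10) (nat_lit 4) (nat_lit 11) (nat_lit 5) (nat_lit 11) (nat_lit 4) (nat_lit 378) (nat_lit 270) (nat_lit 252)) (XT.lf (nat_lit 0) (nat_lit 40017513733) (nat_lit 76) (nat_lit 5458908680) (nat_lit 76) (nat_lit 875128336) (nat_lit 10) (nat_lit 4) (nat_lit 11) (nat_lit 5) (nat_lit 11) (nat_lit 4) (nat_lit 379) (nat_lit 270) (nat_lit 251)))) (XT.nd (nat_lit 78) (nat_lit 0) (nat_lit 0) (XT.lf (nat_lit 0) (nat_lit 6697520530) (nat_lit 152) (nat_lit 39623962466) (nat_lit 0) (nat_lit 2108463391) (nat_lit 8) (nat_lit 5) (nat_lit 10) (nat_lit 4) (nat_lit 8) (nat_lit 4) (nat_lit 380) (nat_lit 270) (nat_lit 250)) (XT.nd (nat_lit 78)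 (nat_lit 0) (nat_lit 0) (XT.lf (nat_lit 0) (nat_lit 14583955090) (nat_lit 152) (nat_lit 26166736660) (nat_lit 0) (nat_lit 9862721798) (nat_lit 8) (nat_lit 5) (nat_lit 10) (nat_lit 4) (nat_lit 8) (nat_lit 4) (nat_lit 381) (nat_lit 270) (nat_lit 249)) (XT.lf (nat_lit 0) (nat_lit 22704841867) (nat_lit 152) (nat_lit 12348290568) (nat_lit 0) (nat_lit 17857726524) (nat_lit 8) (nat_lit 5) (nat_lit 10) (nat_lit 4) (nat_lit 8) (nat_lit 4) (nat_lit 382) (nat_lit 270) (nat_lit 248))))) (XT.nd (nat_lit 234) (nat_lit 152) (nat_lit 0) (XT.nd (nat_lit 78) (nat_lit 0) (nat_lit 0) (XT.lf (nat_lit 0) (nat_lit 1901379636) (nat_lit 76) (nat_lit 29196413892) (nat_lit 76) (nat_lit 24229410883) (nat_lit 7) (nat_lit 4) (nat_lit 8) (nat_lit 5) (nat_lit 8) (nat_lit 4) (nat_lit 383) (nat_lit 270) (nat_lit 247)) (XT.nd (nat_lit 78) (nat_lit 0) (nat_lit 0) (XT.lf (nat_lit 0) (nat_lit 16833283088) (nat_lit 76) (nat_lit 23056446831)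 (nat_lit 76) (nat_lit 17975265090) (nat_lit 7) (nat_lit 4) (nat_lit 8) (nat_lit 5) (nat_lit 8) (nat_lit 4) (nat_lit 384) (nat_lit 270) (nat_lit 246)) (XT.lf (nat_lit 0) (nat_lit 32237216745) (nat_lit 76) (nat_lit 16743305803) (nat_lit 76) (nat_lit 11553382414) (nat_lit 7) (nat_lit 4) (nat_lit 8) (nat_lit 5) (nat_lit 8) (nat_lit 4) (nat_lit 385) (nat_lit 270) (nat_lit 245)))) (XT.nd (nat_lit 78) (nat_lit 152) (nat_lit 0) (XT.lf (nat_lit 0) (nat_lit 48149856638) (nat_lit 76) (nat_lit 10241959521) (nat_lit 76) (nat_lit 4948472658) (nat_lit 7) (nat_lit 4) (nat_lit 8) (nat_lit 5) (nat_lit 8) (nat_lit 4) (nat_lit 386) (nat_lit 270) (nat_lit 244)) (XT.nd (nat_lit 78) (nat_lit 76) (nat_lit 0) (XT.lf (nat_lit 0) (nat_lit 1818988711) (nat_lit 152) (nat_lit 1699571659) (nat_lit 76) (nat_lit 62771733074) (nat_lit 6) (nat_lit 5) (nat_lit 8) (nat_lit 5) (nat_lit 7) (nat_lit 4) (nat_lit 387) (nat_lit 270)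 (nat_lit 243)) (XT.lf (nat_lit 0) (nat_lit 8854612005) (nat_lit 152) (nat_lit 57002412795) (nat_lit 0) (nat_lit 3528346114) (nat_lit 5) (nat_lit 5) (nat_lit 7) (nat_lit 4) (nat_lit 5) (nat_lit 4) (nat_lit 388) (nat_lit 270) (nat_lit 242)))))) (XT.nd (nat_lit 468) (nat_lit 0) (nat_lit 0) (XT.nd (nat_lit 234) (nat_lit 76) (nat_lit 0) (XT.nd (nat_lit 78) (nat_lit 0) (nat_lit 0) (XT.lf (nat_lit 0) (nat_lit 16174929518) (nat_lit 152) (nat_lit 45700484128) (nat_lit 0) (nat_lit 10761807294) (nat_lit 5) (nat_lit 5) (nat_lit 7) (nat_lit 4) (nat_lit 5) (nat_lit 4) (nat_lit 389) (nat_lit 270) (nat_lit 241)) (XT.nd (nat_lit 78) (nat_lit 0) (nat_lit 0) (XT.lf (nat_lit 0) (nat_lit 23746720583) (nat_lit 152) (nat_lit 34057506902) (nat_lit 0) (nat_lit 18250878041) (nat_lit 5) (nat_lit 5) (nat_lit 7) (nat_lit 4) (nat_lit 5) (nat_lit 4) (nat_lit 390) (nat_lit 270) (nat_lit 240)) (XT.lf (nat_lit 0) (nat_lit 31588013271)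 (nat_lit 152) (nat_lit 22045759744) (nat_lit 0) (nat_lit 26013389475) (nat_lit 5) (nat_lit 5) (nat_lit 7) (nat_lit 4) (nat_lit 5) (nat_lit 4) (nat_lit 391) (nat_lit 270) (nat_lit 239)))) (XT.nd (nat_lit 78) (nat_lit 76) (nat_lit 0) (XT.lf (nat_lit 0) (nat_lit 39717477329) (nat_lit 152) (nat_lit 9636643254) (nat_lit 0) (nat_lit 34067823767) (nat_lit 5) (nat_lit 5) (nat_lit 7) (nat_lit 4) (nat_lit 5) (nat_lit 4) (nat_lit 392) (nat_lit 270) (nat_lit 238)) (XT.nd (nat_lit 78) (nat_lit 0) (nat_lit 0) (XT.lf (nat_lit 0) (nat_lit 3263062177) (nat_lit 76) (nat_lit 44922772994) (nat_lit 76) (nat_lit 39201662512) (nat_lit 4) (nat_lit 4) (nat_lit 5) (nat_lit 5) (nat_lit 5) (nat_lit 4) (nat_lit 393) (nat_lit 270) (nat_lit 237)) (XT.lf (nat_lit 0) (nat_lit 16821137217) (nat_lit 76) (nat_lit 40259633069) (nat_lit 76) (nat_lit 34470468377) (nat_lit 4) (nat_lit 4) (nat_lit 5) (nat_lit 5) (nat_lit 5) (nat_lit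 4) (nat_lit 394) (nat_lit 270) (nat_lit 236))))) (XT.nd (nat_lit 43992) (nat_lit 0) (nat_lit 1596) (XT.nd (nat_lit 78) (nat_lit 0) (nat_lit 0) (XT.lf (nat_lit 0) (nat_lit 30878074900) (nat_lit 76) (nat_lit 35450909295) (nat_lit 76) (nat_lit 29596931070) (nat_lit 4) (nat_lit 4) (nat_lit 5) (nat_lit 5) (nat_lit 5) (nat_lit 4) (nat_lit 395) (nat_lit 270) (nat_lit 235)) (XT.nd (nat_lit 78) (nat_lit 0) (nat_lit 0) (XT.lf (nat_lit 0) (nat_lit 45467344125) (nat_lit 76) (nat_lit 30485152331) (nat_lit 76) (nat_lit 24569446931) (nat_lit 4) (nat_lit 4) (nat_lit 5) (nat_lit 5) (nat_lit 5) (nat_lit 4) (nat_lit 396) (nat_lit 270) (nat_lit 234)) (XT.lf (nat_lit 0) (nat_lit 60623681247) (nat_lit 76) (nat_lit 25350538944) (nat_lit 76) (nat_lit 19376045760) (nat_lit 4) (nat_lit 4) (nat_lit 5) (nat_lit 5) (nat_lit 5) (nat_lit 4) (nat_lit 397) (nat_lit 270) (nat_lit 233)))) (XT.nd (nat_lit 78) (nat_lit 228) (nat_lit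 0) (XT.lf (nat_lit 0) (nat_lit 4863047151) (nat_lit 76) (nat_lit 2618376311) (nat_lit 76) (nat_lit 2618376311) (nat_lit 28) (nat_lit 4) (nat_lit 29) (nat_lit 5) (nat_lit 29) (nat_lit 4) (nat_lit 358) (nat_lit 271) (nat_lit 271)) (XT.nd (nat_lit 78) (nat_lit 76) (nat_lit 0) (XT.lf (nat_lit 0) (nat_lit 4086771916) (nat_lit 152) (nat_lit 13178193919) (nat_lit 0) (nat_lit 3647076704) (nat_lit 26) (nat_lit 5) (nat_lit 28) (nat_lit 4) (nat_lit 26) (nat_lit 4) (nat_lit 359) (nat_lit 271) (nat_lit 270)) (XT.lf (nat_lit 0) (nat_lit 4797559692) (nat_lit 76) (nat_lit 8861375682) (nat_lit 76) (nat_lit 8002923125) (nat_lit 25) (nat_lit 4) (nat_lit 26) (nat_lit 5) (nat_lit 26) (nat_lit 4) (nat_lit 360) (nat_lit 271) (nat_lit 269))))))))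
noncomputable def xc8 : XT := (XT.nd (nat_lit 1794) (nat_lit 304) (nat_lit 0) (XT.nd (nat_lit 858) (nat_lit 456) (nat_lit 0) (XT.nd (nat_lit 390) (nat_lit 456) (nat_lit 0) (XT.nd (nat_lit 156) (nat_lit 228) (nat_lit 0) (XT.nd (nat_lit 78) (nat_lit 0) (nat_lit 0) (XT.lf (nat_lit 0) (nat_lit 914994857) (nat_lit 76) (nat_lit 155085897) (nat_lit 152) (nat_lit 21383723978) (nat_lit 23) (nat_lit 5) (nat_lit 24) (nat_lit 5) (nat_lit 25) (nat_lit 4) (nat_lit 361) (nat_lit 271) (nat_lit 268)) (XT.lf (nat_lit 0) (nat_lit 10389502795) (nat_lit 152) (nat_lit 4094654929) (nat_lit 0) (nat_lit 8800090823) (nat_lit 23) (nat_lit 5) (nat_lit 25) (nat_lit 4) (nat_lit 23) (nat_lit 4) (nat_lit 362) (nat_lit 271) (nat_lit 267))) (XT.nd (nat_lit 78) (nat_lit 152) (nat_lit 0) (XT.lf (nat_lit 0) (nat_lit 13938510126) (nat_lit 76) (nat_lit 6081494982) (nat_lit 76) (nat_lit 4140880739) (nat_lit 22) (nat_lit 4) (nat_lit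 23) (nat_lit 5) (nat_lit 23) (nat_lit 4) (nat_lit 363) (nat_lit 271) (nat_lit 266)) (XT.nd (nat_lit 78) (nat_lit 0) (nat_lit 0) (XT.lf (nat_lit 0) (nat_lit 4807003285) (nat_lit 152) (nat_lit 17679095938) (nat_lit 0) (nat_lit 2598175522) (nat_lit 20) (nat_lit 5) (nat_lit 22) (nat_lit 4) (nat_lit 20) (nat_lit 4) (nat_lit 364) (nat_lit 271) (nat_lit 265)) (XT.lf (nat_lit 0) (nat_lit 14006556892) (nat_lit 152) (nat_lit 560913917) (nat_lit 0) (nat_lit 11488456496) (nat_lit 20) (nat_lit 5) (nat_lit 22) (nat_lit 4) (nat_lit 20) (nat_lit 4) (nat_lit 365) (nat_lit 271) (nat_lit 264))))) (XT.nd (nat_lit 234) (nat_lit 228) (nat_lit 0) (XT.nd (nat_lit 78) (nat_lit 152) (nat_lit 0) (XT.lf (nat_lit 0) (nat_lit 17241285750) (nat_lit 76) (nat_lit 6325264622) (nat_lit 76) (nat_lit 3512618861) (nat_lit 19) (nat_lit 4) (nat_lit 20) (nat_lit 5) (nat_lit 20) (nat_lit 4) (nat_lit 366) (nat_lit 271) (nat_lit 263))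 (XT.nd (nat_lit 78) (nat_lit 0) (nat_lit 0) (XT.lf (nat_lit 0) (nat_lit 5182835542) (nat_lit 152) (nat_lit 20794275253) (nat_lit 0) (nat_lit 2179762574) (nat_lit 17) (nat_lit 5) (nat_lit 19) (nat_lit 4) (nat_lit 17) (nat_lit 4) (nat_lit 367) (nat_lit 271) (nat_lit 262)) (XT.lf (nat_lit 0) (nat_lit 14152741389) (nat_lit 152) (nat_lit 4247037874) (nat_lit 0) (nat_lit 10890288490) (nat_lit 17) (nat_lit 5) (nat_lit 19) (nat_lit 4) (nat_lit 17) (nat_lit 4) (nat_lit 368) (nat_lit 271) (nat_lit 261)))) (XT.nd (nat_lit 78) (nat_lit 152) (nat_lit 0) (XT.lf (nat_lit 0) (nat_lit 12912870247) (nat_lit 76) (nat_lit 10540048504) (nat_lit 76) (nat_lit 7030567099) (nat_lit 16) (nat_lit 4) (nat_lit 17) (nat_lit 5) (nat_lit 17) (nat_lit 4) (nat_lit 369) (nat_lit 271) (nat_lit 260)) (XT.nd (nat_lit 78) (nat_lit 76) (nat_lit 0) (XT.lf (nat_lit 0) (nat_lit 1259260980) (nat_lit 152) (nat_lit 1188446857) (nat_lit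 76) (nat_lit 29294256530) (nat_lit 15) (nat_lit 5) (nat_lit 17) (nat_lit 5) (nat_lit 16) (nat_lit 4) (nat_lit 370) (nat_lit 271) (nat_lit 259)) (XT.lf (nat_lit 0) (nat_lit 9803681813) (nat_lit 152) (nat_lit 17307577399) (nat_lit 0) (nat_lit 5950469400) (nat_lit 14) (nat_lit 5) (nat_lit 16) (nat_lit 4) (nat_lit 14) (nat_lit 4) (nat_lit 371) (nat_lit 271) (nat_lit 258)))))) (XT.nd (nat_lit 468) (nat_lit 152) (nat_lit 0) (XT.nd (nat_lit 234) (nat_lit 228) (nat_lit 0) (XT.nd (nat_lit 78) (nat_lit 76) (nat_lit 0) (XT.lf (nat_lit 0) (nat_lit 18590918091) (nat_lit 152) (nat_lit 1331581156) (nat_lit 0) (nat_lit 14530528483) (nat_lit 14) (nat_lit 5) (nat_lit 16) (nat_lit 4) (nat_lit 14) (nat_lit 4) (nat_lit 372) (nat_lit 271) (nat_lit 257)) (XT.nd (nat_lit 78) (nat_lit 0) (nat_lit 0) (XT.lf (nat_lit 0) (nat_lit 15334488962) (nat_lit 76) (nat_lit 12419511669) (nat_lit 76) (nat_lit 8161810446) (nat_lit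 13) (nat_lit 4) (nat_lit 14) (nat_lit 5) (nat_lit 14) (nat_lit 4) (nat_lit 373) (nat_lit 271) (nat_lit 256)) (XT.lf (nat_lit 0) (nat_lit 32465425676) (nat_lit 76) (nat_lit 4718833722) (nat_lit 76) (nat_lit 273216676) (nat_lit 13) (nat_lit 4) (nat_lit 14) (nat_lit 5) (nat_lit 14) (nat_lit 4) (nat_lit 374) (nat_lit 271) (nat_lit 255)))) (XT.nd (nat_lit 78) (nat_lit 76) (nat_lit 0) (XT.lf (nat_lit 0) (nat_lit 7796082285) (nat_lit 152) (nat_lit 27973372640) (nat_lit 0) (nat_lit 3306194424) (nat_lit 11) (nat_lit 5) (nat_lit 13) (nat_lit 4) (nat_lit 11) (nat_lit 4) (nat_lit 375) (nat_lit 271) (nat_lit 254)) (XT.nd (nat_lit 78) (nat_lit 76) (nat_lit 0) (XT.lf (nat_lit 0) (nat_lit 16169984301) (nat_lit 152) (nat_lit 13092858080) (nat_lit 0) (nat_lit 11514615672) (nat_lit 11) (nat_lit 5) (nat_lit 13) (nat_lit 4) (nat_lit 11) (nat_lit 4) (nat_lit 376) (nat_lit 271) (nat_lit 253)) (XT.lf (nat_lit 0) (nat_lit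 2218387099) (nat_lit 76) (nat_lit 22581909512) (nat_lit 76) (nat_lit 17768940151) (nat_lit 10) (nat_lit 4) (nat_lit 11) (nat_lit 5) (nat_lit 11) (nat_lit 4) (nat_lit 377) (nat_lit 271) (nat_lit 252))))) (XT.nd (nat_lit 234) (nat_lit 0) (nat_lit 0) (XT.nd (nat_lit 78) (nat_lit 152) (nat_lit 0) (XT.lf (nat_lit 0) (nat_lit 18222434336) (nat_lit 76) (nat_lit 15596274174) (nat_lit 76) (nat_lit 10633208877) (nat_lit 10) (nat_lit 4) (nat_lit 11) (nat_lit 5) (nat_lit 11) (nat_lit 4) (nat_lit 378) (nat_lit 271) (nat_lit 251)) (XT.nd (nat_lit 78) (nat_lit 152) (nat_lit 0) (XT.lf (nat_lit 0) (nat_lit 34696814958) (nat_lit 76) (nat_lit 8421516096) (nat_lit 76) (nat_lit 3315502290) (nat_lit 10) (nat_lit 4) (nat_lit 11) (nat_lit 5) (nat_lit 11) (nat_lit 4) (nat_lit 379) (nat_lit 271) (nat_lit 250)) (XT.lf (nat_lit 0) (nat_lit 3182769113) (nat_lit 76) (nat_lit 967439929) (nat_lit 152) (nat_lit 44367364942)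 (nat_lit 8) (nat_lit 5) (nat_lit 9) (nat_lit 5) (nat_lit 10) (nat_lit 4) (nat_lit 380) (nat_lit 271) (nat_lit 249)))) (XT.nd (nat_lit 78) (nat_lit 0) (nat_lit 0) (XT.lf (nat_lit 0) (nat_lit 11949358851) (nat_lit 152) (nat_lit 32020299443) (nat_lit 0) (nat_lit 6734005690) (nat_lit 8) (nat_lit 5) (nat_lit 10) (nat_lit 4) (nat_lit 8) (nat_lit 4) (nat_lit 381) (nat_lit 271) (nat_lit 248)) (XT.nd (nat_lit 78) (nat_lit 0) (nat_lit 0) (XT.lf (nat_lit 0) (nat_lit 19995974077) (nat_lit 152) (nat_lit 18346634305) (nat_lit 0) (nat_lit 14660733250) (nat_lit 8) (nat_lit 5) (nat_lit 10) (nat_lit 4) (nat_lit 8) (nat_lit 4) (nat_lit 382) (nat_lit 271) (nat_lit 247)) (XT.lf (nat_lit 0) (nat_lit 28299913705) (nat_lit 152) (nat_lit 4271953489) (nat_lit 0) (nat_lit 22850494147) (nat_lit 8) (nat_lit 5) (nat_lit 10) (nat_lit 4) (nat_lit 8) (nat_lit 4) (nat_lit 383) (nat_lit 271) (nat_lit 246))))))) (XT.nd (nat_lit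 936) (nat_lit 0) (nat_lit 0) (XT.nd (nat_lit 468) (nat_lit 76) (nat_lit 0) (XT.nd (nat_lit 234) (nat_lit 152) (nat_lit 0) (XT.nd (nat_lit 78) (nat_lit 0) (nat_lit 0) (XT.lf (nat_lit 0) (nat_lit 10440995581) (nat_lit 76) (nat_lit 26540318676) (nat_lit 76) (nat_lit 20982157469) (nat_lit 7) (nat_lit 4) (nat_lit 8) (nat_lit 5) (nat_lit 8) (nat_lit 4) (nat_lit 384) (nat_lit 271) (nat_lit 245)) (XT.nd (nat_lit 78) (nat_lit 0) (nat_lit 0) (XT.lf (nat_lit 0) (nat_lit 25717372922) (nat_lit 76) (nat_lit 20289349256) (nat_lit 76) (nat_lit 14627624576) (nat_lit 7) (nat_lit 4) (nat_lit 8) (nat_lit 5) (nat_lit 8) (nat_lit 4) (nat_lit 385) (nat_lit 271) (nat_lit 244)) (XT.lf (nat_lit 0) (nat_lit 41508530609) (nat_lit 76) (nat_lit 13847214030) (nat_lit 76) (nat_lit 8086857469) (nat_lit 7) (nat_lit 4) (nat_lit 8) (nat_lit 5) (nat_lit 8) (nat_lit 4) (nat_lit 386) (nat_lit 271) (nat_lit 243)))) (XT.nd (nat_lit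 78) (nat_lit 152) (nat_lit 0) (XT.lf (nat_lit 0) (nat_lit 57852066638) (nat_lit 76) (nat_lit 7198574581) (nat_lit 76) (nat_lit 1344282895) (nat_lit 7) (nat_lit 4) (nat_lit 8) (nat_lit 5) (nat_lit 8) (nat_lit 4) (nat_lit 387) (nat_lit 271) (nat_lit 242)) (XT.nd (nat_lit 78) (nat_lit 0) (nat_lit 0) (XT.lf (nat_lit 0) (nat_lit 5338744315) (nat_lit 76) (nat_lit 219136484) (nat_lit 152) (nat_lit 63937302152) (nat_lit 5) (nat_lit 5) (nat_lit 6) (nat_lit 5) (nat_lit 7) (nat_lit 4) (nat_lit 388) (nat_lit 271) (nat_lit 241)) (XT.lf (nat_lit 0) (nat_lit 12820217534) (nat_lit 152) (nat_lit 52961695142) (nat_lit 0) (nat_lit 6966862549) (nat_lit 5) (nat_lit 5) (nat_lit 7) (nat_lit 4) (nat_lit 5) (nat_lit 4) (nat_lit 389) (nat_lit 271) (nat_lit 240))))) (XT.nd (nat_lit 234) (nat_lit 76) (nat_lit 0) (XT.nd (nat_lit 78) (nat_lit 0) (nat_lit 0) (XT.lf (nat_lit 0) (nat_lit 20338794975) (nat_lit 152) (nat_lit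 41422805199) (nat_lit 0) (nat_lit 14406658735) (nat_lit 5) (nat_lit 5) (nat_lit 7) (nat_lit 4) (nat_lit 5) (nat_lit 4) (nat_lit 390) (nat_lit 271) (nat_lit 239)) (XT.nd (nat_lit 78) (nat_lit 0) (nat_lit 0) (XT.lf (nat_lit 0) (nat_lit 28129408022) (nat_lit 152) (nat_lit 29510188785) (nat_lit 0) (nat_lit 22122242015) (nat_lit 5) (nat_lit 5) (nat_lit 7) (nat_lit 4) (nat_lit 5) (nat_lit 4) (nat_lit 391) (nat_lit 271) (nat_lit 238)) (XT.lf (nat_lit 0) (nat_lit 36210605754) (nat_lit 152) (nat_lit 17195482529) (nat_lit 0) (nat_lit 30131982827) (nat_lit 5) (nat_lit 5) (nat_lit 7) (nat_lit 4) (nat_lit 5) (nat_lit 4) (nat_lit 392) (nat_lit 271) (nat_lit 237)))) (XT.nd (nat_lit 78) (nat_lit 76) (nat_lit 0) (XT.lf (nat_lit 0) (nat_lit 44601629118) (nat_lit 152) (nat_lit 4449365700) (nat_lit 0) (nat_lit 38454951982) (nat_lit 5) (nat_lit 5) (nat_lit 7) (nat_lit 4) (nat_lit 5) (nat_lit 4) (nat_lit 393) (nat_lit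 271) (nat_lit 236)) (XT.nd (nat_lit 78) (nat_lit 0) (nat_lit 0) (XT.lf (nat_lit 0) (nat_lit 8932821111) (nat_lit 76) (nat_lit 44475503372) (nat_lit 76) (nat_lit 38264012702) (nat_lit 4) (nat_lit 4) (nat_lit 5) (nat_lit 5) (nat_lit 5) (nat_lit 4) (nat_lit 394) (nat_lit 271) (nat_lit 235)) (XT.lf (nat_lit 0) (nat_lit 22906580578) (nat_lit 76) (nat_lit 39707463987) (nat_lit 76) (nat_lit 33434246143) (nat_lit 4) (nat_lit 4) (nat_lit 5) (nat_lit 5) (nat_lit 5) (nat_lit 4) (nat_lit 395) (nat_lit 271) (nat_lit 234)))))) (XT.nd (nat_lit 44070) (nat_lit 0) (nat_lit 1216) (XT.nd (nat_lit 43836) (nat_lit 0) (nat_lit 1672) (XT.nd (nat_lit 78) (nat_lit 0) (nat_lit 0) (XT.lf (nat_lit 0) (nat_lit 37416632454) (nat_lit 76) (nat_lit 34780454060) (nat_lit 76) (nat_lit 28448448431) (nat_lit 4) (nat_lit 4) (nat_lit 5) (nat_lit 5) (nat_lit 5) (nat_lit 4) (nat_lit 396) (nat_lit 271) (nat_lit 233)) (XT.nd (nat_lit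 43680) (nat_lit 0) (nat_lit 2052) (XT.lf (nat_lit 0) (nat_lit 52497524482) (nat_lit 76) (nat_lit 29682742613) (nat_lit 76) (nat_lit 23294748618) (nat_lit 4) (nat_lit 4) (nat_lit 5) (nat_lit 5) (nat_lit 5) (nat_lit 4) (nat_lit 397) (nat_lit 271) (nat_lit 232)) (XT.lf (nat_lit 0) (nat_lit 5803389071) (nat_lit 152) (nat_lit 1817634048) (nat_lit 152) (nat_lit 1817634048) (nat_lit 31) (nat_lit 4) (nat_lit 33) (nat_lit 5) (nat_lit 33) (nat_lit 4) (nat_lit 356) (nat_lit 272) (nat_lit 272)))) (XT.nd (nat_lit 78) (nat_lit 228) (nat_lit 0) (XT.lf (nat_lit 0) (nat_lit 5683884738) (nat_lit 152) (nat_lit 8631263386) (nat_lit 0) (nat_lit 5208354366) (nat_lit 29) (nat_lit 5) (nat_lit 31) (nat_lit 4) (nat_lit 29) (nat_lit 4) (nat_lit 357) (nat_lit 272) (nat_lit 271)) (XT.nd (nat_lit 78) (nat_lit 152) (nat_lit 0) (XT.lf (nat_lit 0) (nat_lit 9429930541) (nat_lit 76) (nat_lit 5851406062) (nat_lit 76) (nat_lit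 4922989622) (nat_lit 28) (nat_lit 4) (nat_lit 29) (nat_lit 5) (nat_lit 29) (nat_lit 4) (nat_lit 358) (nat_lit 272) (nat_lit 270)) (XT.lf (nat_lit 0) (nat_lit 4230356013) (nat_lit 152) (nat_lit 13781035212) (nat_lit 0) (nat_lit 2910223485) (nat_lit 26) (nat_lit 5) (nat_lit 28) (nat_lit 4) (nat_lit 26) (nat_lit 4) (nat_lit 359) (nat_lit 272) (nat_lit 269))))) (XT.nd (nat_lit 234) (nat_lit 228) (nat_lit 0) (XT.nd (nat_lit 78) (nat_lit 152) (nat_lit 0) (XT.lf (nat_lit 0) (nat_lit 3897081178) (nat_lit 76) (nat_lit 9749002611) (nat_lit 76) (nat_lit 8030053563) (nat_lit 25) (nat_lit 4) (nat_lit 26) (nat_lit 5) (nat_lit 26) (nat_lit 4) (nat_lit 360) (nat_lit 272) (nat_lit 268)) (XT.nd (nat_lit 78) (nat_lit 76) (nat_lit 0) (XT.lf (nat_lit 0) (nat_lit 889894553) (nat_lit 152) (nat_lit 292288360) (nat_lit 76) (nat_lit 21290528635) (nat_lit 24) (nat_lit 5) (nat_lit 26) (nat_lit 5) (nat_lit 25) (nat_lit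 4) (nat_lit 361) (nat_lit 272) (nat_lit 267)) (XT.lf (nat_lit 0) (nat_lit 10054870718) (nat_lit 152) (nat_lit 5586906513) (nat_lit 0) (nat_lit 7666023493) (nat_lit 23) (nat_lit 5) (nat_lit 25) (nat_lit 4) (nat_lit 23) (nat_lit 4) (nat_lit 362) (nat_lit 272) (nat_lit 266)))) (XT.nd (nat_lit 78) (nat_lit 152) (nat_lit 0) (XT.lf (nat_lit 0) (nat_lit 12154241094) (nat_lit 76) (nat_lit 7379048218) (nat_lit 76) (nat_lit 4655722639) (nat_lit 22) (nat_lit 4) (nat_lit 23) (nat_lit 5) (nat_lit 23) (nat_lit 4) (nat_lit 363) (nat_lit 272) (nat_lit 265)) (XT.nd (nat_lit 78) (nat_lit 0) (nat_lit 0) (XT.lf (nat_lit 0) (nat_lit 4135919607) (nat_lit 152) (nat_lit 19798987353) (nat_lit 0) (nat_lit 1182641558) (nat_lit 20) (nat_lit 5) (nat_lit 22) (nat_lit 4) (nat_lit 20) (nat_lit 4) (nat_lit 364) (nat_lit 272) (nat_lit 264)) (XT.lf (nat_lit 0) (nat_lit 13206072437) (nat_lit 152) (nat_lit 2928771693) (nat_lit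 0) (nat_lit 9958249023) (nat_lit 20) (nat_lit 5) (nat_lit 22) (nat_lit 4) (nat_lit 20) (nat_lit 4) (nat_lit 365) (nat_lit 272) (nat_lit 263))))))))
noncomputable def xc9 : XT := (XT.nd (nat_lit 1872) (nat_lit 76) (nat_lit 0) (XT.nd (nat_lit 936) (nat_lit 456) (nat_lit 0) (XT.nd (nat_lit 468) (nat_lit 228) (nat_lit 0) (XT.nd (nat_lit 234) (nat_lit 228) (nat_lit 0) (XT.nd (nat_lit 78) (nat_lit 152) (nat_lit 0) (XT.lf (nat_lit 0) (nat_lit 14585444507) (nat_lit 76) (nat_lit 8031853005) (nat_lit 76) (nat_lit 4503510195) (nat_lit 19) (nat_lit 4) (nat_lit 20) (nat_lit 5) (nat_lit 20) (nat_lit 4) (nat_lit 366) (nat_lit 272) (nat_lit 262)) (XT.nd (nat_lit 78) (nat_lit 0) (nat_lit 0) (XT.lf (nat_lit 0) (nat_lit 4044036993) (nat_lit 152) (nat_lit 23800705226) (nat_lit 0) (nat_lit 359081518) (nat_lit 17) (nat_lit 5) (nat_lit 19) (nat_lit 4) (nat_lit 17) (nat_lit 4) (nat_lit 367) (nat_lit 272) (nat_lit 261))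 (XT.lf (nat_lit 0) (nat_lit 12895723238) (nat_lit 152) (nat_lit 7481110644) (nat_lit 0) (nat_lit 8963739257) (nat_lit 17) (nat_lit 5) (nat_lit 19) (nat_lit 4) (nat_lit 17) (nat_lit 4) (nat_lit 368) (nat_lit 272) (nat_lit 260)))) (XT.nd (nat_lit 78) (nat_lit 152) (nat_lit 0) (XT.lf (nat_lit 0) (nat_lit 9393315625) (nat_lit 76) (nat_lit 12656162766) (nat_lit 76) (nat_lit 8488913542) (nat_lit 16) (nat_lit 4) (nat_lit 17) (nat_lit 5) (nat_lit 17) (nat_lit 4) (nat_lit 369) (nat_lit 272) (nat_lit 259)) (XT.nd (nat_lit 78) (nat_lit 152) (nat_lit 0) (XT.lf (nat_lit 0) (nat_lit 26836090896) (nat_lit 76) (nat_lit 4677873260) (nat_lit 76) (nat_lit 286561899) (nat_lit 16) (nat_lit 4) (nat_lit 17) (nat_lit 5) (nat_lit 17) (nat_lit 4) (nat_lit 370) (nat_lit 272) (nat_lit 258)) (XT.lf (nat_lit 0) (nat_lit 8096594833) (nat_lit 152) (nat_lit 21402782304) (nat_lit 0) (nat_lit 3626008550) (nat_lit 14) (nat_lit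 5) (nat_lit 16) (nat_lit 4) (nat_lit 14) (nat_lit 4) (nat_lit 371) (nat_lit 272) (nat_lit 257))))) (XT.nd (nat_lit 234) (nat_lit 152) (nat_lit 0) (XT.nd (nat_lit 78) (nat_lit 76) (nat_lit 0) (XT.lf (nat_lit 0) (nat_lit 16780943287) (nat_lit 152) (nat_lit 5625789499) (nat_lit 0) (nat_lit 12113045389) (nat_lit 14) (nat_lit 5) (nat_lit 16) (nat_lit 4) (nat_lit 14) (nat_lit 4) (nat_lit 372) (nat_lit 272) (nat_lit 256)) (XT.nd (nat_lit 78) (nat_lit 0) (nat_lit 0) (XT.lf (nat_lit 0) (nat_lit 10761518409) (nat_lit 76) (nat_lit 15040560822) (nat_lit 76) (nat_lit 10184747100) (nat_lit 13) (nat_lit 4) (nat_lit 14) (nat_lit 5) (nat_lit 14) (nat_lit 4) (nat_lit 373) (nat_lit 272) (nat_lit 255)) (XT.lf (nat_lit 0) (nat_lit 27708360794) (nat_lit 76) (nat_lit 7428885285) (nat_lit 76) (nat_lit 2394104112) (nat_lit 13) (nat_lit 4) (nat_lit 14) (nat_lit 5) (nat_lit 14) (nat_lit 4) (nat_lit 374) (nat_lit 272)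 (nat_lit 254)))) (XT.nd (nat_lit 78) (nat_lit 0) (nat_lit 0) (XT.lf (nat_lit 0) (nat_lit 5548655460) (nat_lit 152) (nat_lit 33111485408) (nat_lit 0) (nat_lit 495037631) (nat_lit 11) (nat_lit 5) (nat_lit 13) (nat_lit 4) (nat_lit 11) (nat_lit 4) (nat_lit 375) (nat_lit 272) (nat_lit 253)) (XT.nd (nat_lit 78) (nat_lit 0) (nat_lit 0) (XT.lf (nat_lit 0) (nat_lit 13832991964) (nat_lit 152) (nat_lit 18404914180) (nat_lit 0) (nat_lit 8621773403) (nat_lit 11) (nat_lit 5) (nat_lit 13) (nat_lit 4) (nat_lit 11) (nat_lit 4) (nat_lit 376) (nat_lit 272) (nat_lit 252)) (XT.lf (nat_lit 0) (nat_lit 22356679292) (nat_lit 152) (nat_lit 3302618039) (nat_lit 0) (nat_lit 16995364796) (nat_lit 11) (nat_lit 5) (nat_lit 13) (nat_lit 4) (nat_lit 11) (nat_lit 4) (nat_lit 377) (nat_lit 272) (nat_lit 251)))))) (XT.nd (nat_lit 468) (nat_lit 228) (nat_lit 0) (XT.nd (nat_lit 234) (nat_lit 76) (nat_lit 0) (XT.nd (nat_lit 78)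 (nat_lit 76) (nat_lit 0) (XT.lf (nat_lit 0) (nat_lit 12474788926) (nat_lit 76) (nat_lit 18785138315) (nat_lit 76) (nat_lit 13280875309) (nat_lit 10) (nat_lit 4) (nat_lit 11) (nat_lit 5) (nat_lit 11) (nat_lit 4) (nat_lit 378) (nat_lit 272) (nat_lit 250)) (XT.nd (nat_lit 78) (nat_lit 76) (nat_lit 0) (XT.lf (nat_lit 0) (nat_lit 28795920312) (nat_lit 76) (nat_lit 11684786289) (nat_lit 76) (nat_lit 6044381846) (nat_lit 10) (nat_lit 4) (nat_lit 11) (nat_lit 5) (nat_lit 11) (nat_lit 4) (nat_lit 379) (nat_lit 272) (nat_lit 249)) (XT.lf (nat_lit 0) (nat_lit 1368148495) (nat_lit 152) (nat_lit 2992721509) (nat_lit 76) (nat_lit 44251943268) (nat_lit 9) (nat_lit 5) (nat_lit 11) (nat_lit 5) (nat_lit 10) (nat_lit 4) (nat_lit 380) (nat_lit 272) (nat_lit 248)))) (XT.nd (nat_lit 78) (nat_lit 0) (nat_lit 0) (XT.lf (nat_lit 0) (nat_lit 9030776121) (nat_lit 152) (nat_lit 38463341321) (nat_lit 0) (nat_lit 3308885585)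 (nat_lit 8) (nat_lit 5) (nat_lit 10) (nat_lit 4) (nat_lit 8) (nat_lit 4) (nat_lit 381) (nat_lit 272) (nat_lit 247)) (XT.nd (nat_lit 78) (nat_lit 0) (nat_lit 0) (XT.lf (nat_lit 0) (nat_lit 17006656538) (nat_lit 152) (nat_lit 24927562807) (nat_lit 0) (nat_lit 11170587271) (nat_lit 8) (nat_lit 5) (nat_lit 10) (nat_lit 4) (nat_lit 8) (nat_lit 4) (nat_lit 382) (nat_lit 272) (nat_lit 246)) (XT.lf (nat_lit 0) (nat_lit 25243229681) (nat_lit 152) (nat_lit 10984202585) (nat_lit 0) (nat_lit 19298418766) (nat_lit 8) (nat_lit 5) (nat_lit 10) (nat_lit 4) (nat_lit 8) (nat_lit 4) (nat_lit 383) (nat_lit 272) (nat_lit 245))))) (XT.nd (nat_lit 234) (nat_lit 152) (nat_lit 0) (XT.nd (nat_lit 78) (nat_lit 0) (nat_lit 0) (XT.lf (nat_lit 0) (nat_lit 3467603251) (nat_lit 76) (nat_lit 30325835910) (nat_lit 76) (nat_lit 24277461521) (nat_lit 7) (nat_lit 4) (nat_lit 8) (nat_lit 5) (nat_lit 8) (nat_lit 4) (nat_lit 384)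 (nat_lit 272) (nat_lit 244)) (XT.nd (nat_lit 78) (nat_lit 0) (nat_lit 0) (XT.lf (nat_lit 0) (nat_lit 18622498387) (nat_lit 76) (nat_lit 24134077547) (nat_lit 76) (nat_lit 17987071277) (nat_lit 7) (nat_lit 4) (nat_lit 8) (nat_lit 5) (nat_lit 8) (nat_lit 4) (nat_lit 385) (nat_lit 272) (nat_lit 243)) (XT.lf (nat_lit 0) (nat_lit 34297958737) (nat_lit 76) (nat_lit 17748333803) (nat_lit 76) (nat_lit 11507392409) (nat_lit 7) (nat_lit 4) (nat_lit 8) (nat_lit 5) (nat_lit 8) (nat_lit 4) (nat_lit 386) (nat_lit 272) (nat_lit 242)))) (XT.nd (nat_lit 78) (nat_lit 152) (nat_lit 0) (XT.lf (nat_lit 0) (nat_lit 50531306825) (nat_lit 76) (nat_lit 11153400526) (nat_lit 76) (nat_lit 4822997109) (nat_lit 7) (nat_lit 4) (nat_lit 8) (nat_lit 5) (nat_lit 8) (nat_lit 4) (nat_lit 387) (nat_lit 272) (nat_lit 241)) (XT.nd (nat_lit 78) (nat_lit 76) (nat_lit 0) (XT.lf (nat_lit 0) (nat_lit 2041401947) (nat_lit 152) (nat_lit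 2271559389) (nat_lit 76) (nat_lit 65299177375) (nat_lit 6) (nat_lit 5) (nat_lit 8) (nat_lit 5) (nat_lit 7) (nat_lit 4) (nat_lit 388) (nat_lit 272) (nat_lit 240)) (XT.lf (nat_lit 0) (nat_lit 9188682022) (nat_lit 152) (nat_lit 60799345636) (nat_lit 0) (nat_lit 2881157716) (nat_lit 5) (nat_lit 5) (nat_lit 7) (nat_lit 4) (nat_lit 5) (nat_lit 4) (nat_lit 389) (nat_lit 272) (nat_lit 239))))))) (XT.nd (nat_lit 44382) (nat_lit 0) (nat_lit 912) (XT.nd (nat_lit 468) (nat_lit 0) (nat_lit 0) (XT.nd (nat_lit 234) (nat_lit 76) (nat_lit 0) (XT.nd (nat_lit 78) (nat_lit 0) (nat_lit 0) (XT.lf (nat_lit 0) (nat_lit 16656579821) (nat_lit 152) (nat_lit 49359586437) (nat_lit 0) (nat_lit 10274025748) (nat_lit 5) (nat_lit 5) (nat_lit 7) (nat_lit 4) (nat_lit 5) (nat_lit 4) (nat_lit 390) (nat_lit 272) (nat_lit 238)) (XT.nd (nat_lit 78) (nat_lit 0) (nat_lit 0) (XT.lf (nat_lit 0) (nat_lit 24398926542) (nat_lit 152) (nat_lit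 37541380256) (nat_lit 0) (nat_lit 17944915549) (nat_lit 5) (nat_lit 5) (nat_lit 7) (nat_lit 4) (nat_lit 5) (nat_lit 4) (nat_lit 391) (nat_lit 272) (nat_lit 237)) (XT.lf (nat_lit 0) (nat_lit 32434156346) (nat_lit 152) (nat_lit 25316588508) (nat_lit 0) (nat_lit 25912091143) (nat_lit 5) (nat_lit 5) (nat_lit 7) (nat_lit 4) (nat_lit 5) (nat_lit 4) (nat_lit 392) (nat_lit 272) (nat_lit 236)))) (XT.nd (nat_lit 78) (nat_lit 76) (nat_lit 0) (XT.lf (nat_lit 0) (nat_lit 40781400730) (nat_lit 152) (nat_lit 12656104544) (nat_lit 0) (nat_lit 34194521994) (nat_lit 5) (nat_lit 5) (nat_lit 7) (nat_lit 4) (nat_lit 5) (nat_lit 4) (nat_lit 393) (nat_lit 272) (nat_lit 235)) (XT.nd (nat_lit 78) (nat_lit 0) (nat_lit 0) (XT.lf (nat_lit 0) (nat_lit 479573856) (nat_lit 76) (nat_lit 48985570187) (nat_lit 76) (nat_lit 42336964277) (nat_lit 4) (nat_lit 4) (nat_lit 5) (nat_lit 5) (nat_lit 5) (nat_lit 4) (nat_lit 394) (nat_lit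 272) (nat_lit 234)) (XT.lf (nat_lit 0) (nat_lit 14374115975) (nat_lit 76) (nat_lit 44256277840) (nat_lit 76) (nat_lit 37548884145) (nat_lit 4) (nat_lit 4) (nat_lit 5) (nat_lit 5) (nat_lit 5) (nat_lit 4) (nat_lit 395) (nat_lit 272) (nat_lit 233))))) (XT.nd (nat_lit 43680) (nat_lit 0) (nat_lit 1900) (XT.nd (nat_lit 78) (nat_lit 0) (nat_lit 0) (XT.lf (nat_lit 0) (nat_lit 28808722758) (nat_lit 76) (nat_lit 39366169853) (nat_lit 76) (nat_lit 32602787791) (nat_lit 4) (nat_lit 4) (nat_lit 5) (nat_lit 5) (nat_lit 5) (nat_lit 4) (nat_lit 396) (nat_lit 272) (nat_lit 232)) (XT.nd (nat_lit 43524) (nat_lit 0) (nat_lit 2356) (XT.lf (nat_lit 0) (nat_lit 43817762316) (nat_lit 76) (nat_lit 34303603111) (nat_lit 76) (nat_lit 27486898795) (nat_lit 4) (nat_lit 4) (nat_lit 5) (nat_lit 5) (nat_lit 5) (nat_lit 4) (nat_lit 397) (nat_lit 272) (nat_lit 231)) (XT.lf (nat_lit 0) (nat_lit 5655650664) (nat_lit 152) (nat_lit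 1591135078) (nat_lit 152) (nat_lit 1591135078) (nat_lit 35) (nat_lit 4) (nat_lit 37) (nat_lit 5) (nat_lit 37) (nat_lit 4) (nat_lit 354) (nat_lit 273) (nat_lit 273)))) (XT.nd (nat_lit 78) (nat_lit 304) (nat_lit 0) (XT.lf (nat_lit 0) (nat_lit 6064018305) (nat_lit 152) (nat_lit 6649352656) (nat_lit 0) (nat_lit 5549732208) (nat_lit 33) (nat_lit 5) (nat_lit 35) (nat_lit 4) (nat_lit 33) (nat_lit 4) (nat_lit 355) (nat_lit 273) (nat_lit 272)) (XT.nd (nat_lit 78) (nat_lit 152) (nat_lit 0) (XT.lf (nat_lit 0) (nat_lit 11314388598) (nat_lit 152) (nat_lit 4285853765) (nat_lit 152) (nat_lit 3281771386) (nat_lit 31) (nat_lit 4) (nat_lit 33) (nat_lit 5) (nat_lit 33) (nat_lit 4) (nat_lit 356) (nat_lit 273) (nat_lit 271)) (XT.lf (nat_lit 0) (nat_lit 5867094365) (nat_lit 152) (nat_lit 9226551691) (nat_lit 0) (nat_lit 4439371035) (nat_lit 29) (nat_lit 5) (nat_lit 31) (nat_lit 4) (nat_lit 29) (nat_lit 4) (nat_lit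 357) (nat_lit 273) (nat_lit 270)))))) (XT.nd (nat_lit 468) (nat_lit 456) (nat_lit 0) (XT.nd (nat_lit 234) (nat_lit 228) (nat_lit 0) (XT.nd (nat_lit 78) (nat_lit 228) (nat_lit 0) (XT.lf (nat_lit 0) (nat_lit 8540734107) (nat_lit 76) (nat_lit 6768413397) (nat_lit 76) (nat_lit 4909370002) (nat_lit 28) (nat_lit 4) (nat_lit 29) (nat_lit 5) (nat_lit 29) (nat_lit 4) (nat_lit 358) (nat_lit 273) (nat_lit 269)) (XT.nd (nat_lit 78) (nat_lit 76) (nat_lit 0) (XT.lf (nat_lit 0) (nat_lit 4078170864) (nat_lit 152) (nat_lit 14988153136) (nat_lit 0) (nat_lit 1874457845) (nat_lit 26) (nat_lit 5) (nat_lit 28) (nat_lit 4) (nat_lit 26) (nat_lit 4) (nat_lit 359) (nat_lit 273) (nat_lit 268)) (XT.lf (nat_lit 0) (nat_lit 2393901624) (nat_lit 76) (nat_lit 10944804930) (nat_lit 76) (nat_lit 8361266656) (nat_lit 25) (nat_lit 4) (nat_lit 26) (nat_lit 5) (nat_lit 26) (nat_lit 4) (nat_lit 360) (nat_lit 273) (nat_lit 267))))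 (XT.nd (nat_lit 78) (nat_lit 152) (nat_lit 0) (XT.lf (nat_lit 0) (nat_lit 427249682) (nat_lit 152) (nat_lit 2077959758) (nat_lit 76) (nat_lit 19995582315) (nat_lit 24) (nat_lit 5) (nat_lit 26) (nat_lit 5) (nat_lit 25) (nat_lit 4) (nat_lit 361) (nat_lit 273) (nat_lit 266)) (XT.nd (nat_lit 78) (nat_lit 76) (nat_lit 0) (XT.lf (nat_lit 0) (nat_lit 9426895957) (nat_lit 152) (nat_lit 7681030538) (nat_lit 0) (nat_lit 6232925747) (nat_lit 23) (nat_lit 5) (nat_lit 25) (nat_lit 4) (nat_lit 23) (nat_lit 4) (nat_lit 362) (nat_lit 273) (nat_lit 265)) (XT.lf (nat_lit 0) (nat_lit 9768612546) (nat_lit 76) (nat_lit 8985262994) (nat_lit 76) (nat_lit 5472741971) (nat_lit 22) (nat_lit 4) (nat_lit 23) (nat_lit 5) (nat_lit 23) (nat_lit 4) (nat_lit 363) (nat_lit 273) (nat_lit 264))))) (XT.nd (nat_lit 234) (nat_lit 228) (nat_lit 0) (XT.nd (nat_lit 78) (nat_lit 76) (nat_lit 0) (XT.lf (nat_lit 0) (nat_lit 2621820040)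 (nat_lit 76) (nat_lit 549471974) (nat_lit 152) (nat_lit 21989014264) (nat_lit 20) (nat_lit 5) (nat_lit 21) (nat_lit 5) (nat_lit 22) (nat_lit 4) (nat_lit 364) (nat_lit 273) (nat_lit 263)) (XT.nd (nat_lit 78) (nat_lit 76) (nat_lit 0) (XT.lf (nat_lit 0) (nat_lit 12112924148) (nat_lit 152) (nat_lit 5899147157) (nat_lit 0) (nat_lit 8127644802) (nat_lit 20) (nat_lit 5) (nat_lit 22) (nat_lit 4) (nat_lit 20) (nat_lit 4) (nat_lit 365) (nat_lit 273) (nat_lit 262)) (XT.lf (nat_lit 0) (nat_lit 11326563742) (nat_lit 76) (nat_lit 10048888805) (nat_lit 76) (nat_lit 5796448130) (nat_lit 19) (nat_lit 4) (nat_lit 20) (nat_lit 5) (nat_lit 20) (nat_lit 4) (nat_lit 366) (nat_lit 273) (nat_lit 261)))) (XT.nd (nat_lit 78) (nat_lit 76) (nat_lit 0) (XT.lf (nat_lit 0) (nat_lit 818414850) (nat_lit 76) (nat_lit 1804883123) (nat_lit 152) (nat_lit 25636590950) (nat_lit 17) (nat_lit 5) (nat_lit 18) (nat_lit 5) (nat_lit 19)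 (nat_lit 4) (nat_lit 367) (nat_lit 273) (nat_lit 260)) (XT.nd (nat_lit 78) (nat_lit 76) (nat_lit 0) (XT.lf (nat_lit 0) (nat_lit 11345044480) (nat_lit 152) (nat_lit 11321332515) (nat_lit 0) (nat_lit 6734167551) (nat_lit 17) (nat_lit 5) (nat_lit 19) (nat_lit 4) (nat_lit 17) (nat_lit 4) (nat_lit 368) (nat_lit 273) (nat_lit 259)) (XT.lf (nat_lit 0) (nat_lit 5266077750) (nat_lit 76) (nat_lit 15085819683) (nat_lit 76) (nat_lit 10250880618) (nat_lit 16) (nat_lit 4) (nat_lit 17) (nat_lit 5) (nat_lit 17) (nat_lit 4) (nat_lit 369) (nat_lit 273) (nat_lit 258))))))))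
noncomputable def xc10 : XT := (XT.nd (nat_lit 1872) (nat_lit 76) (nat_lit 0) (XT.nd (nat_lit 936) (nat_lit 228) (nat_lit 0) (XT.nd (nat_lit 468) (nat_lit 228) (nat_lit 0) (XT.nd (nat_lit 234) (nat_lit 228) (nat_lit 0) (XT.nd (nat_lit 78) (nat_lit 152) (nat_lit 0) (XT.lf (nat_lit 0) (nat_lit 22508292965) (nat_lit 76) (nat_lit 7204039791) (nat_lit 76) (nat_lit 2155708213) (nat_lit 16) (nat_lit 4) (nat_lit 17) (nat_lit 5) (nat_lit 17) (nat_lit 4) (nat_lit 370) (nat_lit 273) (nat_lit 257)) (XT.nd (nat_lit 78) (nat_lit 0) (nat_lit 0) (XT.lf (nat_lit 0) (nat_lit 6093233463) (nat_lit 152) (nat_lit 26110704502) (nat_lit 0) (nat_lit 994629055) (nat_lit 14) (nat_lit 5) (nat_lit 16) (nat_lit 4) (nat_lit 14) (nat_lit 4) (nat_lit 371) (nat_lit 273) (nat_lit 256)) (XT.lf (nat_lit 0) (nat_lit 14679593512) (nat_lit 152) (nat_lit 10523238781) (nat_lit 0) (nat_lit 9393073281) (nat_lit 14) (nat_lit 5) (nat_lit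 16) (nat_lit 4) (nat_lit 14) (nat_lit 4) (nat_lit 372) (nat_lit 273) (nat_lit 255)))) (XT.nd (nat_lit 78) (nat_lit 152) (nat_lit 0) (XT.lf (nat_lit 0) (nat_lit 5582505955) (nat_lit 76) (nat_lit 17975117374) (nat_lit 76) (nat_lit 12509629692) (nat_lit 13) (nat_lit 4) (nat_lit 14) (nat_lit 5) (nat_lit 14) (nat_lit 4) (nat_lit 373) (nat_lit 273) (nat_lit 254)) (XT.nd (nat_lit 78) (nat_lit 152) (nat_lit 0) (XT.lf (nat_lit 0) (nat_lit 22354020410) (nat_lit 76) (nat_lit 10448206037) (nat_lit 76) (nat_lit 4812273164) (nat_lit 13) (nat_lit 4) (nat_lit 14) (nat_lit 5) (nat_lit 14) (nat_lit 4) (nat_lit 374) (nat_lit 273) (nat_lit 253)) (XT.lf (nat_lit 0) (nat_lit 354617177) (nat_lit 76) (nat_lit 2676357603) (nat_lit 152) (nat_lit 36212456829) (nat_lit 11) (nat_lit 5) (nat_lit 12) (nat_lit 5) (nat_lit 13) (nat_lit 4) (nat_lit 375) (nat_lit 273) (nat_lit 252))))) (XT.nd (nat_lit 234) (nat_lit 152) (nat_lit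 0) (XT.nd (nat_lit 78) (nat_lit 76) (nat_lit 0) (XT.lf (nat_lit 0) (nat_lit 11204284009) (nat_lit 152) (nat_lit 24322176734) (nat_lit 0) (nat_lit 5424807854) (nat_lit 11) (nat_lit 5) (nat_lit 13) (nat_lit 4) (nat_lit 11) (nat_lit 4) (nat_lit 376) (nat_lit 273) (nat_lit 251)) (XT.nd (nat_lit 78) (nat_lit 76) (nat_lit 0) (XT.lf (nat_lit 0) (nat_lit 19646732777) (nat_lit 152) (nat_lit 9377652323) (nat_lit 0) (nat_lit 13724308112) (nat_lit 11) (nat_lit 5) (nat_lit 13) (nat_lit 4) (nat_lit 11) (nat_lit 4) (nat_lit 377) (nat_lit 273) (nat_lit 250)) (XT.lf (nat_lit 0) (nat_lit 6125600313) (nat_lit 76) (nat_lit 22285978070) (nat_lit 76) (nat_lit 16227411968) (nat_lit 10) (nat_lit 4) (nat_lit 11) (nat_lit 5) (nat_lit 11) (nat_lit 4) (nat_lit 378) (nat_lit 273) (nat_lit 249)))) (XT.nd (nat_lit 78) (nat_lit 152) (nat_lit 0) (XT.lf (nat_lit 0) (nat_lit 22300780048) (nat_lit 76) (nat_lit 15256488951) (nat_lit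 76) (nat_lit 9068264337) (nat_lit 10) (nat_lit 4) (nat_lit 11) (nat_lit 5) (nat_lit 11) (nat_lit 4) (nat_lit 379) (nat_lit 273) (nat_lit 248)) (XT.nd (nat_lit 78) (nat_lit 152) (nat_lit 0) (XT.lf (nat_lit 0) (nat_lit 38999765542) (nat_lit 76) (nat_lit 8013876766) (nat_lit 76) (nat_lit 1702167854) (nat_lit 10) (nat_lit 4) (nat_lit 11) (nat_lit 5) (nat_lit 11) (nat_lit 4) (nat_lit 380) (nat_lit 273) (nat_lit 247)) (XT.lf (nat_lit 0) (nat_lit 5396215141) (nat_lit 76) (nat_lit 429168181) (nat_lit 152) (nat_lit 45086160118) (nat_lit 8) (nat_lit 5) (nat_lit 9) (nat_lit 5) (nat_lit 10) (nat_lit 4) (nat_lit 381) (nat_lit 273) (nat_lit 246)))))) (XT.nd (nat_lit 468) (nat_lit 152) (nat_lit 0) (XT.nd (nat_lit 234) (nat_lit 76) (nat_lit 0) (XT.nd (nat_lit 78) (nat_lit 0) (nat_lit 0) (XT.lf (nat_lit 0) (nat_lit 13729771827) (nat_lit 152) (nat_lit 32106744952) (nat_lit 0) (nat_lit 7378978719) (nat_lit 8)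 (nat_lit 5) (nat_lit 10) (nat_lit 4) (nat_lit 8) (nat_lit 4) (nat_lit 382) (nat_lit 273) (nat_lit 245)) (XT.nd (nat_lit 78) (nat_lit 0) (nat_lit 0) (XT.lf (nat_lit 0) (nat_lit 21902186413) (nat_lit 152) (nat_lit 18288451962) (nat_lit 0) (nat_lit 15447829829) (nat_lit 8) (nat_lit 5) (nat_lit 10) (nat_lit 4) (nat_lit 8) (nat_lit 4) (nat_lit 383) (nat_lit 273) (nat_lit 244)) (XT.lf (nat_lit 0) (nat_lit 30357959782) (nat_lit 152) (nat_lit 4023423203) (nat_lit 0) (nat_lit 23804971318) (nat_lit 8) (nat_lit 5) (nat_lit 10) (nat_lit 4) (nat_lit 8) (nat_lit 4) (nat_lit 384) (nat_lit 273) (nat_lit 243)))) (XT.nd (nat_lit 78) (nat_lit 0) (nat_lit 0) (XT.lf (nat_lit 0) (nat_lit 10935700583) (nat_lit 76) (nat_lit 28286644789) (nat_lit 76) (nat_lit 21639721201) (nat_lit 7) (nat_lit 4) (nat_lit 8) (nat_lit 5) (nat_lit 8) (nat_lit 4) (nat_lit 385) (nat_lit 273) (nat_lit 242)) (XT.nd (nat_lit 78) (nat_lit 0)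 (nat_lit 0) (XT.lf (nat_lit 0) (nat_lit 26500972991) (nat_lit 76) (nat_lit 21954607218) (nat_lit 76) (nat_lit 15218221607) (nat_lit 7) (nat_lit 4) (nat_lit 8) (nat_lit 5) (nat_lit 8) (nat_lit 4) (nat_lit 386) (nat_lit 273) (nat_lit 241)) (XT.lf (nat_lit 0) (nat_lit 42629380183) (nat_lit 76) (nat_lit 15410822677) (nat_lit 76) (nat_lit 8589235139) (nat_lit 7) (nat_lit 4) (nat_lit 8) (nat_lit 5) (nat_lit 8) (nat_lit 4) (nat_lit 387) (nat_lit 273) (nat_lit 240))))) (XT.nd (nat_lit 234) (nat_lit 0) (nat_lit 0) (XT.nd (nat_lit 78) (nat_lit 152) (nat_lit 0) (XT.lf (nat_lit 0) (nat_lit 59359323127) (nat_lit 76) (nat_lit 8639710728) (nat_lit 76) (nat_lit 1736978498) (nat_lit 7) (nat_lit 4) (nat_lit 8) (nat_lit 5) (nat_lit 8) (nat_lit 4) (nat_lit 388) (nat_lit 273) (nat_lit 239)) (XT.nd (nat_lit 78) (nat_lit 0) (nat_lit 0) (XT.lf (nat_lit 0) (nat_lit 3751443493) (nat_lit 76) (nat_lit 1534988222) (nat_lit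 152) (nat_lit 67711863705) (nat_lit 5) (nat_lit 5) (nat_lit 6) (nat_lit 5) (nat_lit 7) (nat_lit 4) (nat_lit 389) (nat_lit 273) (nat_lit 238)) (XT.lf (nat_lit 0) (nat_lit 12691307942) (nat_lit 152) (nat_lit 57886747715) (nat_lit 0) (nat_lit 5843139480) (nat_lit 5) (nat_lit 5) (nat_lit 7) (nat_lit 4) (nat_lit 5) (nat_lit 4) (nat_lit 390) (nat_lit 273) (nat_lit 237)))) (XT.nd (nat_lit 78) (nat_lit 0) (nat_lit 0) (XT.lf (nat_lit 0) (nat_lit 20387686735) (nat_lit 152) (nat_lit 46158456043) (nat_lit 0) (nat_lit 13471464062) (nat_lit 5) (nat_lit 5) (nat_lit 7) (nat_lit 4) (nat_lit 5) (nat_lit 4) (nat_lit 391) (nat_lit 273) (nat_lit 236)) (XT.nd (nat_lit 78) (nat_lit 0) (nat_lit 0) (XT.lf (nat_lit 0) (nat_lit 28379137558) (nat_lit 152) (nat_lit 34019297158) (nat_lit 0) (nat_lit 21398101352) (nat_lit 5) (nat_lit 5) (nat_lit 7) (nat_lit 4) (nat_lit 5) (nat_lit 4) (nat_lit 392) (nat_lit 273) (nat_lit 235))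 (XT.lf (nat_lit 0) (nat_lit 36684687676) (nat_lit 152) (nat_lit 21440368304) (nat_lit 0) (nat_lit 29641924296) (nat_lit 5) (nat_lit 5) (nat_lit 7) (nat_lit 4) (nat_lit 5) (nat_lit 4) (nat_lit 393) (nat_lit 273) (nat_lit 234))))))) (XT.nd (nat_lit 44226) (nat_lit 0) (nat_lit 760) (XT.nd (nat_lit 43758) (nat_lit 0) (nat_lit 1672) (XT.nd (nat_lit 234) (nat_lit 0) (nat_lit 0) (XT.nd (nat_lit 78) (nat_lit 76) (nat_lit 0) (XT.lf (nat_lit 0) (nat_lit 45324112207) (nat_lit 152) (nat_lit 8391719648) (nat_lit 0) (nat_lit 38222561042) (nat_lit 5) (nat_lit 5) (nat_lit 7) (nat_lit 4) (nat_lit 5) (nat_lit 4) (nat_lit 394) (nat_lit 273) (nat_lit 233)) (XT.nd (nat_lit 78) (nat_lit 0) (nat_lit 0) (XT.lf (nat_lit 0) (nat_lit 5260365701) (nat_lit 76) (nat_lit 49108181363) (nat_lit 76) (nat_lit 41950641831) (nat_lit 4) (nat_lit 4) (nat_lit 5) (nat_lit 5) (nat_lit 5) (nat_lit 4) (nat_lit 395) (nat_lit 273) (nat_lit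 232)) (XT.lf (nat_lit 0) (nat_lit 19623120013) (nat_lit 76) (nat_lit 44253218081) (nat_lit 76) (nat_lit 37042356295) (nat_lit 4) (nat_lit 4) (nat_lit 5) (nat_lit 5) (nat_lit 5) (nat_lit 4) (nat_lit 396) (nat_lit 273) (nat_lit 231)))) (XT.nd (nat_lit 43368) (nat_lit 0) (nat_lit 2508) (XT.lf (nat_lit 0) (nat_lit 34563728648) (nat_lit 76) (nat_lit 39224122487) (nat_lit 76) (nat_lit 31962477602) (nat_lit 4) (nat_lit 4) (nat_lit 5) (nat_lit 5) (nat_lit 5) (nat_lit 4) (nat_lit 397) (nat_lit 273) (nat_lit 230)) (XT.nd (nat_lit 78) (nat_lit 152) (nat_lit 0) (XT.lf (nat_lit 0) (nat_lit 4659140826) (nat_lit 152) (nat_lit 1816071088) (nat_lit 152) (nat_lit 1816071088) (nat_lit 39) (nat_lit 4) (nat_lit 41) (nat_lit 5) (nat_lit 41) (nat_lit 4) (nat_lit 352) (nat_lit 274) (nat_lit 274)) (XT.lf (nat_lit 0) (nat_lit 5487600927) (nat_lit 152) (nat_lit 6698287627) (nat_lit 0) (nat_lit 4931400514) (nat_lit 37)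 (nat_lit 5) (nat_lit 39) (nat_lit 4) (nat_lit 37) (nat_lit 4) (nat_lit 353) (nat_lit 274) (nat_lit 273))))) (XT.nd (nat_lit 234) (nat_lit 380) (nat_lit 0) (XT.nd (nat_lit 78) (nat_lit 304) (nat_lit 0) (XT.lf (nat_lit 0) (nat_lit 11022706826) (nat_lit 152) (nat_lit 3871862038) (nat_lit 152) (nat_lit 2785946944) (nat_lit 35) (nat_lit 4) (nat_lit 37) (nat_lit 5) (nat_lit 37) (nat_lit 4) (nat_lit 354) (nat_lit 274) (nat_lit 272)) (XT.nd (nat_lit 78) (nat_lit 152) (nat_lit 0) (XT.lf (nat_lit 0) (nat_lit 6289796049) (nat_lit 152) (nat_lit 7237054798) (nat_lit 0) (nat_lit 4745713267) (nat_lit 33) (nat_lit 5) (nat_lit 35) (nat_lit 4) (nat_lit 33) (nat_lit 4) (nat_lit 355) (nat_lit 274) (nat_lit 271)) (XT.lf (nat_lit 0) (nat_lit 10436523797) (nat_lit 152) (nat_lit 5235077407) (nat_lit 152) (nat_lit 3224521975) (nat_lit 31) (nat_lit 4) (nat_lit 33) (nat_lit 5) (nat_lit 33) (nat_lit 4) (nat_lit 356) (nat_lit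 274) (nat_lit 270)))) (XT.nd (nat_lit 78) (nat_lit 228) (nat_lit 0) (XT.lf (nat_lit 0) (nat_lit 5758419461) (nat_lit 152) (nat_lit 10418545655) (nat_lit 0) (nat_lit 3375103832) (nat_lit 29) (nat_lit 5) (nat_lit 31) (nat_lit 4) (nat_lit 29) (nat_lit 4) (nat_lit 357) (nat_lit 274) (nat_lit 269)) (XT.nd (nat_lit 78) (nat_lit 152) (nat_lit 0) (XT.lf (nat_lit 0) (nat_lit 7056387865) (nat_lit 76) (nat_lit 7989957981) (nat_lit 76) (nat_lit 5195861338) (nat_lit 28) (nat_lit 4) (nat_lit 29) (nat_lit 5) (nat_lit 29) (nat_lit 4) (nat_lit 358) (nat_lit 274) (nat_lit 268)) (XT.lf (nat_lit 0) (nat_lit 3629854121) (nat_lit 152) (nat_lit 16802421780) (nat_lit 0) (nat_lit 537313678) (nat_lit 26) (nat_lit 5) (nat_lit 28) (nat_lit 4) (nat_lit 26) (nat_lit 4) (nat_lit 359) (nat_lit 274) (nat_lit 267)))))) (XT.nd (nat_lit 468) (nat_lit 456) (nat_lit 0) (XT.nd (nat_lit 234) (nat_lit 228) (nat_lit 0) (XT.nd (nat_lit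 78) (nat_lit 152) (nat_lit 0) (XT.lf (nat_lit 0) (nat_lit 284442033) (nat_lit 76) (nat_lit 12451629789) (nat_lit 76) (nat_lit 8997351006) (nat_lit 25) (nat_lit 4) (nat_lit 26) (nat_lit 5) (nat_lit 26) (nat_lit 4) (nat_lit 360) (nat_lit 274) (nat_lit 266)) (XT.nd (nat_lit 78) (nat_lit 152) (nat_lit 0) (XT.lf (nat_lit 0) (nat_lit 18070940653) (nat_lit 76) (nat_lit 4133065256) (nat_lit 76) (nat_lit 334273769) (nat_lit 25) (nat_lit 4) (nat_lit 26) (nat_lit 5) (nat_lit 26) (nat_lit 4) (nat_lit 361) (nat_lit 274) (nat_lit 265)) (XT.lf (nat_lit 0) (nat_lit 8504083334) (nat_lit 152) (nat_lit 10382013014) (nat_lit 0) (nat_lit 4497385448) (nat_lit 23) (nat_lit 5) (nat_lit 25) (nat_lit 4) (nat_lit 23) (nat_lit 4) (nat_lit 362) (nat_lit 274) (nat_lit 264)))) (XT.nd (nat_lit 78) (nat_lit 152) (nat_lit 0) (XT.lf (nat_lit 0) (nat_lit 6775944415) (nat_lit 76) (nat_lit 10903963630) (nat_lit 76) (nat_lit 6593884018)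 (nat_lit 22) (nat_lit 4) (nat_lit 23) (nat_lit 5) (nat_lit 23) (nat_lit 4) (nat_lit 363) (nat_lit 274) (nat_lit 263)) (XT.nd (nat_lit 78) (nat_lit 76) (nat_lit 0) (XT.lf (nat_lit 0) (nat_lit 1926901897) (nat_lit 152) (nat_lit 687403738) (nat_lit 76) (nat_lit 22597861849) (nat_lit 21) (nat_lit 5) (nat_lit 23) (nat_lit 5) (nat_lit 22) (nat_lit 4) (nat_lit 364) (nat_lit 274) (nat_lit 262)) (XT.lf (nat_lit 0) (nat_lit 10724509289) (nat_lit 152) (nat_lit 9479112632) (nat_lit 0) (nat_lit 5992285251) (nat_lit 20) (nat_lit 5) (nat_lit 22) (nat_lit 4) (nat_lit 20) (nat_lit 4) (nat_lit 365) (nat_lit 274) (nat_lit 261))))) (XT.nd (nat_lit 234) (nat_lit 228) (nat_lit 0) (XT.nd (nat_lit 78) (nat_lit 152) (nat_lit 0) (XT.lf (nat_lit 0) (nat_lit 7456884216) (nat_lit 76) (nat_lit 12381174489) (nat_lit 76) (nat_lit 7394511090) (nat_lit 19) (nat_lit 4) (nat_lit 20) (nat_lit 5) (nat_lit 20) (nat_lit 4) (nat_lit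 366) (nat_lit 274) (nat_lit 260)) (XT.nd (nat_lit 78) (nat_lit 76) (nat_lit 0) (XT.lf (nat_lit 0) (nat_lit 939011555) (nat_lit 152) (nat_lit 3322793141) (nat_lit 76) (nat_lit 24062744443) (nat_lit 18) (nat_lit 5) (nat_lit 20) (nat_lit 5) (nat_lit 19) (nat_lit 4) (nat_lit 367) (nat_lit 274) (nat_lit 259)) (XT.lf (nat_lit 0) (nat_lit 9497013022) (nat_lit 152) (nat_lit 15776846871) (nat_lit 0) (nat_lit 4196264866) (nat_lit 17) (nat_lit 5) (nat_lit 19) (nat_lit 4) (nat_lit 17) (nat_lit 4) (nat_lit 368) (nat_lit 274) (nat_lit 258)))) (XT.nd (nat_lit 78) (nat_lit 152) (nat_lit 0) (XT.lf (nat_lit 0) (nat_lit 521329866) (nat_lit 76) (nat_lit 17834804154) (nat_lit 76) (nat_lit 12320663487) (nat_lit 16) (nat_lit 4) (nat_lit 17) (nat_lit 5) (nat_lit 17) (nat_lit 4) (nat_lit 369) (nat_lit 274) (nat_lit 257)) (XT.nd (nat_lit 78) (nat_lit 152) (nat_lit 0) (XT.lf (nat_lit 0) (nat_lit 17572535503) (nat_lit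 76) (nat_lit 10044938178) (nat_lit 76) (nat_lit 4327566548) (nat_lit 16) (nat_lit 4) (nat_lit 17) (nat_lit 5) (nat_lit 17) (nat_lit 4) (nat_lit 370) (nat_lit 274) (nat_lit 256)) (XT.lf (nat_lit 0) (nat_lit 1819203011) (nat_lit 76) (nat_lit 1988741786) (nat_lit 152) (nat_lit 29472928548) (nat_lit 14) (nat_lit 5) (nat_lit 15) (nat_lit 5) (nat_lit 16) (nat_lit 4) (nat_lit 371) (nat_lit 274) (nat_lit 255))))))))
noncomputable def xc11 : XT := (XT.nd (nat_lit 1872) (nat_lit 76) (nat_lit 0) (XT.nd (nat_lit 936) (nat_lit 228) (nat_lit 0) (XT.nd (nat_lit 468) (nat_lit 228) (nat_lit 0) (XT.nd (nat_lit 234) (nat_lit 152) (nat_lit 0) (XT.nd (nat_lit 78) (nat_lit 76) (nat_lit 0) (XT.lf (nat_lit 0) (nat_lit 12281865553) (nat_lit 152) (nat_lit 16035589595) (nat_lit 0) (nat_lit 6364136035) (nat_lit 14) (nat_lit 5) (nat_lit 16) (nat_lit 4) (nat_lit 14) (nat_lit 4) (nat_lit 372) (nat_lit 274) (nat_lit 254))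 (XT.nd (nat_lit 78) (nat_lit 76) (nat_lit 0) (XT.lf (nat_lit 0) (nat_lit 21017354536) (nat_lit 152) (nat_lit 210686309) (nat_lit 0) (nat_lit 14929179828) (nat_lit 14) (nat_lit 5) (nat_lit 16) (nat_lit 4) (nat_lit 14) (nat_lit 4) (nat_lit 373) (nat_lit 274) (nat_lit 253)) (XT.lf (nat_lit 0) (nat_lit 16389656092) (nat_lit 76) (nat_lit 13783984837) (nat_lit 76) (nat_lit 7533481375) (nat_lit 13) (nat_lit 4) (nat_lit 14) (nat_lit 5) (nat_lit 14) (nat_lit 4) (nat_lit 374) (nat_lit 274) (nat_lit 252)))) (XT.nd (nat_lit 78) (nat_lit 76) (nat_lit 0) (XT.lf (nat_lit 0) (nat_lit 276495892) (nat_lit 152) (nat_lit 5843815613) (nat_lit 76) (nat_lit 33219123794) (nat_lit 12) (nat_lit 5) (nat_lit 14) (nat_lit 5) (nat_lit 13) (nat_lit 4) (nat_lit 375) (nat_lit 274) (nat_lit 251)) (XT.nd (nat_lit 78) (nat_lit 0) (nat_lit 0) (XT.lf (nat_lit 0) (nat_lit 8277601608) (nat_lit 152) (nat_lit 30858734462) (nat_lit 0)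 (nat_lit 1916107201) (nat_lit 11) (nat_lit 5) (nat_lit 13) (nat_lit 4) (nat_lit 11) (nat_lit 4) (nat_lit 376) (nat_lit 274) (nat_lit 250)) (XT.lf (nat_lit 0) (nat_lit 16642680319) (nat_lit 152) (nat_lit 16064468841) (nat_lit 0) (nat_lit 10145044474) (nat_lit 11) (nat_lit 5) (nat_lit 13) (nat_lit 4) (nat_lit 11) (nat_lit 4) (nat_lit 377) (nat_lit 274) (nat_lit 249))))) (XT.nd (nat_lit 234) (nat_lit 152) (nat_lit 0) (XT.nd (nat_lit 78) (nat_lit 76) (nat_lit 0) (XT.lf (nat_lit 0) (nat_lit 25274957140) (nat_lit 152) (nat_lit 823852339) (nat_lit 0) (nat_lit 18647662782) (nat_lit 11) (nat_lit 5) (nat_lit 13) (nat_lit 4) (nat_lit 11) (nat_lit 4) (nat_lit 378) (nat_lit 274) (nat_lit 248)) (XT.nd (nat_lit 78) (nat_lit 0) (nat_lit 0) (XT.lf (nat_lit 0) (nat_lit 15195929544) (nat_lit 76) (nat_lit 19145128136) (nat_lit 76) (nat_lit 12394349482) (nat_lit 10) (nat_lit 4) (nat_lit 11) (nat_lit 5) (nat_lit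 11) (nat_lit 4) (nat_lit 379) (nat_lit 274) (nat_lit 247)) (XT.lf (nat_lit 0) (nat_lit 31762532588) (nat_lit 76) (nat_lit 11966790697) (nat_lit 76) (nat_lit 5098407950) (nat_lit 10) (nat_lit 4) (nat_lit 11) (nat_lit 5) (nat_lit 11) (nat_lit 4) (nat_lit 380) (nat_lit 274) (nat_lit 246)))) (XT.nd (nat_lit 78) (nat_lit 76) (nat_lit 0) (XT.lf (nat_lit 0) (nat_lit 2378033932) (nat_lit 152) (nat_lit 2152977762) (nat_lit 76) (nat_lit 46496957396) (nat_lit 9) (nat_lit 5) (nat_lit 11) (nat_lit 5) (nat_lit 10) (nat_lit 4) (nat_lit 381) (nat_lit 274) (nat_lit 245)) (XT.nd (nat_lit 78) (nat_lit 0) (nat_lit 0) (XT.lf (nat_lit 0) (nat_lit 10157517838) (nat_lit 152) (nat_lit 39901274030) (nat_lit 0) (nat_lit 3276879951) (nat_lit 8) (nat_lit 5) (nat_lit 10) (nat_lit 4) (nat_lit 8) (nat_lit 4) (nat_lit 382) (nat_lit 274) (nat_lit 244)) (XT.lf (nat_lit 0) (nat_lit 18268829035) (nat_lit 152) (nat_lit 26202092689)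 (nat_lit 0) (nat_lit 11289559268) (nat_lit 8) (nat_lit 5) (nat_lit 10) (nat_lit 4) (nat_lit 8) (nat_lit 4) (nat_lit 383) (nat_lit 274) (nat_lit 243)))))) (XT.nd (nat_lit 468) (nat_lit 76) (nat_lit 0) (XT.nd (nat_lit 234) (nat_lit 76) (nat_lit 0) (XT.nd (nat_lit 78) (nat_lit 76) (nat_lit 0) (XT.lf (nat_lit 0) (nat_lit 26666408702) (nat_lit 152) (nat_lit 12050503597) (nat_lit 0) (nat_lit 19593203810) (nat_lit 8) (nat_lit 5) (nat_lit 10) (nat_lit 4) (nat_lit 8) (nat_lit 4) (nat_lit 384) (nat_lit 274) (nat_lit 242)) (XT.nd (nat_lit 78) (nat_lit 0) (nat_lit 0) (XT.lf (nat_lit 0) (nat_lit 2638677609) (nat_lit 76) (nat_lit 32756938048) (nat_lit 76) (nat_lit 25594271134) (nat_lit 7) (nat_lit 4) (nat_lit 8) (nat_lit 5) (nat_lit 8) (nat_lit 4) (nat_lit 385) (nat_lit 274) (nat_lit 241)) (XT.lf (nat_lit 0) (nat_lit 18099009121) (nat_lit 76) (nat_lit 26476049213) (nat_lit 76) (nat_lit 19228180372) (nat_lit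 7) (nat_lit 4) (nat_lit 8) (nat_lit 5) (nat_lit 8) (nat_lit 4) (nat_lit 386) (nat_lit 274) (nat_lit 240)))) (XT.nd (nat_lit 78) (nat_lit 76) (nat_lit 0) (XT.lf (nat_lit 0) (nat_lit 34127472602) (nat_lit 76) (nat_lit 19980977754) (nat_lit 76) (nat_lit 12651964221) (nat_lit 7) (nat_lit 4) (nat_lit 8) (nat_lit 5) (nat_lit 8) (nat_lit 4) (nat_lit 387) (nat_lit 274) (nat_lit 239)) (XT.nd (nat_lit 78) (nat_lit 76) (nat_lit 0) (XT.lf (nat_lit 0) (nat_lit 50762231060) (nat_lit 76) (nat_lit 13256259216) (nat_lit 76) (nat_lit 5849965024) (nat_lit 7) (nat_lit 4) (nat_lit 8) (nat_lit 5) (nat_lit 8) (nat_lit 4) (nat_lit 388) (nat_lit 274) (nat_lit 238)) (XT.lf (nat_lit 0) (nat_lit 1170712971) (nat_lit 152) (nat_lit 5103347487) (nat_lit 76) (nat_lit 66860356185) (nat_lit 6) (nat_lit 5) (nat_lit 8) (nat_lit 5) (nat_lit 7) (nat_lit 4) (nat_lit 389) (nat_lit 274) (nat_lit 237))))) (XT.nd (nat_lit 234) (nat_lit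 0) (nat_lit 0) (XT.nd (nat_lit 78) (nat_lit 0) (nat_lit 0) (XT.lf (nat_lit 0) (nat_lit 8433538215) (nat_lit 152) (nat_lit 67024591798) (nat_lit 0) (nat_lit 1103450200) (nat_lit 5) (nat_lit 5) (nat_lit 7) (nat_lit 4) (nat_lit 5) (nat_lit 4) (nat_lit 390) (nat_lit 274) (nat_lit 236)) (XT.nd (nat_lit 78) (nat_lit 0) (nat_lit 0) (XT.lf (nat_lit 0) (nat_lit 16086138028) (nat_lit 152) (nat_lit 55381932990) (nat_lit 0) (nat_lit 8691236479) (nat_lit 5) (nat_lit 5) (nat_lit 7) (nat_lit 4) (nat_lit 5) (nat_lit 4) (nat_lit 391) (nat_lit 274) (nat_lit 235)) (XT.lf (nat_lit 0) (nat_lit 24035894584) (nat_lit 152) (nat_lit 43324329215) (nat_lit 0) (nat_lit 16579265861) (nat_lit 5) (nat_lit 5) (nat_lit 7) (nat_lit 4) (nat_lit 5) (nat_lit 4) (nat_lit 392) (nat_lit 274) (nat_lit 234)))) (XT.nd (nat_lit 78) (nat_lit 0) (nat_lit 0) (XT.lf (nat_lit 0) (nat_lit 32301735877) (nat_lit 152) (nat_lit 30823071893) (nat_lit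 0) (nat_lit 24786319368) (nat_lit 5) (nat_lit 5) (nat_lit 7) (nat_lit 4) (nat_lit 5) (nat_lit 4) (nat_lit 393) (nat_lit 274) (nat_lit 233)) (XT.nd (nat_lit 78) (nat_lit 0) (nat_lit 0) (XT.lf (nat_lit 0) (nat_lit 40903342479) (nat_lit 152) (nat_lit 17848396126) (nat_lit 0) (nat_lit 33331937604) (nat_lit 5) (nat_lit 5) (nat_lit 7) (nat_lit 4) (nat_lit 5) (nat_lit 4) (nat_lit 394) (nat_lit 274) (nat_lit 232)) (XT.lf (nat_lit 0) (nat_lit 49861194408) (nat_lit 152) (nat_lit 4369409827) (nat_lit 0) (nat_lit 42236467279) (nat_lit 5) (nat_lit 5) (nat_lit 7) (nat_lit 4) (nat_lit 5) (nat_lit 4) (nat_lit 395) (nat_lit 274) (nat_lit 231))))))) (XT.nd (nat_lit 44148) (nat_lit 0) (nat_lit 760) (XT.nd (nat_lit 43680) (nat_lit 0) (nat_lit 1672) (XT.nd (nat_lit 43446) (nat_lit 0) (nat_lit 2356) (XT.nd (nat_lit 43290) (nat_lit 0) (nat_lit 2812) (XT.lf (nat_lit 0) (nat_lit 9837953738) (nat_lit 76) (nat_lit 49453234573)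 (nat_lit 76) (nat_lit 41777724344) (nat_lit 4) (nat_lit 4) (nat_lit 5) (nat_lit 5) (nat_lit 5) (nat_lit 4) (nat_lit 396) (nat_lit 274) (nat_lit 230)) (XT.nd (nat_lit 78) (nat_lit 152) (nat_lit 0) (XT.lf (nat_lit 0) (nat_lit 3013741283) (nat_lit 152) (nat_lit 2389735657) (nat_lit 152) (nat_lit 2389735657) (nat_lit 43) (nat_lit 4) (nat_lit 45) (nat_lit 5) (nat_lit 45) (nat_lit 4) (nat_lit 350) (nat_lit 275) (nat_lit 275)) (XT.lf (nat_lit 0) (nat_lit 4172428104) (nat_lit 152) (nat_lit 8330858902) (nat_lit 0) (nat_lit 3570897356) (nat_lit 41) (nat_lit 5) (nat_lit 43) (nat_lit 4) (nat_lit 41) (nat_lit 4) (nat_lit 351) (nat_lit 275) (nat_lit 274)))) (XT.nd (nat_lit 78) (nat_lit 304) (nat_lit 0) (XT.lf (nat_lit 0) (nat_lit 9033507664) (nat_lit 152) (nat_lit 4364063287) (nat_lit 152) (nat_lit 3189646114) (nat_lit 39) (nat_lit 4) (nat_lit 41) (nat_lit 5) (nat_lit 41) (nat_lit 4) (nat_lit 352) (nat_lit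 275) (nat_lit 273)) (XT.nd (nat_lit 78) (nat_lit 152) (nat_lit 0) (XT.lf (nat_lit 0) (nat_lit 5759132143) (nat_lit 152) (nat_lit 7278361743) (nat_lit 0) (nat_lit 4089206616) (nat_lit 37) (nat_lit 5) (nat_lit 39) (nat_lit 4) (nat_lit 37) (nat_lit 4) (nat_lit 353) (nat_lit 275) (nat_lit 272)) (XT.lf (nat_lit 0) (nat_lit 10156236190) (nat_lit 152) (nat_lit 4856364475) (nat_lit 152) (nat_lit 2681948776) (nat_lit 35) (nat_lit 4) (nat_lit 37) (nat_lit 5) (nat_lit 37) (nat_lit 4) (nat_lit 354) (nat_lit 275) (nat_lit 271))))) (XT.nd (nat_lit 234) (nat_lit 228) (nat_lit 0) (XT.nd (nat_lit 78) (nat_lit 304) (nat_lit 0) (XT.lf (nat_lit 0) (nat_lit 6227603006) (nat_lit 152) (nat_lit 8413858373) (nat_lit 0) (nat_lit 3650047152) (nat_lit 33) (nat_lit 5) (nat_lit 35) (nat_lit 4) (nat_lit 33) (nat_lit 4) (nat_lit 355) (nat_lit 275) (nat_lit 270)) (XT.nd (nat_lit 78) (nat_lit 152) (nat_lit 0) (XT.lf (nat_lit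 0) (nat_lit 8971093588) (nat_lit 152) (nat_lit 6485199077) (nat_lit 152) (nat_lit 3463383557) (nat_lit 31) (nat_lit 4) (nat_lit 33) (nat_lit 5) (nat_lit 33) (nat_lit 4) (nat_lit 356) (nat_lit 275) (nat_lit 269)) (XT.lf (nat_lit 0) (nat_lit 5357601277) (nat_lit 152) (nat_lit 12210083357) (nat_lit 0) (nat_lit 2013018787) (nat_lit 29) (nat_lit 5) (nat_lit 31) (nat_lit 4) (nat_lit 29) (nat_lit 4) (nat_lit 357) (nat_lit 275) (nat_lit 268)))) (XT.nd (nat_lit 78) (nat_lit 152) (nat_lit 0) (XT.lf (nat_lit 0) (nat_lit 4973357658) (nat_lit 76) (nat_lit 9518948253) (nat_lit 76) (nat_lit 5783145749) (nat_lit 28) (nat_lit 4) (nat_lit 29) (nat_lit 5) (nat_lit 29) (nat_lit 4) (nat_lit 358) (nat_lit 275) (nat_lit 267)) (XT.nd (nat_lit 78) (nat_lit 0) (nat_lit 0) (XT.lf (nat_lit 0) (nat_lit 1768793470) (nat_lit 76) (nat_lit 1126372274) (nat_lit 152) (nat_lit 18112615935) (nat_lit 26) (nat_lit 5) (nat_lit 27)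 (nat_lit 5) (nat_lit 28) (nat_lit 4) (nat_lit 359) (nat_lit 275) (nat_lit 266)) (XT.lf (nat_lit 0) (nat_lit 11860164147) (nat_lit 152) (nat_lit 2388778737) (nat_lit 0) (nat_lit 7526920382) (nat_lit 26) (nat_lit 5) (nat_lit 28) (nat_lit 4) (nat_lit 26) (nat_lit 4) (nat_lit 360) (nat_lit 275) (nat_lit 265)))))) (XT.nd (nat_lit 468) (nat_lit 380) (nat_lit 0) (XT.nd (nat_lit 234) (nat_lit 228) (nat_lit 0) (XT.nd (nat_lit 78) (nat_lit 228) (nat_lit 0) (XT.lf (nat_lit 0) (nat_lit 15115182180) (nat_lit 76) (nat_lit 6065658973) (nat_lit 76) (nat_lit 1404307872) (nat_lit 25) (nat_lit 4) (nat_lit 26) (nat_lit 5) (nat_lit 26) (nat_lit 4) (nat_lit 361) (nat_lit 275) (nat_lit 264)) (XT.nd (nat_lit 78) (nat_lit 76) (nat_lit 0) (XT.lf (nat_lit 0) (nat_lit 7284235676) (nat_lit 152) (nat_lit 13696284851) (nat_lit 0) (nat_lit 2455270356) (nat_lit 23) (nat_lit 5) (nat_lit 25) (nat_lit 4) (nat_lit 23) (nat_lit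 4) (nat_lit 362) (nat_lit 275) (nat_lit 263)) (XT.lf (nat_lit 0) (nat_lit 3169111301) (nat_lit 76) (nat_lit 13139718463) (nat_lit 76) (nat_lit 8021818166) (nat_lit 22) (nat_lit 4) (nat_lit 23) (nat_lit 5) (nat_lit 23) (nat_lit 4) (nat_lit 363) (nat_lit 275) (nat_lit 262)))) (XT.nd (nat_lit 78) (nat_lit 152) (nat_lit 0) (XT.lf (nat_lit 0) (nat_lit 412619457) (nat_lit 152) (nat_lit 4555458968) (nat_lit 76) (nat_lit 20304792202) (nat_lit 21) (nat_lit 5) (nat_lit 23) (nat_lit 5) (nat_lit 22) (nat_lit 4) (nat_lit 364) (nat_lit 275) (nat_lit 261)) (XT.nd (nat_lit 78) (nat_lit 76) (nat_lit 0) (XT.lf (nat_lit 0) (nat_lit 9037522112) (nat_lit 152) (nat_lit 13677191844) (nat_lit 0) (nat_lit 3547086183) (nat_lit 20) (nat_lit 5) (nat_lit 22) (nat_lit 4) (nat_lit 20) (nat_lit 4) (nat_lit 365) (nat_lit 275) (nat_lit 260)) (XT.lf (nat_lit 0) (nat_lit 2967192406) (nat_lit 76) (nat_lit 15034263118) (nat_lit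 76) (nat_lit 9301503988) (nat_lit 19) (nat_lit 4) (nat_lit 20) (nat_lit 5) (nat_lit 20) (nat_lit 4) (nat_lit 366) (nat_lit 275) (nat_lit 259))))) (XT.nd (nat_lit 234) (nat_lit 228) (nat_lit 0) (XT.nd (nat_lit 78) (nat_lit 152) (nat_lit 0) (XT.lf (nat_lit 0) (nat_lit 20323391517) (nat_lit 76) (nat_lit 7019236668) (nat_lit 76) (nat_lit 1055693536) (nat_lit 19) (nat_lit 4) (nat_lit 20) (nat_lit 5) (nat_lit 20) (nat_lit 4) (nat_lit 367) (nat_lit 275) (nat_lit 258)) (XT.nd (nat_lit 78) (nat_lit 0) (nat_lit 0) (XT.lf (nat_lit 0) (nat_lit 7347228791) (nat_lit 152) (nat_lit 20858262079) (nat_lit 0) (nat_lit 1343988579) (nat_lit 17) (nat_lit 5) (nat_lit 19) (nat_lit 4) (nat_lit 17) (nat_lit 4) (nat_lit 368) (nat_lit 275) (nat_lit 257)) (XT.lf (nat_lit 0) (nat_lit 16104078888) (nat_lit 152) (nat_lit 4757540658) (nat_lit 0) (nat_lit 9897607713) (nat_lit 17) (nat_lit 5) (nat_lit 19) (nat_lit 4) (nat_lit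 17) (nat_lit 4) (nat_lit 369) (nat_lit 275) (nat_lit 256)))) (XT.nd (nat_lit 78) (nat_lit 152) (nat_lit 0) (XT.lf (nat_lit 0) (nat_lit 12017066707) (nat_lit 76) (nat_lit 13207332467) (nat_lit 76) (nat_lit 6807307994) (nat_lit 16) (nat_lit 4) (nat_lit 17) (nat_lit 5) (nat_lit 17) (nat_lit 4) (nat_lit 370) (nat_lit 275) (nat_lit 255)) (XT.nd (nat_lit 78) (nat_lit 76) (nat_lit 0) (XT.lf (nat_lit 0) (nat_lit 1268325966) (nat_lit 152) (nat_lit 4009659235) (nat_lit 76) (nat_lit 28093524276) (nat_lit 15) (nat_lit 5) (nat_lit 17) (nat_lit 5) (nat_lit 16) (nat_lit 4) (nat_lit 371) (nat_lit 275) (nat_lit 254)) (XT.lf (nat_lit 0) (nat_lit 9582050533) (nat_lit 152) (nat_lit 22175966587) (nat_lit 0) (nat_lit 3019021898) (nat_lit 14) (nat_lit 5) (nat_lit 16) (nat_lit 4) (nat_lit 14) (nat_lit 4) (nat_lit 372) (nat_lit 275) (nat_lit 253))))))))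
noncomputable def xc12 : XT := (XT.nd (nat_lit 44928) (nat_lit 0) (nat_lit 836) (XT.nd (nat_lit 936) (nat_lit 228) (nat_lit 0) (XT.nd (nat_lit 468) (nat_lit 228) (nat_lit 0) (XT.nd (nat_lit 234) (nat_lit 152) (nat_lit 0) (XT.nd (nat_lit 78) (nat_lit 76) (nat_lit 0) (XT.lf (nat_lit 0) (nat_lit 18232893448) (nat_lit 152) (nat_lit 6514783921) (nat_lit 0) (nat_lit 11507536059) (nat_lit 14) (nat_lit 5) (nat_lit 16) (nat_lit 4) (nat_lit 14) (nat_lit 4) (nat_lit 373) (nat_lit 275) (nat_lit 252)) (XT.nd (nat_lit 78) (nat_lit 0) (nat_lit 0) (XT.lf (nat_lit 0) (nat_lit 9801066973) (nat_lit 76) (nat_lit 17444164015) (nat_lit 76) (nat_lit 10564207813) (nat_lit 13) (nat_lit 4) (nat_lit 14) (nat_lit 5) (nat_lit 14) (nat_lit 4) (nat_lit 374) (nat_lit 275) (nat_lit 251)) (XT.lf (nat_lit 0) (nat_lit 26758367775) (nat_lit 76) (nat_lit 9856505253) (nat_lit 76) (nat_lit 2829312086) (nat_lit 13) (nat_lit 4) (nat_lit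 14) (nat_lit 5) (nat_lit 14) (nat_lit 4) (nat_lit 375) (nat_lit 275) (nat_lit 250)))) (XT.nd (nat_lit 78) (nat_lit 0) (nat_lit 0) (XT.lf (nat_lit 0) (nat_lit 3113979522) (nat_lit 76) (nat_lit 1950748738) (nat_lit 152) (nat_lit 36098153647) (nat_lit 11) (nat_lit 5) (nat_lit 12) (nat_lit 5) (nat_lit 13) (nat_lit 4) (nat_lit 376) (nat_lit 275) (nat_lit 249)) (XT.nd (nat_lit 78) (nat_lit 0) (nat_lit 0) (XT.lf (nat_lit 0) (nat_lit 13337369412) (nat_lit 152) (nat_lit 23378988585) (nat_lit 0) (nat_lit 6249051825) (nat_lit 11) (nat_lit 5) (nat_lit 13) (nat_lit 4) (nat_lit 11) (nat_lit 4) (nat_lit 377) (nat_lit 275) (nat_lit 248)) (XT.lf (nat_lit 0) (nat_lit 21899469310) (nat_lit 152) (nat_lit 8274661235) (nat_lit 0) (nat_lit 14687667426) (nat_lit 11) (nat_lit 5) (nat_lit 13) (nat_lit 4) (nat_lit 11) (nat_lit 4) (nat_lit 378) (nat_lit 275) (nat_lit 247))))) (XT.nd (nat_lit 234) (nat_lit 152) (nat_lit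 0) (XT.nd (nat_lit 78) (nat_lit 0) (nat_lit 0) (XT.lf (nat_lit 0) (nat_lit 7464452490) (nat_lit 76) (nat_lit 23359962509) (nat_lit 76) (nat_lit 16030556532) (nat_lit 10) (nat_lit 4) (nat_lit 11) (nat_lit 5) (nat_lit 11) (nat_lit 4) (nat_lit 379) (nat_lit 275) (nat_lit 246)) (XT.nd (nat_lit 78) (nat_lit 0) (nat_lit 0) (XT.lf (nat_lit 0) (nat_lit 23904977009) (nat_lit 76) (nat_lit 16242839113) (nat_lit 76) (nat_lit 8801429238) (nat_lit 10) (nat_lit 4) (nat_lit 11) (nat_lit 5) (nat_lit 11) (nat_lit 4) (nat_lit 380) (nat_lit 275) (nat_lit 245)) (XT.lf (nat_lit 0) (nat_lit 40921374444) (nat_lit 76) (nat_lit 8889372679) (nat_lit 76) (nat_lit 1341292425) (nat_lit 10) (nat_lit 4) (nat_lit 11) (nat_lit 5) (nat_lit 11) (nat_lit 4) (nat_lit 381) (nat_lit 275) (nat_lit 244)))) (XT.nd (nat_lit 78) (nat_lit 0) (nat_lit 0) (XT.lf (nat_lit 0) (nat_lit 5124346212) (nat_lit 76) (nat_lit 1168273148) (nat_lit 152)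 (nat_lit 47172665450) (nat_lit 8) (nat_lit 5) (nat_lit 9) (nat_lit 5) (nat_lit 10) (nat_lit 4) (nat_lit 382) (nat_lit 275) (nat_lit 243)) (XT.nd (nat_lit 78) (nat_lit 0) (nat_lit 0) (XT.lf (nat_lit 0) (nat_lit 14334506698) (nat_lit 152) (nat_lit 34743966768) (nat_lit 0) (nat_lit 6813706438) (nat_lit 8) (nat_lit 5) (nat_lit 10) (nat_lit 4) (nat_lit 8) (nat_lit 4) (nat_lit 383) (nat_lit 275) (nat_lit 242)) (XT.lf (nat_lit 0) (nat_lit 22676663791) (nat_lit 152) (nat_lit 20700415454) (nat_lit 0) (nat_lit 15066401507) (nat_lit 8) (nat_lit 5) (nat_lit 10) (nat_lit 4) (nat_lit 8) (nat_lit 4) (nat_lit 384) (nat_lit 275) (nat_lit 241)))))) (XT.nd (nat_lit 468) (nat_lit 76) (nat_lit 0) (XT.nd (nat_lit 234) (nat_lit 76) (nat_lit 0) (XT.nd (nat_lit 78) (nat_lit 76) (nat_lit 0) (XT.lf (nat_lit 0) (nat_lit 31327722759) (nat_lit 152) (nat_lit 6165617473) (nat_lit 0) (nat_lit 23632258549) (nat_lit 8) (nat_lit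 5) (nat_lit 10) (nat_lit 4) (nat_lit 8) (nat_lit 4) (nat_lit 385) (nat_lit 275) (nat_lit 240)) (XT.nd (nat_lit 78) (nat_lit 0) (nat_lit 0) (XT.lf (nat_lit 0) (nat_lit 9072062450) (nat_lit 76) (nat_lit 31323425126) (nat_lit 76) (nat_lit 23546816224) (nat_lit 7) (nat_lit 4) (nat_lit 8) (nat_lit 5) (nat_lit 8) (nat_lit 4) (nat_lit 386) (nat_lit 275) (nat_lit 239)) (XT.lf (nat_lit 0) (nat_lit 25005341445) (nat_lit 76) (nat_lit 24874747079) (nat_lit 76) (nat_lit 17020857518) (nat_lit 7) (nat_lit 4) (nat_lit 8) (nat_lit 5) (nat_lit 8) (nat_lit 4) (nat_lit 387) (nat_lit 275) (nat_lit 238)))) (XT.nd (nat_lit 78) (nat_lit 76) (nat_lit 0) (XT.lf (nat_lit 0) (nat_lit 41549448011) (nat_lit 76) (nat_lit 18194212743) (nat_lit 76) (nat_lit 10266722553) (nat_lit 7) (nat_lit 4) (nat_lit 8) (nat_lit 5) (nat_lit 8) (nat_lit 4) (nat_lit 388) (nat_lit 275) (nat_lit 237)) (XT.nd (nat_lit 78) (nat_lit 76) (nat_lit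 0) (XT.lf (nat_lit 0) (nat_lit 58743772879) (nat_lit 76) (nat_lit 11265916082) (nat_lit 76) (nat_lit 3268330057) (nat_lit 7) (nat_lit 4) (nat_lit 8) (nat_lit 5) (nat_lit 8) (nat_lit 4) (nat_lit 389) (nat_lit 275) (nat_lit 236)) (XT.lf (nat_lit 0) (nat_lit 3913104360) (nat_lit 152) (nat_lit 120742113) (nat_lit 76) (nat_lit 72676635875) (nat_lit 6) (nat_lit 5) (nat_lit 8) (nat_lit 5) (nat_lit 7) (nat_lit 4) (nat_lit 390) (nat_lit 275) (nat_lit 235))))) (XT.nd (nat_lit 234) (nat_lit 0) (nat_lit 0) (XT.nd (nat_lit 78) (nat_lit 0) (nat_lit 0) (XT.lf (nat_lit 0) (nat_lit 11484038639) (nat_lit 152) (nat_lit 65233771759) (nat_lit 0) (nat_lit 3592851305) (nat_lit 5) (nat_lit 5) (nat_lit 7) (nat_lit 4) (nat_lit 5) (nat_lit 4) (nat_lit 391) (nat_lit 275) (nat_lit 234)) (XT.nd (nat_lit 78) (nat_lit 0) (nat_lit 0) (XT.lf (nat_lit 0) (nat_lit 19394086370) (nat_lit 152) (nat_lit 53253839517) (nat_lit 0) (nat_lit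 11444111251) (nat_lit 5) (nat_lit 5) (nat_lit 7) (nat_lit 4) (nat_lit 5) (nat_lit 4) (nat_lit 392) (nat_lit 275) (nat_lit 233)) (XT.lf (nat_lit 0) (nat_lit 27622109733) (nat_lit 152) (nat_lit 40826555083) (nat_lit 0) (nat_lit 19616146248) (nat_lit 5) (nat_lit 5) (nat_lit 7) (nat_lit 4) (nat_lit 5) (nat_lit 4) (nat_lit 393) (nat_lit 275) (nat_lit 232)))) (XT.nd (nat_lit 78) (nat_lit 0) (nat_lit 0) (XT.lf (nat_lit 0) (nat_lit 36187699261) (nat_lit 152) (nat_lit 27922329685) (nat_lit 0) (nat_lit 28128413521) (nat_lit 5) (nat_lit 5) (nat_lit 7) (nat_lit 4) (nat_lit 5) (nat_lit 4) (nat_lit 394) (nat_lit 275) (nat_lit 231)) (XT.nd (nat_lit 78) (nat_lit 0) (nat_lit 0) (XT.lf (nat_lit 0) (nat_lit 45111249213) (nat_lit 152) (nat_lit 14510438976) (nat_lit 0) (nat_lit 37001180374) (nat_lit 5) (nat_lit 5) (nat_lit 7) (nat_lit 4) (nat_lit 5) (nat_lit 4) (nat_lit 395) (nat_lit 275) (nat_lit 230)) (XT.lf (nat_lit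 0) (nat_lit 54414006137) (nat_lit 152) (nat_lit 558949885) (nat_lit 0) (nat_lit 46255572442) (nat_lit 5) (nat_lit 5) (nat_lit 7) (nat_lit 4) (nat_lit 5) (nat_lit 4) (nat_lit 396) (nat_lit 275) (nat_lit 229))))))) (XT.nd (nat_lit 936) (nat_lit 836) (nat_lit 0) (XT.nd (nat_lit 468) (nat_lit 760) (nat_lit 0) (XT.nd (nat_lit 234) (nat_lit 456) (nat_lit 0) (XT.nd (nat_lit 78) (nat_lit 304) (nat_lit 0) (XT.lf (nat_lit 0) (nat_lit 885996772) (nat_lit 152) (nat_lit 3226428260) (nat_lit 152) (nat_lit 3226428260) (nat_lit 47) (nat_lit 4) (nat_lit 49) (nat_lit 5) (nat_lit 49) (nat_lit 4) (nat_lit 348) (nat_lit 276) (nat_lit 276)) (XT.nd (nat_lit 78) (nat_lit 152) (nat_lit 0) (XT.lf (nat_lit 0) (nat_lit 2300228397) (nat_lit 152) (nat_lit 11173470174) (nat_lit 0) (nat_lit 1649672894) (nat_lit 45) (nat_lit 5) (nat_lit 47) (nat_lit 4) (nat_lit 45) (nat_lit 4) (nat_lit 349) (nat_lit 276) (nat_lit 275)) (XT.lf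 (nat_lit 0) (nat_lit 5746559554) (nat_lit 152) (nat_lit 5557314015) (nat_lit 152) (nat_lit 4287181842) (nat_lit 43) (nat_lit 4) (nat_lit 45) (nat_lit 5) (nat_lit 45) (nat_lit 4) (nat_lit 350) (nat_lit 276) (nat_lit 274)))) (XT.nd (nat_lit 78) (nat_lit 304) (nat_lit 0) (XT.lf (nat_lit 0) (nat_lit 4493160672) (nat_lit 152) (nat_lit 8903253797) (nat_lit 0) (nat_lit 2687136213) (nat_lit 41) (nat_lit 5) (nat_lit 43) (nat_lit 4) (nat_lit 41) (nat_lit 4) (nat_lit 351) (nat_lit 276) (nat_lit 273)) (XT.nd (nat_lit 78) (nat_lit 152) (nat_lit 0) (XT.lf (nat_lit 0) (nat_lit 8178507666) (nat_lit 152) (nat_lit 5387152115) (nat_lit 152) (nat_lit 3035521536) (nat_lit 39) (nat_lit 4) (nat_lit 41) (nat_lit 5) (nat_lit 41) (nat_lit 4) (nat_lit 352) (nat_lit 276) (nat_lit 272)) (XT.lf (nat_lit 0) (nat_lit 5746640665) (nat_lit 152) (nat_lit 8439891105) (nat_lit 0) (nat_lit 2959014010) (nat_lit 37) (nat_lit 5) (nat_lit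 39) (nat_lit 4) (nat_lit 37) (nat_lit 4) (nat_lit 353) (nat_lit 276) (nat_lit 271))))) (XT.nd (nat_lit 234) (nat_lit 304) (nat_lit 0) (XT.nd (nat_lit 78) (nat_lit 304) (nat_lit 0) (XT.lf (nat_lit 0) (nat_lit 8709826396) (nat_lit 152) (nat_lit 6138121521) (nat_lit 152) (nat_lit 2870028036) (nat_lit 35) (nat_lit 4) (nat_lit 37) (nat_lit 5) (nat_lit 37) (nat_lit 4) (nat_lit 354) (nat_lit 276) (nat_lit 270)) (XT.nd (nat_lit 78) (nat_lit 152) (nat_lit 0) (XT.lf (nat_lit 0) (nat_lit 5877291097) (nat_lit 152) (nat_lit 10182565293) (nat_lit 0) (nat_lit 2260125134) (nat_lit 33) (nat_lit 5) (nat_lit 35) (nat_lit 4) (nat_lit 33) (nat_lit 4) (nat_lit 355) (nat_lit 276) (nat_lit 269)) (XT.lf (nat_lit 0) (nat_lit 6914608849) (nat_lit 152) (nat_lit 8039195256) (nat_lit 152) (nat_lit 3998924849) (nat_lit 31) (nat_lit 4) (nat_lit 33) (nat_lit 5) (nat_lit 33) (nat_lit 4) (nat_lit 356) (nat_lit 276) (nat_lit 268))))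 (XT.nd (nat_lit 78) (nat_lit 152) (nat_lit 0) (XT.lf (nat_lit 0) (nat_lit 4663685482) (nat_lit 152) (nat_lit 14605430364) (nat_lit 0) (nat_lit 349872840) (nat_lit 29) (nat_lit 5) (nat_lit 31) (nat_lit 4) (nat_lit 29) (nat_lit 4) (nat_lit 357) (nat_lit 276) (nat_lit 267)) (XT.nd (nat_lit 78) (nat_lit 76) (nat_lit 0) (XT.lf (nat_lit 0) (nat_lit 2286683890) (nat_lit 76) (nat_lit 11359024665) (nat_lit 76) (nat_lit 6672621534) (nat_lit 28) (nat_lit 4) (nat_lit 29) (nat_lit 5) (nat_lit 29) (nat_lit 4) (nat_lit 358) (nat_lit 276) (nat_lit 266)) (XT.lf (nat_lit 0) (nat_lit 1881768473) (nat_lit 152) (nat_lit 1221261214) (nat_lit 76) (nat_lit 17952137034) (nat_lit 27) (nat_lit 5) (nat_lit 29) (nat_lit 5) (nat_lit 28) (nat_lit 4) (nat_lit 359) (nat_lit 276) (nat_lit 265)))))) (XT.nd (nat_lit 468) (nat_lit 304) (nat_lit 0) (XT.nd (nat_lit 234) (nat_lit 228) (nat_lit 0) (XT.nd (nat_lit 78) (nat_lit 228)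 (nat_lit 0) (XT.lf (nat_lit 0) (nat_lit 10694095588) (nat_lit 152) (nat_lit 5662174461) (nat_lit 0) (nat_lit 5471569594) (nat_lit 26) (nat_lit 5) (nat_lit 28) (nat_lit 4) (nat_lit 26) (nat_lit 4) (nat_lit 360) (nat_lit 276) (nat_lit 264)) (XT.nd (nat_lit 78) (nat_lit 152) (nat_lit 0) (XT.lf (nat_lit 0) (nat_lit 11552833442) (nat_lit 76) (nat_lit 8311906389) (nat_lit 76) (nat_lit 2776897218) (nat_lit 25) (nat_lit 4) (nat_lit 26) (nat_lit 5) (nat_lit 26) (nat_lit 4) (nat_lit 361) (nat_lit 276) (nat_lit 263)) (XT.lf (nat_lit 0) (nat_lit 5764448583) (nat_lit 152) (nat_lit 17631737173) (nat_lit 0) (nat_lit 101718294) (nat_lit 23) (nat_lit 5) (nat_lit 25) (nat_lit 4) (nat_lit 23) (nat_lit 4) (nat_lit 362) (nat_lit 276) (nat_lit 262)))) (XT.nd (nat_lit 78) (nat_lit 228) (nat_lit 0) (XT.lf (nat_lit 0) (nat_lit 14647570152) (nat_lit 152) (nat_lit 1039780817) (nat_lit 0) (nat_lit 8709663694) (nat_lit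 23) (nat_lit 5) (nat_lit 25) (nat_lit 4) (nat_lit 23) (nat_lit 4) (nat_lit 363) (nat_lit 276) (nat_lit 261)) (XT.nd (nat_lit 78) (nat_lit 152) (nat_lit 0) (XT.lf (nat_lit 0) (nat_lit 16286458933) (nat_lit 76) (nat_lit 7628212253) (nat_lit 76) (nat_lit 1428233253) (nat_lit 22) (nat_lit 4) (nat_lit 23) (nat_lit 5) (nat_lit 23) (nat_lit 4) (nat_lit 364) (nat_lit 276) (nat_lit 260)) (XT.lf (nat_lit 0) (nat_lit 7047945981) (nat_lit 152) (nat_lit 18503380222) (nat_lit 0) (nat_lit 786225692) (nat_lit 20) (nat_lit 5) (nat_lit 22) (nat_lit 4) (nat_lit 20) (nat_lit 4) (nat_lit 365) (nat_lit 276) (nat_lit 259))))) (XT.nd (nat_lit 234) (nat_lit 76) (nat_lit 0) (XT.nd (nat_lit 78) (nat_lit 228) (nat_lit 0) (XT.lf (nat_lit 0) (nat_lit 15881968030) (nat_lit 152) (nat_lit 2111184714) (nat_lit 0) (nat_lit 9389463741) (nat_lit 20) (nat_lit 5) (nat_lit 22) (nat_lit 4) (nat_lit 20) (nat_lit 4) (nat_lit 366) (nat_lit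 276) (nat_lit 258)) (XT.nd (nat_lit 78) (nat_lit 152) (nat_lit 0) (XT.lf (nat_lit 0) (nat_lit 15014278779) (nat_lit 76) (nat_lit 10089789088) (nat_lit 76) (nat_lit 3377490512) (nat_lit 19) (nat_lit 4) (nat_lit 20) (nat_lit 5) (nat_lit 20) (nat_lit 4) (nat_lit 367) (nat_lit 276) (nat_lit 257)) (XT.lf (nat_lit 0) (nat_lit 3042646924) (nat_lit 76) (nat_lit 1865862135) (nat_lit 152) (nat_lit 24729750421) (nat_lit 17) (nat_lit 5) (nat_lit 18) (nat_lit 5) (nat_lit 19) (nat_lit 4) (nat_lit 368) (nat_lit 276) (nat_lit 256)))) (XT.nd (nat_lit 78) (nat_lit 76) (nat_lit 0) (XT.lf (nat_lit 0) (nat_lit 13554795196) (nat_lit 152) (nat_lit 10655319416) (nat_lit 0) (nat_lit 6641216201) (nat_lit 17) (nat_lit 5) (nat_lit 19) (nat_lit 4) (nat_lit 17) (nat_lit 4) (nat_lit 369) (nat_lit 276) (nat_lit 255)) (XT.nd (nat_lit 78) (nat_lit 0) (nat_lit 0) (XT.lf (nat_lit 0) (nat_lit 5828659270) (nat_lit 76) (nat_lit 16698752167)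 (nat_lit 76) (nat_lit 9600836698) (nat_lit 16) (nat_lit 4) (nat_lit 17) (nat_lit 5) (nat_lit 17) (nat_lit 4) (nat_lit 370) (nat_lit 276) (nat_lit 254)) (XT.lf (nat_lit 0) (nat_lit 23021249156) (nat_lit 76) (nat_lit 8861611204) (nat_lit 76) (nat_lit 1588137188) (nat_lit 16) (nat_lit 4) (nat_lit 17) (nat_lit 5) (nat_lit 17) (nat_lit 4) (nat_lit 371) (nat_lit 276) (nat_lit 253))))))))
noncomputable def xc13 : XT := (XT.nd (nat_lit 1872) (nat_lit 0) (nat_lit 0) (XT.nd (nat_lit 936) (nat_lit 228) (nat_lit 0) (XT.nd (nat_lit 468) (nat_lit 228) (nat_lit 0) (XT.nd (nat_lit 234) (nat_lit 152) (nat_lit 0) (XT.nd (nat_lit 78) (nat_lit 76) (nat_lit 0) (XT.lf (nat_lit 0) (nat_lit 5916920547) (nat_lit 76) (nat_lit 663174614) (nat_lit 152) (nat_lit 28302189927) (nat_lit 14) (nat_lit 5) (nat_lit 15) (nat_lit 5) (nat_lit 16) (nat_lit 4) (nat_lit 372) (nat_lit 276) (nat_lit 252)) (XT.nd (nat_lit 78) (nat_lit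 76) (nat_lit 0) (XT.lf (nat_lit 0) (nat_lit 15143947934) (nat_lit 152) (nat_lit 13453731437) (nat_lit 0) (nat_lit 7765395109) (nat_lit 14) (nat_lit 5) (nat_lit 16) (nat_lit 4) (nat_lit 14) (nat_lit 4) (nat_lit 373) (nat_lit 276) (nat_lit 251)) (XT.lf (nat_lit 0) (nat_lit 2572565937) (nat_lit 76) (nat_lit 21437458283) (nat_lit 76) (nat_lit 13911668493) (nat_lit 13) (nat_lit 4) (nat_lit 14) (nat_lit 5) (nat_lit 14) (nat_lit 4) (nat_lit 374) (nat_lit 276) (nat_lit 250)))) (XT.nd (nat_lit 78) (nat_lit 152) (nat_lit 0) (XT.lf (nat_lit 0) (nat_lit 19385624016) (nat_lit 76) (nat_lit 13919535239) (nat_lit 76) (nat_lit 6253519768) (nat_lit 13) (nat_lit 4) (nat_lit 14) (nat_lit 5) (nat_lit 14) (nat_lit 4) (nat_lit 375) (nat_lit 276) (nat_lit 249)) (XT.nd (nat_lit 78) (nat_lit 76) (nat_lit 0) (XT.lf (nat_lit 0) (nat_lit 1605739641) (nat_lit 152) (nat_lit 4539912265) (nat_lit 76) (nat_lit 35135763789) (nat_lit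 12) (nat_lit 5) (nat_lit 14) (nat_lit 5) (nat_lit 13) (nat_lit 4) (nat_lit 376) (nat_lit 276) (nat_lit 248)) (XT.lf (nat_lit 0) (nat_lit 9722930269) (nat_lit 152) (nat_lit 31338627078) (nat_lit 0) (nat_lit 2027053993) (nat_lit 11) (nat_lit 5) (nat_lit 13) (nat_lit 4) (nat_lit 11) (nat_lit 4) (nat_lit 377) (nat_lit 276) (nat_lit 247))))) (XT.nd (nat_lit 234) (nat_lit 152) (nat_lit 0) (XT.nd (nat_lit 78) (nat_lit 76) (nat_lit 0) (XT.lf (nat_lit 0) (nat_lit 18218195002) (nat_lit 152) (nat_lit 16364098921) (nat_lit 0) (nat_lit 10404714634) (nat_lit 11) (nat_lit 5) (nat_lit 13) (nat_lit 4) (nat_lit 11) (nat_lit 4) (nat_lit 378) (nat_lit 276) (nat_lit 246)) (XT.nd (nat_lit 78) (nat_lit 76) (nat_lit 0) (XT.lf (nat_lit 0) (nat_lit 27007735270) (nat_lit 152) (nat_lit 894261827) (nat_lit 0) (nat_lit 19082251004) (nat_lit 11) (nat_lit 5) (nat_lit 13) (nat_lit 4) (nat_lit 11) (nat_lit 4) (nat_lit 379) (nat_lit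 276) (nat_lit 245)) (XT.lf (nat_lit 0) (nat_lit 15408390341) (nat_lit 76) (nat_lit 20852203081) (nat_lit 76) (nat_lit 12820048437) (nat_lit 10) (nat_lit 4) (nat_lit 11) (nat_lit 5) (nat_lit 11) (nat_lit 4) (nat_lit 380) (nat_lit 276) (nat_lit 244)))) (XT.nd (nat_lit 78) (nat_lit 152) (nat_lit 0) (XT.lf (nat_lit 0) (nat_lit 32310430838) (nat_lit 76) (nat_lit 13554259589) (nat_lit 76) (nat_lit 5420514108) (nat_lit 10) (nat_lit 4) (nat_lit 11) (nat_lit 5) (nat_lit 11) (nat_lit 4) (nat_lit 381) (nat_lit 276) (nat_lit 243)) (XT.nd (nat_lit 78) (nat_lit 76) (nat_lit 0) (XT.lf (nat_lit 0) (nat_lit 2187149244) (nat_lit 152) (nat_lit 3790585693) (nat_lit 76) (nat_lit 47625069887) (nat_lit 9) (nat_lit 5) (nat_lit 11) (nat_lit 5) (nat_lit 10) (nat_lit 4) (nat_lit 382) (nat_lit 276) (nat_lit 242)) (XT.lf (nat_lit 0) (nat_lit 10089851967) (nat_lit 152) (nat_lit 43934411996) (nat_lit 0) (nat_lit 2009614547)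 (nat_lit 8) (nat_lit 5) (nat_lit 10) (nat_lit 4) (nat_lit 8) (nat_lit 4) (nat_lit 383) (nat_lit 276) (nat_lit 241)))))) (XT.nd (nat_lit 468) (nat_lit 152) (nat_lit 0) (XT.nd (nat_lit 234) (nat_lit 76) (nat_lit 0) (XT.nd (nat_lit 78) (nat_lit 0) (nat_lit 0) (XT.lf (nat_lit 0) (nat_lit 18379225656) (nat_lit 152) (nat_lit 29993753803) (nat_lit 0) (nat_lit 10213786308) (nat_lit 8) (nat_lit 5) (nat_lit 10) (nat_lit 4) (nat_lit 8) (nat_lit 4) (nat_lit 384) (nat_lit 276) (nat_lit 240)) (XT.nd (nat_lit 78) (nat_lit 0) (nat_lit 0) (XT.lf (nat_lit 0) (nat_lit 26980014715) (nat_lit 152) (nat_lit 15556949271) (nat_lit 0) (nat_lit 18733430676) (nat_lit 8) (nat_lit 5) (nat_lit 10) (nat_lit 4) (nat_lit 8) (nat_lit 4) (nat_lit 385) (nat_lit 276) (nat_lit 239)) (XT.lf (nat_lit 0) (nat_lit 35912697216) (nat_lit 152) (nat_lit 589625055) (nat_lit 0) (nat_lit 27588832518) (nat_lit 8) (nat_lit 5) (nat_lit 10) (nat_lit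 4) (nat_lit 8) (nat_lit 4) (nat_lit 386) (nat_lit 276) (nat_lit 238)))) (XT.nd (nat_lit 78) (nat_lit 0) (nat_lit 0) (XT.lf (nat_lit 0) (nat_lit 15241267352) (nat_lit 76) (nat_lit 30103782483) (nat_lit 76) (nat_lit 21706317157) (nat_lit 7) (nat_lit 4) (nat_lit 8) (nat_lit 5) (nat_lit 8) (nat_lit 4) (nat_lit 387) (nat_lit 276) (nat_lit 237)) (XT.nd (nat_lit 78) (nat_lit 0) (nat_lit 0) (XT.lf (nat_lit 0) (nat_lit 31699038783) (nat_lit 76) (nat_lit 23465328338) (nat_lit 76) (nat_lit 14997767176) (nat_lit 7) (nat_lit 4) (nat_lit 8) (nat_lit 5) (nat_lit 8) (nat_lit 4) (nat_lit 388) (nat_lit 276) (nat_lit 236)) (XT.lf (nat_lit 0) (nat_lit 48811139712) (nat_lit 76) (nat_lit 16577108051) (nat_lit 76) (nat_lit 8042788950) (nat_lit 7) (nat_lit 4) (nat_lit 8) (nat_lit 5) (nat_lit 8) (nat_lit 4) (nat_lit 389) (nat_lit 276) (nat_lit 235))))) (XT.nd (nat_lit 234) (nat_lit 0) (nat_lit 0) (XT.nd (nat_lit 78)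 (nat_lit 152) (nat_lit 0) (XT.lf (nat_lit 0) (nat_lit 66618313237) (nat_lit 76) (nat_lit 9422721097) (nat_lit 76) (nat_lit 824823006) (nat_lit 7) (nat_lit 4) (nat_lit 8) (nat_lit 5) (nat_lit 8) (nat_lit 4) (nat_lit 390) (nat_lit 276) (nat_lit 234)) (XT.nd (nat_lit 78) (nat_lit 0) (nat_lit 0) (XT.lf (nat_lit 0) (nat_lit 4716062430) (nat_lit 76) (nat_lit 1872367096) (nat_lit 152) (nat_lit 73883060349) (nat_lit 5) (nat_lit 5) (nat_lit 6) (nat_lit 5) (nat_lit 7) (nat_lit 4) (nat_lit 391) (nat_lit 276) (nat_lit 233)) (XT.lf (nat_lit 0) (nat_lit 14442660991) (nat_lit 152) (nat_lit 63831469753) (nat_lit 0) (nat_lit 5980410964) (nat_lit 5) (nat_lit 5) (nat_lit 7) (nat_lit 4) (nat_lit 5) (nat_lit 4) (nat_lit 392) (nat_lit 276) (nat_lit 232)))) (XT.nd (nat_lit 78) (nat_lit 0) (nat_lit 0) (XT.lf (nat_lit 0) (nat_lit 22634667279) (nat_lit 152) (nat_lit 51474635689) (nat_lit 0) (nat_lit 14119094998) (nat_lit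 5) (nat_lit 5) (nat_lit 7) (nat_lit 4) (nat_lit 5) (nat_lit 4) (nat_lit 393) (nat_lit 276) (nat_lit 231)) (XT.nd (nat_lit 78) (nat_lit 0) (nat_lit 0) (XT.lf (nat_lit 0) (nat_lit 31165954830) (nat_lit 152) (nat_lit 38637505881) (nat_lit 0) (nat_lit 22599599450) (nat_lit 5) (nat_lit 5) (nat_lit 7) (nat_lit 4) (nat_lit 5) (nat_lit 4) (nat_lit 394) (nat_lit 276) (nat_lit 230)) (XT.lf (nat_lit 0) (nat_lit 40056836233) (nat_lit 152) (nat_lit 25289515735) (nat_lit 0) (nat_lit 31442115997) (nat_lit 5) (nat_lit 5) (nat_lit 7) (nat_lit 4) (nat_lit 5) (nat_lit 4) (nat_lit 395) (nat_lit 276) (nat_lit 229))))))) (XT.nd (nat_lit 43836) (nat_lit 0) (nat_lit 988) (XT.nd (nat_lit 43368) (nat_lit 0) (nat_lit 1976) (XT.nd (nat_lit 43134) (nat_lit 0) (nat_lit 2888) (XT.nd (nat_lit 42978) (nat_lit 0) (nat_lit 3496) (XT.lf (nat_lit 0) (nat_lit 49328480254) (nat_lit 152) (nat_lit 11398884321) (nat_lit 0) (nat_lit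 40667698250) (nat_lit 5) (nat_lit 5) (nat_lit 7) (nat_lit 4) (nat_lit 5) (nat_lit 4) (nat_lit 396) (nat_lit 276) (nat_lit 228)) (XT.nd (nat_lit 78) (nat_lit 228) (nat_lit 0) (XT.lf (nat_lit 0) (nat_lit 2684361883) (nat_lit 228) (nat_lit 1554754940) (nat_lit 0) (nat_lit 2684361883) (nat_lit 54) (nat_lit 5) (nat_lit 57) (nat_lit 4) (nat_lit 54) (nat_lit 4) (nat_lit 346) (nat_lit 277) (nat_lit 277)) (XT.lf (nat_lit 0) (nat_lit 35337920) (nat_lit 228) (nat_lit 652947070) (nat_lit 76) (nat_lit 13567023090) (nat_lit 51) (nat_lit 5) (nat_lit 54) (nat_lit 5) (nat_lit 52) (nat_lit 4) (nat_lit 347) (nat_lit 277) (nat_lit 276)))) (XT.nd (nat_lit 78) (nat_lit 304) (nat_lit 0) (XT.lf (nat_lit 0) (nat_lit 1494957340) (nat_lit 152) (nat_lit 7280504490) (nat_lit 152) (nat_lit 5906856544) (nat_lit 47) (nat_lit 4) (nat_lit 49) (nat_lit 5) (nat_lit 49) (nat_lit 4) (nat_lit 348) (nat_lit 277) (nat_lit 275)) (XT.nd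 (nat_lit 78) (nat_lit 152) (nat_lit 0) (XT.lf (nat_lit 0) (nat_lit 2673894085) (nat_lit 152) (nat_lit 11738124618) (nat_lit 0) (nat_lit 720678634) (nat_lit 45) (nat_lit 5) (nat_lit 47) (nat_lit 4) (nat_lit 45) (nat_lit 4) (nat_lit 349) (nat_lit 277) (nat_lit 274)) (XT.lf (nat_lit 0) (nat_lit 4903121654) (nat_lit 152) (nat_lit 6622561954) (nat_lit 152) (nat_lit 4079273483) (nat_lit 43) (nat_lit 4) (nat_lit 45) (nat_lit 5) (nat_lit 45) (nat_lit 4) (nat_lit 350) (nat_lit 277) (nat_lit 273))))) (XT.nd (nat_lit 234) (nat_lit 456) (nat_lit 0) (XT.nd (nat_lit 78) (nat_lit 304) (nat_lit 0) (XT.lf (nat_lit 0) (nat_lit 4533858709) (nat_lit 152) (nat_lit 10049406432) (nat_lit 0) (nat_lit 1519040481) (nat_lit 41) (nat_lit 5) (nat_lit 43) (nat_lit 4) (nat_lit 41) (nat_lit 4) (nat_lit 351) (nat_lit 277) (nat_lit 272)) (XT.nd (nat_lit 78) (nat_lit 152) (nat_lit 0) (XT.lf (nat_lit 0) (nat_lit 6751245944) (nat_lit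 152) (nat_lit 6703844584) (nat_lit 152) (nat_lit 3169401480) (nat_lit 39) (nat_lit 4) (nat_lit 41) (nat_lit 5) (nat_lit 41) (nat_lit 4) (nat_lit 352) (nat_lit 277) (nat_lit 271)) (XT.lf (nat_lit 0) (nat_lit 5450096750) (nat_lit 152) (nat_lit 10185641259) (nat_lit 0) (nat_lit 1538131761) (nat_lit 37) (nat_lit 5) (nat_lit 39) (nat_lit 4) (nat_lit 37) (nat_lit 4) (nat_lit 353) (nat_lit 277) (nat_lit 270)))) (XT.nd (nat_lit 78) (nat_lit 304) (nat_lit 0) (XT.lf (nat_lit 0) (nat_lit 6680033610) (nat_lit 152) (nat_lit 7720184979) (nat_lit 152) (nat_lit 3350632533) (nat_lit 35) (nat_lit 4) (nat_lit 37) (nat_lit 5) (nat_lit 37) (nat_lit 4) (nat_lit 354) (nat_lit 277) (nat_lit 269)) (XT.nd (nat_lit 78) (nat_lit 152) (nat_lit 0) (XT.lf (nat_lit 0) (nat_lit 5238026247) (nat_lit 152) (nat_lit 12547386767) (nat_lit 0) (nat_lit 572637874) (nat_lit 33) (nat_lit 5) (nat_lit 35) (nat_lit 4) (nat_lit 33) (nat_lit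 4) (nat_lit 355) (nat_lit 277) (nat_lit 268)) (XT.lf (nat_lit 0) (nat_lit 4262173189) (nat_lit 152) (nat_lit 9900765935) (nat_lit 152) (nat_lit 4832420948) (nat_lit 31) (nat_lit 4) (nat_lit 33) (nat_lit 5) (nat_lit 33) (nat_lit 4) (nat_lit 356) (nat_lit 277) (nat_lit 267)))))) (XT.nd (nat_lit 468) (nat_lit 380) (nat_lit 0) (XT.nd (nat_lit 234) (nat_lit 304) (nat_lit 0) (XT.nd (nat_lit 78) (nat_lit 152) (nat_lit 0) (XT.lf (nat_lit 0) (nat_lit 2040384424) (nat_lit 76) (nat_lit 1650501099) (nat_lit 152) (nat_lit 15975654410) (nat_lit 29) (nat_lit 5) (nat_lit 30) (nat_lit 5) (nat_lit 31) (nat_lit 4) (nat_lit 357) (nat_lit 277) (nat_lit 266)) (XT.nd (nat_lit 78) (nat_lit 152) (nat_lit 0) (XT.lf (nat_lit 0) (nat_lit 12514247100) (nat_lit 152) (nat_lit 990320953) (nat_lit 0) (nat_lit 6866085238) (nat_lit 29) (nat_lit 5) (nat_lit 31) (nat_lit 4) (nat_lit 29) (nat_lit 4) (nat_lit 358) (nat_lit 277) (nat_lit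 265)) (XT.lf (nat_lit 0) (nat_lit 592920810) (nat_lit 152) (nat_lit 4782483174) (nat_lit 76) (nat_lit 15736283402) (nat_lit 27) (nat_lit 5) (nat_lit 29) (nat_lit 5) (nat_lit 28) (nat_lit 4) (nat_lit 359) (nat_lit 277) (nat_lit 264)))) (XT.nd (nat_lit 78) (nat_lit 228) (nat_lit 0) (XT.lf (nat_lit 0) (nat_lit 9232355561) (nat_lit 152) (nat_lit 9549089427) (nat_lit 0) (nat_lit 3108112754) (nat_lit 26) (nat_lit 5) (nat_lit 28) (nat_lit 4) (nat_lit 26) (nat_lit 4) (nat_lit 360) (nat_lit 277) (nat_lit 263)) (XT.nd (nat_lit 78) (nat_lit 152) (nat_lit 0) (XT.lf (nat_lit 0) (nat_lit 7375412657) (nat_lit 76) (nat_lit 10877155712) (nat_lit 76) (nat_lit 4455309878) (nat_lit 25) (nat_lit 4) (nat_lit 26) (nat_lit 5) (nat_lit 26) (nat_lit 4) (nat_lit 361) (nat_lit 277) (nat_lit 262)) (XT.lf (nat_lit 0) (nat_lit 1346288487) (nat_lit 76) (nat_lit 2620000071) (nat_lit 152) (nat_lit 19602925075) (nat_lit 23) (nat_lit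 5) (nat_lit 24) (nat_lit 5) (nat_lit 25) (nat_lit 4) (nat_lit 362) (nat_lit 277) (nat_lit 261))))) (XT.nd (nat_lit 234) (nat_lit 152) (nat_lit 0) (XT.nd (nat_lit 78) (nat_lit 228) (nat_lit 0) (XT.lf (nat_lit 0) (nat_lit 12718502148) (nat_lit 152) (nat_lit 5807306625) (nat_lit 0) (nat_lit 5946451656) (nat_lit 23) (nat_lit 5) (nat_lit 25) (nat_lit 4) (nat_lit 23) (nat_lit 4) (nat_lit 363) (nat_lit 277) (nat_lit 260)) (XT.nd (nat_lit 78) (nat_lit 152) (nat_lit 0) (XT.lf (nat_lit 0) (nat_lit 11228303749) (nat_lit 76) (nat_lit 10607988840) (nat_lit 76) (nat_lit 3586345452) (nat_lit 22) (nat_lit 4) (nat_lit 23) (nat_lit 5) (nat_lit 23) (nat_lit 4) (nat_lit 364) (nat_lit 277) (nat_lit 259)) (XT.lf (nat_lit 0) (nat_lit 2430980232) (nat_lit 76) (nat_lit 2342581906) (nat_lit 152) (nat_lit 21649105113) (nat_lit 20) (nat_lit 5) (nat_lit 21) (nat_lit 5) (nat_lit 22) (nat_lit 4) (nat_lit 365) (nat_lit 277)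 (nat_lit 258)))) (XT.nd (nat_lit 78) (nat_lit 152) (nat_lit 0) (XT.lf (nat_lit 0) (nat_lit 13488505005) (nat_lit 152) (nat_lit 7762009497) (nat_lit 0) (nat_lit 6220797214) (nat_lit 20) (nat_lit 5) (nat_lit 22) (nat_lit 4) (nat_lit 20) (nat_lit 4) (nat_lit 366) (nat_lit 277) (nat_lit 257)) (XT.nd (nat_lit 78) (nat_lit 76) (nat_lit 0) (XT.lf (nat_lit 0) (nat_lit 9071259215) (nat_lit 76) (nat_lit 13490254971) (nat_lit 76) (nat_lit 6013219288) (nat_lit 19) (nat_lit 4) (nat_lit 20) (nat_lit 5) (nat_lit 20) (nat_lit 4) (nat_lit 367) (nat_lit 277) (nat_lit 256)) (XT.lf (nat_lit 0) (nat_lit 2204845971) (nat_lit 152) (nat_lit 3200558257) (nat_lit 76) (nat_lit 24330378046) (nat_lit 18) (nat_lit 5) (nat_lit 20) (nat_lit 5) (nat_lit 19) (nat_lit 4) (nat_lit 368) (nat_lit 277) (nat_lit 255))))))))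
noncomputable def xc14 : XT := (XT.nd (nat_lit 1872) (nat_lit 0) (nat_lit 0) (XT.nd (nat_lit 936) (nat_lit 380) (nat_lit 0) (XT.nd (nat_lit 468) (nat_lit 304) (nat_lit 0) (XT.nd (nat_lit 234) (nat_lit 152) (nat_lit 0) (XT.nd (nat_lit 78) (nat_lit 76) (nat_lit 0) (XT.lf (nat_lit 0) (nat_lit 10697201881) (nat_lit 152) (nat_lit 17196221760) (nat_lit 0) (nat_lit 3060054164) (nat_lit 17) (nat_lit 5) (nat_lit 19) (nat_lit 4) (nat_lit 17) (nat_lit 4) (nat_lit 369) (nat_lit 277) (nat_lit 254)) (XT.nd (nat_lit 78) (nat_lit 76) (nat_lit 0) (XT.lf (nat_lit 0) (nat_lit 19529773020) (nat_lit 152) (nat_lit 987762695) (nat_lit 0) (nat_lit 11717066756) (nat_lit 17) (nat_lit 5) (nat_lit 19) (nat_lit 4) (nat_lit 17) (nat_lit 4) (nat_lit 370) (nat_lit 277) (nat_lit 253)) (XT.lf (nat_lit 0) (nat_lit 16028024723) (nat_lit 76) (nat_lit 12765987026) (nat_lit 76) (nat_lit 4786082146) (nat_lit 16) (nat_lit 4) (nat_lit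 17) (nat_lit 5) (nat_lit 17) (nat_lit 4) (nat_lit 371) (nat_lit 277) (nat_lit 252)))) (XT.nd (nat_lit 78) (nat_lit 76) (nat_lit 0) (XT.lf (nat_lit 0) (nat_lit 3309258445) (nat_lit 152) (nat_lit 1421347013) (nat_lit 76) (nat_lit 30265762327) (nat_lit 15) (nat_lit 5) (nat_lit 17) (nat_lit 5) (nat_lit 16) (nat_lit 4) (nat_lit 372) (nat_lit 277) (nat_lit 251)) (XT.nd (nat_lit 78) (nat_lit 0) (nat_lit 0) (XT.lf (nat_lit 0) (nat_lit 11743163361) (nat_lit 152) (nat_lit 21044050158) (nat_lit 0) (nat_lit 3693847117) (nat_lit 14) (nat_lit 5) (nat_lit 16) (nat_lit 4) (nat_lit 14) (nat_lit 4) (nat_lit 373) (nat_lit 277) (nat_lit 250)) (XT.lf (nat_lit 0) (nat_lit 20511390114) (nat_lit 152) (nat_lit 5209380839) (nat_lit 0) (nat_lit 12321848189) (nat_lit 14) (nat_lit 5) (nat_lit 16) (nat_lit 4) (nat_lit 14) (nat_lit 4) (nat_lit 374) (nat_lit 277) (nat_lit 249))))) (XT.nd (nat_lit 234) (nat_lit 76) (nat_lit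 0) (XT.nd (nat_lit 78) (nat_lit 152) (nat_lit 0) (XT.lf (nat_lit 0) (nat_lit 11362626323) (nat_lit 76) (nat_lit 18321867410) (nat_lit 76) (nat_lit 9998777218) (nat_lit 13) (nat_lit 4) (nat_lit 14) (nat_lit 5) (nat_lit 14) (nat_lit 4) (nat_lit 375) (nat_lit 277) (nat_lit 248)) (XT.nd (nat_lit 78) (nat_lit 152) (nat_lit 0) (XT.lf (nat_lit 0) (nat_lit 28603888159) (nat_lit 76) (nat_lit 10627451251) (nat_lit 76) (nat_lit 2177172232) (nat_lit 13) (nat_lit 4) (nat_lit 14) (nat_lit 5) (nat_lit 14) (nat_lit 4) (nat_lit 376) (nat_lit 277) (nat_lit 247)) (XT.lf (nat_lit 0) (nat_lit 3234197531) (nat_lit 76) (nat_lit 2581373288) (nat_lit 152) (nat_lit 37405776291) (nat_lit 11) (nat_lit 5) (nat_lit 12) (nat_lit 5) (nat_lit 13) (nat_lit 4) (nat_lit 377) (nat_lit 277) (nat_lit 246)))) (XT.nd (nat_lit 78) (nat_lit 76) (nat_lit 0) (XT.lf (nat_lit 0) (nat_lit 14222369276) (nat_lit 152) (nat_lit 25111425962) (nat_lit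 0) (nat_lit 5788606899) (nat_lit 11) (nat_lit 5) (nat_lit 13) (nat_lit 4) (nat_lit 11) (nat_lit 4) (nat_lit 378) (nat_lit 277) (nat_lit 245)) (XT.nd (nat_lit 78) (nat_lit 76) (nat_lit 0) (XT.lf (nat_lit 0) (nat_lit 22951288080) (nat_lit 152) (nat_lit 9759320563) (nat_lit 0) (nat_lit 14410855324) (nat_lit 11) (nat_lit 5) (nat_lit 13) (nat_lit 4) (nat_lit 11) (nat_lit 4) (nat_lit 379) (nat_lit 277) (nat_lit 244)) (XT.lf (nat_lit 0) (nat_lit 6252542616) (nat_lit 76) (nat_lit 25805857279) (nat_lit 76) (nat_lit 17163833687) (nat_lit 10) (nat_lit 4) (nat_lit 11) (nat_lit 5) (nat_lit 11) (nat_lit 4) (nat_lit 380) (nat_lit 277) (nat_lit 243)))))) (XT.nd (nat_lit 468) (nat_lit 228) (nat_lit 0) (XT.nd (nat_lit 234) (nat_lit 0) (nat_lit 0) (XT.nd (nat_lit 78) (nat_lit 152) (nat_lit 0) (XT.lf (nat_lit 0) (nat_lit 23045671742) (nat_lit 76) (nat_lit 18560792779) (nat_lit 76) (nat_lit 9822016009) (nat_lit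 10) (nat_lit 4) (nat_lit 11) (nat_lit 5) (nat_lit 11) (nat_lit 4) (nat_lit 381) (nat_lit 277) (nat_lit 242)) (XT.nd (nat_lit 78) (nat_lit 152) (nat_lit 0) (XT.lf (nat_lit 0) (nat_lit 40465820840) (nat_lit 76) (nat_lit 11056714991) (nat_lit 76) (nat_lit 2225792337) (nat_lit 10) (nat_lit 4) (nat_lit 11) (nat_lit 5) (nat_lit 11) (nat_lit 4) (nat_lit 382) (nat_lit 277) (nat_lit 241)) (XT.lf (nat_lit 0) (nat_lit 2358954985) (nat_lit 76) (nat_lit 3196530543) (nat_lit 152) (nat_lit 50629506847) (nat_lit 8) (nat_lit 5) (nat_lit 9) (nat_lit 5) (nat_lit 10) (nat_lit 4) (nat_lit 383) (nat_lit 277) (nat_lit 240)))) (XT.nd (nat_lit 78) (nat_lit 0) (nat_lit 0) (XT.lf (nat_lit 0) (nat_lit 13763862301) (nat_lit 152) (nat_lit 39952645640) (nat_lit 0) (nat_lit 5023804368) (nat_lit 8) (nat_lit 5) (nat_lit 10) (nat_lit 4) (nat_lit 8) (nat_lit 4) (nat_lit 384) (nat_lit 277) (nat_lit 239)) (XT.nd (nat_lit 78) (nat_lit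 0) (nat_lit 0) (XT.lf (nat_lit 0) (nat_lit 22316775258) (nat_lit 152) (nat_lit 25609168202) (nat_lit 0) (nat_lit 13499436665) (nat_lit 8) (nat_lit 5) (nat_lit 10) (nat_lit 4) (nat_lit 8) (nat_lit 4) (nat_lit 385) (nat_lit 277) (nat_lit 238)) (XT.lf (nat_lit 0) (nat_lit 31203861470) (nat_lit 152) (nat_lit 10730726933) (nat_lit 0) (nat_lit 22312922249) (nat_lit 8) (nat_lit 5) (nat_lit 10) (nat_lit 4) (nat_lit 8) (nat_lit 4) (nat_lit 386) (nat_lit 277) (nat_lit 237))))) (XT.nd (nat_lit 234) (nat_lit 152) (nat_lit 0) (XT.nd (nat_lit 78) (nat_lit 0) (nat_lit 0) (XT.lf (nat_lit 0) (nat_lit 4812002527) (nat_lit 76) (nat_lit 35680534050) (nat_lit 76) (nat_lit 26719498994) (nat_lit 7) (nat_lit 4) (nat_lit 8) (nat_lit 5) (nat_lit 8) (nat_lit 4) (nat_lit 387) (nat_lit 277) (nat_lit 236)) (XT.nd (nat_lit 78) (nat_lit 0) (nat_lit 0) (XT.lf (nat_lit 0) (nat_lit 21187550020) (nat_lit 76) (nat_lit 29082156279)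 (nat_lit 76) (nat_lit 20054363283) (nat_lit 7) (nat_lit 4) (nat_lit 8) (nat_lit 5) (nat_lit 8) (nat_lit 4) (nat_lit 388) (nat_lit 277) (nat_lit 235)) (XT.lf (nat_lit 0) (nat_lit 38221342437) (nat_lit 76) (nat_lit 22232103966) (nat_lit 76) (nat_lit 13140731981) (nat_lit 7) (nat_lit 4) (nat_lit 8) (nat_lit 5) (nat_lit 8) (nat_lit 4) (nat_lit 389) (nat_lit 277) (nat_lit 234)))) (XT.nd (nat_lit 78) (nat_lit 152) (nat_lit 0) (XT.lf (nat_lit 0) (nat_lit 55953936426) (nat_lit 76) (nat_lit 15114067464) (nat_lit 76) (nat_lit 5962144060) (nat_lit 7) (nat_lit 4) (nat_lit 8) (nat_lit 5) (nat_lit 8) (nat_lit 4) (nat_lit 390) (nat_lit 277) (nat_lit 233)) (XT.nd (nat_lit 78) (nat_lit 76) (nat_lit 0) (XT.lf (nat_lit 0) (nat_lit 1469251370) (nat_lit 152) (nat_lit 6227011138) (nat_lit 76) (nat_lit 72943464521) (nat_lit 6) (nat_lit 5) (nat_lit 8) (nat_lit 5) (nat_lit 7) (nat_lit 4) (nat_lit 391) (nat_lit 277)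 (nat_lit 232)) (XT.lf (nat_lit 0) (nat_lit 9169829338) (nat_lit 152) (nat_lit 75082404760) (nat_lit 0) (nat_lit 175156190) (nat_lit 5) (nat_lit 5) (nat_lit 7) (nat_lit 4) (nat_lit 5) (nat_lit 4) (nat_lit 392) (nat_lit 277) (nat_lit 231))))))) (XT.nd (nat_lit 43680) (nat_lit 0) (nat_lit 1368) (XT.nd (nat_lit 43212) (nat_lit 0) (nat_lit 2736) (XT.nd (nat_lit 234) (nat_lit 0) (nat_lit 0) (XT.nd (nat_lit 78) (nat_lit 0) (nat_lit 0) (XT.lf (nat_lit 0) (nat_lit 17327533650) (nat_lit 152) (nat_lit 62792666286) (nat_lit 0) (nat_lit 8282077402) (nat_lit 5) (nat_lit 5) (nat_lit 7) (nat_lit 4) (nat_lit 5) (nat_lit 4) (nat_lit 393) (nat_lit 277) (nat_lit 230)) (XT.nd (nat_lit 78) (nat_lit 0) (nat_lit 0) (XT.lf (nat_lit 0) (nat_lit 25826152652) (nat_lit 152) (nat_lit 50019437040) (nat_lit 0) (nat_lit 16732331548) (nat_lit 5) (nat_lit 5) (nat_lit 7) (nat_lit 4) (nat_lit 5) (nat_lit 4) (nat_lit 394) (nat_lit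 277) (nat_lit 229)) (XT.lf (nat_lit 0) (nat_lit 34685921152) (nat_lit 152) (nat_lit 36732304572) (nat_lit 0) (nat_lit 25546038280) (nat_lit 5) (nat_lit 5) (nat_lit 7) (nat_lit 4) (nat_lit 5) (nat_lit 4) (nat_lit 395) (nat_lit 277) (nat_lit 228)))) (XT.nd (nat_lit 42822) (nat_lit 0) (nat_lit 3952) (XT.lf (nat_lit 0) (nat_lit 43927933835) (nat_lit 152) (nat_lit 22899632851) (nat_lit 0) (nat_lit 34744182613) (nat_lit 5) (nat_lit 5) (nat_lit 7) (nat_lit 4) (nat_lit 5) (nat_lit 4) (nat_lit 396) (nat_lit 277) (nat_lit 227)) (XT.nd (nat_lit 78) (nat_lit 152) (nat_lit 0) (XT.lf (nat_lit 0) (nat_lit 1170218224) (nat_lit 228) (nat_lit 4203030725) (nat_lit 0) (nat_lit 1170218224) (nat_lit 59) (nat_lit 5) (nat_lit 62) (nat_lit 4) (nat_lit 59) (nat_lit 4) (nat_lit 344) (nat_lit 278) (nat_lit 278)) (XT.lf (nat_lit 0) (nat_lit 7684129305) (nat_lit 152) (nat_lit 3279679863) (nat_lit 152) (nat_lit 2495935144)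 (nat_lit 57) (nat_lit 4) (nat_lit 59) (nat_lit 5) (nat_lit 59) (nat_lit 4) (nat_lit 345) (nat_lit 278) (nat_lit 277))))) (XT.nd (nat_lit 234) (nat_lit 456) (nat_lit 0) (XT.nd (nat_lit 78) (nat_lit 532) (nat_lit 0) (XT.lf (nat_lit 0) (nat_lit 5979893238) (nat_lit 228) (nat_lit 3377288352) (nat_lit 0) (nat_lit 4494292985) (nat_lit 54) (nat_lit 5) (nat_lit 57) (nat_lit 4) (nat_lit 54) (nat_lit 4) (nat_lit 346) (nat_lit 278) (nat_lit 276)) (XT.nd (nat_lit 78) (nat_lit 304) (nat_lit 0) (XT.lf (nat_lit 0) (nat_lit 480923938) (nat_lit 228) (nat_lit 1199498992) (nat_lit 76) (nat_lit 12583727085) (nat_lit 51) (nat_lit 5) (nat_lit 54) (nat_lit 5) (nat_lit 52) (nat_lit 4) (nat_lit 347) (nat_lit 278) (nat_lit 275)) (XT.lf (nat_lit 0) (nat_lit 663189118) (nat_lit 152) (nat_lit 8391771040) (nat_lit 152) (nat_lit 5641204559) (nat_lit 47) (nat_lit 4) (nat_lit 49) (nat_lit 5) (nat_lit 49) (nat_lit 4) (nat_lit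 348) (nat_lit 278) (nat_lit 274)))) (XT.nd (nat_lit 78) (nat_lit 304) (nat_lit 0) (XT.lf (nat_lit 0) (nat_lit 2277655765) (nat_lit 76) (nat_lit 498697660) (nat_lit 152) (nat_lit 12374874047) (nat_lit 45) (nat_lit 5) (nat_lit 46) (nat_lit 5) (nat_lit 47) (nat_lit 4) (nat_lit 349) (nat_lit 278) (nat_lit 273)) (XT.nd (nat_lit 78) (nat_lit 152) (nat_lit 0) (XT.lf (nat_lit 0) (nat_lit 3495160680) (nat_lit 152) (nat_lit 7977751433) (nat_lit 152) (nat_lit 4155251216) (nat_lit 43) (nat_lit 4) (nat_lit 45) (nat_lit 5) (nat_lit 45) (nat_lit 4) (nat_lit 350) (nat_lit 278) (nat_lit 272)) (XT.lf (nat_lit 0) (nat_lit 4294619116) (nat_lit 152) (nat_lit 11772045743) (nat_lit 0) (nat_lit 63828980) (nat_lit 41) (nat_lit 5) (nat_lit 43) (nat_lit 4) (nat_lit 41) (nat_lit 4) (nat_lit 351) (nat_lit 278) (nat_lit 271)))))) (XT.nd (nat_lit 468) (nat_lit 532) (nat_lit 0) (XT.nd (nat_lit 234) (nat_lit 380) (nat_lit 0)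 (XT.nd (nat_lit 78) (nat_lit 304) (nat_lit 0) (XT.lf (nat_lit 0) (nat_lit 4748324255) (nat_lit 152) (nat_lit 8317275679) (nat_lit 152) (nat_lit 3591604709) (nat_lit 39) (nat_lit 4) (nat_lit 41) (nat_lit 5) (nat_lit 41) (nat_lit 4) (nat_lit 352) (nat_lit 278) (nat_lit 270)) (XT.nd (nat_lit 78) (nat_lit 152) (nat_lit 0) (XT.lf (nat_lit 0) (nat_lit 4690185591) (nat_lit 76) (nat_lit 180342310) (nat_lit 152) (nat_lit 12341160002) (nat_lit 37) (nat_lit 5) (nat_lit 38) (nat_lit 5) (nat_lit 39) (nat_lit 4) (nat_lit 353) (nat_lit 278) (nat_lit 269)) (XT.lf (nat_lit 0) (nat_lit 4062024992) (nat_lit 152) (nat_lit 9606321666) (nat_lit 152) (nat_lit 4124906563) (nat_lit 35) (nat_lit 4) (nat_lit 37) (nat_lit 5) (nat_lit 37) (nat_lit 4) (nat_lit 354) (nat_lit 278) (nat_lit 268)))) (XT.nd (nat_lit 78) (nat_lit 228) (nat_lit 0) (XT.lf (nat_lit 0) (nat_lit 2877550751) (nat_lit 76) (nat_lit 1444622236) (nat_lit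 152) (nat_lit 14083217677) (nat_lit 33) (nat_lit 5) (nat_lit 34) (nat_lit 5) (nat_lit 35) (nat_lit 4) (nat_lit 355) (nat_lit 278) (nat_lit 267)) (XT.nd (nat_lit 78) (nat_lit 76) (nat_lit 0) (XT.lf (nat_lit 0) (nat_lit 1007471285) (nat_lit 152) (nat_lit 12074343425) (nat_lit 152) (nat_lit 5965856371) (nat_lit 31) (nat_lit 4) (nat_lit 33) (nat_lit 5) (nat_lit 33) (nat_lit 4) (nat_lit 356) (nat_lit 278) (nat_lit 266)) (XT.lf (nat_lit 0) (nat_lit 2442311880) (nat_lit 228) (nat_lit 1516087462) (nat_lit 76) (nat_lit 15764908236) (nat_lit 30) (nat_lit 5) (nat_lit 33) (nat_lit 5) (nat_lit 31) (nat_lit 4) (nat_lit 357) (nat_lit 278) (nat_lit 265))))) (XT.nd (nat_lit 234) (nat_lit 228) (nat_lit 0) (XT.nd (nat_lit 78) (nat_lit 228) (nat_lit 0) (XT.lf (nat_lit 0) (nat_lit 11113415982) (nat_lit 152) (nat_lit 4828536826) (nat_lit 0) (nat_lit 4490047385) (nat_lit 29) (nat_lit 5) (nat_lit 31) (nat_lit 4) (nat_lit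 29) (nat_lit 4) (nat_lit 358) (nat_lit 278) (nat_lit 264)) (XT.nd (nat_lit 78) (nat_lit 152) (nat_lit 0) (XT.lf (nat_lit 0) (nat_lit 12210109599) (nat_lit 76) (nat_lit 7956406697) (nat_lit 76) (nat_lit 1011180427) (nat_lit 28) (nat_lit 4) (nat_lit 29) (nat_lit 5) (nat_lit 29) (nat_lit 4) (nat_lit 359) (nat_lit 278) (nat_lit 263)) (XT.lf (nat_lit 0) (nat_lit 7471463734) (nat_lit 152) (nat_lit 14058778193) (nat_lit 0) (nat_lit 430922582) (nat_lit 26) (nat_lit 5) (nat_lit 28) (nat_lit 4) (nat_lit 26) (nat_lit 4) (nat_lit 360) (nat_lit 278) (nat_lit 262)))) (XT.nd (nat_lit 78) (nat_lit 152) (nat_lit 0) (XT.lf (nat_lit 0) (nat_lit 2572973584) (nat_lit 76) (nat_lit 13767514679) (nat_lit 76) (nat_lit 6443542072) (nat_lit 25) (nat_lit 4) (nat_lit 26) (nat_lit 5) (nat_lit 26) (nat_lit 4) (nat_lit 361) (nat_lit 278) (nat_lit 261)) (XT.nd (nat_lit 78) (nat_lit 76) (nat_lit 0) (XT.lf (nat_lit 0) (nat_lit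 1901013261) (nat_lit 152) (nat_lit 3734850403) (nat_lit 76) (nat_lit 18013559585) (nat_lit 24) (nat_lit 5) (nat_lit 26) (nat_lit 5) (nat_lit 25) (nat_lit 4) (nat_lit 362) (nat_lit 278) (nat_lit 260)) (XT.lf (nat_lit 0) (nat_lit 10486569297) (nat_lit 152) (nat_lit 11206658150) (nat_lit 0) (nat_lit 2864250842) (nat_lit 23) (nat_lit 5) (nat_lit 25) (nat_lit 4) (nat_lit 23) (nat_lit 4) (nat_lit 363) (nat_lit 278) (nat_lit 259))))))))
noncomputable def xc15 : XT := (XT.nd (nat_lit 1872) (nat_lit 228) (nat_lit 0) (XT.nd (nat_lit 936) (nat_lit 380) (nat_lit 0) (XT.nd (nat_lit 468) (nat_lit 304) (nat_lit 0) (XT.nd (nat_lit 234) (nat_lit 228) (nat_lit 0) (XT.nd (nat_lit 78) (nat_lit 152) (nat_lit 0) (XT.lf (nat_lit 0) (nat_lit 5535069528) (nat_lit 76) (nat_lit 13918669540) (nat_lit 76) (nat_lit 6058643564) (nat_lit 22) (nat_lit 4) (nat_lit 23) (nat_lit 5) (nat_lit 23) (nat_lit 4) (nat_lit 364) (nat_lit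 278) (nat_lit 258)) (XT.nd (nat_lit 78) (nat_lit 76) (nat_lit 0) (XT.lf (nat_lit 0) (nat_lit 2232176549) (nat_lit 152) (nat_lit 3555095696) (nat_lit 76) (nat_lit 20729379984) (nat_lit 21) (nat_lit 5) (nat_lit 23) (nat_lit 5) (nat_lit 22) (nat_lit 4) (nat_lit 365) (nat_lit 278) (nat_lit 257)) (XT.lf (nat_lit 0) (nat_lit 10786845261) (nat_lit 152) (nat_lit 14056636899) (nat_lit 0) (nat_lit 2726629902) (nat_lit 20) (nat_lit 5) (nat_lit 22) (nat_lit 4) (nat_lit 20) (nat_lit 4) (nat_lit 366) (nat_lit 278) (nat_lit 256)))) (XT.nd (nat_lit 78) (nat_lit 152) (nat_lit 0) (XT.lf (nat_lit 0) (nat_lit 2480182779) (nat_lit 76) (nat_lit 17228730665) (nat_lit 76) (nat_lit 8969155409) (nat_lit 19) (nat_lit 4) (nat_lit 20) (nat_lit 5) (nat_lit 20) (nat_lit 4) (nat_lit 367) (nat_lit 278) (nat_lit 255)) (XT.nd (nat_lit 78) (nat_lit 152) (nat_lit 0) (XT.lf (nat_lit 0) (nat_lit 19803389720) (nat_lit 76) (nat_lit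 9244187060) (nat_lit 76) (nat_lit 794745235) (nat_lit 19) (nat_lit 4) (nat_lit 20) (nat_lit 5) (nat_lit 20) (nat_lit 4) (nat_lit 368) (nat_lit 278) (nat_lit 254)) (XT.lf (nat_lit 0) (nat_lit 6661462359) (nat_lit 76) (nat_lit 871409309) (nat_lit 152) (nat_lit 23532788477) (nat_lit 17) (nat_lit 5) (nat_lit 18) (nat_lit 5) (nat_lit 19) (nat_lit 4) (nat_lit 369) (nat_lit 278) (nat_lit 253))))) (XT.nd (nat_lit 234) (nat_lit 228) (nat_lit 0) (XT.nd (nat_lit 78) (nat_lit 76) (nat_lit 0) (XT.lf (nat_lit 0) (nat_lit 16277050608) (nat_lit 152) (nat_lit 8341439808) (nat_lit 0) (nat_lit 7730951867) (nat_lit 17) (nat_lit 5) (nat_lit 19) (nat_lit 4) (nat_lit 17) (nat_lit 4) (nat_lit 370) (nat_lit 278) (nat_lit 252)) (XT.nd (nat_lit 78) (nat_lit 0) (nat_lit 0) (XT.lf (nat_lit 0) (nat_lit 8378334015) (nat_lit 76) (nat_lit 17013216406) (nat_lit 76) (nat_lit 8307880888) (nat_lit 16) (nat_lit 4) (nat_lit 17) (nat_lit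 5) (nat_lit 17) (nat_lit 4) (nat_lit 371) (nat_lit 278) (nat_lit 251)) (XT.lf (nat_lit 0) (nat_lit 25816212798) (nat_lit 76) (nat_lit 9079839440) (nat_lit 76) (nat_lit 222849848) (nat_lit 16) (nat_lit 4) (nat_lit 17) (nat_lit 5) (nat_lit 17) (nat_lit 4) (nat_lit 372) (nat_lit 278) (nat_lit 250)))) (XT.nd (nat_lit 78) (nat_lit 76) (nat_lit 0) (XT.lf (nat_lit 0) (nat_lit 7298402251) (nat_lit 76) (nat_lit 731067844) (nat_lit 152) (nat_lit 28579771900) (nat_lit 14) (nat_lit 5) (nat_lit 15) (nat_lit 5) (nat_lit 16) (nat_lit 4) (nat_lit 373) (nat_lit 278) (nat_lit 249)) (XT.nd (nat_lit 78) (nat_lit 76) (nat_lit 0) (XT.lf (nat_lit 0) (nat_lit 16721030847) (nat_lit 152) (nat_lit 13603836314) (nat_lit 0) (nat_lit 7848237878) (nat_lit 14) (nat_lit 5) (nat_lit 16) (nat_lit 4) (nat_lit 14) (nat_lit 4) (nat_lit 374) (nat_lit 278) (nat_lit 248)) (XT.lf (nat_lit 0) (nat_lit 2670272322) (nat_lit 76) (nat_lit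 23073983510) (nat_lit 76) (nat_lit 14074001715) (nat_lit 13) (nat_lit 4) (nat_lit 14) (nat_lit 5) (nat_lit 14) (nat_lit 4) (nat_lit 375) (nat_lit 278) (nat_lit 247)))))) (XT.nd (nat_lit 468) (nat_lit 152) (nat_lit 0) (XT.nd (nat_lit 234) (nat_lit 76) (nat_lit 0) (XT.nd (nat_lit 78) (nat_lit 152) (nat_lit 0) (XT.lf (nat_lit 0) (nat_lit 19786931870) (nat_lit 76) (nat_lit 15439807685) (nat_lit 76) (nat_lit 6318693675) (nat_lit 13) (nat_lit 4) (nat_lit 14) (nat_lit 5) (nat_lit 14) (nat_lit 4) (nat_lit 376) (nat_lit 278) (nat_lit 246)) (XT.nd (nat_lit 78) (nat_lit 76) (nat_lit 0) (XT.lf (nat_lit 0) (nat_lit 1661868433) (nat_lit 152) (nat_lit 5862885105) (nat_lit 76) (nat_lit 35837503216) (nat_lit 12) (nat_lit 5) (nat_lit 14) (nat_lit 5) (nat_lit 13) (nat_lit 4) (nat_lit 377) (nat_lit 278) (nat_lit 245)) (XT.lf (nat_lit 0) (nat_lit 9902478262) (nat_lit 152) (nat_lit 34537469328) (nat_lit 0) (nat_lit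 828353490) (nat_lit 11) (nat_lit 5) (nat_lit 13) (nat_lit 4) (nat_lit 11) (nat_lit 4) (nat_lit 378) (nat_lit 278) (nat_lit 244)))) (XT.nd (nat_lit 78) (nat_lit 76) (nat_lit 0) (XT.lf (nat_lit 0) (nat_lit 18573662338) (nat_lit 152) (nat_lit 19297489352) (nat_lit 0) (nat_lit 9397946729) (nat_lit 11) (nat_lit 5) (nat_lit 13) (nat_lit 4) (nat_lit 11) (nat_lit 4) (nat_lit 379) (nat_lit 278) (nat_lit 243)) (XT.nd (nat_lit 78) (nat_lit 76) (nat_lit 0) (XT.lf (nat_lit 0) (nat_lit 27565685434) (nat_lit 152) (nat_lit 3514421916) (nat_lit 0) (nat_lit 18293216647) (nat_lit 11) (nat_lit 5) (nat_lit 13) (nat_lit 4) (nat_lit 11) (nat_lit 4) (nat_lit 380) (nat_lit 278) (nat_lit 242)) (XT.lf (nat_lit 0) (nat_lit 13105038208) (nat_lit 76) (nat_lit 23920892566) (nat_lit 76) (nat_lit 14556277895) (nat_lit 10) (nat_lit 4) (nat_lit 11) (nat_lit 5) (nat_lit 11) (nat_lit 4) (nat_lit 381) (nat_lit 278) (nat_lit 241)))))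 (XT.nd (nat_lit 234) (nat_lit 0) (nat_lit 0) (XT.nd (nat_lit 78) (nat_lit 152) (nat_lit 0) (XT.lf (nat_lit 0) (nat_lit 30426401483) (nat_lit 76) (nat_lit 16464777582) (nat_lit 76) (nat_lit 7012404927) (nat_lit 10) (nat_lit 4) (nat_lit 11) (nat_lit 5) (nat_lit 11) (nat_lit 4) (nat_lit 382) (nat_lit 278) (nat_lit 240)) (XT.nd (nat_lit 78) (nat_lit 76) (nat_lit 0) (XT.lf (nat_lit 0) (nat_lit 790716365) (nat_lit 152) (nat_lit 7930797466) (nat_lit 76) (nat_lit 47622264311) (nat_lit 9) (nat_lit 5) (nat_lit 11) (nat_lit 5) (nat_lit 10) (nat_lit 4) (nat_lit 383) (nat_lit 278) (nat_lit 239)) (XT.lf (nat_lit 0) (nat_lit 8298473761) (nat_lit 76) (nat_lit 526168863) (nat_lit 152) (nat_lit 50079691604) (nat_lit 8) (nat_lit 5) (nat_lit 9) (nat_lit 5) (nat_lit 10) (nat_lit 4) (nat_lit 384) (nat_lit 278) (nat_lit 238)))) (XT.nd (nat_lit 78) (nat_lit 0) (nat_lit 0) (XT.lf (nat_lit 0) (nat_lit 17326901435) (nat_lit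 152) (nat_lit 36346208120) (nat_lit 0) (nat_lit 7917814625) (nat_lit 8) (nat_lit 5) (nat_lit 10) (nat_lit 4) (nat_lit 8) (nat_lit 4) (nat_lit 385) (nat_lit 278) (nat_lit 237)) (XT.nd (nat_lit 78) (nat_lit 0) (nat_lit 0) (XT.lf (nat_lit 0) (nat_lit 26170562610) (nat_lit 152) (nat_lit 21552417277) (nat_lit 0) (nat_lit 16691379964) (nat_lit 8) (nat_lit 5) (nat_lit 10) (nat_lit 4) (nat_lit 8) (nat_lit 4) (nat_lit 386) (nat_lit 278) (nat_lit 236)) (XT.lf (nat_lit 0) (nat_lit 35371624628) (nat_lit 152) (nat_lit 6184206770) (nat_lit 0) (nat_lit 25825684043) (nat_lit 8) (nat_lit 5) (nat_lit 10) (nat_lit 4) (nat_lit 8) (nat_lit 4) (nat_lit 387) (nat_lit 278) (nat_lit 235))))))) (XT.nd (nat_lit 43524) (nat_lit 0) (nat_lit 2128) (XT.nd (nat_lit 468) (nat_lit 0) (nat_lit 0) (XT.nd (nat_lit 234) (nat_lit 152) (nat_lit 0) (XT.nd (nat_lit 78) (nat_lit 0) (nat_lit 0) (XT.lf (nat_lit 0) (nat_lit 9989954369)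 (nat_lit 76) (nat_lit 35058069964) (nat_lit 76) (nat_lit 25448550390) (nat_lit 7) (nat_lit 4) (nat_lit 8) (nat_lit 5) (nat_lit 8) (nat_lit 4) (nat_lit 388) (nat_lit 278) (nat_lit 234)) (XT.nd (nat_lit 78) (nat_lit 0) (nat_lit 0) (XT.lf (nat_lit 0) (nat_lit 26949167250) (nat_lit 76) (nat_lit 28244368103) (nat_lit 76) (nat_lit 18574297111) (nat_lit 7) (nat_lit 4) (nat_lit 8) (nat_lit 5) (nat_lit 8) (nat_lit 4) (nat_lit 389) (nat_lit 278) (nat_lit 233)) (XT.lf (nat_lit 0) (nat_lit 44610733110) (nat_lit 76) (nat_lit 21160951079) (nat_lit 76) (nat_lit 11433212069) (nat_lit 7) (nat_lit 4) (nat_lit 8) (nat_lit 5) (nat_lit 8) (nat_lit 4) (nat_lit 390) (nat_lit 278) (nat_lit 232)))) (XT.nd (nat_lit 78) (nat_lit 152) (nat_lit 0) (XT.lf (nat_lit 0) (nat_lit 63016703296) (nat_lit 76) (nat_lit 13790953613) (nat_lit 76) (nat_lit 4008292681) (nat_lit 7) (nat_lit 4) (nat_lit 8) (nat_lit 5) (nat_lit 8) (nat_lit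 4) (nat_lit 391) (nat_lit 278) (nat_lit 231)) (XT.nd (nat_lit 78) (nat_lit 76) (nat_lit 0) (XT.lf (nat_lit 0) (nat_lit 3645585138) (nat_lit 152) (nat_lit 2434429693) (nat_lit 76) (nat_lit 78528503147) (nat_lit 6) (nat_lit 5) (nat_lit 8) (nat_lit 5) (nat_lit 7) (nat_lit 4) (nat_lit 392) (nat_lit 278) (nat_lit 230)) (XT.lf (nat_lit 0) (nat_lit 11688072815) (nat_lit 152) (nat_lit 74807594564) (nat_lit 0) (nat_lit 2091195799) (nat_lit 5) (nat_lit 5) (nat_lit 7) (nat_lit 4) (nat_lit 5) (nat_lit 4) (nat_lit 393) (nat_lit 278) (nat_lit 229))))) (XT.nd (nat_lit 42822) (nat_lit 0) (nat_lit 4104) (XT.nd (nat_lit 78) (nat_lit 0) (nat_lit 0) (XT.lf (nat_lit 0) (nat_lit 20155578913) (nat_lit 152) (nat_lit 62095222996) (nat_lit 0) (nat_lit 10512640129) (nat_lit 5) (nat_lit 5) (nat_lit 7) (nat_lit 4) (nat_lit 5) (nat_lit 4) (nat_lit 394) (nat_lit 278) (nat_lit 228)) (XT.nd (nat_lit 78) (nat_lit 0) (nat_lit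 0) (XT.lf (nat_lit 0) (nat_lit 28985716075) (nat_lit 152) (nat_lit 48866050221) (nat_lit 0) (nat_lit 19298908942) (nat_lit 5) (nat_lit 5) (nat_lit 7) (nat_lit 4) (nat_lit 5) (nat_lit 4) (nat_lit 395) (nat_lit 278) (nat_lit 227)) (XT.lf (nat_lit 0) (nat_lit 38199508438) (nat_lit 152) (nat_lit 35088578209) (nat_lit 0) (nat_lit 28470921923) (nat_lit 5) (nat_lit 5) (nat_lit 7) (nat_lit 4) (nat_lit 5) (nat_lit 4) (nat_lit 396) (nat_lit 278) (nat_lit 226)))) (XT.nd (nat_lit 78) (nat_lit 608) (nat_lit 0) (XT.lf (nat_lit 0) (nat_lit 5415569018) (nat_lit 228) (nat_lit 389882757) (nat_lit 228) (nat_lit 389882757) (nat_lit 67) (nat_lit 4) (nat_lit 70) (nat_lit 5) (nat_lit 70) (nat_lit 4) (nat_lit 342) (nat_lit 279) (nat_lit 279)) (XT.nd (nat_lit 78) (nat_lit 228) (nat_lit 0) (XT.lf (nat_lit 0) (nat_lit 1479506786) (nat_lit 152) (nat_lit 6050044238) (nat_lit 152) (nat_lit 5202424325) (nat_lit 62) (nat_lit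 4) (nat_lit 64) (nat_lit 5) (nat_lit 64) (nat_lit 4) (nat_lit 343) (nat_lit 279) (nat_lit 278)) (XT.lf (nat_lit 0) (nat_lit 3014087462) (nat_lit 228) (nat_lit 8669941269) (nat_lit 0) (nat_lit 1407410788) (nat_lit 59) (nat_lit 5) (nat_lit 62) (nat_lit 4) (nat_lit 59) (nat_lit 4) (nat_lit 344) (nat_lit 279) (nat_lit 277)))))) (XT.nd (nat_lit 468) (nat_lit 760) (nat_lit 0) (XT.nd (nat_lit 234) (nat_lit 608) (nat_lit 0) (XT.nd (nat_lit 78) (nat_lit 456) (nat_lit 0) (XT.lf (nat_lit 0) (nat_lit 7158682003) (nat_lit 152) (nat_lit 4331554935) (nat_lit 152) (nat_lit 1978454719) (nat_lit 57) (nat_lit 4) (nat_lit 59) (nat_lit 5) (nat_lit 59) (nat_lit 4) (nat_lit 345) (nat_lit 279) (nat_lit 276)) (XT.nd (nat_lit 78) (nat_lit 228) (nat_lit 0) (XT.lf (nat_lit 0) (nat_lit 6329256567) (nat_lit 228) (nat_lit 4181261333) (nat_lit 0) (nat_lit 3354518918) (nat_lit 54) (nat_lit 5) (nat_lit 57) (nat_lit 4) (nat_lit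 54) (nat_lit 4) (nat_lit 346) (nat_lit 279) (nat_lit 275)) (XT.lf (nat_lit 0) (nat_lit 662615017) (nat_lit 228) (nat_lit 2286938052) (nat_lit 76) (nat_lit 11332510848) (nat_lit 51) (nat_lit 5) (nat_lit 54) (nat_lit 5) (nat_lit 52) (nat_lit 4) (nat_lit 347) (nat_lit 279) (nat_lit 274)))) (XT.nd (nat_lit 78) (nat_lit 456) (nat_lit 0) (XT.lf (nat_lit 0) (nat_lit 9070982468) (nat_lit 228) (nat_lit 711138472) (nat_lit 0) (nat_lit 4936948483) (nat_lit 49) (nat_lit 5) (nat_lit 52) (nat_lit 4) (nat_lit 49) (nat_lit 4) (nat_lit 348) (nat_lit 279) (nat_lit 273)) (XT.nd (nat_lit 78) (nat_lit 152) (nat_lit 0) (XT.lf (nat_lit 0) (nat_lit 591299913) (nat_lit 76) (nat_lit 2021590446) (nat_lit 152) (nat_lit 12565964432) (nat_lit 45) (nat_lit 5) (nat_lit 46) (nat_lit 5) (nat_lit 47) (nat_lit 4) (nat_lit 349) (nat_lit 279) (nat_lit 272)) (XT.lf (nat_lit 0) (nat_lit 1519324345) (nat_lit 152) (nat_lit 9626109095)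 (nat_lit 152) (nat_lit 4515295941) (nat_lit 43) (nat_lit 4) (nat_lit 45) (nat_lit 5) (nat_lit 45) (nat_lit 4) (nat_lit 350) (nat_lit 279) (nat_lit 271))))) (XT.nd (nat_lit 234) (nat_lit 304) (nat_lit 0) (XT.nd (nat_lit 78) (nat_lit 304) (nat_lit 0) (XT.lf (nat_lit 0) (nat_lit 2075924665) (nat_lit 76) (nat_lit 1715437442) (nat_lit 152) (nat_lit 12376325642) (nat_lit 41) (nat_lit 5) (nat_lit 42) (nat_lit 5) (nat_lit 43) (nat_lit 4) (nat_lit 351) (nat_lit 279) (nat_lit 270)) (XT.nd (nat_lit 78) (nat_lit 152) (nat_lit 0) (XT.lf (nat_lit 0) (nat_lit 2164973739) (nat_lit 152) (nat_lit 10231286900) (nat_lit 152) (nat_lit 4303136467) (nat_lit 39) (nat_lit 4) (nat_lit 41) (nat_lit 5) (nat_lit 41) (nat_lit 4) (nat_lit 352) (nat_lit 279) (nat_lit 269)) (XT.lf (nat_lit 0) (nat_lit 1789301298) (nat_lit 76) (nat_lit 2233518030) (nat_lit 152) (nat_lit 13235782943) (nat_lit 37) (nat_lit 5) (nat_lit 38) (nat_lit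 5) (nat_lit 39) (nat_lit 4) (nat_lit 353) (nat_lit 279) (nat_lit 268)))) (XT.nd (nat_lit 78) (nat_lit 152) (nat_lit 0) (XT.lf (nat_lit 0) (nat_lit 849567188) (nat_lit 152) (nat_lit 11801022383) (nat_lit 152) (nat_lit 5194693635) (nat_lit 35) (nat_lit 4) (nat_lit 37) (nat_lit 5) (nat_lit 37) (nat_lit 4) (nat_lit 354) (nat_lit 279) (nat_lit 267)) (XT.nd (nat_lit 78) (nat_lit 76) (nat_lit 0) (XT.lf (nat_lit 0) (nat_lit 3128625735) (nat_lit 228) (nat_lit 650499754) (nat_lit 76) (nat_lit 14682955828) (nat_lit 34) (nat_lit 5) (nat_lit 37) (nat_lit 5) (nat_lit 35) (nat_lit 4) (nat_lit 355) (nat_lit 279) (nat_lit 266)) (XT.lf (nat_lit 0) (nat_lit 11735322354) (nat_lit 152) (nat_lit 2801490989) (nat_lit 0) (nat_lit 4572149217) (nat_lit 33) (nat_lit 5) (nat_lit 35) (nat_lit 4) (nat_lit 33) (nat_lit 4) (nat_lit 356) (nat_lit 279) (nat_lit 265))))))))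
noncomputable def xc16 : XT := (XT.nd (nat_lit 1794) (nat_lit 456) (nat_lit 0) (XT.nd (nat_lit 858) (nat_lit 684) (nat_lit 0) (XT.nd (nat_lit 390) (nat_lit 456) (nat_lit 0) (XT.nd (nat_lit 156) (nat_lit 228) (nat_lit 0) (XT.nd (nat_lit 78) (nat_lit 76) (nat_lit 0) (XT.lf (nat_lit 0) (nat_lit 922221248) (nat_lit 228) (nat_lit 5639153075) (nat_lit 76) (nat_lit 13227835574) (nat_lit 30) (nat_lit 5) (nat_lit 33) (nat_lit 5) (nat_lit 31) (nat_lit 4) (nat_lit 357) (nat_lit 279) (nat_lit 264)) (XT.lf (nat_lit 0) (nat_lit 9417898884) (nat_lit 152) (nat_lit 9281723777) (nat_lit 0) (nat_lit 1803553627) (nat_lit 29) (nat_lit 5) (nat_lit 31) (nat_lit 4) (nat_lit 29) (nat_lit 4) (nat_lit 358) (nat_lit 279) (nat_lit 263))) (XT.nd (nat_lit 78) (nat_lit 152) (nat_lit 0) (XT.lf (nat_lit 0) (nat_lit 7467840205) (nat_lit 76) (nat_lit 10853208975) (nat_lit 76) (nat_lit 2932332601) (nat_lit 28) (nat_lit 4) (nat_lit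 29) (nat_lit 5) (nat_lit 29) (nat_lit 4) (nat_lit 359) (nat_lit 279) (nat_lit 262)) (XT.nd (nat_lit 78) (nat_lit 0) (nat_lit 0) (XT.lf (nat_lit 0) (nat_lit 2814936967) (nat_lit 76) (nat_lit 2617451081) (nat_lit 152) (nat_lit 16609687574) (nat_lit 26) (nat_lit 5) (nat_lit 27) (nat_lit 5) (nat_lit 28) (nat_lit 4) (nat_lit 360) (nat_lit 279) (nat_lit 261)) (XT.lf (nat_lit 0) (nat_lit 14151495900) (nat_lit 152) (nat_lit 2809993768) (nat_lit 0) (nat_lit 5907958491) (nat_lit 26) (nat_lit 5) (nat_lit 28) (nat_lit 4) (nat_lit 26) (nat_lit 4) (nat_lit 361) (nat_lit 279) (nat_lit 260))))) (XT.nd (nat_lit 234) (nat_lit 228) (nat_lit 0) (XT.nd (nat_lit 78) (nat_lit 152) (nat_lit 0) (XT.lf (nat_lit 0) (nat_lit 14310751847) (nat_lit 76) (nat_lit 8964506292) (nat_lit 76) (nat_lit 463888199) (nat_lit 25) (nat_lit 4) (nat_lit 26) (nat_lit 5) (nat_lit 26) (nat_lit 4) (nat_lit 362) (nat_lit 279) (nat_lit 259))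 (XT.nd (nat_lit 78) (nat_lit 0) (nat_lit 0) (XT.lf (nat_lit 0) (nat_lit 7396684016) (nat_lit 76) (nat_lit 555109508) (nat_lit 152) (nat_lit 16700917535) (nat_lit 23) (nat_lit 5) (nat_lit 24) (nat_lit 5) (nat_lit 25) (nat_lit 4) (nat_lit 363) (nat_lit 279) (nat_lit 258)) (XT.lf (nat_lit 0) (nat_lit 16769093322) (nat_lit 152) (nat_lit 791055494) (nat_lit 0) (nat_lit 8051970411) (nat_lit 23) (nat_lit 5) (nat_lit 25) (nat_lit 4) (nat_lit 23) (nat_lit 4) (nat_lit 364) (nat_lit 279) (nat_lit 257)))) (XT.nd (nat_lit 78) (nat_lit 152) (nat_lit 0) (XT.lf (nat_lit 0) (nat_lit 16473135578) (nat_lit 76) (nat_lit 9539769274) (nat_lit 76) (nat_lit 607038634) (nat_lit 22) (nat_lit 4) (nat_lit 23) (nat_lit 5) (nat_lit 23) (nat_lit 4) (nat_lit 365) (nat_lit 279) (nat_lit 256)) (XT.nd (nat_lit 78) (nat_lit 0) (nat_lit 0) (XT.lf (nat_lit 0) (nat_lit 6658077080) (nat_lit 76) (nat_lit 1123276818) (nat_lit 152) (nat_lit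 19897574933) (nat_lit 20) (nat_lit 5) (nat_lit 21) (nat_lit 5) (nat_lit 22) (nat_lit 4) (nat_lit 366) (nat_lit 279) (nat_lit 255)) (XT.lf (nat_lit 0) (nat_lit 16585370529) (nat_lit 152) (nat_lit 4681473075) (nat_lit 0) (nat_lit 7523590044) (nat_lit 20) (nat_lit 5) (nat_lit 22) (nat_lit 4) (nat_lit 20) (nat_lit 4) (nat_lit 367) (nat_lit 279) (nat_lit 254)))))) (XT.nd (nat_lit 468) (nat_lit 304) (nat_lit 0) (XT.nd (nat_lit 234) (nat_lit 152) (nat_lit 0) (XT.nd (nat_lit 78) (nat_lit 152) (nat_lit 0) (XT.lf (nat_lit 0) (nat_lit 12393303864) (nat_lit 76) (nat_lit 13403899904) (nat_lit 76) (nat_lit 4161294116) (nat_lit 19) (nat_lit 4) (nat_lit 20) (nat_lit 5) (nat_lit 20) (nat_lit 4) (nat_lit 368) (nat_lit 279) (nat_lit 253)) (XT.nd (nat_lit 78) (nat_lit 76) (nat_lit 0) (XT.lf (nat_lit 0) (nat_lit 4090133972) (nat_lit 152) (nat_lit 1111848397) (nat_lit 76) (nat_lit 25985086658) (nat_lit 18) (nat_lit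 5) (nat_lit 20) (nat_lit 5) (nat_lit 19) (nat_lit 4) (nat_lit 369) (nat_lit 279) (nat_lit 252)) (XT.lf (nat_lit 0) (nat_lit 12705470985) (nat_lit 152) (nat_lit 16363618959) (nat_lit 0) (nat_lit 3405631913) (nat_lit 17) (nat_lit 5) (nat_lit 19) (nat_lit 4) (nat_lit 17) (nat_lit 4) (nat_lit 370) (nat_lit 279) (nat_lit 251)))) (XT.nd (nat_lit 78) (nat_lit 76) (nat_lit 0) (XT.lf (nat_lit 0) (nat_lit 53963481) (nat_lit 76) (nat_lit 21613411795) (nat_lit 76) (nat_lit 12161918650) (nat_lit 16) (nat_lit 4) (nat_lit 17) (nat_lit 5) (nat_lit 17) (nat_lit 4) (nat_lit 371) (nat_lit 279) (nat_lit 250)) (XT.nd (nat_lit 78) (nat_lit 76) (nat_lit 0) (XT.lf (nat_lit 0) (nat_lit 17356095324) (nat_lit 76) (nat_lit 13745356334) (nat_lit 76) (nat_lit 4149430737) (nat_lit 16) (nat_lit 4) (nat_lit 17) (nat_lit 5) (nat_lit 17) (nat_lit 4) (nat_lit 372) (nat_lit 279) (nat_lit 249)) (XT.lf (nat_lit 0) (nat_lit 4041613711)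 (nat_lit 152) (nat_lit 1529004476) (nat_lit 76) (nat_lit 31175877931) (nat_lit 15) (nat_lit 5) (nat_lit 17) (nat_lit 5) (nat_lit 16) (nat_lit 4) (nat_lit 373) (nat_lit 279) (nat_lit 248))))) (XT.nd (nat_lit 234) (nat_lit 152) (nat_lit 0) (XT.nd (nat_lit 78) (nat_lit 76) (nat_lit 0) (XT.lf (nat_lit 0) (nat_lit 12605192677) (nat_lit 152) (nat_lit 22680987314) (nat_lit 0) (nat_lit 3028022966) (nat_lit 14) (nat_lit 5) (nat_lit 16) (nat_lit 4) (nat_lit 14) (nat_lit 4) (nat_lit 374) (nat_lit 279) (nat_lit 247)) (XT.nd (nat_lit 78) (nat_lit 76) (nat_lit 0) (XT.lf (nat_lit 0) (nat_lit 21539585172) (nat_lit 152) (nat_lit 6581156155) (nat_lit 0) (nat_lit 11841283246) (nat_lit 14) (nat_lit 5) (nat_lit 16) (nat_lit 4) (nat_lit 14) (nat_lit 4) (nat_lit 375) (nat_lit 279) (nat_lit 246)) (XT.lf (nat_lit 0) (nat_lit 10285856635) (nat_lit 76) (nat_lit 20610394023) (nat_lit 76) (nat_lit 10796728082) (nat_lit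 13) (nat_lit 4) (nat_lit 14) (nat_lit 5) (nat_lit 14) (nat_lit 4) (nat_lit 376) (nat_lit 279) (nat_lit 245)))) (XT.nd (nat_lit 78) (nat_lit 152) (nat_lit 0) (XT.lf (nat_lit 0) (nat_lit 27902060079) (nat_lit 76) (nat_lit 12766761248) (nat_lit 76) (nat_lit 2843224817) (nat_lit 13) (nat_lit 4) (nat_lit 14) (nat_lit 5) (nat_lit 14) (nat_lit 4) (nat_lit 377) (nat_lit 279) (nat_lit 244)) (XT.nd (nat_lit 78) (nat_lit 0) (nat_lit 0) (XT.lf (nat_lit 0) (nat_lit 715062242) (nat_lit 76) (nat_lit 4577172848) (nat_lit 152) (nat_lit 40131497716) (nat_lit 11) (nat_lit 5) (nat_lit 12) (nat_lit 5) (nat_lit 13) (nat_lit 4) (nat_lit 378) (nat_lit 279) (nat_lit 243)) (XT.lf (nat_lit 0) (nat_lit 13864435126) (nat_lit 152) (nat_lit 29531478120) (nat_lit 0) (nat_lit 4031589722) (nat_lit 11) (nat_lit 5) (nat_lit 13) (nat_lit 4) (nat_lit 11) (nat_lit 4) (nat_lit 379) (nat_lit 279) (nat_lit 242))))))) (XT.nd (nat_lit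 936) (nat_lit 152) (nat_lit 0) (XT.nd (nat_lit 468) (nat_lit 76) (nat_lit 0) (XT.nd (nat_lit 234) (nat_lit 152) (nat_lit 0) (XT.nd (nat_lit 78) (nat_lit 76) (nat_lit 0) (XT.lf (nat_lit 0) (nat_lit 22804091122) (nat_lit 152) (nat_lit 13850111748) (nat_lit 0) (nat_lit 12879099834) (nat_lit 11) (nat_lit 5) (nat_lit 13) (nat_lit 4) (nat_lit 11) (nat_lit 4) (nat_lit 380) (nat_lit 279) (nat_lit 241)) (XT.nd (nat_lit 78) (nat_lit 0) (nat_lit 0) (XT.lf (nat_lit 0) (nat_lit 2464862059) (nat_lit 76) (nat_lit 29647321091) (nat_lit 76) (nat_lit 19634571819) (nat_lit 10) (nat_lit 4) (nat_lit 11) (nat_lit 5) (nat_lit 11) (nat_lit 4) (nat_lit 381) (nat_lit 279) (nat_lit 240)) (XT.lf (nat_lit 0) (nat_lit 19692143597) (nat_lit 76) (nat_lit 22236884970) (nat_lit 76) (nat_lit 12140556664) (nat_lit 10) (nat_lit 4) (nat_lit 11) (nat_lit 5) (nat_lit 11) (nat_lit 4) (nat_lit 382) (nat_lit 279) (nat_lit 239)))) (XT.nd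 (nat_lit 78) (nat_lit 152) (nat_lit 0) (XT.lf (nat_lit 0) (nat_lit 37597105823) (nat_lit 76) (nat_lit 14545109581) (nat_lit 76) (nat_lit 4369182197) (nat_lit 10) (nat_lit 4) (nat_lit 11) (nat_lit 5) (nat_lit 11) (nat_lit 4) (nat_lit 383) (nat_lit 279) (nat_lit 238)) (XT.nd (nat_lit 78) (nat_lit 76) (nat_lit 0) (XT.lf (nat_lit 0) (nat_lit 3625892485) (nat_lit 152) (nat_lit 2891174285) (nat_lit 76) (nat_lit 52559872707) (nat_lit 9) (nat_lit 5) (nat_lit 11) (nat_lit 5) (nat_lit 10) (nat_lit 4) (nat_lit 384) (nat_lit 279) (nat_lit 237)) (XT.lf (nat_lit 0) (nat_lit 11998512595) (nat_lit 152) (nat_lit 47793633407) (nat_lit 0) (nat_lit 1975274981) (nat_lit 8) (nat_lit 5) (nat_lit 10) (nat_lit 4) (nat_lit 8) (nat_lit 4) (nat_lit 385) (nat_lit 279) (nat_lit 236))))) (XT.nd (nat_lit 234) (nat_lit 76) (nat_lit 0) (XT.nd (nat_lit 78) (nat_lit 0) (nat_lit 0) (XT.lf (nat_lit 0) (nat_lit 20800816591) (nat_lit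 152) (nat_lit 33080462017) (nat_lit 0) (nat_lit 10710821039) (nat_lit 8) (nat_lit 5) (nat_lit 10) (nat_lit 4) (nat_lit 8) (nat_lit 4) (nat_lit 386) (nat_lit 279) (nat_lit 235)) (XT.nd (nat_lit 78) (nat_lit 0) (nat_lit 0) (XT.lf (nat_lit 0) (nat_lit 29962490821) (nat_lit 152) (nat_lit 17789031941) (nat_lit 0) (nat_lit 19808916279) (nat_lit 8) (nat_lit 5) (nat_lit 10) (nat_lit 4) (nat_lit 8) (nat_lit 4) (nat_lit 387) (nat_lit 279) (nat_lit 234)) (XT.lf (nat_lit 0) (nat_lit 39505348793) (nat_lit 152) (nat_lit 1882935014) (nat_lit 0) (nat_lit 29291222833) (nat_lit 8) (nat_lit 5) (nat_lit 10) (nat_lit 4) (nat_lit 8) (nat_lit 4) (nat_lit 388) (nat_lit 279) (nat_lit 233)))) (XT.nd (nat_lit 78) (nat_lit 0) (nat_lit 0) (XT.lf (nat_lit 0) (nat_lit 14967775638) (nat_lit 76) (nat_lit 34628215377) (nat_lit 76) (nat_lit 24356421398) (nat_lit 7) (nat_lit 4) (nat_lit 8) (nat_lit 5) (nat_lit 8) (nat_lit 4) (nat_lit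 389) (nat_lit 279) (nat_lit 232)) (XT.nd (nat_lit 78) (nat_lit 0) (nat_lit 0) (XT.lf (nat_lit 0) (nat_lit 32561695661) (nat_lit 76) (nat_lit 27577769284) (nat_lit 76) (nat_lit 17251053384) (nat_lit 7) (nat_lit 4) (nat_lit 8) (nat_lit 5) (nat_lit 8) (nat_lit 4) (nat_lit 390) (nat_lit 279) (nat_lit 231)) (XT.lf (nat_lit 0) (nat_lit 50903241240) (nat_lit 76) (nat_lit 20239172705) (nat_lit 76) (nat_lit 9860150213) (nat_lit 7) (nat_lit 4) (nat_lit 8) (nat_lit 5) (nat_lit 8) (nat_lit 4) (nat_lit 391) (nat_lit 279) (nat_lit 230)))))) (XT.nd (nat_lit 42900) (nat_lit 0) (nat_lit 3724) (XT.nd (nat_lit 234) (nat_lit 0) (nat_lit 0) (XT.nd (nat_lit 78) (nat_lit 152) (nat_lit 0) (XT.lf (nat_lit 0) (nat_lit 70036082723) (nat_lit 76) (nat_lit 12594952791) (nat_lit 76) (nat_lit 2166114497) (nat_lit 7) (nat_lit 4) (nat_lit 8) (nat_lit 5) (nat_lit 8) (nat_lit 4) (nat_lit 392) (nat_lit 279) (nat_lit 229)) (XT.nd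 (nat_lit 78) (nat_lit 0) (nat_lit 0) (XT.lf (nat_lit 0) (nat_lit 1189446511) (nat_lit 76) (nat_lit 4557217737) (nat_lit 152) (nat_lit 83034616523) (nat_lit 5) (nat_lit 5) (nat_lit 6) (nat_lit 5) (nat_lit 7) (nat_lit 4) (nat_lit 393) (nat_lit 279) (nat_lit 228)) (XT.lf (nat_lit 0) (nat_lit 14140732246) (nat_lit 152) (nat_lit 74893615622) (nat_lit 0) (nat_lit 3925716405) (nat_lit 5) (nat_lit 5) (nat_lit 7) (nat_lit 4) (nat_lit 5) (nat_lit 4) (nat_lit 394) (nat_lit 279) (nat_lit 227)))) (XT.nd (nat_lit 78) (nat_lit 0) (nat_lit 0) (XT.lf (nat_lit 0) (nat_lit 22942649088) (nat_lit 152) (nat_lit 61719642555) (nat_lit 0) (nat_lit 12685853866) (nat_lit 5) (nat_lit 5) (nat_lit 7) (nat_lit 4) (nat_lit 5) (nat_lit 4) (nat_lit 395) (nat_lit 279) (nat_lit 226)) (XT.nd (nat_lit 42510) (nat_lit 0) (nat_lit 5168) (XT.lf (nat_lit 0) (nat_lit 32129564955) (nat_lit 152) (nat_lit 47994741694) (nat_lit 0) (nat_lit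 21832979846) (nat_lit 5) (nat_lit 5) (nat_lit 7) (nat_lit 4) (nat_lit 5) (nat_lit 4) (nat_lit 396) (nat_lit 279) (nat_lit 225)) (XT.lf (nat_lit 0) (nat_lit 1972368039) (nat_lit 228) (nat_lit 1951450125) (nat_lit 228) (nat_lit 1951450125) (nat_lit 73) (nat_lit 4) (nat_lit 76) (nat_lit 5) (nat_lit 76) (nat_lit 4) (nat_lit 340) (nat_lit 280) (nat_lit 280))))) (XT.nd (nat_lit 234) (nat_lit 608) (nat_lit 0) (XT.nd (nat_lit 78) (nat_lit 608) (nat_lit 0) (XT.lf (nat_lit 0) (nat_lit 4113901931) (nat_lit 228) (nat_lit 4753367226) (nat_lit 0) (nat_lit 3197200995) (nat_lit 70) (nat_lit 5) (nat_lit 73) (nat_lit 4) (nat_lit 70) (nat_lit 4) (nat_lit 341) (nat_lit 280) (nat_lit 279)) (XT.nd (nat_lit 78) (nat_lit 380) (nat_lit 0) (XT.lf (nat_lit 0) (nat_lit 10582558723) (nat_lit 228) (nat_lit 1801103919) (nat_lit 228) (nat_lit 11354472) (nat_lit 67) (nat_lit 4) (nat_lit 70) (nat_lit 5) (nat_lit 70) (nat_lit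 4) (nat_lit 342) (nat_lit 280) (nat_lit 278)) (XT.lf (nat_lit 0) (nat_lit 961929073) (nat_lit 152) (nat_lit 7161925773) (nat_lit 152) (nat_lit 4617047890) (nat_lit 62) (nat_lit 4) (nat_lit 64) (nat_lit 5) (nat_lit 64) (nat_lit 4) (nat_lit 343) (nat_lit 280) (nat_lit 277)))) (XT.nd (nat_lit 78) (nat_lit 380) (nat_lit 0) (XT.lf (nat_lit 0) (nat_lit 3429967763) (nat_lit 228) (nat_lit 9462209012) (nat_lit 0) (nat_lit 212788995) (nat_lit 59) (nat_lit 5) (nat_lit 62) (nat_lit 4) (nat_lit 59) (nat_lit 4) (nat_lit 344) (nat_lit 280) (nat_lit 276)) (XT.nd (nat_lit 78) (nat_lit 228) (nat_lit 0) (XT.lf (nat_lit 0) (nat_lit 6106536334) (nat_lit 152) (nat_lit 5654064823) (nat_lit 152) (nat_lit 1726006492) (nat_lit 57) (nat_lit 4) (nat_lit 59) (nat_lit 5) (nat_lit 59) (nat_lit 4) (nat_lit 345) (nat_lit 280) (nat_lit 275)) (XT.lf (nat_lit 0) (nat_lit 6417645570) (nat_lit 228) (nat_lit 5523343046) (nat_lit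 0) (nat_lit 1946687816) (nat_lit 54) (nat_lit 5) (nat_lit 57) (nat_lit 4) (nat_lit 54) (nat_lit 4) (nat_lit 346) (nat_lit 280) (nat_lit 274))))))))
noncomputable def xc17 : XT := (XT.nd (nat_lit 1872) (nat_lit 912) (nat_lit 0) (XT.nd (nat_lit 936) (nat_lit 912) (nat_lit 0) (XT.nd (nat_lit 468) (nat_lit 912) (nat_lit 0) (XT.nd (nat_lit 234) (nat_lit 380) (nat_lit 0) (XT.nd (nat_lit 78) (nat_lit 380) (nat_lit 0) (XT.lf (nat_lit 0) (nat_lit 580843757) (nat_lit 228) (nat_lit 3917853393) (nat_lit 76) (nat_lit 9810395292) (nat_lit 51) (nat_lit 5) (nat_lit 54) (nat_lit 5) (nat_lit 52) (nat_lit 4) (nat_lit 347) (nat_lit 280) (nat_lit 273)) (XT.nd (nat_lit 78) (nat_lit 228) (nat_lit 0) (XT.lf (nat_lit 0) (nat_lit 8828336580) (nat_lit 228) (nat_lit 2621615204) (nat_lit 0) (nat_lit 3300992154) (nat_lit 49) (nat_lit 5) (nat_lit 52) (nat_lit 4) (nat_lit 49) (nat_lit 4) (nat_lit 348) (nat_lit 280) (nat_lit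 272)) (XT.lf (nat_lit 0) (nat_lit 2192018994) (nat_lit 228) (nat_lit 1628815898) (nat_lit 76) (nat_lit 11394543081) (nat_lit 46) (nat_lit 5) (nat_lit 49) (nat_lit 5) (nat_lit 47) (nat_lit 4) (nat_lit 349) (nat_lit 280) (nat_lit 271)))) (XT.nd (nat_lit 78) (nat_lit 304) (nat_lit 0) (XT.lf (nat_lit 0) (nat_lit 10552360137) (nat_lit 152) (nat_lit 1009010437) (nat_lit 0) (nat_lit 4141065443) (nat_lit 45) (nat_lit 5) (nat_lit 47) (nat_lit 4) (nat_lit 45) (nat_lit 4) (nat_lit 350) (nat_lit 280) (nat_lit 270)) (XT.nd (nat_lit 78) (nat_lit 76) (nat_lit 0) (XT.lf (nat_lit 0) (nat_lit 3017437970) (nat_lit 228) (nat_lit 771350147) (nat_lit 76) (nat_lit 12425351339) (nat_lit 42) (nat_lit 5) (nat_lit 45) (nat_lit 5) (nat_lit 43) (nat_lit 4) (nat_lit 351) (nat_lit 280) (nat_lit 269)) (XT.lf (nat_lit 0) (nat_lit 11455139236) (nat_lit 152) (nat_lit 985346118) (nat_lit 0) (nat_lit 4310394695) (nat_lit 41) (nat_lit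 5) (nat_lit 43) (nat_lit 4) (nat_lit 41) (nat_lit 4) (nat_lit 352) (nat_lit 280) (nat_lit 268))))) (XT.nd (nat_lit 234) (nat_lit 380) (nat_lit 0) (XT.nd (nat_lit 78) (nat_lit 304) (nat_lit 0) (XT.lf (nat_lit 0) (nat_lit 2906270136) (nat_lit 228) (nat_lit 1672512835) (nat_lit 76) (nat_lit 12735902076) (nat_lit 38) (nat_lit 5) (nat_lit 41) (nat_lit 5) (nat_lit 39) (nat_lit 4) (nat_lit 353) (nat_lit 280) (nat_lit 267)) (XT.nd (nat_lit 78) (nat_lit 228) (nat_lit 0) (XT.lf (nat_lit 0) (nat_lit 11373025384) (nat_lit 152) (nat_lit 2907130903) (nat_lit 0) (nat_lit 3626053636) (nat_lit 37) (nat_lit 5) (nat_lit 39) (nat_lit 4) (nat_lit 37) (nat_lit 4) (nat_lit 354) (nat_lit 280) (nat_lit 266)) (XT.lf (nat_lit 0) (nat_lit 1676065562) (nat_lit 228) (nat_lit 4721016990) (nat_lit 76) (nat_lit 12130529589) (nat_lit 34) (nat_lit 5) (nat_lit 37) (nat_lit 5) (nat_lit 35) (nat_lit 4) (nat_lit 355) (nat_lit 280)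 (nat_lit 265)))) (XT.nd (nat_lit 78) (nat_lit 304) (nat_lit 0) (XT.lf (nat_lit 0) (nat_lit 10108361856) (nat_lit 152) (nat_lit 7197927954) (nat_lit 0) (nat_lit 1873447461) (nat_lit 33) (nat_lit 5) (nat_lit 35) (nat_lit 4) (nat_lit 33) (nat_lit 4) (nat_lit 356) (nat_lit 280) (nat_lit 264)) (XT.nd (nat_lit 78) (nat_lit 152) (nat_lit 0) (XT.lf (nat_lit 0) (nat_lit 9477534014) (nat_lit 152) (nat_lit 9476811726) (nat_lit 152) (nat_lit 910383927) (nat_lit 31) (nat_lit 4) (nat_lit 33) (nat_lit 5) (nat_lit 33) (nat_lit 4) (nat_lit 357) (nat_lit 280) (nat_lit 263)) (XT.lf (nat_lit 0) (nat_lit 6211750864) (nat_lit 76) (nat_lit 1223670669) (nat_lit 152) (nat_lit 13148576634) (nat_lit 29) (nat_lit 5) (nat_lit 30) (nat_lit 5) (nat_lit 31) (nat_lit 4) (nat_lit 358) (nat_lit 280) (nat_lit 262)))))) (XT.nd (nat_lit 468) (nat_lit 456) (nat_lit 0) (XT.nd (nat_lit 234) (nat_lit 228) (nat_lit 0) (XT.nd (nat_lit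 78) (nat_lit 152) (nat_lit 0) (XT.lf (nat_lit 0) (nat_lit 2097092249) (nat_lit 76) (nat_lit 14078695304) (nat_lit 76) (nat_lit 5163309596) (nat_lit 28) (nat_lit 4) (nat_lit 29) (nat_lit 5) (nat_lit 29) (nat_lit 4) (nat_lit 359) (nat_lit 280) (nat_lit 261)) (XT.nd (nat_lit 78) (nat_lit 76) (nat_lit 0) (XT.lf (nat_lit 0) (nat_lit 3120513339) (nat_lit 152) (nat_lit 2858776388) (nat_lit 76) (nat_lit 16152886804) (nat_lit 27) (nat_lit 5) (nat_lit 29) (nat_lit 5) (nat_lit 28) (nat_lit 4) (nat_lit 360) (nat_lit 280) (nat_lit 260)) (XT.lf (nat_lit 0) (nat_lit 11683740291) (nat_lit 152) (nat_lit 8779483368) (nat_lit 0) (nat_lit 2501010609) (nat_lit 26) (nat_lit 5) (nat_lit 28) (nat_lit 4) (nat_lit 26) (nat_lit 4) (nat_lit 361) (nat_lit 280) (nat_lit 259)))) (XT.nd (nat_lit 78) (nat_lit 152) (nat_lit 0) (XT.lf (nat_lit 0) (nat_lit 8047099827) (nat_lit 76) (nat_lit 12609468712) (nat_lit 76) (nat_lit 3181900284)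 (nat_lit 25) (nat_lit 4) (nat_lit 26) (nat_lit 5) (nat_lit 26) (nat_lit 4) (nat_lit 362) (nat_lit 280) (nat_lit 258)) (XT.nd (nat_lit 78) (nat_lit 0) (nat_lit 0) (XT.lf (nat_lit 0) (nat_lit 761577605) (nat_lit 76) (nat_lit 4372573030) (nat_lit 152) (nat_lit 19623254520) (nat_lit 23) (nat_lit 5) (nat_lit 24) (nat_lit 5) (nat_lit 25) (nat_lit 4) (nat_lit 363) (nat_lit 280) (nat_lit 257)) (XT.lf (nat_lit 0) (nat_lit 13827776118) (nat_lit 152) (nat_lit 7659953576) (nat_lit 0) (nat_lit 4232801218) (nat_lit 23) (nat_lit 5) (nat_lit 25) (nat_lit 4) (nat_lit 23) (nat_lit 4) (nat_lit 364) (nat_lit 280) (nat_lit 256))))) (XT.nd (nat_lit 234) (nat_lit 228) (nat_lit 0) (XT.nd (nat_lit 78) (nat_lit 152) (nat_lit 0) (XT.lf (nat_lit 0) (nat_lit 9306492020) (nat_lit 76) (nat_lit 13613368778) (nat_lit 76) (nat_lit 3813053184) (nat_lit 22) (nat_lit 4) (nat_lit 23) (nat_lit 5) (nat_lit 23) (nat_lit 4) (nat_lit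 365) (nat_lit 280) (nat_lit 255)) (XT.nd (nat_lit 78) (nat_lit 76) (nat_lit 0) (XT.lf (nat_lit 0) (nat_lit 4492730087) (nat_lit 152) (nat_lit 875636081) (nat_lit 76) (nat_lit 22428819288) (nat_lit 21) (nat_lit 5) (nat_lit 23) (nat_lit 5) (nat_lit 22) (nat_lit 4) (nat_lit 366) (nat_lit 280) (nat_lit 254)) (XT.lf (nat_lit 0) (nat_lit 13167829806) (nat_lit 152) (nat_lit 12462465720) (nat_lit 0) (nat_lit 3282268425) (nat_lit 20) (nat_lit 5) (nat_lit 22) (nat_lit 4) (nat_lit 20) (nat_lit 4) (nat_lit 367) (nat_lit 280) (nat_lit 253)))) (XT.nd (nat_lit 78) (nat_lit 152) (nat_lit 0) (XT.lf (nat_lit 0) (nat_lit 4309588010) (nat_lit 76) (nat_lit 17916711458) (nat_lit 76) (nat_lit 7858935503) (nat_lit 19) (nat_lit 4) (nat_lit 20) (nat_lit 5) (nat_lit 20) (nat_lit 4) (nat_lit 368) (nat_lit 280) (nat_lit 252)) (XT.nd (nat_lit 78) (nat_lit 76) (nat_lit 0) (XT.lf (nat_lit 0) (nat_lit 390505688) (nat_lit 152)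 (nat_lit 9429063288) (nat_lit 76) (nat_lit 21497533130) (nat_lit 18) (nat_lit 5) (nat_lit 20) (nat_lit 5) (nat_lit 19) (nat_lit 4) (nat_lit 369) (nat_lit 280) (nat_lit 251)) (XT.lf (nat_lit 0) (nat_lit 7524522560) (nat_lit 76) (nat_lit 1294450884) (nat_lit 152) (nat_lit 23791392745) (nat_lit 17) (nat_lit 5) (nat_lit 18) (nat_lit 5) (nat_lit 19) (nat_lit 4) (nat_lit 370) (nat_lit 280) (nat_lit 250))))))) (XT.nd (nat_lit 936) (nat_lit 380) (nat_lit 0) (XT.nd (nat_lit 468) (nat_lit 228) (nat_lit 0) (XT.nd (nat_lit 234) (nat_lit 228) (nat_lit 0) (XT.nd (nat_lit 78) (nat_lit 76) (nat_lit 0) (XT.lf (nat_lit 0) (nat_lit 17698795399) (nat_lit 152) (nat_lit 8789969185) (nat_lit 0) (nat_lit 7478641072) (nat_lit 17) (nat_lit 5) (nat_lit 19) (nat_lit 4) (nat_lit 17) (nat_lit 4) (nat_lit 371) (nat_lit 280) (nat_lit 249)) (XT.nd (nat_lit 78) (nat_lit 0) (nat_lit 0) (XT.lf (nat_lit 0) (nat_lit 8207942234)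 (nat_lit 76) (nat_lit 18771681534) (nat_lit 76) (nat_lit 8413972491) (nat_lit 16) (nat_lit 4) (nat_lit 17) (nat_lit 5) (nat_lit 17) (nat_lit 4) (nat_lit 372) (nat_lit 280) (nat_lit 248)) (XT.lf (nat_lit 0) (nat_lit 25987024451) (nat_lit 76) (nat_lit 10697004293) (nat_lit 76) (nat_lit 208290759) (nat_lit 16) (nat_lit 4) (nat_lit 17) (nat_lit 5) (nat_lit 17) (nat_lit 4) (nat_lit 373) (nat_lit 280) (nat_lit 247)))) (XT.nd (nat_lit 78) (nat_lit 76) (nat_lit 0) (XT.lf (nat_lit 0) (nat_lit 5982089197) (nat_lit 76) (nat_lit 2193067902) (nat_lit 152) (nat_lit 30290459310) (nat_lit 14) (nat_lit 5) (nat_lit 15) (nat_lit 5) (nat_lit 16) (nat_lit 4) (nat_lit 374) (nat_lit 280) (nat_lit 246)) (XT.nd (nat_lit 78) (nat_lit 76) (nat_lit 0) (XT.lf (nat_lit 0) (nat_lit 17028312104) (nat_lit 152) (nat_lit 16478968132) (nat_lit 0) (nat_lit 6608598851) (nat_lit 14) (nat_lit 5) (nat_lit 16) (nat_lit 4) (nat_lit 14)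 (nat_lit 4) (nat_lit 375) (nat_lit 280) (nat_lit 245)) (XT.lf (nat_lit 0) (nat_lit 78040844) (nat_lit 76) (nat_lit 26151521185) (nat_lit 76) (nat_lit 15621937442) (nat_lit 13) (nat_lit 4) (nat_lit 14) (nat_lit 5) (nat_lit 14) (nat_lit 4) (nat_lit 376) (nat_lit 280) (nat_lit 244))))) (XT.nd (nat_lit 234) (nat_lit 76) (nat_lit 0) (XT.nd (nat_lit 78) (nat_lit 152) (nat_lit 0) (XT.lf (nat_lit 0) (nat_lit 17586608147) (nat_lit 76) (nat_lit 18359926276) (nat_lit 76) (nat_lit 7725703971) (nat_lit 13) (nat_lit 4) (nat_lit 14) (nat_lit 5) (nat_lit 14) (nat_lit 4) (nat_lit 377) (nat_lit 280) (nat_lit 243)) (XT.nd (nat_lit 78) (nat_lit 76) (nat_lit 0) (XT.lf (nat_lit 0) (nat_lit 444678739) (nat_lit 152) (nat_lit 9831180237) (nat_lit 76) (nat_lit 35311287942) (nat_lit 12) (nat_lit 5) (nat_lit 14) (nat_lit 5) (nat_lit 13) (nat_lit 4) (nat_lit 378) (nat_lit 280) (nat_lit 242)) (XT.lf (nat_lit 0) (nat_lit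 7094224569) (nat_lit 76) (nat_lit 1734845828) (nat_lit 152) (nat_lit 38767484078) (nat_lit 11) (nat_lit 5) (nat_lit 12) (nat_lit 5) (nat_lit 13) (nat_lit 4) (nat_lit 379) (nat_lit 280) (nat_lit 241)))) (XT.nd (nat_lit 78) (nat_lit 76) (nat_lit 0) (XT.lf (nat_lit 0) (nat_lit 17702176565) (nat_lit 152) (nat_lit 24901145291) (nat_lit 0) (nat_lit 7101031844) (nat_lit 11) (nat_lit 5) (nat_lit 13) (nat_lit 4) (nat_lit 11) (nat_lit 4) (nat_lit 380) (nat_lit 280) (nat_lit 240)) (XT.nd (nat_lit 78) (nat_lit 76) (nat_lit 0) (XT.lf (nat_lit 0) (nat_lit 26939076328) (nat_lit 152) (nat_lit 8726515683) (nat_lit 0) (nat_lit 16254352575) (nat_lit 11) (nat_lit 5) (nat_lit 13) (nat_lit 4) (nat_lit 11) (nat_lit 4) (nat_lit 381) (nat_lit 280) (nat_lit 239)) (XT.lf (nat_lit 0) (nat_lit 8237489428) (nat_lit 76) (nat_lit 28386780265) (nat_lit 76) (nat_lit 17622457433) (nat_lit 10) (nat_lit 4) (nat_lit 11) (nat_lit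 5) (nat_lit 11) (nat_lit 4) (nat_lit 382) (nat_lit 280) (nat_lit 238)))))) (XT.nd (nat_lit 468) (nat_lit 228) (nat_lit 0) (XT.nd (nat_lit 234) (nat_lit 0) (nat_lit 0) (XT.nd (nat_lit 78) (nat_lit 152) (nat_lit 0) (XT.lf (nat_lit 0) (nat_lit 26057116745) (nat_lit 76) (nat_lit 20736436951) (nat_lit 76) (nat_lit 9896305472) (nat_lit 10) (nat_lit 4) (nat_lit 11) (nat_lit 5) (nat_lit 11) (nat_lit 4) (nat_lit 383) (nat_lit 280) (nat_lit 237)) (XT.nd (nat_lit 78) (nat_lit 152) (nat_lit 0) (XT.lf (nat_lit 0) (nat_lit 44601119178) (nat_lit 76) (nat_lit 12784467663) (nat_lit 76) (nat_lit 1872137473) (nat_lit 10) (nat_lit 4) (nat_lit 11) (nat_lit 5) (nat_lit 11) (nat_lit 4) (nat_lit 384) (nat_lit 280) (nat_lit 236)) (XT.lf (nat_lit 0) (nat_lit 1932741895) (nat_lit 76) (nat_lit 4428752076) (nat_lit 152) (nat_lit 55592519635) (nat_lit 8) (nat_lit 5) (nat_lit 9) (nat_lit 5) (nat_lit 10) (nat_lit 4) (nat_lit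 385) (nat_lit 280) (nat_lit 235)))) (XT.nd (nat_lit 78) (nat_lit 0) (nat_lit 0) (XT.lf (nat_lit 0) (nat_lit 15081838305) (nat_lit 152) (nat_lit 45342308878) (nat_lit 0) (nat_lit 4357006046) (nat_lit 8) (nat_lit 5) (nat_lit 10) (nat_lit 4) (nat_lit 8) (nat_lit 4) (nat_lit 386) (nat_lit 280) (nat_lit 234)) (XT.nd (nat_lit 78) (nat_lit 0) (nat_lit 0) (XT.lf (nat_lit 0) (nat_lit 24206000355) (nat_lit 152) (nat_lit 30124003023) (nat_lit 0) (nat_lit 13420616677) (nat_lit 8) (nat_lit 5) (nat_lit 10) (nat_lit 4) (nat_lit 8) (nat_lit 4) (nat_lit 387) (nat_lit 280) (nat_lit 233)) (XT.lf (nat_lit 0) (nat_lit 33713132442) (nat_lit 152) (nat_lit 14287548210) (nat_lit 0) (nat_lit 22870080747) (nat_lit 8) (nat_lit 5) (nat_lit 10) (nat_lit 4) (nat_lit 8) (nat_lit 4) (nat_lit 388) (nat_lit 280) (nat_lit 232))))) (XT.nd (nat_lit 234) (nat_lit 152) (nat_lit 0) (XT.nd (nat_lit 78) (nat_lit 0) (nat_lit 0) (XT.lf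 (nat_lit 0) (nat_lit 2248640479) (nat_lit 76) (nat_lit 41398845424) (nat_lit 76) (nat_lit 30500871807) (nat_lit 7) (nat_lit 4) (nat_lit 8) (nat_lit 5) (nat_lit 8) (nat_lit 4) (nat_lit 389) (nat_lit 280) (nat_lit 231)) (XT.nd (nat_lit 78) (nat_lit 0) (nat_lit 0) (XT.lf (nat_lit 0) (nat_lit 19778135895) (nat_lit 76) (nat_lit 34379800218) (nat_lit 76) (nat_lit 23429520009) (nat_lit 7) (nat_lit 4) (nat_lit 8) (nat_lit 5) (nat_lit 8) (nat_lit 4) (nat_lit 390) (nat_lit 280) (nat_lit 230)) (XT.lf (nat_lit 0) (nat_lit 38058324705) (nat_lit 76) (nat_lit 27071109246) (nat_lit 76) (nat_lit 16071013235) (nat_lit 7) (nat_lit 4) (nat_lit 8) (nat_lit 5) (nat_lit 8) (nat_lit 4) (nat_lit 391) (nat_lit 280) (nat_lit 229)))) (XT.nd (nat_lit 78) (nat_lit 152) (nat_lit 0) (XT.lf (nat_lit 0) (nat_lit 57132731170) (nat_lit 76) (nat_lit 19455370862) (nat_lit 76) (nat_lit 8407831230) (nat_lit 7) (nat_lit 4) (nat_lit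 8) (nat_lit 5) (nat_lit 8) (nat_lit 4) (nat_lit 392) (nat_lit 280) (nat_lit 228)) (XT.nd (nat_lit 78) (nat_lit 152) (nat_lit 0) (XT.lf (nat_lit 0) (nat_lit 77046770543) (nat_lit 76) (nat_lit 11514452356) (nat_lit 76) (nat_lit 421728323) (nat_lit 7) (nat_lit 4) (nat_lit 8) (nat_lit 5) (nat_lit 8) (nat_lit 4) (nat_lit 393) (nat_lit 280) (nat_lit 227)) (XT.lf (nat_lit 0) (nat_lit 4692429141) (nat_lit 76) (nat_lit 3104706788) (nat_lit 152) (nat_lit 85370224834) (nat_lit 5) (nat_lit 5) (nat_lit 6) (nat_lit 5) (nat_lit 7) (nat_lit 4) (nat_lit 394) (nat_lit 280) (nat_lit 226))))))))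
noncomputable def xc18 : XT := (XT.nd (nat_lit 44148) (nat_lit 0) (nat_lit 380) (XT.nd (nat_lit 43212) (nat_lit 0) (nat_lit 1824) (XT.nd (nat_lit 42744) (nat_lit 0) (nat_lit 3496) (XT.nd (nat_lit 42510) (nat_lit 0) (nat_lit 4940) (XT.nd (nat_lit 78) (nat_lit 0) (nat_lit 0) (XT.lf (nat_lit 0) (nat_lit 16542331934) (nat_lit 152) (nat_lit 75323685364) (nat_lit 0) (nat_lit 5691127682) (nat_lit 5) (nat_lit 5) (nat_lit 7) (nat_lit 4) (nat_lit 5) (nat_lit 4) (nat_lit 395) (nat_lit 280) (nat_lit 225)) (XT.nd (nat_lit 42354) (nat_lit 0) (nat_lit 5852) (XT.lf (nat_lit 0) (nat_lit 25703651138) (nat_lit 152) (nat_lit 61648852265) (nat_lit 0) (nat_lit 14814551756) (nat_lit 5) (nat_lit 5) (nat_lit 7) (nat_lit 4) (nat_lit 5) (nat_lit 4) (nat_lit 396) (nat_lit 280) (nat_lit 224)) (XT.lf (nat_lit 0) (nat_lit 2099439413) (nat_lit 228) (nat_lit 1382815842) (nat_lit 0) (nat_lit 2099439413) (nat_lit 82) (nat_lit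 5) (nat_lit 85) (nat_lit 4) (nat_lit 82) (nat_lit 4) (nat_lit 338) (nat_lit 281) (nat_lit 281)))) (XT.nd (nat_lit 78) (nat_lit 456) (nat_lit 0) (XT.lf (nat_lit 0) (nat_lit 503536324) (nat_lit 152) (nat_lit 247542861) (nat_lit 228) (nat_lit 10701627799) (nat_lit 76) (nat_lit 5) (nat_lit 78) (nat_lit 5) (nat_lit 79) (nat_lit 4) (nat_lit 339) (nat_lit 281) (nat_lit 280)) (XT.nd (nat_lit 78) (nat_lit 228) (nat_lit 0) (XT.lf (nat_lit 0) (nat_lit 3700120583) (nat_lit 228) (nat_lit 4995187231) (nat_lit 228) (nat_lit 3059573204) (nat_lit 73) (nat_lit 4) (nat_lit 76) (nat_lit 5) (nat_lit 76) (nat_lit 4) (nat_lit 340) (nat_lit 281) (nat_lit 279)) (XT.lf (nat_lit 0) (nat_lit 4786255600) (nat_lit 228) (nat_lit 5253010929) (nat_lit 0) (nat_lit 2033970170) (nat_lit 70) (nat_lit 5) (nat_lit 73) (nat_lit 4) (nat_lit 70) (nat_lit 4) (nat_lit 341) (nat_lit 281) (nat_lit 278))))) (XT.nd (nat_lit 234) (nat_lit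 608) (nat_lit 0) (XT.nd (nat_lit 78) (nat_lit 532) (nat_lit 0) (XT.lf (nat_lit 0) (nat_lit 496085679) (nat_lit 304) (nat_lit 2576706272) (nat_lit 76) (nat_lit 9335133755) (nat_lit 66) (nat_lit 5) (nat_lit 70) (nat_lit 5) (nat_lit 67) (nat_lit 4) (nat_lit 342) (nat_lit 281) (nat_lit 277)) (XT.nd (nat_lit 78) (nat_lit 380) (nat_lit 0) (XT.lf (nat_lit 0) (nat_lit 8466973328) (nat_lit 228) (nat_lit 73005722) (nat_lit 0) (nat_lit 4218778243) (nat_lit 64) (nat_lit 5) (nat_lit 67) (nat_lit 4) (nat_lit 64) (nat_lit 4) (nat_lit 343) (nat_lit 281) (nat_lit 276)) (XT.lf (nat_lit 0) (nat_lit 2330209354) (nat_lit 152) (nat_lit 1271076552) (nat_lit 228) (nat_lit 9525892844) (nat_lit 59) (nat_lit 5) (nat_lit 61) (nat_lit 5) (nat_lit 62) (nat_lit 4) (nat_lit 344) (nat_lit 281) (nat_lit 275)))) (XT.nd (nat_lit 78) (nat_lit 456) (nat_lit 0) (XT.lf (nat_lit 0) (nat_lit 4525187189) (nat_lit 152) (nat_lit 7250358362)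 (nat_lit 152) (nat_lit 1737989395) (nat_lit 57) (nat_lit 4) (nat_lit 59) (nat_lit 5) (nat_lit 59) (nat_lit 4) (nat_lit 345) (nat_lit 281) (nat_lit 274)) (XT.nd (nat_lit 78) (nat_lit 228) (nat_lit 0) (XT.lf (nat_lit 0) (nat_lit 6245270698) (nat_lit 228) (nat_lit 7406728923) (nat_lit 0) (nat_lit 267447701) (nat_lit 54) (nat_lit 5) (nat_lit 57) (nat_lit 4) (nat_lit 54) (nat_lit 4) (nat_lit 346) (nat_lit 281) (nat_lit 273)) (XT.lf (nat_lit 0) (nat_lit 235415463) (nat_lit 228) (nat_lit 6096128144) (nat_lit 76) (nat_lit 8013756332) (nat_lit 51) (nat_lit 5) (nat_lit 54) (nat_lit 5) (nat_lit 52) (nat_lit 4) (nat_lit 347) (nat_lit 281) (nat_lit 272)))))) (XT.nd (nat_lit 468) (nat_lit 684) (nat_lit 0) (XT.nd (nat_lit 234) (nat_lit 532) (nat_lit 0) (XT.nd (nat_lit 78) (nat_lit 304) (nat_lit 0) (XT.lf (nat_lit 0) (nat_lit 8320069788) (nat_lit 228) (nat_lit 5085731041) (nat_lit 0) (nat_lit 1386254576) (nat_lit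 49) (nat_lit 5) (nat_lit 52) (nat_lit 4) (nat_lit 49) (nat_lit 4) (nat_lit 348) (nat_lit 281) (nat_lit 271)) (XT.nd (nat_lit 78) (nat_lit 76) (nat_lit 0) (XT.lf (nat_lit 0) (nat_lit 1507908377) (nat_lit 228) (nat_lit 4397780281) (nat_lit 76) (nat_lit 9355340185) (nat_lit 46) (nat_lit 5) (nat_lit 49) (nat_lit 5) (nat_lit 47) (nat_lit 4) (nat_lit 349) (nat_lit 281) (nat_lit 270)) (XT.lf (nat_lit 0) (nat_lit 9702531298) (nat_lit 152) (nat_lit 4075053626) (nat_lit 0) (nat_lit 1975490077) (nat_lit 45) (nat_lit 5) (nat_lit 47) (nat_lit 4) (nat_lit 45) (nat_lit 4) (nat_lit 350) (nat_lit 281) (nat_lit 269)))) (XT.nd (nat_lit 78) (nat_lit 304) (nat_lit 0) (XT.lf (nat_lit 0) (nat_lit 1988388671) (nat_lit 228) (nat_lit 4152949868) (nat_lit 76) (nat_lit 10128099481) (nat_lit 42) (nat_lit 5) (nat_lit 45) (nat_lit 5) (nat_lit 43) (nat_lit 4) (nat_lit 351) (nat_lit 281) (nat_lit 268)) (XT.nd (nat_lit 78) (nat_lit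 228) (nat_lit 0) (XT.lf (nat_lit 0) (nat_lit 10256833867) (nat_lit 152) (nat_lit 4675953096) (nat_lit 0) (nat_lit 1878483921) (nat_lit 41) (nat_lit 5) (nat_lit 43) (nat_lit 4) (nat_lit 41) (nat_lit 4) (nat_lit 352) (nat_lit 281) (nat_lit 267)) (XT.lf (nat_lit 0) (nat_lit 1524777470) (nat_lit 228) (nat_lit 5690191367) (nat_lit 76) (nat_lit 10164904260) (nat_lit 38) (nat_lit 5) (nat_lit 41) (nat_lit 5) (nat_lit 39) (nat_lit 4) (nat_lit 353) (nat_lit 281) (nat_lit 266))))) (XT.nd (nat_lit 234) (nat_lit 304) (nat_lit 0) (XT.nd (nat_lit 78) (nat_lit 304) (nat_lit 0) (XT.lf (nat_lit 0) (nat_lit 9818084727) (nat_lit 152) (nat_lit 7246504724) (nat_lit 0) (nat_lit 912024808) (nat_lit 37) (nat_lit 5) (nat_lit 39) (nat_lit 4) (nat_lit 37) (nat_lit 4) (nat_lit 354) (nat_lit 281) (nat_lit 265)) (XT.nd (nat_lit 78) (nat_lit 152) (nat_lit 0) (XT.lf (nat_lit 0) (nat_lit 9202452140) (nat_lit 152) (nat_lit 9332544454)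 (nat_lit 152) (nat_lit 67952790) (nat_lit 35) (nat_lit 4) (nat_lit 37) (nat_lit 5) (nat_lit 37) (nat_lit 4) (nat_lit 355) (nat_lit 281) (nat_lit 264)) (XT.lf (nat_lit 0) (nat_lit 7036987017) (nat_lit 76) (nat_lit 1161553616) (nat_lit 152) (nat_lit 11061578658) (nat_lit 33) (nat_lit 5) (nat_lit 34) (nat_lit 5) (nat_lit 35) (nat_lit 4) (nat_lit 356) (nat_lit 281) (nat_lit 263)))) (XT.nd (nat_lit 78) (nat_lit 152) (nat_lit 0) (XT.lf (nat_lit 0) (nat_lit 4175229147) (nat_lit 152) (nat_lit 12708355576) (nat_lit 152) (nat_lit 3066365933) (nat_lit 31) (nat_lit 4) (nat_lit 33) (nat_lit 5) (nat_lit 33) (nat_lit 4) (nat_lit 357) (nat_lit 281) (nat_lit 262)) (XT.nd (nat_lit 78) (nat_lit 0) (nat_lit 0) (XT.lf (nat_lit 0) (nat_lit 553090806) (nat_lit 76) (nat_lit 4617240661) (nat_lit 152) (nat_lit 15504054760) (nat_lit 29) (nat_lit 5) (nat_lit 30) (nat_lit 5) (nat_lit 31) (nat_lit 4) (nat_lit 358) (nat_lit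 281) (nat_lit 261)) (XT.lf (nat_lit 0) (nat_lit 13763256274) (nat_lit 152) (nat_lit 3838527537) (nat_lit 0) (nat_lit 3832134123) (nat_lit 29) (nat_lit 5) (nat_lit 31) (nat_lit 4) (nat_lit 29) (nat_lit 4) (nat_lit 359) (nat_lit 281) (nat_lit 260))))))) (XT.nd (nat_lit 936) (nat_lit 532) (nat_lit 0) (XT.nd (nat_lit 468) (nat_lit 380) (nat_lit 0) (XT.nd (nat_lit 234) (nat_lit 228) (nat_lit 0) (XT.nd (nat_lit 78) (nat_lit 152) (nat_lit 0) (XT.lf (nat_lit 0) (nat_lit 531347126) (nat_lit 152) (nat_lit 9117280588) (nat_lit 76) (nat_lit 12583023690) (nat_lit 27) (nat_lit 5) (nat_lit 29) (nat_lit 5) (nat_lit 28) (nat_lit 4) (nat_lit 360) (nat_lit 281) (nat_lit 259)) (XT.nd (nat_lit 78) (nat_lit 76) (nat_lit 0) (XT.lf (nat_lit 0) (nat_lit 7656947049) (nat_lit 76) (nat_lit 1261794927) (nat_lit 152) (nat_lit 14150250484) (nat_lit 26) (nat_lit 5) (nat_lit 27) (nat_lit 5) (nat_lit 28) (nat_lit 4) (nat_lit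 361) (nat_lit 281) (nat_lit 258)) (XT.lf (nat_lit 0) (nat_lit 1127899834) (nat_lit 76) (nat_lit 16598625913) (nat_lit 76) (nat_lit 6221660559) (nat_lit 25) (nat_lit 4) (nat_lit 26) (nat_lit 5) (nat_lit 26) (nat_lit 4) (nat_lit 362) (nat_lit 281) (nat_lit 257)))) (XT.nd (nat_lit 78) (nat_lit 152) (nat_lit 0) (XT.lf (nat_lit 0) (nat_lit 2061730753) (nat_lit 152) (nat_lit 6413727885) (nat_lit 76) (nat_lit 16395307248) (nat_lit 24) (nat_lit 5) (nat_lit 26) (nat_lit 5) (nat_lit 25) (nat_lit 4) (nat_lit 363) (nat_lit 281) (nat_lit 256)) (XT.nd (nat_lit 78) (nat_lit 76) (nat_lit 0) (XT.lf (nat_lit 0) (nat_lit 10569577845) (nat_lit 152) (nat_lit 15195988379) (nat_lit 0) (nat_lit 73905777) (nat_lit 23) (nat_lit 5) (nat_lit 25) (nat_lit 4) (nat_lit 23) (nat_lit 4) (nat_lit 364) (nat_lit 281) (nat_lit 255)) (XT.lf (nat_lit 0) (nat_lit 1467103027) (nat_lit 76) (nat_lit 18040310412) (nat_lit 76) (nat_lit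 7349075779) (nat_lit 22) (nat_lit 4) (nat_lit 23) (nat_lit 5) (nat_lit 23) (nat_lit 4) (nat_lit 365) (nat_lit 281) (nat_lit 254))))) (XT.nd (nat_lit 234) (nat_lit 228) (nat_lit 0) (XT.nd (nat_lit 78) (nat_lit 76) (nat_lit 0) (XT.lf (nat_lit 0) (nat_lit 948404562) (nat_lit 152) (nat_lit 8952223435) (nat_lit 76) (nat_lit 18023477683) (nat_lit 21) (nat_lit 5) (nat_lit 23) (nat_lit 5) (nat_lit 22) (nat_lit 4) (nat_lit 366) (nat_lit 281) (nat_lit 253)) (XT.nd (nat_lit 78) (nat_lit 0) (nat_lit 0) (XT.lf (nat_lit 0) (nat_lit 8102533204) (nat_lit 76) (nat_lit 1334609117) (nat_lit 152) (nat_lit 19607938591) (nat_lit 20) (nat_lit 5) (nat_lit 21) (nat_lit 5) (nat_lit 22) (nat_lit 4) (nat_lit 367) (nat_lit 281) (nat_lit 252)) (XT.lf (nat_lit 0) (nat_lit 18369301314) (nat_lit 152) (nat_lit 4379837430) (nat_lit 0) (nat_lit 7472408105) (nat_lit 20) (nat_lit 5) (nat_lit 22) (nat_lit 4) (nat_lit 20) (nat_lit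 4) (nat_lit 368) (nat_lit 281) (nat_lit 251)))) (XT.nd (nat_lit 78) (nat_lit 152) (nat_lit 0) (XT.lf (nat_lit 0) (nat_lit 12981270366) (nat_lit 76) (nat_lit 14764373145) (nat_lit 76) (nat_lit 3711276240) (nat_lit 19) (nat_lit 4) (nat_lit 20) (nat_lit 5) (nat_lit 20) (nat_lit 4) (nat_lit 369) (nat_lit 281) (nat_lit 250)) (XT.nd (nat_lit 78) (nat_lit 76) (nat_lit 0) (XT.lf (nat_lit 0) (nat_lit 4650033315) (nat_lit 152) (nat_lit 1762294699) (nat_lit 76) (nat_lit 26343118358) (nat_lit 18) (nat_lit 5) (nat_lit 20) (nat_lit 5) (nat_lit 19) (nat_lit 4) (nat_lit 370) (nat_lit 281) (nat_lit 249)) (XT.lf (nat_lit 0) (nat_lit 13397381543) (nat_lit 152) (nat_lit 18334850869) (nat_lit 0) (nat_lit 2384232333) (nat_lit 17) (nat_lit 5) (nat_lit 19) (nat_lit 4) (nat_lit 17) (nat_lit 4) (nat_lit 371) (nat_lit 281) (nat_lit 248)))))) (XT.nd (nat_lit 468) (nat_lit 228) (nat_lit 0) (XT.nd (nat_lit 234) (nat_lit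 152) (nat_lit 0) (XT.nd (nat_lit 78) (nat_lit 152) (nat_lit 0) (XT.lf (nat_lit 0) (nat_lit 22536615772) (nat_lit 152) (nat_lit 1617829801) (nat_lit 0) (nat_lit 11392462071) (nat_lit 17) (nat_lit 5) (nat_lit 19) (nat_lit 4) (nat_lit 17) (nat_lit 4) (nat_lit 372) (nat_lit 281) (nat_lit 247)) (XT.nd (nat_lit 78) (nat_lit 76) (nat_lit 0) (XT.lf (nat_lit 0) (nat_lit 16011791118) (nat_lit 76) (nat_lit 16152532413) (nat_lit 76) (nat_lit 4883612530) (nat_lit 16) (nat_lit 4) (nat_lit 17) (nat_lit 5) (nat_lit 17) (nat_lit 4) (nat_lit 373) (nat_lit 281) (nat_lit 246)) (XT.lf (nat_lit 0) (nat_lit 3475047384) (nat_lit 152) (nat_lit 4333398627) (nat_lit 76) (nat_lit 30817619765) (nat_lit 15) (nat_lit 5) (nat_lit 17) (nat_lit 5) (nat_lit 16) (nat_lit 4) (nat_lit 374) (nat_lit 281) (nat_lit 245)))) (XT.nd (nat_lit 78) (nat_lit 76) (nat_lit 0) (XT.lf (nat_lit 0) (nat_lit 12174027211) (nat_lit 152) (nat_lit 27098836457)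 (nat_lit 0) (nat_lit 1008093791) (nat_lit 14) (nat_lit 5) (nat_lit 16) (nat_lit 4) (nat_lit 14) (nat_lit 4) (nat_lit 375) (nat_lit 281) (nat_lit 244)) (XT.nd (nat_lit 78) (nat_lit 76) (nat_lit 0) (XT.lf (nat_lit 0) (nat_lit 21319963349) (nat_lit 152) (nat_lit 10648886110) (nat_lit 0) (nat_lit 10049391367) (nat_lit 14) (nat_lit 5) (nat_lit 16) (nat_lit 4) (nat_lit 14) (nat_lit 4) (nat_lit 376) (nat_lit 281) (nat_lit 243)) (XT.lf (nat_lit 0) (nat_lit 6545236868) (nat_lit 76) (nat_lit 24334347293) (nat_lit 76) (nat_lit 12964119538) (nat_lit 13) (nat_lit 4) (nat_lit 14) (nat_lit 5) (nat_lit 14) (nat_lit 4) (nat_lit 377) (nat_lit 281) (nat_lit 242))))) (XT.nd (nat_lit 234) (nat_lit 76) (nat_lit 0) (XT.nd (nat_lit 78) (nat_lit 152) (nat_lit 0) (XT.lf (nat_lit 0) (nat_lit 24621456633) (nat_lit 76) (nat_lit 16301970255) (nat_lit 76) (nat_lit 4836832240) (nat_lit 13) (nat_lit 4) (nat_lit 14) (nat_lit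 5) (nat_lit 14) (nat_lit 4) (nat_lit 378) (nat_lit 281) (nat_lit 241)) (XT.nd (nat_lit 78) (nat_lit 76) (nat_lit 0) (XT.lf (nat_lit 0) (nat_lit 3525242982) (nat_lit 152) (nat_lit 4399285485) (nat_lit 76) (nat_lit 39850037063) (nat_lit 12) (nat_lit 5) (nat_lit 14) (nat_lit 5) (nat_lit 13) (nat_lit 4) (nat_lit 379) (nat_lit 281) (nat_lit 240)) (XT.lf (nat_lit 0) (nat_lit 12247794348) (nat_lit 152) (nat_lit 36693834530) (nat_lit 0) (nat_lit 945255374) (nat_lit 11) (nat_lit 5) (nat_lit 13) (nat_lit 4) (nat_lit 11) (nat_lit 4) (nat_lit 380) (nat_lit 281) (nat_lit 239)))) (XT.nd (nat_lit 78) (nat_lit 76) (nat_lit 0) (XT.lf (nat_lit 0) (nat_lit 21439457441) (nat_lit 152) (nat_lit 20607058125) (nat_lit 0) (nat_lit 10057319388) (nat_lit 11) (nat_lit 5) (nat_lit 13) (nat_lit 4) (nat_lit 11) (nat_lit 4) (nat_lit 381) (nat_lit 281) (nat_lit 238)) (XT.nd (nat_lit 78) (nat_lit 76) (nat_lit 0) (XT.lf (nat_lit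 0) (nat_lit 31002384476) (nat_lit 152) (nat_lit 3887465819) (nat_lit 0) (nat_lit 19544437776) (nat_lit 11) (nat_lit 5) (nat_lit 13) (nat_lit 4) (nat_lit 11) (nat_lit 4) (nat_lit 382) (nat_lit 281) (nat_lit 237)) (XT.lf (nat_lit 0) (nat_lit 13773521964) (nat_lit 76) (nat_lit 27318221882) (nat_lit 76) (nat_lit 15788076471) (nat_lit 10) (nat_lit 4) (nat_lit 11) (nat_lit 5) (nat_lit 11) (nat_lit 4) (nat_lit 383) (nat_lit 281) (nat_lit 236))))))))
noncomputable def xc19 : XT := (XT.nd (nat_lit 43992) (nat_lit 0) (nat_lit 988) (XT.nd (nat_lit 936) (nat_lit 0) (nat_lit 0) (XT.nd (nat_lit 468) (nat_lit 228) (nat_lit 0) (XT.nd (nat_lit 234) (nat_lit 0) (nat_lit 0) (XT.nd (nat_lit 78) (nat_lit 152) (nat_lit 0) (XT.lf (nat_lit 0) (nat_lit 32240123119) (nat_lit 76) (nat_lit 19403832706) (nat_lit 76) (nat_lit 7804926618) (nat_lit 10) (nat_lit 4) (nat_lit 11) (nat_lit 5) (nat_lit 11) (nat_lit 4) (nat_lit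 384) (nat_lit 281) (nat_lit 235)) (XT.nd (nat_lit 78) (nat_lit 76) (nat_lit 0) (XT.lf (nat_lit 0) (nat_lit 487593610) (nat_lit 152) (nat_lit 10674577418) (nat_lit 76) (nat_lit 50986420204) (nat_lit 9) (nat_lit 5) (nat_lit 11) (nat_lit 5) (nat_lit 10) (nat_lit 4) (nat_lit 385) (nat_lit 281) (nat_lit 234)) (XT.lf (nat_lit 0) (nat_lit 6590732219) (nat_lit 76) (nat_lit 2432663163) (nat_lit 152) (nat_lit 55957873817) (nat_lit 8) (nat_lit 5) (nat_lit 9) (nat_lit 5) (nat_lit 10) (nat_lit 4) (nat_lit 386) (nat_lit 281) (nat_lit 233)))) (XT.nd (nat_lit 78) (nat_lit 0) (nat_lit 0) (XT.lf (nat_lit 0) (nat_lit 18088447300) (nat_lit 152) (nat_lit 43218488994) (nat_lit 0) (nat_lit 6645575003) (nat_lit 8) (nat_lit 5) (nat_lit 10) (nat_lit 4) (nat_lit 8) (nat_lit 4) (nat_lit 387) (nat_lit 281) (nat_lit 232)) (XT.nd (nat_lit 78) (nat_lit 0) (nat_lit 0) (XT.lf (nat_lit 0) (nat_lit 27561554735) (nat_lit 152) (nat_lit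 27448360004) (nat_lit 0) (nat_lit 16063760515) (nat_lit 8) (nat_lit 5) (nat_lit 10) (nat_lit 4) (nat_lit 8) (nat_lit 4) (nat_lit 388) (nat_lit 281) (nat_lit 231)) (XT.lf (nat_lit 0) (nat_lit 37441888456) (nat_lit 152) (nat_lit 11019217840) (nat_lit 0) (nat_lit 25891787645) (nat_lit 8) (nat_lit 5) (nat_lit 10) (nat_lit 4) (nat_lit 8) (nat_lit 4) (nat_lit 389) (nat_lit 281) (nat_lit 230))))) (XT.nd (nat_lit 234) (nat_lit 152) (nat_lit 0) (XT.nd (nat_lit 78) (nat_lit 0) (nat_lit 0) (XT.lf (nat_lit 0) (nat_lit 6229616765) (nat_lit 76) (nat_lit 41583239192) (nat_lit 76) (nat_lit 29983322579) (nat_lit 7) (nat_lit 4) (nat_lit 8) (nat_lit 5) (nat_lit 8) (nat_lit 4) (nat_lit 390) (nat_lit 281) (nat_lit 229)) (XT.nd (nat_lit 78) (nat_lit 0) (nat_lit 0) (XT.lf (nat_lit 0) (nat_lit 24451370558) (nat_lit 76) (nat_lit 34303029750) (nat_lit 76) (nat_lit 22655669516) (nat_lit 7) (nat_lit 4) (nat_lit 8) (nat_lit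 5) (nat_lit 8) (nat_lit 4) (nat_lit 391) (nat_lit 281) (nat_lit 228)) (XT.lf (nat_lit 0) (nat_lit 43470124625) (nat_lit 76) (nat_lit 26714416633) (nat_lit 76) (nat_lit 15021871998) (nat_lit 7) (nat_lit 4) (nat_lit 8) (nat_lit 5) (nat_lit 8) (nat_lit 4) (nat_lit 392) (nat_lit 281) (nat_lit 227)))) (XT.nd (nat_lit 78) (nat_lit 152) (nat_lit 0) (XT.lf (nat_lit 0) (nat_lit 63331161714) (nat_lit 76) (nat_lit 18799331715) (nat_lit 76) (nat_lit 7063754317) (nat_lit 7) (nat_lit 4) (nat_lit 8) (nat_lit 5) (nat_lit 8) (nat_lit 4) (nat_lit 393) (nat_lit 281) (nat_lit 226)) (XT.nd (nat_lit 78) (nat_lit 76) (nat_lit 0) (XT.lf (nat_lit 0) (nat_lit 1213480779) (nat_lit 152) (nat_lit 9313194999) (nat_lit 76) (nat_lit 82856035452) (nat_lit 6) (nat_lit 5) (nat_lit 8) (nat_lit 5) (nat_lit 7) (nat_lit 4) (nat_lit 394) (nat_lit 281) (nat_lit 225)) (XT.lf (nat_lit 0) (nat_lit 8050415953) (nat_lit 76) (nat_lit 1735795336)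 (nat_lit 152) (nat_lit 87991459417) (nat_lit 5) (nat_lit 5) (nat_lit 6) (nat_lit 5) (nat_lit 7) (nat_lit 4) (nat_lit 395) (nat_lit 281) (nat_lit 224)))))) (XT.nd (nat_lit 42588) (nat_lit 0) (nat_lit 3724) (XT.nd (nat_lit 42354) (nat_lit 0) (nat_lit 5168) (XT.nd (nat_lit 42198) (nat_lit 0) (nat_lit 6080) (XT.lf (nat_lit 0) (nat_lit 18906467193) (nat_lit 152) (nat_lit 76083419711) (nat_lit 0) (nat_lit 7398927111) (nat_lit 5) (nat_lit 5) (nat_lit 7) (nat_lit 4) (nat_lit 5) (nat_lit 4) (nat_lit 396) (nat_lit 281) (nat_lit 223)) (XT.nd (nat_lit 78) (nat_lit 228) (nat_lit 0) (XT.lf (nat_lit 0) (nat_lit 358649717) (nat_lit 304) (nat_lit 4594950349) (nat_lit 0) (nat_lit 358649717) (nat_lit 88) (nat_lit 5) (nat_lit 92) (nat_lit 4) (nat_lit 88) (nat_lit 4) (nat_lit 336) (nat_lit 282) (nat_lit 282)) (XT.lf (nat_lit 0) (nat_lit 4818879537) (nat_lit 228) (nat_lit 3587254913) (nat_lit 228) (nat_lit 2482876403)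 (nat_lit 85) (nat_lit 4) (nat_lit 88) (nat_lit 5) (nat_lit 88) (nat_lit 4) (nat_lit 337) (nat_lit 282) (nat_lit 281)))) (XT.nd (nat_lit 78) (nat_lit 684) (nat_lit 0) (XT.lf (nat_lit 0) (nat_lit 5129758046) (nat_lit 228) (nat_lit 3001514652) (nat_lit 0) (nat_lit 3036391476) (nat_lit 82) (nat_lit 5) (nat_lit 85) (nat_lit 4) (nat_lit 82) (nat_lit 4) (nat_lit 338) (nat_lit 282) (nat_lit 280)) (XT.nd (nat_lit 78) (nat_lit 228) (nat_lit 0) (XT.lf (nat_lit 0) (nat_lit 8159890) (nat_lit 152) (nat_lit 1506152663) (nat_lit 228) (nat_lit 9946792967) (nat_lit 76) (nat_lit 5) (nat_lit 78) (nat_lit 5) (nat_lit 79) (nat_lit 4) (nat_lit 339) (nat_lit 282) (nat_lit 279)) (XT.lf (nat_lit 0) (nat_lit 2965691678) (nat_lit 228) (nat_lit 6339034830) (nat_lit 228) (nat_lit 2463198171) (nat_lit 73) (nat_lit 4) (nat_lit 76) (nat_lit 5) (nat_lit 76) (nat_lit 4) (nat_lit 340) (nat_lit 282) (nat_lit 278))))) (XT.nd (nat_lit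 234) (nat_lit 760) (nat_lit 0) (XT.nd (nat_lit 78) (nat_lit 456) (nat_lit 0) (XT.lf (nat_lit 0) (nat_lit 5215862844) (nat_lit 228) (nat_lit 6253487963) (nat_lit 0) (nat_lit 621439859) (nat_lit 70) (nat_lit 5) (nat_lit 73) (nat_lit 4) (nat_lit 70) (nat_lit 4) (nat_lit 341) (nat_lit 282) (nat_lit 277)) (XT.nd (nat_lit 78) (nat_lit 152) (nat_lit 0) (XT.lf (nat_lit 0) (nat_lit 758313939) (nat_lit 304) (nat_lit 3846926423) (nat_lit 76) (nat_lit 7824400251) (nat_lit 66) (nat_lit 5) (nat_lit 70) (nat_lit 5) (nat_lit 67) (nat_lit 4) (nat_lit 342) (nat_lit 282) (nat_lit 276)) (XT.lf (nat_lit 0) (nat_lit 8573263463) (nat_lit 228) (nat_lit 1600275444) (nat_lit 0) (nat_lit 2611636425) (nat_lit 64) (nat_lit 5) (nat_lit 67) (nat_lit 4) (nat_lit 64) (nat_lit 4) (nat_lit 343) (nat_lit 282) (nat_lit 275)))) (XT.nd (nat_lit 78) (nat_lit 380) (nat_lit 0) (XT.lf (nat_lit 0) (nat_lit 488491645) (nat_lit 152) (nat_lit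 3032423469) (nat_lit 228) (nat_lit 9637442273) (nat_lit 59) (nat_lit 5) (nat_lit 61) (nat_lit 5) (nat_lit 62) (nat_lit 4) (nat_lit 344) (nat_lit 282) (nat_lit 274)) (XT.nd (nat_lit 78) (nat_lit 228) (nat_lit 0) (XT.lf (nat_lit 0) (nat_lit 2410869451) (nat_lit 152) (nat_lit 9124236250) (nat_lit 152) (nat_lit 2014431959) (nat_lit 57) (nat_lit 4) (nat_lit 59) (nat_lit 5) (nat_lit 59) (nat_lit 4) (nat_lit 345) (nat_lit 282) (nat_lit 273)) (XT.lf (nat_lit 0) (nat_lit 4107484508) (nat_lit 152) (nat_lit 1720778198) (nat_lit 228) (nat_lit 8131666190) (nat_lit 54) (nat_lit 5) (nat_lit 56) (nat_lit 5) (nat_lit 57) (nat_lit 4) (nat_lit 346) (nat_lit 282) (nat_lit 272))))))) (XT.nd (nat_lit 936) (nat_lit 912) (nat_lit 0) (XT.nd (nat_lit 468) (nat_lit 836) (nat_lit 0) (XT.nd (nat_lit 234) (nat_lit 380) (nat_lit 0) (XT.nd (nat_lit 78) (nat_lit 456) (nat_lit 0) (XT.lf (nat_lit 0) (nat_lit 5560042308) (nat_lit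 152) (nat_lit 8448674726) (nat_lit 152) (nat_lit 381945442) (nat_lit 52) (nat_lit 4) (nat_lit 54) (nat_lit 5) (nat_lit 54) (nat_lit 4) (nat_lit 347) (nat_lit 282) (nat_lit 271)) (XT.nd (nat_lit 78) (nat_lit 228) (nat_lit 0) (XT.lf (nat_lit 0) (nat_lit 6724950960) (nat_lit 152) (nat_lit 827980021) (nat_lit 228) (nat_lit 7289331953) (nat_lit 49) (nat_lit 5) (nat_lit 51) (nat_lit 5) (nat_lit 52) (nat_lit 4) (nat_lit 348) (nat_lit 282) (nat_lit 270)) (XT.lf (nat_lit 0) (nat_lit 553245738) (nat_lit 228) (nat_lit 7733724401) (nat_lit 76) (nat_lit 7029116477) (nat_lit 46) (nat_lit 5) (nat_lit 49) (nat_lit 5) (nat_lit 47) (nat_lit 4) (nat_lit 349) (nat_lit 282) (nat_lit 269)))) (XT.nd (nat_lit 78) (nat_lit 304) (nat_lit 0) (XT.lf (nat_lit 0) (nat_lit 8092586322) (nat_lit 76) (nat_lit 491456708) (nat_lit 152) (nat_lit 7229020289) (nat_lit 45) (nat_lit 5) (nat_lit 46) (nat_lit 5) (nat_lit 47) (nat_lit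 4) (nat_lit 350) (nat_lit 282) (nat_lit 268)) (XT.nd (nat_lit 78) (nat_lit 76) (nat_lit 0) (XT.lf (nat_lit 0) (nat_lit 681809037) (nat_lit 228) (nat_lit 8117434691) (nat_lit 76) (nat_lit 7535070027) (nat_lit 42) (nat_lit 5) (nat_lit 45) (nat_lit 5) (nat_lit 43) (nat_lit 4) (nat_lit 351) (nat_lit 282) (nat_lit 267)) (XT.lf (nat_lit 0) (nat_lit 7914830960) (nat_lit 76) (nat_lit 871224150) (nat_lit 152) (nat_lit 8095031376) (nat_lit 41) (nat_lit 5) (nat_lit 42) (nat_lit 5) (nat_lit 43) (nat_lit 4) (nat_lit 352) (nat_lit 282) (nat_lit 266))))) (XT.nd (nat_lit 234) (nat_lit 380) (nat_lit 0) (XT.nd (nat_lit 78) (nat_lit 304) (nat_lit 0) (XT.lf (nat_lit 0) (nat_lit 7145186300) (nat_lit 152) (nat_lit 10164632701) (nat_lit 152) (nat_lit 144976816) (nat_lit 39) (nat_lit 4) (nat_lit 41) (nat_lit 5) (nat_lit 41) (nat_lit 4) (nat_lit 353) (nat_lit 282) (nat_lit 265)) (XT.nd (nat_lit 78) (nat_lit 152) (nat_lit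 0) (XT.lf (nat_lit 0) (nat_lit 5840112966) (nat_lit 76) (nat_lit 2154496171) (nat_lit 152) (nat_lit 10061678395) (nat_lit 37) (nat_lit 5) (nat_lit 38) (nat_lit 5) (nat_lit 39) (nat_lit 4) (nat_lit 354) (nat_lit 282) (nat_lit 264)) (XT.lf (nat_lit 0) (nat_lit 3968968046) (nat_lit 152) (nat_lit 12573278153) (nat_lit 152) (nat_lit 2145466354) (nat_lit 35) (nat_lit 4) (nat_lit 37) (nat_lit 5) (nat_lit 37) (nat_lit 4) (nat_lit 355) (nat_lit 282) (nat_lit 263)))) (XT.nd (nat_lit 78) (nat_lit 228) (nat_lit 0) (XT.lf (nat_lit 0) (nat_lit 1450601545) (nat_lit 76) (nat_lit 4561030083) (nat_lit 152) (nat_lit 13338358773) (nat_lit 33) (nat_lit 5) (nat_lit 34) (nat_lit 5) (nat_lit 35) (nat_lit 4) (nat_lit 356) (nat_lit 282) (nat_lit 262)) (XT.nd (nat_lit 78) (nat_lit 228) (nat_lit 0) (XT.lf (nat_lit 0) (nat_lit 14529762793) (nat_lit 152) (nat_lit 1725822436) (nat_lit 0) (nat_lit 3789254187) (nat_lit 33)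 (nat_lit 5) (nat_lit 35) (nat_lit 4) (nat_lit 33) (nat_lit 4) (nat_lit 357) (nat_lit 282) (nat_lit 261)) (XT.lf (nat_lit 0) (nat_lit 2654824198) (nat_lit 228) (nat_lit 5637589225) (nat_lit 76) (nat_lit 12481014599) (nat_lit 30) (nat_lit 5) (nat_lit 33) (nat_lit 5) (nat_lit 31) (nat_lit 4) (nat_lit 358) (nat_lit 282) (nat_lit 260)))))) (XT.nd (nat_lit 468) (nat_lit 380) (nat_lit 0) (XT.nd (nat_lit 234) (nat_lit 228) (nat_lit 0) (XT.nd (nat_lit 78) (nat_lit 228) (nat_lit 0) (XT.lf (nat_lit 0) (nat_lit 11066449367) (nat_lit 152) (nat_lit 10376013143) (nat_lit 0) (nat_lit 95945245) (nat_lit 29) (nat_lit 5) (nat_lit 31) (nat_lit 4) (nat_lit 29) (nat_lit 4) (nat_lit 359) (nat_lit 282) (nat_lit 259)) (XT.nd (nat_lit 78) (nat_lit 152) (nat_lit 0) (XT.lf (nat_lit 0) (nat_lit 6287226928) (nat_lit 76) (nat_lit 13638156693) (nat_lit 76) (nat_lit 2415468662) (nat_lit 28) (nat_lit 4) (nat_lit 29) (nat_lit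 5) (nat_lit 29) (nat_lit 4) (nat_lit 360) (nat_lit 282) (nat_lit 258)) (XT.lf (nat_lit 0) (nat_lit 444333200) (nat_lit 76) (nat_lit 5421280781) (nat_lit 152) (nat_lit 17317887286) (nat_lit 26) (nat_lit 5) (nat_lit 27) (nat_lit 5) (nat_lit 28) (nat_lit 4) (nat_lit 361) (nat_lit 282) (nat_lit 257)))) (XT.nd (nat_lit 78) (nat_lit 228) (nat_lit 0) (XT.lf (nat_lit 0) (nat_lit 14540282882) (nat_lit 152) (nat_lit 6337199715) (nat_lit 0) (nat_lit 3189213541) (nat_lit 26) (nat_lit 5) (nat_lit 28) (nat_lit 4) (nat_lit 26) (nat_lit 4) (nat_lit 362) (nat_lit 282) (nat_lit 256)) (XT.nd (nat_lit 78) (nat_lit 152) (nat_lit 0) (XT.lf (nat_lit 0) (nat_lit 10735154465) (nat_lit 76) (nat_lit 12910781903) (nat_lit 76) (nat_lit 1348211647) (nat_lit 25) (nat_lit 4) (nat_lit 26) (nat_lit 5) (nat_lit 26) (nat_lit 4) (nat_lit 363) (nat_lit 282) (nat_lit 255)) (XT.lf (nat_lit 0) (nat_lit 2507341899) (nat_lit 76) (nat_lit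 4522875636) (nat_lit 152) (nat_lit 18937703855) (nat_lit 23) (nat_lit 5) (nat_lit 24) (nat_lit 5) (nat_lit 25) (nat_lit 4) (nat_lit 364) (nat_lit 282) (nat_lit 254))))) (XT.nd (nat_lit 234) (nat_lit 228) (nat_lit 0) (XT.nd (nat_lit 78) (nat_lit 152) (nat_lit 0) (XT.lf (nat_lit 0) (nat_lit 15835338475) (nat_lit 152) (nat_lit 6925858447) (nat_lit 0) (nat_lit 4227729481) (nat_lit 23) (nat_lit 5) (nat_lit 25) (nat_lit 4) (nat_lit 23) (nat_lit 4) (nat_lit 365) (nat_lit 282) (nat_lit 253)) (XT.nd (nat_lit 78) (nat_lit 76) (nat_lit 0) (XT.lf (nat_lit 0) (nat_lit 10311546418) (nat_lit 76) (nat_lit 14767247653) (nat_lit 76) (nat_lit 2982257647) (nat_lit 22) (nat_lit 4) (nat_lit 23) (nat_lit 5) (nat_lit 23) (nat_lit 4) (nat_lit 366) (nat_lit 282) (nat_lit 252)) (XT.lf (nat_lit 0) (nat_lit 5416671669) (nat_lit 152) (nat_lit 958080813) (nat_lit 76) (nat_lit 22812580174) (nat_lit 21) (nat_lit 5) (nat_lit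 23) (nat_lit 5) (nat_lit 22) (nat_lit 4) (nat_lit 367) (nat_lit 282) (nat_lit 251)))) (XT.nd (nat_lit 78) (nat_lit 152) (nat_lit 0) (XT.lf (nat_lit 0) (nat_lit 14222271777) (nat_lit 152) (nat_lit 13685012582) (nat_lit 0) (nat_lit 2460316331) (nat_lit 20) (nat_lit 5) (nat_lit 22) (nat_lit 4) (nat_lit 20) (nat_lit 4) (nat_lit 368) (nat_lit 282) (nat_lit 250)) (XT.nd (nat_lit 78) (nat_lit 76) (nat_lit 0) (XT.lf (nat_lit 0) (nat_lit 3363171602) (nat_lit 76) (nat_lit 20077631138) (nat_lit 76) (nat_lit 8166910268) (nat_lit 19) (nat_lit 4) (nat_lit 20) (nat_lit 5) (nat_lit 20) (nat_lit 4) (nat_lit 369) (nat_lit 282) (nat_lit 249)) (XT.lf (nat_lit 0) (nat_lit 217298801) (nat_lit 152) (nat_lit 11611285661) (nat_lit 76) (nat_lit 21080866148) (nat_lit 18) (nat_lit 5) (nat_lit 20) (nat_lit 5) (nat_lit 19) (nat_lit 4) (nat_lit 370) (nat_lit 282) (nat_lit 248))))))))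
noncomputable def xc20 : XT := (XT.nd (nat_lit 1872) (nat_lit 152) (nat_lit 0) (XT.nd (nat_lit 936) (nat_lit 304) (nat_lit 0) (XT.nd (nat_lit 468) (nat_lit 228) (nat_lit 0) (XT.nd (nat_lit 234) (nat_lit 152) (nat_lit 0) (XT.nd (nat_lit 78) (nat_lit 76) (nat_lit 0) (XT.lf (nat_lit 0) (nat_lit 5641279275) (nat_lit 76) (nat_lit 3141290245) (nat_lit 152) (nat_lit 25493366258) (nat_lit 17) (nat_lit 5) (nat_lit 18) (nat_lit 5) (nat_lit 19) (nat_lit 4) (nat_lit 371) (nat_lit 282) (nat_lit 247)) (XT.nd (nat_lit 78) (nat_lit 76) (nat_lit 0) (XT.lf (nat_lit 0) (nat_lit 17831898814) (nat_lit 152) (nat_lit 12002414514) (nat_lit 0) (nat_lit 5874766755) (nat_lit 17) (nat_lit 5) (nat_lit 19) (nat_lit 4) (nat_lit 17) (nat_lit 4) (nat_lit 372) (nat_lit 282) (nat_lit 246)) (XT.lf (nat_lit 0) (nat_lit 5308853464) (nat_lit 76) (nat_lit 21991004275) (nat_lit 76) (nat_lit 9915047282) (nat_lit 16) (nat_lit 4) (nat_lit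 17) (nat_lit 5) (nat_lit 17) (nat_lit 4) (nat_lit 373) (nat_lit 282) (nat_lit 245)))) (XT.nd (nat_lit 78) (nat_lit 152) (nat_lit 0) (XT.lf (nat_lit 0) (nat_lit 23518459379) (nat_lit 76) (nat_lit 13733190147) (nat_lit 76) (nat_lit 1544066548) (nat_lit 16) (nat_lit 4) (nat_lit 17) (nat_lit 5) (nat_lit 17) (nat_lit 4) (nat_lit 374) (nat_lit 282) (nat_lit 244)) (XT.nd (nat_lit 78) (nat_lit 0) (nat_lit 0) (XT.lf (nat_lit 0) (nat_lit 1941382931) (nat_lit 76) (nat_lit 5072550196) (nat_lit 152) (nat_lit 33442256791) (nat_lit 14) (nat_lit 5) (nat_lit 15) (nat_lit 5) (nat_lit 16) (nat_lit 4) (nat_lit 375) (nat_lit 282) (nat_lit 243)) (XT.lf (nat_lit 0) (nat_lit 16059143466) (nat_lit 152) (nat_lit 22116606443) (nat_lit 0) (nat_lit 4020748550) (nat_lit 14) (nat_lit 5) (nat_lit 16) (nat_lit 4) (nat_lit 14) (nat_lit 4) (nat_lit 376) (nat_lit 282) (nat_lit 242))))) (XT.nd (nat_lit 234) (nat_lit 152) (nat_lit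 0) (XT.nd (nat_lit 78) (nat_lit 76) (nat_lit 0) (XT.lf (nat_lit 0) (nat_lit 25506356655) (nat_lit 152) (nat_lit 5145928667) (nat_lit 0) (nat_lit 13373051478) (nat_lit 14) (nat_lit 5) (nat_lit 16) (nat_lit 4) (nat_lit 14) (nat_lit 4) (nat_lit 377) (nat_lit 282) (nat_lit 241)) (XT.nd (nat_lit 78) (nat_lit 0) (nat_lit 0) (XT.lf (nat_lit 0) (nat_lit 12734896881) (nat_lit 76) (nat_lit 22716824339) (nat_lit 76) (nat_lit 10493128438) (nat_lit 13) (nat_lit 4) (nat_lit 14) (nat_lit 5) (nat_lit 14) (nat_lit 4) (nat_lit 378) (nat_lit 282) (nat_lit 240)) (XT.lf (nat_lit 0) (nat_lit 31435765816) (nat_lit 76) (nat_lit 14417792274) (nat_lit 76) (nat_lit 2108009969) (nat_lit 13) (nat_lit 4) (nat_lit 14) (nat_lit 5) (nat_lit 14) (nat_lit 4) (nat_lit 379) (nat_lit 282) (nat_lit 239)))) (XT.nd (nat_lit 78) (nat_lit 0) (nat_lit 0) (XT.lf (nat_lit 0) (nat_lit 768493494) (nat_lit 76) (nat_lit 5714394608) (nat_lit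 152) (nat_lit 43596792945) (nat_lit 11) (nat_lit 5) (nat_lit 12) (nat_lit 5) (nat_lit 13) (nat_lit 4) (nat_lit 380) (nat_lit 282) (nat_lit 238)) (XT.nd (nat_lit 78) (nat_lit 0) (nat_lit 0) (XT.lf (nat_lit 0) (nat_lit 15576538397) (nat_lit 152) (nat_lit 33253150608) (nat_lit 0) (nat_lit 3469885716) (nat_lit 11) (nat_lit 5) (nat_lit 13) (nat_lit 4) (nat_lit 11) (nat_lit 4) (nat_lit 381) (nat_lit 282) (nat_lit 237)) (XT.lf (nat_lit 0) (nat_lit 25098434438) (nat_lit 152) (nat_lit 16613243747) (nat_lit 0) (nat_lit 12919583046) (nat_lit 11) (nat_lit 5) (nat_lit 13) (nat_lit 4) (nat_lit 11) (nat_lit 4) (nat_lit 382) (nat_lit 282) (nat_lit 236)))))) (XT.nd (nat_lit 468) (nat_lit 76) (nat_lit 0) (XT.nd (nat_lit 234) (nat_lit 152) (nat_lit 0) (XT.nd (nat_lit 78) (nat_lit 0) (nat_lit 0) (XT.lf (nat_lit 0) (nat_lit 717074825) (nat_lit 76) (nat_lit 34306135289) (nat_lit 76) (nat_lit 22058523220) (nat_lit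 10) (nat_lit 4) (nat_lit 11) (nat_lit 5) (nat_lit 11) (nat_lit 4) (nat_lit 383) (nat_lit 282) (nat_lit 235)) (XT.nd (nat_lit 78) (nat_lit 0) (nat_lit 0) (XT.lf (nat_lit 0) (nat_lit 19109960478) (nat_lit 76) (nat_lit 26427536697) (nat_lit 76) (nat_lit 14114438268) (nat_lit 10) (nat_lit 4) (nat_lit 11) (nat_lit 5) (nat_lit 11) (nat_lit 4) (nat_lit 384) (nat_lit 282) (nat_lit 234)) (XT.lf (nat_lit 0) (nat_lit 38278569672) (nat_lit 76) (nat_lit 18224885028) (nat_lit 76) (nat_lit 5849418638) (nat_lit 10) (nat_lit 4) (nat_lit 11) (nat_lit 5) (nat_lit 11) (nat_lit 4) (nat_lit 385) (nat_lit 282) (nat_lit 233)))) (XT.nd (nat_lit 78) (nat_lit 76) (nat_lit 0) (XT.lf (nat_lit 0) (nat_lit 2702430619) (nat_lit 152) (nat_lit 6948930291) (nat_lit 76) (nat_lit 55538822082) (nat_lit 9) (nat_lit 5) (nat_lit 11) (nat_lit 5) (nat_lit 10) (nat_lit 4) (nat_lit 386) (nat_lit 282) (nat_lit 232)) (XT.nd (nat_lit 78)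 (nat_lit 0) (nat_lit 0) (XT.lf (nat_lit 0) (nat_lit 11057550670) (nat_lit 76) (nat_lit 542934402) (nat_lit 152) (nat_lit 56565951816) (nat_lit 8) (nat_lit 5) (nat_lit 9) (nat_lit 5) (nat_lit 10) (nat_lit 4) (nat_lit 387) (nat_lit 282) (nat_lit 231)) (XT.lf (nat_lit 0) (nat_lit 21035969058) (nat_lit 152) (nat_lit 41396705663) (nat_lit 0) (nat_lit 8856056614) (nat_lit 8) (nat_lit 5) (nat_lit 10) (nat_lit 4) (nat_lit 8) (nat_lit 4) (nat_lit 388) (nat_lit 282) (nat_lit 230))))) (XT.nd (nat_lit 234) (nat_lit 0) (nat_lit 0) (XT.nd (nat_lit 78) (nat_lit 76) (nat_lit 0) (XT.lf (nat_lit 0) (nat_lit 30885441416) (nat_lit 152) (nat_lit 25027722976) (nat_lit 0) (nat_lit 18655713170) (nat_lit 8) (nat_lit 5) (nat_lit 10) (nat_lit 4) (nat_lit 8) (nat_lit 4) (nat_lit 389) (nat_lit 282) (nat_lit 229)) (XT.nd (nat_lit 78) (nat_lit 76) (nat_lit 0) (XT.lf (nat_lit 0) (nat_lit 41167134255) (nat_lit 152) (nat_lit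 7957745371) (nat_lit 0) (nat_lit 28889962388) (nat_lit 8) (nat_lit 5) (nat_lit 10) (nat_lit 4) (nat_lit 8) (nat_lit 4) (nat_lit 390) (nat_lit 282) (nat_lit 228)) (XT.lf (nat_lit 0) (nat_lit 10049981287) (nat_lit 76) (nat_lit 41952153077) (nat_lit 76) (nat_lit 29629796809) (nat_lit 7) (nat_lit 4) (nat_lit 8) (nat_lit 5) (nat_lit 8) (nat_lit 4) (nat_lit 391) (nat_lit 282) (nat_lit 227)))) (XT.nd (nat_lit 78) (nat_lit 0) (nat_lit 0) (XT.lf (nat_lit 0) (nat_lit 29015733070) (nat_lit 76) (nat_lit 34389373547) (nat_lit 76) (nat_lit 22023984517) (nat_lit 7) (nat_lit 4) (nat_lit 8) (nat_lit 5) (nat_lit 8) (nat_lit 4) (nat_lit 392) (nat_lit 282) (nat_lit 226)) (XT.nd (nat_lit 78) (nat_lit 0) (nat_lit 0) (XT.lf (nat_lit 0) (nat_lit 48826291794) (nat_lit 76) (nat_lit 26498892046) (nat_lit 76) (nat_lit 14092519431) (nat_lit 7) (nat_lit 4) (nat_lit 8) (nat_lit 5) (nat_lit 8) (nat_lit 4) (nat_lit 393) (nat_lit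 282) (nat_lit 225)) (XT.lf (nat_lit 0) (nat_lit 69528825454) (nat_lit 76) (nat_lit 18261921711) (nat_lit 76) (nat_lit 5816517112) (nat_lit 7) (nat_lit 4) (nat_lit 8) (nat_lit 5) (nat_lit 8) (nat_lit 4) (nat_lit 394) (nat_lit 282) (nat_lit 224))))))) (XT.nd (nat_lit 42900) (nat_lit 0) (nat_lit 2432) (XT.nd (nat_lit 42432) (nat_lit 0) (nat_lit 4484) (XT.nd (nat_lit 42198) (nat_lit 0) (nat_lit 6080) (XT.nd (nat_lit 78) (nat_lit 76) (nat_lit 0) (XT.lf (nat_lit 0) (nat_lit 2768626119) (nat_lit 152) (nat_lit 6862266894) (nat_lit 76) (nat_lit 88376041985) (nat_lit 6) (nat_lit 5) (nat_lit 8) (nat_lit 5) (nat_lit 7) (nat_lit 4) (nat_lit 395) (nat_lit 282) (nat_lit 223)) (XT.nd (nat_lit 42042) (nat_lit 0) (nat_lit 7144) (XT.lf (nat_lit 0) (nat_lit 11285921200) (nat_lit 76) (nat_lit 440139035) (nat_lit 152) (nat_lit 90896903899) (nat_lit 5) (nat_lit 5) (nat_lit 6) (nat_lit 5) (nat_lit 7) (nat_lit 4) (nat_lit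 396) (nat_lit 282) (nat_lit 222)) (XT.lf (nat_lit 0) (nat_lit 2488997740) (nat_lit 304) (nat_lit 1287516198) (nat_lit 304) (nat_lit 1287516198) (nat_lit 99) (nat_lit 4) (nat_lit 103) (nat_lit 5) (nat_lit 103) (nat_lit 4) (nat_lit 334) (nat_lit 283) (nat_lit 283)))) (XT.nd (nat_lit 78) (nat_lit 760) (nat_lit 0) (XT.lf (nat_lit 0) (nat_lit 4792784827) (nat_lit 304) (nat_lit 1980594211) (nat_lit 0) (nat_lit 3598399469) (nat_lit 95) (nat_lit 5) (nat_lit 99) (nat_lit 4) (nat_lit 95) (nat_lit 4) (nat_lit 335) (nat_lit 283) (nat_lit 282)) (XT.nd (nat_lit 78) (nat_lit 228) (nat_lit 0) (XT.lf (nat_lit 0) (nat_lit 1201699172) (nat_lit 228) (nat_lit 538987722) (nat_lit 304) (nat_lit 8887936662) (nat_lit 88) (nat_lit 5) (nat_lit 91) (nat_lit 5) (nat_lit 92) (nat_lit 4) (nat_lit 336) (nat_lit 283) (nat_lit 281)) (XT.lf (nat_lit 0) (nat_lit 4357225925) (nat_lit 228) (nat_lit 4928019061) (nat_lit 228) (nat_lit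 1612254058) (nat_lit 85) (nat_lit 4) (nat_lit 88) (nat_lit 5) (nat_lit 88) (nat_lit 4) (nat_lit 337) (nat_lit 283) (nat_lit 280))))) (XT.nd (nat_lit 234) (nat_lit 684) (nat_lit 0) (XT.nd (nat_lit 78) (nat_lit 684) (nat_lit 0) (XT.lf (nat_lit 0) (nat_lit 5831245512) (nat_lit 228) (nat_lit 3709725182) (nat_lit 0) (nat_lit 1639528165) (nat_lit 82) (nat_lit 5) (nat_lit 85) (nat_lit 4) (nat_lit 82) (nat_lit 4) (nat_lit 338) (nat_lit 283) (nat_lit 279)) (XT.nd (nat_lit 78) (nat_lit 380) (nat_lit 0) (XT.lf (nat_lit 0) (nat_lit 2050825108) (nat_lit 304) (nat_lit 954759540) (nat_lit 76) (nat_lit 8472348715) (nat_lit 78) (nat_lit 5) (nat_lit 82) (nat_lit 5) (nat_lit 79) (nat_lit 4) (nat_lit 339) (nat_lit 283) (nat_lit 278)) (XT.lf (nat_lit 0) (nat_lit 1739700724) (nat_lit 228) (nat_lit 7937642685) (nat_lit 228) (nat_lit 2112355212) (nat_lit 73) (nat_lit 4) (nat_lit 76) (nat_lit 5) (nat_lit 76) (nat_lit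 4) (nat_lit 340) (nat_lit 283) (nat_lit 277)))) (XT.nd (nat_lit 78) (nat_lit 456) (nat_lit 0) (XT.lf (nat_lit 0) (nat_lit 4349453571) (nat_lit 152) (nat_lit 1064525838) (nat_lit 228) (nat_lit 6702887451) (nat_lit 70) (nat_lit 5) (nat_lit 72) (nat_lit 5) (nat_lit 73) (nat_lit 4) (nat_lit 341) (nat_lit 283) (nat_lit 276)) (XT.nd (nat_lit 78) (nat_lit 152) (nat_lit 0) (XT.lf (nat_lit 0) (nat_lit 776176224) (nat_lit 304) (nat_lit 5626034033) (nat_lit 76) (nat_lit 6058006553) (nat_lit 66) (nat_lit 5) (nat_lit 70) (nat_lit 5) (nat_lit 67) (nat_lit 4) (nat_lit 342) (nat_lit 283) (nat_lit 275)) (XT.lf (nat_lit 0) (nat_lit 8433731671) (nat_lit 228) (nat_lit 3642287149) (nat_lit 0) (nat_lit 744478330) (nat_lit 64) (nat_lit 5) (nat_lit 67) (nat_lit 4) (nat_lit 64) (nat_lit 4) (nat_lit 343) (nat_lit 283) (nat_lit 274)))))) (XT.nd (nat_lit 468) (nat_lit 760) (nat_lit 0) (XT.nd (nat_lit 234) (nat_lit 532)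 (nat_lit 0) (XT.nd (nat_lit 78) (nat_lit 532) (nat_lit 0) (XT.lf (nat_lit 0) (nat_lit 3204694104) (nat_lit 228) (nat_lit 1847856688) (nat_lit 76) (nat_lit 8145544223) (nat_lit 61) (nat_lit 5) (nat_lit 64) (nat_lit 5) (nat_lit 62) (nat_lit 4) (nat_lit 344) (nat_lit 283) (nat_lit 273)) (XT.nd (nat_lit 78) (nat_lit 380) (nat_lit 0) (XT.lf (nat_lit 0) (nat_lit 11041030106) (nat_lit 228) (nat_lit 236739391) (nat_lit 0) (nat_lit 2316862385) (nat_lit 59) (nat_lit 5) (nat_lit 62) (nat_lit 4) (nat_lit 59) (nat_lit 4) (nat_lit 345) (nat_lit 283) (nat_lit 272)) (XT.lf (nat_lit 0) (nat_lit 1154454173) (nat_lit 152) (nat_lit 3999961723) (nat_lit 228) (nat_lit 8855138029) (nat_lit 54) (nat_lit 5) (nat_lit 56) (nat_lit 5) (nat_lit 57) (nat_lit 4) (nat_lit 346) (nat_lit 283) (nat_lit 271)))) (XT.nd (nat_lit 78) (nat_lit 380) (nat_lit 0) (XT.lf (nat_lit 0) (nat_lit 2316175915) (nat_lit 152) (nat_lit 10853859312)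 (nat_lit 152) (nat_lit 1275215782) (nat_lit 52) (nat_lit 4) (nat_lit 54) (nat_lit 5) (nat_lit 54) (nat_lit 4) (nat_lit 347) (nat_lit 283) (nat_lit 270)) (XT.nd (nat_lit 78) (nat_lit 152) (nat_lit 0) (XT.lf (nat_lit 0) (nat_lit 3169414872) (nat_lit 152) (nat_lit 3364120652) (nat_lit 228) (nat_lit 8367897288) (nat_lit 49) (nat_lit 5) (nat_lit 51) (nat_lit 5) (nat_lit 52) (nat_lit 4) (nat_lit 348) (nat_lit 283) (nat_lit 269)) (XT.lf (nat_lit 0) (nat_lit 3729282877) (nat_lit 152) (nat_lit 10963540527) (nat_lit 152) (nat_lit 687660666) (nat_lit 47) (nat_lit 4) (nat_lit 49) (nat_lit 5) (nat_lit 49) (nat_lit 4) (nat_lit 349) (nat_lit 283) (nat_lit 268))))) (XT.nd (nat_lit 234) (nat_lit 304) (nat_lit 0) (XT.nd (nat_lit 78) (nat_lit 304) (nat_lit 0) (XT.lf (nat_lit 0) (nat_lit 3910507087) (nat_lit 76) (nat_lit 3301275261) (nat_lit 152) (nat_lit 8670234949) (nat_lit 45) (nat_lit 5) (nat_lit 46) (nat_lit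 5) (nat_lit 47) (nat_lit 4) (nat_lit 350) (nat_lit 283) (nat_lit 267)) (XT.nd (nat_lit 78) (nat_lit 152) (nat_lit 0) (XT.lf (nat_lit 0) (nat_lit 3725534377) (nat_lit 152) (nat_lit 11759689146) (nat_lit 152) (nat_lit 923431306) (nat_lit 43) (nat_lit 4) (nat_lit 45) (nat_lit 5) (nat_lit 45) (nat_lit 4) (nat_lit 351) (nat_lit 283) (nat_lit 266)) (XT.lf (nat_lit 0) (nat_lit 3080599025) (nat_lit 76) (nat_lit 3971736694) (nat_lit 152) (nat_lit 9907766329) (nat_lit 41) (nat_lit 5) (nat_lit 42) (nat_lit 5) (nat_lit 43) (nat_lit 4) (nat_lit 352) (nat_lit 283) (nat_lit 265)))) (XT.nd (nat_lit 78) (nat_lit 152) (nat_lit 0) (XT.lf (nat_lit 0) (nat_lit 1980984875) (nat_lit 152) (nat_lit 13417916752) (nat_lit 152) (nat_lit 2140238291) (nat_lit 39) (nat_lit 4) (nat_lit 41) (nat_lit 5) (nat_lit 41) (nat_lit 4) (nat_lit 353) (nat_lit 283) (nat_lit 264)) (XT.nd (nat_lit 78) (nat_lit 0) (nat_lit 0) (XT.lf (nat_lit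 0) (nat_lit 326411580) (nat_lit 76) (nat_lit 5563141429) (nat_lit 152) (nat_lit 12256127549) (nat_lit 37) (nat_lit 5) (nat_lit 38) (nat_lit 5) (nat_lit 39) (nat_lit 4) (nat_lit 354) (nat_lit 283) (nat_lit 263)) (XT.lf (nat_lit 0) (nat_lit 14272693826) (nat_lit 152) (nat_lit 1852523971) (nat_lit 0) (nat_lit 2656833769) (nat_lit 37) (nat_lit 5) (nat_lit 39) (nat_lit 4) (nat_lit 37) (nat_lit 4) (nat_lit 355) (nat_lit 283) (nat_lit 262))))))))
noncomputable def xc21 : XT := (XT.nd (nat_lit 1872) (nat_lit 532) (nat_lit 0) (XT.nd (nat_lit 936) (nat_lit 608) (nat_lit 0) (XT.nd (nat_lit 468) (nat_lit 456) (nat_lit 0) (XT.nd (nat_lit 234) (nat_lit 304) (nat_lit 0) (XT.nd (nat_lit 78) (nat_lit 228) (nat_lit 0) (XT.lf (nat_lit 0) (nat_lit 3569929569) (nat_lit 228) (nat_lit 4678616233) (nat_lit 76) (nat_lit 11200193729) (nat_lit 34) (nat_lit 5) (nat_lit 37) (nat_lit 5) (nat_lit 35) (nat_lit 4) (nat_lit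 356) (nat_lit 283) (nat_lit 261)) (XT.nd (nat_lit 78) (nat_lit 152) (nat_lit 0) (XT.lf (nat_lit 0) (nat_lit 11916671885) (nat_lit 152) (nat_lit 8179996422) (nat_lit 0) (nat_lit 52071677) (nat_lit 33) (nat_lit 5) (nat_lit 35) (nat_lit 4) (nat_lit 33) (nat_lit 4) (nat_lit 357) (nat_lit 283) (nat_lit 260)) (XT.lf (nat_lit 0) (nat_lit 8417209173) (nat_lit 152) (nat_lit 12301376225) (nat_lit 152) (nat_lit 164039119) (nat_lit 31) (nat_lit 4) (nat_lit 33) (nat_lit 5) (nat_lit 33) (nat_lit 4) (nat_lit 358) (nat_lit 283) (nat_lit 259)))) (XT.nd (nat_lit 78) (nat_lit 152) (nat_lit 0) (XT.lf (nat_lit 0) (nat_lit 4041406208) (nat_lit 76) (nat_lit 4056373466) (nat_lit 152) (nat_lit 13554470709) (nat_lit 29) (nat_lit 5) (nat_lit 30) (nat_lit 5) (nat_lit 31) (nat_lit 4) (nat_lit 359) (nat_lit 283) (nat_lit 258)) (XT.nd (nat_lit 78) (nat_lit 152) (nat_lit 0) (XT.lf (nat_lit 0) (nat_lit 16775512657) (nat_lit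 152) (nat_lit 1185295324) (nat_lit 0) (nat_lit 4499331164) (nat_lit 29) (nat_lit 5) (nat_lit 31) (nat_lit 4) (nat_lit 29) (nat_lit 4) (nat_lit 360) (nat_lit 283) (nat_lit 257)) (XT.lf (nat_lit 0) (nat_lit 2564133214) (nat_lit 152) (nat_lit 7299729305) (nat_lit 76) (nat_lit 13442759421) (nat_lit 27) (nat_lit 5) (nat_lit 29) (nat_lit 5) (nat_lit 28) (nat_lit 4) (nat_lit 361) (nat_lit 283) (nat_lit 256))))) (XT.nd (nat_lit 234) (nat_lit 228) (nat_lit 0) (XT.nd (nat_lit 78) (nat_lit 152) (nat_lit 0) (XT.lf (nat_lit 0) (nat_lit 9725508741) (nat_lit 76) (nat_lit 1332754517) (nat_lit 152) (nat_lit 13136976937) (nat_lit 26) (nat_lit 5) (nat_lit 27) (nat_lit 5) (nat_lit 28) (nat_lit 4) (nat_lit 362) (nat_lit 283) (nat_lit 255)) (XT.nd (nat_lit 78) (nat_lit 76) (nat_lit 0) (XT.lf (nat_lit 0) (nat_lit 2309568262) (nat_lit 76) (nat_lit 17685906535) (nat_lit 76) (nat_lit 5132277408) (nat_lit 25) (nat_lit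 4) (nat_lit 26) (nat_lit 5) (nat_lit 26) (nat_lit 4) (nat_lit 363) (nat_lit 283) (nat_lit 254)) (XT.lf (nat_lit 0) (nat_lit 3222761793) (nat_lit 152) (nat_lit 6203260250) (nat_lit 76) (nat_lit 16679518058) (nat_lit 24) (nat_lit 5) (nat_lit 26) (nat_lit 5) (nat_lit 25) (nat_lit 4) (nat_lit 364) (nat_lit 283) (nat_lit 253)))) (XT.nd (nat_lit 78) (nat_lit 152) (nat_lit 0) (XT.lf (nat_lit 0) (nat_lit 11136821673) (nat_lit 76) (nat_lit 717853600) (nat_lit 152) (nat_lit 15277072118) (nat_lit 23) (nat_lit 5) (nat_lit 24) (nat_lit 5) (nat_lit 25) (nat_lit 4) (nat_lit 365) (nat_lit 283) (nat_lit 252)) (XT.nd (nat_lit 78) (nat_lit 76) (nat_lit 0) (XT.lf (nat_lit 0) (nat_lit 936535929) (nat_lit 76) (nat_lit 19996426209) (nat_lit 76) (nat_lit 7275871394) (nat_lit 22) (nat_lit 4) (nat_lit 23) (nat_lit 5) (nat_lit 23) (nat_lit 4) (nat_lit 366) (nat_lit 283) (nat_lit 251)) (XT.lf (nat_lit 0) (nat_lit 1140064148)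 (nat_lit 152) (nat_lit 10567114399) (nat_lit 76) (nat_lit 17631182768) (nat_lit 21) (nat_lit 5) (nat_lit 23) (nat_lit 5) (nat_lit 22) (nat_lit 4) (nat_lit 367) (nat_lit 283) (nat_lit 250)))))) (XT.nd (nat_lit 468) (nat_lit 304) (nat_lit 0) (XT.nd (nat_lit 234) (nat_lit 152) (nat_lit 0) (XT.nd (nat_lit 78) (nat_lit 76) (nat_lit 0) (XT.lf (nat_lit 0) (nat_lit 6783301326) (nat_lit 76) (nat_lit 2979247607) (nat_lit 152) (nat_lit 20761578954) (nat_lit 20) (nat_lit 5) (nat_lit 21) (nat_lit 5) (nat_lit 22) (nat_lit 4) (nat_lit 368) (nat_lit 283) (nat_lit 249)) (XT.nd (nat_lit 78) (nat_lit 76) (nat_lit 0) (XT.lf (nat_lit 0) (nat_lit 18857868698) (nat_lit 152) (nat_lit 6848907676) (nat_lit 0) (nat_lit 6061165002) (nat_lit 20) (nat_lit 5) (nat_lit 22) (nat_lit 4) (nat_lit 20) (nat_lit 4) (nat_lit 369) (nat_lit 283) (nat_lit 248)) (XT.lf (nat_lit 0) (nat_lit 10836116235) (nat_lit 76) (nat_lit 17584547887)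 (nat_lit 76) (nat_lit 4652909566) (nat_lit 19) (nat_lit 4) (nat_lit 20) (nat_lit 5) (nat_lit 20) (nat_lit 4) (nat_lit 370) (nat_lit 283) (nat_lit 247)))) (XT.nd (nat_lit 78) (nat_lit 76) (nat_lit 0) (XT.lf (nat_lit 0) (nat_lit 3890837182) (nat_lit 152) (nat_lit 5161748008) (nat_lit 76) (nat_lit 25392189293) (nat_lit 18) (nat_lit 5) (nat_lit 20) (nat_lit 5) (nat_lit 19) (nat_lit 4) (nat_lit 371) (nat_lit 283) (nat_lit 246)) (XT.nd (nat_lit 78) (nat_lit 0) (nat_lit 0) (XT.lf (nat_lit 0) (nat_lit 12751928714) (nat_lit 76) (nat_lit 23670244) (nat_lit 152) (nat_lit 23107260911) (nat_lit 17) (nat_lit 5) (nat_lit 18) (nat_lit 5) (nat_lit 19) (nat_lit 4) (nat_lit 372) (nat_lit 283) (nat_lit 245)) (XT.lf (nat_lit 0) (nat_lit 22138140642) (nat_lit 152) (nat_lit 6027316284) (nat_lit 0) (nat_lit 9226394259) (nat_lit 17) (nat_lit 5) (nat_lit 19) (nat_lit 4) (nat_lit 17) (nat_lit 4) (nat_lit 373) (nat_lit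 283) (nat_lit 244))))) (XT.nd (nat_lit 234) (nat_lit 76) (nat_lit 0) (XT.nd (nat_lit 78) (nat_lit 152) (nat_lit 0) (XT.lf (nat_lit 0) (nat_lit 11961037761) (nat_lit 76) (nat_lit 20017250787) (nat_lit 76) (nat_lit 6997726685) (nat_lit 16) (nat_lit 4) (nat_lit 17) (nat_lit 5) (nat_lit 17) (nat_lit 4) (nat_lit 374) (nat_lit 283) (nat_lit 243)) (XT.nd (nat_lit 78) (nat_lit 76) (nat_lit 0) (XT.lf (nat_lit 0) (nat_lit 1597482760) (nat_lit 152) (nat_lit 9879279543) (nat_lit 76) (nat_lit 29163379214) (nat_lit 15) (nat_lit 5) (nat_lit 17) (nat_lit 5) (nat_lit 16) (nat_lit 4) (nat_lit 375) (nat_lit 283) (nat_lit 242)) (XT.lf (nat_lit 0) (nat_lit 8008526251) (nat_lit 76) (nat_lit 2448839939) (nat_lit 152) (nat_lit 31928646917) (nat_lit 14) (nat_lit 5) (nat_lit 15) (nat_lit 5) (nat_lit 16) (nat_lit 4) (nat_lit 376) (nat_lit 283) (nat_lit 241)))) (XT.nd (nat_lit 78) (nat_lit 76) (nat_lit 0) (XT.lf (nat_lit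 0) (nat_lit 19833905533) (nat_lit 152) (nat_lit 17474435100) (nat_lit 0) (nat_lit 6908634113) (nat_lit 14) (nat_lit 5) (nat_lit 16) (nat_lit 4) (nat_lit 14) (nat_lit 4) (nat_lit 377) (nat_lit 283) (nat_lit 240)) (XT.nd (nat_lit 78) (nat_lit 0) (nat_lit 0) (XT.lf (nat_lit 0) (nat_lit 72476477) (nat_lit 76) (nat_lit 29540185073) (nat_lit 76) (nat_lit 16528827249) (nat_lit 13) (nat_lit 4) (nat_lit 14) (nat_lit 5) (nat_lit 14) (nat_lit 4) (nat_lit 378) (nat_lit 283) (nat_lit 239)) (XT.lf (nat_lit 0) (nat_lit 18689009679) (nat_lit 76) (nat_lit 21281926038) (nat_lit 76) (nat_lit 8188581163) (nat_lit 13) (nat_lit 4) (nat_lit 14) (nat_lit 5) (nat_lit 14) (nat_lit 4) (nat_lit 379) (nat_lit 283) (nat_lit 238))))))) (XT.nd (nat_lit 936) (nat_lit 152) (nat_lit 0) (XT.nd (nat_lit 468) (nat_lit 152) (nat_lit 0) (XT.nd (nat_lit 234) (nat_lit 76) (nat_lit 0) (XT.nd (nat_lit 78) (nat_lit 76) (nat_lit 0) (XT.lf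 (nat_lit 0) (nat_lit 471681849) (nat_lit 152) (nat_lit 12213913626) (nat_lit 76) (nat_lit 37595269152) (nat_lit 12) (nat_lit 5) (nat_lit 14) (nat_lit 5) (nat_lit 13) (nat_lit 4) (nat_lit 380) (nat_lit 283) (nat_lit 237)) (XT.nd (nat_lit 78) (nat_lit 0) (nat_lit 0) (XT.lf (nat_lit 0) (nat_lit 5777145273) (nat_lit 76) (nat_lit 3593760010) (nat_lit 152) (nat_lit 43135688287) (nat_lit 11) (nat_lit 5) (nat_lit 12) (nat_lit 5) (nat_lit 13) (nat_lit 4) (nat_lit 381) (nat_lit 283) (nat_lit 236)) (XT.lf (nat_lit 0) (nat_lit 18819178769) (nat_lit 152) (nat_lit 30130886916) (nat_lit 0) (nat_lit 5890425419) (nat_lit 11) (nat_lit 5) (nat_lit 13) (nat_lit 4) (nat_lit 11) (nat_lit 4) (nat_lit 382) (nat_lit 283) (nat_lit 235)))) (XT.nd (nat_lit 78) (nat_lit 76) (nat_lit 0) (XT.lf (nat_lit 0) (nat_lit 28699845163) (nat_lit 152) (nat_lit 12886838103) (nat_lit 0) (nat_lit 15705605453) (nat_lit 11) (nat_lit 5)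 (nat_lit 13) (nat_lit 4) (nat_lit 11) (nat_lit 4) (nat_lit 383) (nat_lit 283) (nat_lit 234)) (XT.nd (nat_lit 78) (nat_lit 0) (nat_lit 0) (XT.lf (nat_lit 0) (nat_lit 5179368963) (nat_lit 76) (nat_lit 33872302741) (nat_lit 76) (nat_lit 20815695070) (nat_lit 10) (nat_lit 4) (nat_lit 11) (nat_lit 5) (nat_lit 11) (nat_lit 4) (nat_lit 384) (nat_lit 283) (nat_lit 233)) (XT.lf (nat_lit 0) (nat_lit 24281116023) (nat_lit 76) (nat_lit 25702114186) (nat_lit 76) (nat_lit 12586108457) (nat_lit 10) (nat_lit 4) (nat_lit 11) (nat_lit 5) (nat_lit 11) (nat_lit 4) (nat_lit 385) (nat_lit 283) (nat_lit 232))))) (XT.nd (nat_lit 234) (nat_lit 0) (nat_lit 0) (XT.nd (nat_lit 78) (nat_lit 152) (nat_lit 0) (XT.lf (nat_lit 0) (nat_lit 44207410080) (nat_lit 76) (nat_lit 17186796570) (nat_lit 76) (nat_lit 4014221261) (nat_lit 10) (nat_lit 4) (nat_lit 11) (nat_lit 5) (nat_lit 11) (nat_lit 4) (nat_lit 386) (nat_lit 283) (nat_lit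 231)) (XT.nd (nat_lit 78) (nat_lit 76) (nat_lit 0) (XT.lf (nat_lit 0) (nat_lit 4824361518) (nat_lit 152) (nat_lit 3432997215) (nat_lit 76) (nat_lit 60132616582) (nat_lit 9) (nat_lit 5) (nat_lit 11) (nat_lit 5) (nat_lit 10) (nat_lit 4) (nat_lit 387) (nat_lit 283) (nat_lit 230)) (XT.lf (nat_lit 0) (nat_lit 14120838303) (nat_lit 152) (nat_lit 56165795532) (nat_lit 0) (nat_lit 1229807842) (nat_lit 8) (nat_lit 5) (nat_lit 10) (nat_lit 4) (nat_lit 8) (nat_lit 4) (nat_lit 388) (nat_lit 283) (nat_lit 229)))) (XT.nd (nat_lit 78) (nat_lit 0) (nat_lit 0) (XT.lf (nat_lit 0) (nat_lit 23940918887) (nat_lit 152) (nat_lit 39854107585) (nat_lit 0) (nat_lit 11002444806) (nat_lit 8) (nat_lit 5) (nat_lit 10) (nat_lit 4) (nat_lit 8) (nat_lit 4) (nat_lit 389) (nat_lit 283) (nat_lit 228)) (XT.nd (nat_lit 78) (nat_lit 0) (nat_lit 0) (XT.lf (nat_lit 0) (nat_lit 34194619560) (nat_lit 152) (nat_lit 22838696399) (nat_lit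 0) (nat_lit 21210961078) (nat_lit 8) (nat_lit 5) (nat_lit 10) (nat_lit 4) (nat_lit 8) (nat_lit 4) (nat_lit 390) (nat_lit 283) (nat_lit 227)) (XT.lf (nat_lit 0) (nat_lit 44906353895) (nat_lit 152) (nat_lit 5079049092) (nat_lit 0) (nat_lit 31879662650) (nat_lit 8) (nat_lit 5) (nat_lit 10) (nat_lit 4) (nat_lit 8) (nat_lit 4) (nat_lit 391) (nat_lit 283) (nat_lit 226)))))) (XT.nd (nat_lit 42276) (nat_lit 0) (nat_lit 5776) (XT.nd (nat_lit 234) (nat_lit 76) (nat_lit 0) (XT.nd (nat_lit 78) (nat_lit 0) (nat_lit 0) (XT.lf (nat_lit 0) (nat_lit 13735141289) (nat_lit 76) (nat_lit 42498515311) (nat_lit 76) (nat_lit 29430840483) (nat_lit 7) (nat_lit 4) (nat_lit 8) (nat_lit 5) (nat_lit 8) (nat_lit 4) (nat_lit 392) (nat_lit 283) (nat_lit 225)) (XT.nd (nat_lit 78) (nat_lit 0) (nat_lit 0) (XT.lf (nat_lit 0) (nat_lit 33497625379) (nat_lit 76) (nat_lit 34631465635) (nat_lit 76) (nat_lit 21524758822) (nat_lit 7)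 (nat_lit 4) (nat_lit 8) (nat_lit 5) (nat_lit 8) (nat_lit 4) (nat_lit 393) (nat_lit 283) (nat_lit 224)) (XT.lf (nat_lit 0) (nat_lit 54154373674) (nat_lit 76) (nat_lit 26416811324) (nat_lit 76) (nat_lit 13272931193) (nat_lit 7) (nat_lit 4) (nat_lit 8) (nat_lit 5) (nat_lit 8) (nat_lit 4) (nat_lit 394) (nat_lit 283) (nat_lit 223)))) (XT.nd (nat_lit 78) (nat_lit 76) (nat_lit 0) (XT.lf (nat_lit 0) (nat_lit 75754568909) (nat_lit 76) (nat_lit 17834993678) (nat_lit 76) (nat_lit 4655710387) (nat_lit 7) (nat_lit 4) (nat_lit 8) (nat_lit 5) (nat_lit 8) (nat_lit 4) (nat_lit 395) (nat_lit 283) (nat_lit 222)) (XT.nd (nat_lit 41886) (nat_lit 0) (nat_lit 7980) (XT.lf (nat_lit 0) (nat_lit 4262586949) (nat_lit 152) (nat_lit 4559949078) (nat_lit 76) (nat_lit 94044009399) (nat_lit 6) (nat_lit 5) (nat_lit 8) (nat_lit 5) (nat_lit 7) (nat_lit 4) (nat_lit 396) (nat_lit 283) (nat_lit 221)) (XT.lf (nat_lit 0) (nat_lit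 2009026770) (nat_lit 380) (nat_lit 818204552) (nat_lit 0) (nat_lit 2009026770) (nat_lit 111) (nat_lit 5) (nat_lit 116) (nat_lit 4) (nat_lit 111) (nat_lit 4) (nat_lit 332) (nat_lit 284) (nat_lit 284))))) (XT.nd (nat_lit 234) (nat_lit 988) (nat_lit 0) (XT.nd (nat_lit 78) (nat_lit 608) (nat_lit 0) (XT.lf (nat_lit 0) (nat_lit 1426973324) (nat_lit 304) (nat_lit 8334763682) (nat_lit 0) (nat_lit 135245559) (nat_lit 103) (nat_lit 5) (nat_lit 107) (nat_lit 4) (nat_lit 103) (nat_lit 4) (nat_lit 333) (nat_lit 284) (nat_lit 283)) (XT.nd (nat_lit 78) (nat_lit 304) (nat_lit 0) (XT.lf (nat_lit 0) (nat_lit 4760920237) (nat_lit 304) (nat_lit 3946621560) (nat_lit 304) (nat_lit 1424676875) (nat_lit 99) (nat_lit 4) (nat_lit 103) (nat_lit 5) (nat_lit 103) (nat_lit 4) (nat_lit 334) (nat_lit 284) (nat_lit 282)) (XT.lf (nat_lit 0) (nat_lit 5770487620) (nat_lit 304) (nat_lit 2425174752) (nat_lit 0) (nat_lit 2184487769)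 (nat_lit 95) (nat_lit 5) (nat_lit 99) (nat_lit 4) (nat_lit 95) (nat_lit 4) (nat_lit 335) (nat_lit 284) (nat_lit 281)))) (XT.nd (nat_lit 78) (nat_lit 456) (nat_lit 0) (XT.lf (nat_lit 0) (nat_lit 503560072) (nat_lit 228) (nat_lit 2044667834) (nat_lit 304) (nat_lit 8092809892) (nat_lit 88) (nat_lit 5) (nat_lit 91) (nat_lit 5) (nat_lit 92) (nat_lit 4) (nat_lit 336) (nat_lit 284) (nat_lit 280)) (XT.nd (nat_lit 78) (nat_lit 228) (nat_lit 0) (XT.lf (nat_lit 0) (nat_lit 3432819524) (nat_lit 228) (nat_lit 6508361140) (nat_lit 228) (nat_lit 973314966) (nat_lit 85) (nat_lit 4) (nat_lit 88) (nat_lit 5) (nat_lit 88) (nat_lit 4) (nat_lit 337) (nat_lit 284) (nat_lit 279)) (XT.lf (nat_lit 0) (nat_lit 6305011433) (nat_lit 228) (nat_lit 4891949490) (nat_lit 0) (nat_lit 4963031) (nat_lit 82) (nat_lit 5) (nat_lit 85) (nat_lit 4) (nat_lit 82) (nat_lit 4) (nat_lit 338) (nat_lit 284) (nat_lit 278))))))))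
noncomputable def xc22 : XT := (XT.nd (nat_lit 1872) (nat_lit 1216) (nat_lit 0) (XT.nd (nat_lit 936) (nat_lit 1520) (nat_lit 0) (XT.nd (nat_lit 468) (nat_lit 1140) (nat_lit 0) (XT.nd (nat_lit 234) (nat_lit 684) (nat_lit 0) (XT.nd (nat_lit 78) (nat_lit 608) (nat_lit 0) (XT.lf (nat_lit 0) (nat_lit 2357289463) (nat_lit 304) (nat_lit 2396862376) (nat_lit 76) (nat_lit 6749216890) (nat_lit 78) (nat_lit 5) (nat_lit 82) (nat_lit 5) (nat_lit 79) (nat_lit 4) (nat_lit 339) (nat_lit 284) (nat_lit 277)) (XT.nd (nat_lit 78) (nat_lit 228) (nat_lit 0) (XT.lf (nat_lit 0) (nat_lit 19228693) (nat_lit 228) (nat_lit 9794817005) (nat_lit 228) (nat_lit 2006208985) (nat_lit 73) (nat_lit 4) (nat_lit 76) (nat_lit 5) (nat_lit 76) (nat_lit 4) (nat_lit 340) (nat_lit 284) (nat_lit 276)) (XT.lf (nat_lit 0) (nat_lit 2354834074) (nat_lit 152) (nat_lit 3024594194) (nat_lit 228) (nat_lit 6772148563) (nat_lit 70) (nat_lit 5) (nat_lit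 72) (nat_lit 5) (nat_lit 73) (nat_lit 4) (nat_lit 341) (nat_lit 284) (nat_lit 275)))) (XT.nd (nat_lit 78) (nat_lit 380) (nat_lit 0) (XT.lf (nat_lit 0) (nat_lit 549715066) (nat_lit 304) (nat_lit 7918265073) (nat_lit 76) (nat_lit 4031746962) (nat_lit 66) (nat_lit 5) (nat_lit 70) (nat_lit 5) (nat_lit 67) (nat_lit 4) (nat_lit 342) (nat_lit 284) (nat_lit 274)) (XT.nd (nat_lit 78) (nat_lit 228) (nat_lit 0) (XT.lf (nat_lit 0) (nat_lit 6646896667) (nat_lit 152) (nat_lit 1414748494) (nat_lit 228) (nat_lit 4802753703) (nat_lit 64) (nat_lit 5) (nat_lit 66) (nat_lit 5) (nat_lit 67) (nat_lit 4) (nat_lit 343) (nat_lit 284) (nat_lit 273)) (XT.lf (nat_lit 0) (nat_lit 2643568793) (nat_lit 228) (nat_lit 4701249769) (nat_lit 76) (nat_lit 5901916723) (nat_lit 61) (nat_lit 5) (nat_lit 64) (nat_lit 5) (nat_lit 62) (nat_lit 4) (nat_lit 344) (nat_lit 284) (nat_lit 272))))) (XT.nd (nat_lit 234) (nat_lit 608) (nat_lit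 0) (XT.nd (nat_lit 78) (nat_lit 380) (nat_lit 0) (XT.lf (nat_lit 0) (nat_lit 10276728117) (nat_lit 152) (nat_lit 41897588) (nat_lit 228) (nat_lit 3329504775) (nat_lit 59) (nat_lit 5) (nat_lit 61) (nat_lit 5) (nat_lit 62) (nat_lit 4) (nat_lit 345) (nat_lit 284) (nat_lit 271)) (XT.nd (nat_lit 78) (nat_lit 152) (nat_lit 0) (XT.lf (nat_lit 0) (nat_lit 4242100229) (nat_lit 228) (nat_lit 2304832251) (nat_lit 76) (nat_lit 7520908852) (nat_lit 56) (nat_lit 5) (nat_lit 59) (nat_lit 5) (nat_lit 57) (nat_lit 4) (nat_lit 346) (nat_lit 284) (nat_lit 270)) (XT.lf (nat_lit 0) (nat_lit 12081728982) (nat_lit 228) (nat_lit 1458741816) (nat_lit 0) (nat_lit 968364912) (nat_lit 54) (nat_lit 5) (nat_lit 57) (nat_lit 4) (nat_lit 54) (nat_lit 4) (nat_lit 347) (nat_lit 284) (nat_lit 269)))) (XT.nd (nat_lit 78) (nat_lit 380) (nat_lit 0) (XT.lf (nat_lit 0) (nat_lit 5255043205) (nat_lit 228) (nat_lit 936120375) (nat_lit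 76) (nat_lit 8778674731) (nat_lit 51) (nat_lit 5) (nat_lit 54) (nat_lit 5) (nat_lit 52) (nat_lit 4) (nat_lit 348) (nat_lit 284) (nat_lit 268)) (XT.nd (nat_lit 78) (nat_lit 228) (nat_lit 0) (XT.lf (nat_lit 0) (nat_lit 13240309539) (nat_lit 228) (nat_lit 692919469) (nat_lit 0) (nat_lit 1520896685) (nat_lit 49) (nat_lit 5) (nat_lit 52) (nat_lit 4) (nat_lit 49) (nat_lit 4) (nat_lit 349) (nat_lit 284) (nat_lit 267)) (XT.lf (nat_lit 0) (nat_lit 5571364199) (nat_lit 228) (nat_lit 841478023) (nat_lit 76) (nat_lit 9547592423) (nat_lit 46) (nat_lit 5) (nat_lit 49) (nat_lit 5) (nat_lit 47) (nat_lit 4) (nat_lit 350) (nat_lit 284) (nat_lit 266)))))) (XT.nd (nat_lit 468) (nat_lit 608) (nat_lit 0) (XT.nd (nat_lit 234) (nat_lit 532) (nat_lit 0) (XT.nd (nat_lit 78) (nat_lit 304) (nat_lit 0) (XT.lf (nat_lit 0) (nat_lit 13673457197) (nat_lit 152) (nat_lit 1342121113) (nat_lit 0) (nat_lit 1476647942) (nat_lit 45)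 (nat_lit 5) (nat_lit 47) (nat_lit 4) (nat_lit 45) (nat_lit 4) (nat_lit 351) (nat_lit 284) (nat_lit 265)) (XT.nd (nat_lit 78) (nat_lit 76) (nat_lit 0) (XT.lf (nat_lit 0) (nat_lit 5055816265) (nat_lit 228) (nat_lit 2313868566) (nat_lit 76) (nat_lit 9678692813) (nat_lit 42) (nat_lit 5) (nat_lit 45) (nat_lit 5) (nat_lit 43) (nat_lit 4) (nat_lit 352) (nat_lit 284) (nat_lit 264)) (XT.lf (nat_lit 0) (nat_lit 13234669375) (nat_lit 152) (nat_lit 3725672803) (nat_lit 0) (nat_lit 672116723) (nat_lit 41) (nat_lit 5) (nat_lit 43) (nat_lit 4) (nat_lit 41) (nat_lit 4) (nat_lit 353) (nat_lit 284) (nat_lit 263)))) (XT.nd (nat_lit 78) (nat_lit 304) (nat_lit 0) (XT.lf (nat_lit 0) (nat_lit 3544859385) (nat_lit 228) (nat_lit 5701442926) (nat_lit 76) (nat_lit 8997295216) (nat_lit 38) (nat_lit 5) (nat_lit 41) (nat_lit 5) (nat_lit 39) (nat_lit 4) (nat_lit 354) (nat_lit 284) (nat_lit 262)) (XT.nd (nat_lit 78) (nat_lit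 228) (nat_lit 0) (XT.lf (nat_lit 0) (nat_lit 10651530057) (nat_lit 76) (nat_lit 1106126167) (nat_lit 152) (nat_lit 7127433200) (nat_lit 37) (nat_lit 5) (nat_lit 38) (nat_lit 5) (nat_lit 39) (nat_lit 4) (nat_lit 355) (nat_lit 284) (nat_lit 261)) (XT.lf (nat_lit 0) (nat_lit 841842463) (nat_lit 228) (nat_lit 11417589878) (nat_lit 76) (nat_lit 7297942809) (nat_lit 34) (nat_lit 5) (nat_lit 37) (nat_lit 5) (nat_lit 35) (nat_lit 4) (nat_lit 356) (nat_lit 284) (nat_lit 260))))) (XT.nd (nat_lit 234) (nat_lit 304) (nat_lit 0) (XT.nd (nat_lit 78) (nat_lit 228) (nat_lit 0) (XT.lf (nat_lit 0) (nat_lit 4938386266) (nat_lit 76) (nat_lit 4098971048) (nat_lit 152) (nat_lit 11224564420) (nat_lit 33) (nat_lit 5) (nat_lit 34) (nat_lit 5) (nat_lit 35) (nat_lit 4) (nat_lit 357) (nat_lit 284) (nat_lit 259)) (XT.nd (nat_lit 78) (nat_lit 76) (nat_lit 0) (XT.lf (nat_lit 0) (nat_lit 1016625265) (nat_lit 152) (nat_lit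 16630817497) (nat_lit 152) (nat_lit 3354127212) (nat_lit 31) (nat_lit 4) (nat_lit 33) (nat_lit 5) (nat_lit 33) (nat_lit 4) (nat_lit 358) (nat_lit 284) (nat_lit 258)) (XT.lf (nat_lit 0) (nat_lit 4851468346) (nat_lit 228) (nat_lit 3675589946) (nat_lit 76) (nat_lit 13248619896) (nat_lit 30) (nat_lit 5) (nat_lit 33) (nat_lit 5) (nat_lit 31) (nat_lit 4) (nat_lit 359) (nat_lit 284) (nat_lit 257)))) (XT.nd (nat_lit 78) (nat_lit 228) (nat_lit 0) (XT.lf (nat_lit 0) (nat_lit 13371956051) (nat_lit 152) (nat_lit 9203283970) (nat_lit 0) (nat_lit 13052093) (nat_lit 29) (nat_lit 5) (nat_lit 31) (nat_lit 4) (nat_lit 29) (nat_lit 4) (nat_lit 360) (nat_lit 284) (nat_lit 256)) (XT.nd (nat_lit 78) (nat_lit 152) (nat_lit 0) (XT.lf (nat_lit 0) (nat_lit 7712763179) (nat_lit 76) (nat_lit 14652073816) (nat_lit 76) (nat_lit 1075323916) (nat_lit 28) (nat_lit 4) (nat_lit 29) (nat_lit 5) (nat_lit 29) (nat_lit 4) (nat_lit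 361) (nat_lit 284) (nat_lit 255)) (XT.lf (nat_lit 0) (nat_lit 1000797433) (nat_lit 76) (nat_lit 6282463482) (nat_lit 152) (nat_lit 17050531085) (nat_lit 26) (nat_lit 5) (nat_lit 27) (nat_lit 5) (nat_lit 28) (nat_lit 4) (nat_lit 362) (nat_lit 284) (nat_lit 254))))))) (XT.nd (nat_lit 936) (nat_lit 532) (nat_lit 0) (XT.nd (nat_lit 468) (nat_lit 304) (nat_lit 0) (XT.nd (nat_lit 234) (nat_lit 152) (nat_lit 0) (XT.nd (nat_lit 78) (nat_lit 228) (nat_lit 0) (XT.lf (nat_lit 0) (nat_lit 16079607263) (nat_lit 152) (nat_lit 6685899576) (nat_lit 0) (nat_lit 2505029673) (nat_lit 26) (nat_lit 5) (nat_lit 28) (nat_lit 4) (nat_lit 26) (nat_lit 4) (nat_lit 363) (nat_lit 284) (nat_lit 253)) (XT.nd (nat_lit 78) (nat_lit 152) (nat_lit 0) (XT.lf (nat_lit 0) (nat_lit 10675438330) (nat_lit 76) (nat_lit 14667577690) (nat_lit 76) (nat_lit 910297658) (nat_lit 25) (nat_lit 4) (nat_lit 26) (nat_lit 5) (nat_lit 26) (nat_lit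 4) (nat_lit 364) (nat_lit 284) (nat_lit 252)) (XT.lf (nat_lit 0) (nat_lit 1456101774) (nat_lit 76) (nat_lit 6123890409) (nat_lit 152) (nat_lit 19704578666) (nat_lit 23) (nat_lit 5) (nat_lit 24) (nat_lit 5) (nat_lit 25) (nat_lit 4) (nat_lit 365) (nat_lit 284) (nat_lit 251)))) (XT.nd (nat_lit 78) (nat_lit 152) (nat_lit 0) (XT.lf (nat_lit 0) (nat_lit 16532405647) (nat_lit 152) (nat_lit 8987034048) (nat_lit 0) (nat_lit 2845998987) (nat_lit 23) (nat_lit 5) (nat_lit 25) (nat_lit 4) (nat_lit 23) (nat_lit 4) (nat_lit 366) (nat_lit 284) (nat_lit 250)) (XT.nd (nat_lit 78) (nat_lit 76) (nat_lit 0) (XT.lf (nat_lit 0) (nat_lit 8560158526) (nat_lit 76) (nat_lit 17389657925) (nat_lit 76) (nat_lit 3550022878) (nat_lit 22) (nat_lit 4) (nat_lit 23) (nat_lit 5) (nat_lit 23) (nat_lit 4) (nat_lit 367) (nat_lit 284) (nat_lit 249)) (XT.lf (nat_lit 0) (nat_lit 5015961107) (nat_lit 152) (nat_lit 3803165795) (nat_lit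 76) (nat_lit 21871280817) (nat_lit 21) (nat_lit 5) (nat_lit 23) (nat_lit 5) (nat_lit 22) (nat_lit 4) (nat_lit 368) (nat_lit 284) (nat_lit 248))))) (XT.nd (nat_lit 234) (nat_lit 152) (nat_lit 0) (XT.nd (nat_lit 78) (nat_lit 76) (nat_lit 0) (XT.lf (nat_lit 0) (nat_lit 13958209285) (nat_lit 152) (nat_lit 17735554254) (nat_lit 0) (nat_lit 245054422) (nat_lit 20) (nat_lit 5) (nat_lit 22) (nat_lit 4) (nat_lit 20) (nat_lit 4) (nat_lit 369) (nat_lit 284) (nat_lit 247)) (XT.nd (nat_lit 78) (nat_lit 76) (nat_lit 0) (XT.lf (nat_lit 0) (nat_lit 23360384202) (nat_lit 152) (nat_lit 370168901) (nat_lit 0) (nat_lit 9518720172) (nat_lit 20) (nat_lit 5) (nat_lit 22) (nat_lit 4) (nat_lit 20) (nat_lit 4) (nat_lit 370) (nat_lit 284) (nat_lit 246)) (XT.lf (nat_lit 0) (nat_lit 18003578332) (nat_lit 76) (nat_lit 15291925115) (nat_lit 76) (nat_lit 1327871402) (nat_lit 19) (nat_lit 4) (nat_lit 20) (nat_lit 5) (nat_lit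 20) (nat_lit 4) (nat_lit 371) (nat_lit 284) (nat_lit 245)))) (XT.nd (nat_lit 78) (nat_lit 0) (nat_lit 0) (XT.lf (nat_lit 0) (nat_lit 975713977) (nat_lit 76) (nat_lit 6441197004) (nat_lit 152) (nat_lit 28649912773) (nat_lit 17) (nat_lit 5) (nat_lit 18) (nat_lit 5) (nat_lit 19) (nat_lit 4) (nat_lit 372) (nat_lit 284) (nat_lit 244)) (XT.nd (nat_lit 78) (nat_lit 0) (nat_lit 0) (XT.lf (nat_lit 0) (nat_lit 16666184651) (nat_lit 152) (nat_lit 18025125512) (nat_lit 0) (nat_lit 2887906625) (nat_lit 17) (nat_lit 5) (nat_lit 19) (nat_lit 4) (nat_lit 17) (nat_lit 4) (nat_lit 373) (nat_lit 284) (nat_lit 243)) (XT.lf (nat_lit 0) (nat_lit 26342233059) (nat_lit 152) (nat_lit 364764679) (nat_lit 0) (nat_lit 12461309587) (nat_lit 17) (nat_lit 5) (nat_lit 19) (nat_lit 4) (nat_lit 17) (nat_lit 4) (nat_lit 374) (nat_lit 284) (nat_lit 242)))))) (XT.nd (nat_lit 468) (nat_lit 228) (nat_lit 0) (XT.nd (nat_lit 234) (nat_lit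 76) (nat_lit 0) (XT.nd (nat_lit 78) (nat_lit 152) (nat_lit 0) (XT.lf (nat_lit 0) (nat_lit 18352052573) (nat_lit 76) (nat_lit 18230536273) (nat_lit 76) (nat_lit 4251855233) (nat_lit 16) (nat_lit 4) (nat_lit 17) (nat_lit 5) (nat_lit 17) (nat_lit 4) (nat_lit 375) (nat_lit 284) (nat_lit 241)) (XT.nd (nat_lit 78) (nat_lit 76) (nat_lit 0) (XT.lf (nat_lit 0) (nat_lit 4568164901) (nat_lit 152) (nat_lit 4798408737) (nat_lit 76) (nat_lit 33218656227) (nat_lit 15) (nat_lit 5) (nat_lit 17) (nat_lit 5) (nat_lit 16) (nat_lit 4) (nat_lit 376) (nat_lit 284) (nat_lit 240)) (XT.lf (nat_lit 0) (nat_lit 13785808140) (nat_lit 152) (nat_lit 30597357163) (nat_lit 0) (nat_lit 37796021) (nat_lit 14) (nat_lit 5) (nat_lit 16) (nat_lit 4) (nat_lit 14) (nat_lit 4) (nat_lit 377) (nat_lit 284) (nat_lit 239)))) (XT.nd (nat_lit 78) (nat_lit 76) (nat_lit 0) (XT.lf (nat_lit 0) (nat_lit 23521115453) (nat_lit 152) (nat_lit 13134549902)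 (nat_lit 0) (nat_lit 9691116283) (nat_lit 14) (nat_lit 5) (nat_lit 16) (nat_lit 4) (nat_lit 14) (nat_lit 4) (nat_lit 378) (nat_lit 284) (nat_lit 238)) (XT.nd (nat_lit 78) (nat_lit 0) (nat_lit 0) (XT.lf (nat_lit 0) (nat_lit 5140260257) (nat_lit 76) (nat_lit 28568870976) (nat_lit 76) (nat_lit 14660788900) (nat_lit 13) (nat_lit 4) (nat_lit 14) (nat_lit 5) (nat_lit 14) (nat_lit 4) (nat_lit 379) (nat_lit 284) (nat_lit 237)) (XT.lf (nat_lit 0) (nat_lit 24446469646) (nat_lit 76) (nat_lit 20014285816) (nat_lit 76) (nat_lit 6031839067) (nat_lit 13) (nat_lit 4) (nat_lit 14) (nat_lit 5) (nat_lit 14) (nat_lit 4) (nat_lit 380) (nat_lit 284) (nat_lit 236))))) (XT.nd (nat_lit 234) (nat_lit 76) (nat_lit 0) (XT.nd (nat_lit 78) (nat_lit 76) (nat_lit 0) (XT.lf (nat_lit 0) (nat_lit 2891547762) (nat_lit 152) (nat_lit 8183428287) (nat_lit 76) (nat_lit 41647895406) (nat_lit 12) (nat_lit 5) (nat_lit 14) (nat_lit 5)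 (nat_lit 13) (nat_lit 4) (nat_lit 381) (nat_lit 284) (nat_lit 235)) (XT.nd (nat_lit 78) (nat_lit 0) (nat_lit 0) (XT.lf (nat_lit 0) (nat_lit 10574145035) (nat_lit 76) (nat_lit 1590813699) (nat_lit 152) (nat_lit 42897058366) (nat_lit 11) (nat_lit 5) (nat_lit 12) (nat_lit 5) (nat_lit 13) (nat_lit 4) (nat_lit 382) (nat_lit 284) (nat_lit 234)) (XT.lf (nat_lit 0) (nat_lit 21994889139) (nat_lit 152) (nat_lit 27297366661) (nat_lit 0) (nat_lit 8223083123) (nat_lit 11) (nat_lit 5) (nat_lit 13) (nat_lit 4) (nat_lit 11) (nat_lit 4) (nat_lit 383) (nat_lit 284) (nat_lit 233)))) (XT.nd (nat_lit 78) (nat_lit 76) (nat_lit 0) (XT.lf (nat_lit 0) (nat_lit 32263172117) (nat_lit 152) (nat_lit 9397785150) (nat_lit 0) (nat_lit 18431968043) (nat_lit 11) (nat_lit 5) (nat_lit 13) (nat_lit 4) (nat_lit 11) (nat_lit 4) (nat_lit 384) (nat_lit 284) (nat_lit 232)) (XT.nd (nat_lit 78) (nat_lit 0) (nat_lit 0) (XT.lf (nat_lit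 0) (nat_lit 9453249335) (nat_lit 76) (nat_lit 33616585168) (nat_lit 76) (nat_lit 19728811515) (nat_lit 10) (nat_lit 4) (nat_lit 11) (nat_lit 5) (nat_lit 11) (nat_lit 4) (nat_lit 385) (nat_lit 284) (nat_lit 231)) (XT.lf (nat_lit 0) (nat_lit 29318897467) (nat_lit 76) (nat_lit 25130712553) (nat_lit 76) (nat_lit 11189063110) (nat_lit 10) (nat_lit 4) (nat_lit 11) (nat_lit 5) (nat_lit 11) (nat_lit 4) (nat_lit 386) (nat_lit 284) (nat_lit 230))))))))
noncomputable def xc23 : XT := (XT.nd (nat_lit 43524) (nat_lit 0) (nat_lit 1216) (XT.nd (nat_lit 42588) (nat_lit 0) (nat_lit 4332) (XT.nd (nat_lit 468) (nat_lit 76) (nat_lit 0) (XT.nd (nat_lit 234) (nat_lit 0) (nat_lit 0) (XT.nd (nat_lit 78) (nat_lit 152) (nat_lit 0) (XT.lf (nat_lit 0) (nat_lit 50059424053) (nat_lit 76) (nat_lit 16278034167) (nat_lit 76) (nat_lit 2285074448) (nat_lit 10) (nat_lit 4) (nat_lit 11) (nat_lit 5) (nat_lit 11) (nat_lit 4) (nat_lit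 387) (nat_lit 284) (nat_lit 229)) (XT.nd (nat_lit 78) (nat_lit 76) (nat_lit 0) (XT.lf (nat_lit 0) (nat_lit 6867674259) (nat_lit 152) (nat_lit 100447901) (nat_lit 76) (nat_lit 64787186998) (nat_lit 9) (nat_lit 5) (nat_lit 11) (nat_lit 5) (nat_lit 10) (nat_lit 4) (nat_lit 388) (nat_lit 284) (nat_lit 228)) (XT.lf (nat_lit 0) (nat_lit 16591786290) (nat_lit 152) (nat_lit 55533672584) (nat_lit 0) (nat_lit 2913760483) (nat_lit 8) (nat_lit 5) (nat_lit 10) (nat_lit 4) (nat_lit 8) (nat_lit 4) (nat_lit 389) (nat_lit 284) (nat_lit 227)))) (XT.nd (nat_lit 78) (nat_lit 0) (nat_lit 0) (XT.lf (nat_lit 0) (nat_lit 26818827758) (nat_lit 152) (nat_lit 38570229416) (nat_lit 0) (nat_lit 13097769188) (nat_lit 8) (nat_lit 5) (nat_lit 10) (nat_lit 4) (nat_lit 8) (nat_lit 4) (nat_lit 390) (nat_lit 284) (nat_lit 226)) (XT.nd (nat_lit 78) (nat_lit 0) (nat_lit 0) (XT.lf (nat_lit 0) (nat_lit 37505172372) (nat_lit 152) (nat_lit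 20860075460) (nat_lit 0) (nat_lit 23743130219) (nat_lit 8) (nat_lit 5) (nat_lit 10) (nat_lit 4) (nat_lit 8) (nat_lit 4) (nat_lit 391) (nat_lit 284) (nat_lit 225)) (XT.lf (nat_lit 0) (nat_lit 48676263813) (nat_lit 152) (nat_lit 2361043681) (nat_lit 0) (nat_lit 34875189675) (nat_lit 8) (nat_lit 5) (nat_lit 10) (nat_lit 4) (nat_lit 8) (nat_lit 4) (nat_lit 392) (nat_lit 284) (nat_lit 224))))) (XT.nd (nat_lit 234) (nat_lit 0) (nat_lit 0) (XT.nd (nat_lit 78) (nat_lit 0) (nat_lit 0) (XT.lf (nat_lit 0) (nat_lit 17308665644) (nat_lit 76) (nat_lit 43216415753) (nat_lit 76) (nat_lit 29378168297) (nat_lit 7) (nat_lit 4) (nat_lit 8) (nat_lit 5) (nat_lit 8) (nat_lit 4) (nat_lit 393) (nat_lit 284) (nat_lit 223)) (XT.nd (nat_lit 78) (nat_lit 0) (nat_lit 0) (XT.lf (nat_lit 0) (nat_lit 37921808829) (nat_lit 76) (nat_lit 35023014799) (nat_lit 76) (nat_lit 21149364182) (nat_lit 7) (nat_lit 4) (nat_lit 8) (nat_lit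 5) (nat_lit 8) (nat_lit 4) (nat_lit 394) (nat_lit 284) (nat_lit 222)) (XT.lf (nat_lit 0) (nat_lit 59480475388) (nat_lit 76) (nat_lit 26461438445) (nat_lit 76) (nat_lit 12554070533) (nat_lit 7) (nat_lit 4) (nat_lit 8) (nat_lit 5) (nat_lit 8) (nat_lit 4) (nat_lit 395) (nat_lit 284) (nat_lit 221)))) (XT.nd (nat_lit 41730) (nat_lit 0) (nat_lit 8284) (XT.lf (nat_lit 0) (nat_lit 82035995478) (nat_lit 76) (nat_lit 17511301986) (nat_lit 76) (nat_lit 3571822363) (nat_lit 7) (nat_lit 4) (nat_lit 8) (nat_lit 5) (nat_lit 8) (nat_lit 4) (nat_lit 396) (nat_lit 284) (nat_lit 220)) (XT.nd (nat_lit 78) (nat_lit 304) (nat_lit 0) (XT.lf (nat_lit 0) (nat_lit 388254344) (nat_lit 380) (nat_lit 3850903491) (nat_lit 0) (nat_lit 388254344) (nat_lit 120) (nat_lit 5) (nat_lit 125) (nat_lit 4) (nat_lit 120) (nat_lit 4) (nat_lit 330) (nat_lit 285) (nat_lit 285)) (XT.lf (nat_lit 0) (nat_lit 4680573945) (nat_lit 304) (nat_lit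 3109151653) (nat_lit 304) (nat_lit 1670237967) (nat_lit 116) (nat_lit 4) (nat_lit 120) (nat_lit 5) (nat_lit 120) (nat_lit 4) (nat_lit 331) (nat_lit 285) (nat_lit 284)))))) (XT.nd (nat_lit 468) (nat_lit 1596) (nat_lit 0) (XT.nd (nat_lit 234) (nat_lit 1064) (nat_lit 0) (XT.nd (nat_lit 78) (nat_lit 912) (nat_lit 0) (XT.lf (nat_lit 0) (nat_lit 5279498854) (nat_lit 380) (nat_lit 1845113808) (nat_lit 0) (nat_lit 2552015677) (nat_lit 111) (nat_lit 5) (nat_lit 116) (nat_lit 4) (nat_lit 111) (nat_lit 4) (nat_lit 332) (nat_lit 285) (nat_lit 283)) (XT.nd (nat_lit 78) (nat_lit 304) (nat_lit 0) (XT.lf (nat_lit 0) (nat_lit 1120440326) (nat_lit 228) (nat_lit 1399287225) (nat_lit 304) (nat_lit 7385247876) (nat_lit 103) (nat_lit 5) (nat_lit 106) (nat_lit 5) (nat_lit 107) (nat_lit 4) (nat_lit 333) (nat_lit 285) (nat_lit 282)) (XT.lf (nat_lit 0) (nat_lit 4109177659) (nat_lit 304) (nat_lit 5542710055) (nat_lit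 304) (nat_lit 492816055) (nat_lit 99) (nat_lit 4) (nat_lit 103) (nat_lit 5) (nat_lit 103) (nat_lit 4) (nat_lit 334) (nat_lit 285) (nat_lit 281)))) (XT.nd (nat_lit 78) (nat_lit 760) (nat_lit 0) (XT.lf (nat_lit 0) (nat_lit 6533835710) (nat_lit 304) (nat_lit 3315394358) (nat_lit 0) (nat_lit 547683272) (nat_lit 95) (nat_lit 5) (nat_lit 99) (nat_lit 4) (nat_lit 95) (nat_lit 4) (nat_lit 335) (nat_lit 285) (nat_lit 280)) (XT.nd (nat_lit 78) (nat_lit 456) (nat_lit 0) (XT.lf (nat_lit 0) (nat_lit 3141101772) (nat_lit 304) (nat_lit 641470819) (nat_lit 76) (nat_lit 6879221567) (nat_lit 91) (nat_lit 5) (nat_lit 95) (nat_lit 5) (nat_lit 92) (nat_lit 4) (nat_lit 336) (nat_lit 285) (nat_lit 279)) (XT.lf (nat_lit 0) (nat_lit 2043459367) (nat_lit 228) (nat_lit 8332043872) (nat_lit 228) (nat_lit 564537845) (nat_lit 85) (nat_lit 4) (nat_lit 88) (nat_lit 5) (nat_lit 88) (nat_lit 4) (nat_lit 337) (nat_lit 285) (nat_lit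 278))))) (XT.nd (nat_lit 234) (nat_lit 912) (nat_lit 0) (XT.nd (nat_lit 78) (nat_lit 456) (nat_lit 0) (XT.lf (nat_lit 0) (nat_lit 4662092666) (nat_lit 152) (nat_lit 1908436213) (nat_lit 228) (nat_lit 4660911238) (nat_lit 82) (nat_lit 5) (nat_lit 84) (nat_lit 5) (nat_lit 85) (nat_lit 4) (nat_lit 338) (nat_lit 285) (nat_lit 277)) (XT.nd (nat_lit 78) (nat_lit 152) (nat_lit 0) (XT.lf (nat_lit 0) (nat_lit 2434356858) (nat_lit 304) (nat_lit 4321741423) (nat_lit 76) (nat_lit 4781376249) (nat_lit 78) (nat_lit 5) (nat_lit 82) (nat_lit 5) (nat_lit 79) (nat_lit 4) (nat_lit 339) (nat_lit 285) (nat_lit 276)) (XT.lf (nat_lit 0) (nat_lit 9701791862) (nat_lit 152) (nat_lit 34847999) (nat_lit 228) (nat_lit 2122381328) (nat_lit 76) (nat_lit 5) (nat_lit 78) (nat_lit 5) (nat_lit 79) (nat_lit 4) (nat_lit 340) (nat_lit 285) (nat_lit 275)))) (XT.nd (nat_lit 78) (nat_lit 608) (nat_lit 0) (XT.lf (nat_lit 0) (nat_lit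 5107428723) (nat_lit 304) (nat_lit 142199508) (nat_lit 76) (nat_lit 6945515944) (nat_lit 72) (nat_lit 5) (nat_lit 76) (nat_lit 5) (nat_lit 73) (nat_lit 4) (nat_lit 341) (nat_lit 285) (nat_lit 274)) (XT.nd (nat_lit 78) (nat_lit 152) (nat_lit 0) (XT.lf (nat_lit 0) (nat_lit 78391271) (nat_lit 304) (nat_lit 10729077234) (nat_lit 76) (nat_lit 1740797049) (nat_lit 66) (nat_lit 5) (nat_lit 70) (nat_lit 5) (nat_lit 67) (nat_lit 4) (nat_lit 342) (nat_lit 285) (nat_lit 273)) (XT.lf (nat_lit 0) (nat_lit 3588734143) (nat_lit 152) (nat_lit 3863693392) (nat_lit 228) (nat_lit 5464668182) (nat_lit 64) (nat_lit 5) (nat_lit 66) (nat_lit 5) (nat_lit 67) (nat_lit 4) (nat_lit 343) (nat_lit 285) (nat_lit 272))))))) (XT.nd (nat_lit 936) (nat_lit 1064) (nat_lit 0) (XT.nd (nat_lit 468) (nat_lit 912) (nat_lit 0) (XT.nd (nat_lit 234) (nat_lit 532) (nat_lit 0) (XT.nd (nat_lit 78) (nat_lit 380) (nat_lit 0) (XT.lf (nat_lit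 0) (nat_lit 1831507486) (nat_lit 228) (nat_lit 8088013619) (nat_lit 76) (nat_lit 3385013767) (nat_lit 61) (nat_lit 5) (nat_lit 64) (nat_lit 5) (nat_lit 62) (nat_lit 4) (nat_lit 344) (nat_lit 285) (nat_lit 271)) (XT.nd (nat_lit 78) (nat_lit 228) (nat_lit 0) (XT.lf (nat_lit 0) (nat_lit 6637438221) (nat_lit 152) (nat_lit 2730598507) (nat_lit 228) (nat_lit 4342068179) (nat_lit 59) (nat_lit 5) (nat_lit 61) (nat_lit 5) (nat_lit 62) (nat_lit 4) (nat_lit 345) (nat_lit 285) (nat_lit 270)) (XT.lf (nat_lit 0) (nat_lit 3082978252) (nat_lit 228) (nat_lit 6291126665) (nat_lit 76) (nat_lit 4761009938) (nat_lit 56) (nat_lit 5) (nat_lit 59) (nat_lit 5) (nat_lit 57) (nat_lit 4) (nat_lit 346) (nat_lit 285) (nat_lit 269)))) (XT.nd (nat_lit 78) (nat_lit 380) (nat_lit 0) (XT.lf (nat_lit 0) (nat_lit 8815281539) (nat_lit 152) (nat_lit 1958148455) (nat_lit 228) (nat_lit 3807171287) (nat_lit 54) (nat_lit 5) (nat_lit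 56) (nat_lit 5) (nat_lit 57) (nat_lit 4) (nat_lit 347) (nat_lit 285) (nat_lit 268)) (XT.nd (nat_lit 78) (nat_lit 152) (nat_lit 0) (XT.lf (nat_lit 0) (nat_lit 3741237254) (nat_lit 228) (nat_lit 5546970530) (nat_lit 76) (nat_lit 5758629700) (nat_lit 51) (nat_lit 5) (nat_lit 54) (nat_lit 5) (nat_lit 52) (nat_lit 4) (nat_lit 348) (nat_lit 285) (nat_lit 267)) (XT.lf (nat_lit 0) (nat_lit 9901014950) (nat_lit 152) (nat_lit 1669226249) (nat_lit 228) (nat_lit 3965586279) (nat_lit 49) (nat_lit 5) (nat_lit 51) (nat_lit 5) (nat_lit 52) (nat_lit 4) (nat_lit 349) (nat_lit 285) (nat_lit 266))))) (XT.nd (nat_lit 234) (nat_lit 380) (nat_lit 0) (XT.nd (nat_lit 78) (nat_lit 304) (nat_lit 0) (XT.lf (nat_lit 0) (nat_lit 3693951994) (nat_lit 228) (nat_lit 6103492846) (nat_lit 76) (nat_lit 6250005154) (nat_lit 46) (nat_lit 5) (nat_lit 49) (nat_lit 5) (nat_lit 47) (nat_lit 4) (nat_lit 350) (nat_lit 285) (nat_lit 265))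 (XT.nd (nat_lit 78) (nat_lit 228) (nat_lit 0) (XT.lf (nat_lit 0) (nat_lit 9631229323) (nat_lit 76) (nat_lit 2006811088) (nat_lit 152) (nat_lit 4945954308) (nat_lit 45) (nat_lit 5) (nat_lit 46) (nat_lit 5) (nat_lit 47) (nat_lit 4) (nat_lit 351) (nat_lit 285) (nat_lit 264)) (XT.lf (nat_lit 0) (nat_lit 2804569246) (nat_lit 228) (nat_lit 8255378768) (nat_lit 76) (nat_lit 6085790657) (nat_lit 42) (nat_lit 5) (nat_lit 45) (nat_lit 5) (nat_lit 43) (nat_lit 4) (nat_lit 352) (nat_lit 285) (nat_lit 263)))) (XT.nd (nat_lit 78) (nat_lit 304) (nat_lit 0) (XT.lf (nat_lit 0) (nat_lit 7692507989) (nat_lit 76) (nat_lit 3138115558) (nat_lit 152) (nat_lit 6903791777) (nat_lit 41) (nat_lit 5) (nat_lit 42) (nat_lit 5) (nat_lit 43) (nat_lit 4) (nat_lit 353) (nat_lit 285) (nat_lit 262)) (XT.nd (nat_lit 78) (nat_lit 76) (nat_lit 0) (XT.lf (nat_lit 0) (nat_lit 908227395) (nat_lit 228) (nat_lit 12352640667) (nat_lit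 76) (nat_lit 5090805061) (nat_lit 38) (nat_lit 5) (nat_lit 41) (nat_lit 5) (nat_lit 39) (nat_lit 4) (nat_lit 354) (nat_lit 285) (nat_lit 261)) (XT.lf (nat_lit 0) (nat_lit 3712244298) (nat_lit 76) (nat_lit 5259381555) (nat_lit 152) (nat_lit 10026031184) (nat_lit 37) (nat_lit 5) (nat_lit 38) (nat_lit 5) (nat_lit 39) (nat_lit 4) (nat_lit 355) (nat_lit 285) (nat_lit 260)))))) (XT.nd (nat_lit 468) (nat_lit 456) (nat_lit 0) (XT.nd (nat_lit 234) (nat_lit 304) (nat_lit 0) (XT.nd (nat_lit 78) (nat_lit 152) (nat_lit 0) (XT.lf (nat_lit 0) (nat_lit 843757514) (nat_lit 152) (nat_lit 16595456123) (nat_lit 152) (nat_lit 2236715580) (nat_lit 35) (nat_lit 4) (nat_lit 37) (nat_lit 5) (nat_lit 37) (nat_lit 4) (nat_lit 356) (nat_lit 285) (nat_lit 259)) (XT.nd (nat_lit 78) (nat_lit 76) (nat_lit 0) (XT.lf (nat_lit 0) (nat_lit 5875801708) (nat_lit 228) (nat_lit 2698404983) (nat_lit 76) (nat_lit 11810722312) (nat_lit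 34) (nat_lit 5) (nat_lit 37) (nat_lit 5) (nat_lit 35) (nat_lit 4) (nat_lit 357) (nat_lit 285) (nat_lit 258)) (XT.lf (nat_lit 0) (nat_lit 14209072138) (nat_lit 76) (nat_lit 121054171) (nat_lit 152) (nat_lit 6799132202) (nat_lit 33) (nat_lit 5) (nat_lit 34) (nat_lit 5) (nat_lit 35) (nat_lit 4) (nat_lit 358) (nat_lit 285) (nat_lit 257)))) (XT.nd (nat_lit 78) (nat_lit 76) (nat_lit 0) (XT.lf (nat_lit 0) (nat_lit 1328174255) (nat_lit 228) (nat_lit 11987061279) (nat_lit 76) (nat_lit 8593497869) (nat_lit 30) (nat_lit 5) (nat_lit 33) (nat_lit 5) (nat_lit 31) (nat_lit 4) (nat_lit 359) (nat_lit 285) (nat_lit 256)) (XT.nd (nat_lit 78) (nat_lit 0) (nat_lit 0) (XT.lf (nat_lit 0) (nat_lit 4770167658) (nat_lit 76) (nat_lit 4923331847) (nat_lit 152) (nat_lit 13032510132) (nat_lit 29) (nat_lit 5) (nat_lit 30) (nat_lit 5) (nat_lit 31) (nat_lit 4) (nat_lit 360) (nat_lit 285) (nat_lit 255)) (XT.lf (nat_lit 0) (nat_lit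 18494276624) (nat_lit 152) (nat_lit 1276001044) (nat_lit 0) (nat_lit 3813370960) (nat_lit 29) (nat_lit 5) (nat_lit 31) (nat_lit 4) (nat_lit 29) (nat_lit 4) (nat_lit 361) (nat_lit 285) (nat_lit 254))))) (XT.nd (nat_lit 234) (nat_lit 152) (nat_lit 0) (XT.nd (nat_lit 78) (nat_lit 152) (nat_lit 0) (XT.lf (nat_lit 0) (nat_lit 3256086086) (nat_lit 152) (nat_lit 8268643598) (nat_lit 76) (nat_lit 12956457802) (nat_lit 27) (nat_lit 5) (nat_lit 29) (nat_lit 5) (nat_lit 28) (nat_lit 4) (nat_lit 362) (nat_lit 285) (nat_lit 253)) (XT.nd (nat_lit 78) (nat_lit 76) (nat_lit 0) (XT.lf (nat_lit 0) (nat_lit 9049074110) (nat_lit 76) (nat_lit 2830608638) (nat_lit 152) (nat_lit 13543437975) (nat_lit 26) (nat_lit 5) (nat_lit 27) (nat_lit 5) (nat_lit 28) (nat_lit 4) (nat_lit 363) (nat_lit 285) (nat_lit 252)) (XT.lf (nat_lit 0) (nat_lit 697605668) (nat_lit 76) (nat_lit 20257887457) (nat_lit 76) (nat_lit 5456038654)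 (nat_lit 25) (nat_lit 4) (nat_lit 26) (nat_lit 5) (nat_lit 26) (nat_lit 4) (nat_lit 364) (nat_lit 285) (nat_lit 251)))) (XT.nd (nat_lit 78) (nat_lit 76) (nat_lit 0) (XT.lf (nat_lit 0) (nat_lit 3045786765) (nat_lit 152) (nat_lit 8784618168) (nat_lit 76) (nat_lit 15616015446) (nat_lit 24) (nat_lit 5) (nat_lit 26) (nat_lit 5) (nat_lit 25) (nat_lit 4) (nat_lit 365) (nat_lit 285) (nat_lit 250)) (XT.nd (nat_lit 78) (nat_lit 0) (nat_lit 0) (XT.lf (nat_lit 0) (nat_lit 8875079137) (nat_lit 76) (nat_lit 2947812330) (nat_lit 152) (nat_lit 16709661239) (nat_lit 23) (nat_lit 5) (nat_lit 24) (nat_lit 5) (nat_lit 25) (nat_lit 4) (nat_lit 366) (nat_lit 285) (nat_lit 249)) (XT.lf (nat_lit 0) (nat_lit 21070810129) (nat_lit 152) (nat_lit 2361199823) (nat_lit 0) (nat_lit 6240033145) (nat_lit 23) (nat_lit 5) (nat_lit 25) (nat_lit 4) (nat_lit 23) (nat_lit 4) (nat_lit 367) (nat_lit 285) (nat_lit 248))))))))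
noncomputable def xc24 : XT := (XT.nd (nat_lit 1794) (nat_lit 76) (nat_lit 0) (XT.nd (nat_lit 858) (nat_lit 456) (nat_lit 0) (XT.nd (nat_lit 390) (nat_lit 304) (nat_lit 0) (XT.nd (nat_lit 156) (nat_lit 152) (nat_lit 0) (XT.nd (nat_lit 78) (nat_lit 152) (nat_lit 0) (XT.lf (nat_lit 0) (nat_lit 15860543596) (nat_lit 76) (nat_lit 14987857741) (nat_lit 76) (nat_lit 18098093) (nat_lit 22) (nat_lit 4) (nat_lit 23) (nat_lit 5) (nat_lit 23) (nat_lit 4) (nat_lit 368) (nat_lit 285) (nat_lit 247)) (XT.lf (nat_lit 0) (nat_lit 2673174158) (nat_lit 76) (nat_lit 6083130397) (nat_lit 152) (nat_lit 23363660682) (nat_lit 20) (nat_lit 5) (nat_lit 21) (nat_lit 5) (nat_lit 22) (nat_lit 4) (nat_lit 369) (nat_lit 285) (nat_lit 246))) (XT.nd (nat_lit 78) (nat_lit 152) (nat_lit 0) (XT.lf (nat_lit 0) (nat_lit 18046236006) (nat_lit 152) (nat_lit 12125966101) (nat_lit 0) (nat_lit 3261589924) (nat_lit 20) (nat_lit 5) (nat_lit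 22) (nat_lit 4) (nat_lit 20) (nat_lit 4) (nat_lit 370) (nat_lit 285) (nat_lit 245)) (XT.nd (nat_lit 78) (nat_lit 76) (nat_lit 0) (XT.lf (nat_lit 0) (nat_lit 5913736054) (nat_lit 76) (nat_lit 21900195955) (nat_lit 76) (nat_lit 6998988271) (nat_lit 19) (nat_lit 4) (nat_lit 20) (nat_lit 5) (nat_lit 20) (nat_lit 4) (nat_lit 371) (nat_lit 285) (nat_lit 244)) (XT.lf (nat_lit 0) (nat_lit 1796897188) (nat_lit 152) (nat_lit 11364517442) (nat_lit 76) (nat_lit 23098380486) (nat_lit 18) (nat_lit 5) (nat_lit 20) (nat_lit 5) (nat_lit 19) (nat_lit 4) (nat_lit 372) (nat_lit 285) (nat_lit 243))))) (XT.nd (nat_lit 234) (nat_lit 152) (nat_lit 0) (XT.nd (nat_lit 78) (nat_lit 76) (nat_lit 0) (XT.lf (nat_lit 0) (nat_lit 6923288554) (nat_lit 76) (nat_lit 3934461248) (nat_lit 152) (nat_lit 26920094484) (nat_lit 17) (nat_lit 5) (nat_lit 18) (nat_lit 5) (nat_lit 19) (nat_lit 4) (nat_lit 373) (nat_lit 285) (nat_lit 242))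 (XT.nd (nat_lit 78) (nat_lit 76) (nat_lit 0) (XT.lf (nat_lit 0) (nat_lit 20449194251) (nat_lit 152) (nat_lit 13246460436) (nat_lit 0) (nat_lit 5673821590) (nat_lit 17) (nat_lit 5) (nat_lit 19) (nat_lit 4) (nat_lit 17) (nat_lit 4) (nat_lit 374) (nat_lit 285) (nat_lit 241)) (XT.lf (nat_lit 0) (nat_lit 5126482124) (nat_lit 76) (nat_lit 25391379915) (nat_lit 76) (nat_lit 10522904808) (nat_lit 16) (nat_lit 4) (nat_lit 17) (nat_lit 5) (nat_lit 17) (nat_lit 4) (nat_lit 375) (nat_lit 285) (nat_lit 240)))) (XT.nd (nat_lit 78) (nat_lit 152) (nat_lit 0) (XT.lf (nat_lit 0) (nat_lit 24524043342) (nat_lit 76) (nat_lit 16613648525) (nat_lit 76) (nat_lit 1656504423) (nat_lit 16) (nat_lit 4) (nat_lit 17) (nat_lit 5) (nat_lit 17) (nat_lit 4) (nat_lit 376) (nat_lit 285) (nat_lit 239)) (XT.nd (nat_lit 78) (nat_lit 0) (nat_lit 0) (XT.lf (nat_lit 0) (nat_lit 18572733) (nat_lit 76) (nat_lit 7400227019) (nat_lit 152)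 (nat_lit 37216848400) (nat_lit 14) (nat_lit 5) (nat_lit 15) (nat_lit 5) (nat_lit 16) (nat_lit 4) (nat_lit 377) (nat_lit 285) (nat_lit 238)) (XT.lf (nat_lit 0) (nat_lit 17042255350) (nat_lit 152) (nat_lit 27161885066) (nat_lit 0) (nat_lit 2360686264) (nat_lit 14) (nat_lit 5) (nat_lit 16) (nat_lit 4) (nat_lit 14) (nat_lit 4) (nat_lit 378) (nat_lit 285) (nat_lit 237)))))) (XT.nd (nat_lit 468) (nat_lit 228) (nat_lit 0) (XT.nd (nat_lit 234) (nat_lit 152) (nat_lit 0) (XT.nd (nat_lit 78) (nat_lit 76) (nat_lit 0) (XT.lf (nat_lit 0) (nat_lit 27142082466) (nat_lit 152) (nat_lit 9062382201) (nat_lit 0) (nat_lit 12386148708) (nat_lit 14) (nat_lit 5) (nat_lit 16) (nat_lit 4) (nat_lit 14) (nat_lit 4) (nat_lit 379) (nat_lit 285) (nat_lit 236)) (XT.nd (nat_lit 78) (nat_lit 0) (nat_lit 0) (XT.lf (nat_lit 0) (nat_lit 9990615634) (nat_lit 76) (nat_lit 27776613073) (nat_lit 76) (nat_lit 12949855818) (nat_lit 13)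 (nat_lit 4) (nat_lit 14) (nat_lit 5) (nat_lit 14) (nat_lit 4) (nat_lit 380) (nat_lit 285) (nat_lit 235)) (XT.lf (nat_lit 0) (nat_lit 30043404903) (nat_lit 76) (nat_lit 18900046343) (nat_lit 76) (nat_lit 4005838137) (nat_lit 13) (nat_lit 4) (nat_lit 14) (nat_lit 5) (nat_lit 14) (nat_lit 4) (nat_lit 381) (nat_lit 285) (nat_lit 234)))) (XT.nd (nat_lit 78) (nat_lit 76) (nat_lit 0) (XT.lf (nat_lit 0) (nat_lit 5209623400) (nat_lit 152) (nat_lit 4382911701) (nat_lit 76) (nat_lit 45701140784) (nat_lit 12) (nat_lit 5) (nat_lit 14) (nat_lit 5) (nat_lit 13) (nat_lit 4) (nat_lit 382) (nat_lit 285) (nat_lit 233)) (XT.nd (nat_lit 78) (nat_lit 0) (nat_lit 0) (XT.lf (nat_lit 0) (nat_lit 14885484899) (nat_lit 152) (nat_lit 42562814342) (nat_lit 0) (nat_lit 303322563) (nat_lit 11) (nat_lit 5) (nat_lit 13) (nat_lit 4) (nat_lit 11) (nat_lit 4) (nat_lit 383) (nat_lit 285) (nat_lit 232)) (XT.lf (nat_lit 0) (nat_lit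 25121619020) (nat_lit 152) (nat_lit 24725668462) (nat_lit 0) (nat_lit 10482887105) (nat_lit 11) (nat_lit 5) (nat_lit 13) (nat_lit 4) (nat_lit 11) (nat_lit 4) (nat_lit 384) (nat_lit 285) (nat_lit 231))))) (XT.nd (nat_lit 234) (nat_lit 152) (nat_lit 0) (XT.nd (nat_lit 78) (nat_lit 76) (nat_lit 0) (XT.lf (nat_lit 0) (nat_lit 35806793032) (nat_lit 152) (nat_lit 6118563425) (nat_lit 0) (nat_lit 21114185327) (nat_lit 11) (nat_lit 5) (nat_lit 13) (nat_lit 4) (nat_lit 11) (nat_lit 4) (nat_lit 385) (nat_lit 285) (nat_lit 230)) (XT.nd (nat_lit 78) (nat_lit 0) (nat_lit 0) (XT.lf (nat_lit 0) (nat_lit 13567555271) (nat_lit 76) (nat_lit 33529312195) (nat_lit 76) (nat_lit 18785394214) (nat_lit 10) (nat_lit 4) (nat_lit 11) (nat_lit 5) (nat_lit 11) (nat_lit 4) (nat_lit 386) (nat_lit 285) (nat_lit 229)) (XT.lf (nat_lit 0) (nat_lit 34253074215) (nat_lit 76) (nat_lit 24703341293) (nat_lit 76) (nat_lit 9910556383)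 (nat_lit 10) (nat_lit 4) (nat_lit 11) (nat_lit 5) (nat_lit 11) (nat_lit 4) (nat_lit 387) (nat_lit 285) (nat_lit 228)))) (XT.nd (nat_lit 78) (nat_lit 152) (nat_lit 0) (XT.lf (nat_lit 0) (nat_lit 55865473232) (nat_lit 76) (nat_lit 15488215030) (nat_lit 76) (nat_lit 648890187) (nat_lit 10) (nat_lit 4) (nat_lit 11) (nat_lit 5) (nat_lit 11) (nat_lit 4) (nat_lit 388) (nat_lit 285) (nat_lit 227)) (XT.nd (nat_lit 78) (nat_lit 0) (nat_lit 0) (XT.lf (nat_lit 0) (nat_lit 3134099217) (nat_lit 76) (nat_lit 5741638618) (nat_lit 152) (nat_lit 66417303794) (nat_lit 8) (nat_lit 5) (nat_lit 9) (nat_lit 5) (nat_lit 10) (nat_lit 4) (nat_lit 389) (nat_lit 285) (nat_lit 226)) (XT.lf (nat_lit 0) (nat_lit 19022197440) (nat_lit 152) (nat_lit 55189800453) (nat_lit 0) (nat_lit 4531069595) (nat_lit 8) (nat_lit 5) (nat_lit 10) (nat_lit 4) (nat_lit 8) (nat_lit 4) (nat_lit 390) (nat_lit 285) (nat_lit 225))))))) (XT.nd (nat_lit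 42432) (nat_lit 0) (nat_lit 3952) (XT.nd (nat_lit 41964) (nat_lit 0) (nat_lit 7296) (XT.nd (nat_lit 234) (nat_lit 0) (nat_lit 0) (XT.nd (nat_lit 78) (nat_lit 76) (nat_lit 0) (XT.lf (nat_lit 0) (nat_lit 29684361369) (nat_lit 152) (nat_lit 37526783021) (nat_lit 0) (nat_lit 15154201540) (nat_lit 8) (nat_lit 5) (nat_lit 10) (nat_lit 4) (nat_lit 8) (nat_lit 4) (nat_lit 391) (nat_lit 285) (nat_lit 224)) (XT.nd (nat_lit 78) (nat_lit 76) (nat_lit 0) (XT.lf (nat_lit 0) (nat_lit 40832423585) (nat_lit 152) (nat_lit 19072643170) (nat_lit 0) (nat_lit 26265090438) (nat_lit 8) (nat_lit 5) (nat_lit 10) (nat_lit 4) (nat_lit 8) (nat_lit 4) (nat_lit 392) (nat_lit 285) (nat_lit 223)) (XT.lf (nat_lit 0) (nat_lit 220867447) (nat_lit 76) (nat_lit 52274182758) (nat_lit 76) (nat_lit 37671446450) (nat_lit 7) (nat_lit 4) (nat_lit 8) (nat_lit 5) (nat_lit 8) (nat_lit 4) (nat_lit 393) (nat_lit 285) (nat_lit 222)))) (XT.nd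 (nat_lit 78) (nat_lit 0) (nat_lit 0) (XT.lf (nat_lit 0) (nat_lit 20792481956) (nat_lit 76) (nat_lit 44101023095) (nat_lit 76) (nat_lit 29464569492) (nat_lit 7) (nat_lit 4) (nat_lit 8) (nat_lit 5) (nat_lit 8) (nat_lit 4) (nat_lit 394) (nat_lit 285) (nat_lit 221)) (XT.nd (nat_lit 78) (nat_lit 0) (nat_lit 0) (XT.lf (nat_lit 0) (nat_lit 42311597395) (nat_lit 76) (nat_lit 35558724162) (nat_lit 76) (nat_lit 20890158849) (nat_lit 7) (nat_lit 4) (nat_lit 8) (nat_lit 5) (nat_lit 8) (nat_lit 4) (nat_lit 395) (nat_lit 285) (nat_lit 220)) (XT.lf (nat_lit 0) (nat_lit 64829449751) (nat_lit 76) (nat_lit 26626947151) (nat_lit 76) (nat_lit 11927799257) (nat_lit 7) (nat_lit 4) (nat_lit 8) (nat_lit 5) (nat_lit 8) (nat_lit 4) (nat_lit 396) (nat_lit 285) (nat_lit 219))))) (XT.nd (nat_lit 234) (nat_lit 1292) (nat_lit 0) (XT.nd (nat_lit 78) (nat_lit 1064) (nat_lit 0) (XT.lf (nat_lit 0) (nat_lit 2251646260) (nat_lit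 380) (nat_lit 1091969626) (nat_lit 380) (nat_lit 1091969626) (nat_lit 134) (nat_lit 4) (nat_lit 139) (nat_lit 5) (nat_lit 139) (nat_lit 4) (nat_lit 328) (nat_lit 286) (nat_lit 286)) (XT.nd (nat_lit 78) (nat_lit 684) (nat_lit 0) (XT.lf (nat_lit 0) (nat_lit 4535645745) (nat_lit 380) (nat_lit 1544451048) (nat_lit 0) (nat_lit 2979460594) (nat_lit 129) (nat_lit 5) (nat_lit 134) (nat_lit 4) (nat_lit 129) (nat_lit 4) (nat_lit 329) (nat_lit 286) (nat_lit 285)) (XT.lf (nat_lit 0) (nat_lit 1344632994) (nat_lit 304) (nat_lit 814430671) (nat_lit 380) (nat_lit 7099658930) (nat_lit 120) (nat_lit 5) (nat_lit 124) (nat_lit 5) (nat_lit 125) (nat_lit 4) (nat_lit 330) (nat_lit 286) (nat_lit 284)))) (XT.nd (nat_lit 78) (nat_lit 988) (nat_lit 0) (XT.lf (nat_lit 0) (nat_lit 4273457915) (nat_lit 304) (nat_lit 4757429741) (nat_lit 304) (nat_lit 437262700) (nat_lit 116) (nat_lit 4) (nat_lit 120) (nat_lit 5) (nat_lit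 120) (nat_lit 4) (nat_lit 331) (nat_lit 286) (nat_lit 283)) (XT.nd (nat_lit 78) (nat_lit 608) (nat_lit 0) (XT.lf (nat_lit 0) (nat_lit 6339355057) (nat_lit 380) (nat_lit 2471724834) (nat_lit 0) (nat_lit 877894696) (nat_lit 111) (nat_lit 5) (nat_lit 116) (nat_lit 4) (nat_lit 111) (nat_lit 4) (nat_lit 332) (nat_lit 286) (nat_lit 282)) (XT.lf (nat_lit 0) (nat_lit 246140593) (nat_lit 228) (nat_lit 3159960475) (nat_lit 304) (nat_lit 6515179383) (nat_lit 103) (nat_lit 5) (nat_lit 106) (nat_lit 5) (nat_lit 107) (nat_lit 4) (nat_lit 333) (nat_lit 286) (nat_lit 281)))))) (XT.nd (nat_lit 468) (nat_lit 1444) (nat_lit 0) (XT.nd (nat_lit 234) (nat_lit 988) (nat_lit 0) (XT.nd (nat_lit 78) (nat_lit 532) (nat_lit 0) (XT.lf (nat_lit 0) (nat_lit 218421760) (nat_lit 380) (nat_lit 7146470699) (nat_lit 76) (nat_lit 2800588586) (nat_lit 98) (nat_lit 5) (nat_lit 103) (nat_lit 5) (nat_lit 99) (nat_lit 4) (nat_lit 334)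 (nat_lit 286) (nat_lit 280)) (XT.nd (nat_lit 78) (nat_lit 304) (nat_lit 0) (XT.lf (nat_lit 0) (nat_lit 5755447296) (nat_lit 228) (nat_lit 1342100387) (nat_lit 304) (nat_lit 3324173304) (nat_lit 95) (nat_lit 5) (nat_lit 98) (nat_lit 5) (nat_lit 99) (nat_lit 4) (nat_lit 335) (nat_lit 286) (nat_lit 279)) (XT.lf (nat_lit 0) (nat_lit 3523701734) (nat_lit 304) (nat_lit 2230067038) (nat_lit 76) (nat_lit 4937083832) (nat_lit 91) (nat_lit 5) (nat_lit 95) (nat_lit 5) (nat_lit 92) (nat_lit 4) (nat_lit 336) (nat_lit 286) (nat_lit 278)))) (XT.nd (nat_lit 78) (nat_lit 532) (nat_lit 0) (XT.lf (nat_lit 0) (nat_lit 185837454) (nat_lit 228) (nat_lit 10403409358) (nat_lit 228) (nat_lit 384949416) (nat_lit 85) (nat_lit 4) (nat_lit 88) (nat_lit 5) (nat_lit 88) (nat_lit 4) (nat_lit 337) (nat_lit 286) (nat_lit 277)) (XT.nd (nat_lit 78) (nat_lit 304) (nat_lit 0) (XT.lf (nat_lit 0) (nat_lit 2539610305) (nat_lit 152)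 (nat_lit 4072892013) (nat_lit 228) (nat_lit 4657093140) (nat_lit 82) (nat_lit 5) (nat_lit 84) (nat_lit 5) (nat_lit 85) (nat_lit 4) (nat_lit 338) (nat_lit 286) (nat_lit 276)) (XT.lf (nat_lit 0) (nat_lit 2282210785) (nat_lit 304) (nat_lit 6733979727) (nat_lit 76) (nat_lit 2564141457) (nat_lit 78) (nat_lit 5) (nat_lit 82) (nat_lit 5) (nat_lit 79) (nat_lit 4) (nat_lit 339) (nat_lit 286) (nat_lit 275))))) (XT.nd (nat_lit 234) (nat_lit 836) (nat_lit 0) (XT.nd (nat_lit 78) (nat_lit 456) (nat_lit 0) (XT.lf (nat_lit 0) (nat_lit 7056226232) (nat_lit 152) (nat_lit 2394559485) (nat_lit 228) (nat_lit 2455129400) (nat_lit 76) (nat_lit 5) (nat_lit 78) (nat_lit 5) (nat_lit 79) (nat_lit 4) (nat_lit 340) (nat_lit 286) (nat_lit 274)) (XT.nd (nat_lit 78) (nat_lit 152) (nat_lit 0) (XT.lf (nat_lit 0) (nat_lit 4623485757) (nat_lit 304) (nat_lit 3094502708) (nat_lit 76) (nat_lit 4528899579) (nat_lit 72) (nat_lit 5)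 (nat_lit 76) (nat_lit 5) (nat_lit 73) (nat_lit 4) (nat_lit 341) (nat_lit 286) (nat_lit 273)) (XT.lf (nat_lit 0) (nat_lit 11160192721) (nat_lit 152) (nat_lit 815865517) (nat_lit 228) (nat_lit 629043638) (nat_lit 70) (nat_lit 5) (nat_lit 72) (nat_lit 5) (nat_lit 73) (nat_lit 4) (nat_lit 342) (nat_lit 286) (nat_lit 272)))) (XT.nd (nat_lit 78) (nat_lit 380) (nat_lit 0) (XT.lf (nat_lit 0) (nat_lit 3958861) (nat_lit 152) (nat_lit 6593370607) (nat_lit 228) (nat_lit 6381602674) (nat_lit 64) (nat_lit 5) (nat_lit 66) (nat_lit 5) (nat_lit 67) (nat_lit 4) (nat_lit 343) (nat_lit 286) (nat_lit 271)) (XT.nd (nat_lit 78) (nat_lit 152) (nat_lit 0) (XT.lf (nat_lit 0) (nat_lit 766576705) (nat_lit 228) (nat_lit 12016211964) (nat_lit 76) (nat_lit 588842729) (nat_lit 61) (nat_lit 5) (nat_lit 64) (nat_lit 5) (nat_lit 62) (nat_lit 4) (nat_lit 344) (nat_lit 286) (nat_lit 270)) (XT.lf (nat_lit 0) (nat_lit 2454753595)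 (nat_lit 152) (nat_lit 5709531934) (nat_lit 228) (nat_lit 5617098620) (nat_lit 59) (nat_lit 5) (nat_lit 61) (nat_lit 5) (nat_lit 62) (nat_lit 4) (nat_lit 345) (nat_lit 286) (nat_lit 269))))))))
noncomputable def xc25 : XT := (XT.nd (nat_lit 1872) (nat_lit 988) (nat_lit 0) (XT.nd (nat_lit 936) (nat_lit 988) (nat_lit 0) (XT.nd (nat_lit 468) (nat_lit 836) (nat_lit 0) (XT.nd (nat_lit 234) (nat_lit 456) (nat_lit 0) (XT.nd (nat_lit 78) (nat_lit 380) (nat_lit 0) (XT.lf (nat_lit 0) (nat_lit 1663192831) (nat_lit 228) (nat_lit 10836447805) (nat_lit 76) (nat_lit 1712226954) (nat_lit 56) (nat_lit 5) (nat_lit 59) (nat_lit 5) (nat_lit 57) (nat_lit 4) (nat_lit 346) (nat_lit 286) (nat_lit 268)) (XT.nd (nat_lit 78) (nat_lit 228) (nat_lit 0) (XT.lf (nat_lit 0) (nat_lit 4009060117) (nat_lit 152) (nat_lit 5204211133) (nat_lit 228) (nat_lit 5448309907) (nat_lit 54) (nat_lit 5) (nat_lit 56) (nat_lit 5) (nat_lit 57)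 (nat_lit 4) (nat_lit 347) (nat_lit 286) (nat_lit 267)) (XT.lf (nat_lit 0) (nat_lit 1958047015) (nat_lit 228) (nat_lit 10735960506) (nat_lit 76) (nat_lit 2439520131) (nat_lit 51) (nat_lit 5) (nat_lit 54) (nat_lit 5) (nat_lit 52) (nat_lit 4) (nat_lit 348) (nat_lit 286) (nat_lit 266)))) (XT.nd (nat_lit 78) (nat_lit 304) (nat_lit 0) (XT.lf (nat_lit 0) (nat_lit 4444054628) (nat_lit 152) (nat_lit 5200555099) (nat_lit 228) (nat_lit 5982195195) (nat_lit 49) (nat_lit 5) (nat_lit 51) (nat_lit 5) (nat_lit 52) (nat_lit 4) (nat_lit 349) (nat_lit 286) (nat_lit 265)) (XT.nd (nat_lit 78) (nat_lit 76) (nat_lit 0) (XT.lf (nat_lit 0) (nat_lit 1537485518) (nat_lit 228) (nat_lit 11964374066) (nat_lit 76) (nat_lit 2642538647) (nat_lit 46) (nat_lit 5) (nat_lit 49) (nat_lit 5) (nat_lit 47) (nat_lit 4) (nat_lit 350) (nat_lit 286) (nat_lit 264)) (XT.lf (nat_lit 0) (nat_lit 3494611903) (nat_lit 76) (nat_lit 5841941213)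 (nat_lit 152) (nat_lit 7348752827) (nat_lit 45) (nat_lit 5) (nat_lit 46) (nat_lit 5) (nat_lit 47) (nat_lit 4) (nat_lit 351) (nat_lit 286) (nat_lit 263))))) (XT.nd (nat_lit 234) (nat_lit 532) (nat_lit 0) (XT.nd (nat_lit 78) (nat_lit 76) (nat_lit 0) (XT.lf (nat_lit 0) (nat_lit 263621950) (nat_lit 228) (nat_lit 14818191618) (nat_lit 76) (nat_lit 2171491755) (nat_lit 42) (nat_lit 5) (nat_lit 45) (nat_lit 5) (nat_lit 43) (nat_lit 4) (nat_lit 352) (nat_lit 286) (nat_lit 262)) (XT.nd (nat_lit 78) (nat_lit 0) (nat_lit 0) (XT.lf (nat_lit 0) (nat_lit 845456329) (nat_lit 76) (nat_lit 7296107829) (nat_lit 152) (nat_lit 9704872066) (nat_lit 41) (nat_lit 5) (nat_lit 42) (nat_lit 5) (nat_lit 43) (nat_lit 4) (nat_lit 353) (nat_lit 286) (nat_lit 261)) (XT.lf (nat_lit 0) (nat_lit 16411038848) (nat_lit 152) (nat_lit 1176216065) (nat_lit 0) (nat_lit 882060952) (nat_lit 41) (nat_lit 5) (nat_lit 43) (nat_lit 4) (nat_lit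 41) (nat_lit 4) (nat_lit 354) (nat_lit 286) (nat_lit 260)))) (XT.nd (nat_lit 78) (nat_lit 304) (nat_lit 0) (XT.lf (nat_lit 0) (nat_lit 5919199846) (nat_lit 228) (nat_lit 3802348782) (nat_lit 76) (nat_lit 9398136879) (nat_lit 38) (nat_lit 5) (nat_lit 41) (nat_lit 5) (nat_lit 39) (nat_lit 4) (nat_lit 355) (nat_lit 286) (nat_lit 259)) (XT.nd (nat_lit 78) (nat_lit 228) (nat_lit 0) (XT.lf (nat_lit 0) (nat_lit 12802983732) (nat_lit 76) (nat_lit 1431930735) (nat_lit 152) (nat_lit 5567608544) (nat_lit 37) (nat_lit 5) (nat_lit 38) (nat_lit 5) (nat_lit 39) (nat_lit 4) (nat_lit 356) (nat_lit 286) (nat_lit 258)) (XT.lf (nat_lit 0) (nat_lit 2451436500) (nat_lit 228) (nat_lit 10903524206) (nat_lit 76) (nat_lit 7162285192) (nat_lit 34) (nat_lit 5) (nat_lit 37) (nat_lit 5) (nat_lit 35) (nat_lit 4) (nat_lit 357) (nat_lit 286) (nat_lit 257)))))) (XT.nd (nat_lit 468) (nat_lit 456) (nat_lit 0) (XT.nd (nat_lit 234)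 (nat_lit 228) (nat_lit 0) (XT.nd (nat_lit 78) (nat_lit 228) (nat_lit 0) (XT.lf (nat_lit 0) (nat_lit 5704349428) (nat_lit 76) (nat_lit 5047846693) (nat_lit 152) (nat_lit 10513994272) (nat_lit 33) (nat_lit 5) (nat_lit 34) (nat_lit 5) (nat_lit 35) (nat_lit 4) (nat_lit 358) (nat_lit 286) (nat_lit 256)) (XT.nd (nat_lit 78) (nat_lit 76) (nat_lit 0) (XT.lf (nat_lit 0) (nat_lit 1035798484) (nat_lit 152) (nat_lit 18446879143) (nat_lit 152) (nat_lit 2569479667) (nat_lit 31) (nat_lit 4) (nat_lit 33) (nat_lit 5) (nat_lit 33) (nat_lit 4) (nat_lit 359) (nat_lit 286) (nat_lit 255)) (XT.lf (nat_lit 0) (nat_lit 5731348655) (nat_lit 228) (nat_lit 4456458201) (nat_lit 76) (nat_lit 12685813838) (nat_lit 30) (nat_lit 5) (nat_lit 33) (nat_lit 5) (nat_lit 31) (nat_lit 4) (nat_lit 360) (nat_lit 286) (nat_lit 254)))) (XT.nd (nat_lit 78) (nat_lit 152) (nat_lit 0) (XT.lf (nat_lit 0) (nat_lit 12905588623) (nat_lit 76)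 (nat_lit 1478748847) (nat_lit 152) (nat_lit 9351362607) (nat_lit 29) (nat_lit 5) (nat_lit 30) (nat_lit 5) (nat_lit 31) (nat_lit 4) (nat_lit 361) (nat_lit 286) (nat_lit 253)) (XT.nd (nat_lit 78) (nat_lit 76) (nat_lit 0) (XT.lf (nat_lit 0) (nat_lit 6392603410) (nat_lit 76) (nat_lit 17127494500) (nat_lit 76) (nat_lit 1119295020) (nat_lit 28) (nat_lit 4) (nat_lit 29) (nat_lit 5) (nat_lit 29) (nat_lit 4) (nat_lit 362) (nat_lit 286) (nat_lit 252)) (XT.lf (nat_lit 0) (nat_lit 7376390240) (nat_lit 152) (nat_lit 1213349686) (nat_lit 76) (nat_lit 16996407546) (nat_lit 27) (nat_lit 5) (nat_lit 29) (nat_lit 5) (nat_lit 28) (nat_lit 4) (nat_lit 363) (nat_lit 286) (nat_lit 251))))) (XT.nd (nat_lit 234) (nat_lit 228) (nat_lit 0) (XT.nd (nat_lit 78) (nat_lit 152) (nat_lit 0) (XT.lf (nat_lit 0) (nat_lit 16316715617) (nat_lit 152) (nat_lit 9826857568) (nat_lit 0) (nat_lit 435055548) (nat_lit 26) (nat_lit 5) (nat_lit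 28) (nat_lit 4) (nat_lit 26) (nat_lit 4) (nat_lit 364) (nat_lit 286) (nat_lit 250)) (XT.nd (nat_lit 78) (nat_lit 76) (nat_lit 0) (XT.lf (nat_lit 0) (nat_lit 7859484466) (nat_lit 76) (nat_lit 17899548338) (nat_lit 76) (nat_lit 1860063029) (nat_lit 25) (nat_lit 4) (nat_lit 26) (nat_lit 5) (nat_lit 26) (nat_lit 4) (nat_lit 365) (nat_lit 286) (nat_lit 249)) (XT.lf (nat_lit 0) (nat_lit 6810727316) (nat_lit 152) (nat_lit 2364018607) (nat_lit 76) (nat_lit 19535301945) (nat_lit 24) (nat_lit 5) (nat_lit 26) (nat_lit 5) (nat_lit 25) (nat_lit 4) (nat_lit 366) (nat_lit 286) (nat_lit 248)))) (XT.nd (nat_lit 78) (nat_lit 152) (nat_lit 0) (XT.lf (nat_lit 0) (nat_lit 15919315627) (nat_lit 152) (nat_lit 13872321952) (nat_lit 0) (nat_lit 62085332) (nat_lit 23) (nat_lit 5) (nat_lit 25) (nat_lit 4) (nat_lit 23) (nat_lit 4) (nat_lit 367) (nat_lit 286) (nat_lit 247)) (XT.nd (nat_lit 78) (nat_lit 76) (nat_lit 0) (XT.lf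 (nat_lit 0) (nat_lit 4016519143) (nat_lit 76) (nat_lit 21513138418) (nat_lit 76) (nat_lit 5523543680) (nat_lit 22) (nat_lit 4) (nat_lit 23) (nat_lit 5) (nat_lit 23) (nat_lit 4) (nat_lit 368) (nat_lit 286) (nat_lit 246)) (XT.lf (nat_lit 0) (nat_lit 3280271826) (nat_lit 152) (nat_lit 9456704303) (nat_lit 76) (nat_lit 19573623293) (nat_lit 21) (nat_lit 5) (nat_lit 23) (nat_lit 5) (nat_lit 22) (nat_lit 4) (nat_lit 369) (nat_lit 286) (nat_lit 245))))))) (XT.nd (nat_lit 936) (nat_lit 380) (nat_lit 0) (XT.nd (nat_lit 468) (nat_lit 304) (nat_lit 0) (XT.nd (nat_lit 234) (nat_lit 152) (nat_lit 0) (XT.nd (nat_lit 78) (nat_lit 76) (nat_lit 0) (XT.lf (nat_lit 0) (nat_lit 8925629440) (nat_lit 76) (nat_lit 3469121299) (nat_lit 152) (nat_lit 21234943031) (nat_lit 20) (nat_lit 5) (nat_lit 21) (nat_lit 5) (nat_lit 22) (nat_lit 4) (nat_lit 370) (nat_lit 286) (nat_lit 244)) (XT.nd (nat_lit 78) (nat_lit 76) (nat_lit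 0) (XT.lf (nat_lit 0) (nat_lit 22023483187) (nat_lit 152) (nat_lit 6839869063) (nat_lit 0) (nat_lit 6149642464) (nat_lit 20) (nat_lit 5) (nat_lit 22) (nat_lit 4) (nat_lit 20) (nat_lit 4) (nat_lit 371) (nat_lit 286) (nat_lit 243)) (XT.lf (nat_lit 0) (nat_lit 11932913870) (nat_lit 76) (nat_lit 20255242323) (nat_lit 76) (nat_lit 4275676790) (nat_lit 19) (nat_lit 4) (nat_lit 20) (nat_lit 5) (nat_lit 20) (nat_lit 4) (nat_lit 372) (nat_lit 286) (nat_lit 242)))) (XT.nd (nat_lit 78) (nat_lit 76) (nat_lit 0) (XT.lf (nat_lit 0) (nat_lit 4756542528) (nat_lit 152) (nat_lit 6424474495) (nat_lit 76) (nat_lit 26805463494) (nat_lit 18) (nat_lit 5) (nat_lit 20) (nat_lit 5) (nat_lit 19) (nat_lit 4) (nat_lit 373) (nat_lit 286) (nat_lit 241)) (XT.nd (nat_lit 78) (nat_lit 0) (nat_lit 0) (XT.lf (nat_lit 0) (nat_lit 12619828381) (nat_lit 76) (nat_lit 1565383307) (nat_lit 152) (nat_lit 25397787256) (nat_lit 17) (nat_lit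 5) (nat_lit 18) (nat_lit 5) (nat_lit 19) (nat_lit 4) (nat_lit 374) (nat_lit 286) (nat_lit 240)) (XT.lf (nat_lit 0) (nat_lit 24147119149) (nat_lit 152) (nat_lit 8756927356) (nat_lit 0) (nat_lit 8353448846) (nat_lit 17) (nat_lit 5) (nat_lit 19) (nat_lit 4) (nat_lit 17) (nat_lit 4) (nat_lit 375) (nat_lit 286) (nat_lit 239))))) (XT.nd (nat_lit 234) (nat_lit 76) (nat_lit 0) (XT.nd (nat_lit 78) (nat_lit 152) (nat_lit 0) (XT.lf (nat_lit 0) (nat_lit 10386985411) (nat_lit 76) (nat_lit 24252935043) (nat_lit 76) (nat_lit 8374818076) (nat_lit 16) (nat_lit 4) (nat_lit 17) (nat_lit 5) (nat_lit 17) (nat_lit 4) (nat_lit 376) (nat_lit 286) (nat_lit 238)) (XT.nd (nat_lit 78) (nat_lit 76) (nat_lit 0) (XT.lf (nat_lit 0) (nat_lit 791799583) (nat_lit 152) (nat_lit 14351189204) (nat_lit 76) (nat_lit 29716335236) (nat_lit 15) (nat_lit 5) (nat_lit 17) (nat_lit 5) (nat_lit 16) (nat_lit 4) (nat_lit 377) (nat_lit 286)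 (nat_lit 237)) (XT.lf (nat_lit 0) (nat_lit 4697210701) (nat_lit 76) (nat_lit 5515768940) (nat_lit 152) (nat_lit 36581593714) (nat_lit 14) (nat_lit 5) (nat_lit 15) (nat_lit 5) (nat_lit 16) (nat_lit 4) (nat_lit 378) (nat_lit 286) (nat_lit 236)))) (XT.nd (nat_lit 78) (nat_lit 76) (nat_lit 0) (XT.lf (nat_lit 0) (nat_lit 20222855013) (nat_lit 152) (nat_lit 24016269609) (nat_lit 0) (nat_lit 4583936397) (nat_lit 14) (nat_lit 5) (nat_lit 16) (nat_lit 4) (nat_lit 14) (nat_lit 4) (nat_lit 379) (nat_lit 286) (nat_lit 235)) (XT.nd (nat_lit 78) (nat_lit 76) (nat_lit 0) (XT.lf (nat_lit 0) (nat_lit 30716793156) (nat_lit 152) (nat_lit 5226253968) (nat_lit 0) (nat_lit 15010423590) (nat_lit 14) (nat_lit 5) (nat_lit 16) (nat_lit 4) (nat_lit 14) (nat_lit 4) (nat_lit 380) (nat_lit 286) (nat_lit 234)) (XT.lf (nat_lit 0) (nat_lit 14656443345) (nat_lit 76) (nat_lit 27151202048) (nat_lit 76) (nat_lit 11380593482) (nat_lit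 13) (nat_lit 4) (nat_lit 14) (nat_lit 5) (nat_lit 14) (nat_lit 4) (nat_lit 381) (nat_lit 286) (nat_lit 233)))))) (XT.nd (nat_lit 468) (nat_lit 152) (nat_lit 0) (XT.nd (nat_lit 234) (nat_lit 76) (nat_lit 0) (XT.nd (nat_lit 78) (nat_lit 152) (nat_lit 0) (XT.lf (nat_lit 0) (nat_lit 35513476986) (nat_lit 76) (nat_lit 17926723251) (nat_lit 76) (nat_lit 2094934685) (nat_lit 13) (nat_lit 4) (nat_lit 14) (nat_lit 5) (nat_lit 14) (nat_lit 4) (nat_lit 382) (nat_lit 286) (nat_lit 232)) (XT.nd (nat_lit 78) (nat_lit 76) (nat_lit 0) (XT.lf (nat_lit 0) (nat_lit 7441531555) (nat_lit 152) (nat_lit 783746175) (nat_lit 76) (nat_lit 49773817423) (nat_lit 12) (nat_lit 5) (nat_lit 14) (nat_lit 5) (nat_lit 13) (nat_lit 4) (nat_lit 383) (nat_lit 286) (nat_lit 231)) (XT.lf (nat_lit 0) (nat_lit 17560221453) (nat_lit 152) (nat_lit 40941844076) (nat_lit 0) (nat_lit 2079107573) (nat_lit 11) (nat_lit 5) (nat_lit 13) (nat_lit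 4) (nat_lit 11) (nat_lit 4) (nat_lit 384) (nat_lit 286) (nat_lit 230)))) (XT.nd (nat_lit 78) (nat_lit 76) (nat_lit 0) (XT.lf (nat_lit 0) (nat_lit 28216235504) (nat_lit 152) (nat_lit 22391369997) (nat_lit 0) (nat_lit 12683811348) (nat_lit 11) (nat_lit 5) (nat_lit 13) (nat_lit 4) (nat_lit 11) (nat_lit 4) (nat_lit 385) (nat_lit 286) (nat_lit 229)) (XT.nd (nat_lit 78) (nat_lit 76) (nat_lit 0) (XT.lf (nat_lit 0) (nat_lit 39348118905) (nat_lit 152) (nat_lit 3023937417) (nat_lit 0) (nat_lit 23766827820) (nat_lit 11) (nat_lit 5) (nat_lit 13) (nat_lit 4) (nat_lit 11) (nat_lit 4) (nat_lit 386) (nat_lit 286) (nat_lit 228)) (XT.lf (nat_lit 0) (nat_lit 17549011011) (nat_lit 76) (nat_lit 33602056959) (nat_lit 76) (nat_lit 17974225941) (nat_lit 10) (nat_lit 4) (nat_lit 11) (nat_lit 5) (nat_lit 11) (nat_lit 4) (nat_lit 387) (nat_lit 286) (nat_lit 227))))) (XT.nd (nat_lit 234) (nat_lit 0) (nat_lit 0) (XT.nd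 (nat_lit 78) (nat_lit 152) (nat_lit 0) (XT.lf (nat_lit 0) (nat_lit 39111516475) (nat_lit 76) (nat_lit 24411155172) (nat_lit 76) (nat_lit 8739000408) (nat_lit 10) (nat_lit 4) (nat_lit 11) (nat_lit 5) (nat_lit 11) (nat_lit 4) (nat_lit 388) (nat_lit 286) (nat_lit 226)) (XT.nd (nat_lit 78) (nat_lit 76) (nat_lit 0) (XT.lf (nat_lit 0) (nat_lit 888677724) (nat_lit 152) (nat_lit 13910352073) (nat_lit 76) (nat_lit 60757084361) (nat_lit 9) (nat_lit 5) (nat_lit 11) (nat_lit 5) (nat_lit 10) (nat_lit 4) (nat_lit 389) (nat_lit 286) (nat_lit 225)) (XT.lf (nat_lit 0) (nat_lit 6231093139) (nat_lit 76) (nat_lit 4599283184) (nat_lit 152) (nat_lit 68181907856) (nat_lit 8) (nat_lit 5) (nat_lit 9) (nat_lit 5) (nat_lit 10) (nat_lit 4) (nat_lit 390) (nat_lit 286) (nat_lit 224)))) (XT.nd (nat_lit 78) (nat_lit 0) (nat_lit 0) (XT.lf (nat_lit 0) (nat_lit 21425299905) (nat_lit 152) (nat_lit 55118854413) (nat_lit 0) (nat_lit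 6092426782) (nat_lit 8) (nat_lit 5) (nat_lit 10) (nat_lit 4) (nat_lit 8) (nat_lit 4) (nat_lit 391) (nat_lit 286) (nat_lit 223)) (XT.nd (nat_lit 78) (nat_lit 0) (nat_lit 0) (XT.lf (nat_lit 0) (nat_lit 32551429527) (nat_lit 152) (nat_lit 36707468779) (nat_lit 0) (nat_lit 17183153243) (nat_lit 8) (nat_lit 5) (nat_lit 10) (nat_lit 4) (nat_lit 8) (nat_lit 4) (nat_lit 392) (nat_lit 286) (nat_lit 222)) (XT.lf (nat_lit 0) (nat_lit 44191044849) (nat_lit 152) (nat_lit 17458986382) (nat_lit 0) (nat_lit 28789051270) (nat_lit 8) (nat_lit 5) (nat_lit 10) (nat_lit 4) (nat_lit 8) (nat_lit 4) (nat_lit 393) (nat_lit 286) (nat_lit 221))))))))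
noncomputable def xc26 : XT := (XT.nd (nat_lit 43212) (nat_lit 0) (nat_lit 1064) (XT.nd (nat_lit 42276) (nat_lit 0) (nat_lit 3876) (XT.nd (nat_lit 41808) (nat_lit 0) (nat_lit 6916) (XT.nd (nat_lit 41574) (nat_lit 0) (nat_lit 9652) (XT.nd (nat_lit 78) (nat_lit 0) (nat_lit 0) (XT.lf (nat_lit 0) (nat_lit 2725608944) (nat_lit 76) (nat_lit 53672450519) (nat_lit 76) (nat_lit 38238345230) (nat_lit 7) (nat_lit 4) (nat_lit 8) (nat_lit 5) (nat_lit 8) (nat_lit 4) (nat_lit 394) (nat_lit 286) (nat_lit 220)) (XT.nd (nat_lit 78) (nat_lit 0) (nat_lit 0) (XT.lf (nat_lit 0) (nat_lit 24207056648) (nat_lit 76) (nat_lit 45148511034) (nat_lit 76) (nat_lit 29683823164) (nat_lit 7) (nat_lit 4) (nat_lit 8) (nat_lit 5) (nat_lit 8) (nat_lit 4) (nat_lit 395) (nat_lit 286) (nat_lit 219)) (XT.lf (nat_lit 0) (nat_lit 46689034973) (nat_lit 76) (nat_lit 36234219212) (nat_lit 76) (nat_lit 20740405074) (nat_lit 7) (nat_lit 4)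 (nat_lit 8) (nat_lit 5) (nat_lit 8) (nat_lit 4) (nat_lit 396) (nat_lit 286) (nat_lit 218)))) (XT.nd (nat_lit 78) (nat_lit 1140) (nat_lit 0) (XT.lf (nat_lit 0) (nat_lit 1831742863) (nat_lit 456) (nat_lit 596912386) (nat_lit 0) (nat_lit 1831742863) (nat_lit 149) (nat_lit 5) (nat_lit 155) (nat_lit 4) (nat_lit 149) (nat_lit 4) (nat_lit 326) (nat_lit 287) (nat_lit 287)) (XT.nd (nat_lit 78) (nat_lit 380) (nat_lit 0) (XT.lf (nat_lit 0) (nat_lit 1536993021) (nat_lit 304) (nat_lit 74089584) (nat_lit 380) (nat_lit 7082296232) (nat_lit 139) (nat_lit 5) (nat_lit 143) (nat_lit 5) (nat_lit 144) (nat_lit 4) (nat_lit 327) (nat_lit 287) (nat_lit 286)) (XT.lf (nat_lit 0) (nat_lit 4313342757) (nat_lit 380) (nat_lit 3923879317) (nat_lit 380) (nat_lit 637994371) (nat_lit 134) (nat_lit 4) (nat_lit 139) (nat_lit 5) (nat_lit 139) (nat_lit 4) (nat_lit 328) (nat_lit 287) (nat_lit 285))))) (XT.nd (nat_lit 234) (nat_lit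 1292) (nat_lit 0) (XT.nd (nat_lit 78) (nat_lit 1064) (nat_lit 0) (XT.lf (nat_lit 0) (nat_lit 5902432237) (nat_lit 380) (nat_lit 1935073493) (nat_lit 0) (nat_lit 1230171581) (nat_lit 129) (nat_lit 5) (nat_lit 134) (nat_lit 4) (nat_lit 129) (nat_lit 4) (nat_lit 329) (nat_lit 287) (nat_lit 284)) (XT.nd (nat_lit 78) (nat_lit 380) (nat_lit 0) (XT.lf (nat_lit 0) (nat_lit 725228301) (nat_lit 304) (nat_lit 2628956310) (nat_lit 380) (nat_lit 5916423856) (nat_lit 120) (nat_lit 5) (nat_lit 124) (nat_lit 5) (nat_lit 125) (nat_lit 4) (nat_lit 330) (nat_lit 287) (nat_lit 283)) (XT.lf (nat_lit 0) (nat_lit 581143901) (nat_lit 380) (nat_lit 6031984389) (nat_lit 76) (nat_lit 2871244213) (nat_lit 115) (nat_lit 5) (nat_lit 120) (nat_lit 5) (nat_lit 116) (nat_lit 4) (nat_lit 331) (nat_lit 287) (nat_lit 282)))) (XT.nd (nat_lit 78) (nat_lit 988) (nat_lit 0) (XT.lf (nat_lit 0) (nat_lit 6181668405) (nat_lit 304) (nat_lit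 1028362460) (nat_lit 380) (nat_lit 2499256902) (nat_lit 111) (nat_lit 5) (nat_lit 115) (nat_lit 5) (nat_lit 116) (nat_lit 4) (nat_lit 332) (nat_lit 287) (nat_lit 281)) (XT.nd (nat_lit 78) (nat_lit 608) (nat_lit 0) (XT.lf (nat_lit 0) (nat_lit 4097081143) (nat_lit 380) (nat_lit 1040684601) (nat_lit 76) (nat_lit 4807904408) (nat_lit 106) (nat_lit 5) (nat_lit 111) (nat_lit 5) (nat_lit 107) (nat_lit 4) (nat_lit 333) (nat_lit 287) (nat_lit 280)) (XT.lf (nat_lit 0) (nat_lit 709657824) (nat_lit 380) (nat_lit 8707305471) (nat_lit 76) (nat_lit 777620832) (nat_lit 98) (nat_lit 5) (nat_lit 103) (nat_lit 5) (nat_lit 99) (nat_lit 4) (nat_lit 334) (nat_lit 287) (nat_lit 279)))))) (XT.nd (nat_lit 468) (nat_lit 1368) (nat_lit 0) (XT.nd (nat_lit 234) (nat_lit 912) (nat_lit 0) (XT.nd (nat_lit 78) (nat_lit 532) (nat_lit 0) (XT.lf (nat_lit 0) (nat_lit 3979057308) (nat_lit 228) (nat_lit 3478612971) (nat_lit 304)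 (nat_lit 2997120727) (nat_lit 95) (nat_lit 5) (nat_lit 98) (nat_lit 5) (nat_lit 99) (nat_lit 4) (nat_lit 335) (nat_lit 287) (nat_lit 278)) (XT.nd (nat_lit 78) (nat_lit 228) (nat_lit 0) (XT.lf (nat_lit 0) (nat_lit 3692098217) (nat_lit 304) (nat_lit 4275837227) (nat_lit 76) (nat_lit 2760492095) (nat_lit 91) (nat_lit 5) (nat_lit 95) (nat_lit 5) (nat_lit 92) (nat_lit 4) (nat_lit 336) (nat_lit 287) (nat_lit 277)) (XT.lf (nat_lit 0) (nat_lit 8896738168) (nat_lit 228) (nat_lit 1723362088) (nat_lit 304) (nat_lit 395826728) (nat_lit 88) (nat_lit 5) (nat_lit 91) (nat_lit 5) (nat_lit 92) (nat_lit 4) (nat_lit 337) (nat_lit 287) (nat_lit 276)))) (XT.nd (nat_lit 78) (nat_lit 608) (nat_lit 0) (XT.lf (nat_lit 0) (nat_lit 6431583587) (nat_lit 304) (nat_lit 61256898) (nat_lit 76) (nat_lit 4823623781) (nat_lit 84) (nat_lit 5) (nat_lit 88) (nat_lit 5) (nat_lit 85) (nat_lit 4) (nat_lit 338) (nat_lit 287) (nat_lit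 275)) (XT.nd (nat_lit 78) (nat_lit 152) (nat_lit 0) (XT.lf (nat_lit 0) (nat_lit 1900488993) (nat_lit 304) (nat_lit 9639320712) (nat_lit 76) (nat_lit 92233384) (nat_lit 78) (nat_lit 5) (nat_lit 82) (nat_lit 5) (nat_lit 79) (nat_lit 4) (nat_lit 339) (nat_lit 287) (nat_lit 274)) (XT.lf (nat_lit 0) (nat_lit 3916568927) (nat_lit 152) (nat_lit 5019193476) (nat_lit 228) (nat_lit 3025886924) (nat_lit 76) (nat_lit 5) (nat_lit 78) (nat_lit 5) (nat_lit 79) (nat_lit 4) (nat_lit 340) (nat_lit 287) (nat_lit 273))))) (XT.nd (nat_lit 234) (nat_lit 608) (nat_lit 0) (XT.nd (nat_lit 78) (nat_lit 456) (nat_lit 0) (XT.lf (nat_lit 0) (nat_lit 3903811020) (nat_lit 304) (nat_lit 6555056114) (nat_lit 76) (nat_lit 1848743588) (nat_lit 72) (nat_lit 5) (nat_lit 76) (nat_lit 5) (nat_lit 73) (nat_lit 4) (nat_lit 341) (nat_lit 287) (nat_lit 272)) (XT.nd (nat_lit 78) (nat_lit 304) (nat_lit 0) (XT.lf (nat_lit 0) (nat_lit 7459890680)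 (nat_lit 152) (nat_lit 3662649330) (nat_lit 228) (nat_lit 1547321023) (nat_lit 70) (nat_lit 5) (nat_lit 72) (nat_lit 5) (nat_lit 73) (nat_lit 4) (nat_lit 342) (nat_lit 287) (nat_lit 271)) (XT.lf (nat_lit 0) (nat_lit 5533880179) (nat_lit 304) (nat_lit 4035647068) (nat_lit 76) (nat_lit 3479341166) (nat_lit 66) (nat_lit 5) (nat_lit 70) (nat_lit 5) (nat_lit 67) (nat_lit 4) (nat_lit 343) (nat_lit 287) (nat_lit 270)))) (XT.nd (nat_lit 78) (nat_lit 456) (nat_lit 0) (XT.lf (nat_lit 0) (nat_lit 10429277998) (nat_lit 152) (nat_lit 2507410024) (nat_lit 228) (nat_lit 509730337) (nat_lit 64) (nat_lit 5) (nat_lit 66) (nat_lit 5) (nat_lit 67) (nat_lit 4) (nat_lit 344) (nat_lit 287) (nat_lit 269)) (XT.nd (nat_lit 78) (nat_lit 228) (nat_lit 0) (XT.lf (nat_lit 0) (nat_lit 6726435137) (nat_lit 228) (nat_lit 2236768456) (nat_lit 76) (nat_lit 4898276453) (nat_lit 61) (nat_lit 5) (nat_lit 64) (nat_lit 5) (nat_lit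 62) (nat_lit 4) (nat_lit 345) (nat_lit 287) (nat_lit 268)) (XT.lf (nat_lit 0) (nat_lit 11421735) (nat_lit 228) (nat_lit 1637238388) (nat_lit 76) (nat_lit 12648660409) (nat_lit 58) (nat_lit 5) (nat_lit 61) (nat_lit 5) (nat_lit 59) (nat_lit 5) (nat_lit 346) (nat_lit 287) (nat_lit 267))))))) (XT.nd (nat_lit 936) (nat_lit 988) (nat_lit 0) (XT.nd (nat_lit 468) (nat_lit 836) (nat_lit 0) (XT.nd (nat_lit 234) (nat_lit 456) (nat_lit 0) (XT.nd (nat_lit 78) (nat_lit 380) (nat_lit 0) (XT.lf (nat_lit 0) (nat_lit 7401215852) (nat_lit 228) (nat_lit 1343496944) (nat_lit 76) (nat_lit 6007145017) (nat_lit 56) (nat_lit 5) (nat_lit 59) (nat_lit 5) (nat_lit 57) (nat_lit 4) (nat_lit 347) (nat_lit 287) (nat_lit 266)) (XT.nd (nat_lit 78) (nat_lit 228) (nat_lit 0) (XT.lf (nat_lit 0) (nat_lit 13956641614) (nat_lit 152) (nat_lit 1196572732) (nat_lit 228) (nat_lit 76155812) (nat_lit 54) (nat_lit 5) (nat_lit 56) (nat_lit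 5) (nat_lit 57) (nat_lit 4) (nat_lit 348) (nat_lit 287) (nat_lit 265)) (XT.lf (nat_lit 0) (nat_lit 7459369975) (nat_lit 228) (nat_lit 1575945034) (nat_lit 76) (nat_lit 6691943439) (nat_lit 51) (nat_lit 5) (nat_lit 54) (nat_lit 5) (nat_lit 52) (nat_lit 4) (nat_lit 349) (nat_lit 287) (nat_lit 264)))) (XT.nd (nat_lit 78) (nat_lit 304) (nat_lit 0) (XT.lf (nat_lit 0) (nat_lit 14085113645) (nat_lit 152) (nat_lit 1278381243) (nat_lit 228) (nat_lit 886747812) (nat_lit 49) (nat_lit 5) (nat_lit 51) (nat_lit 5) (nat_lit 52) (nat_lit 4) (nat_lit 350) (nat_lit 287) (nat_lit 263)) (XT.nd (nat_lit 78) (nat_lit 76) (nat_lit 0) (XT.lf (nat_lit 0) (nat_lit 6780370438) (nat_lit 228) (nat_lit 3195843315) (nat_lit 76) (nat_lit 6819681743) (nat_lit 46) (nat_lit 5) (nat_lit 49) (nat_lit 5) (nat_lit 47) (nat_lit 4) (nat_lit 351) (nat_lit 287) (nat_lit 262)) (XT.lf (nat_lit 0) (nat_lit 12767595961) (nat_lit 76) (nat_lit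 2043252927) (nat_lit 152) (nat_lit 2557791330) (nat_lit 45) (nat_lit 5) (nat_lit 46) (nat_lit 5) (nat_lit 47) (nat_lit 4) (nat_lit 352) (nat_lit 287) (nat_lit 261))))) (XT.nd (nat_lit 234) (nat_lit 304) (nat_lit 0) (XT.nd (nat_lit 78) (nat_lit 304) (nat_lit 0) (XT.lf (nat_lit 0) (nat_lit 5218364387) (nat_lit 228) (nat_lit 6514238209) (nat_lit 76) (nat_lit 6234467450) (nat_lit 42) (nat_lit 5) (nat_lit 45) (nat_lit 5) (nat_lit 43) (nat_lit 4) (nat_lit 353) (nat_lit 287) (nat_lit 260)) (XT.nd (nat_lit 78) (nat_lit 228) (nat_lit 0) (XT.lf (nat_lit 0) (nat_lit 9673322953) (nat_lit 76) (nat_lit 3666020810) (nat_lit 152) (nat_lit 5255070656) (nat_lit 41) (nat_lit 5) (nat_lit 42) (nat_lit 5) (nat_lit 43) (nat_lit 4) (nat_lit 354) (nat_lit 287) (nat_lit 259)) (XT.lf (nat_lit 0) (nat_lit 2597859552) (nat_lit 228) (nat_lit 11900500543) (nat_lit 76) (nat_lit 4752962811) (nat_lit 38) (nat_lit 5) (nat_lit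 41) (nat_lit 5) (nat_lit 39) (nat_lit 4) (nat_lit 355) (nat_lit 287) (nat_lit 258)))) (XT.nd (nat_lit 78) (nat_lit 228) (nat_lit 0) (XT.lf (nat_lit 0) (nat_lit 4409149415) (nat_lit 76) (nat_lit 6352304143) (nat_lit 152) (nat_lit 9177279168) (nat_lit 37) (nat_lit 5) (nat_lit 38) (nat_lit 5) (nat_lit 39) (nat_lit 4) (nat_lit 356) (nat_lit 287) (nat_lit 257)) (XT.nd (nat_lit 78) (nat_lit 76) (nat_lit 0) (XT.lf (nat_lit 0) (nat_lit 854698248) (nat_lit 152) (nat_lit 18488470525) (nat_lit 152) (nat_lit 1317062993) (nat_lit 35) (nat_lit 4) (nat_lit 37) (nat_lit 5) (nat_lit 37) (nat_lit 4) (nat_lit 357) (nat_lit 287) (nat_lit 256)) (XT.lf (nat_lit 0) (nat_lit 6886170831) (nat_lit 228) (nat_lit 3423593504) (nat_lit 76) (nat_lit 11103496190) (nat_lit 34) (nat_lit 5) (nat_lit 37) (nat_lit 5) (nat_lit 35) (nat_lit 4) (nat_lit 358) (nat_lit 287) (nat_lit 255)))))) (XT.nd (nat_lit 468) (nat_lit 380) (nat_lit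 0) (XT.nd (nat_lit 234) (nat_lit 228) (nat_lit 0) (XT.nd (nat_lit 78) (nat_lit 304) (nat_lit 0) (XT.lf (nat_lit 0) (nat_lit 13784635733) (nat_lit 76) (nat_lit 1686922599) (nat_lit 152) (nat_lit 6732029207) (nat_lit 33) (nat_lit 5) (nat_lit 34) (nat_lit 5) (nat_lit 35) (nat_lit 4) (nat_lit 359) (nat_lit 287) (nat_lit 254)) (XT.nd (nat_lit 78) (nat_lit 76) (nat_lit 0) (XT.lf (nat_lit 0) (nat_lit 1484946177) (nat_lit 228) (nat_lit 14298426996) (nat_lit 76) (nat_lit 7247837275) (nat_lit 30) (nat_lit 5) (nat_lit 33) (nat_lit 5) (nat_lit 31) (nat_lit 4) (nat_lit 360) (nat_lit 287) (nat_lit 253)) (XT.lf (nat_lit 0) (nat_lit 2748461145) (nat_lit 76) (nat_lit 7229449152) (nat_lit 152) (nat_lit 13920186699) (nat_lit 29) (nat_lit 5) (nat_lit 30) (nat_lit 5) (nat_lit 31) (nat_lit 4) (nat_lit 361) (nat_lit 287) (nat_lit 252)))) (XT.nd (nat_lit 78) (nat_lit 228) (nat_lit 0) (XT.lf (nat_lit 0) (nat_lit 18935922156)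 (nat_lit 152) (nat_lit 4111299476) (nat_lit 0) (nat_lit 1759906790) (nat_lit 29) (nat_lit 5) (nat_lit 31) (nat_lit 4) (nat_lit 29) (nat_lit 4) (nat_lit 362) (nat_lit 287) (nat_lit 251)) (XT.nd (nat_lit 78) (nat_lit 76) (nat_lit 0) (XT.lf (nat_lit 0) (nat_lit 2616721255) (nat_lit 152) (nat_lit 12034759212) (nat_lit 76) (nat_lit 11106793040) (nat_lit 27) (nat_lit 5) (nat_lit 29) (nat_lit 5) (nat_lit 28) (nat_lit 4) (nat_lit 363) (nat_lit 287) (nat_lit 250)) (XT.lf (nat_lit 0) (nat_lit 5609805063) (nat_lit 76) (nat_lit 5778898592) (nat_lit 152) (nat_lit 15367106789) (nat_lit 26) (nat_lit 5) (nat_lit 27) (nat_lit 5) (nat_lit 28) (nat_lit 4) (nat_lit 364) (nat_lit 287) (nat_lit 249))))) (XT.nd (nat_lit 234) (nat_lit 152) (nat_lit 0) (XT.nd (nat_lit 78) (nat_lit 228) (nat_lit 0) (XT.lf (nat_lit 0) (nat_lit 20644223734) (nat_lit 152) (nat_lit 3663033683) (nat_lit 0) (nat_lit 3494629169) (nat_lit 26)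 (nat_lit 5) (nat_lit 28) (nat_lit 4) (nat_lit 26) (nat_lit 4) (nat_lit 365) (nat_lit 287) (nat_lit 248)) (XT.nd (nat_lit 78) (nat_lit 76) (nat_lit 0) (XT.lf (nat_lit 0) (nat_lit 1525665377) (nat_lit 152) (nat_lit 14195645993) (nat_lit 76) (nat_lit 13175784828) (nat_lit 24) (nat_lit 5) (nat_lit 26) (nat_lit 5) (nat_lit 25) (nat_lit 4) (nat_lit 366) (nat_lit 287) (nat_lit 247)) (XT.lf (nat_lit 0) (nat_lit 3814279241) (nat_lit 76) (nat_lit 6650430770) (nat_lit 152) (nat_lit 19581152057) (nat_lit 23) (nat_lit 5) (nat_lit 24) (nat_lit 5) (nat_lit 25) (nat_lit 4) (nat_lit 367) (nat_lit 287) (nat_lit 246)))) (XT.nd (nat_lit 78) (nat_lit 152) (nat_lit 0) (XT.lf (nat_lit 0) (nat_lit 19921660158) (nat_lit 152) (nat_lit 8454126428) (nat_lit 0) (nat_lit 2874159868) (nat_lit 23) (nat_lit 5) (nat_lit 25) (nat_lit 4) (nat_lit 23) (nat_lit 4) (nat_lit 368) (nat_lit 287) (nat_lit 245)) (XT.nd (nat_lit 78) (nat_lit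 76) (nat_lit 0) (XT.lf (nat_lit 0) (nat_lit 10153962868) (nat_lit 76) (nat_lit 19762938019) (nat_lit 76) (nat_lit 2595379278) (nat_lit 22) (nat_lit 4) (nat_lit 23) (nat_lit 5) (nat_lit 23) (nat_lit 4) (nat_lit 369) (nat_lit 287) (nat_lit 244)) (XT.lf (nat_lit 0) (nat_lit 6436488599) (nat_lit 152) (nat_lit 4215828267) (nat_lit 76) (nat_lit 23183807575) (nat_lit 21) (nat_lit 5) (nat_lit 23) (nat_lit 5) (nat_lit 22) (nat_lit 4) (nat_lit 370) (nat_lit 287) (nat_lit 243))))))))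
noncomputable def xc27 : XT := (XT.nd (nat_lit 1872) (nat_lit 76) (nat_lit 0) (XT.nd (nat_lit 936) (nat_lit 380) (nat_lit 0) (XT.nd (nat_lit 468) (nat_lit 304) (nat_lit 0) (XT.nd (nat_lit 234) (nat_lit 152) (nat_lit 0) (XT.nd (nat_lit 78) (nat_lit 76) (nat_lit 0) (XT.lf (nat_lit 0) (nat_lit 14921839778) (nat_lit 76) (nat_lit 995715125) (nat_lit 152) (nat_lit 19306304073) (nat_lit 20) (nat_lit 5) (nat_lit 21) (nat_lit 5) (nat_lit 22) (nat_lit 4) (nat_lit 371) (nat_lit 287) (nat_lit 242)) (XT.nd (nat_lit 78) (nat_lit 76) (nat_lit 0) (XT.lf (nat_lit 0) (nat_lit 25913714381) (nat_lit 152) (nat_lit 1837286241) (nat_lit 0) (nat_lit 8928755467) (nat_lit 20) (nat_lit 5) (nat_lit 22) (nat_lit 4) (nat_lit 20) (nat_lit 4) (nat_lit 372) (nat_lit 287) (nat_lit 241)) (XT.lf (nat_lit 0) (nat_lit 17720934633) (nat_lit 76) (nat_lit 18782776837) (nat_lit 76) (nat_lit 1701922404) (nat_lit 19) (nat_lit 4) (nat_lit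 20) (nat_lit 5) (nat_lit 20) (nat_lit 4) (nat_lit 373) (nat_lit 287) (nat_lit 240)))) (XT.nd (nat_lit 78) (nat_lit 76) (nat_lit 0) (XT.lf (nat_lit 0) (nat_lit 7597363287) (nat_lit 152) (nat_lit 1749536025) (nat_lit 76) (nat_lit 30460624637) (nat_lit 18) (nat_lit 5) (nat_lit 20) (nat_lit 5) (nat_lit 19) (nat_lit 4) (nat_lit 374) (nat_lit 287) (nat_lit 239)) (XT.nd (nat_lit 78) (nat_lit 0) (nat_lit 0) (XT.lf (nat_lit 0) (nat_lit 17426734561) (nat_lit 152) (nat_lit 23388999678) (nat_lit 0) (nat_lit 670265084) (nat_lit 17) (nat_lit 5) (nat_lit 19) (nat_lit 4) (nat_lit 17) (nat_lit 4) (nat_lit 375) (nat_lit 287) (nat_lit 238)) (XT.lf (nat_lit 0) (nat_lit 27781200898) (nat_lit 152) (nat_lit 4521888370) (nat_lit 0) (nat_lit 10944306028) (nat_lit 17) (nat_lit 5) (nat_lit 19) (nat_lit 4) (nat_lit 17) (nat_lit 4) (nat_lit 376) (nat_lit 287) (nat_lit 237))))) (XT.nd (nat_lit 234) (nat_lit 76) (nat_lit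 0) (XT.nd (nat_lit 78) (nat_lit 152) (nat_lit 0) (XT.lf (nat_lit 0) (nat_lit 15445272714) (nat_lit 76) (nat_lit 23281442232) (nat_lit 76) (nat_lit 6367951749) (nat_lit 16) (nat_lit 4) (nat_lit 17) (nat_lit 5) (nat_lit 17) (nat_lit 4) (nat_lit 377) (nat_lit 287) (nat_lit 236)) (XT.nd (nat_lit 78) (nat_lit 76) (nat_lit 0) (XT.lf (nat_lit 0) (nat_lit 3096413274) (nat_lit 152) (nat_lit 10700719737) (nat_lit 76) (nat_lit 33237054114) (nat_lit 15) (nat_lit 5) (nat_lit 17) (nat_lit 5) (nat_lit 16) (nat_lit 4) (nat_lit 378) (nat_lit 287) (nat_lit 235)) (XT.lf (nat_lit 0) (nat_lit 9174891490) (nat_lit 76) (nat_lit 3746687157) (nat_lit 152) (nat_lit 36146639744) (nat_lit 14) (nat_lit 5) (nat_lit 15) (nat_lit 5) (nat_lit 16) (nat_lit 4) (nat_lit 379) (nat_lit 287) (nat_lit 234)))) (XT.nd (nat_lit 78) (nat_lit 76) (nat_lit 0) (XT.lf (nat_lit 0) (nat_lit 23346004018) (nat_lit 152) (nat_lit 21132085620) (nat_lit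 0) (nat_lit 6722626024) (nat_lit 14) (nat_lit 5) (nat_lit 16) (nat_lit 4) (nat_lit 14) (nat_lit 4) (nat_lit 380) (nat_lit 287) (nat_lit 233)) (XT.nd (nat_lit 78) (nat_lit 76) (nat_lit 0) (XT.lf (nat_lit 0) (nat_lit 34264067342) (nat_lit 152) (nat_lit 1597092886) (nat_lit 0) (nat_lit 17579509348) (nat_lit 14) (nat_lit 5) (nat_lit 16) (nat_lit 4) (nat_lit 14) (nat_lit 4) (nat_lit 381) (nat_lit 287) (nat_lit 232)) (XT.lf (nat_lit 0) (nat_lit 19168219643) (nat_lit 76) (nat_lit 26681785570) (nat_lit 76) (nat_lit 9938960909) (nat_lit 13) (nat_lit 4) (nat_lit 14) (nat_lit 5) (nat_lit 14) (nat_lit 4) (nat_lit 382) (nat_lit 287) (nat_lit 231)))))) (XT.nd (nat_lit 468) (nat_lit 152) (nat_lit 0) (XT.nd (nat_lit 234) (nat_lit 76) (nat_lit 0) (XT.nd (nat_lit 78) (nat_lit 152) (nat_lit 0) (XT.lf (nat_lit 0) (nat_lit 40888154769) (nat_lit 76) (nat_lit 17083081718) (nat_lit 76) (nat_lit 284764994) (nat_lit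 13) (nat_lit 4) (nat_lit 14) (nat_lit 5) (nat_lit 14) (nat_lit 4) (nat_lit 383) (nat_lit 287) (nat_lit 230)) (XT.nd (nat_lit 78) (nat_lit 0) (nat_lit 0) (XT.lf (nat_lit 0) (nat_lit 2692936134) (nat_lit 76) (nat_lit 6934700536) (nat_lit 152) (nat_lit 51216881981) (nat_lit 11) (nat_lit 5) (nat_lit 12) (nat_lit 5) (nat_lit 13) (nat_lit 4) (nat_lit 384) (nat_lit 287) (nat_lit 229)) (XT.lf (nat_lit 0) (nat_lit 20189218747) (nat_lit 152) (nat_lit 39588382101) (nat_lit 0) (nat_lit 3779996178) (nat_lit 11) (nat_lit 5) (nat_lit 13) (nat_lit 4) (nat_lit 11) (nat_lit 4) (nat_lit 385) (nat_lit 287) (nat_lit 228)))) (XT.nd (nat_lit 78) (nat_lit 76) (nat_lit 0) (XT.lf (nat_lit 0) (nat_lit 31294653205) (nat_lit 152) (nat_lit 20272315469) (nat_lit 0) (nat_lit 14838890702) (nat_lit 11) (nat_lit 5) (nat_lit 13) (nat_lit 4) (nat_lit 11) (nat_lit 4) (nat_lit 386) (nat_lit 287) (nat_lit 227)) (XT.nd (nat_lit 78)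 (nat_lit 76) (nat_lit 0) (XT.lf (nat_lit 0) (nat_lit 42903720970) (nat_lit 152) (nat_lit 90731404) (nat_lit 0) (nat_lit 26403634722) (nat_lit 11) (nat_lit 5) (nat_lit 13) (nat_lit 4) (nat_lit 11) (nat_lit 4) (nat_lit 387) (nat_lit 287) (nat_lit 226)) (XT.lf (nat_lit 0) (nat_lit 21422450656) (nat_lit 76) (nat_lit 33827537726) (nat_lit 76) (nat_lit 17285238387) (nat_lit 10) (nat_lit 4) (nat_lit 11) (nat_lit 5) (nat_lit 11) (nat_lit 4) (nat_lit 388) (nat_lit 287) (nat_lit 225))))) (XT.nd (nat_lit 234) (nat_lit 0) (nat_lit 0) (XT.nd (nat_lit 78) (nat_lit 152) (nat_lit 0) (XT.lf (nat_lit 0) (nat_lit 43920415245) (nat_lit 76) (nat_lit 24246358568) (nat_lit 76) (nat_lit 7663856285) (nat_lit 10) (nat_lit 4) (nat_lit 11) (nat_lit 5) (nat_lit 11) (nat_lit 4) (nat_lit 389) (nat_lit 287) (nat_lit 224)) (XT.nd (nat_lit 78) (nat_lit 76) (nat_lit 0) (XT.lf (nat_lit 0) (nat_lit 2345099935) (nat_lit 152) (nat_lit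 11860237931) (nat_lit 76) (nat_lit 65086142366) (nat_lit 9) (nat_lit 5) (nat_lit 11) (nat_lit 5) (nat_lit 10) (nat_lit 4) (nat_lit 390) (nat_lit 287) (nat_lit 223)) (XT.lf (nat_lit 0) (nat_lit 9209576559) (nat_lit 76) (nat_lit 3532705516) (nat_lit 152) (nat_lit 70179428529) (nat_lit 8) (nat_lit 5) (nat_lit 9) (nat_lit 5) (nat_lit 10) (nat_lit 4) (nat_lit 391) (nat_lit 287) (nat_lit 222)))) (XT.nd (nat_lit 78) (nat_lit 0) (nat_lit 0) (XT.lf (nat_lit 0) (nat_lit 23813564986) (nat_lit 152) (nat_lit 55307508187) (nat_lit 0) (nat_lit 7607754432) (nat_lit 8) (nat_lit 5) (nat_lit 10) (nat_lit 4) (nat_lit 8) (nat_lit 4) (nat_lit 392) (nat_lit 287) (nat_lit 221)) (XT.nd (nat_lit 78) (nat_lit 0) (nat_lit 0) (XT.lf (nat_lit 0) (nat_lit 35433286798) (nat_lit 152) (nat_lit 36097805126) (nat_lit 0) (nat_lit 19195364534) (nat_lit 8) (nat_lit 5) (nat_lit 10) (nat_lit 4) (nat_lit 8) (nat_lit 4) (nat_lit 393)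 (nat_lit 287) (nat_lit 220)) (XT.lf (nat_lit 0) (nat_lit 47595154992) (nat_lit 152) (nat_lit 16003328947) (nat_lit 0) (nat_lit 31326650147) (nat_lit 8) (nat_lit 5) (nat_lit 10) (nat_lit 4) (nat_lit 8) (nat_lit 4) (nat_lit 394) (nat_lit 287) (nat_lit 219))))))) (XT.nd (nat_lit 42120) (nat_lit 0) (nat_lit 4104) (XT.nd (nat_lit 41652) (nat_lit 0) (nat_lit 7524) (XT.nd (nat_lit 41418) (nat_lit 0) (nat_lit 10032) (XT.nd (nat_lit 78) (nat_lit 0) (nat_lit 0) (XT.lf (nat_lit 0) (nat_lit 5123747099) (nat_lit 76) (nat_lit 55253631887) (nat_lit 76) (nat_lit 38956000775) (nat_lit 7) (nat_lit 4) (nat_lit 8) (nat_lit 5) (nat_lit 8) (nat_lit 4) (nat_lit 395) (nat_lit 287) (nat_lit 218)) (XT.nd (nat_lit 41262) (nat_lit 0) (nat_lit 11704) (XT.lf (nat_lit 0) (nat_lit 27571559680) (nat_lit 76) (nat_lit 46355992626) (nat_lit 76) (nat_lit 30030622211) (nat_lit 7) (nat_lit 4) (nat_lit 8) (nat_lit 5) (nat_lit 8) (nat_lit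 4) (nat_lit 396) (nat_lit 287) (nat_lit 217)) (XT.lf (nat_lit 0) (nat_lit 492598962) (nat_lit 456) (nat_lit 3115669195) (nat_lit 0) (nat_lit 492598962) (nat_lit 161) (nat_lit 5) (nat_lit 167) (nat_lit 4) (nat_lit 161) (nat_lit 4) (nat_lit 324) (nat_lit 288) (nat_lit 288)))) (XT.nd (nat_lit 78) (nat_lit 1216) (nat_lit 0) (XT.lf (nat_lit 0) (nat_lit 4530617249) (nat_lit 456) (nat_lit 2851271809) (nat_lit 456) (nat_lit 976486510) (nat_lit 155) (nat_lit 4) (nat_lit 161) (nat_lit 5) (nat_lit 161) (nat_lit 4) (nat_lit 325) (nat_lit 288) (nat_lit 287)) (XT.nd (nat_lit 78) (nat_lit 760) (nat_lit 0) (XT.lf (nat_lit 0) (nat_lit 5351445020) (nat_lit 456) (nat_lit 1375616532) (nat_lit 0) (nat_lit 1797760451) (nat_lit 149) (nat_lit 5) (nat_lit 155) (nat_lit 4) (nat_lit 149) (nat_lit 4) (nat_lit 326) (nat_lit 288) (nat_lit 286)) (XT.lf (nat_lit 0) (nat_lit 1144473578) (nat_lit 304) (nat_lit 1983169266) (nat_lit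 380) (nat_lit 5573366269) (nat_lit 139) (nat_lit 5) (nat_lit 143) (nat_lit 5) (nat_lit 144) (nat_lit 4) (nat_lit 327) (nat_lit 288) (nat_lit 285))))) (XT.nd (nat_lit 234) (nat_lit 1368) (nat_lit 0) (XT.nd (nat_lit 78) (nat_lit 684) (nat_lit 0) (XT.lf (nat_lit 0) (nat_lit 703632484) (nat_lit 456) (nat_lit 5151219485) (nat_lit 76) (nat_lit 3032303412) (nat_lit 133) (nat_lit 5) (nat_lit 139) (nat_lit 5) (nat_lit 134) (nat_lit 4) (nat_lit 328) (nat_lit 288) (nat_lit 284)) (XT.nd (nat_lit 78) (nat_lit 380) (nat_lit 0) (XT.lf (nat_lit 0) (nat_lit 6359453957) (nat_lit 304) (nat_lit 730643759) (nat_lit 380) (nat_lit 1993628069) (nat_lit 129) (nat_lit 5) (nat_lit 133) (nat_lit 5) (nat_lit 134) (nat_lit 4) (nat_lit 329) (nat_lit 288) (nat_lit 283)) (XT.lf (nat_lit 0) (nat_lit 4359976763) (nat_lit 380) (nat_lit 292999004) (nat_lit 76) (nat_lit 4637676717) (nat_lit 124) (nat_lit 5) (nat_lit 129) (nat_lit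 5) (nat_lit 125) (nat_lit 4) (nat_lit 330) (nat_lit 288) (nat_lit 282)))) (XT.nd (nat_lit 78) (nat_lit 684) (nat_lit 0) (XT.lf (nat_lit 0) (nat_lit 1394380947) (nat_lit 380) (nat_lit 7289823384) (nat_lit 76) (nat_lit 824567372) (nat_lit 115) (nat_lit 5) (nat_lit 120) (nat_lit 5) (nat_lit 116) (nat_lit 4) (nat_lit 331) (nat_lit 288) (nat_lit 281)) (XT.nd (nat_lit 78) (nat_lit 380) (nat_lit 0) (XT.lf (nat_lit 0) (nat_lit 4721459019) (nat_lit 304) (nat_lit 3172961462) (nat_lit 380) (nat_lit 1843171131) (nat_lit 111) (nat_lit 5) (nat_lit 115) (nat_lit 5) (nat_lit 116) (nat_lit 4) (nat_lit 332) (nat_lit 288) (nat_lit 280)) (XT.lf (nat_lit 0) (nat_lit 4590646402) (nat_lit 380) (nat_lit 2750542251) (nat_lit 76) (nat_lit 2637123946) (nat_lit 106) (nat_lit 5) (nat_lit 111) (nat_lit 5) (nat_lit 107) (nat_lit 4) (nat_lit 333) (nat_lit 288) (nat_lit 279)))))) (XT.nd (nat_lit 468) (nat_lit 1520) (nat_lit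 0) (XT.nd (nat_lit 234) (nat_lit 760) (nat_lit 0) (XT.nd (nat_lit 78) (nat_lit 836) (nat_lit 0) (XT.lf (nat_lit 0) (nat_lit 1010956864) (nat_lit 304) (nat_lit 489943570) (nat_lit 76) (nat_lit 8730745638) (nat_lit 102) (nat_lit 5) (nat_lit 106) (nat_lit 5) (nat_lit 103) (nat_lit 5) (nat_lit 334) (nat_lit 288) (nat_lit 278)) (XT.nd (nat_lit 78) (nat_lit 304) (nat_lit 0) (XT.lf (nat_lit 0) (nat_lit 1753650048) (nat_lit 228) (nat_lit 5856041442) (nat_lit 304) (nat_lit 2886671732) (nat_lit 95) (nat_lit 5) (nat_lit 98) (nat_lit 5) (nat_lit 99) (nat_lit 4) (nat_lit 335) (nat_lit 288) (nat_lit 277)) (XT.lf (nat_lit 0) (nat_lit 3646692165) (nat_lit 304) (nat_lit 6783652268) (nat_lit 76) (nat_lit 344263994) (nat_lit 91) (nat_lit 5) (nat_lit 95) (nat_lit 5) (nat_lit 92) (nat_lit 4) (nat_lit 336) (nat_lit 288) (nat_lit 276)))) (XT.nd (nat_lit 78) (nat_lit 532) (nat_lit 0) (XT.lf (nat_lit 0) (nat_lit 6168552204)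 (nat_lit 228) (nat_lit 4276677817) (nat_lit 304) (nat_lit 620789901) (nat_lit 88) (nat_lit 5) (nat_lit 91) (nat_lit 5) (nat_lit 92) (nat_lit 4) (nat_lit 337) (nat_lit 288) (nat_lit 275)) (XT.nd (nat_lit 78) (nat_lit 228) (nat_lit 0) (XT.lf (nat_lit 0) (nat_lit 6055822027) (nat_lit 304) (nat_lit 3088886881) (nat_lit 76) (nat_lit 2226594821) (nat_lit 84) (nat_lit 5) (nat_lit 88) (nat_lit 5) (nat_lit 85) (nat_lit 4) (nat_lit 338) (nat_lit 288) (nat_lit 274)) (XT.lf (nat_lit 0) (nat_lit 1327419324) (nat_lit 228) (nat_lit 1351710339) (nat_lit 76) (nat_lit 9012427246) (nat_lit 81) (nat_lit 5) (nat_lit 84) (nat_lit 5) (nat_lit 82) (nat_lit 5) (nat_lit 339) (nat_lit 288) (nat_lit 273))))) (XT.nd (nat_lit 234) (nat_lit 684) (nat_lit 0) (XT.nd (nat_lit 78) (nat_lit 456) (nat_lit 0) (XT.lf (nat_lit 0) (nat_lit 275344573) (nat_lit 152) (nat_lit 7914999100) (nat_lit 228) (nat_lit 3836012846) (nat_lit 76)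 (nat_lit 5) (nat_lit 78) (nat_lit 5) (nat_lit 79) (nat_lit 4) (nat_lit 340) (nat_lit 288) (nat_lit 272)) (XT.nd (nat_lit 78) (nat_lit 152) (nat_lit 0) (XT.lf (nat_lit 0) (nat_lit 1834236343) (nat_lit 228) (nat_lit 1123252045) (nat_lit 304) (nat_lit 9419644480) (nat_lit 72) (nat_lit 5) (nat_lit 75) (nat_lit 5) (nat_lit 76) (nat_lit 5) (nat_lit 341) (nat_lit 288) (nat_lit 271)) (XT.lf (nat_lit 0) (nat_lit 3240956857) (nat_lit 152) (nat_lit 6790313949) (nat_lit 228) (nat_lit 2712480935) (nat_lit 70) (nat_lit 5) (nat_lit 72) (nat_lit 5) (nat_lit 73) (nat_lit 4) (nat_lit 342) (nat_lit 288) (nat_lit 270)))) (XT.nd (nat_lit 78) (nat_lit 380) (nat_lit 0) (XT.lf (nat_lit 0) (nat_lit 4225164793) (nat_lit 304) (nat_lit 8609498945) (nat_lit 76) (nat_lit 293438793) (nat_lit 66) (nat_lit 5) (nat_lit 70) (nat_lit 5) (nat_lit 67) (nat_lit 4) (nat_lit 343) (nat_lit 288) (nat_lit 269)) (XT.nd (nat_lit 78) (nat_lit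 228) (nat_lit 0) (XT.lf (nat_lit 0) (nat_lit 5606924275) (nat_lit 152) (nat_lit 5885432277) (nat_lit 228) (nat_lit 2037382165) (nat_lit 64) (nat_lit 5) (nat_lit 66) (nat_lit 5) (nat_lit 67) (nat_lit 4) (nat_lit 344) (nat_lit 288) (nat_lit 268)) (XT.lf (nat_lit 0) (nat_lit 5058104942) (nat_lit 228) (nat_lit 7434001247) (nat_lit 76) (nat_lit 1458265827) (nat_lit 61) (nat_lit 5) (nat_lit 64) (nat_lit 5) (nat_lit 62) (nat_lit 4) (nat_lit 345) (nat_lit 288) (nat_lit 267))))))))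
noncomputable def xc28 : XT := (XT.nd (nat_lit 1872) (nat_lit 1140) (nat_lit 0) (XT.nd (nat_lit 936) (nat_lit 1064) (nat_lit 0) (XT.nd (nat_lit 468) (nat_lit 684) (nat_lit 0) (XT.nd (nat_lit 234) (nat_lit 608) (nat_lit 0) (XT.nd (nat_lit 78) (nat_lit 380) (nat_lit 0) (XT.lf (nat_lit 0) (nat_lit 7207228578) (nat_lit 152) (nat_lit 5295810507) (nat_lit 228) (nat_lit 1887320525) (nat_lit 59) (nat_lit 5) (nat_lit 61) (nat_lit 5) (nat_lit 62) (nat_lit 4) (nat_lit 346) (nat_lit 288) (nat_lit 266)) (XT.nd (nat_lit 78) (nat_lit 152) (nat_lit 0) (XT.lf (nat_lit 0) (nat_lit 5363915872) (nat_lit 228) (nat_lit 7192271850) (nat_lit 76) (nat_lit 2294529474) (nat_lit 56) (nat_lit 5) (nat_lit 59) (nat_lit 5) (nat_lit 57) (nat_lit 4) (nat_lit 347) (nat_lit 288) (nat_lit 265)) (XT.lf (nat_lit 0) (nat_lit 7844232588) (nat_lit 152) (nat_lit 5131575400) (nat_lit 228) (nat_lit 2356638516) (nat_lit 54) (nat_lit 5)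 (nat_lit 56) (nat_lit 5) (nat_lit 57) (nat_lit 4) (nat_lit 348) (nat_lit 288) (nat_lit 264)))) (XT.nd (nat_lit 78) (nat_lit 380) (nat_lit 0) (XT.lf (nat_lit 0) (nat_lit 5042403005) (nat_lit 228) (nat_lit 8106156819) (nat_lit 76) (nat_lit 2687874885) (nat_lit 51) (nat_lit 5) (nat_lit 54) (nat_lit 5) (nat_lit 52) (nat_lit 4) (nat_lit 349) (nat_lit 288) (nat_lit 263)) (XT.nd (nat_lit 78) (nat_lit 228) (nat_lit 0) (XT.lf (nat_lit 0) (nat_lit 7282664417) (nat_lit 152) (nat_lit 5520741259) (nat_lit 228) (nat_lit 3560319080) (nat_lit 49) (nat_lit 5) (nat_lit 51) (nat_lit 5) (nat_lit 52) (nat_lit 4) (nat_lit 350) (nat_lit 288) (nat_lit 262)) (XT.lf (nat_lit 0) (nat_lit 3971681980) (nat_lit 228) (nat_lit 10439266204) (nat_lit 76) (nat_lit 2504830225) (nat_lit 46) (nat_lit 5) (nat_lit 49) (nat_lit 5) (nat_lit 47) (nat_lit 4) (nat_lit 351) (nat_lit 288) (nat_lit 261))))) (XT.nd (nat_lit 234) (nat_lit 304)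 (nat_lit 0) (XT.nd (nat_lit 78) (nat_lit 304) (nat_lit 0) (XT.lf (nat_lit 0) (nat_lit 5242584090) (nat_lit 76) (nat_lit 6612923735) (nat_lit 152) (nat_lit 5637425565) (nat_lit 45) (nat_lit 5) (nat_lit 46) (nat_lit 5) (nat_lit 47) (nat_lit 4) (nat_lit 352) (nat_lit 288) (nat_lit 260)) (XT.nd (nat_lit 78) (nat_lit 76) (nat_lit 0) (XT.lf (nat_lit 0) (nat_lit 2004519620) (nat_lit 228) (nat_lit 14504674274) (nat_lit 76) (nat_lit 1588896457) (nat_lit 42) (nat_lit 5) (nat_lit 45) (nat_lit 5) (nat_lit 43) (nat_lit 4) (nat_lit 353) (nat_lit 288) (nat_lit 259)) (XT.lf (nat_lit 0) (nat_lit 1391153658) (nat_lit 76) (nat_lit 8583643372) (nat_lit 152) (nat_lit 8755168158) (nat_lit 41) (nat_lit 5) (nat_lit 42) (nat_lit 5) (nat_lit 43) (nat_lit 4) (nat_lit 354) (nat_lit 288) (nat_lit 258)))) (XT.nd (nat_lit 78) (nat_lit 304) (nat_lit 0) (XT.lf (nat_lit 0) (nat_lit 18125781670) (nat_lit 76) (nat_lit 225836671)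 (nat_lit 152) (nat_lit 1041592885) (nat_lit 41) (nat_lit 5) (nat_lit 42) (nat_lit 5) (nat_lit 43) (nat_lit 4) (nat_lit 355) (nat_lit 288) (nat_lit 257)) (XT.nd (nat_lit 78) (nat_lit 76) (nat_lit 0) (XT.lf (nat_lit 0) (nat_lit 7017190890) (nat_lit 228) (nat_lit 4575928189) (nat_lit 76) (nat_lit 8491564684) (nat_lit 38) (nat_lit 5) (nat_lit 41) (nat_lit 5) (nat_lit 39) (nat_lit 4) (nat_lit 356) (nat_lit 288) (nat_lit 256)) (XT.lf (nat_lit 0) (nat_lit 12322190597) (nat_lit 76) (nat_lit 3136460849) (nat_lit 152) (nat_lit 5351746884) (nat_lit 37) (nat_lit 5) (nat_lit 38) (nat_lit 5) (nat_lit 39) (nat_lit 4) (nat_lit 357) (nat_lit 288) (nat_lit 255)))))) (XT.nd (nat_lit 468) (nat_lit 380) (nat_lit 0) (XT.nd (nat_lit 234) (nat_lit 380) (nat_lit 0) (XT.nd (nat_lit 78) (nat_lit 76) (nat_lit 0) (XT.lf (nat_lit 0) (nat_lit 2750890967) (nat_lit 228) (nat_lit 13139557794) (nat_lit 76) (nat_lit 5679528953)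 (nat_lit 34) (nat_lit 5) (nat_lit 37) (nat_lit 5) (nat_lit 35) (nat_lit 4) (nat_lit 358) (nat_lit 288) (nat_lit 254)) (XT.nd (nat_lit 78) (nat_lit 0) (nat_lit 0) (XT.lf (nat_lit 0) (nat_lit 3757558865) (nat_lit 76) (nat_lit 7420298972) (nat_lit 152) (nat_lit 11187206456) (nat_lit 33) (nat_lit 5) (nat_lit 34) (nat_lit 5) (nat_lit 35) (nat_lit 4) (nat_lit 359) (nat_lit 288) (nat_lit 253)) (XT.lf (nat_lit 0) (nat_lit 20052586659) (nat_lit 152) (nat_lit 1669813651) (nat_lit 0) (nat_lit 1476726041) (nat_lit 33) (nat_lit 5) (nat_lit 35) (nat_lit 4) (nat_lit 33) (nat_lit 4) (nat_lit 360) (nat_lit 288) (nat_lit 252)))) (XT.nd (nat_lit 78) (nat_lit 152) (nat_lit 0) (XT.lf (nat_lit 0) (nat_lit 5305454743) (nat_lit 228) (nat_lit 7990386556) (nat_lit 76) (nat_lit 10774156210) (nat_lit 30) (nat_lit 5) (nat_lit 33) (nat_lit 5) (nat_lit 31) (nat_lit 4) (nat_lit 361) (nat_lit 288) (nat_lit 251)) (XT.nd (nat_lit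 78) (nat_lit 76) (nat_lit 0) (XT.lf (nat_lit 0) (nat_lit 9707534202) (nat_lit 76) (nat_lit 4402713345) (nat_lit 152) (nat_lit 10873383784) (nat_lit 29) (nat_lit 5) (nat_lit 30) (nat_lit 5) (nat_lit 31) (nat_lit 4) (nat_lit 362) (nat_lit 288) (nat_lit 250)) (XT.lf (nat_lit 0) (nat_lit 2299797167) (nat_lit 76) (nat_lit 21094636482) (nat_lit 76) (nat_lit 2547349960) (nat_lit 28) (nat_lit 4) (nat_lit 29) (nat_lit 5) (nat_lit 29) (nat_lit 4) (nat_lit 363) (nat_lit 288) (nat_lit 249))))) (XT.nd (nat_lit 234) (nat_lit 152) (nat_lit 0) (XT.nd (nat_lit 78) (nat_lit 152) (nat_lit 0) (XT.lf (nat_lit 0) (nat_lit 6166194484) (nat_lit 152) (nat_lit 6184730761) (nat_lit 76) (nat_lit 14592379408) (nat_lit 27) (nat_lit 5) (nat_lit 29) (nat_lit 5) (nat_lit 28) (nat_lit 4) (nat_lit 364) (nat_lit 288) (nat_lit 248)) (XT.nd (nat_lit 78) (nat_lit 76) (nat_lit 0) (XT.lf (nat_lit 0) (nat_lit 12157123139) (nat_lit 76)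 (nat_lit 3117101202) (nat_lit 152) (nat_lit 12719586046) (nat_lit 26) (nat_lit 5) (nat_lit 27) (nat_lit 5) (nat_lit 28) (nat_lit 4) (nat_lit 365) (nat_lit 288) (nat_lit 247)) (XT.lf (nat_lit 0) (nat_lit 2233837283) (nat_lit 76) (nat_lit 22649260975) (nat_lit 76) (nat_lit 4212389411) (nat_lit 25) (nat_lit 4) (nat_lit 26) (nat_lit 5) (nat_lit 26) (nat_lit 4) (nat_lit 366) (nat_lit 288) (nat_lit 246)))) (XT.nd (nat_lit 78) (nat_lit 76) (nat_lit 0) (XT.lf (nat_lit 0) (nat_lit 4722692593) (nat_lit 152) (nat_lit 8979648813) (nat_lit 76) (nat_lit 16545716042) (nat_lit 24) (nat_lit 5) (nat_lit 26) (nat_lit 5) (nat_lit 25) (nat_lit 4) (nat_lit 367) (nat_lit 288) (nat_lit 245)) (XT.nd (nat_lit 78) (nat_lit 0) (nat_lit 0) (XT.lf (nat_lit 0) (nat_lit 9760911404) (nat_lit 76) (nat_lit 4254500609) (nat_lit 152) (nat_lit 17441660840) (nat_lit 23) (nat_lit 5) (nat_lit 24) (nat_lit 5) (nat_lit 25) (nat_lit 4)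 (nat_lit 368) (nat_lit 288) (nat_lit 244)) (XT.lf (nat_lit 0) (nat_lit 23826023211) (nat_lit 152) (nat_lit 3333239442) (nat_lit 0) (nat_lit 5565686699) (nat_lit 23) (nat_lit 5) (nat_lit 25) (nat_lit 4) (nat_lit 23) (nat_lit 4) (nat_lit 369) (nat_lit 288) (nat_lit 243))))))) (XT.nd (nat_lit 936) (nat_lit 456) (nat_lit 0) (XT.nd (nat_lit 468) (nat_lit 228) (nat_lit 0) (XT.nd (nat_lit 234) (nat_lit 228) (nat_lit 0) (XT.nd (nat_lit 78) (nat_lit 76) (nat_lit 0) (XT.lf (nat_lit 0) (nat_lit 177746531) (nat_lit 152) (nat_lit 18008407607) (nat_lit 76) (nat_lit 15866806907) (nat_lit 21) (nat_lit 5) (nat_lit 23) (nat_lit 5) (nat_lit 22) (nat_lit 4) (nat_lit 370) (nat_lit 288) (nat_lit 242)) (XT.nd (nat_lit 78) (nat_lit 0) (nat_lit 0) (XT.lf (nat_lit 0) (nat_lit 770928447) (nat_lit 76) (nat_lit 8708811708) (nat_lit 152) (nat_lit 25966331043) (nat_lit 20) (nat_lit 5) (nat_lit 21) (nat_lit 5) (nat_lit 22)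 (nat_lit 4) (nat_lit 371) (nat_lit 288) (nat_lit 241)) (XT.lf (nat_lit 0) (nat_lit 19359627449) (nat_lit 152) (nat_lit 16216997522) (nat_lit 0) (nat_lit 1328834776) (nat_lit 20) (nat_lit 5) (nat_lit 22) (nat_lit 4) (nat_lit 20) (nat_lit 4) (nat_lit 372) (nat_lit 288) (nat_lit 240)))) (XT.nd (nat_lit 78) (nat_lit 152) (nat_lit 0) (XT.lf (nat_lit 0) (nat_lit 2976622300) (nat_lit 76) (nat_lit 26791147861) (nat_lit 76) (nat_lit 8669026121) (nat_lit 19) (nat_lit 4) (nat_lit 20) (nat_lit 5) (nat_lit 20) (nat_lit 4) (nat_lit 373) (nat_lit 288) (nat_lit 239)) (XT.nd (nat_lit 78) (nat_lit 76) (nat_lit 0) (XT.lf (nat_lit 0) (nat_lit 726894198) (nat_lit 152) (nat_lit 16733506580) (nat_lit 76) (nat_lit 22581477182) (nat_lit 18) (nat_lit 5) (nat_lit 20) (nat_lit 5) (nat_lit 19) (nat_lit 4) (nat_lit 374) (nat_lit 288) (nat_lit 238)) (XT.lf (nat_lit 0) (nat_lit 2748282452) (nat_lit 76) (nat_lit 7616359128)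 (nat_lit 152) (nat_lit 31361463214) (nat_lit 17) (nat_lit 5) (nat_lit 18) (nat_lit 5) (nat_lit 19) (nat_lit 4) (nat_lit 375) (nat_lit 288) (nat_lit 237))))) (XT.nd (nat_lit 234) (nat_lit 152) (nat_lit 0) (XT.nd (nat_lit 78) (nat_lit 76) (nat_lit 0) (XT.lf (nat_lit 0) (nat_lit 20609238710) (nat_lit 152) (nat_lit 20108082659) (nat_lit 0) (nat_lit 2773478090) (nat_lit 17) (nat_lit 5) (nat_lit 19) (nat_lit 4) (nat_lit 17) (nat_lit 4) (nat_lit 376) (nat_lit 288) (nat_lit 236)) (XT.nd (nat_lit 78) (nat_lit 76) (nat_lit 0) (XT.lf (nat_lit 0) (nat_lit 31371372773) (nat_lit 152) (nat_lit 509538024) (nat_lit 0) (nat_lit 13462663950) (nat_lit 17) (nat_lit 5) (nat_lit 19) (nat_lit 4) (nat_lit 17) (nat_lit 4) (nat_lit 377) (nat_lit 288) (nat_lit 235)) (XT.lf (nat_lit 0) (nat_lit 20334486946) (nat_lit 76) (nat_lit 22464435376) (nat_lit 76) (nat_lit 4486252075) (nat_lit 16) (nat_lit 4) (nat_lit 17) (nat_lit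 5) (nat_lit 17) (nat_lit 4) (nat_lit 378) (nat_lit 288) (nat_lit 234)))) (XT.nd (nat_lit 78) (nat_lit 76) (nat_lit 0) (XT.lf (nat_lit 0) (nat_lit 5305677214) (nat_lit 152) (nat_lit 7273824725) (nat_lit 76) (nat_lit 36744623024) (nat_lit 15) (nat_lit 5) (nat_lit 17) (nat_lit 5) (nat_lit 16) (nat_lit 4) (nat_lit 379) (nat_lit 288) (nat_lit 233)) (XT.nd (nat_lit 78) (nat_lit 0) (nat_lit 0) (XT.lf (nat_lit 0) (nat_lit 13481999108) (nat_lit 76) (nat_lit 2079263935) (nat_lit 152) (nat_lit 35900426466) (nat_lit 14) (nat_lit 5) (nat_lit 15) (nat_lit 5) (nat_lit 16) (nat_lit 4) (nat_lit 380) (nat_lit 288) (nat_lit 232)) (XT.lf (nat_lit 0) (nat_lit 26428956151) (nat_lit 152) (nat_lit 18483476777) (nat_lit 0) (nat_lit 8790723590) (nat_lit 14) (nat_lit 5) (nat_lit 16) (nat_lit 4) (nat_lit 14) (nat_lit 4) (nat_lit 381) (nat_lit 288) (nat_lit 231)))))) (XT.nd (nat_lit 468) (nat_lit 228) (nat_lit 0) (XT.nd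 (nat_lit 234) (nat_lit 76) (nat_lit 0) (XT.nd (nat_lit 78) (nat_lit 76) (nat_lit 0) (XT.lf (nat_lit 0) (nat_lit 1888681858) (nat_lit 76) (nat_lit 35931174427) (nat_lit 76) (nat_lit 18237449803) (nat_lit 13) (nat_lit 4) (nat_lit 14) (nat_lit 5) (nat_lit 14) (nat_lit 4) (nat_lit 382) (nat_lit 288) (nat_lit 230)) (XT.nd (nat_lit 78) (nat_lit 76) (nat_lit 0) (XT.lf (nat_lit 0) (nat_lit 23554253419) (nat_lit 76) (nat_lit 26358753234) (nat_lit 76) (nat_lit 8612179025) (nat_lit 13) (nat_lit 4) (nat_lit 14) (nat_lit 5) (nat_lit 14) (nat_lit 4) (nat_lit 383) (nat_lit 288) (nat_lit 229)) (XT.lf (nat_lit 0) (nat_lit 1409824138) (nat_lit 152) (nat_lit 14934964145) (nat_lit 76) (nat_lit 44772904571) (nat_lit 12) (nat_lit 5) (nat_lit 14) (nat_lit 5) (nat_lit 13) (nat_lit 4) (nat_lit 384) (nat_lit 288) (nat_lit 228)))) (XT.nd (nat_lit 78) (nat_lit 0) (nat_lit 0) (XT.lf (nat_lit 0) (nat_lit 6031435648) (nat_lit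 76) (nat_lit 5730278107) (nat_lit 152) (nat_lit 52075349834) (nat_lit 11) (nat_lit 5) (nat_lit 12) (nat_lit 5) (nat_lit 13) (nat_lit 4) (nat_lit 385) (nat_lit 288) (nat_lit 227)) (XT.nd (nat_lit 78) (nat_lit 0) (nat_lit 0) (XT.lf (nat_lit 0) (nat_lit 22786875804) (nat_lit 152) (nat_lit 38483398322) (nat_lit 0) (nat_lit 5417461498) (nat_lit 11) (nat_lit 5) (nat_lit 13) (nat_lit 4) (nat_lit 11) (nat_lit 4) (nat_lit 386) (nat_lit 288) (nat_lit 226)) (XT.lf (nat_lit 0) (nat_lit 34371953598) (nat_lit 152) (nat_lit 18348404686) (nat_lit 0) (nat_lit 16960326201) (nat_lit 11) (nat_lit 5) (nat_lit 13) (nat_lit 4) (nat_lit 11) (nat_lit 4) (nat_lit 387) (nat_lit 288) (nat_lit 225))))) (XT.nd (nat_lit 234) (nat_lit 152) (nat_lit 0) (XT.nd (nat_lit 78) (nat_lit 0) (nat_lit 0) (XT.lf (nat_lit 0) (nat_lit 2756158952) (nat_lit 76) (nat_lit 43759782650) (nat_lit 76) (nat_lit 26307952309) (nat_lit 10) (nat_lit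 4) (nat_lit 11) (nat_lit 5) (nat_lit 11) (nat_lit 4) (nat_lit 388) (nat_lit 288) (nat_lit 224)) (XT.nd (nat_lit 78) (nat_lit 0) (nat_lit 0) (XT.lf (nat_lit 0) (nat_lit 25211023614) (nat_lit 76) (nat_lit 34199529504) (nat_lit 76) (nat_lit 16709410646) (nat_lit 10) (nat_lit 4) (nat_lit 11) (nat_lit 5) (nat_lit 11) (nat_lit 4) (nat_lit 389) (nat_lit 288) (nat_lit 223)) (XT.lf (nat_lit 0) (nat_lit 48704484032) (nat_lit 76) (nat_lit 24202119250) (nat_lit 76) (nat_lit 6675535136) (nat_lit 10) (nat_lit 4) (nat_lit 11) (nat_lit 5) (nat_lit 11) (nat_lit 4) (nat_lit 390) (nat_lit 288) (nat_lit 222)))) (XT.nd (nat_lit 78) (nat_lit 76) (nat_lit 0) (XT.lf (nat_lit 0) (nat_lit 3743069966) (nat_lit 152) (nat_lit 9962880897) (nat_lit 76) (nat_lit 69511609383) (nat_lit 9) (nat_lit 5) (nat_lit 11) (nat_lit 5) (nat_lit 10) (nat_lit 4) (nat_lit 391) (nat_lit 288) (nat_lit 221)) (XT.nd (nat_lit 78) (nat_lit 0) (nat_lit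 0) (XT.lf (nat_lit 0) (nat_lit 12089038392) (nat_lit 76) (nat_lit 2533339135) (nat_lit 152) (nat_lit 72408060074) (nat_lit 8) (nat_lit 5) (nat_lit 9) (nat_lit 5) (nat_lit 10) (nat_lit 4) (nat_lit 392) (nat_lit 288) (nat_lit 220)) (XT.lf (nat_lit 0) (nat_lit 26198801135) (nat_lit 152) (nat_lit 55744276843) (nat_lit 0) (nat_lit 9086288467) (nat_lit 8) (nat_lit 5) (nat_lit 10) (nat_lit 4) (nat_lit 8) (nat_lit 4) (nat_lit 393) (nat_lit 288) (nat_lit 219))))))))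
noncomputable def xc29 : XT := (XT.nd (nat_lit 42900) (nat_lit 0) (nat_lit 1444) (XT.nd (nat_lit 41964) (nat_lit 0) (nat_lit 4940) (XT.nd (nat_lit 41496) (nat_lit 0) (nat_lit 8892) (XT.nd (nat_lit 41262) (nat_lit 0) (nat_lit 11704) (XT.nd (nat_lit 78) (nat_lit 76) (nat_lit 0) (XT.lf (nat_lit 0) (nat_lit 38342625329) (nat_lit 152) (nat_lit 35684974665) (nat_lit 0) (nat_lit 21200986393) (nat_lit 8) (nat_lit 5) (nat_lit 10) (nat_lit 4) (nat_lit 8) (nat_lit 4) (nat_lit 394) (nat_lit 288) (nat_lit 218)) (XT.nd (nat_lit 78) (nat_lit 76) (nat_lit 0) (XT.lf (nat_lit 0) (nat_lit 51058411971) (nat_lit 152) (nat_lit 14691380425) (nat_lit 0) (nat_lit 33889033732) (nat_lit 8) (nat_lit 5) (nat_lit 10) (nat_lit 4) (nat_lit 8) (nat_lit 4) (nat_lit 395) (nat_lit 288) (nat_lit 217)) (XT.lf (nat_lit 0) (nat_lit 7431506072) (nat_lit 76) (nat_lit 57016366853) (nat_lit 76) (nat_lit 39820570231) (nat_lit 7) (nat_lit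 4) (nat_lit 8) (nat_lit 5) (nat_lit 8) (nat_lit 4) (nat_lit 396) (nat_lit 288) (nat_lit 216)))) (XT.nd (nat_lit 78) (nat_lit 1444) (nat_lit 0) (XT.lf (nat_lit 0) (nat_lit 2582654535) (nat_lit 532) (nat_lit 686634301) (nat_lit 532) (nat_lit 686634301) (nat_lit 180) (nat_lit 4) (nat_lit 187) (nat_lit 5) (nat_lit 187) (nat_lit 4) (nat_lit 322) (nat_lit 289) (nat_lit 289)) (XT.nd (nat_lit 78) (nat_lit 912) (nat_lit 0) (XT.lf (nat_lit 0) (nat_lit 4774150708) (nat_lit 532) (nat_lit 533336154) (nat_lit 0) (nat_lit 2746570407) (nat_lit 173) (nat_lit 5) (nat_lit 180) (nat_lit 4) (nat_lit 173) (nat_lit 4) (nat_lit 323) (nat_lit 289) (nat_lit 288)) (XT.lf (nat_lit 0) (nat_lit 1786952923) (nat_lit 380) (nat_lit 1043373225) (nat_lit 456) (nat_lit 5375173964) (nat_lit 161) (nat_lit 5) (nat_lit 166) (nat_lit 5) (nat_lit 167) (nat_lit 4) (nat_lit 324) (nat_lit 289) (nat_lit 287))))) (XT.nd (nat_lit 234) (nat_lit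 1140) (nat_lit 0) (XT.nd (nat_lit 78) (nat_lit 1140) (nat_lit 0) (XT.lf (nat_lit 0) (nat_lit 706055036) (nat_lit 532) (nat_lit 4195527945) (nat_lit 76) (nat_lit 3464626521) (nat_lit 154) (nat_lit 5) (nat_lit 161) (nat_lit 5) (nat_lit 155) (nat_lit 4) (nat_lit 325) (nat_lit 289) (nat_lit 286)) (XT.nd (nat_lit 78) (nat_lit 760) (nat_lit 0) (XT.lf (nat_lit 0) (nat_lit 6612958013) (nat_lit 380) (nat_lit 255151944) (nat_lit 456) (nat_lit 1668725379) (nat_lit 149) (nat_lit 5) (nat_lit 154) (nat_lit 5) (nat_lit 155) (nat_lit 4) (nat_lit 326) (nat_lit 289) (nat_lit 285)) (XT.lf (nat_lit 0) (nat_lit 375495266) (nat_lit 304) (nat_lit 4089364533) (nat_lit 380) (nat_lit 4251923037) (nat_lit 139) (nat_lit 5) (nat_lit 143) (nat_lit 5) (nat_lit 144) (nat_lit 4) (nat_lit 327) (nat_lit 289) (nat_lit 284)))) (XT.nd (nat_lit 78) (nat_lit 684) (nat_lit 0) (XT.lf (nat_lit 0) (nat_lit 1849373837) (nat_lit 456) (nat_lit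 6134738717) (nat_lit 76) (nat_lit 922981116) (nat_lit 133) (nat_lit 5) (nat_lit 139) (nat_lit 5) (nat_lit 134) (nat_lit 4) (nat_lit 328) (nat_lit 289) (nat_lit 283)) (XT.nd (nat_lit 78) (nat_lit 380) (nat_lit 0) (XT.lf (nat_lit 0) (nat_lit 5186606094) (nat_lit 304) (nat_lit 2921863701) (nat_lit 380) (nat_lit 999061235) (nat_lit 129) (nat_lit 5) (nat_lit 133) (nat_lit 5) (nat_lit 134) (nat_lit 4) (nat_lit 329) (nat_lit 289) (nat_lit 282)) (XT.lf (nat_lit 0) (nat_lit 5186840040) (nat_lit 380) (nat_lit 1696222762) (nat_lit 76) (nat_lit 2435599412) (nat_lit 124) (nat_lit 5) (nat_lit 129) (nat_lit 5) (nat_lit 125) (nat_lit 4) (nat_lit 330) (nat_lit 289) (nat_lit 281)))))) (XT.nd (nat_lit 468) (nat_lit 1444) (nat_lit 0) (XT.nd (nat_lit 234) (nat_lit 1140) (nat_lit 0) (XT.nd (nat_lit 78) (nat_lit 684) (nat_lit 0) (XT.lf (nat_lit 0) (nat_lit 560006221) (nat_lit 304) (nat_lit 1467012891) (nat_lit 380)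 (nat_lit 7514089978) (nat_lit 115) (nat_lit 5) (nat_lit 119) (nat_lit 5) (nat_lit 120) (nat_lit 5) (nat_lit 331) (nat_lit 289) (nat_lit 280)) (XT.nd (nat_lit 78) (nat_lit 380) (nat_lit 0) (XT.lf (nat_lit 0) (nat_lit 2842009922) (nat_lit 304) (nat_lit 5543536670) (nat_lit 380) (nat_lit 1388665121) (nat_lit 111) (nat_lit 5) (nat_lit 115) (nat_lit 5) (nat_lit 116) (nat_lit 4) (nat_lit 332) (nat_lit 289) (nat_lit 279)) (XT.lf (nat_lit 0) (nat_lit 4885605948) (nat_lit 380) (nat_lit 4892306533) (nat_lit 76) (nat_lit 241444012) (nat_lit 106) (nat_lit 5) (nat_lit 111) (nat_lit 5) (nat_lit 107) (nat_lit 4) (nat_lit 333) (nat_lit 289) (nat_lit 278)))) (XT.nd (nat_lit 78) (nat_lit 836) (nat_lit 0) (XT.lf (nat_lit 0) (nat_lit 1132327000) (nat_lit 304) (nat_lit 2884527561) (nat_lit 76) (nat_lit 6259621838) (nat_lit 102) (nat_lit 5) (nat_lit 106) (nat_lit 5) (nat_lit 103) (nat_lit 5) (nat_lit 334) (nat_lit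 289) (nat_lit 277)) (XT.nd (nat_lit 78) (nat_lit 532) (nat_lit 0) (XT.lf (nat_lit 0) (nat_lit 7562875253) (nat_lit 380) (nat_lit 908002052) (nat_lit 76) (nat_lit 2075392252) (nat_lit 98) (nat_lit 5) (nat_lit 103) (nat_lit 5) (nat_lit 99) (nat_lit 4) (nat_lit 335) (nat_lit 289) (nat_lit 276)) (XT.lf (nat_lit 0) (nat_lit 1046621351) (nat_lit 228) (nat_lit 2363473269) (nat_lit 304) (nat_lit 7418729029) (nat_lit 91) (nat_lit 5) (nat_lit 94) (nat_lit 5) (nat_lit 95) (nat_lit 5) (nat_lit 336) (nat_lit 289) (nat_lit 275))))) (XT.nd (nat_lit 234) (nat_lit 684) (nat_lit 0) (XT.nd (nat_lit 78) (nat_lit 532) (nat_lit 0) (XT.lf (nat_lit 0) (nat_lit 2971153133) (nat_lit 228) (nat_lit 7085701797) (nat_lit 304) (nat_lit 1067960324) (nat_lit 88) (nat_lit 5) (nat_lit 91) (nat_lit 5) (nat_lit 92) (nat_lit 4) (nat_lit 337) (nat_lit 289) (nat_lit 274)) (XT.nd (nat_lit 78) (nat_lit 228) (nat_lit 0) (XT.lf (nat_lit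 0) (nat_lit 4828620494) (nat_lit 228) (nat_lit 637417432) (nat_lit 304) (nat_lit 5968755043) (nat_lit 84) (nat_lit 5) (nat_lit 87) (nat_lit 5) (nat_lit 88) (nat_lit 5) (nat_lit 338) (nat_lit 289) (nat_lit 273)) (XT.lf (nat_lit 0) (nat_lit 549916871) (nat_lit 228) (nat_lit 5150084717) (nat_lit 76) (nat_lit 6059365155) (nat_lit 81) (nat_lit 5) (nat_lit 84) (nat_lit 5) (nat_lit 82) (nat_lit 5) (nat_lit 339) (nat_lit 289) (nat_lit 272)))) (XT.nd (nat_lit 78) (nat_lit 456) (nat_lit 0) (XT.lf (nat_lit 0) (nat_lit 7250014322) (nat_lit 304) (nat_lit 3800479419) (nat_lit 76) (nat_lit 1048579228) (nat_lit 78) (nat_lit 5) (nat_lit 82) (nat_lit 5) (nat_lit 79) (nat_lit 4) (nat_lit 340) (nat_lit 289) (nat_lit 271)) (XT.nd (nat_lit 78) (nat_lit 228) (nat_lit 0) (XT.lf (nat_lit 0) (nat_lit 1817488047) (nat_lit 228) (nat_lit 2571047406) (nat_lit 76) (nat_lit 8066027851) (nat_lit 75) (nat_lit 5) (nat_lit 78)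 (nat_lit 5) (nat_lit 76) (nat_lit 5) (nat_lit 341) (nat_lit 289) (nat_lit 270)) (XT.lf (nat_lit 0) (nat_lit 8714135242) (nat_lit 304) (nat_lit 1477253586) (nat_lit 76) (nat_lit 2635126612) (nat_lit 72) (nat_lit 5) (nat_lit 76) (nat_lit 5) (nat_lit 73) (nat_lit 4) (nat_lit 342) (nat_lit 289) (nat_lit 269))))))) (XT.nd (nat_lit 936) (nat_lit 1216) (nat_lit 0) (XT.nd (nat_lit 468) (nat_lit 912) (nat_lit 0) (XT.nd (nat_lit 234) (nat_lit 532) (nat_lit 0) (XT.nd (nat_lit 78) (nat_lit 608) (nat_lit 0) (XT.lf (nat_lit 0) (nat_lit 2704431285) (nat_lit 228) (nat_lit 533236828) (nat_lit 76) (nat_lit 9978064116) (nat_lit 69) (nat_lit 5) (nat_lit 72) (nat_lit 5) (nat_lit 70) (nat_lit 5) (nat_lit 343) (nat_lit 289) (nat_lit 268)) (XT.nd (nat_lit 78) (nat_lit 228) (nat_lit 0) (XT.lf (nat_lit 0) (nat_lit 236005140) (nat_lit 152) (nat_lit 9562577164) (nat_lit 228) (nat_lit 3823994246) (nat_lit 64) (nat_lit 5)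 (nat_lit 66) (nat_lit 5) (nat_lit 67) (nat_lit 4) (nat_lit 344) (nat_lit 289) (nat_lit 267)) (XT.lf (nat_lit 0) (nat_lit 828736187) (nat_lit 152) (nat_lit 2325342566) (nat_lit 228) (nat_lit 10894230275) (nat_lit 61) (nat_lit 5) (nat_lit 63) (nat_lit 5) (nat_lit 64) (nat_lit 5) (nat_lit 345) (nat_lit 289) (nat_lit 266)))) (XT.nd (nat_lit 78) (nat_lit 380) (nat_lit 0) (XT.lf (nat_lit 0) (nat_lit 1184261680) (nat_lit 152) (nat_lit 9253372263) (nat_lit 228) (nat_lit 4055518940) (nat_lit 59) (nat_lit 5) (nat_lit 61) (nat_lit 5) (nat_lit 62) (nat_lit 4) (nat_lit 346) (nat_lit 289) (nat_lit 265)) (XT.nd (nat_lit 78) (nat_lit 152) (nat_lit 0) (XT.lf (nat_lit 0) (nat_lit 1312681423) (nat_lit 152) (nat_lit 1762241378) (nat_lit 228) (nat_lit 11884119822) (nat_lit 56) (nat_lit 5) (nat_lit 58) (nat_lit 5) (nat_lit 59) (nat_lit 5) (nat_lit 347) (nat_lit 289) (nat_lit 264)) (XT.lf (nat_lit 0) (nat_lit 1138750100)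 (nat_lit 152) (nat_lit 9389191529) (nat_lit 228) (nat_lit 4917609614) (nat_lit 54) (nat_lit 5) (nat_lit 56) (nat_lit 5) (nat_lit 57) (nat_lit 4) (nat_lit 348) (nat_lit 289) (nat_lit 263))))) (XT.nd (nat_lit 234) (nat_lit 456) (nat_lit 0) (XT.nd (nat_lit 78) (nat_lit 228) (nat_lit 0) (XT.lf (nat_lit 0) (nat_lit 690484166) (nat_lit 152) (nat_lit 1670811863) (nat_lit 228) (nat_lit 13594097367) (nat_lit 51) (nat_lit 5) (nat_lit 53) (nat_lit 5) (nat_lit 54) (nat_lit 5) (nat_lit 349) (nat_lit 289) (nat_lit 262)) (XT.nd (nat_lit 78) (nat_lit 228) (nat_lit 0) (XT.lf (nat_lit 0) (nat_lit 9962201039) (nat_lit 228) (nat_lit 134992575) (nat_lit 76) (nat_lit 6390304307) (nat_lit 51) (nat_lit 5) (nat_lit 54) (nat_lit 5) (nat_lit 52) (nat_lit 4) (nat_lit 350) (nat_lit 289) (nat_lit 261)) (XT.lf (nat_lit 0) (nat_lit 903700833) (nat_lit 228) (nat_lit 1271208885) (nat_lit 76) (nat_lit 14870333393) (nat_lit 48)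 (nat_lit 5) (nat_lit 51) (nat_lit 5) (nat_lit 49) (nat_lit 5) (nat_lit 351) (nat_lit 289) (nat_lit 260)))) (XT.nd (nat_lit 78) (nat_lit 304) (nat_lit 0) (XT.lf (nat_lit 0) (nat_lit 8632860308) (nat_lit 228) (nat_lit 2869879159) (nat_lit 76) (nat_lit 6124308785) (nat_lit 46) (nat_lit 5) (nat_lit 49) (nat_lit 5) (nat_lit 47) (nat_lit 4) (nat_lit 352) (nat_lit 289) (nat_lit 259)) (XT.nd (nat_lit 78) (nat_lit 228) (nat_lit 0) (XT.lf (nat_lit 0) (nat_lit 13364126716) (nat_lit 76) (nat_lit 3409795732) (nat_lit 152) (nat_lit 1463277720) (nat_lit 45) (nat_lit 5) (nat_lit 46) (nat_lit 5) (nat_lit 47) (nat_lit 4) (nat_lit 353) (nat_lit 289) (nat_lit 258)) (XT.lf (nat_lit 0) (nat_lit 6373452082) (nat_lit 228) (nat_lit 7416615264) (nat_lit 76) (nat_lit 5084301636) (nat_lit 42) (nat_lit 5) (nat_lit 45) (nat_lit 5) (nat_lit 43) (nat_lit 4) (nat_lit 354) (nat_lit 289) (nat_lit 257)))))) (XT.nd (nat_lit 468)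 (nat_lit 532) (nat_lit 0) (XT.nd (nat_lit 234) (nat_lit 304) (nat_lit 0) (XT.nd (nat_lit 78) (nat_lit 304) (nat_lit 0) (XT.lf (nat_lit 0) (nat_lit 9050037597) (nat_lit 76) (nat_lit 5561887275) (nat_lit 152) (nat_lit 4929849133) (nat_lit 41) (nat_lit 5) (nat_lit 42) (nat_lit 5) (nat_lit 43) (nat_lit 4) (nat_lit 355) (nat_lit 289) (nat_lit 256)) (XT.nd (nat_lit 78) (nat_lit 76) (nat_lit 0) (XT.lf (nat_lit 0) (nat_lit 2997392678) (nat_lit 228) (nat_lit 14165154436) (nat_lit 76) (nat_lit 3078051078) (nat_lit 38) (nat_lit 5) (nat_lit 41) (nat_lit 5) (nat_lit 39) (nat_lit 4) (nat_lit 356) (nat_lit 289) (nat_lit 255)) (XT.lf (nat_lit 0) (nat_lit 2425922162) (nat_lit 76) (nat_lit 8856094758) (nat_lit 152) (nat_lit 9689008441) (nat_lit 37) (nat_lit 5) (nat_lit 38) (nat_lit 5) (nat_lit 39) (nat_lit 4) (nat_lit 357) (nat_lit 289) (nat_lit 254)))) (XT.nd (nat_lit 78) (nat_lit 304) (nat_lit 0) (XT.lf (nat_lit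 0) (nat_lit 19915700320) (nat_lit 76) (nat_lit 88332869) (nat_lit 152) (nat_lit 1733260540) (nat_lit 37) (nat_lit 5) (nat_lit 38) (nat_lit 5) (nat_lit 39) (nat_lit 4) (nat_lit 358) (nat_lit 289) (nat_lit 253)) (XT.nd (nat_lit 78) (nat_lit 76) (nat_lit 0) (XT.lf (nat_lit 0) (nat_lit 6613443619) (nat_lit 228) (nat_lit 6864146601) (nat_lit 76) (nat_lit 9058719083) (nat_lit 34) (nat_lit 5) (nat_lit 37) (nat_lit 5) (nat_lit 35) (nat_lit 4) (nat_lit 359) (nat_lit 289) (nat_lit 252)) (XT.lf (nat_lit 0) (nat_lit 10679110349) (nat_lit 76) (nat_lit 4669995334) (nat_lit 152) (nat_lit 8025443981) (nat_lit 33) (nat_lit 5) (nat_lit 34) (nat_lit 5) (nat_lit 35) (nat_lit 4) (nat_lit 360) (nat_lit 289) (nat_lit 251))))) (XT.nd (nat_lit 234) (nat_lit 228) (nat_lit 0) (XT.nd (nat_lit 78) (nat_lit 76) (nat_lit 0) (XT.lf (nat_lit 0) (nat_lit 311112075) (nat_lit 228) (nat_lit 19427332859) (nat_lit 76) (nat_lit 4514707984)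 (nat_lit 30) (nat_lit 5) (nat_lit 33) (nat_lit 5) (nat_lit 31) (nat_lit 4) (nat_lit 361) (nat_lit 289) (nat_lit 250)) (XT.nd (nat_lit 78) (nat_lit 76) (nat_lit 0) (XT.lf (nat_lit 0) (nat_lit 8968696874) (nat_lit 228) (nat_lit 2019872514) (nat_lit 76) (nat_lit 14182639142) (nat_lit 30) (nat_lit 5) (nat_lit 33) (nat_lit 5) (nat_lit 31) (nat_lit 4) (nat_lit 362) (nat_lit 289) (nat_lit 249)) (XT.lf (nat_lit 0) (nat_lit 16380348555) (nat_lit 76) (nat_lit 1731050134) (nat_lit 152) (nat_lit 8022211930) (nat_lit 29) (nat_lit 5) (nat_lit 30) (nat_lit 5) (nat_lit 31) (nat_lit 4) (nat_lit 363) (nat_lit 289) (nat_lit 248)))) (XT.nd (nat_lit 78) (nat_lit 76) (nat_lit 0) (XT.lf (nat_lit 0) (nat_lit 633320833) (nat_lit 152) (nat_lit 18653835304) (nat_lit 76) (nat_lit 7854504621) (nat_lit 27) (nat_lit 5) (nat_lit 29) (nat_lit 5) (nat_lit 28) (nat_lit 4) (nat_lit 364) (nat_lit 289) (nat_lit 247)) (XT.nd (nat_lit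 78) (nat_lit 76) (nat_lit 0) (XT.lf (nat_lit 0) (nat_lit 9575308895) (nat_lit 152) (nat_lit 642024976) (nat_lit 76) (nat_lit 17979818528) (nat_lit 27) (nat_lit 5) (nat_lit 29) (nat_lit 5) (nat_lit 28) (nat_lit 4) (nat_lit 365) (nat_lit 289) (nat_lit 246)) (XT.lf (nat_lit 0) (nat_lit 18449176867) (nat_lit 76) (nat_lit 596545995) (nat_lit 152) (nat_lit 10257265047) (nat_lit 26) (nat_lit 5) (nat_lit 27) (nat_lit 5) (nat_lit 28) (nat_lit 4) (nat_lit 366) (nat_lit 289) (nat_lit 245))))))))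
noncomputable def xc30 : XT := (XT.nd (nat_lit 1872) (nat_lit 152) (nat_lit 0) (XT.nd (nat_lit 936) (nat_lit 456) (nat_lit 0) (XT.nd (nat_lit 468) (nat_lit 304) (nat_lit 0) (XT.nd (nat_lit 234) (nat_lit 228) (nat_lit 0) (XT.nd (nat_lit 78) (nat_lit 152) (nat_lit 0) (XT.lf (nat_lit 0) (nat_lit 7929718971) (nat_lit 76) (nat_lit 21140274369) (nat_lit 76) (nat_lit 1391720432) (nat_lit 25) (nat_lit 4) (nat_lit 26) (nat_lit 5) (nat_lit 26) (nat_lit 4) (nat_lit 367) (nat_lit 289) (nat_lit 244)) (XT.nd (nat_lit 78) (nat_lit 76) (nat_lit 0) (XT.lf (nat_lit 0) (nat_lit 7789433978) (nat_lit 152) (nat_lit 4053774583) (nat_lit 76) (nat_lit 19832087534) (nat_lit 24) (nat_lit 5) (nat_lit 26) (nat_lit 5) (nat_lit 25) (nat_lit 4) (nat_lit 368) (nat_lit 289) (nat_lit 243)) (XT.lf (nat_lit 0) (nat_lit 15469744457) (nat_lit 76) (nat_lit 1992439517) (nat_lit 152) (nat_lit 15485128173) (nat_lit 23) (nat_lit 5) (nat_lit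 24) (nat_lit 5) (nat_lit 25) (nat_lit 4) (nat_lit 369) (nat_lit 289) (nat_lit 242)))) (XT.nd (nat_lit 78) (nat_lit 152) (nat_lit 0) (XT.lf (nat_lit 0) (nat_lit 1558717320) (nat_lit 76) (nat_lit 26111486127) (nat_lit 76) (nat_lit 6611183850) (nat_lit 22) (nat_lit 4) (nat_lit 23) (nat_lit 5) (nat_lit 23) (nat_lit 4) (nat_lit 370) (nat_lit 289) (nat_lit 241)) (XT.nd (nat_lit 78) (nat_lit 76) (nat_lit 0) (XT.lf (nat_lit 0) (nat_lit 2771411468) (nat_lit 152) (nat_lit 13973109381) (nat_lit 76) (nat_lit 18933338586) (nat_lit 21) (nat_lit 5) (nat_lit 23) (nat_lit 5) (nat_lit 22) (nat_lit 4) (nat_lit 371) (nat_lit 289) (nat_lit 240)) (XT.lf (nat_lit 0) (nat_lit 5603712092) (nat_lit 76) (nat_lit 6857793174) (nat_lit 152) (nat_lit 24681439640) (nat_lit 20) (nat_lit 5) (nat_lit 21) (nat_lit 5) (nat_lit 22) (nat_lit 4) (nat_lit 372) (nat_lit 289) (nat_lit 239))))) (XT.nd (nat_lit 234) (nat_lit 152) (nat_lit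 0) (XT.nd (nat_lit 78) (nat_lit 152) (nat_lit 0) (XT.lf (nat_lit 0) (nat_lit 22736901153) (nat_lit 152) (nat_lit 12411001464) (nat_lit 0) (nat_lit 3530364197) (nat_lit 20) (nat_lit 5) (nat_lit 22) (nat_lit 4) (nat_lit 20) (nat_lit 4) (nat_lit 373) (nat_lit 289) (nat_lit 238)) (XT.nd (nat_lit 78) (nat_lit 76) (nat_lit 0) (XT.lf (nat_lit 0) (nat_lit 7609958387) (nat_lit 76) (nat_lit 25983872211) (nat_lit 76) (nat_lit 6694497101) (nat_lit 19) (nat_lit 4) (nat_lit 20) (nat_lit 5) (nat_lit 20) (nat_lit 4) (nat_lit 374) (nat_lit 289) (nat_lit 237)) (XT.lf (nat_lit 0) (nat_lit 3011802676) (nat_lit 152) (nat_lit 13254309157) (nat_lit 76) (nat_lit 25710238304) (nat_lit 18) (nat_lit 5) (nat_lit 20) (nat_lit 5) (nat_lit 19) (nat_lit 4) (nat_lit 375) (nat_lit 289) (nat_lit 236)))) (XT.nd (nat_lit 78) (nat_lit 76) (nat_lit 0) (XT.lf (nat_lit 0) (nat_lit 7077855701) (nat_lit 76) (nat_lit 5986804860) (nat_lit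 152) (nat_lit 30682138907) (nat_lit 17) (nat_lit 5) (nat_lit 18) (nat_lit 5) (nat_lit 19) (nat_lit 4) (nat_lit 376) (nat_lit 289) (nat_lit 235)) (XT.nd (nat_lit 78) (nat_lit 76) (nat_lit 0) (XT.lf (nat_lit 0) (nat_lit 23735997626) (nat_lit 152) (nat_lit 17076872730) (nat_lit 0) (nat_lit 4789430681) (nat_lit 17) (nat_lit 5) (nat_lit 19) (nat_lit 4) (nat_lit 17) (nat_lit 4) (nat_lit 377) (nat_lit 289) (nat_lit 234)) (XT.lf (nat_lit 0) (nat_lit 3375242557) (nat_lit 76) (nat_lit 31593617064) (nat_lit 76) (nat_lit 12580883950) (nat_lit 16) (nat_lit 4) (nat_lit 17) (nat_lit 5) (nat_lit 17) (nat_lit 4) (nat_lit 378) (nat_lit 289) (nat_lit 233)))))) (XT.nd (nat_lit 468) (nat_lit 228) (nat_lit 0) (XT.nd (nat_lit 234) (nat_lit 76) (nat_lit 0) (XT.nd (nat_lit 78) (nat_lit 152) (nat_lit 0) (XT.lf (nat_lit 0) (nat_lit 25085406846) (nat_lit 76) (nat_lit 21790760121) (nat_lit 76) (nat_lit 2715011606) (nat_lit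 16) (nat_lit 4) (nat_lit 17) (nat_lit 5) (nat_lit 17) (nat_lit 4) (nat_lit 379) (nat_lit 289) (nat_lit 232)) (XT.nd (nat_lit 78) (nat_lit 76) (nat_lit 0) (XT.lf (nat_lit 0) (nat_lit 7434401688) (nat_lit 152) (nat_lit 4043927753) (nat_lit 76) (nat_lit 40255973182) (nat_lit 15) (nat_lit 5) (nat_lit 17) (nat_lit 5) (nat_lit 16) (nat_lit 4) (nat_lit 380) (nat_lit 289) (nat_lit 231)) (XT.lf (nat_lit 0) (nat_lit 17646677787) (nat_lit 76) (nat_lit 500907332) (nat_lit 152) (nat_lit 35832821698) (nat_lit 14) (nat_lit 5) (nat_lit 15) (nat_lit 5) (nat_lit 16) (nat_lit 4) (nat_lit 381) (nat_lit 289) (nat_lit 230)))) (XT.nd (nat_lit 78) (nat_lit 76) (nat_lit 0) (XT.lf (nat_lit 0) (nat_lit 29487956731) (nat_lit 152) (nat_lit 16046913089) (nat_lit 0) (nat_lit 10801204227) (nat_lit 14) (nat_lit 5) (nat_lit 16) (nat_lit 4) (nat_lit 14) (nat_lit 4) (nat_lit 382) (nat_lit 289) (nat_lit 229)) (XT.nd (nat_lit 78)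 (nat_lit 0) (nat_lit 0) (XT.lf (nat_lit 0) (nat_lit 5247518612) (nat_lit 76) (nat_lit 36149522087) (nat_lit 76) (nat_lit 17412436647) (nat_lit 13) (nat_lit 4) (nat_lit 14) (nat_lit 5) (nat_lit 14) (nat_lit 4) (nat_lit 383) (nat_lit 289) (nat_lit 228)) (XT.lf (nat_lit 0) (nat_lit 27840921005) (nat_lit 76) (nat_lit 26173632742) (nat_lit 76) (nat_lit 7388611170) (nat_lit 13) (nat_lit 4) (nat_lit 14) (nat_lit 5) (nat_lit 14) (nat_lit 4) (nat_lit 384) (nat_lit 289) (nat_lit 227))))) (XT.nd (nat_lit 234) (nat_lit 76) (nat_lit 0) (XT.nd (nat_lit 78) (nat_lit 76) (nat_lit 0) (XT.lf (nat_lit 0) (nat_lit 3024979972) (nat_lit 152) (nat_lit 12689965685) (nat_lit 76) (nat_lit 48412196531) (nat_lit 12) (nat_lit 5) (nat_lit 14) (nat_lit 5) (nat_lit 13) (nat_lit 4) (nat_lit 385) (nat_lit 289) (nat_lit 226)) (XT.nd (nat_lit 78) (nat_lit 0) (nat_lit 0) (XT.lf (nat_lit 0) (nat_lit 9238996280) (nat_lit 76) (nat_lit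 4609846475) (nat_lit 152) (nat_lit 53135011887) (nat_lit 11) (nat_lit 5) (nat_lit 12) (nat_lit 5) (nat_lit 13) (nat_lit 4) (nat_lit 386) (nat_lit 289) (nat_lit 225)) (XT.lf (nat_lit 0) (nat_lit 25366760292) (nat_lit 152) (nat_lit 37609923899) (nat_lit 0) (nat_lit 7002135491) (nat_lit 11) (nat_lit 5) (nat_lit 13) (nat_lit 4) (nat_lit 11) (nat_lit 4) (nat_lit 387) (nat_lit 289) (nat_lit 224)))) (XT.nd (nat_lit 78) (nat_lit 76) (nat_lit 0) (XT.lf (nat_lit 0) (nat_lit 37462494799) (nat_lit 152) (nat_lit 16601401741) (nat_lit 0) (nat_lit 19059581480) (nat_lit 11) (nat_lit 5) (nat_lit 13) (nat_lit 4) (nat_lit 11) (nat_lit 4) (nat_lit 388) (nat_lit 289) (nat_lit 223)) (XT.nd (nat_lit 78) (nat_lit 0) (nat_lit 0) (XT.lf (nat_lit 0) (nat_lit 5482014924) (nat_lit 76) (nat_lit 44691214537) (nat_lit 76) (nat_lit 26251835962) (nat_lit 10) (nat_lit 4) (nat_lit 11) (nat_lit 5) (nat_lit 11) (nat_lit 4) (nat_lit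 389) (nat_lit 289) (nat_lit 222)) (XT.lf (nat_lit 0) (nat_lit 28936382437) (nat_lit 76) (nat_lit 34712784793) (nat_lit 76) (nat_lit 16238677404) (nat_lit 10) (nat_lit 4) (nat_lit 11) (nat_lit 5) (nat_lit 11) (nat_lit 4) (nat_lit 390) (nat_lit 289) (nat_lit 221))))))) (XT.nd (nat_lit 41808) (nat_lit 0) (nat_lit 6308) (XT.nd (nat_lit 41340) (nat_lit 0) (nat_lit 11096) (XT.nd (nat_lit 234) (nat_lit 0) (nat_lit 0) (XT.nd (nat_lit 78) (nat_lit 152) (nat_lit 0) (XT.lf (nat_lit 0) (nat_lit 53487144083) (nat_lit 76) (nat_lit 24272490750) (nat_lit 76) (nat_lit 5765308299) (nat_lit 10) (nat_lit 4) (nat_lit 11) (nat_lit 5) (nat_lit 11) (nat_lit 4) (nat_lit 391) (nat_lit 289) (nat_lit 220)) (XT.nd (nat_lit 78) (nat_lit 76) (nat_lit 0) (XT.lf (nat_lit 0) (nat_lit 5091869753) (nat_lit 152) (nat_lit 8202186909) (nat_lit 76) (nat_lit 74049466403) (nat_lit 9) (nat_lit 5) (nat_lit 11) (nat_lit 5) (nat_lit 10)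 (nat_lit 4) (nat_lit 392) (nat_lit 289) (nat_lit 219)) (XT.lf (nat_lit 0) (nat_lit 14887579206) (nat_lit 76) (nat_lit 1593337922) (nat_lit 152) (nat_lit 74867157063) (nat_lit 8) (nat_lit 5) (nat_lit 9) (nat_lit 5) (nat_lit 10) (nat_lit 4) (nat_lit 393) (nat_lit 289) (nat_lit 218)))) (XT.nd (nat_lit 78) (nat_lit 0) (nat_lit 0) (XT.lf (nat_lit 0) (nat_lit 28592240421) (nat_lit 152) (nat_lit 56419375716) (nat_lit 0) (nat_lit 10536653968) (nat_lit 8) (nat_lit 5) (nat_lit 10) (nat_lit 4) (nat_lit 8) (nat_lit 4) (nat_lit 394) (nat_lit 289) (nat_lit 217)) (XT.nd (nat_lit 78) (nat_lit 0) (nat_lit 0) (XT.lf (nat_lit 0) (nat_lit 41291660623) (nat_lit 152) (nat_lit 35457685332) (nat_lit 0) (nat_lit 23209655787) (nat_lit 8) (nat_lit 5) (nat_lit 10) (nat_lit 4) (nat_lit 8) (nat_lit 4) (nat_lit 395) (nat_lit 289) (nat_lit 216)) (XT.lf (nat_lit 0) (nat_lit 54594098310) (nat_lit 152) (nat_lit 13510198908) (nat_lit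 0) (nat_lit 36486933109) (nat_lit 8) (nat_lit 5) (nat_lit 10) (nat_lit 4) (nat_lit 8) (nat_lit 4) (nat_lit 396) (nat_lit 289) (nat_lit 215))))) (XT.nd (nat_lit 234) (nat_lit 1900) (nat_lit 0) (XT.nd (nat_lit 78) (nat_lit 1140) (nat_lit 0) (XT.lf (nat_lit 0) (nat_lit 409195505) (nat_lit 532) (nat_lit 1707991727) (nat_lit 532) (nat_lit 1707991727) (nat_lit 194) (nat_lit 4) (nat_lit 201) (nat_lit 5) (nat_lit 201) (nat_lit 4) (nat_lit 320) (nat_lit 290) (nat_lit 290)) (XT.nd (nat_lit 78) (nat_lit 608) (nat_lit 0) (XT.lf (nat_lit 0) (nat_lit 2534585101) (nat_lit 532) (nat_lit 4902313038) (nat_lit 0) (nat_lit 341757007) (nat_lit 187) (nat_lit 5) (nat_lit 194) (nat_lit 4) (nat_lit 187) (nat_lit 4) (nat_lit 321) (nat_lit 290) (nat_lit 289)) (XT.lf (nat_lit 0) (nat_lit 670687966) (nat_lit 608) (nat_lit 2919739232) (nat_lit 76) (nat_lit 4325238296) (nat_lit 179) (nat_lit 5) (nat_lit 187) (nat_lit 5) (nat_lit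 180) (nat_lit 4) (nat_lit 322) (nat_lit 290) (nat_lit 288)))) (XT.nd (nat_lit 78) (nat_lit 1444) (nat_lit 0) (XT.lf (nat_lit 0) (nat_lit 6639874951) (nat_lit 532) (nat_lit 869907983) (nat_lit 0) (nat_lit 552306478) (nat_lit 173) (nat_lit 5) (nat_lit 180) (nat_lit 4) (nat_lit 173) (nat_lit 4) (nat_lit 323) (nat_lit 290) (nat_lit 287)) (XT.nd (nat_lit 78) (nat_lit 532) (nat_lit 0) (XT.lf (nat_lit 0) (nat_lit 1245127872) (nat_lit 380) (nat_lit 3272986141) (nat_lit 456) (nat_lit 3698953076) (nat_lit 161) (nat_lit 5) (nat_lit 166) (nat_lit 5) (nat_lit 167) (nat_lit 4) (nat_lit 324) (nat_lit 290) (nat_lit 286)) (XT.lf (nat_lit 0) (nat_lit 2198787791) (nat_lit 532) (nat_lit 4932716776) (nat_lit 76) (nat_lit 1250368239) (nat_lit 154) (nat_lit 5) (nat_lit 161) (nat_lit 5) (nat_lit 155) (nat_lit 4) (nat_lit 325) (nat_lit 290) (nat_lit 285)))))) (XT.nd (nat_lit 468) (nat_lit 2128) (nat_lit 0) (XT.nd (nat_lit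 234) (nat_lit 1064) (nat_lit 0) (XT.nd (nat_lit 78) (nat_lit 1216) (nat_lit 0) (XT.lf (nat_lit 0) (nat_lit 5699441532) (nat_lit 380) (nat_lit 2534650859) (nat_lit 456) (nat_lit 322262416) (nat_lit 149) (nat_lit 5) (nat_lit 154) (nat_lit 5) (nat_lit 155) (nat_lit 4) (nat_lit 326) (nat_lit 290) (nat_lit 284)) (XT.nd (nat_lit 78) (nat_lit 760) (nat_lit 0) (XT.lf (nat_lit 0) (nat_lit 5633336074) (nat_lit 456) (nat_lit 756712747) (nat_lit 76) (nat_lit 2350466180) (nat_lit 143) (nat_lit 5) (nat_lit 149) (nat_lit 5) (nat_lit 144) (nat_lit 4) (nat_lit 327) (nat_lit 290) (nat_lit 283)) (XT.lf (nat_lit 0) (nat_lit 1412608560) (nat_lit 380) (nat_lit 1415404385) (nat_lit 456) (nat_lit 6106841655) (nat_lit 133) (nat_lit 5) (nat_lit 138) (nat_lit 5) (nat_lit 139) (nat_lit 5) (nat_lit 328) (nat_lit 290) (nat_lit 282)))) (XT.nd (nat_lit 78) (nat_lit 760) (nat_lit 0) (XT.lf (nat_lit 0) (nat_lit 3623690055) (nat_lit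 304) (nat_lit 5324222605) (nat_lit 380) (nat_lit 191598876) (nat_lit 129) (nat_lit 5) (nat_lit 133) (nat_lit 5) (nat_lit 134) (nat_lit 4) (nat_lit 329) (nat_lit 290) (nat_lit 281)) (XT.nd (nat_lit 78) (nat_lit 380) (nat_lit 0) (XT.lf (nat_lit 0) (nat_lit 5829771826) (nat_lit 380) (nat_lit 3501935799) (nat_lit 76) (nat_lit 23205862) (nat_lit 124) (nat_lit 5) (nat_lit 129) (nat_lit 5) (nat_lit 125) (nat_lit 4) (nat_lit 330) (nat_lit 290) (nat_lit 280)) (XT.lf (nat_lit 0) (nat_lit 2491339855) (nat_lit 380) (nat_lit 1494647065) (nat_lit 76) (nat_lit 5595151480) (nat_lit 119) (nat_lit 5) (nat_lit 124) (nat_lit 5) (nat_lit 120) (nat_lit 5) (nat_lit 331) (nat_lit 290) (nat_lit 279))))) (XT.nd (nat_lit 234) (nat_lit 836) (nat_lit 0) (XT.nd (nat_lit 78) (nat_lit 684) (nat_lit 0) (XT.lf (nat_lit 0) (nat_lit 538846235) (nat_lit 304) (nat_lit 8145732311) (nat_lit 380) (nat_lit 1134656718) (nat_lit 111)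 (nat_lit 5) (nat_lit 115) (nat_lit 5) (nat_lit 116) (nat_lit 4) (nat_lit 332) (nat_lit 290) (nat_lit 278)) (XT.nd (nat_lit 78) (nat_lit 304) (nat_lit 0) (XT.lf (nat_lit 0) (nat_lit 2573740469) (nat_lit 304) (nat_lit 2432302374) (nat_lit 380) (nat_lit 5062155291) (nat_lit 106) (nat_lit 5) (nat_lit 110) (nat_lit 5) (nat_lit 111) (nat_lit 5) (nat_lit 333) (nat_lit 290) (nat_lit 277)) (XT.lf (nat_lit 0) (nat_lit 1052061360) (nat_lit 304) (nat_lit 5723497655) (nat_lit 76) (nat_lit 3554282708) (nat_lit 102) (nat_lit 5) (nat_lit 106) (nat_lit 5) (nat_lit 103) (nat_lit 5) (nat_lit 334) (nat_lit 290) (nat_lit 276)))) (XT.nd (nat_lit 78) (nat_lit 532) (nat_lit 0) (XT.lf (nat_lit 0) (nat_lit 6609924133) (nat_lit 304) (nat_lit 726532312) (nat_lit 380) (nat_lit 3267591999) (nat_lit 98) (nat_lit 5) (nat_lit 102) (nat_lit 5) (nat_lit 103) (nat_lit 5) (nat_lit 335) (nat_lit 290) (nat_lit 275)) (XT.nd (nat_lit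 78) (nat_lit 228) (nat_lit 0) (XT.lf (nat_lit 0) (nat_lit 2987593813) (nat_lit 304) (nat_lit 2323739360) (nat_lit 76) (nat_lit 5579693569) (nat_lit 94) (nat_lit 5) (nat_lit 98) (nat_lit 5) (nat_lit 95) (nat_lit 5) (nat_lit 336) (nat_lit 290) (nat_lit 274)) (XT.lf (nat_lit 0) (nat_lit 9460808639) (nat_lit 304) (nat_lit 689352433) (nat_lit 76) (nat_lit 1042089147) (nat_lit 91) (nat_lit 5) (nat_lit 95) (nat_lit 5) (nat_lit 92) (nat_lit 4) (nat_lit 337) (nat_lit 290) (nat_lit 273))))))))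
noncomputable def xc31 : XT := (XT.nd (nat_lit 1872) (nat_lit 1520) (nat_lit 0) (XT.nd (nat_lit 936) (nat_lit 1596) (nat_lit 0) (XT.nd (nat_lit 468) (nat_lit 1140) (nat_lit 0) (XT.nd (nat_lit 234) (nat_lit 684) (nat_lit 0) (XT.nd (nat_lit 78) (nat_lit 456) (nat_lit 0) (XT.lf (nat_lit 0) (nat_lit 866797862) (nat_lit 228) (nat_lit 3812278803) (nat_lit 304) (nat_lit 6827458996) (nat_lit 84) (nat_lit 5) (nat_lit 87) (nat_lit 5) (nat_lit 88) (nat_lit 5) (nat_lit 338) (nat_lit 290) (nat_lit 272)) (XT.nd (nat_lit 78) (nat_lit 304) (nat_lit 0) (XT.lf (nat_lit 0) (nat_lit 2382235723) (nat_lit 152) (nat_lit 8990894579) (nat_lit 228) (nat_lit 462972284) (nat_lit 82) (nat_lit 5) (nat_lit 84) (nat_lit 5) (nat_lit 85) (nat_lit 4) (nat_lit 339) (nat_lit 290) (nat_lit 271)) (XT.lf (nat_lit 0) (nat_lit 3776908254) (nat_lit 228) (nat_lit 2328306510) (nat_lit 304) (nat_lit 6074976669) (nat_lit 78) (nat_lit 5)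 (nat_lit 81) (nat_lit 5) (nat_lit 82) (nat_lit 5) (nat_lit 340) (nat_lit 290) (nat_lit 270)))) (XT.nd (nat_lit 78) (nat_lit 456) (nat_lit 0) (XT.lf (nat_lit 0) (nat_lit 460431631) (nat_lit 228) (nat_lit 7460271185) (nat_lit 76) (nat_lit 4620003501) (nat_lit 75) (nat_lit 5) (nat_lit 78) (nat_lit 5) (nat_lit 76) (nat_lit 5) (nat_lit 341) (nat_lit 290) (nat_lit 269)) (XT.nd (nat_lit 78) (nat_lit 228) (nat_lit 0) (XT.lf (nat_lit 0) (nat_lit 6246599853) (nat_lit 228) (nat_lit 952379608) (nat_lit 304) (nat_lit 5718440264) (nat_lit 72) (nat_lit 5) (nat_lit 75) (nat_lit 5) (nat_lit 76) (nat_lit 5) (nat_lit 342) (nat_lit 290) (nat_lit 268)) (XT.lf (nat_lit 0) (nat_lit 986102427) (nat_lit 228) (nat_lit 6039749870) (nat_lit 76) (nat_lit 6285572546) (nat_lit 69) (nat_lit 5) (nat_lit 72) (nat_lit 5) (nat_lit 70) (nat_lit 5) (nat_lit 343) (nat_lit 290) (nat_lit 267))))) (XT.nd (nat_lit 234) (nat_lit 532)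 (nat_lit 0) (XT.nd (nat_lit 78) (nat_lit 380) (nat_lit 0) (XT.lf (nat_lit 0) (nat_lit 7906088488) (nat_lit 304) (nat_lit 5585112615) (nat_lit 76) (nat_lit 232309117) (nat_lit 66) (nat_lit 5) (nat_lit 70) (nat_lit 5) (nat_lit 67) (nat_lit 4) (nat_lit 344) (nat_lit 290) (nat_lit 266)) (XT.nd (nat_lit 78) (nat_lit 152) (nat_lit 0) (XT.lf (nat_lit 0) (nat_lit 1057079995) (nat_lit 228) (nat_lit 5340202592) (nat_lit 76) (nat_lit 7756823972) (nat_lit 63) (nat_lit 5) (nat_lit 66) (nat_lit 5) (nat_lit 64) (nat_lit 5) (nat_lit 345) (nat_lit 290) (nat_lit 265)) (XT.lf (nat_lit 0) (nat_lit 8159969499) (nat_lit 228) (nat_lit 5317220495) (nat_lit 76) (nat_lit 1127194575) (nat_lit 61) (nat_lit 5) (nat_lit 64) (nat_lit 5) (nat_lit 62) (nat_lit 4) (nat_lit 346) (nat_lit 290) (nat_lit 264)))) (XT.nd (nat_lit 78) (nat_lit 304) (nat_lit 0) (XT.lf (nat_lit 0) (nat_lit 591772367) (nat_lit 228) (nat_lit 5542636065)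 (nat_lit 76) (nat_lit 8940794005) (nat_lit 58) (nat_lit 5) (nat_lit 61) (nat_lit 5) (nat_lit 59) (nat_lit 5) (nat_lit 347) (nat_lit 290) (nat_lit 263)) (XT.nd (nat_lit 78) (nat_lit 152) (nat_lit 0) (XT.lf (nat_lit 0) (nat_lit 7863152308) (nat_lit 228) (nat_lit 6055259743) (nat_lit 76) (nat_lit 1648760665) (nat_lit 56) (nat_lit 5) (nat_lit 59) (nat_lit 5) (nat_lit 57) (nat_lit 4) (nat_lit 348) (nat_lit 290) (nat_lit 262)) (XT.lf (nat_lit 0) (nat_lit 9214674336) (nat_lit 152) (nat_lit 6347481206) (nat_lit 228) (nat_lit 519688724) (nat_lit 54) (nat_lit 5) (nat_lit 56) (nat_lit 5) (nat_lit 57) (nat_lit 4) (nat_lit 349) (nat_lit 290) (nat_lit 261)))))) (XT.nd (nat_lit 468) (nat_lit 684) (nat_lit 0) (XT.nd (nat_lit 234) (nat_lit 304) (nat_lit 0) (XT.nd (nat_lit 78) (nat_lit 380) (nat_lit 0) (XT.lf (nat_lit 0) (nat_lit 6907904429) (nat_lit 228) (nat_lit 8033698320) (nat_lit 76) (nat_lit 1678010495)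 (nat_lit 51) (nat_lit 5) (nat_lit 54) (nat_lit 5) (nat_lit 52) (nat_lit 4) (nat_lit 350) (nat_lit 290) (nat_lit 260)) (XT.nd (nat_lit 78) (nat_lit 228) (nat_lit 0) (XT.lf (nat_lit 0) (nat_lit 7604353224) (nat_lit 152) (nat_lit 7162776997) (nat_lit 228) (nat_lit 2414877533) (nat_lit 49) (nat_lit 5) (nat_lit 51) (nat_lit 5) (nat_lit 52) (nat_lit 4) (nat_lit 351) (nat_lit 290) (nat_lit 259)) (XT.lf (nat_lit 0) (nat_lit 5163808188) (nat_lit 228) (nat_lit 11531102291) (nat_lit 76) (nat_lit 1075536403) (nat_lit 46) (nat_lit 5) (nat_lit 49) (nat_lit 5) (nat_lit 47) (nat_lit 4) (nat_lit 352) (nat_lit 290) (nat_lit 258)))) (XT.nd (nat_lit 78) (nat_lit 228) (nat_lit 0) (XT.lf (nat_lit 0) (nat_lit 4411810488) (nat_lit 76) (nat_lit 8742806373) (nat_lit 152) (nat_lit 5230498765) (nat_lit 45) (nat_lit 5) (nat_lit 46) (nat_lit 5) (nat_lit 47) (nat_lit 4) (nat_lit 353) (nat_lit 290) (nat_lit 257)) (XT.nd (nat_lit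 78) (nat_lit 0) (nat_lit 0) (XT.lf (nat_lit 0) (nat_lit 2148085352) (nat_lit 152) (nat_lit 328975044) (nat_lit 228) (nat_lit 16552399439) (nat_lit 42) (nat_lit 5) (nat_lit 44) (nat_lit 5) (nat_lit 45) (nat_lit 5) (nat_lit 354) (nat_lit 290) (nat_lit 256)) (XT.lf (nat_lit 0) (nat_lit 10563967298) (nat_lit 228) (nat_lit 700559202) (nat_lit 76) (nat_lit 8436893458) (nat_lit 42) (nat_lit 5) (nat_lit 45) (nat_lit 5) (nat_lit 43) (nat_lit 4) (nat_lit 355) (nat_lit 290) (nat_lit 255))))) (XT.nd (nat_lit 234) (nat_lit 304) (nat_lit 0) (XT.nd (nat_lit 78) (nat_lit 304) (nat_lit 0) (XT.lf (nat_lit 0) (nat_lit 16386282113) (nat_lit 76) (nat_lit 2709878903) (nat_lit 152) (nat_lit 1309604689) (nat_lit 41) (nat_lit 5) (nat_lit 42) (nat_lit 5) (nat_lit 43) (nat_lit 4) (nat_lit 356) (nat_lit 290) (nat_lit 254)) (XT.nd (nat_lit 78) (nat_lit 76) (nat_lit 0) (XT.lf (nat_lit 0) (nat_lit 6852640444) (nat_lit 228)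 (nat_lit 8032166175) (nat_lit 76) (nat_lit 6256209097) (nat_lit 38) (nat_lit 5) (nat_lit 41) (nat_lit 5) (nat_lit 39) (nat_lit 4) (nat_lit 357) (nat_lit 290) (nat_lit 253)) (XT.lf (nat_lit 0) (nat_lit 9192361311) (nat_lit 76) (nat_lit 6246565189) (nat_lit 152) (nat_lit 6472436303) (nat_lit 37) (nat_lit 5) (nat_lit 38) (nat_lit 5) (nat_lit 39) (nat_lit 4) (nat_lit 358) (nat_lit 290) (nat_lit 252)))) (XT.nd (nat_lit 78) (nat_lit 76) (nat_lit 0) (XT.lf (nat_lit 0) (nat_lit 1743387540) (nat_lit 228) (nat_lit 18154613231) (nat_lit 76) (nat_lit 2820451342) (nat_lit 34) (nat_lit 5) (nat_lit 37) (nat_lit 5) (nat_lit 35) (nat_lit 4) (nat_lit 359) (nat_lit 290) (nat_lit 251)) (XT.nd (nat_lit 78) (nat_lit 76) (nat_lit 0) (XT.lf (nat_lit 0) (nat_lit 10322807958) (nat_lit 228) (nat_lit 919472677) (nat_lit 76) (nat_lit 12319105089) (nat_lit 34) (nat_lit 5) (nat_lit 37) (nat_lit 5) (nat_lit 35) (nat_lit 4)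 (nat_lit 360) (nat_lit 290) (nat_lit 250)) (XT.lf (nat_lit 0) (nat_lit 17320706267) (nat_lit 76) (nat_lit 2072367131) (nat_lit 152) (nat_lit 5051548110) (nat_lit 33) (nat_lit 5) (nat_lit 34) (nat_lit 5) (nat_lit 35) (nat_lit 4) (nat_lit 361) (nat_lit 290) (nat_lit 249))))))) (XT.nd (nat_lit 936) (nat_lit 532) (nat_lit 0) (XT.nd (nat_lit 468) (nat_lit 456) (nat_lit 0) (XT.nd (nat_lit 234) (nat_lit 228) (nat_lit 0) (XT.nd (nat_lit 78) (nat_lit 76) (nat_lit 0) (XT.lf (nat_lit 0) (nat_lit 3562829007) (nat_lit 228) (nat_lit 14332001054) (nat_lit 76) (nat_lit 7473562547) (nat_lit 30) (nat_lit 5) (nat_lit 33) (nat_lit 5) (nat_lit 31) (nat_lit 4) (nat_lit 362) (nat_lit 290) (nat_lit 248)) (XT.nd (nat_lit 78) (nat_lit 0) (nat_lit 0) (XT.lf (nat_lit 0) (nat_lit 3729722219) (nat_lit 76) (nat_lit 8805320277) (nat_lit 152) (nat_lit 13800871882) (nat_lit 29) (nat_lit 5) (nat_lit 30) (nat_lit 5) (nat_lit 31)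 (nat_lit 4) (nat_lit 363) (nat_lit 290) (nat_lit 247)) (XT.lf (nat_lit 0) (nat_lit 22013951593) (nat_lit 152) (nat_lit 4546498898) (nat_lit 0) (nat_lit 789629022) (nat_lit 29) (nat_lit 5) (nat_lit 31) (nat_lit 4) (nat_lit 29) (nat_lit 4) (nat_lit 364) (nat_lit 290) (nat_lit 246)))) (XT.nd (nat_lit 78) (nat_lit 76) (nat_lit 0) (XT.lf (nat_lit 0) (nat_lit 3618134194) (nat_lit 152) (nat_lit 14013248667) (nat_lit 76) (nat_lit 10778487138) (nat_lit 27) (nat_lit 5) (nat_lit 29) (nat_lit 5) (nat_lit 28) (nat_lit 4) (nat_lit 365) (nat_lit 290) (nat_lit 245)) (XT.nd (nat_lit 78) (nat_lit 0) (nat_lit 0) (XT.lf (nat_lit 0) (nat_lit 4725978837) (nat_lit 76) (nat_lit 8186045758) (nat_lit 152) (nat_lit 16608980841) (nat_lit 26) (nat_lit 5) (nat_lit 27) (nat_lit 5) (nat_lit 28) (nat_lit 4) (nat_lit 366) (nat_lit 290) (nat_lit 244)) (XT.lf (nat_lit 0) (nat_lit 22743475085) (nat_lit 152) (nat_lit 6175983210)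 (nat_lit 0) (nat_lit 1766061624) (nat_lit 26) (nat_lit 5) (nat_lit 28) (nat_lit 4) (nat_lit 26) (nat_lit 4) (nat_lit 367) (nat_lit 290) (nat_lit 243))))) (XT.nd (nat_lit 234) (nat_lit 228) (nat_lit 0) (XT.nd (nat_lit 78) (nat_lit 76) (nat_lit 0) (XT.lf (nat_lit 0) (nat_lit 1263024855) (nat_lit 152) (nat_lit 18525636456) (nat_lit 76) (nat_lit 12115450773) (nat_lit 24) (nat_lit 5) (nat_lit 26) (nat_lit 5) (nat_lit 25) (nat_lit 4) (nat_lit 368) (nat_lit 290) (nat_lit 242)) (XT.nd (nat_lit 78) (nat_lit 0) (nat_lit 0) (XT.lf (nat_lit 0) (nat_lit 631003276) (nat_lit 76) (nat_lit 10121411759) (nat_lit 152) (nat_lit 22429217434) (nat_lit 23) (nat_lit 5) (nat_lit 24) (nat_lit 5) (nat_lit 25) (nat_lit 4) (nat_lit 369) (nat_lit 290) (nat_lit 241)) (XT.lf (nat_lit 0) (nat_lit 20827464648) (nat_lit 152) (nat_lit 13542571570) (nat_lit 0) (nat_lit 149663868) (nat_lit 23) (nat_lit 5) (nat_lit 25) (nat_lit 4)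 (nat_lit 23) (nat_lit 4) (nat_lit 370) (nat_lit 290) (nat_lit 240)))) (XT.nd (nat_lit 78) (nat_lit 152) (nat_lit 0) (XT.lf (nat_lit 0) (nat_lit 6288148548) (nat_lit 76) (nat_lit 25202927281) (nat_lit 76) (nat_lit 4431057563) (nat_lit 22) (nat_lit 4) (nat_lit 23) (nat_lit 5) (nat_lit 23) (nat_lit 4) (nat_lit 371) (nat_lit 290) (nat_lit 239)) (XT.nd (nat_lit 78) (nat_lit 76) (nat_lit 0) (XT.lf (nat_lit 0) (nat_lit 5254451529) (nat_lit 152) (nat_lit 10194922577) (nat_lit 76) (nat_lit 21941857065) (nat_lit 21) (nat_lit 5) (nat_lit 23) (nat_lit 5) (nat_lit 22) (nat_lit 4) (nat_lit 372) (nat_lit 290) (nat_lit 238)) (XT.lf (nat_lit 0) (nat_lit 10232412185) (nat_lit 76) (nat_lit 5126797010) (nat_lit 152) (nat_lit 23572465857) (nat_lit 20) (nat_lit 5) (nat_lit 21) (nat_lit 5) (nat_lit 22) (nat_lit 4) (nat_lit 373) (nat_lit 290) (nat_lit 237)))))) (XT.nd (nat_lit 468) (nat_lit 228) (nat_lit 0) (XT.nd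 (nat_lit 234) (nat_lit 152) (nat_lit 0) (XT.nd (nat_lit 78) (nat_lit 152) (nat_lit 0) (XT.lf (nat_lit 0) (nat_lit 26059045376) (nat_lit 152) (nat_lit 8843936177) (nat_lit 0) (nat_lit 5643469875) (nat_lit 20) (nat_lit 5) (nat_lit 22) (nat_lit 4) (nat_lit 20) (nat_lit 4) (nat_lit 374) (nat_lit 290) (nat_lit 236)) (XT.nd (nat_lit 78) (nat_lit 76) (nat_lit 0) (XT.lf (nat_lit 0) (nat_lit 12058034513) (nat_lit 76) (nat_lit 25335824966) (nat_lit 76) (nat_lit 4845112816) (nat_lit 19) (nat_lit 4) (nat_lit 20) (nat_lit 5) (nat_lit 20) (nat_lit 4) (nat_lit 375) (nat_lit 290) (nat_lit 235)) (XT.lf (nat_lit 0) (nat_lit 5201906433) (nat_lit 152) (nat_lit 10002400804) (nat_lit 76) (nat_lit 28809525514) (nat_lit 18) (nat_lit 5) (nat_lit 20) (nat_lit 5) (nat_lit 19) (nat_lit 4) (nat_lit 376) (nat_lit 290) (nat_lit 234)))) (XT.nd (nat_lit 78) (nat_lit 76) (nat_lit 0) (XT.lf (nat_lit 0) (nat_lit 11234160391) (nat_lit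 76) (nat_lit 4462678233) (nat_lit 152) (nat_lit 30177790099) (nat_lit 17) (nat_lit 5) (nat_lit 18) (nat_lit 5) (nat_lit 19) (nat_lit 4) (nat_lit 377) (nat_lit 290) (nat_lit 233)) (XT.nd (nat_lit 78) (nat_lit 76) (nat_lit 0) (XT.lf (nat_lit 0) (nat_lit 26824200664) (nat_lit 152) (nat_lit 14269388420) (nat_lit 0) (nat_lit 6731649324) (nat_lit 17) (nat_lit 5) (nat_lit 19) (nat_lit 4) (nat_lit 17) (nat_lit 4) (nat_lit 378) (nat_lit 290) (nat_lit 232)) (XT.lf (nat_lit 0) (nat_lit 7100381402) (nat_lit 76) (nat_lit 31461967419) (nat_lit 76) (nat_lit 11309401412) (nat_lit 16) (nat_lit 4) (nat_lit 17) (nat_lit 5) (nat_lit 17) (nat_lit 4) (nat_lit 379) (nat_lit 290) (nat_lit 231))))) (XT.nd (nat_lit 234) (nat_lit 76) (nat_lit 0) (XT.nd (nat_lit 78) (nat_lit 152) (nat_lit 0) (XT.lf (nat_lit 0) (nat_lit 29726702633) (nat_lit 76) (nat_lit 21250459557) (nat_lit 76) (nat_lit 1040736724) (nat_lit 16) (nat_lit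 4) (nat_lit 17) (nat_lit 5) (nat_lit 17) (nat_lit 4) (nat_lit 380) (nat_lit 290) (nat_lit 230)) (XT.nd (nat_lit 78) (nat_lit 76) (nat_lit 0) (XT.lf (nat_lit 0) (nat_lit 9496317340) (nat_lit 152) (nat_lit 986633702) (nat_lit 76) (nat_lit 43787247131) (nat_lit 15) (nat_lit 5) (nat_lit 17) (nat_lit 5) (nat_lit 16) (nat_lit 4) (nat_lit 381) (nat_lit 290) (nat_lit 229)) (XT.lf (nat_lit 0) (nat_lit 20704720761) (nat_lit 152) (nat_lit 34944657296) (nat_lit 0) (nat_lit 980448110) (nat_lit 14) (nat_lit 5) (nat_lit 16) (nat_lit 4) (nat_lit 14) (nat_lit 4) (nat_lit 382) (nat_lit 290) (nat_lit 228)))) (XT.nd (nat_lit 78) (nat_lit 76) (nat_lit 0) (XT.lf (nat_lit 0) (nat_lit 32538366152) (nat_lit 152) (nat_lit 13800970736) (nat_lit 0) (nat_lit 12766157371) (nat_lit 14) (nat_lit 5) (nat_lit 16) (nat_lit 4) (nat_lit 14) (nat_lit 4) (nat_lit 383) (nat_lit 290) (nat_lit 227)) (XT.nd (nat_lit 78) (nat_lit 0) (nat_lit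 0) (XT.lf (nat_lit 0) (nat_lit 8470803986) (nat_lit 76) (nat_lit 36525514236) (nat_lit 76) (nat_lit 16707651997) (nat_lit 13) (nat_lit 4) (nat_lit 14) (nat_lit 5) (nat_lit 14) (nat_lit 4) (nat_lit 384) (nat_lit 290) (nat_lit 226)) (XT.lf (nat_lit 0) (nat_lit 32052880811) (nat_lit 76) (nat_lit 26118996326) (nat_lit 76) (nat_lit 6257654603) (nat_lit 13) (nat_lit 4) (nat_lit 14) (nat_lit 5) (nat_lit 14) (nat_lit 4) (nat_lit 385) (nat_lit 290) (nat_lit 225))))))))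
noncomputable def xc32 : XT := (XT.nd (nat_lit 42510) (nat_lit 0) (nat_lit 2888) (XT.nd (nat_lit 41574) (nat_lit 0) (nat_lit 9120) (XT.nd (nat_lit 390) (nat_lit 152) (nat_lit 0) (XT.nd (nat_lit 156) (nat_lit 76) (nat_lit 0) (XT.nd (nat_lit 78) (nat_lit 76) (nat_lit 0) (XT.lf (nat_lit 0) (nat_lit 4577285322) (nat_lit 152) (nat_lit 10610861550) (nat_lit 76) (nat_lit 52103234232) (nat_lit 12) (nat_lit 5) (nat_lit 14) (nat_lit 5) (nat_lit 13) (nat_lit 4) (nat_lit 386) (nat_lit 290) (nat_lit 224)) (XT.lf (nat_lit 0) (nat_lit 12336763645) (nat_lit 76) (nat_lit 3564197721) (nat_lit 152) (nat_lit 54391213330) (nat_lit 11) (nat_lit 5) (nat_lit 12) (nat_lit 5) (nat_lit 13) (nat_lit 4) (nat_lit 387) (nat_lit 290) (nat_lit 223))) (XT.nd (nat_lit 78) (nat_lit 76) (nat_lit 0) (XT.lf (nat_lit 0) (nat_lit 27941711185) (nat_lit 152) (nat_lit 36952874209) (nat_lit 0) (nat_lit 8543898426) (nat_lit 11) (nat_lit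 5) (nat_lit 13) (nat_lit 4) (nat_lit 11) (nat_lit 4) (nat_lit 388) (nat_lit 290) (nat_lit 222)) (XT.nd (nat_lit 78) (nat_lit 76) (nat_lit 0) (XT.lf (nat_lit 0) (nat_lit 40580012756) (nat_lit 152) (nat_lit 15014761461) (nat_lit 0) (nat_lit 21147471183) (nat_lit 11) (nat_lit 5) (nat_lit 13) (nat_lit 4) (nat_lit 11) (nat_lit 4) (nat_lit 389) (nat_lit 290) (nat_lit 221)) (XT.lf (nat_lit 0) (nat_lit 8103551520) (nat_lit 76) (nat_lit 45786040800) (nat_lit 76) (nat_lit 26320424166) (nat_lit 10) (nat_lit 4) (nat_lit 11) (nat_lit 5) (nat_lit 11) (nat_lit 4) (nat_lit 390) (nat_lit 290) (nat_lit 220))))) (XT.nd (nat_lit 234) (nat_lit 76) (nat_lit 0) (XT.nd (nat_lit 78) (nat_lit 76) (nat_lit 0) (XT.lf (nat_lit 0) (nat_lit 32618854749) (nat_lit 76) (nat_lit 35362962639) (nat_lit 76) (nat_lit 15865845946) (nat_lit 10) (nat_lit 4) (nat_lit 11) (nat_lit 5) (nat_lit 11) (nat_lit 4) (nat_lit 391) (nat_lit 290)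 (nat_lit 219)) (XT.nd (nat_lit 78) (nat_lit 76) (nat_lit 0) (XT.lf (nat_lit 0) (nat_lit 58290694802) (nat_lit 76) (nat_lit 24452342531) (nat_lit 76) (nat_lit 4925225783) (nat_lit 10) (nat_lit 4) (nat_lit 11) (nat_lit 5) (nat_lit 11) (nat_lit 4) (nat_lit 392) (nat_lit 290) (nat_lit 218)) (XT.lf (nat_lit 0) (nat_lit 6400110668) (nat_lit 152) (nat_lit 6563463572) (nat_lit 76) (nat_lit 78715455870) (nat_lit 9) (nat_lit 5) (nat_lit 11) (nat_lit 5) (nat_lit 10) (nat_lit 4) (nat_lit 393) (nat_lit 290) (nat_lit 217)))) (XT.nd (nat_lit 78) (nat_lit 0) (nat_lit 0) (XT.lf (nat_lit 0) (nat_lit 17622061471) (nat_lit 76) (nat_lit 705505344) (nat_lit 152) (nat_lit 77557176127) (nat_lit 8) (nat_lit 5) (nat_lit 9) (nat_lit 5) (nat_lit 10) (nat_lit 4) (nat_lit 394) (nat_lit 290) (nat_lit 216)) (XT.nd (nat_lit 78) (nat_lit 0) (nat_lit 0) (XT.lf (nat_lit 0) (nat_lit 31004618183) (nat_lit 152) (nat_lit 57324593962)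 (nat_lit 0) (nat_lit 11966934357) (nat_lit 8) (nat_lit 5) (nat_lit 10) (nat_lit 4) (nat_lit 8) (nat_lit 4) (nat_lit 395) (nat_lit 290) (nat_lit 215)) (XT.lf (nat_lit 0) (nat_lit 44292211027) (nat_lit 152) (nat_lit 35406045275) (nat_lit 0) (nat_lit 25230564948) (nat_lit 8) (nat_lit 5) (nat_lit 10) (nat_lit 4) (nat_lit 8) (nat_lit 4) (nat_lit 396) (nat_lit 290) (nat_lit 214)))))) (XT.nd (nat_lit 468) (nat_lit 3344) (nat_lit 0) (XT.nd (nat_lit 234) (nat_lit 1672) (nat_lit 0) (XT.nd (nat_lit 78) (nat_lit 1748) (nat_lit 0) (XT.lf (nat_lit 0) (nat_lit 1147143924) (nat_lit 684) (nat_lit 1413810249) (nat_lit 0) (nat_lit 1147143924) (nat_lit 217) (nat_lit 5) (nat_lit 226) (nat_lit 4) (nat_lit 217) (nat_lit 4) (nat_lit 318) (nat_lit 291) (nat_lit 291)) (XT.nd (nat_lit 78) (nat_lit 1064) (nat_lit 0) (XT.lf (nat_lit 0) (nat_lit 650020792) (nat_lit 684) (nat_lit 1123147683) (nat_lit 76) (nat_lit 5757974632)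 (nat_lit 208) (nat_lit 5) (nat_lit 217) (nat_lit 5) (nat_lit 209) (nat_lit 4) (nat_lit 319) (nat_lit 291) (nat_lit 290)) (XT.lf (nat_lit 0) (nat_lit 660824001) (nat_lit 532) (nat_lit 5811881941) (nat_lit 532) (nat_lit 1181725419) (nat_lit 194) (nat_lit 4) (nat_lit 201) (nat_lit 5) (nat_lit 201) (nat_lit 4) (nat_lit 320) (nat_lit 291) (nat_lit 289)))) (XT.nd (nat_lit 78) (nat_lit 1140) (nat_lit 0) (XT.lf (nat_lit 0) (nat_lit 2537306066) (nat_lit 456) (nat_lit 2053099120) (nat_lit 532) (nat_lit 3195795545) (nat_lit 187) (nat_lit 5) (nat_lit 193) (nat_lit 5) (nat_lit 194) (nat_lit 4) (nat_lit 321) (nat_lit 291) (nat_lit 288)) (XT.nd (nat_lit 78) (nat_lit 532) (nat_lit 0) (XT.lf (nat_lit 0) (nat_lit 2529274709) (nat_lit 608) (nat_lit 3438237366) (nat_lit 76) (nat_lit 1959665781) (nat_lit 179) (nat_lit 5) (nat_lit 187) (nat_lit 5) (nat_lit 180) (nat_lit 4) (nat_lit 322) (nat_lit 291) (nat_lit 287))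 (XT.lf (nat_lit 0) (nat_lit 282702660) (nat_lit 532) (nat_lit 1564407593) (nat_lit 76) (nat_lit 6230445934) (nat_lit 172) (nat_lit 5) (nat_lit 179) (nat_lit 5) (nat_lit 173) (nat_lit 5) (nat_lit 323) (nat_lit 291) (nat_lit 286))))) (XT.nd (nat_lit 234) (nat_lit 1520) (nat_lit 0) (XT.nd (nat_lit 78) (nat_lit 988) (nat_lit 0) (XT.lf (nat_lit 0) (nat_lit 353579208) (nat_lit 380) (nat_lit 5689342053) (nat_lit 456) (nat_lit 2193831218) (nat_lit 161) (nat_lit 5) (nat_lit 166) (nat_lit 5) (nat_lit 167) (nat_lit 4) (nat_lit 324) (nat_lit 291) (nat_lit 285)) (XT.nd (nat_lit 78) (nat_lit 456) (nat_lit 0) (XT.lf (nat_lit 0) (nat_lit 2362374858) (nat_lit 456) (nat_lit 1173223532) (nat_lit 532) (nat_lit 4869747648) (nat_lit 154) (nat_lit 5) (nat_lit 160) (nat_lit 5) (nat_lit 161) (nat_lit 5) (nat_lit 325) (nat_lit 291) (nat_lit 284)) (XT.lf (nat_lit 0) (nat_lit 834456590) (nat_lit 456) (nat_lit 4167501747)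 (nat_lit 76) (nat_lit 3581751879) (nat_lit 148) (nat_lit 5) (nat_lit 154) (nat_lit 5) (nat_lit 149) (nat_lit 5) (nat_lit 326) (nat_lit 291) (nat_lit 283)))) (XT.nd (nat_lit 78) (nat_lit 1140) (nat_lit 0) (XT.lf (nat_lit 0) (nat_lit 6515889636) (nat_lit 380) (nat_lit 120962567) (nat_lit 456) (nat_lit 2135379956) (nat_lit 143) (nat_lit 5) (nat_lit 148) (nat_lit 5) (nat_lit 149) (nat_lit 5) (nat_lit 327) (nat_lit 291) (nat_lit 282)) (XT.nd (nat_lit 78) (nat_lit 760) (nat_lit 0) (XT.lf (nat_lit 0) (nat_lit 3642625296) (nat_lit 380) (nat_lit 337192749) (nat_lit 76) (nat_lit 4990663858) (nat_lit 138) (nat_lit 5) (nat_lit 143) (nat_lit 5) (nat_lit 139) (nat_lit 5) (nat_lit 328) (nat_lit 291) (nat_lit 281)) (XT.lf (nat_lit 0) (nat_lit 422277388) (nat_lit 380) (nat_lit 7516898814) (nat_lit 76) (nat_lit 1240443049) (nat_lit 128) (nat_lit 5) (nat_lit 133) (nat_lit 5) (nat_lit 129) (nat_lit 5) (nat_lit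 329) (nat_lit 291) (nat_lit 280))))))) (XT.nd (nat_lit 936) (nat_lit 2432) (nat_lit 0) (XT.nd (nat_lit 468) (nat_lit 1520) (nat_lit 0) (XT.nd (nat_lit 234) (nat_lit 1292) (nat_lit 0) (XT.nd (nat_lit 78) (nat_lit 684) (nat_lit 0) (XT.lf (nat_lit 0) (nat_lit 3658747292) (nat_lit 304) (nat_lit 2657097264) (nat_lit 380) (nat_lit 3082881810) (nat_lit 124) (nat_lit 5) (nat_lit 128) (nat_lit 5) (nat_lit 129) (nat_lit 5) (nat_lit 330) (nat_lit 291) (nat_lit 279)) (XT.nd (nat_lit 78) (nat_lit 304) (nat_lit 0) (XT.lf (nat_lit 0) (nat_lit 2775116964) (nat_lit 380) (nat_lit 3952229979) (nat_lit 76) (nat_lit 2902007953) (nat_lit 119) (nat_lit 5) (nat_lit 124) (nat_lit 5) (nat_lit 120) (nat_lit 5) (nat_lit 331) (nat_lit 291) (nat_lit 278)) (XT.lf (nat_lit 0) (nat_lit 7710398588) (nat_lit 304) (nat_lit 1113619947) (nat_lit 380) (nat_lit 1047797219) (nat_lit 115) (nat_lit 5) (nat_lit 119) (nat_lit 5) (nat_lit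 120) (nat_lit 5) (nat_lit 332) (nat_lit 291) (nat_lit 277)))) (XT.nd (nat_lit 78) (nat_lit 912) (nat_lit 0) (XT.lf (nat_lit 0) (nat_lit 4937523607) (nat_lit 380) (nat_lit 410753000) (nat_lit 76) (nat_lit 4777118812) (nat_lit 110) (nat_lit 5) (nat_lit 115) (nat_lit 5) (nat_lit 111) (nat_lit 5) (nat_lit 333) (nat_lit 291) (nat_lit 276)) (XT.nd (nat_lit 78) (nat_lit 304) (nat_lit 0) (XT.lf (nat_lit 0) (nat_lit 769968835) (nat_lit 304) (nat_lit 9013613305) (nat_lit 76) (nat_lit 608286965) (nat_lit 102) (nat_lit 5) (nat_lit 106) (nat_lit 5) (nat_lit 103) (nat_lit 5) (nat_lit 334) (nat_lit 291) (nat_lit 275)) (XT.lf (nat_lit 0) (nat_lit 3107824351) (nat_lit 304) (nat_lit 3820975776) (nat_lit 380) (nat_lit 3741070199) (nat_lit 98) (nat_lit 5) (nat_lit 102) (nat_lit 5) (nat_lit 103) (nat_lit 5) (nat_lit 335) (nat_lit 291) (nat_lit 274))))) (XT.nd (nat_lit 234) (nat_lit 684) (nat_lit 0) (XT.nd (nat_lit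 78) (nat_lit 532) (nat_lit 0) (XT.lf (nat_lit 0) (nat_lit 2366617970) (nat_lit 304) (nat_lit 6141301333) (nat_lit 76) (nat_lit 2453793478) (nat_lit 94) (nat_lit 5) (nat_lit 98) (nat_lit 5) (nat_lit 95) (nat_lit 5) (nat_lit 336) (nat_lit 291) (nat_lit 273)) (XT.nd (nat_lit 78) (nat_lit 304) (nat_lit 0) (XT.lf (nat_lit 0) (nat_lit 6477674758) (nat_lit 228) (nat_lit 2225847162) (nat_lit 304) (nat_lit 2563527959) (nat_lit 91) (nat_lit 5) (nat_lit 94) (nat_lit 5) (nat_lit 95) (nat_lit 5) (nat_lit 337) (nat_lit 291) (nat_lit 272)) (XT.lf (nat_lit 0) (nat_lit 3705744442) (nat_lit 304) (nat_lit 3519945889) (nat_lit 76) (nat_lit 4360631896) (nat_lit 87) (nat_lit 5) (nat_lit 91) (nat_lit 5) (nat_lit 88) (nat_lit 5) (nat_lit 338) (nat_lit 291) (nat_lit 271)))) (XT.nd (nat_lit 78) (nat_lit 456) (nat_lit 0) (XT.lf (nat_lit 0) (nat_lit 9606316385) (nat_lit 228) (nat_lit 624067716) (nat_lit 304) (nat_lit 1690608864)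 (nat_lit 84) (nat_lit 5) (nat_lit 87) (nat_lit 5) (nat_lit 88) (nat_lit 5) (nat_lit 339) (nat_lit 291) (nat_lit 270)) (XT.nd (nat_lit 78) (nat_lit 228) (nat_lit 0) (XT.lf (nat_lit 0) (nat_lit 4753361353) (nat_lit 228) (nat_lit 1244938626) (nat_lit 76) (nat_lit 6271600811) (nat_lit 81) (nat_lit 5) (nat_lit 84) (nat_lit 5) (nat_lit 82) (nat_lit 5) (nat_lit 340) (nat_lit 291) (nat_lit 269)) (XT.lf (nat_lit 0) (nat_lit 11481299990) (nat_lit 304) (nat_lit 251033211) (nat_lit 76) (nat_lit 903555237) (nat_lit 78) (nat_lit 5) (nat_lit 82) (nat_lit 5) (nat_lit 79) (nat_lit 4) (nat_lit 341) (nat_lit 291) (nat_lit 268)))))) (XT.nd (nat_lit 468) (nat_lit 988) (nat_lit 0) (XT.nd (nat_lit 234) (nat_lit 532) (nat_lit 0) (XT.nd (nat_lit 78) (nat_lit 456) (nat_lit 0) (XT.lf (nat_lit 0) (nat_lit 582176538) (nat_lit 228) (nat_lit 4888368981) (nat_lit 304) (nat_lit 7546485026) (nat_lit 72) (nat_lit 5) (nat_lit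 75) (nat_lit 5) (nat_lit 76) (nat_lit 5) (nat_lit 342) (nat_lit 291) (nat_lit 267)) (XT.nd (nat_lit 78) (nat_lit 304) (nat_lit 0) (XT.lf (nat_lit 0) (nat_lit 1307584617) (nat_lit 152) (nat_lit 11109162581) (nat_lit 228) (nat_lit 999762932) (nat_lit 70) (nat_lit 5) (nat_lit 72) (nat_lit 5) (nat_lit 73) (nat_lit 4) (nat_lit 343) (nat_lit 291) (nat_lit 266)) (XT.lf (nat_lit 0) (nat_lit 1828987935) (nat_lit 228) (nat_lit 3972481242) (nat_lit 304) (nat_lit 8031577868) (nat_lit 66) (nat_lit 5) (nat_lit 69) (nat_lit 5) (nat_lit 70) (nat_lit 5) (nat_lit 344) (nat_lit 291) (nat_lit 265)))) (XT.nd (nat_lit 78) (nat_lit 380) (nat_lit 0) (XT.lf (nat_lit 0) (nat_lit 2187274570) (nat_lit 152) (nat_lit 10765218827) (nat_lit 228) (nat_lit 1316738184) (nat_lit 64) (nat_lit 5) (nat_lit 66) (nat_lit 5) (nat_lit 67) (nat_lit 4) (nat_lit 345) (nat_lit 291) (nat_lit 264)) (XT.nd (nat_lit 78) (nat_lit 152) (nat_lit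 0) (XT.lf (nat_lit 0) (nat_lit 2308215163) (nat_lit 152) (nat_lit 3353542234) (nat_lit 228) (nat_lit 9062648068) (nat_lit 61) (nat_lit 5) (nat_lit 63) (nat_lit 5) (nat_lit 64) (nat_lit 5) (nat_lit 346) (nat_lit 291) (nat_lit 263)) (XT.lf (nat_lit 0) (nat_lit 2205868352) (nat_lit 152) (nat_lit 10802040334) (nat_lit 228) (nat_lit 2192685728) (nat_lit 59) (nat_lit 5) (nat_lit 61) (nat_lit 5) (nat_lit 62) (nat_lit 4) (nat_lit 347) (nat_lit 291) (nat_lit 262))))) (XT.nd (nat_lit 234) (nat_lit 380) (nat_lit 0) (XT.nd (nat_lit 78) (nat_lit 380) (nat_lit 0) (XT.lf (nat_lit 0) (nat_lit 1826547082) (nat_lit 152) (nat_lit 3136156449) (nat_lit 228) (nat_lit 10735268718) (nat_lit 56) (nat_lit 5) (nat_lit 58) (nat_lit 5) (nat_lit 59) (nat_lit 5) (nat_lit 348) (nat_lit 291) (nat_lit 261)) (XT.nd (nat_lit 78) (nat_lit 228) (nat_lit 0) (XT.lf (nat_lit 0) (nat_lit 1152570370) (nat_lit 152) (nat_lit 11334564884)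 (nat_lit 228) (nat_lit 3730757019) (nat_lit 54) (nat_lit 5) (nat_lit 56) (nat_lit 5) (nat_lit 57) (nat_lit 4) (nat_lit 349) (nat_lit 291) (nat_lit 260)) (XT.lf (nat_lit 0) (nat_lit 154033051) (nat_lit 152) (nat_lit 3442294677) (nat_lit 228) (nat_lit 13165165038) (nat_lit 51) (nat_lit 5) (nat_lit 53) (nat_lit 5) (nat_lit 54) (nat_lit 5) (nat_lit 350) (nat_lit 291) (nat_lit 259)))) (XT.nd (nat_lit 78) (nat_lit 380) (nat_lit 0) (XT.lf (nat_lit 0) (nat_lit 11285415303) (nat_lit 228) (nat_lit 1199471706) (nat_lit 76) (nat_lit 4844114391) (nat_lit 51) (nat_lit 5) (nat_lit 54) (nat_lit 5) (nat_lit 52) (nat_lit 4) (nat_lit 351) (nat_lit 291) (nat_lit 258)) (XT.nd (nat_lit 78) (nat_lit 152) (nat_lit 0) (XT.lf (nat_lit 0) (nat_lit 1460807258) (nat_lit 228) (nat_lit 2924534065) (nat_lit 76) (nat_lit 13537507916) (nat_lit 48) (nat_lit 5) (nat_lit 51) (nat_lit 5) (nat_lit 49) (nat_lit 5) (nat_lit 352) (nat_lit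 291) (nat_lit 257)) (XT.lf (nat_lit 0) (nat_lit 9276955279) (nat_lit 228) (nat_lit 5118044746) (nat_lit 76) (nat_lit 4147766563) (nat_lit 46) (nat_lit 5) (nat_lit 49) (nat_lit 5) (nat_lit 47) (nat_lit 4) (nat_lit 353) (nat_lit 291) (nat_lit 256))))))))
noncomputable def xc33 : XT := (XT.nd (nat_lit 1872) (nat_lit 760) (nat_lit 0) (XT.nd (nat_lit 936) (nat_lit 760) (nat_lit 0) (XT.nd (nat_lit 468) (nat_lit 684) (nat_lit 0) (XT.nd (nat_lit 234) (nat_lit 304) (nat_lit 0) (XT.nd (nat_lit 78) (nat_lit 304) (nat_lit 0) (XT.lf (nat_lit 0) (nat_lit 11421657828) (nat_lit 76) (nat_lit 6127339681) (nat_lit 152) (nat_lit 1642746844) (nat_lit 45) (nat_lit 5) (nat_lit 46) (nat_lit 5) (nat_lit 47) (nat_lit 4) (nat_lit 354) (nat_lit 291) (nat_lit 255)) (XT.nd (nat_lit 78) (nat_lit 76) (nat_lit 0) (XT.lf (nat_lit 0) (nat_lit 6285062147) (nat_lit 228) (nat_lit 10972706760) (nat_lit 76) (nat_lit 2612151656) (nat_lit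 42) (nat_lit 5) (nat_lit 45) (nat_lit 5) (nat_lit 43) (nat_lit 4) (nat_lit 355) (nat_lit 291) (nat_lit 254)) (XT.lf (nat_lit 0) (nat_lit 5805718577) (nat_lit 76) (nat_lit 8854130590) (nat_lit 152) (nat_lit 5919146710) (nat_lit 41) (nat_lit 5) (nat_lit 42) (nat_lit 5) (nat_lit 43) (nat_lit 4) (nat_lit 356) (nat_lit 291) (nat_lit 253)))) (XT.nd (nat_lit 78) (nat_lit 76) (nat_lit 0) (XT.lf (nat_lit 0) (nat_lit 2111541314) (nat_lit 228) (nat_lit 19175296800) (nat_lit 76) (nat_lit 35389056) (nat_lit 38) (nat_lit 5) (nat_lit 41) (nat_lit 5) (nat_lit 39) (nat_lit 4) (nat_lit 357) (nat_lit 291) (nat_lit 252)) (XT.nd (nat_lit 78) (nat_lit 76) (nat_lit 0) (XT.lf (nat_lit 0) (nat_lit 10556159660) (nat_lit 228) (nat_lit 2228562708) (nat_lit 76) (nat_lit 9312108408) (nat_lit 38) (nat_lit 5) (nat_lit 41) (nat_lit 5) (nat_lit 39) (nat_lit 4) (nat_lit 358) (nat_lit 291) (nat_lit 251)) (XT.lf (nat_lit 0) (nat_lit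 15679320003) (nat_lit 76) (nat_lit 3790336255) (nat_lit 152) (nat_lit 3439121555) (nat_lit 37) (nat_lit 5) (nat_lit 38) (nat_lit 5) (nat_lit 39) (nat_lit 4) (nat_lit 359) (nat_lit 291) (nat_lit 250))))) (XT.nd (nat_lit 234) (nat_lit 380) (nat_lit 0) (XT.nd (nat_lit 78) (nat_lit 76) (nat_lit 0) (XT.lf (nat_lit 0) (nat_lit 5048358972) (nat_lit 228) (nat_lit 13073885555) (nat_lit 76) (nat_lit 5635235864) (nat_lit 34) (nat_lit 5) (nat_lit 37) (nat_lit 5) (nat_lit 35) (nat_lit 4) (nat_lit 360) (nat_lit 291) (nat_lit 249)) (XT.nd (nat_lit 78) (nat_lit 0) (nat_lit 0) (XT.lf (nat_lit 0) (nat_lit 4832139795) (nat_lit 76) (nat_lit 9117831430) (nat_lit 152) (nat_lit 10695809988) (nat_lit 33) (nat_lit 5) (nat_lit 34) (nat_lit 5) (nat_lit 35) (nat_lit 4) (nat_lit 361) (nat_lit 291) (nat_lit 248)) (XT.lf (nat_lit 0) (nat_lit 23338387911) (nat_lit 152) (nat_lit 1854585025) (nat_lit 0) (nat_lit 384283050) (nat_lit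 33) (nat_lit 5) (nat_lit 35) (nat_lit 4) (nat_lit 33) (nat_lit 4) (nat_lit 362) (nat_lit 291) (nat_lit 247)))) (XT.nd (nat_lit 78) (nat_lit 152) (nat_lit 0) (XT.lf (nat_lit 0) (nat_lit 6676264178) (nat_lit 228) (nat_lit 9545926778) (nat_lit 76) (nat_lit 10326260323) (nat_lit 30) (nat_lit 5) (nat_lit 33) (nat_lit 5) (nat_lit 31) (nat_lit 4) (nat_lit 363) (nat_lit 291) (nat_lit 246)) (XT.nd (nat_lit 78) (nat_lit 76) (nat_lit 0) (XT.lf (nat_lit 0) (nat_lit 9261149604) (nat_lit 76) (nat_lit 6747541692) (nat_lit 152) (nat_lit 11558324142) (nat_lit 29) (nat_lit 5) (nat_lit 30) (nat_lit 5) (nat_lit 31) (nat_lit 4) (nat_lit 364) (nat_lit 291) (nat_lit 245)) (XT.lf (nat_lit 0) (nat_lit 382811132) (nat_lit 76) (nat_lit 25469717291) (nat_lit 76) (nat_lit 2782644632) (nat_lit 28) (nat_lit 4) (nat_lit 29) (nat_lit 5) (nat_lit 29) (nat_lit 4) (nat_lit 365) (nat_lit 291) (nat_lit 244)))))) (XT.nd (nat_lit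 468) (nat_lit 380) (nat_lit 0) (XT.nd (nat_lit 234) (nat_lit 228) (nat_lit 0) (XT.nd (nat_lit 78) (nat_lit 76) (nat_lit 0) (XT.lf (nat_lit 0) (nat_lit 6477632578) (nat_lit 152) (nat_lit 9658783297) (nat_lit 76) (nat_lit 13613336470) (nat_lit 27) (nat_lit 5) (nat_lit 29) (nat_lit 5) (nat_lit 28) (nat_lit 4) (nat_lit 366) (nat_lit 291) (nat_lit 243)) (XT.nd (nat_lit 78) (nat_lit 0) (nat_lit 0) (XT.lf (nat_lit 0) (nat_lit 9872501359) (nat_lit 76) (nat_lit 6283364229) (nat_lit 152) (nat_lit 14763001591) (nat_lit 26) (nat_lit 5) (nat_lit 27) (nat_lit 5) (nat_lit 28) (nat_lit 4) (nat_lit 367) (nat_lit 291) (nat_lit 242)) (XT.lf (nat_lit 0) (nat_lit 26376328806) (nat_lit 152) (nat_lit 1755079602) (nat_lit 0) (nat_lit 4013287263) (nat_lit 26) (nat_lit 5) (nat_lit 28) (nat_lit 4) (nat_lit 26) (nat_lit 4) (nat_lit 368) (nat_lit 291) (nat_lit 241)))) (XT.nd (nat_lit 78) (nat_lit 76) (nat_lit 0) (XT.lf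 (nat_lit 0) (nat_lit 3771360640) (nat_lit 152) (nat_lit 14808915000) (nat_lit 76) (nat_lit 14845473989) (nat_lit 24) (nat_lit 5) (nat_lit 26) (nat_lit 5) (nat_lit 25) (nat_lit 4) (nat_lit 369) (nat_lit 291) (nat_lit 240)) (XT.nd (nat_lit 78) (nat_lit 0) (nat_lit 0) (XT.lf (nat_lit 0) (nat_lit 5172465962) (nat_lit 76) (nat_lit 8489669046) (nat_lit 152) (nat_lit 21107213704) (nat_lit 23) (nat_lit 5) (nat_lit 24) (nat_lit 5) (nat_lit 25) (nat_lit 4) (nat_lit 370) (nat_lit 291) (nat_lit 239)) (XT.lf (nat_lit 0) (nat_lit 24147551394) (nat_lit 152) (nat_lit 9876149736) (nat_lit 0) (nat_lit 2153429789) (nat_lit 23) (nat_lit 5) (nat_lit 25) (nat_lit 4) (nat_lit 23) (nat_lit 4) (nat_lit 371) (nat_lit 291) (nat_lit 238))))) (XT.nd (nat_lit 234) (nat_lit 152) (nat_lit 0) (XT.nd (nat_lit 78) (nat_lit 152) (nat_lit 0) (XT.lf (nat_lit 0) (nat_lit 10821599387) (nat_lit 76) (nat_lit 24454789606) (nat_lit 76)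 (nat_lit 2375344701) (nat_lit 22) (nat_lit 4) (nat_lit 23) (nat_lit 5) (nat_lit 23) (nat_lit 4) (nat_lit 372) (nat_lit 291) (nat_lit 237)) (XT.nd (nat_lit 78) (nat_lit 76) (nat_lit 0) (XT.lf (nat_lit 0) (nat_lit 7643677042) (nat_lit 152) (nat_lit 6644040793) (nat_lit 76) (nat_lit 24909110054) (nat_lit 21) (nat_lit 5) (nat_lit 23) (nat_lit 5) (nat_lit 22) (nat_lit 4) (nat_lit 373) (nat_lit 291) (nat_lit 236)) (XT.lf (nat_lit 0) (nat_lit 14688263623) (nat_lit 76) (nat_lit 3502061284) (nat_lit 152) (nat_lit 22625877573) (nat_lit 20) (nat_lit 5) (nat_lit 21) (nat_lit 5) (nat_lit 22) (nat_lit 4) (nat_lit 374) (nat_lit 291) (nat_lit 235)))) (XT.nd (nat_lit 78) (nat_lit 152) (nat_lit 0) (XT.lf (nat_lit 0) (nat_lit 29344128408) (nat_lit 152) (nat_lit 5487842410) (nat_lit 0) (nat_lit 7682185289) (nat_lit 20) (nat_lit 5) (nat_lit 22) (nat_lit 4) (nat_lit 20) (nat_lit 4) (nat_lit 375) (nat_lit 291) (nat_lit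 234)) (XT.nd (nat_lit 78) (nat_lit 76) (nat_lit 0) (XT.lf (nat_lit 0) (nat_lit 16350349578) (nat_lit 76) (nat_lit 24836411357) (nat_lit 76) (nat_lit 3106317083) (nat_lit 19) (nat_lit 4) (nat_lit 20) (nat_lit 5) (nat_lit 20) (nat_lit 4) (nat_lit 376) (nat_lit 291) (nat_lit 233)) (XT.lf (nat_lit 0) (nat_lit 7311900732) (nat_lit 152) (nat_lit 6951841650) (nat_lit 76) (nat_lit 31895149450) (nat_lit 18) (nat_lit 5) (nat_lit 20) (nat_lit 5) (nat_lit 19) (nat_lit 4) (nat_lit 377) (nat_lit 291) (nat_lit 232))))))) (XT.nd (nat_lit 936) (nat_lit 228) (nat_lit 0) (XT.nd (nat_lit 468) (nat_lit 228) (nat_lit 0) (XT.nd (nat_lit 234) (nat_lit 152) (nat_lit 0) (XT.nd (nat_lit 78) (nat_lit 76) (nat_lit 0) (XT.lf (nat_lit 0) (nat_lit 15244768099) (nat_lit 76) (nat_lit 3031873941) (nat_lit 152) (nat_lit 29837740145) (nat_lit 17) (nat_lit 5) (nat_lit 18) (nat_lit 5) (nat_lit 19) (nat_lit 4) (nat_lit 378) (nat_lit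 291) (nat_lit 231)) (XT.nd (nat_lit 78) (nat_lit 76) (nat_lit 0) (XT.lf (nat_lit 0) (nat_lit 29890039411) (nat_lit 152) (nat_lit 11661925462) (nat_lit 0) (nat_lit 8612673611) (nat_lit 17) (nat_lit 5) (nat_lit 19) (nat_lit 4) (nat_lit 17) (nat_lit 4) (nat_lit 379) (nat_lit 291) (nat_lit 230)) (XT.lf (nat_lit 0) (nat_lit 10681138990) (nat_lit 76) (nat_lit 31482838580) (nat_lit 76) (nat_lit 10151037709) (nat_lit 16) (nat_lit 4) (nat_lit 17) (nat_lit 5) (nat_lit 17) (nat_lit 4) (nat_lit 380) (nat_lit 291) (nat_lit 229)))) (XT.nd (nat_lit 78) (nat_lit 76) (nat_lit 0) (XT.lf (nat_lit 0) (nat_lit 538260451) (nat_lit 152) (nat_lit 20290975080) (nat_lit 76) (nat_lit 33741473860) (nat_lit 15) (nat_lit 5) (nat_lit 17) (nat_lit 5) (nat_lit 16) (nat_lit 4) (nat_lit 381) (nat_lit 291) (nat_lit 228)) (XT.nd (nat_lit 78) (nat_lit 0) (nat_lit 0) (XT.lf (nat_lit 0) (nat_lit 1958710012) (nat_lit 76) (nat_lit 9564308718)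 (nat_lit 152) (nat_lit 45414029645) (nat_lit 14) (nat_lit 5) (nat_lit 15) (nat_lit 5) (nat_lit 16) (nat_lit 4) (nat_lit 382) (nat_lit 291) (nat_lit 227)) (XT.lf (nat_lit 0) (nat_lit 23240920213) (nat_lit 152) (nat_lit 33788758725) (nat_lit 0) (nat_lit 2386511404) (nat_lit 14) (nat_lit 5) (nat_lit 16) (nat_lit 4) (nat_lit 14) (nat_lit 4) (nat_lit 383) (nat_lit 291) (nat_lit 226))))) (XT.nd (nat_lit 234) (nat_lit 152) (nat_lit 0) (XT.nd (nat_lit 78) (nat_lit 76) (nat_lit 0) (XT.lf (nat_lit 0) (nat_lit 35594773426) (nat_lit 152) (nat_lit 11726132192) (nat_lit 0) (nat_lit 14696885133) (nat_lit 14) (nat_lit 5) (nat_lit 16) (nat_lit 4) (nat_lit 14) (nat_lit 4) (nat_lit 384) (nat_lit 291) (nat_lit 225)) (XT.nd (nat_lit 78) (nat_lit 0) (nat_lit 0) (XT.lf (nat_lit 0) (nat_lit 11579976333) (nat_lit 76) (nat_lit 37053391802) (nat_lit 76) (nat_lit 16114094477) (nat_lit 13) (nat_lit 4) (nat_lit 14) (nat_lit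 5) (nat_lit 14) (nat_lit 4) (nat_lit 385) (nat_lit 291) (nat_lit 224)) (XT.lf (nat_lit 0) (nat_lit 36213269754) (nat_lit 76) (nat_lit 26188376479) (nat_lit 76) (nat_lit 5209641981) (nat_lit 13) (nat_lit 4) (nat_lit 14) (nat_lit 5) (nat_lit 14) (nat_lit 4) (nat_lit 386) (nat_lit 291) (nat_lit 223)))) (XT.nd (nat_lit 78) (nat_lit 76) (nat_lit 0) (XT.lf (nat_lit 0) (nat_lit 6076949000) (nat_lit 152) (nat_lit 8680087240) (nat_lit 76) (nat_lit 55860711476) (nat_lit 12) (nat_lit 5) (nat_lit 14) (nat_lit 5) (nat_lit 13) (nat_lit 4) (nat_lit 387) (nat_lit 291) (nat_lit 222)) (XT.nd (nat_lit 78) (nat_lit 0) (nat_lit 0) (XT.lf (nat_lit 0) (nat_lit 15344366046) (nat_lit 76) (nat_lit 2584910030) (nat_lit 152) (nat_lit 55840434631) (nat_lit 11) (nat_lit 5) (nat_lit 12) (nat_lit 5) (nat_lit 13) (nat_lit 4) (nat_lit 388) (nat_lit 291) (nat_lit 221)) (XT.lf (nat_lit 0) (nat_lit 30523933141) (nat_lit 152) (nat_lit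 36498888998) (nat_lit 0) (nat_lit 10051960613) (nat_lit 11) (nat_lit 5) (nat_lit 13) (nat_lit 4) (nat_lit 11) (nat_lit 4) (nat_lit 389) (nat_lit 291) (nat_lit 220)))))) (XT.nd (nat_lit 468) (nat_lit 0) (nat_lit 0) (XT.nd (nat_lit 234) (nat_lit 152) (nat_lit 0) (XT.nd (nat_lit 78) (nat_lit 76) (nat_lit 0) (XT.lf (nat_lit 0) (nat_lit 43737714725) (nat_lit 152) (nat_lit 13573471990) (nat_lit 0) (nat_lit 23234242138) (nat_lit 11) (nat_lit 5) (nat_lit 13) (nat_lit 4) (nat_lit 11) (nat_lit 4) (nat_lit 390) (nat_lit 291) (nat_lit 219)) (XT.nd (nat_lit 78) (nat_lit 0) (nat_lit 0) (XT.lf (nat_lit 0) (nat_lit 10637922610) (nat_lit 76) (nat_lit 47041570085) (nat_lit 76) (nat_lit 26508097443) (nat_lit 10) (nat_lit 4) (nat_lit 11) (nat_lit 5) (nat_lit 11) (nat_lit 4) (nat_lit 391) (nat_lit 291) (nat_lit 218)) (XT.lf (nat_lit 0) (nat_lit 36277600834) (nat_lit 76) (nat_lit 36146565290) (nat_lit 76) (nat_lit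 15584521166) (nat_lit 10) (nat_lit 4) (nat_lit 11) (nat_lit 5) (nat_lit 11) (nat_lit 4) (nat_lit 392) (nat_lit 291) (nat_lit 217)))) (XT.nd (nat_lit 78) (nat_lit 152) (nat_lit 0) (XT.lf (nat_lit 0) (nat_lit 63136470825) (nat_lit 76) (nat_lit 24737297295) (nat_lit 76) (nat_lit 4148042236) (nat_lit 10) (nat_lit 4) (nat_lit 11) (nat_lit 5) (nat_lit 11) (nat_lit 4) (nat_lit 393) (nat_lit 291) (nat_lit 216)) (XT.nd (nat_lit 78) (nat_lit 76) (nat_lit 0) (XT.lf (nat_lit 0) (nat_lit 7675805478) (nat_lit 152) (nat_lit 5033285112) (nat_lit 76) (nat_lit 83525166211) (nat_lit 9) (nat_lit 5) (nat_lit 11) (nat_lit 5) (nat_lit 10) (nat_lit 4) (nat_lit 394) (nat_lit 291) (nat_lit 215)) (XT.lf (nat_lit 0) (nat_lit 20172791692) (nat_lit 152) (nat_lit 80344170385) (nat_lit 0) (nat_lit 134101057) (nat_lit 8) (nat_lit 5) (nat_lit 10) (nat_lit 4) (nat_lit 8) (nat_lit 4) (nat_lit 395) (nat_lit 291) (nat_lit 214)))))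 (XT.nd (nat_lit 40794) (nat_lit 0) (nat_lit 14060) (XT.nd (nat_lit 40638) (nat_lit 0) (nat_lit 16568) (XT.lf (nat_lit 0) (nat_lit 33446246590) (nat_lit 152) (nat_lit 58453181448) (nat_lit 0) (nat_lit 13384734761) (nat_lit 8) (nat_lit 5) (nat_lit 10) (nat_lit 4) (nat_lit 8) (nat_lit 4) (nat_lit 396) (nat_lit 291) (nat_lit 213)) (XT.nd (nat_lit 78) (nat_lit 608) (nat_lit 0) (XT.lf (nat_lit 0) (nat_lit 346415447) (nat_lit 1292) (nat_lit 2911647044) (nat_lit 0) (nat_lit 346415447) (nat_lit 234) (nat_lit 5) (nat_lit 251) (nat_lit 4) (nat_lit 234) (nat_lit 4) (nat_lit 316) (nat_lit 292) (nat_lit 292)) (XT.lf (nat_lit 0) (nat_lit 2864921290) (nat_lit 608) (nat_lit 3543508766) (nat_lit 608) (nat_lit 901739647) (nat_lit 226) (nat_lit 4) (nat_lit 234) (nat_lit 5) (nat_lit 234) (nat_lit 4) (nat_lit 317) (nat_lit 292) (nat_lit 291)))) (XT.nd (nat_lit 78) (nat_lit 1824) (nat_lit 0) (XT.lf (nat_lit 0) (nat_lit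 4440492208) (nat_lit 608) (nat_lit 287700853) (nat_lit 684) (nat_lit 2692014068) (nat_lit 217) (nat_lit 5) (nat_lit 225) (nat_lit 5) (nat_lit 226) (nat_lit 4) (nat_lit 318) (nat_lit 292) (nat_lit 290)) (XT.nd (nat_lit 78) (nat_lit 1140) (nat_lit 0) (XT.lf (nat_lit 0) (nat_lit 2898162327) (nat_lit 684) (nat_lit 1450616079) (nat_lit 76) (nat_lit 3189782087) (nat_lit 208) (nat_lit 5) (nat_lit 217) (nat_lit 5) (nat_lit 209) (nat_lit 4) (nat_lit 319) (nat_lit 292) (nat_lit 289)) (XT.lf (nat_lit 0) (nat_lit 171807325) (nat_lit 532) (nat_lit 713777447) (nat_lit 608) (nat_lit 6780612324) (nat_lit 193) (nat_lit 5) (nat_lit 200) (nat_lit 5) (nat_lit 201) (nat_lit 5) (nat_lit 320) (nat_lit 292) (nat_lit 288))))))))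
noncomputable def xc34 : XT := (XT.nd (nat_lit 1872) (nat_lit 3268) (nat_lit 0) (XT.nd (nat_lit 936) (nat_lit 3496) (nat_lit 0) (XT.nd (nat_lit 468) (nat_lit 2508) (nat_lit 0) (XT.nd (nat_lit 234) (nat_lit 1824) (nat_lit 0) (XT.nd (nat_lit 78) (nat_lit 1140) (nat_lit 0) (XT.lf (nat_lit 0) (nat_lit 1873659649) (nat_lit 456) (nat_lit 4625663203) (nat_lit 532) (nat_lit 1302430691) (nat_lit 187) (nat_lit 5) (nat_lit 193) (nat_lit 5) (nat_lit 194) (nat_lit 4) (nat_lit 321) (nat_lit 292) (nat_lit 287)) (XT.nd (nat_lit 78) (nat_lit 532) (nat_lit 0) (XT.lf (nat_lit 0) (nat_lit 3650915067) (nat_lit 532) (nat_lit 588455778) (nat_lit 608) (nat_lit 3707266247) (nat_lit 179) (nat_lit 5) (nat_lit 186) (nat_lit 5) (nat_lit 187) (nat_lit 5) (nat_lit 322) (nat_lit 292) (nat_lit 286)) (XT.lf (nat_lit 0) (nat_lit 1808807663) (nat_lit 532) (nat_lit 2617230620) (nat_lit 76) (nat_lit 3674493875) (nat_lit 172) (nat_lit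 5) (nat_lit 179) (nat_lit 5) (nat_lit 173) (nat_lit 5) (nat_lit 323) (nat_lit 292) (nat_lit 285)))) (XT.nd (nat_lit 78) (nat_lit 1368) (nat_lit 0) (XT.lf (nat_lit 0) (nat_lit 7391641427) (nat_lit 456) (nat_lit 25535879) (nat_lit 532) (nat_lit 847161879) (nat_lit 166) (nat_lit 5) (nat_lit 172) (nat_lit 5) (nat_lit 173) (nat_lit 5) (nat_lit 324) (nat_lit 292) (nat_lit 284)) (XT.nd (nat_lit 78) (nat_lit 456) (nat_lit 0) (XT.lf (nat_lit 0) (nat_lit 904827535) (nat_lit 456) (nat_lit 3817679978) (nat_lit 532) (nat_lit 3714092439) (nat_lit 154) (nat_lit 5) (nat_lit 160) (nat_lit 5) (nat_lit 161) (nat_lit 5) (nat_lit 325) (nat_lit 292) (nat_lit 283)) (XT.lf (nat_lit 0) (nat_lit 1817868104) (nat_lit 456) (nat_lit 5852023104) (nat_lit 76) (nat_lit 949277689) (nat_lit 148) (nat_lit 5) (nat_lit 154) (nat_lit 5) (nat_lit 149) (nat_lit 5) (nat_lit 326) (nat_lit 292) (nat_lit 282))))) (XT.nd (nat_lit 234)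 (nat_lit 1292) (nat_lit 0) (XT.nd (nat_lit 78) (nat_lit 836) (nat_lit 0) (XT.lf (nat_lit 0) (nat_lit 4653255830) (nat_lit 380) (nat_lit 2844786959) (nat_lit 456) (nat_lit 1313359681) (nat_lit 143) (nat_lit 5) (nat_lit 148) (nat_lit 5) (nat_lit 149) (nat_lit 5) (nat_lit 327) (nat_lit 292) (nat_lit 281)) (XT.nd (nat_lit 78) (nat_lit 456) (nat_lit 0) (XT.lf (nat_lit 0) (nat_lit 4300131347) (nat_lit 380) (nat_lit 2443414500) (nat_lit 76) (nat_lit 2270365134) (nat_lit 138) (nat_lit 5) (nat_lit 143) (nat_lit 5) (nat_lit 139) (nat_lit 5) (nat_lit 328) (nat_lit 292) (nat_lit 280)) (XT.lf (nat_lit 0) (nat_lit 874334406) (nat_lit 456) (nat_lit 698516381) (nat_lit 76) (nat_lit 7654560042) (nat_lit 132) (nat_lit 5) (nat_lit 138) (nat_lit 5) (nat_lit 133) (nat_lit 5) (nat_lit 329) (nat_lit 292) (nat_lit 279)))) (XT.nd (nat_lit 78) (nat_lit 684) (nat_lit 0) (XT.lf (nat_lit 0) (nat_lit 1058415124) (nat_lit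 304) (nat_lit 5564605064) (nat_lit 380) (nat_lit 2827880841) (nat_lit 124) (nat_lit 5) (nat_lit 128) (nat_lit 5) (nat_lit 129) (nat_lit 5) (nat_lit 330) (nat_lit 292) (nat_lit 278)) (XT.nd (nat_lit 78) (nat_lit 304) (nat_lit 0) (XT.lf (nat_lit 0) (nat_lit 2856340250) (nat_lit 304) (nat_lit 17470665) (nat_lit 380) (nat_lit 6812218919) (nat_lit 119) (nat_lit 5) (nat_lit 123) (nat_lit 5) (nat_lit 124) (nat_lit 5) (nat_lit 331) (nat_lit 292) (nat_lit 277)) (XT.lf (nat_lit 0) (nat_lit 4635198763) (nat_lit 304) (nat_lit 4165130054) (nat_lit 380) (nat_lit 1131865654) (nat_lit 115) (nat_lit 5) (nat_lit 119) (nat_lit 5) (nat_lit 120) (nat_lit 5) (nat_lit 332) (nat_lit 292) (nat_lit 276)))))) (XT.nd (nat_lit 468) (nat_lit 1368) (nat_lit 0) (XT.nd (nat_lit 234) (nat_lit 1140) (nat_lit 0) (XT.nd (nat_lit 78) (nat_lit 608) (nat_lit 0) (XT.lf (nat_lit 0) (nat_lit 4702490231) (nat_lit 380) (nat_lit 3780404643)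 (nat_lit 76) (nat_lit 1707511502) (nat_lit 110) (nat_lit 5) (nat_lit 115) (nat_lit 5) (nat_lit 111) (nat_lit 5) (nat_lit 333) (nat_lit 292) (nat_lit 275)) (XT.nd (nat_lit 78) (nat_lit 228) (nat_lit 0) (XT.lf (nat_lit 0) (nat_lit 333084621) (nat_lit 380) (nat_lit 2280718386) (nat_lit 76) (nat_lit 7847472015) (nat_lit 105) (nat_lit 5) (nat_lit 110) (nat_lit 5) (nat_lit 106) (nat_lit 5) (nat_lit 334) (nat_lit 292) (nat_lit 274)) (XT.lf (nat_lit 0) (nat_lit 6326811459) (nat_lit 304) (nat_lit 838720595) (nat_lit 76) (nat_lit 3578723597) (nat_lit 102) (nat_lit 5) (nat_lit 106) (nat_lit 5) (nat_lit 103) (nat_lit 5) (nat_lit 335) (nat_lit 292) (nat_lit 273)))) (XT.nd (nat_lit 78) (nat_lit 532) (nat_lit 0) (XT.lf (nat_lit 0) (nat_lit 596384844) (nat_lit 228) (nat_lit 948359178) (nat_lit 304) (nat_lit 9496334384) (nat_lit 94) (nat_lit 5) (nat_lit 97) (nat_lit 5) (nat_lit 98) (nat_lit 5) (nat_lit 336)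 (nat_lit 292) (nat_lit 272)) (XT.nd (nat_lit 78) (nat_lit 304) (nat_lit 0) (XT.lf (nat_lit 0) (nat_lit 1962498850) (nat_lit 228) (nat_lit 5783487181) (nat_lit 304) (nat_lit 3604522468) (nat_lit 91) (nat_lit 5) (nat_lit 94) (nat_lit 5) (nat_lit 95) (nat_lit 5) (nat_lit 337) (nat_lit 292) (nat_lit 271)) (XT.lf (nat_lit 0) (nat_lit 2522324553) (nat_lit 304) (nat_lit 8385495851) (nat_lit 76) (nat_lit 767164204) (nat_lit 87) (nat_lit 5) (nat_lit 91) (nat_lit 5) (nat_lit 88) (nat_lit 5) (nat_lit 338) (nat_lit 292) (nat_lit 270))))) (XT.nd (nat_lit 234) (nat_lit 684) (nat_lit 0) (XT.nd (nat_lit 78) (nat_lit 456) (nat_lit 0) (XT.lf (nat_lit 0) (nat_lit 4512575184) (nat_lit 228) (nat_lit 4406368029) (nat_lit 304) (nat_lit 3094573137) (nat_lit 84) (nat_lit 5) (nat_lit 87) (nat_lit 5) (nat_lit 88) (nat_lit 5) (nat_lit 339) (nat_lit 292) (nat_lit 269)) (XT.nd (nat_lit 78) (nat_lit 228) (nat_lit 0) (XT.lf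 (nat_lit 0) (nat_lit 3210086559) (nat_lit 228) (nat_lit 6709178618) (nat_lit 76) (nat_lit 2448583920) (nat_lit 81) (nat_lit 5) (nat_lit 84) (nat_lit 5) (nat_lit 82) (nat_lit 5) (nat_lit 340) (nat_lit 292) (nat_lit 268)) (XT.lf (nat_lit 0) (nat_lit 6693680502) (nat_lit 228) (nat_lit 3105453471) (nat_lit 304) (nat_lit 2938887451) (nat_lit 78) (nat_lit 5) (nat_lit 81) (nat_lit 5) (nat_lit 82) (nat_lit 5) (nat_lit 341) (nat_lit 292) (nat_lit 267)))) (XT.nd (nat_lit 78) (nat_lit 456) (nat_lit 0) (XT.lf (nat_lit 0) (nat_lit 3553011036) (nat_lit 228) (nat_lit 5521006347) (nat_lit 76) (nat_lit 4050718898) (nat_lit 75) (nat_lit 5) (nat_lit 78) (nat_lit 5) (nat_lit 76) (nat_lit 5) (nat_lit 342) (nat_lit 292) (nat_lit 266)) (XT.nd (nat_lit 78) (nat_lit 228) (nat_lit 0) (XT.lf (nat_lit 0) (nat_lit 8385760657) (nat_lit 228) (nat_lit 1951408933) (nat_lit 304) (nat_lit 3191923371) (nat_lit 72) (nat_lit 5)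 (nat_lit 75) (nat_lit 5) (nat_lit 76) (nat_lit 5) (nat_lit 343) (nat_lit 292) (nat_lit 265)) (XT.lf (nat_lit 0) (nat_lit 3493095514) (nat_lit 228) (nat_lit 4956628409) (nat_lit 76) (nat_lit 5501322438) (nat_lit 69) (nat_lit 5) (nat_lit 72) (nat_lit 5) (nat_lit 70) (nat_lit 5) (nat_lit 344) (nat_lit 292) (nat_lit 264))))))) (XT.nd (nat_lit 936) (nat_lit 1216) (nat_lit 0) (XT.nd (nat_lit 468) (nat_lit 836) (nat_lit 0) (XT.nd (nat_lit 234) (nat_lit 608) (nat_lit 0) (XT.nd (nat_lit 78) (nat_lit 380) (nat_lit 0) (XT.lf (nat_lit 0) (nat_lit 9446004957) (nat_lit 228) (nat_lit 1024889627) (nat_lit 304) (nat_lit 3921546982) (nat_lit 66) (nat_lit 5) (nat_lit 69) (nat_lit 5) (nat_lit 70) (nat_lit 5) (nat_lit 345) (nat_lit 292) (nat_lit 263)) (XT.nd (nat_lit 78) (nat_lit 152) (nat_lit 0) (XT.lf (nat_lit 0) (nat_lit 2958342427) (nat_lit 228) (nat_lit 5177158711) (nat_lit 76) (nat_lit 6717361409) (nat_lit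 63) (nat_lit 5) (nat_lit 66) (nat_lit 5) (nat_lit 64) (nat_lit 5) (nat_lit 346) (nat_lit 292) (nat_lit 262)) (XT.lf (nat_lit 0) (nat_lit 9704371873) (nat_lit 152) (nat_lit 418973236) (nat_lit 228) (nat_lit 5211153098) (nat_lit 61) (nat_lit 5) (nat_lit 63) (nat_lit 5) (nat_lit 64) (nat_lit 5) (nat_lit 347) (nat_lit 292) (nat_lit 261)))) (XT.nd (nat_lit 78) (nat_lit 380) (nat_lit 0) (XT.lf (nat_lit 0) (nat_lit 1860496690) (nat_lit 228) (nat_lit 6374071592) (nat_lit 76) (nat_lit 7602468768) (nat_lit 58) (nat_lit 5) (nat_lit 61) (nat_lit 5) (nat_lit 59) (nat_lit 5) (nat_lit 348) (nat_lit 292) (nat_lit 260)) (XT.nd (nat_lit 78) (nat_lit 228) (nat_lit 0) (XT.lf (nat_lit 0) (nat_lit 8958363998) (nat_lit 152) (nat_lit 241952344) (nat_lit 228) (nat_lit 7162189886) (nat_lit 56) (nat_lit 5) (nat_lit 58) (nat_lit 5) (nat_lit 59) (nat_lit 5) (nat_lit 349) (nat_lit 292) (nat_lit 259)) (XT.lf (nat_lit 0) (nat_lit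 92357263) (nat_lit 228) (nat_lit 8774922664) (nat_lit 76) (nat_lit 8044011239) (nat_lit 53) (nat_lit 5) (nat_lit 56) (nat_lit 5) (nat_lit 54) (nat_lit 5) (nat_lit 350) (nat_lit 292) (nat_lit 258))))) (XT.nd (nat_lit 234) (nat_lit 304) (nat_lit 0) (XT.nd (nat_lit 78) (nat_lit 380) (nat_lit 0) (XT.lf (nat_lit 0) (nat_lit 6966918737) (nat_lit 152) (nat_lit 620556781) (nat_lit 228) (nat_lit 9897152863) (nat_lit 51) (nat_lit 5) (nat_lit 53) (nat_lit 5) (nat_lit 54) (nat_lit 5) (nat_lit 351) (nat_lit 292) (nat_lit 257)) (XT.nd (nat_lit 78) (nat_lit 228) (nat_lit 0) (XT.lf (nat_lit 0) (nat_lit 5409294591) (nat_lit 152) (nat_lit 10149636684) (nat_lit 228) (nat_lit 2524672285) (nat_lit 49) (nat_lit 5) (nat_lit 51) (nat_lit 5) (nat_lit 52) (nat_lit 4) (nat_lit 352) (nat_lit 292) (nat_lit 256)) (XT.lf (nat_lit 0) (nat_lit 3443258863) (nat_lit 152) (nat_lit 1703687071) (nat_lit 228) (nat_lit 13563125259)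 (nat_lit 46) (nat_lit 5) (nat_lit 48) (nat_lit 5) (nat_lit 49) (nat_lit 5) (nat_lit 353) (nat_lit 292) (nat_lit 255)))) (XT.nd (nat_lit 78) (nat_lit 228) (nat_lit 0) (XT.lf (nat_lit 0) (nat_lit 985059806) (nat_lit 76) (nat_lit 12261771583) (nat_lit 152) (nat_lit 6117390242) (nat_lit 45) (nat_lit 5) (nat_lit 46) (nat_lit 5) (nat_lit 47) (nat_lit 4) (nat_lit 354) (nat_lit 292) (nat_lit 254)) (XT.nd (nat_lit 78) (nat_lit 152) (nat_lit 0) (XT.lf (nat_lit 0) (nat_lit 1732052160) (nat_lit 152) (nat_lit 1915359630) (nat_lit 76) (nat_lit 16401254297) (nat_lit 44) (nat_lit 5) (nat_lit 46) (nat_lit 5) (nat_lit 45) (nat_lit 5) (nat_lit 355) (nat_lit 292) (nat_lit 253)) (XT.lf (nat_lit 0) (nat_lit 9943958479) (nat_lit 228) (nat_lit 5399422802) (nat_lit 76) (nat_lit 5419253561) (nat_lit 42) (nat_lit 5) (nat_lit 45) (nat_lit 5) (nat_lit 43) (nat_lit 4) (nat_lit 356) (nat_lit 292) (nat_lit 252)))))) (XT.nd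 (nat_lit 468) (nat_lit 532) (nat_lit 0) (XT.nd (nat_lit 234) (nat_lit 304) (nat_lit 0) (XT.nd (nat_lit 78) (nat_lit 304) (nat_lit 0) (XT.lf (nat_lit 0) (nat_lit 12042440214) (nat_lit 76) (nat_lit 6592936689) (nat_lit 152) (nat_lit 2874871328) (nat_lit 41) (nat_lit 5) (nat_lit 42) (nat_lit 5) (nat_lit 43) (nat_lit 4) (nat_lit 357) (nat_lit 292) (nat_lit 251)) (XT.nd (nat_lit 78) (nat_lit 76) (nat_lit 0) (XT.lf (nat_lit 0) (nat_lit 5417963327) (nat_lit 228) (nat_lit 14224336139) (nat_lit 76) (nat_lit 2649624086) (nat_lit 38) (nat_lit 5) (nat_lit 41) (nat_lit 5) (nat_lit 39) (nat_lit 4) (nat_lit 358) (nat_lit 292) (nat_lit 250)) (XT.lf (nat_lit 0) (nat_lit 3353763156) (nat_lit 76) (nat_lit 10810866669) (nat_lit 152) (nat_lit 8944251551) (nat_lit 37) (nat_lit 5) (nat_lit 38) (nat_lit 5) (nat_lit 39) (nat_lit 4) (nat_lit 359) (nat_lit 292) (nat_lit 249)))) (XT.nd (nat_lit 78) (nat_lit 304) (nat_lit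 0) (XT.lf (nat_lit 0) (nat_lit 21930261628) (nat_lit 76) (nat_lit 1468690080) (nat_lit 152) (nat_lit 566237212) (nat_lit 37) (nat_lit 5) (nat_lit 38) (nat_lit 5) (nat_lit 39) (nat_lit 4) (nat_lit 360) (nat_lit 292) (nat_lit 248)) (XT.nd (nat_lit 78) (nat_lit 76) (nat_lit 0) (XT.lf (nat_lit 0) (nat_lit 8219418241) (nat_lit 228) (nat_lit 8295871591) (nat_lit 76) (nat_lit 8342178568) (nat_lit 34) (nat_lit 5) (nat_lit 37) (nat_lit 5) (nat_lit 35) (nat_lit 4) (nat_lit 361) (nat_lit 292) (nat_lit 247)) (XT.lf (nat_lit 0) (nat_lit 10349756201) (nat_lit 76) (nat_lit 7128088216) (nat_lit 152) (nat_lit 8315003407) (nat_lit 33) (nat_lit 5) (nat_lit 34) (nat_lit 5) (nat_lit 35) (nat_lit 4) (nat_lit 362) (nat_lit 292) (nat_lit 246))))) (XT.nd (nat_lit 234) (nat_lit 228) (nat_lit 0) (XT.nd (nat_lit 78) (nat_lit 76) (nat_lit 0) (XT.lf (nat_lit 0) (nat_lit 471298809) (nat_lit 228) (nat_lit 23579332497) (nat_lit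 76) (nat_lit 2722590520) (nat_lit 30) (nat_lit 5) (nat_lit 33) (nat_lit 5) (nat_lit 31) (nat_lit 4) (nat_lit 363) (nat_lit 292) (nat_lit 245)) (XT.nd (nat_lit 78) (nat_lit 76) (nat_lit 0) (XT.lf (nat_lit 0) (nat_lit 9672475320) (nat_lit 228) (nat_lit 5032135290) (nat_lit 76) (nat_lit 13091117239) (nat_lit 30) (nat_lit 5) (nat_lit 33) (nat_lit 5) (nat_lit 31) (nat_lit 4) (nat_lit 364) (nat_lit 292) (nat_lit 244)) (XT.lf (nat_lit 0) (nat_lit 14572226380) (nat_lit 76) (nat_lit 4819118686) (nat_lit 152) (nat_lit 9476293561) (nat_lit 29) (nat_lit 5) (nat_lit 30) (nat_lit 5) (nat_lit 31) (nat_lit 4) (nat_lit 365) (nat_lit 292) (nat_lit 243)))) (XT.nd (nat_lit 78) (nat_lit 152) (nat_lit 0) (XT.lf (nat_lit 0) (nat_lit 5165347092) (nat_lit 76) (nat_lit 24505595911) (nat_lit 76) (nat_lit 319966483) (nat_lit 28) (nat_lit 4) (nat_lit 29) (nat_lit 5) (nat_lit 29) (nat_lit 4) (nat_lit 366) (nat_lit 292) (nat_lit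 242)) (XT.nd (nat_lit 78) (nat_lit 76) (nat_lit 0) (XT.lf (nat_lit 0) (nat_lit 9231075815) (nat_lit 152) (nat_lit 5556572527) (nat_lit 76) (nat_lit 16376474927) (nat_lit 27) (nat_lit 5) (nat_lit 29) (nat_lit 5) (nat_lit 28) (nat_lit 4) (nat_lit 367) (nat_lit 292) (nat_lit 241)) (XT.lf (nat_lit 0) (nat_lit 14819843959) (nat_lit 76) (nat_lit 4500494964) (nat_lit 152) (nat_lit 13073552313) (nat_lit 26) (nat_lit 5) (nat_lit 27) (nat_lit 5) (nat_lit 28) (nat_lit 4) (nat_lit 368) (nat_lit 292) (nat_lit 240))))))))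
noncomputable def xc35 : XT := (XT.nd (nat_lit 1872) (nat_lit 152) (nat_lit 0) (XT.nd (nat_lit 936) (nat_lit 532) (nat_lit 0) (XT.nd (nat_lit 468) (nat_lit 304) (nat_lit 0) (XT.nd (nat_lit 234) (nat_lit 152) (nat_lit 0) (XT.nd (nat_lit 78) (nat_lit 152) (nat_lit 0) (XT.lf (nat_lit 0) (nat_lit 2495849261) (nat_lit 76) (nat_lit 27486942913) (nat_lit 76) (nat_lit 3700300396) (nat_lit 25) (nat_lit 4) (nat_lit 26) (nat_lit 5) (nat_lit 26) (nat_lit 4) (nat_lit 369) (nat_lit 292) (nat_lit 239)) (XT.nd (nat_lit 78) (nat_lit 76) (nat_lit 0) (XT.lf (nat_lit 0) (nat_lit 6177783131) (nat_lit 152) (nat_lit 11338019907) (nat_lit 76) (nat_lit 17514505671) (nat_lit 24) (nat_lit 5) (nat_lit 26) (nat_lit 5) (nat_lit 25) (nat_lit 4) (nat_lit 370) (nat_lit 292) (nat_lit 238)) (XT.lf (nat_lit 0) (nat_lit 9521712862) (nat_lit 76) (nat_lit 6975092815) (nat_lit 152) (nat_lit 19946279967) (nat_lit 23) (nat_lit 5) (nat_lit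 24) (nat_lit 5) (nat_lit 25) (nat_lit 4) (nat_lit 371) (nat_lit 292) (nat_lit 237)))) (XT.nd (nat_lit 78) (nat_lit 152) (nat_lit 0) (XT.lf (nat_lit 0) (nat_lit 27421789295) (nat_lit 152) (nat_lit 6430228958) (nat_lit 0) (nat_lit 4071788559) (nat_lit 23) (nat_lit 5) (nat_lit 25) (nat_lit 4) (nat_lit 23) (nat_lit 4) (nat_lit 372) (nat_lit 292) (nat_lit 236)) (XT.nd (nat_lit 78) (nat_lit 76) (nat_lit 0) (XT.lf (nat_lit 0) (nat_lit 15189476102) (nat_lit 76) (nat_lit 23855956262) (nat_lit 76) (nat_lit 428564779) (nat_lit 22) (nat_lit 4) (nat_lit 23) (nat_lit 5) (nat_lit 23) (nat_lit 4) (nat_lit 373) (nat_lit 292) (nat_lit 235)) (XT.lf (nat_lit 0) (nat_lit 9954661744) (nat_lit 152) (nat_lit 3293133615) (nat_lit 76) (nat_lit 27850855929) (nat_lit 21) (nat_lit 5) (nat_lit 23) (nat_lit 5) (nat_lit 22) (nat_lit 4) (nat_lit 374) (nat_lit 292) (nat_lit 234))))) (XT.nd (nat_lit 234) (nat_lit 152) (nat_lit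 0) (XT.nd (nat_lit 78) (nat_lit 76) (nat_lit 0) (XT.lf (nat_lit 0) (nat_lit 19000210435) (nat_lit 76) (nat_lit 1970973349) (nat_lit 152) (nat_lit 21829541902) (nat_lit 20) (nat_lit 5) (nat_lit 21) (nat_lit 5) (nat_lit 22) (nat_lit 4) (nat_lit 375) (nat_lit 292) (nat_lit 233)) (XT.nd (nat_lit 78) (nat_lit 76) (nat_lit 0) (XT.lf (nat_lit 0) (nat_lit 32609185861) (nat_lit 152) (nat_lit 2317073010) (nat_lit 0) (nat_lit 9659529855) (nat_lit 20) (nat_lit 5) (nat_lit 22) (nat_lit 4) (nat_lit 20) (nat_lit 4) (nat_lit 376) (nat_lit 292) (nat_lit 232)) (XT.lf (nat_lit 0) (nat_lit 20514273714) (nat_lit 76) (nat_lit 24476232054) (nat_lit 76) (nat_lit 1464760942) (nat_lit 19) (nat_lit 4) (nat_lit 20) (nat_lit 5) (nat_lit 20) (nat_lit 4) (nat_lit 377) (nat_lit 292) (nat_lit 231)))) (XT.nd (nat_lit 78) (nat_lit 76) (nat_lit 0) (XT.lf (nat_lit 0) (nat_lit 9355408673) (nat_lit 152) (nat_lit 4078863035) (nat_lit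 76) (nat_lit 34982104346) (nat_lit 18) (nat_lit 5) (nat_lit 20) (nat_lit 5) (nat_lit 19) (nat_lit 4) (nat_lit 378) (nat_lit 292) (nat_lit 230)) (XT.nd (nat_lit 78) (nat_lit 0) (nat_lit 0) (XT.lf (nat_lit 0) (nat_lit 19135260189) (nat_lit 76) (nat_lit 1683296931) (nat_lit 152) (nat_lit 29652584559) (nat_lit 17) (nat_lit 5) (nat_lit 18) (nat_lit 5) (nat_lit 19) (nat_lit 4) (nat_lit 379) (nat_lit 292) (nat_lit 229)) (XT.lf (nat_lit 0) (nat_lit 32948830464) (nat_lit 152) (nat_lit 9232838172) (nat_lit 0) (nat_lit 10444161552) (nat_lit 17) (nat_lit 5) (nat_lit 19) (nat_lit 4) (nat_lit 17) (nat_lit 4) (nat_lit 380) (nat_lit 292) (nat_lit 228)))))) (XT.nd (nat_lit 468) (nat_lit 228) (nat_lit 0) (XT.nd (nat_lit 234) (nat_lit 76) (nat_lit 0) (XT.nd (nat_lit 78) (nat_lit 152) (nat_lit 0) (XT.lf (nat_lit 0) (nat_lit 14141035866) (nat_lit 76) (nat_lit 31649064673) (nat_lit 76) (nat_lit 9095021546) (nat_lit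 16) (nat_lit 4) (nat_lit 17) (nat_lit 5) (nat_lit 17) (nat_lit 4) (nat_lit 381) (nat_lit 292) (nat_lit 227)) (XT.nd (nat_lit 78) (nat_lit 76) (nat_lit 0) (XT.lf (nat_lit 0) (nat_lit 2025227954) (nat_lit 152) (nat_lit 18489853441) (nat_lit 76) (nat_lit 36740263601) (nat_lit 15) (nat_lit 5) (nat_lit 17) (nat_lit 5) (nat_lit 16) (nat_lit 4) (nat_lit 382) (nat_lit 292) (nat_lit 226)) (XT.lf (nat_lit 0) (nat_lit 4791605278) (nat_lit 76) (nat_lit 8724382571) (nat_lit 152) (nat_lit 46225314846) (nat_lit 14) (nat_lit 5) (nat_lit 15) (nat_lit 5) (nat_lit 16) (nat_lit 4) (nat_lit 383) (nat_lit 292) (nat_lit 225)))) (XT.nd (nat_lit 78) (nat_lit 76) (nat_lit 0) (XT.lf (nat_lit 0) (nat_lit 25764384287) (nat_lit 152) (nat_lit 32844970870) (nat_lit 0) (nat_lit 3736713063) (nat_lit 14) (nat_lit 5) (nat_lit 16) (nat_lit 4) (nat_lit 14) (nat_lit 4) (nat_lit 384) (nat_lit 292) (nat_lit 224)) (XT.nd (nat_lit 78)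 (nat_lit 76) (nat_lit 0) (XT.lf (nat_lit 0) (nat_lit 38671100728) (nat_lit 152) (nat_lit 9804604714) (nat_lit 0) (nat_lit 16603992332) (nat_lit 14) (nat_lit 5) (nat_lit 16) (nat_lit 4) (nat_lit 14) (nat_lit 4) (nat_lit 385) (nat_lit 292) (nat_lit 223)) (XT.lf (nat_lit 0) (nat_lit 14594922676) (nat_lit 76) (nat_lit 37728375998) (nat_lit 76) (nat_lit 15623708389) (nat_lit 13) (nat_lit 4) (nat_lit 14) (nat_lit 5) (nat_lit 14) (nat_lit 4) (nat_lit 386) (nat_lit 292) (nat_lit 222))))) (XT.nd (nat_lit 234) (nat_lit 76) (nat_lit 0) (XT.nd (nat_lit 78) (nat_lit 152) (nat_lit 0) (XT.lf (nat_lit 0) (nat_lit 40343883267) (nat_lit 76) (nat_lit 26376190167) (nat_lit 76) (nat_lit 4235751878) (nat_lit 13) (nat_lit 4) (nat_lit 14) (nat_lit 5) (nat_lit 14) (nat_lit 4) (nat_lit 387) (nat_lit 292) (nat_lit 221)) (XT.nd (nat_lit 78) (nat_lit 76) (nat_lit 0) (XT.lf (nat_lit 0) (nat_lit 7533448977) (nat_lit 152)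 (nat_lit 6881604176) (nat_lit 76) (nat_lit 59698931207) (nat_lit 12) (nat_lit 5) (nat_lit 14) (nat_lit 5) (nat_lit 13) (nat_lit 4) (nat_lit 388) (nat_lit 292) (nat_lit 220)) (XT.lf (nat_lit 0) (nat_lit 18280077970) (nat_lit 76) (nat_lit 1664271109) (nat_lit 152) (nat_lit 57480221110) (nat_lit 11) (nat_lit 5) (nat_lit 12) (nat_lit 5) (nat_lit 13) (nat_lit 4) (nat_lit 389) (nat_lit 292) (nat_lit 219)))) (XT.nd (nat_lit 78) (nat_lit 76) (nat_lit 0) (XT.lf (nat_lit 0) (nat_lit 33125083446) (nat_lit 152) (nat_lit 36236188168) (nat_lit 0) (nat_lit 11534937117) (nat_lit 11) (nat_lit 5) (nat_lit 13) (nat_lit 4) (nat_lit 11) (nat_lit 4) (nat_lit 390) (nat_lit 292) (nat_lit 218)) (XT.nd (nat_lit 78) (nat_lit 76) (nat_lit 0) (XT.lf (nat_lit 0) (nat_lit 46948365840) (nat_lit 152) (nat_lit 12263911989) (nat_lit 0) (nat_lit 25329648029) (nat_lit 11) (nat_lit 5) (nat_lit 13) (nat_lit 4) (nat_lit 11) (nat_lit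 4) (nat_lit 391) (nat_lit 292) (nat_lit 217)) (XT.lf (nat_lit 0) (nat_lit 13101060024) (nat_lit 76) (nat_lit 48455986226) (nat_lit 76) (nat_lit 26810057479) (nat_lit 10) (nat_lit 4) (nat_lit 11) (nat_lit 5) (nat_lit 11) (nat_lit 4) (nat_lit 392) (nat_lit 292) (nat_lit 216))))))) (XT.nd (nat_lit 41340) (nat_lit 0) (nat_lit 7752) (XT.nd (nat_lit 40872) (nat_lit 0) (nat_lit 13528) (XT.nd (nat_lit 234) (nat_lit 76) (nat_lit 0) (XT.nd (nat_lit 78) (nat_lit 76) (nat_lit 0) (XT.lf (nat_lit 0) (nat_lit 39930758288) (nat_lit 76) (nat_lit 37060881780) (nat_lit 76) (nat_lit 15389037857) (nat_lit 10) (nat_lit 4) (nat_lit 11) (nat_lit 5) (nat_lit 11) (nat_lit 4) (nat_lit 393) (nat_lit 292) (nat_lit 215)) (XT.nd (nat_lit 78) (nat_lit 76) (nat_lit 0) (XT.lf (nat_lit 0) (nat_lit 68044987140) (nat_lit 76) (nat_lit 25123674755) (nat_lit 76) (nat_lit 3427149712) (nat_lit 10) (nat_lit 4) (nat_lit 11) (nat_lit 5)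 (nat_lit 11) (nat_lit 4) (nat_lit 394) (nat_lit 292) (nat_lit 214)) (XT.lf (nat_lit 0) (nat_lit 8926434099) (nat_lit 152) (nat_lit 3599369649) (nat_lit 76) (nat_lit 88494111640) (nat_lit 9) (nat_lit 5) (nat_lit 11) (nat_lit 5) (nat_lit 10) (nat_lit 4) (nat_lit 395) (nat_lit 292) (nat_lit 213)))) (XT.nd (nat_lit 40482) (nat_lit 0) (nat_lit 19608) (XT.lf (nat_lit 0) (nat_lit 22030381274) (nat_lit 152) (nat_lit 82706481560) (nat_lit 0) (nat_lit 921238192) (nat_lit 8) (nat_lit 5) (nat_lit 10) (nat_lit 4) (nat_lit 8) (nat_lit 4) (nat_lit 396) (nat_lit 292) (nat_lit 212)) (XT.nd (nat_lit 78) (nat_lit 1140) (nat_lit 0) (XT.lf (nat_lit 0) (nat_lit 2942081507) (nat_lit 988) (nat_lit 285759248) (nat_lit 988) (nat_lit 285759248) (nat_lit 281) (nat_lit 4) (nat_lit 294) (nat_lit 5) (nat_lit 294) (nat_lit 4) (nat_lit 314) (nat_lit 293) (nat_lit 293)) (XT.lf (nat_lit 0) (nat_lit 4976963576) (nat_lit 1140)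 (nat_lit 18875905) (nat_lit 0) (nat_lit 2119890274) (nat_lit 266) (nat_lit 5) (nat_lit 281) (nat_lit 4) (nat_lit 266) (nat_lit 4) (nat_lit 315) (nat_lit 293) (nat_lit 292))))) (XT.nd (nat_lit 234) (nat_lit 2356) (nat_lit 0) (XT.nd (nat_lit 78) (nat_lit 1292) (nat_lit 0) (XT.lf (nat_lit 0) (nat_lit 1224849621) (nat_lit 1216) (nat_lit 2126354868) (nat_lit 1292) (nat_lit 3861306062) (nat_lit 234) (nat_lit 5) (nat_lit 250) (nat_lit 5) (nat_lit 251) (nat_lit 4) (nat_lit 316) (nat_lit 293) (nat_lit 291)) (XT.nd (nat_lit 78) (nat_lit 608) (nat_lit 0) (XT.lf (nat_lit 0) (nat_lit 1564628880) (nat_lit 684) (nat_lit 4755400653) (nat_lit 76) (nat_lit 997899898) (nat_lit 225) (nat_lit 5) (nat_lit 234) (nat_lit 5) (nat_lit 226) (nat_lit 4) (nat_lit 317) (nat_lit 293) (nat_lit 290)) (XT.lf (nat_lit 0) (nat_lit 3976896651) (nat_lit 608) (nat_lit 3069732116) (nat_lit 684) (nat_lit 385067536) (nat_lit 217) (nat_lit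 5) (nat_lit 225) (nat_lit 5) (nat_lit 226) (nat_lit 4) (nat_lit 318) (nat_lit 293) (nat_lit 289)))) (XT.nd (nat_lit 78) (nat_lit 1672) (nat_lit 0) (XT.lf (nat_lit 0) (nat_lit 5004773901) (nat_lit 684) (nat_lit 2082851928) (nat_lit 76) (nat_lit 466491515) (nat_lit 208) (nat_lit 5) (nat_lit 217) (nat_lit 5) (nat_lit 209) (nat_lit 4) (nat_lit 319) (nat_lit 293) (nat_lit 288)) (XT.nd (nat_lit 78) (nat_lit 1064) (nat_lit 0) (XT.lf (nat_lit 0) (nat_lit 2807387993) (nat_lit 608) (nat_lit 651260001) (nat_lit 76) (nat_lit 4226424239) (nat_lit 200) (nat_lit 5) (nat_lit 208) (nat_lit 5) (nat_lit 201) (nat_lit 5) (nat_lit 320) (nat_lit 293) (nat_lit 287)) (XT.lf (nat_lit 0) (nat_lit 428552419) (nat_lit 532) (nat_lit 6942378801) (nat_lit 76) (nat_lit 454393863) (nat_lit 186) (nat_lit 5) (nat_lit 193) (nat_lit 5) (nat_lit 187) (nat_lit 5) (nat_lit 321) (nat_lit 293) (nat_lit 286)))))) (XT.nd (nat_lit 468)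 (nat_lit 2508) (nat_lit 0) (XT.nd (nat_lit 234) (nat_lit 1672) (nat_lit 0) (XT.nd (nat_lit 78) (nat_lit 1064) (nat_lit 0) (XT.lf (nat_lit 0) (nat_lit 2464117660) (nat_lit 532) (nat_lit 3356209050) (nat_lit 608) (nat_lit 2153304466) (nat_lit 179) (nat_lit 5) (nat_lit 186) (nat_lit 5) (nat_lit 187) (nat_lit 5) (nat_lit 322) (nat_lit 293) (nat_lit 285)) (XT.nd (nat_lit 78) (nat_lit 532) (nat_lit 0) (XT.lf (nat_lit 0) (nat_lit 3182018274) (nat_lit 532) (nat_lit 4011744207) (nat_lit 76) (nat_lit 937883732) (nat_lit 172) (nat_lit 5) (nat_lit 179) (nat_lit 5) (nat_lit 173) (nat_lit 5) (nat_lit 323) (nat_lit 293) (nat_lit 284)) (XT.lf (nat_lit 0) (nat_lit 362553551) (nat_lit 532) (nat_lit 2470288090) (nat_lit 76) (nat_lit 5466201670) (nat_lit 165) (nat_lit 5) (nat_lit 172) (nat_lit 5) (nat_lit 166) (nat_lit 5) (nat_lit 324) (nat_lit 293) (nat_lit 283)))) (XT.nd (nat_lit 78) (nat_lit 1292) (nat_lit 0)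 (XT.lf (nat_lit 0) (nat_lit 5758871720) (nat_lit 456) (nat_lit 896488149) (nat_lit 76) (nat_lit 1820453175) (nat_lit 160) (nat_lit 5) (nat_lit 166) (nat_lit 5) (nat_lit 161) (nat_lit 5) (nat_lit 325) (nat_lit 293) (nat_lit 282)) (XT.nd (nat_lit 78) (nat_lit 380) (nat_lit 0) (XT.lf (nat_lit 0) (nat_lit 732482228) (nat_lit 380) (nat_lit 1922601069) (nat_lit 456) (nat_lit 6007270475) (nat_lit 148) (nat_lit 5) (nat_lit 153) (nat_lit 5) (nat_lit 154) (nat_lit 5) (nat_lit 326) (nat_lit 293) (nat_lit 281)) (XT.lf (nat_lit 0) (nat_lit 2415201093) (nat_lit 380) (nat_lit 5780713404) (nat_lit 456) (nat_lit 662896011) (nat_lit 143) (nat_lit 5) (nat_lit 148) (nat_lit 5) (nat_lit 149) (nat_lit 5) (nat_lit 327) (nat_lit 293) (nat_lit 280))))) (XT.nd (nat_lit 234) (nat_lit 1368) (nat_lit 0) (XT.nd (nat_lit 78) (nat_lit 760) (nat_lit 0) (XT.lf (nat_lit 0) (nat_lit 4120336145) (nat_lit 304) (nat_lit 674666896)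 (nat_lit 380) (nat_lit 4270454999) (nat_lit 138) (nat_lit 5) (nat_lit 142) (nat_lit 5) (nat_lit 143) (nat_lit 5) (nat_lit 328) (nat_lit 293) (nat_lit 279)) (XT.nd (nat_lit 78) (nat_lit 304) (nat_lit 0) (XT.lf (nat_lit 0) (nat_lit 1181640422) (nat_lit 456) (nat_lit 3436196577) (nat_lit 76) (nat_lit 4664850721) (nat_lit 132) (nat_lit 5) (nat_lit 138) (nat_lit 5) (nat_lit 133) (nat_lit 5) (nat_lit 329) (nat_lit 293) (nat_lit 278)) (XT.lf (nat_lit 0) (nat_lit 6770585394) (nat_lit 380) (nat_lit 1915846644) (nat_lit 76) (nat_lit 824573004) (nat_lit 128) (nat_lit 5) (nat_lit 133) (nat_lit 5) (nat_lit 129) (nat_lit 5) (nat_lit 330) (nat_lit 293) (nat_lit 277)))) (XT.nd (nat_lit 78) (nat_lit 988) (nat_lit 0) (XT.lf (nat_lit 0) (nat_lit 2822203404) (nat_lit 380) (nat_lit 405982457) (nat_lit 76) (nat_lit 6522075892) (nat_lit 123) (nat_lit 5) (nat_lit 128) (nat_lit 5) (nat_lit 124) (nat_lit 5) (nat_lit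 331) (nat_lit 293) (nat_lit 276)) (XT.nd (nat_lit 78) (nat_lit 380) (nat_lit 0) (XT.lf (nat_lit 0) (nat_lit 1131647473) (nat_lit 304) (nat_lit 7460269681) (nat_lit 380) (nat_lit 1409244091) (nat_lit 115) (nat_lit 5) (nat_lit 119) (nat_lit 5) (nat_lit 120) (nat_lit 5) (nat_lit 332) (nat_lit 293) (nat_lit 275)) (XT.lf (nat_lit 0) (nat_lit 2654460520) (nat_lit 304) (nat_lit 1636917275) (nat_lit 380) (nat_lit 5972278161) (nat_lit 110) (nat_lit 5) (nat_lit 114) (nat_lit 5) (nat_lit 115) (nat_lit 5) (nat_lit 333) (nat_lit 293) (nat_lit 274))))))))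
noncomputable def xc36 : XT := (XT.nd (nat_lit 1794) (nat_lit 1900) (nat_lit 0) (XT.nd (nat_lit 858) (nat_lit 2052) (nat_lit 0) (XT.nd (nat_lit 390) (nat_lit 1596) (nat_lit 0) (XT.nd (nat_lit 156) (nat_lit 912) (nat_lit 0) (XT.nd (nat_lit 78) (nat_lit 304) (nat_lit 0) (XT.lf (nat_lit 0) (nat_lit 4164713232) (nat_lit 304) (nat_lit 6087238152) (nat_lit 380) (nat_lit 286838931) (nat_lit 106) (nat_lit 5) (nat_lit 110) (nat_lit 5) (nat_lit 111) (nat_lit 5) (nat_lit 334) (nat_lit 293) (nat_lit 273)) (XT.lf (nat_lit 0) (nat_lit 5555212554) (nat_lit 304) (nat_lit 5186011738) (nat_lit 76) (nat_lit 85372572) (nat_lit 102) (nat_lit 5) (nat_lit 106) (nat_lit 5) (nat_lit 103) (nat_lit 5) (nat_lit 335) (nat_lit 293) (nat_lit 272))) (XT.nd (nat_lit 78) (nat_lit 532) (nat_lit 0) (XT.lf (nat_lit 0) (nat_lit 577267887) (nat_lit 380) (nat_lit 4052252409) (nat_lit 76) (nat_lit 6498074701) (nat_lit 97) (nat_lit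 5) (nat_lit 102) (nat_lit 5) (nat_lit 98) (nat_lit 5) (nat_lit 336) (nat_lit 293) (nat_lit 271)) (XT.nd (nat_lit 78) (nat_lit 304) (nat_lit 0) (XT.lf (nat_lit 0) (nat_lit 6604954369) (nat_lit 304) (nat_lit 2983480193) (nat_lit 76) (nat_lit 1853819230) (nat_lit 94) (nat_lit 5) (nat_lit 98) (nat_lit 5) (nat_lit 95) (nat_lit 5) (nat_lit 337) (nat_lit 293) (nat_lit 270)) (XT.lf (nat_lit 0) (nat_lit 1167474819) (nat_lit 304) (nat_lit 1977348586) (nat_lit 76) (nat_lit 8626666239) (nat_lit 90) (nat_lit 5) (nat_lit 94) (nat_lit 5) (nat_lit 91) (nat_lit 5) (nat_lit 338) (nat_lit 293) (nat_lit 269))))) (XT.nd (nat_lit 234) (nat_lit 684) (nat_lit 0) (XT.nd (nat_lit 78) (nat_lit 684) (nat_lit 0) (XT.lf (nat_lit 0) (nat_lit 7395615940) (nat_lit 304) (nat_lit 1070997526) (nat_lit 76) (nat_lit 3648481651) (nat_lit 87) (nat_lit 5) (nat_lit 91) (nat_lit 5) (nat_lit 88) (nat_lit 5) (nat_lit 339) (nat_lit 293)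 (nat_lit 268)) (XT.nd (nat_lit 78) (nat_lit 380) (nat_lit 0) (XT.lf (nat_lit 0) (nat_lit 1454054736) (nat_lit 304) (nat_lit 239192495) (nat_lit 76) (nat_lit 10781552168) (nat_lit 83) (nat_lit 5) (nat_lit 87) (nat_lit 5) (nat_lit 84) (nat_lit 5) (nat_lit 340) (nat_lit 293) (nat_lit 267)) (XT.lf (nat_lit 0) (nat_lit 459809508) (nat_lit 228) (nat_lit 7433068778) (nat_lit 304) (nat_lit 4956617244) (nat_lit 78) (nat_lit 5) (nat_lit 81) (nat_lit 5) (nat_lit 82) (nat_lit 5) (nat_lit 341) (nat_lit 293) (nat_lit 266)))) (XT.nd (nat_lit 78) (nat_lit 456) (nat_lit 0) (XT.lf (nat_lit 0) (nat_lit 1073576021) (nat_lit 152) (nat_lit 328144655) (nat_lit 228) (nat_lit 11840275395) (nat_lit 75) (nat_lit 5) (nat_lit 77) (nat_lit 5) (nat_lit 78) (nat_lit 5) (nat_lit 342) (nat_lit 293) (nat_lit 265)) (XT.nd (nat_lit 78) (nat_lit 228) (nat_lit 0) (XT.lf (nat_lit 0) (nat_lit 1491832723) (nat_lit 228) (nat_lit 6556372875)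 (nat_lit 304) (nat_lit 5602292408) (nat_lit 72) (nat_lit 5) (nat_lit 75) (nat_lit 5) (nat_lit 76) (nat_lit 5) (nat_lit 343) (nat_lit 293) (nat_lit 264)) (XT.lf (nat_lit 0) (nat_lit 947725937) (nat_lit 228) (nat_lit 12283961616) (nat_lit 76) (nat_lit 846933931) (nat_lit 69) (nat_lit 5) (nat_lit 72) (nat_lit 5) (nat_lit 70) (nat_lit 5) (nat_lit 344) (nat_lit 293) (nat_lit 263)))))) (XT.nd (nat_lit 468) (nat_lit 1064) (nat_lit 0) (XT.nd (nat_lit 234) (nat_lit 380) (nat_lit 0) (XT.nd (nat_lit 78) (nat_lit 380) (nat_lit 0) (XT.lf (nat_lit 0) (nat_lit 1859168476) (nat_lit 228) (nat_lit 5928369077) (nat_lit 304) (nat_lit 6736632011) (nat_lit 66) (nat_lit 5) (nat_lit 69) (nat_lit 5) (nat_lit 70) (nat_lit 5) (nat_lit 345) (nat_lit 293) (nat_lit 262)) (XT.nd (nat_lit 78) (nat_lit 152) (nat_lit 0) (XT.lf (nat_lit 0) (nat_lit 9470398) (nat_lit 228) (nat_lit 13221613530) (nat_lit 76) (nat_lit 1759992263)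 (nat_lit 63) (nat_lit 5) (nat_lit 66) (nat_lit 5) (nat_lit 64) (nat_lit 5) (nat_lit 346) (nat_lit 293) (nat_lit 261)) (XT.lf (nat_lit 0) (nat_lit 1389839727) (nat_lit 152) (nat_lit 5642649200) (nat_lit 228) (nat_lit 8444494118) (nat_lit 61) (nat_lit 5) (nat_lit 63) (nat_lit 5) (nat_lit 64) (nat_lit 5) (nat_lit 347) (nat_lit 293) (nat_lit 260)))) (XT.nd (nat_lit 78) (nat_lit 228) (nat_lit 0) (XT.lf (nat_lit 0) (nat_lit 799399663) (nat_lit 152) (nat_lit 13650638998) (nat_lit 228) (nat_lit 1535867956) (nat_lit 59) (nat_lit 5) (nat_lit 61) (nat_lit 5) (nat_lit 62) (nat_lit 4) (nat_lit 348) (nat_lit 293) (nat_lit 259)) (XT.nd (nat_lit 78) (nat_lit 152) (nat_lit 0) (XT.lf (nat_lit 0) (nat_lit 5688569279) (nat_lit 228) (nat_lit 118390170) (nat_lit 76) (nat_lit 10709230114) (nat_lit 58) (nat_lit 5) (nat_lit 61) (nat_lit 5) (nat_lit 59) (nat_lit 5) (nat_lit 349) (nat_lit 293) (nat_lit 258)) (XT.lf (nat_lit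 0) (nat_lit 13303065430) (nat_lit 228) (nat_lit 1303402949) (nat_lit 76) (nat_lit 2464264108) (nat_lit 56) (nat_lit 5) (nat_lit 59) (nat_lit 5) (nat_lit 57) (nat_lit 4) (nat_lit 350) (nat_lit 293) (nat_lit 257))))) (XT.nd (nat_lit 234) (nat_lit 456) (nat_lit 0) (XT.nd (nat_lit 78) (nat_lit 380) (nat_lit 0) (XT.lf (nat_lit 0) (nat_lit 3664513993) (nat_lit 228) (nat_lit 2859011291) (nat_lit 76) (nat_lit 11125733718) (nat_lit 53) (nat_lit 5) (nat_lit 56) (nat_lit 5) (nat_lit 54) (nat_lit 5) (nat_lit 351) (nat_lit 293) (nat_lit 256)) (XT.nd (nat_lit 78) (nat_lit 228) (nat_lit 0) (XT.lf (nat_lit 0) (nat_lit 11443678967) (nat_lit 228) (nat_lit 4786679257) (nat_lit 76) (nat_lit 2023653300) (nat_lit 51) (nat_lit 5) (nat_lit 54) (nat_lit 5) (nat_lit 52) (nat_lit 4) (nat_lit 352) (nat_lit 293) (nat_lit 255)) (XT.lf (nat_lit 0) (nat_lit 810346254) (nat_lit 228) (nat_lit 7142704907) (nat_lit 76) (nat_lit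 10932708900) (nat_lit 48) (nat_lit 5) (nat_lit 51) (nat_lit 5) (nat_lit 49) (nat_lit 5) (nat_lit 353) (nat_lit 293) (nat_lit 254)))) (XT.nd (nat_lit 78) (nat_lit 304) (nat_lit 0) (XT.lf (nat_lit 0) (nat_lit 8717154028) (nat_lit 228) (nat_lit 9975067007) (nat_lit 76) (nat_lit 853489384) (nat_lit 46) (nat_lit 5) (nat_lit 49) (nat_lit 5) (nat_lit 47) (nat_lit 4) (nat_lit 354) (nat_lit 293) (nat_lit 253)) (XT.nd (nat_lit 78) (nat_lit 228) (nat_lit 0) (XT.lf (nat_lit 0) (nat_lit 6899128100) (nat_lit 76) (nat_lit 10237903453) (nat_lit 152) (nat_lit 3098109676) (nat_lit 45) (nat_lit 5) (nat_lit 46) (nat_lit 5) (nat_lit 47) (nat_lit 4) (nat_lit 355) (nat_lit 293) (nat_lit 252)) (XT.lf (nat_lit 0) (nat_lit 3709004044) (nat_lit 152) (nat_lit 1250317676) (nat_lit 228) (nat_lit 15997136281) (nat_lit 42) (nat_lit 5) (nat_lit 44) (nat_lit 5) (nat_lit 45) (nat_lit 5) (nat_lit 356) (nat_lit 293) (nat_lit 251)))))))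 (XT.nd (nat_lit 936) (nat_lit 760) (nat_lit 0) (XT.nd (nat_lit 468) (nat_lit 532) (nat_lit 0) (XT.nd (nat_lit 234) (nat_lit 304) (nat_lit 0) (XT.nd (nat_lit 78) (nat_lit 304) (nat_lit 0) (XT.lf (nat_lit 0) (nat_lit 13474846402) (nat_lit 228) (nat_lit 116632677) (nat_lit 76) (nat_lit 8117875488) (nat_lit 42) (nat_lit 5) (nat_lit 45) (nat_lit 5) (nat_lit 43) (nat_lit 4) (nat_lit 357) (nat_lit 293) (nat_lit 250)) (XT.nd (nat_lit 78) (nat_lit 152) (nat_lit 0) (XT.lf (nat_lit 0) (nat_lit 10858539) (nat_lit 152) (nat_lit 4459097937) (nat_lit 76) (nat_lit 18027186514) (nat_lit 40) (nat_lit 5) (nat_lit 42) (nat_lit 5) (nat_lit 41) (nat_lit 5) (nat_lit 358) (nat_lit 293) (nat_lit 249)) (XT.lf (nat_lit 0) (nat_lit 8592122216) (nat_lit 228) (nat_lit 9575257707) (nat_lit 76) (nat_lit 5151688581) (nat_lit 38) (nat_lit 5) (nat_lit 41) (nat_lit 5) (nat_lit 39) (nat_lit 4) (nat_lit 359) (nat_lit 293) (nat_lit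 248)))) (XT.nd (nat_lit 78) (nat_lit 228) (nat_lit 0) (XT.lf (nat_lit 0) (nat_lit 8728094766) (nat_lit 76) (nat_lit 8959826205) (nat_lit 152) (nat_lit 6491616109) (nat_lit 37) (nat_lit 5) (nat_lit 38) (nat_lit 5) (nat_lit 39) (nat_lit 4) (nat_lit 360) (nat_lit 293) (nat_lit 247)) (XT.nd (nat_lit 78) (nat_lit 0) (nat_lit 0) (XT.lf (nat_lit 0) (nat_lit 2160732090) (nat_lit 228) (nat_lit 22149472566) (nat_lit 76) (nat_lit 770793572) (nat_lit 34) (nat_lit 5) (nat_lit 37) (nat_lit 5) (nat_lit 35) (nat_lit 4) (nat_lit 361) (nat_lit 293) (nat_lit 246)) (XT.lf (nat_lit 0) (nat_lit 11277682867) (nat_lit 228) (nat_lit 3783945676) (nat_lit 76) (nat_lit 10958998073) (nat_lit 34) (nat_lit 5) (nat_lit 37) (nat_lit 5) (nat_lit 35) (nat_lit 4) (nat_lit 362) (nat_lit 293) (nat_lit 245))))) (XT.nd (nat_lit 234) (nat_lit 228) (nat_lit 0) (XT.nd (nat_lit 78) (nat_lit 228) (nat_lit 0) (XT.lf (nat_lit 0) (nat_lit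 15652740080) (nat_lit 76) (nat_lit 5266229782) (nat_lit 152) (nat_lit 6086221078) (nat_lit 33) (nat_lit 5) (nat_lit 34) (nat_lit 5) (nat_lit 35) (nat_lit 4) (nat_lit 363) (nat_lit 293) (nat_lit 244)) (XT.nd (nat_lit 78) (nat_lit 0) (nat_lit 0) (XT.lf (nat_lit 0) (nat_lit 3030480828) (nat_lit 228) (nat_lit 20004882144) (nat_lit 76) (nat_lit 5000190426) (nat_lit 30) (nat_lit 5) (nat_lit 33) (nat_lit 5) (nat_lit 31) (nat_lit 4) (nat_lit 364) (nat_lit 293) (nat_lit 243)) (XT.lf (nat_lit 0) (nat_lit 12570972495) (nat_lit 228) (nat_lit 756678267) (nat_lit 76) (nat_lit 15785168701) (nat_lit 30) (nat_lit 5) (nat_lit 33) (nat_lit 5) (nat_lit 31) (nat_lit 4) (nat_lit 365) (nat_lit 293) (nat_lit 242)))) (XT.nd (nat_lit 78) (nat_lit 152) (nat_lit 0) (XT.lf (nat_lit 0) (nat_lit 19698134113) (nat_lit 76) (nat_lit 3004927147) (nat_lit 152) (nat_lit 7537458091) (nat_lit 29) (nat_lit 5) (nat_lit 30) (nat_lit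 5) (nat_lit 31) (nat_lit 4) (nat_lit 366) (nat_lit 293) (nat_lit 241)) (XT.nd (nat_lit 78) (nat_lit 0) (nat_lit 0) (XT.lf (nat_lit 0) (nat_lit 1984459274) (nat_lit 152) (nat_lit 21696801553) (nat_lit 76) (nat_lit 7739656072) (nat_lit 27) (nat_lit 5) (nat_lit 29) (nat_lit 5) (nat_lit 28) (nat_lit 4) (nat_lit 367) (nat_lit 293) (nat_lit 240)) (XT.lf (nat_lit 0) (nat_lit 11896313605) (nat_lit 152) (nat_lit 1675534999) (nat_lit 76) (nat_lit 19084161833) (nat_lit 27) (nat_lit 5) (nat_lit 29) (nat_lit 5) (nat_lit 28) (nat_lit 4) (nat_lit 368) (nat_lit 293) (nat_lit 239)))))) (XT.nd (nat_lit 468) (nat_lit 304) (nat_lit 0) (XT.nd (nat_lit 234) (nat_lit 228) (nat_lit 0) (XT.nd (nat_lit 78) (nat_lit 152) (nat_lit 0) (XT.lf (nat_lit 0) (nat_lit 19600489248) (nat_lit 76) (nat_lit 2823444903) (nat_lit 152) (nat_lit 11525325750) (nat_lit 26) (nat_lit 5) (nat_lit 27) (nat_lit 5) (nat_lit 28) (nat_lit 4) (nat_lit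 369) (nat_lit 293) (nat_lit 238)) (XT.nd (nat_lit 78) (nat_lit 76) (nat_lit 0) (XT.lf (nat_lit 0) (nat_lit 6589221176) (nat_lit 76) (nat_lit 26984061105) (nat_lit 76) (nat_lit 1731035309) (nat_lit 25) (nat_lit 4) (nat_lit 26) (nat_lit 5) (nat_lit 26) (nat_lit 4) (nat_lit 370) (nat_lit 293) (nat_lit 237)) (XT.lf (nat_lit 0) (nat_lit 8498331662) (nat_lit 152) (nat_lit 8085110615) (nat_lit 76) (nat_lit 20137857244) (nat_lit 24) (nat_lit 5) (nat_lit 26) (nat_lit 5) (nat_lit 25) (nat_lit 4) (nat_lit 371) (nat_lit 293) (nat_lit 236)))) (XT.nd (nat_lit 78) (nat_lit 152) (nat_lit 0) (XT.lf (nat_lit 0) (nat_lit 13708114698) (nat_lit 76) (nat_lit 5565063162) (nat_lit 152) (nat_lit 18933349590) (nat_lit 23) (nat_lit 5) (nat_lit 24) (nat_lit 5) (nat_lit 25) (nat_lit 4) (nat_lit 372) (nat_lit 293) (nat_lit 235)) (XT.nd (nat_lit 78) (nat_lit 152) (nat_lit 0) (XT.lf (nat_lit 0) (nat_lit 30667582007) (nat_lit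 152) (nat_lit 3178290732) (nat_lit 0) (nat_lit 5917724727) (nat_lit 23) (nat_lit 5) (nat_lit 25) (nat_lit 4) (nat_lit 23) (nat_lit 4) (nat_lit 373) (nat_lit 293) (nat_lit 234)) (XT.lf (nat_lit 0) (nat_lit 1395741156) (nat_lit 152) (nat_lit 21986698421) (nat_lit 76) (nat_lit 18010131958) (nat_lit 21) (nat_lit 5) (nat_lit 23) (nat_lit 5) (nat_lit 22) (nat_lit 4) (nat_lit 374) (nat_lit 293) (nat_lit 233))))) (XT.nd (nat_lit 234) (nat_lit 152) (nat_lit 0) (XT.nd (nat_lit 78) (nat_lit 152) (nat_lit 0) (XT.lf (nat_lit 0) (nat_lit 12201874060) (nat_lit 152) (nat_lit 117101664) (nat_lit 76) (nat_lit 30781984098) (nat_lit 21) (nat_lit 5) (nat_lit 23) (nat_lit 5) (nat_lit 22) (nat_lit 4) (nat_lit 375) (nat_lit 293) (nat_lit 232)) (XT.nd (nat_lit 78) (nat_lit 76) (nat_lit 0) (XT.lf (nat_lit 0) (nat_lit 23195149421) (nat_lit 76) (nat_lit 521956484) (nat_lit 152) (nat_lit 21172602173) (nat_lit 20) (nat_lit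 5) (nat_lit 21) (nat_lit 5) (nat_lit 22) (nat_lit 4) (nat_lit 376) (nat_lit 293) (nat_lit 231)) (XT.lf (nat_lit 0) (nat_lit 705707286) (nat_lit 76) (nat_lit 35171425441) (nat_lit 76) (nat_lit 10888694137) (nat_lit 19) (nat_lit 4) (nat_lit 20) (nat_lit 5) (nat_lit 20) (nat_lit 4) (nat_lit 377) (nat_lit 293) (nat_lit 230)))) (XT.nd (nat_lit 78) (nat_lit 76) (nat_lit 0) (XT.lf (nat_lit 0) (nat_lit 90025200) (nat_lit 152) (nat_lit 24156048272) (nat_lit 76) (nat_lit 24484342606) (nat_lit 18) (nat_lit 5) (nat_lit 20) (nat_lit 5) (nat_lit 19) (nat_lit 4) (nat_lit 378) (nat_lit 293) (nat_lit 229)) (XT.nd (nat_lit 78) (nat_lit 76) (nat_lit 0) (XT.lf (nat_lit 0) (nat_lit 11345095573) (nat_lit 152) (nat_lit 1361653627) (nat_lit 76) (nat_lit 38084676615) (nat_lit 18) (nat_lit 5) (nat_lit 20) (nat_lit 5) (nat_lit 19) (nat_lit 4) (nat_lit 379) (nat_lit 293) (nat_lit 228)) (XT.lf (nat_lit 0) (nat_lit 22929441506)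 (nat_lit 76) (nat_lit 406762724) (nat_lit 152) (nat_lit 29614086719) (nat_lit 17) (nat_lit 5) (nat_lit 18) (nat_lit 5) (nat_lit 19) (nat_lit 4) (nat_lit 380) (nat_lit 293) (nat_lit 227))))))))
noncomputable def xc37 : XT := (XT.nd (nat_lit 42198) (nat_lit 0) (nat_lit 4712) (XT.nd (nat_lit 936) (nat_lit 76) (nat_lit 0) (XT.nd (nat_lit 468) (nat_lit 228) (nat_lit 0) (XT.nd (nat_lit 234) (nat_lit 76) (nat_lit 0) (XT.nd (nat_lit 78) (nat_lit 152) (nat_lit 0) (XT.lf (nat_lit 0) (nat_lit 36015128298) (nat_lit 152) (nat_lit 6962340795) (nat_lit 0) (nat_lit 12236985738) (nat_lit 17) (nat_lit 5) (nat_lit 19) (nat_lit 4) (nat_lit 17) (nat_lit 4) (nat_lit 381) (nat_lit 293) (nat_lit 226)) (XT.nd (nat_lit 78) (nat_lit 76) (nat_lit 0) (XT.lf (nat_lit 0) (nat_lit 17501910721) (nat_lit 76) (nat_lit 31954496740) (nat_lit 76) (nat_lit 8131570312) (nat_lit 16) (nat_lit 4) (nat_lit 17) (nat_lit 5) (nat_lit 17)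 (nat_lit 4) (nat_lit 382) (nat_lit 293) (nat_lit 225)) (XT.lf (nat_lit 0) (nat_lit 3450801805) (nat_lit 152) (nat_lit 16860450066) (nat_lit 76) (nat_lit 39767041903) (nat_lit 15) (nat_lit 5) (nat_lit 17) (nat_lit 5) (nat_lit 16) (nat_lit 4) (nat_lit 383) (nat_lit 293) (nat_lit 224)))) (XT.nd (nat_lit 78) (nat_lit 0) (nat_lit 0) (XT.lf (nat_lit 0) (nat_lit 7511874672) (nat_lit 76) (nat_lit 7965008427) (nat_lit 152) (nat_lit 47212847000) (nat_lit 14) (nat_lit 5) (nat_lit 15) (nat_lit 5) (nat_lit 16) (nat_lit 4) (nat_lit 384) (nat_lit 293) (nat_lit 223)) (XT.nd (nat_lit 78) (nat_lit 0) (nat_lit 0) (XT.lf (nat_lit 0) (nat_lit 28287449816) (nat_lit 152) (nat_lit 32098805997) (nat_lit 0) (nat_lit 5039989613) (nat_lit 14) (nat_lit 5) (nat_lit 16) (nat_lit 4) (nat_lit 14) (nat_lit 4) (nat_lit 385) (nat_lit 293) (nat_lit 222)) (XT.lf (nat_lit 0) (nat_lit 41780699875) (nat_lit 152) (nat_lit 8020155506)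 (nat_lit 0) (nat_lit 18497468993) (nat_lit 14) (nat_lit 5) (nat_lit 16) (nat_lit 4) (nat_lit 14) (nat_lit 4) (nat_lit 386) (nat_lit 293) (nat_lit 221))))) (XT.nd (nat_lit 234) (nat_lit 76) (nat_lit 0) (XT.nd (nat_lit 78) (nat_lit 76) (nat_lit 0) (XT.lf (nat_lit 0) (nat_lit 17534145025) (nat_lit 76) (nat_lit 38546599430) (nat_lit 76) (nat_lit 15229301235) (nat_lit 13) (nat_lit 4) (nat_lit 14) (nat_lit 5) (nat_lit 14) (nat_lit 4) (nat_lit 387) (nat_lit 293) (nat_lit 220)) (XT.nd (nat_lit 78) (nat_lit 76) (nat_lit 0) (XT.lf (nat_lit 0) (nat_lit 44465340492) (nat_lit 76) (nat_lit 26677670753) (nat_lit 76) (nat_lit 3327927498) (nat_lit 13) (nat_lit 4) (nat_lit 14) (nat_lit 5) (nat_lit 14) (nat_lit 4) (nat_lit 388) (nat_lit 293) (nat_lit 219)) (XT.lf (nat_lit 0) (nat_lit 8955611247) (nat_lit 152) (nat_lit 5200752480) (nat_lit 76) (nat_lit 63631890608) (nat_lit 12) (nat_lit 5) (nat_lit 14) (nat_lit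 5) (nat_lit 13) (nat_lit 4) (nat_lit 389) (nat_lit 293) (nat_lit 218)))) (XT.nd (nat_lit 78) (nat_lit 0) (nat_lit 0) (XT.lf (nat_lit 0) (nat_lit 21160969508) (nat_lit 76) (nat_lit 795208544) (nat_lit 152) (nat_lit 59309120825) (nat_lit 11) (nat_lit 5) (nat_lit 12) (nat_lit 5) (nat_lit 13) (nat_lit 4) (nat_lit 390) (nat_lit 293) (nat_lit 217)) (XT.nd (nat_lit 78) (nat_lit 0) (nat_lit 0) (XT.lf (nat_lit 0) (nat_lit 35756352265) (nat_lit 152) (nat_lit 36154441767) (nat_lit 0) (nat_lit 13000916147) (nat_lit 11) (nat_lit 5) (nat_lit 13) (nat_lit 4) (nat_lit 11) (nat_lit 4) (nat_lit 391) (nat_lit 293) (nat_lit 216)) (XT.lf (nat_lit 0) (nat_lit 50224369510) (nat_lit 152) (nat_lit 11073721103) (nat_lit 0) (nat_lit 27443018216) (nat_lit 11) (nat_lit 5) (nat_lit 13) (nat_lit 4) (nat_lit 11) (nat_lit 4) (nat_lit 392) (nat_lit 293) (nat_lit 215)))))) (XT.nd (nat_lit 40794) (nat_lit 0) (nat_lit 14440) (XT.nd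 (nat_lit 40560) (nat_lit 0) (nat_lit 20520) (XT.nd (nat_lit 78) (nat_lit 0) (nat_lit 0) (XT.lf (nat_lit 0) (nat_lit 15507805799) (nat_lit 76) (nat_lit 50028298132) (nat_lit 76) (nat_lit 27222265718) (nat_lit 10) (nat_lit 4) (nat_lit 11) (nat_lit 5) (nat_lit 11) (nat_lit 4) (nat_lit 393) (nat_lit 293) (nat_lit 214)) (XT.nd (nat_lit 78) (nat_lit 0) (nat_lit 0) (XT.lf (nat_lit 0) (nat_lit 43595575035) (nat_lit 76) (nat_lit 38103937864) (nat_lit 76) (nat_lit 15274399621) (nat_lit 10) (nat_lit 4) (nat_lit 11) (nat_lit 5) (nat_lit 11) (nat_lit 4) (nat_lit 394) (nat_lit 293) (nat_lit 213)) (XT.lf (nat_lit 0) (nat_lit 73036073480) (nat_lit 76) (nat_lit 25608441346) (nat_lit 76) (nat_lit 2756516599) (nat_lit 10) (nat_lit 4) (nat_lit 11) (nat_lit 5) (nat_lit 11) (nat_lit 4) (nat_lit 395) (nat_lit 293) (nat_lit 212)))) (XT.nd (nat_lit 78) (nat_lit 2052) (nat_lit 0) (XT.lf (nat_lit 0) (nat_lit 1935346665)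 (nat_lit 836) (nat_lit 749913725) (nat_lit 836) (nat_lit 749913725) (nat_lit 307) (nat_lit 4) (nat_lit 318) (nat_lit 5) (nat_lit 318) (nat_lit 4) (nat_lit 312) (nat_lit 294) (nat_lit 294)) (XT.nd (nat_lit 78) (nat_lit 1064) (nat_lit 0) (XT.lf (nat_lit 0) (nat_lit 3921888022) (nat_lit 988) (nat_lit 2192618864) (nat_lit 0) (nat_lit 831963246) (nat_lit 294) (nat_lit 5) (nat_lit 307) (nat_lit 4) (nat_lit 294) (nat_lit 4) (nat_lit 313) (nat_lit 294) (nat_lit 293)) (XT.lf (nat_lit 0) (nat_lit 2332073279) (nat_lit 1064) (nat_lit 1298601518) (nat_lit 76) (nat_lit 3400012153) (nat_lit 280) (nat_lit 5) (nat_lit 294) (nat_lit 5) (nat_lit 281) (nat_lit 4) (nat_lit 314) (nat_lit 294) (nat_lit 292))))) (XT.nd (nat_lit 234) (nat_lit 1900) (nat_lit 0) (XT.nd (nat_lit 78) (nat_lit 3040) (nat_lit 0) (XT.lf (nat_lit 0) (nat_lit 579845107) (nat_lit 1140) (nat_lit 303050734) (nat_lit 76) (nat_lit 6240705729) (nat_lit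 265) (nat_lit 5) (nat_lit 280) (nat_lit 5) (nat_lit 266) (nat_lit 5) (nat_lit 315) (nat_lit 294) (nat_lit 291)) (XT.nd (nat_lit 78) (nat_lit 684) (nat_lit 0) (XT.lf (nat_lit 0) (nat_lit 775712079) (nat_lit 1216) (nat_lit 5108615135) (nat_lit 1292) (nat_lit 1339836845) (nat_lit 234) (nat_lit 5) (nat_lit 250) (nat_lit 5) (nat_lit 251) (nat_lit 4) (nat_lit 316) (nat_lit 294) (nat_lit 290)) (XT.lf (nat_lit 0) (nat_lit 1945990088) (nat_lit 608) (nat_lit 1950545028) (nat_lit 684) (nat_lit 3436610876) (nat_lit 225) (nat_lit 5) (nat_lit 233) (nat_lit 5) (nat_lit 234) (nat_lit 5) (nat_lit 317) (nat_lit 294) (nat_lit 289)))) (XT.nd (nat_lit 78) (nat_lit 1216) (nat_lit 0) (XT.lf (nat_lit 0) (nat_lit 1746497445) (nat_lit 684) (nat_lit 4248635351) (nat_lit 76) (nat_lit 1455719391) (nat_lit 216) (nat_lit 5) (nat_lit 225) (nat_lit 5) (nat_lit 217) (nat_lit 5) (nat_lit 318) (nat_lit 294) (nat_lit 288)) (XT.nd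 (nat_lit 78) (nat_lit 608) (nat_lit 0) (XT.lf (nat_lit 0) (nat_lit 4532069242) (nat_lit 608) (nat_lit 2466511633) (nat_lit 684) (nat_lit 578558539) (nat_lit 208) (nat_lit 5) (nat_lit 216) (nat_lit 5) (nat_lit 217) (nat_lit 5) (nat_lit 319) (nat_lit 294) (nat_lit 287)) (XT.lf (nat_lit 0) (nat_lit 4591682859) (nat_lit 608) (nat_lit 1783564468) (nat_lit 76) (nat_lit 1336784276) (nat_lit 200) (nat_lit 5) (nat_lit 208) (nat_lit 5) (nat_lit 201) (nat_lit 5) (nat_lit 320) (nat_lit 294) (nat_lit 286))))))) (XT.nd (nat_lit 936) (nat_lit 3572) (nat_lit 0) (XT.nd (nat_lit 468) (nat_lit 2584) (nat_lit 0) (XT.nd (nat_lit 234) (nat_lit 1444) (nat_lit 0) (XT.nd (nat_lit 78) (nat_lit 1520) (nat_lit 0) (XT.lf (nat_lit 0) (nat_lit 2015676615) (nat_lit 608) (nat_lit 459674062) (nat_lit 76) (nat_lit 5380564350) (nat_lit 192) (nat_lit 5) (nat_lit 200) (nat_lit 5) (nat_lit 193) (nat_lit 5) (nat_lit 321) (nat_lit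 294) (nat_lit 285)) (XT.nd (nat_lit 78) (nat_lit 532) (nat_lit 0) (XT.lf (nat_lit 0) (nat_lit 945511343) (nat_lit 532) (nat_lit 6311182731) (nat_lit 608) (nat_lit 752106677) (nat_lit 179) (nat_lit 5) (nat_lit 186) (nat_lit 5) (nat_lit 187) (nat_lit 5) (nat_lit 322) (nat_lit 294) (nat_lit 284)) (XT.lf (nat_lit 0) (nat_lit 2399650112) (nat_lit 456) (nat_lit 2025423541) (nat_lit 532) (nat_lit 3745314695) (nat_lit 172) (nat_lit 5) (nat_lit 178) (nat_lit 5) (nat_lit 179) (nat_lit 5) (nat_lit 323) (nat_lit 294) (nat_lit 283)))) (XT.nd (nat_lit 78) (nat_lit 912) (nat_lit 0) (XT.lf (nat_lit 0) (nat_lit 1402751293) (nat_lit 532) (nat_lit 4428034546) (nat_lit 76) (nat_lit 2510919429) (nat_lit 165) (nat_lit 5) (nat_lit 172) (nat_lit 5) (nat_lit 166) (nat_lit 5) (nat_lit 324) (nat_lit 294) (nat_lit 282)) (XT.nd (nat_lit 78) (nat_lit 532) (nat_lit 0) (XT.lf (nat_lit 0) (nat_lit 5472248685) (nat_lit 380)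 (nat_lit 1189751868) (nat_lit 456) (nat_lit 1860632867) (nat_lit 160) (nat_lit 5) (nat_lit 165) (nat_lit 5) (nat_lit 166) (nat_lit 5) (nat_lit 325) (nat_lit 294) (nat_lit 281)) (XT.lf (nat_lit 0) (nat_lit 3357121959) (nat_lit 532) (nat_lit 1652353276) (nat_lit 76) (nat_lit 3703621634) (nat_lit 153) (nat_lit 5) (nat_lit 160) (nat_lit 5) (nat_lit 154) (nat_lit 5) (nat_lit 326) (nat_lit 294) (nat_lit 280))))) (XT.nd (nat_lit 234) (nat_lit 988) (nat_lit 0) (XT.nd (nat_lit 78) (nat_lit 1216) (nat_lit 0) (XT.lf (nat_lit 0) (nat_lit 8714686251) (nat_lit 380) (nat_lit 19588128) (nat_lit 456) (nat_lit 180230408) (nat_lit 148) (nat_lit 5) (nat_lit 153) (nat_lit 5) (nat_lit 154) (nat_lit 5) (nat_lit 327) (nat_lit 294) (nat_lit 279)) (XT.nd (nat_lit 78) (nat_lit 456) (nat_lit 0) (XT.lf (nat_lit 0) (nat_lit 1258537056) (nat_lit 304) (nat_lit 3887781955) (nat_lit 380) (nat_lit 3978389793) (nat_lit 138) (nat_lit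 5) (nat_lit 142) (nat_lit 5) (nat_lit 143) (nat_lit 5) (nat_lit 328) (nat_lit 294) (nat_lit 278)) (XT.lf (nat_lit 0) (nat_lit 1316662416) (nat_lit 456) (nat_lit 6577002486) (nat_lit 76) (nat_lit 1452764573) (nat_lit 132) (nat_lit 5) (nat_lit 138) (nat_lit 5) (nat_lit 133) (nat_lit 5) (nat_lit 329) (nat_lit 294) (nat_lit 277)))) (XT.nd (nat_lit 78) (nat_lit 684) (nat_lit 0) (XT.lf (nat_lit 0) (nat_lit 4274019674) (nat_lit 304) (nat_lit 2504321421) (nat_lit 380) (nat_lit 2800256926) (nat_lit 128) (nat_lit 5) (nat_lit 132) (nat_lit 5) (nat_lit 133) (nat_lit 5) (nat_lit 330) (nat_lit 294) (nat_lit 276)) (XT.nd (nat_lit 78) (nat_lit 304) (nat_lit 0) (XT.lf (nat_lit 0) (nat_lit 2619302849) (nat_lit 380) (nat_lit 4032313877) (nat_lit 76) (nat_lit 3170612921) (nat_lit 123) (nat_lit 5) (nat_lit 128) (nat_lit 5) (nat_lit 124) (nat_lit 5) (nat_lit 331) (nat_lit 294) (nat_lit 275)) (XT.lf (nat_lit 0) (nat_lit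 7315180729) (nat_lit 304) (nat_lit 918937949) (nat_lit 380) (nat_lit 1843686667) (nat_lit 119) (nat_lit 5) (nat_lit 123) (nat_lit 5) (nat_lit 124) (nat_lit 5) (nat_lit 332) (nat_lit 294) (nat_lit 274)))))) (XT.nd (nat_lit 468) (nat_lit 1444) (nat_lit 0) (XT.nd (nat_lit 234) (nat_lit 836) (nat_lit 0) (XT.nd (nat_lit 78) (nat_lit 912) (nat_lit 0) (XT.lf (nat_lit 0) (nat_lit 3721672218) (nat_lit 380) (nat_lit 1533923966) (nat_lit 76) (nat_lit 5089168434) (nat_lit 114) (nat_lit 5) (nat_lit 119) (nat_lit 5) (nat_lit 115) (nat_lit 5) (nat_lit 333) (nat_lit 294) (nat_lit 273)) (XT.nd (nat_lit 78) (nat_lit 608) (nat_lit 0) (XT.lf (nat_lit 0) (nat_lit 9512570473) (nat_lit 380) (nat_lit 303733832) (nat_lit 76) (nat_lit 808710706) (nat_lit 110) (nat_lit 5) (nat_lit 115) (nat_lit 5) (nat_lit 111) (nat_lit 5) (nat_lit 334) (nat_lit 294) (nat_lit 272)) (XT.lf (nat_lit 0) (nat_lit 875888384) (nat_lit 228)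 (nat_lit 3742377601) (nat_lit 304) (nat_lit 6298641038) (nat_lit 102) (nat_lit 5) (nat_lit 105) (nat_lit 5) (nat_lit 106) (nat_lit 5) (nat_lit 335) (nat_lit 294) (nat_lit 271)))) (XT.nd (nat_lit 78) (nat_lit 532) (nat_lit 0) (XT.lf (nat_lit 0) (nat_lit 2045701264) (nat_lit 304) (nat_lit 8573889635) (nat_lit 380) (nat_lit 603306257) (nat_lit 98) (nat_lit 5) (nat_lit 102) (nat_lit 5) (nat_lit 103) (nat_lit 5) (nat_lit 336) (nat_lit 294) (nat_lit 270)) (XT.nd (nat_lit 78) (nat_lit 228) (nat_lit 0) (XT.lf (nat_lit 0) (nat_lit 3137873339) (nat_lit 228) (nat_lit 2154923054) (nat_lit 304) (nat_lit 6249255221) (nat_lit 94) (nat_lit 5) (nat_lit 97) (nat_lit 5) (nat_lit 98) (nat_lit 5) (nat_lit 337) (nat_lit 294) (nat_lit 269)) (XT.lf (nat_lit 0) (nat_lit 4181482189) (nat_lit 228) (nat_lit 7322300500) (nat_lit 304) (nat_lit 372266203) (nat_lit 91) (nat_lit 5) (nat_lit 94) (nat_lit 5) (nat_lit 95) (nat_lit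 5) (nat_lit 338) (nat_lit 294) (nat_lit 268))))) (XT.nd (nat_lit 234) (nat_lit 684) (nat_lit 0) (XT.nd (nat_lit 78) (nat_lit 456) (nat_lit 0) (XT.lf (nat_lit 0) (nat_lit 5138503890) (nat_lit 228) (nat_lit 561563906) (nat_lit 304) (nat_lit 6524604546) (nat_lit 87) (nat_lit 5) (nat_lit 90) (nat_lit 5) (nat_lit 91) (nat_lit 5) (nat_lit 339) (nat_lit 294) (nat_lit 267)) (XT.nd (nat_lit 78) (nat_lit 228) (nat_lit 0) (XT.lf (nat_lit 0) (nat_lit 6007439578) (nat_lit 228) (nat_lit 6121532152) (nat_lit 304) (nat_lit 459861172) (nat_lit 84) (nat_lit 5) (nat_lit 87) (nat_lit 5) (nat_lit 88) (nat_lit 5) (nat_lit 340) (nat_lit 294) (nat_lit 266)) (XT.lf (nat_lit 0) (nat_lit 5809911349) (nat_lit 228) (nat_lit 6199101884) (nat_lit 76) (nat_lit 960005425) (nat_lit 81) (nat_lit 5) (nat_lit 84) (nat_lit 5) (nat_lit 82) (nat_lit 5) (nat_lit 341) (nat_lit 294) (nat_lit 265)))) (XT.nd (nat_lit 78) (nat_lit 456)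 (nat_lit 0) (XT.lf (nat_lit 0) (nat_lit 7416722123) (nat_lit 228) (nat_lit 5035292118) (nat_lit 304) (nat_lit 914044073) (nat_lit 78) (nat_lit 5) (nat_lit 81) (nat_lit 5) (nat_lit 82) (nat_lit 5) (nat_lit 342) (nat_lit 294) (nat_lit 264)) (XT.nd (nat_lit 78) (nat_lit 228) (nat_lit 0) (XT.lf (nat_lit 0) (nat_lit 5566783811) (nat_lit 228) (nat_lit 5859454382) (nat_lit 76) (nat_lit 2354104778) (nat_lit 75) (nat_lit 5) (nat_lit 78) (nat_lit 5) (nat_lit 76) (nat_lit 5) (nat_lit 343) (nat_lit 294) (nat_lit 263)) (XT.lf (nat_lit 0) (nat_lit 8282308424) (nat_lit 228) (nat_lit 4135997158) (nat_lit 304) (nat_lit 1794826071) (nat_lit 72) (nat_lit 5) (nat_lit 75) (nat_lit 5) (nat_lit 76) (nat_lit 5) (nat_lit 344) (nat_lit 294) (nat_lit 262))))))))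
noncomputable def xc38 : XT := (XT.nd (nat_lit 1872) (nat_lit 1216) (nat_lit 0) (XT.nd (nat_lit 936) (nat_lit 1368) (nat_lit 0) (XT.nd (nat_lit 468) (nat_lit 836) (nat_lit 0) (XT.nd (nat_lit 234) (nat_lit 532) (nat_lit 0) (XT.nd (nat_lit 78) (nat_lit 456) (nat_lit 0) (XT.lf (nat_lit 0) (nat_lit 4901698710) (nat_lit 228) (nat_lit 6205446141) (nat_lit 76) (nat_lit 3557414402) (nat_lit 69) (nat_lit 5) (nat_lit 72) (nat_lit 5) (nat_lit 70) (nat_lit 5) (nat_lit 345) (nat_lit 294) (nat_lit 261)) (XT.nd (nat_lit 78) (nat_lit 228) (nat_lit 0) (XT.lf (nat_lit 0) (nat_lit 8452995165) (nat_lit 228) (nat_lit 3506968137) (nat_lit 304) (nat_lit 3176165454) (nat_lit 66) (nat_lit 5) (nat_lit 69) (nat_lit 5) (nat_lit 70) (nat_lit 5) (nat_lit 346) (nat_lit 294) (nat_lit 260)) (XT.lf (nat_lit 0) (nat_lit 3736486194) (nat_lit 228) (nat_lit 7407707925) (nat_lit 76) (nat_lit 4483938901) (nat_lit 63) (nat_lit 5) (nat_lit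 66) (nat_lit 5) (nat_lit 64) (nat_lit 5) (nat_lit 347) (nat_lit 294) (nat_lit 259)))) (XT.nd (nat_lit 78) (nat_lit 380) (nat_lit 0) (XT.lf (nat_lit 0) (nat_lit 7748713812) (nat_lit 152) (nat_lit 3244944831) (nat_lit 228) (nat_lit 5148219851) (nat_lit 61) (nat_lit 5) (nat_lit 63) (nat_lit 5) (nat_lit 64) (nat_lit 5) (nat_lit 348) (nat_lit 294) (nat_lit 258)) (XT.nd (nat_lit 78) (nat_lit 152) (nat_lit 0) (XT.lf (nat_lit 0) (nat_lit 1975995815) (nat_lit 228) (nat_lit 9669011365) (nat_lit 76) (nat_lit 5033327119) (nat_lit 58) (nat_lit 5) (nat_lit 61) (nat_lit 5) (nat_lit 59) (nat_lit 5) (nat_lit 349) (nat_lit 294) (nat_lit 257)) (XT.lf (nat_lit 0) (nat_lit 5955055910) (nat_lit 152) (nat_lit 3462983890) (nat_lit 228) (nat_lit 7820020308) (nat_lit 56) (nat_lit 5) (nat_lit 58) (nat_lit 5) (nat_lit 59) (nat_lit 5) (nat_lit 350) (nat_lit 294) (nat_lit 256))))) (XT.nd (nat_lit 234) (nat_lit 304) (nat_lit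 0) (XT.nd (nat_lit 78) (nat_lit 380) (nat_lit 0) (XT.lf (nat_lit 0) (nat_lit 4588080979) (nat_lit 152) (nat_lit 12730522664) (nat_lit 228) (nat_lit 504594232) (nat_lit 54) (nat_lit 5) (nat_lit 56) (nat_lit 5) (nat_lit 57) (nat_lit 4) (nat_lit 351) (nat_lit 294) (nat_lit 255)) (XT.nd (nat_lit 78) (nat_lit 152) (nat_lit 0) (XT.lf (nat_lit 0) (nat_lit 2816867049) (nat_lit 152) (nat_lit 4293813011) (nat_lit 228) (nat_lit 11322636172) (nat_lit 51) (nat_lit 5) (nat_lit 53) (nat_lit 5) (nat_lit 54) (nat_lit 5) (nat_lit 352) (nat_lit 294) (nat_lit 254)) (XT.lf (nat_lit 0) (nat_lit 656319968) (nat_lit 152) (nat_lit 14525120015) (nat_lit 228) (nat_lit 3889811937) (nat_lit 49) (nat_lit 5) (nat_lit 51) (nat_lit 5) (nat_lit 52) (nat_lit 4) (nat_lit 353) (nat_lit 294) (nat_lit 253)))) (XT.nd (nat_lit 78) (nat_lit 228) (nat_lit 0) (XT.lf (nat_lit 0) (nat_lit 3943401827) (nat_lit 228) (nat_lit 1930826655) (nat_lit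 76) (nat_lit 13862587709) (nat_lit 48) (nat_lit 5) (nat_lit 51) (nat_lit 5) (nat_lit 49) (nat_lit 5) (nat_lit 354) (nat_lit 294) (nat_lit 252)) (XT.nd (nat_lit 78) (nat_lit 76) (nat_lit 0) (XT.lf (nat_lit 0) (nat_lit 12173471160) (nat_lit 228) (nat_lit 4997275945) (nat_lit 76) (nat_lit 3261201028) (nat_lit 46) (nat_lit 5) (nat_lit 49) (nat_lit 5) (nat_lit 47) (nat_lit 4) (nat_lit 355) (nat_lit 294) (nat_lit 251)) (XT.lf (nat_lit 0) (nat_lit 12563644871) (nat_lit 76) (nat_lit 8358001158) (nat_lit 152) (nat_lit 237006019) (nat_lit 45) (nat_lit 5) (nat_lit 46) (nat_lit 5) (nat_lit 47) (nat_lit 4) (nat_lit 356) (nat_lit 294) (nat_lit 250)))))) (XT.nd (nat_lit 468) (nat_lit 532) (nat_lit 0) (XT.nd (nat_lit 234) (nat_lit 304) (nat_lit 0) (XT.nd (nat_lit 78) (nat_lit 304) (nat_lit 0) (XT.lf (nat_lit 0) (nat_lit 8083896618) (nat_lit 228) (nat_lit 12808862833) (nat_lit 76) (nat_lit 1024840979) (nat_lit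 42) (nat_lit 5) (nat_lit 45) (nat_lit 5) (nat_lit 43) (nat_lit 4) (nat_lit 357) (nat_lit 294) (nat_lit 249)) (XT.nd (nat_lit 78) (nat_lit 228) (nat_lit 0) (XT.lf (nat_lit 0) (nat_lit 5011853150) (nat_lit 76) (nat_lit 11936558828) (nat_lit 152) (nat_lit 5762051614) (nat_lit 41) (nat_lit 5) (nat_lit 42) (nat_lit 5) (nat_lit 43) (nat_lit 4) (nat_lit 358) (nat_lit 294) (nat_lit 248)) (XT.lf (nat_lit 0) (nat_lit 269310046) (nat_lit 152) (nat_lit 2439074192) (nat_lit 228) (nat_lit 20832369843) (nat_lit 38) (nat_lit 5) (nat_lit 40) (nat_lit 5) (nat_lit 41) (nat_lit 5) (nat_lit 359) (nat_lit 294) (nat_lit 247)))) (XT.nd (nat_lit 78) (nat_lit 304) (nat_lit 0) (XT.lf (nat_lit 0) (nat_lit 11655071386) (nat_lit 228) (nat_lit 5192074797) (nat_lit 76) (nat_lit 7558554906) (nat_lit 38) (nat_lit 5) (nat_lit 41) (nat_lit 5) (nat_lit 39) (nat_lit 4) (nat_lit 360) (nat_lit 294) (nat_lit 246)) (XT.nd (nat_lit 78)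 (nat_lit 228) (nat_lit 0) (XT.lf (nat_lit 0) (nat_lit 13887078599) (nat_lit 76) (nat_lit 7238580510) (nat_lit 152) (nat_lit 4185949278) (nat_lit 37) (nat_lit 5) (nat_lit 38) (nat_lit 5) (nat_lit 39) (nat_lit 4) (nat_lit 361) (nat_lit 294) (nat_lit 245)) (XT.lf (nat_lit 0) (nat_lit 4790000804) (nat_lit 228) (nat_lit 18564832390) (nat_lit 76) (nat_lit 2904295705) (nat_lit 34) (nat_lit 5) (nat_lit 37) (nat_lit 5) (nat_lit 35) (nat_lit 4) (nat_lit 362) (nat_lit 294) (nat_lit 244))))) (XT.nd (nat_lit 234) (nat_lit 228) (nat_lit 0) (XT.nd (nat_lit 78) (nat_lit 228) (nat_lit 0) (XT.lf (nat_lit 0) (nat_lit 505399008) (nat_lit 76) (nat_lit 13742199643) (nat_lit 152) (nat_lit 13001609510) (nat_lit 33) (nat_lit 5) (nat_lit 34) (nat_lit 5) (nat_lit 35) (nat_lit 4) (nat_lit 363) (nat_lit 294) (nat_lit 243)) (XT.nd (nat_lit 78) (nat_lit 228) (nat_lit 0) (XT.lf (nat_lit 0) (nat_lit 20775963088) (nat_lit 76)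 (nat_lit 3517511480) (nat_lit 152) (nat_lit 3991863199) (nat_lit 33) (nat_lit 5) (nat_lit 34) (nat_lit 5) (nat_lit 35) (nat_lit 4) (nat_lit 364) (nat_lit 294) (nat_lit 242)) (XT.lf (nat_lit 0) (nat_lit 5481884306) (nat_lit 228) (nat_lit 16693636929) (nat_lit 76) (nat_lit 7192576710) (nat_lit 30) (nat_lit 5) (nat_lit 33) (nat_lit 5) (nat_lit 31) (nat_lit 4) (nat_lit 365) (nat_lit 294) (nat_lit 241)))) (XT.nd (nat_lit 78) (nat_lit 152) (nat_lit 0) (XT.lf (nat_lit 0) (nat_lit 3377576815) (nat_lit 76) (nat_lit 12044773007) (nat_lit 152) (nat_lit 15079200286) (nat_lit 29) (nat_lit 5) (nat_lit 30) (nat_lit 5) (nat_lit 31) (nat_lit 4) (nat_lit 366) (nat_lit 294) (nat_lit 240)) (XT.nd (nat_lit 78) (nat_lit 152) (nat_lit 0) (XT.lf (nat_lit 0) (nat_lit 24671518291) (nat_lit 76) (nat_lit 1291094163) (nat_lit 152) (nat_lit 5725986189) (nat_lit 29) (nat_lit 5) (nat_lit 30) (nat_lit 5) (nat_lit 31) (nat_lit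 4) (nat_lit 367) (nat_lit 294) (nat_lit 239)) (XT.lf (nat_lit 0) (nat_lit 4182428904) (nat_lit 152) (nat_lit 18820816722) (nat_lit 76) (nat_lit 9925556170) (nat_lit 27) (nat_lit 5) (nat_lit 29) (nat_lit 5) (nat_lit 28) (nat_lit 4) (nat_lit 368) (nat_lit 294) (nat_lit 238))))))) (XT.nd (nat_lit 936) (nat_lit 456) (nat_lit 0) (XT.nd (nat_lit 468) (nat_lit 456) (nat_lit 0) (XT.nd (nat_lit 234) (nat_lit 76) (nat_lit 0) (XT.nd (nat_lit 78) (nat_lit 152) (nat_lit 0) (XT.lf (nat_lit 0) (nat_lit 2052963155) (nat_lit 76) (nat_lit 12456706816) (nat_lit 152) (nat_lit 19718395674) (nat_lit 26) (nat_lit 5) (nat_lit 27) (nat_lit 5) (nat_lit 28) (nat_lit 4) (nat_lit 369) (nat_lit 294) (nat_lit 237)) (XT.nd (nat_lit 78) (nat_lit 152) (nat_lit 0) (XT.lf (nat_lit 0) (nat_lit 24244598147) (nat_lit 76) (nat_lit 1239379227) (nat_lit 152) (nat_lit 10104400038) (nat_lit 26) (nat_lit 5) (nat_lit 27) (nat_lit 5) (nat_lit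 28) (nat_lit 4) (nat_lit 370) (nat_lit 294) (nat_lit 236)) (XT.lf (nat_lit 0) (nat_lit 133746665) (nat_lit 152) (nat_lit 26495464917) (nat_lit 76) (nat_lit 10383203541) (nat_lit 24) (nat_lit 5) (nat_lit 26) (nat_lit 5) (nat_lit 25) (nat_lit 4) (nat_lit 371) (nat_lit 294) (nat_lit 235)))) (XT.nd (nat_lit 78) (nat_lit 76) (nat_lit 0) (XT.lf (nat_lit 0) (nat_lit 10747882598) (nat_lit 152) (nat_lit 5024685612) (nat_lit 76) (nat_lit 22729898667) (nat_lit 24) (nat_lit 5) (nat_lit 26) (nat_lit 5) (nat_lit 25) (nat_lit 4) (nat_lit 372) (nat_lit 294) (nat_lit 234)) (XT.nd (nat_lit 78) (nat_lit 0) (nat_lit 0) (XT.lf (nat_lit 0) (nat_lit 17758886595) (nat_lit 76) (nat_lit 4248047120) (nat_lit 152) (nat_lit 18056666163) (nat_lit 23) (nat_lit 5) (nat_lit 24) (nat_lit 5) (nat_lit 25) (nat_lit 4) (nat_lit 373) (nat_lit 294) (nat_lit 233)) (XT.lf (nat_lit 0) (nat_lit 33901372216) (nat_lit 152) (nat_lit 95981075)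 (nat_lit 0) (nat_lit 7703267870) (nat_lit 23) (nat_lit 5) (nat_lit 25) (nat_lit 4) (nat_lit 23) (nat_lit 4) (nat_lit 374) (nat_lit 294) (nat_lit 232))))) (XT.nd (nat_lit 234) (nat_lit 228) (nat_lit 0) (XT.nd (nat_lit 78) (nat_lit 76) (nat_lit 0) (XT.lf (nat_lit 0) (nat_lit 3131698908) (nat_lit 152) (nat_lit 19904425121) (nat_lit 76) (nat_lit 20375957957) (nat_lit 21) (nat_lit 5) (nat_lit 23) (nat_lit 5) (nat_lit 22) (nat_lit 4) (nat_lit 375) (nat_lit 294) (nat_lit 231)) (XT.nd (nat_lit 78) (nat_lit 0) (nat_lit 0) (XT.lf (nat_lit 0) (nat_lit 2965004232) (nat_lit 76) (nat_lit 11462294198) (nat_lit 152) (nat_lit 30780122792) (nat_lit 20) (nat_lit 5) (nat_lit 21) (nat_lit 5) (nat_lit 22) (nat_lit 4) (nat_lit 376) (nat_lit 294) (nat_lit 230)) (XT.lf (nat_lit 0) (nat_lit 26450744285) (nat_lit 152) (nat_lit 19797958303) (nat_lit 0) (nat_lit 838936761) (nat_lit 20) (nat_lit 5) (nat_lit 22) (nat_lit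 4) (nat_lit 20) (nat_lit 4) (nat_lit 377) (nat_lit 294) (nat_lit 229)))) (XT.nd (nat_lit 78) (nat_lit 152) (nat_lit 0) (XT.lf (nat_lit 0) (nat_lit 3631744541) (nat_lit 76) (nat_lit 35546128992) (nat_lit 76) (nat_lit 9880923255) (nat_lit 19) (nat_lit 4) (nat_lit 20) (nat_lit 5) (nat_lit 20) (nat_lit 4) (nat_lit 378) (nat_lit 294) (nat_lit 228)) (XT.nd (nat_lit 78) (nat_lit 76) (nat_lit 0) (XT.lf (nat_lit 0) (nat_lit 1543970714) (nat_lit 152) (nat_lit 22581800628) (nat_lit 76) (nat_lit 26997575976) (nat_lit 18) (nat_lit 5) (nat_lit 20) (nat_lit 5) (nat_lit 19) (nat_lit 4) (nat_lit 379) (nat_lit 294) (nat_lit 227)) (XT.lf (nat_lit 0) (nat_lit 1244112286) (nat_lit 76) (nat_lit 12060620333) (nat_lit 152) (nat_lit 39984391841) (nat_lit 17) (nat_lit 5) (nat_lit 18) (nat_lit 5) (nat_lit 19) (nat_lit 4) (nat_lit 380) (nat_lit 294) (nat_lit 226)))))) (XT.nd (nat_lit 468) (nat_lit 228) (nat_lit 0) (XT.nd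 (nat_lit 234) (nat_lit 152) (nat_lit 0) (XT.nd (nat_lit 78) (nat_lit 76) (nat_lit 0) (XT.lf (nat_lit 0) (nat_lit 25850200612) (nat_lit 152) (nat_lit 28915748945) (nat_lit 0) (nat_lit 791343995) (nat_lit 17) (nat_lit 5) (nat_lit 19) (nat_lit 4) (nat_lit 17) (nat_lit 4) (nat_lit 381) (nat_lit 294) (nat_lit 225)) (XT.nd (nat_lit 78) (nat_lit 76) (nat_lit 0) (XT.lf (nat_lit 0) (nat_lit 39102829212) (nat_lit 152) (nat_lit 4832326963) (nat_lit 0) (nat_lit 14001321291) (nat_lit 17) (nat_lit 5) (nat_lit 19) (nat_lit 4) (nat_lit 17) (nat_lit 4) (nat_lit 382) (nat_lit 294) (nat_lit 224)) (XT.lf (nat_lit 0) (nat_lit 20784102005) (nat_lit 76) (nat_lit 32393925734) (nat_lit 76) (nat_lit 7251797524) (nat_lit 16) (nat_lit 4) (nat_lit 17) (nat_lit 5) (nat_lit 17) (nat_lit 4) (nat_lit 383) (nat_lit 294) (nat_lit 223)))) (XT.nd (nat_lit 78) (nat_lit 76) (nat_lit 0) (XT.lf (nat_lit 0) (nat_lit 4824532329) (nat_lit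 152) (nat_lit 15387013569) (nat_lit 76) (nat_lit 42834546037) (nat_lit 15) (nat_lit 5) (nat_lit 17) (nat_lit 5) (nat_lit 16) (nat_lit 4) (nat_lit 384) (nat_lit 294) (nat_lit 222)) (XT.nd (nat_lit 78) (nat_lit 0) (nat_lit 0) (XT.lf (nat_lit 0) (nat_lit 10137526574) (nat_lit 76) (nat_lit 7278820505) (nat_lit 152) (nat_lit 48372823964) (nat_lit 14) (nat_lit 5) (nat_lit 15) (nat_lit 5) (nat_lit 16) (nat_lit 4) (nat_lit 385) (nat_lit 294) (nat_lit 221)) (XT.lf (nat_lit 0) (nat_lit 30821864317) (nat_lit 152) (nat_lit 31537384922) (nat_lit 0) (nat_lit 6304633898) (nat_lit 14) (nat_lit 5) (nat_lit 16) (nat_lit 4) (nat_lit 14) (nat_lit 4) (nat_lit 386) (nat_lit 294) (nat_lit 220))))) (XT.nd (nat_lit 234) (nat_lit 152) (nat_lit 0) (XT.nd (nat_lit 78) (nat_lit 76) (nat_lit 0) (XT.lf (nat_lit 0) (nat_lit 44936441544) (nat_lit 152) (nat_lit 6357961971) (nat_lit 0) (nat_lit 20386766066) (nat_lit 14) (nat_lit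 5) (nat_lit 16) (nat_lit 4) (nat_lit 14) (nat_lit 4) (nat_lit 387) (nat_lit 294) (nat_lit 219)) (XT.nd (nat_lit 78) (nat_lit 0) (nat_lit 0) (XT.lf (nat_lit 0) (nat_lit 20414912335) (nat_lit 76) (nat_lit 39505044714) (nat_lit 76) (nat_lit 14924469178) (nat_lit 13) (nat_lit 4) (nat_lit 14) (nat_lit 5) (nat_lit 14) (nat_lit 4) (nat_lit 388) (nat_lit 294) (nat_lit 218)) (XT.lf (nat_lit 0) (nat_lit 48597236144) (nat_lit 76) (nat_lit 27088806970) (nat_lit 76) (nat_lit 2478802808) (nat_lit 13) (nat_lit 4) (nat_lit 14) (nat_lit 5) (nat_lit 14) (nat_lit 4) (nat_lit 389) (nat_lit 294) (nat_lit 217)))) (XT.nd (nat_lit 78) (nat_lit 76) (nat_lit 0) (XT.lf (nat_lit 0) (nat_lit 10351681897) (nat_lit 152) (nat_lit 3624117173) (nat_lit 76) (nat_lit 67673360730) (nat_lit 12) (nat_lit 5) (nat_lit 14) (nat_lit 5) (nat_lit 13) (nat_lit 4) (nat_lit 390) (nat_lit 294) (nat_lit 216)) (XT.nd (nat_lit 78) (nat_lit 0)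 (nat_lit 0) (XT.lf (nat_lit 0) (nat_lit 23974546100) (nat_lit 152) (nat_lit 61298133121) (nat_lit 0) (nat_lit 28212065) (nat_lit 11) (nat_lit 5) (nat_lit 13) (nat_lit 4) (nat_lit 11) (nat_lit 4) (nat_lit 391) (nat_lit 294) (nat_lit 215)) (XT.lf (nat_lit 0) (nat_lit 38428536905) (nat_lit 152) (nat_lit 36244652917) (nat_lit 0) (nat_lit 14457521750) (nat_lit 11) (nat_lit 5) (nat_lit 13) (nat_lit 4) (nat_lit 11) (nat_lit 4) (nat_lit 392) (nat_lit 294) (nat_lit 214))))))))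
noncomputable def xc39 : XT := (XT.nd (nat_lit 42120) (nat_lit 0) (nat_lit 2736) (XT.nd (nat_lit 41184) (nat_lit 0) (nat_lit 8588) (XT.nd (nat_lit 40716) (nat_lit 0) (nat_lit 14972) (XT.nd (nat_lit 40482) (nat_lit 0) (nat_lit 21584) (XT.nd (nat_lit 156) (nat_lit 76) (nat_lit 0) (XT.lf (nat_lit 0) (nat_lit 53577842297) (nat_lit 152) (nat_lit 9991682455) (nat_lit 0) (nat_lit 29583321313) (nat_lit 11) (nat_lit 5) (nat_lit 13) (nat_lit 4) (nat_lit 11) (nat_lit 4) (nat_lit 393) (nat_lit 294) (nat_lit 213)) (XT.nd (nat_lit 40248) (nat_lit 0) (nat_lit 24244) (XT.lf (nat_lit 0) (nat_lit 47288531865) (nat_lit 76) (nat_lit 39274451760) (nat_lit 76) (nat_lit 15236223794) (nat_lit 10) (nat_lit 4) (nat_lit 11) (nat_lit 5) (nat_lit 11) (nat_lit 4) (nat_lit 395) (nat_lit 294) (nat_lit 211)) (XT.lf (nat_lit 0) (nat_lit 1272015480) (nat_lit 684) (nat_lit 1048626514) (nat_lit 684) (nat_lit 1048626514) (nat_lit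 329) (nat_lit 4) (nat_lit 338) (nat_lit 5) (nat_lit 338) (nat_lit 4) (nat_lit 310) (nat_lit 295) (nat_lit 295)))) (XT.nd (nat_lit 78) (nat_lit 1824) (nat_lit 0) (XT.lf (nat_lit 0) (nat_lit 3091628120) (nat_lit 760) (nat_lit 126910980) (nat_lit 836) (nat_lit 3583893508) (nat_lit 318) (nat_lit 5) (nat_lit 328) (nat_lit 5) (nat_lit 329) (nat_lit 4) (nat_lit 311) (nat_lit 295) (nat_lit 294)) (XT.nd (nat_lit 78) (nat_lit 912) (nat_lit 0) (XT.lf (nat_lit 0) (nat_lit 1665845091) (nat_lit 912) (nat_lit 3142710627) (nat_lit 76) (nat_lit 2065570944) (nat_lit 306) (nat_lit 5) (nat_lit 318) (nat_lit 5) (nat_lit 307) (nat_lit 4) (nat_lit 312) (nat_lit 295) (nat_lit 293)) (XT.lf (nat_lit 0) (nat_lit 4479888587) (nat_lit 912) (nat_lit 2434068957) (nat_lit 988) (nat_lit 40289006) (nat_lit 294) (nat_lit 5) (nat_lit 306) (nat_lit 5) (nat_lit 307) (nat_lit 4) (nat_lit 313) (nat_lit 295) (nat_lit 292))))) (XT.nd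 (nat_lit 234) (nat_lit 1976) (nat_lit 0) (XT.nd (nat_lit 78) (nat_lit 3572) (nat_lit 0) (XT.lf (nat_lit 0) (nat_lit 5101287848) (nat_lit 1064) (nat_lit 1724169814) (nat_lit 76) (nat_lit 216943285) (nat_lit 280) (nat_lit 5) (nat_lit 294) (nat_lit 5) (nat_lit 281) (nat_lit 4) (nat_lit 314) (nat_lit 295) (nat_lit 291)) (XT.nd (nat_lit 78) (nat_lit 2432) (nat_lit 0) (XT.lf (nat_lit 0) (nat_lit 3152389767) (nat_lit 1140) (nat_lit 899520414) (nat_lit 76) (nat_lit 3086630457) (nat_lit 265) (nat_lit 5) (nat_lit 280) (nat_lit 5) (nat_lit 266) (nat_lit 5) (nat_lit 315) (nat_lit 295) (nat_lit 290)) (XT.lf (nat_lit 0) (nat_lit 23778990) (nat_lit 1216) (nat_lit 1012810295) (nat_lit 1292) (nat_lit 6206964545) (nat_lit 233) (nat_lit 5) (nat_lit 249) (nat_lit 5) (nat_lit 250) (nat_lit 5) (nat_lit 316) (nat_lit 295) (nat_lit 289)))) (XT.nd (nat_lit 78) (nat_lit 1368) (nat_lit 0) (XT.lf (nat_lit 0) (nat_lit 1030459254)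 (nat_lit 608) (nat_lit 5079198373) (nat_lit 684) (nat_lit 1246682124) (nat_lit 225) (nat_lit 5) (nat_lit 233) (nat_lit 5) (nat_lit 234) (nat_lit 5) (nat_lit 317) (nat_lit 295) (nat_lit 288)) (XT.nd (nat_lit 78) (nat_lit 684) (nat_lit 0) (XT.lf (nat_lit 0) (nat_lit 2113578410) (nat_lit 608) (nat_lit 1639912298) (nat_lit 684) (nat_lit 3724199685) (nat_lit 216) (nat_lit 5) (nat_lit 224) (nat_lit 5) (nat_lit 225) (nat_lit 5) (nat_lit 318) (nat_lit 295) (nat_lit 287)) (XT.lf (nat_lit 0) (nat_lit 1234022053) (nat_lit 684) (nat_lit 4334118918) (nat_lit 76) (nat_lit 2039703830) (nat_lit 207) (nat_lit 5) (nat_lit 216) (nat_lit 5) (nat_lit 208) (nat_lit 5) (nat_lit 319) (nat_lit 295) (nat_lit 286)))))) (XT.nd (nat_lit 468) (nat_lit 2812) (nat_lit 0) (XT.nd (nat_lit 234) (nat_lit 1900) (nat_lit 0) (XT.nd (nat_lit 78) (nat_lit 1140) (nat_lit 0) (XT.lf (nat_lit 0) (nat_lit 4498614882) (nat_lit 532) (nat_lit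 1759363369) (nat_lit 608) (nat_lit 1488703323) (nat_lit 200) (nat_lit 5) (nat_lit 207) (nat_lit 5) (nat_lit 208) (nat_lit 5) (nat_lit 320) (nat_lit 295) (nat_lit 285)) (XT.nd (nat_lit 78) (nat_lit 532) (nat_lit 0) (XT.lf (nat_lit 0) (nat_lit 3477668704) (nat_lit 608) (nat_lit 2111771901) (nat_lit 76) (nat_lit 2304845211) (nat_lit 192) (nat_lit 5) (nat_lit 200) (nat_lit 5) (nat_lit 193) (nat_lit 5) (nat_lit 321) (nat_lit 295) (nat_lit 284)) (XT.lf (nat_lit 0) (nat_lit 512588725) (nat_lit 532) (nat_lit 909536598) (nat_lit 76) (nat_lit 6629279869) (nat_lit 185) (nat_lit 5) (nat_lit 192) (nat_lit 5) (nat_lit 186) (nat_lit 5) (nat_lit 322) (nat_lit 295) (nat_lit 283)))) (XT.nd (nat_lit 78) (nat_lit 912) (nat_lit 0) (XT.lf (nat_lit 0) (nat_lit 327120291) (nat_lit 456) (nat_lit 5205395424) (nat_lit 532) (nat_lit 2684587624) (nat_lit 172) (nat_lit 5) (nat_lit 178) (nat_lit 5) (nat_lit 179) (nat_lit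 5) (nat_lit 323) (nat_lit 295) (nat_lit 282)) (XT.nd (nat_lit 78) (nat_lit 380) (nat_lit 0) (XT.lf (nat_lit 0) (nat_lit 1643730752) (nat_lit 456) (nat_lit 655004741) (nat_lit 532) (nat_lit 6093746554) (nat_lit 165) (nat_lit 5) (nat_lit 171) (nat_lit 5) (nat_lit 172) (nat_lit 5) (nat_lit 324) (nat_lit 295) (nat_lit 281)) (XT.lf (nat_lit 0) (nat_lit 2989147910) (nat_lit 380) (nat_lit 4444585630) (nat_lit 456) (nat_lit 1143448339) (nat_lit 160) (nat_lit 5) (nat_lit 165) (nat_lit 5) (nat_lit 166) (nat_lit 5) (nat_lit 325) (nat_lit 295) (nat_lit 280))))) (XT.nd (nat_lit 234) (nat_lit 1444) (nat_lit 0) (XT.nd (nat_lit 78) (nat_lit 836) (nat_lit 0) (XT.lf (nat_lit 0) (nat_lit 3910797288) (nat_lit 532) (nat_lit 4394722961) (nat_lit 76) (nat_lit 466444507) (nat_lit 153) (nat_lit 5) (nat_lit 160) (nat_lit 5) (nat_lit 154) (nat_lit 5) (nat_lit 326) (nat_lit 295) (nat_lit 279)) (XT.nd (nat_lit 78) (nat_lit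 380) (nat_lit 0) (XT.lf (nat_lit 0) (nat_lit 190536946) (nat_lit 456) (nat_lit 3181062097) (nat_lit 76) (nat_lit 5605257703) (nat_lit 147) (nat_lit 5) (nat_lit 153) (nat_lit 5) (nat_lit 148) (nat_lit 5) (nat_lit 327) (nat_lit 295) (nat_lit 278)) (XT.lf (nat_lit 0) (nat_lit 5351870817) (nat_lit 456) (nat_lit 1959784796) (nat_lit 76) (nat_lit 1880240078) (nat_lit 142) (nat_lit 5) (nat_lit 148) (nat_lit 5) (nat_lit 143) (nat_lit 5) (nat_lit 328) (nat_lit 295) (nat_lit 277)))) (XT.nd (nat_lit 78) (nat_lit 1064) (nat_lit 0) (XT.lf (nat_lit 0) (nat_lit 1306239710) (nat_lit 380) (nat_lit 715473526) (nat_lit 76) (nat_lit 7396279089) (nat_lit 137) (nat_lit 5) (nat_lit 142) (nat_lit 5) (nat_lit 138) (nat_lit 5) (nat_lit 329) (nat_lit 295) (nat_lit 276)) (XT.nd (nat_lit 78) (nat_lit 380) (nat_lit 0) (XT.lf (nat_lit 0) (nat_lit 531785936) (nat_lit 304) (nat_lit 6090615890) (nat_lit 380) (nat_lit 3032156194)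 (nat_lit 128) (nat_lit 5) (nat_lit 132) (nat_lit 5) (nat_lit 133) (nat_lit 5) (nat_lit 330) (nat_lit 295) (nat_lit 275)) (XT.lf (nat_lit 0) (nat_lit 1811648994) (nat_lit 304) (nat_lit 429650330) (nat_lit 380) (nat_lit 7661505350) (nat_lit 123) (nat_lit 5) (nat_lit 127) (nat_lit 5) (nat_lit 128) (nat_lit 5) (nat_lit 331) (nat_lit 295) (nat_lit 274))))))) (XT.nd (nat_lit 936) (nat_lit 2204) (nat_lit 0) (XT.nd (nat_lit 468) (nat_lit 1672) (nat_lit 0) (XT.nd (nat_lit 234) (nat_lit 988) (nat_lit 0) (XT.nd (nat_lit 78) (nat_lit 684) (nat_lit 0) (XT.lf (nat_lit 0) (nat_lit 3062708022) (nat_lit 304) (nat_lit 4669845460) (nat_lit 380) (nat_lit 2429561614) (nat_lit 119) (nat_lit 5) (nat_lit 123) (nat_lit 5) (nat_lit 124) (nat_lit 5) (nat_lit 332) (nat_lit 295) (nat_lit 273)) (XT.nd (nat_lit 78) (nat_lit 304) (nat_lit 0) (XT.lf (nat_lit 0) (nat_lit 2990103792) (nat_lit 380) (nat_lit 6117782654) (nat_lit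 76) (nat_lit 1326096432) (nat_lit 114) (nat_lit 5) (nat_lit 119) (nat_lit 5) (nat_lit 115) (nat_lit 5) (nat_lit 333) (nat_lit 295) (nat_lit 272)) (XT.lf (nat_lit 0) (nat_lit 5540433931) (nat_lit 304) (nat_lit 3112193648) (nat_lit 380) (nat_lit 2065481471) (nat_lit 110) (nat_lit 5) (nat_lit 114) (nat_lit 5) (nat_lit 115) (nat_lit 5) (nat_lit 334) (nat_lit 295) (nat_lit 271)))) (XT.nd (nat_lit 78) (nat_lit 608) (nat_lit 0) (XT.lf (nat_lit 0) (nat_lit 3523140381) (nat_lit 380) (nat_lit 4281146720) (nat_lit 76) (nat_lit 3210832068) (nat_lit 105) (nat_lit 5) (nat_lit 110) (nat_lit 5) (nat_lit 106) (nat_lit 5) (nat_lit 335) (nat_lit 295) (nat_lit 270)) (XT.nd (nat_lit 78) (nat_lit 380) (nat_lit 0) (XT.lf (nat_lit 0) (nat_lit 7902826597) (nat_lit 228) (nat_lit 1462594734) (nat_lit 304) (nat_lit 1960480906) (nat_lit 102) (nat_lit 5) (nat_lit 105) (nat_lit 5) (nat_lit 106) (nat_lit 5) (nat_lit 336) (nat_lit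 295) (nat_lit 269)) (XT.lf (nat_lit 0) (nat_lit 3813653506) (nat_lit 380) (nat_lit 2647578601) (nat_lit 76) (nat_lit 5188689503) (nat_lit 97) (nat_lit 5) (nat_lit 102) (nat_lit 5) (nat_lit 98) (nat_lit 5) (nat_lit 337) (nat_lit 295) (nat_lit 268))))) (XT.nd (nat_lit 234) (nat_lit 912) (nat_lit 0) (XT.nd (nat_lit 78) (nat_lit 532) (nat_lit 0) (XT.lf (nat_lit 0) (nat_lit 9848434278) (nat_lit 304) (nat_lit 1914503110) (nat_lit 76) (nat_lit 226286701) (nat_lit 94) (nat_lit 5) (nat_lit 98) (nat_lit 5) (nat_lit 95) (nat_lit 5) (nat_lit 338) (nat_lit 295) (nat_lit 267)) (XT.nd (nat_lit 78) (nat_lit 228) (nat_lit 0) (XT.lf (nat_lit 0) (nat_lit 3830866804) (nat_lit 304) (nat_lit 1299871774) (nat_lit 76) (nat_lit 7211692194) (nat_lit 90) (nat_lit 5) (nat_lit 94) (nat_lit 5) (nat_lit 91) (nat_lit 5) (nat_lit 339) (nat_lit 295) (nat_lit 266)) (XT.lf (nat_lit 0) (nat_lit 10080191574) (nat_lit 304) (nat_lit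 754084877) (nat_lit 76) (nat_lit 1877719018) (nat_lit 87) (nat_lit 5) (nat_lit 91) (nat_lit 5) (nat_lit 88) (nat_lit 5) (nat_lit 340) (nat_lit 295) (nat_lit 265)))) (XT.nd (nat_lit 78) (nat_lit 608) (nat_lit 0) (XT.lf (nat_lit 0) (nat_lit 3534732079) (nat_lit 304) (nat_lit 335851558) (nat_lit 76) (nat_lit 9226607999) (nat_lit 83) (nat_lit 5) (nat_lit 87) (nat_lit 5) (nat_lit 84) (nat_lit 5) (nat_lit 341) (nat_lit 295) (nat_lit 264)) (XT.nd (nat_lit 78) (nat_lit 456) (nat_lit 0) (XT.lf (nat_lit 0) (nat_lit 10003110667) (nat_lit 228) (nat_lit 34184271) (nat_lit 76) (nat_lit 3462162843) (nat_lit 81) (nat_lit 5) (nat_lit 84) (nat_lit 5) (nat_lit 82) (nat_lit 5) (nat_lit 342) (nat_lit 295) (nat_lit 263)) (XT.lf (nat_lit 0) (nat_lit 131049895) (nat_lit 152) (nat_lit 2744776970) (nat_lit 228) (nat_lit 11043445222) (nat_lit 75) (nat_lit 5) (nat_lit 77) (nat_lit 5) (nat_lit 78) (nat_lit 5) (nat_lit 343)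 (nat_lit 295) (nat_lit 262)))))) (XT.nd (nat_lit 468) (nat_lit 1140) (nat_lit 0) (XT.nd (nat_lit 234) (nat_lit 608) (nat_lit 0) (XT.nd (nat_lit 78) (nat_lit 228) (nat_lit 0) (XT.lf (nat_lit 0) (nat_lit 121207598) (nat_lit 228) (nat_lit 9442349590) (nat_lit 304) (nat_lit 4793430323) (nat_lit 72) (nat_lit 5) (nat_lit 75) (nat_lit 5) (nat_lit 76) (nat_lit 5) (nat_lit 344) (nat_lit 295) (nat_lit 261)) (XT.nd (nat_lit 78) (nat_lit 152) (nat_lit 0) (XT.lf (nat_lit 0) (nat_lit 1787415967) (nat_lit 304) (nat_lit 44638354) (nat_lit 76) (nat_lit 12982463304) (nat_lit 71) (nat_lit 5) (nat_lit 75) (nat_lit 5) (nat_lit 72) (nat_lit 5) (nat_lit 345) (nat_lit 295) (nat_lit 260)) (XT.lf (nat_lit 0) (nat_lit 8690172739) (nat_lit 228) (nat_lit 445229962) (nat_lit 76) (nat_lit 6155361108) (nat_lit 69) (nat_lit 5) (nat_lit 72) (nat_lit 5) (nat_lit 70) (nat_lit 5) (nat_lit 346) (nat_lit 295) (nat_lit 259)))) (XT.nd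 (nat_lit 78) (nat_lit 304) (nat_lit 0) (XT.lf (nat_lit 0) (nat_lit 196088051) (nat_lit 304) (nat_lit 1019106079) (nat_lit 76) (nat_lit 14574055920) (nat_lit 65) (nat_lit 5) (nat_lit 69) (nat_lit 5) (nat_lit 66) (nat_lit 5) (nat_lit 347) (nat_lit 295) (nat_lit 258)) (XT.nd (nat_lit 78) (nat_lit 152) (nat_lit 0) (XT.lf (nat_lit 0) (nat_lit 7303394200) (nat_lit 228) (nat_lit 1905089892) (nat_lit 76) (nat_lit 7099017502) (nat_lit 63) (nat_lit 5) (nat_lit 66) (nat_lit 5) (nat_lit 64) (nat_lit 5) (nat_lit 348) (nat_lit 295) (nat_lit 257)) (XT.lf (nat_lit 0) (nat_lit 13840804468) (nat_lit 152) (nat_lit 976501070) (nat_lit 228) (nat_lit 2032842660) (nat_lit 61) (nat_lit 5) (nat_lit 63) (nat_lit 5) (nat_lit 64) (nat_lit 5) (nat_lit 349) (nat_lit 295) (nat_lit 256))))) (XT.nd (nat_lit 234) (nat_lit 532) (nat_lit 0) (XT.nd (nat_lit 78) (nat_lit 380) (nat_lit 0) (XT.lf (nat_lit 0) (nat_lit 5301270288) (nat_lit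 228) (nat_lit 4473260981) (nat_lit 76) (nat_lit 7640365817) (nat_lit 58) (nat_lit 5) (nat_lit 61) (nat_lit 5) (nat_lit 59) (nat_lit 5) (nat_lit 350) (nat_lit 295) (nat_lit 255)) (XT.nd (nat_lit 78) (nat_lit 228) (nat_lit 0) (XT.lf (nat_lit 0) (nat_lit 11769216503) (nat_lit 152) (nat_lit 1245585405) (nat_lit 228) (nat_lit 4990852366) (nat_lit 56) (nat_lit 5) (nat_lit 58) (nat_lit 5) (nat_lit 59) (nat_lit 5) (nat_lit 351) (nat_lit 295) (nat_lit 254)) (XT.lf (nat_lit 0) (nat_lit 2562289036) (nat_lit 228) (nat_lit 8402387670) (nat_lit 76) (nat_lit 7656887759) (nat_lit 53) (nat_lit 5) (nat_lit 56) (nat_lit 5) (nat_lit 54) (nat_lit 5) (nat_lit 352) (nat_lit 295) (nat_lit 253)))) (XT.nd (nat_lit 78) (nat_lit 380) (nat_lit 0) (XT.lf (nat_lit 0) (nat_lit 8289750159) (nat_lit 152) (nat_lit 2162741787) (nat_lit 228) (nat_lit 8812432364) (nat_lit 51) (nat_lit 5) (nat_lit 53) (nat_lit 5) (nat_lit 54) (nat_lit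 5) (nat_lit 353) (nat_lit 295) (nat_lit 252)) (XT.nd (nat_lit 78) (nat_lit 228) (nat_lit 0) (XT.lf (nat_lit 0) (nat_lit 5933907583) (nat_lit 152) (nat_lit 12922569669) (nat_lit 228) (nat_lit 1080411262) (nat_lit 49) (nat_lit 5) (nat_lit 51) (nat_lit 5) (nat_lit 52) (nat_lit 4) (nat_lit 354) (nat_lit 295) (nat_lit 251)) (XT.lf (nat_lit 0) (nat_lit 3084072788) (nat_lit 152) (nat_lit 3891168489) (nat_lit 228) (nat_lit 13662962287) (nat_lit 46) (nat_lit 5) (nat_lit 48) (nat_lit 5) (nat_lit 49) (nat_lit 5) (nat_lit 355) (nat_lit 295) (nat_lit 250))))))))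
noncomputable def xc40 : XT := (XT.nd (nat_lit 1794) (nat_lit 760) (nat_lit 0) (XT.nd (nat_lit 858) (nat_lit 760) (nat_lit 0) (XT.nd (nat_lit 390) (nat_lit 608) (nat_lit 0) (XT.nd (nat_lit 156) (nat_lit 456) (nat_lit 0) (XT.nd (nat_lit 78) (nat_lit 152) (nat_lit 0) (XT.lf (nat_lit 0) (nat_lit 15521790460) (nat_lit 228) (nat_lit 279752520) (nat_lit 76) (nat_lit 5569419514) (nat_lit 46) (nat_lit 5) (nat_lit 49) (nat_lit 5) (nat_lit 47) (nat_lit 4) (nat_lit 356) (nat_lit 295) (nat_lit 249)) (XT.lf (nat_lit 0) (nat_lit 2438227372) (nat_lit 152) (nat_lit 4143621717) (nat_lit 76) (nat_lit 15553976492) (nat_lit 44) (nat_lit 5) (nat_lit 46) (nat_lit 5) (nat_lit 45) (nat_lit 5) (nat_lit 357) (nat_lit 295) (nat_lit 248))) (XT.nd (nat_lit 78) (nat_lit 304) (nat_lit 0) (XT.lf (nat_lit 0) (nat_lit 11108706933) (nat_lit 228) (nat_lit 8652622018) (nat_lit 76) (nat_lit 3173186364) (nat_lit 42) (nat_lit 5) (nat_lit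 45) (nat_lit 5) (nat_lit 43) (nat_lit 4) (nat_lit 358) (nat_lit 295) (nat_lit 247)) (XT.nd (nat_lit 78) (nat_lit 228) (nat_lit 0) (XT.lf (nat_lit 0) (nat_lit 9921633782) (nat_lit 76) (nat_lit 10414810031) (nat_lit 152) (nat_lit 3432994457) (nat_lit 41) (nat_lit 5) (nat_lit 42) (nat_lit 5) (nat_lit 43) (nat_lit 4) (nat_lit 359) (nat_lit 295) (nat_lit 246)) (XT.lf (nat_lit 0) (nat_lit 4858326490) (nat_lit 152) (nat_lit 473354740) (nat_lit 228) (nat_lit 19311168939) (nat_lit 38) (nat_lit 5) (nat_lit 40) (nat_lit 5) (nat_lit 41) (nat_lit 5) (nat_lit 360) (nat_lit 295) (nat_lit 245))))) (XT.nd (nat_lit 234) (nat_lit 304) (nat_lit 0) (XT.nd (nat_lit 78) (nat_lit 304) (nat_lit 0) (XT.lf (nat_lit 0) (nat_lit 14626344737) (nat_lit 228) (nat_lit 1041750378) (nat_lit 76) (nat_lit 9885944689) (nat_lit 38) (nat_lit 5) (nat_lit 41) (nat_lit 5) (nat_lit 39) (nat_lit 4) (nat_lit 361) (nat_lit 295) (nat_lit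 244)) (XT.nd (nat_lit 78) (nat_lit 228) (nat_lit 0) (XT.lf (nat_lit 0) (nat_lit 18864950982) (nat_lit 76) (nat_lit 5632947626) (nat_lit 152) (nat_lit 2009534601) (nat_lit 37) (nat_lit 5) (nat_lit 38) (nat_lit 5) (nat_lit 39) (nat_lit 4) (nat_lit 362) (nat_lit 295) (nat_lit 243)) (XT.lf (nat_lit 0) (nat_lit 7316332688) (nat_lit 228) (nat_lit 15237188473) (nat_lit 76) (nat_lit 4949703192) (nat_lit 34) (nat_lit 5) (nat_lit 37) (nat_lit 5) (nat_lit 35) (nat_lit 4) (nat_lit 363) (nat_lit 295) (nat_lit 242)))) (XT.nd (nat_lit 78) (nat_lit 228) (nat_lit 0) (XT.lf (nat_lit 0) (nat_lit 4664560390) (nat_lit 76) (nat_lit 12513090777) (nat_lit 152) (nat_lit 11367243382) (nat_lit 33) (nat_lit 5) (nat_lit 34) (nat_lit 5) (nat_lit 35) (nat_lit 4) (nat_lit 364) (nat_lit 295) (nat_lit 241)) (XT.nd (nat_lit 78) (nat_lit 228) (nat_lit 0) (XT.lf (nat_lit 0) (nat_lit 25751800702) (nat_lit 76) (nat_lit 1868416722)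 (nat_lit 152) (nat_lit 2015792927) (nat_lit 33) (nat_lit 5) (nat_lit 34) (nat_lit 5) (nat_lit 35) (nat_lit 4) (nat_lit 365) (nat_lit 295) (nat_lit 240)) (XT.lf (nat_lit 0) (nat_lit 7842036968) (nat_lit 228) (nat_lit 13617670865) (nat_lit 76) (nat_lit 9313998527) (nat_lit 30) (nat_lit 5) (nat_lit 33) (nat_lit 5) (nat_lit 31) (nat_lit 4) (nat_lit 366) (nat_lit 295) (nat_lit 239)))))) (XT.nd (nat_lit 468) (nat_lit 304) (nat_lit 0) (XT.nd (nat_lit 234) (nat_lit 228) (nat_lit 0) (XT.nd (nat_lit 78) (nat_lit 152) (nat_lit 0) (XT.lf (nat_lit 0) (nat_lit 7345005630) (nat_lit 76) (nat_lit 10871697999) (nat_lit 152) (nat_lit 13749022390) (nat_lit 29) (nat_lit 5) (nat_lit 30) (nat_lit 5) (nat_lit 31) (nat_lit 4) (nat_lit 367) (nat_lit 295) (nat_lit 238)) (XT.nd (nat_lit 78) (nat_lit 152) (nat_lit 0) (XT.lf (nat_lit 0) (nat_lit 29190856243) (nat_lit 152) (nat_lit 3695487647) (nat_lit 0) (nat_lit 328586524)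 (nat_lit 29) (nat_lit 5) (nat_lit 31) (nat_lit 4) (nat_lit 29) (nat_lit 4) (nat_lit 368) (nat_lit 295) (nat_lit 237)) (XT.lf (nat_lit 0) (nat_lit 6295175442) (nat_lit 152) (nat_lit 16169272607) (nat_lit 76) (nat_lit 12053504995) (nat_lit 27) (nat_lit 5) (nat_lit 29) (nat_lit 5) (nat_lit 28) (nat_lit 4) (nat_lit 369) (nat_lit 295) (nat_lit 236)))) (XT.nd (nat_lit 78) (nat_lit 152) (nat_lit 0) (XT.lf (nat_lit 0) (nat_lit 5645215537) (nat_lit 76) (nat_lit 11436458422) (nat_lit 152) (nat_lit 18802227839) (nat_lit 26) (nat_lit 5) (nat_lit 27) (nat_lit 5) (nat_lit 28) (nat_lit 4) (nat_lit 370) (nat_lit 295) (nat_lit 235)) (XT.nd (nat_lit 78) (nat_lit 152) (nat_lit 0) (XT.lf (nat_lit 0) (nat_lit 28519300046) (nat_lit 152) (nat_lit 8537147419) (nat_lit 0) (nat_lit 258351756) (nat_lit 26) (nat_lit 5) (nat_lit 28) (nat_lit 4) (nat_lit 26) (nat_lit 4) (nat_lit 371) (nat_lit 295) (nat_lit 234)) (XT.lf (nat_lit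 0) (nat_lit 1878181001) (nat_lit 152) (nat_lit 24520542417) (nat_lit 76) (nat_lit 12412029014) (nat_lit 24) (nat_lit 5) (nat_lit 26) (nat_lit 5) (nat_lit 25) (nat_lit 4) (nat_lit 372) (nat_lit 295) (nat_lit 233))))) (XT.nd (nat_lit 234) (nat_lit 152) (nat_lit 0) (XT.nd (nat_lit 78) (nat_lit 152) (nat_lit 0) (XT.lf (nat_lit 0) (nat_lit 12940273873) (nat_lit 152) (nat_lit 2133352516) (nat_lit 76) (nat_lit 25304170073) (nat_lit 24) (nat_lit 5) (nat_lit 26) (nat_lit 5) (nat_lit 25) (nat_lit 4) (nat_lit 373) (nat_lit 295) (nat_lit 232)) (XT.nd (nat_lit 78) (nat_lit 76) (nat_lit 0) (XT.lf (nat_lit 0) (nat_lit 21699317239) (nat_lit 76) (nat_lit 3013493285) (nat_lit 152) (nat_lit 17305666450) (nat_lit 23) (nat_lit 5) (nat_lit 24) (nat_lit 5) (nat_lit 25) (nat_lit 4) (nat_lit 374) (nat_lit 295) (nat_lit 231)) (XT.lf (nat_lit 0) (nat_lit 2895609532) (nat_lit 76) (nat_lit 34270988666) (nat_lit 76) (nat_lit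 6571818829) (nat_lit 22) (nat_lit 4) (nat_lit 23) (nat_lit 5) (nat_lit 23) (nat_lit 4) (nat_lit 375) (nat_lit 295) (nat_lit 230)))) (XT.nd (nat_lit 78) (nat_lit 76) (nat_lit 0) (XT.lf (nat_lit 0) (nat_lit 4799549789) (nat_lit 152) (nat_lit 18013833931) (nat_lit 76) (nat_lit 22723843748) (nat_lit 21) (nat_lit 5) (nat_lit 23) (nat_lit 5) (nat_lit 22) (nat_lit 4) (nat_lit 376) (nat_lit 295) (nat_lit 229)) (XT.nd (nat_lit 78) (nat_lit 0) (nat_lit 0) (XT.lf (nat_lit 0) (nat_lit 5916345656) (nat_lit 76) (nat_lit 10698563615) (nat_lit 152) (nat_lit 30808780740) (nat_lit 20) (nat_lit 5) (nat_lit 21) (nat_lit 5) (nat_lit 22) (nat_lit 4) (nat_lit 377) (nat_lit 295) (nat_lit 228)) (XT.lf (nat_lit 0) (nat_lit 29181944827) (nat_lit 152) (nat_lit 18088482020) (nat_lit 0) (nat_lit 2129225148) (nat_lit 20) (nat_lit 5) (nat_lit 22) (nat_lit 4) (nat_lit 20) (nat_lit 4) (nat_lit 378) (nat_lit 295) (nat_lit 227)))))))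 (XT.nd (nat_lit 936) (nat_lit 228) (nat_lit 0) (XT.nd (nat_lit 468) (nat_lit 228) (nat_lit 0) (XT.nd (nat_lit 234) (nat_lit 76) (nat_lit 0) (XT.nd (nat_lit 78) (nat_lit 152) (nat_lit 0) (XT.lf (nat_lit 0) (nat_lit 6435328947) (nat_lit 76) (nat_lit 36068226624) (nat_lit 76) (nat_lit 8967073192) (nat_lit 19) (nat_lit 4) (nat_lit 20) (nat_lit 5) (nat_lit 20) (nat_lit 4) (nat_lit 379) (nat_lit 295) (nat_lit 226)) (XT.nd (nat_lit 78) (nat_lit 76) (nat_lit 0) (XT.lf (nat_lit 0) (nat_lit 2935857915) (nat_lit 152) (nat_lit 21187489247) (nat_lit 76) (nat_lit 29516630502) (nat_lit 18) (nat_lit 5) (nat_lit 20) (nat_lit 5) (nat_lit 19) (nat_lit 4) (nat_lit 380) (nat_lit 295) (nat_lit 225)) (XT.lf (nat_lit 0) (nat_lit 3757386518) (nat_lit 76) (nat_lit 11488228347) (nat_lit 152) (nat_lit 40669604679) (nat_lit 17) (nat_lit 5) (nat_lit 18) (nat_lit 5) (nat_lit 19) (nat_lit 4) (nat_lit 381) (nat_lit 295) (nat_lit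 224)))) (XT.nd (nat_lit 78) (nat_lit 76) (nat_lit 0) (XT.lf (nat_lit 0) (nat_lit 28368372071) (nat_lit 152) (nat_lit 28001411753) (nat_lit 0) (nat_lit 1928517162) (nat_lit 17) (nat_lit 5) (nat_lit 19) (nat_lit 4) (nat_lit 17) (nat_lit 4) (nat_lit 382) (nat_lit 295) (nat_lit 223)) (XT.nd (nat_lit 78) (nat_lit 76) (nat_lit 0) (XT.lf (nat_lit 0) (nat_lit 42225267271) (nat_lit 152) (nat_lit 2826205558) (nat_lit 0) (nat_lit 15746726373) (nat_lit 17) (nat_lit 5) (nat_lit 19) (nat_lit 4) (nat_lit 17) (nat_lit 4) (nat_lit 383) (nat_lit 295) (nat_lit 222)) (XT.lf (nat_lit 0) (nat_lit 24006613906) (nat_lit 76) (nat_lit 32963013547) (nat_lit 76) (nat_lit 6447628849) (nat_lit 16) (nat_lit 4) (nat_lit 17) (nat_lit 5) (nat_lit 17) (nat_lit 4) (nat_lit 384) (nat_lit 295) (nat_lit 221))))) (XT.nd (nat_lit 234) (nat_lit 76) (nat_lit 0) (XT.nd (nat_lit 78) (nat_lit 76) (nat_lit 0) (XT.lf (nat_lit 0) (nat_lit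 6155274079) (nat_lit 152) (nat_lit 14055267649) (nat_lit 76) (nat_lit 45955096050) (nat_lit 15) (nat_lit 5) (nat_lit 17) (nat_lit 5) (nat_lit 16) (nat_lit 4) (nat_lit 385) (nat_lit 295) (nat_lit 220)) (XT.nd (nat_lit 78) (nat_lit 0) (nat_lit 0) (XT.lf (nat_lit 0) (nat_lit 12685271989) (nat_lit 76) (nat_lit 6659143986) (nat_lit 152) (nat_lit 49702426263) (nat_lit 14) (nat_lit 5) (nat_lit 15) (nat_lit 5) (nat_lit 16) (nat_lit 4) (nat_lit 386) (nat_lit 295) (nat_lit 219)) (XT.lf (nat_lit 0) (nat_lit 33378868652) (nat_lit 152) (nat_lit 31149300539) (nat_lit 0) (nat_lit 7538364282) (nat_lit 14) (nat_lit 5) (nat_lit 16) (nat_lit 4) (nat_lit 14) (nat_lit 4) (nat_lit 387) (nat_lit 295) (nat_lit 218)))) (XT.nd (nat_lit 78) (nat_lit 76) (nat_lit 0) (XT.lf (nat_lit 0) (nat_lit 48150798021) (nat_lit 152) (nat_lit 4804475662) (nat_lit 0) (nat_lit 22280865025) (nat_lit 14) (nat_lit 5) (nat_lit 16) (nat_lit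 4) (nat_lit 14) (nat_lit 4) (nat_lit 388) (nat_lit 295) (nat_lit 217)) (XT.nd (nat_lit 78) (nat_lit 0) (nat_lit 0) (XT.lf (nat_lit 0) (nat_lit 23253399501) (nat_lit 76) (nat_lit 40601489977) (nat_lit 76) (nat_lit 14703529718) (nat_lit 13) (nat_lit 4) (nat_lit 14) (nat_lit 5) (nat_lit 14) (nat_lit 4) (nat_lit 389) (nat_lit 295) (nat_lit 216)) (XT.lf (nat_lit 0) (nat_lit 52758280379) (nat_lit 76) (nat_lit 27606288296) (nat_lit 76) (nat_lit 1681635406) (nat_lit 13) (nat_lit 4) (nat_lit 14) (nat_lit 5) (nat_lit 14) (nat_lit 4) (nat_lit 390) (nat_lit 295) (nat_lit 215)))))) (XT.nd (nat_lit 40560) (nat_lit 0) (nat_lit 19380) (XT.nd (nat_lit 312) (nat_lit 76) (nat_lit 0) (XT.nd (nat_lit 78) (nat_lit 76) (nat_lit 0) (XT.lf (nat_lit 0) (nat_lit 11729393055) (nat_lit 152) (nat_lit 2139406542) (nat_lit 76) (nat_lit 71836961276) (nat_lit 12) (nat_lit 5) (nat_lit 14) (nat_lit 5) (nat_lit 13) (nat_lit 4)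 (nat_lit 391) (nat_lit 295) (nat_lit 214)) (XT.nd (nat_lit 78) (nat_lit 0) (nat_lit 0) (XT.lf (nat_lit 0) (nat_lit 26015527717) (nat_lit 152) (nat_lit 62727315074) (nat_lit 0) (nat_lit 797774855) (nat_lit 11) (nat_lit 5) (nat_lit 13) (nat_lit 4) (nat_lit 11) (nat_lit 4) (nat_lit 392) (nat_lit 295) (nat_lit 213)) (XT.lf (nat_lit 0) (nat_lit 41152110714) (nat_lit 152) (nat_lit 36499052512) (nat_lit 0) (nat_lit 15911971348) (nat_lit 11) (nat_lit 5) (nat_lit 13) (nat_lit 4) (nat_lit 11) (nat_lit 4) (nat_lit 393) (nat_lit 295) (nat_lit 212)))) (XT.nd (nat_lit 40092) (nat_lit 0) (nat_lit 24928) (XT.lf (nat_lit 0) (nat_lit 20206756705) (nat_lit 76) (nat_lit 53646512594) (nat_lit 76) (nat_lit 28364747531) (nat_lit 10) (nat_lit 4) (nat_lit 11) (nat_lit 5) (nat_lit 11) (nat_lit 4) (nat_lit 395) (nat_lit 295) (nat_lit 210)) (XT.nd (nat_lit 78) (nat_lit 684) (nat_lit 0) (XT.lf (nat_lit 0) (nat_lit 954248129)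 (nat_lit 532) (nat_lit 1180690015) (nat_lit 532) (nat_lit 1180690015) (nat_lit 347) (nat_lit 4) (nat_lit 354) (nat_lit 5) (nat_lit 354) (nat_lit 4) (nat_lit 308) (nat_lit 296) (nat_lit 296)) (XT.lf (nat_lit 0) (nat_lit 2109802624) (nat_lit 608) (nat_lit 763267517) (nat_lit 684) (nat_lit 3809848766) (nat_lit 338) (nat_lit 5) (nat_lit 346) (nat_lit 5) (nat_lit 347) (nat_lit 4) (nat_lit 309) (nat_lit 296) (nat_lit 295))))) (XT.nd (nat_lit 234) (nat_lit 3116) (nat_lit 0) (XT.nd (nat_lit 78) (nat_lit 1672) (nat_lit 0) (XT.lf (nat_lit 0) (nat_lit 1343842209) (nat_lit 760) (nat_lit 4328113136) (nat_lit 76) (nat_lit 1070560648) (nat_lit 328) (nat_lit 5) (nat_lit 338) (nat_lit 5) (nat_lit 329) (nat_lit 4) (nat_lit 310) (nat_lit 296) (nat_lit 294)) (XT.nd (nat_lit 78) (nat_lit 912) (nat_lit 0) (XT.lf (nat_lit 0) (nat_lit 2819186400) (nat_lit 760) (nat_lit 3660321193) (nat_lit 836) (nat_lit 330583852)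 (nat_lit 318) (nat_lit 5) (nat_lit 328) (nat_lit 5) (nat_lit 329) (nat_lit 4) (nat_lit 311) (nat_lit 296) (nat_lit 293)) (XT.lf (nat_lit 0) (nat_lit 3319611047) (nat_lit 836) (nat_lit 1379112988) (nat_lit 912) (nat_lit 2186932114) (nat_lit 306) (nat_lit 5) (nat_lit 317) (nat_lit 5) (nat_lit 318) (nat_lit 5) (nat_lit 312) (nat_lit 296) (nat_lit 292)))) (XT.nd (nat_lit 78) (nat_lit 2128) (nat_lit 0) (XT.lf (nat_lit 0) (nat_lit 2775853183) (nat_lit 988) (nat_lit 3051760261) (nat_lit 76) (nat_lit 1141806859) (nat_lit 293) (nat_lit 5) (nat_lit 306) (nat_lit 5) (nat_lit 294) (nat_lit 5) (nat_lit 313) (nat_lit 296) (nat_lit 291)) (XT.nd (nat_lit 78) (nat_lit 1064) (nat_lit 0) (XT.lf (nat_lit 0) (nat_lit 708604188) (nat_lit 1064) (nat_lit 2452665295) (nat_lit 76) (nat_lit 3900143103) (nat_lit 279) (nat_lit 5) (nat_lit 293) (nat_lit 5) (nat_lit 280) (nat_lit 5) (nat_lit 314) (nat_lit 296) (nat_lit 290))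 (XT.lf (nat_lit 0) (nat_lit 5391530543) (nat_lit 1064) (nat_lit 216287469) (nat_lit 1140) (nat_lit 1553948589) (nat_lit 265) (nat_lit 5) (nat_lit 279) (nat_lit 5) (nat_lit 280) (nat_lit 5) (nat_lit 315) (nat_lit 296) (nat_lit 289))))))))
noncomputable def xc41 : XT := (XT.nd (nat_lit 1872) (nat_lit 4104) (nat_lit 0) (XT.nd (nat_lit 936) (nat_lit 4332) (nat_lit 0) (XT.nd (nat_lit 468) (nat_lit 3420) (nat_lit 0) (XT.nd (nat_lit 234) (nat_lit 1824) (nat_lit 0) (XT.nd (nat_lit 78) (nat_lit 2508) (nat_lit 0) (XT.lf (nat_lit 0) (nat_lit 3292938409) (nat_lit 1216) (nat_lit 1026668889) (nat_lit 76) (nat_lit 2950398476) (nat_lit 249) (nat_lit 5) (nat_lit 265) (nat_lit 5) (nat_lit 250) (nat_lit 5) (nat_lit 316) (nat_lit 296) (nat_lit 288)) (XT.nd (nat_lit 78) (nat_lit 1216) (nat_lit 0) (XT.lf (nat_lit 0) (nat_lit 807258818) (nat_lit 1292) (nat_lit 190310991) (nat_lit 76) (nat_lit 6389711364) (nat_lit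 232) (nat_lit 5) (nat_lit 249) (nat_lit 5) (nat_lit 233) (nat_lit 5) (nat_lit 317) (nat_lit 296) (nat_lit 287)) (XT.lf (nat_lit 0) (nat_lit 712077098) (nat_lit 608) (nat_lit 4936248957) (nat_lit 684) (nat_lit 1864056177) (nat_lit 216) (nat_lit 5) (nat_lit 224) (nat_lit 5) (nat_lit 225) (nat_lit 5) (nat_lit 318) (nat_lit 296) (nat_lit 286)))) (XT.nd (nat_lit 78) (nat_lit 1140) (nat_lit 0) (XT.lf (nat_lit 0) (nat_lit 1693942544) (nat_lit 608) (nat_lit 1221747626) (nat_lit 684) (nat_lit 4730636928) (nat_lit 207) (nat_lit 5) (nat_lit 215) (nat_lit 5) (nat_lit 216) (nat_lit 5) (nat_lit 319) (nat_lit 296) (nat_lit 285)) (XT.nd (nat_lit 78) (nat_lit 532) (nat_lit 0) (XT.lf (nat_lit 0) (nat_lit 18616624) (nat_lit 608) (nat_lit 5046348960) (nat_lit 76) (nat_lit 2724196205) (nat_lit 199) (nat_lit 5) (nat_lit 207) (nat_lit 5) (nat_lit 200) (nat_lit 5) (nat_lit 320) (nat_lit 296) (nat_lit 284)) (XT.lf (nat_lit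 0) (nat_lit 3841272383) (nat_lit 532) (nat_lit 973104945) (nat_lit 608) (nat_lit 3126260447) (nat_lit 192) (nat_lit 5) (nat_lit 199) (nat_lit 5) (nat_lit 200) (nat_lit 5) (nat_lit 321) (nat_lit 296) (nat_lit 283))))) (XT.nd (nat_lit 234) (nat_lit 1824) (nat_lit 0) (XT.nd (nat_lit 78) (nat_lit 1064) (nat_lit 0) (XT.lf (nat_lit 0) (nat_lit 1650096572) (nat_lit 532) (nat_lit 3103886559) (nat_lit 76) (nat_lit 3347282118) (nat_lit 185) (nat_lit 5) (nat_lit 192) (nat_lit 5) (nat_lit 186) (nat_lit 5) (nat_lit 322) (nat_lit 296) (nat_lit 282)) (XT.nd (nat_lit 78) (nat_lit 532) (nat_lit 0) (XT.lf (nat_lit 0) (nat_lit 6216252629) (nat_lit 532) (nat_lit 304582137) (nat_lit 608) (nat_lit 1750652036) (nat_lit 178) (nat_lit 5) (nat_lit 185) (nat_lit 5) (nat_lit 186) (nat_lit 5) (nat_lit 323) (nat_lit 296) (nat_lit 281)) (XT.lf (nat_lit 0) (nat_lit 3082642143) (nat_lit 532) (nat_lit 987739887) (nat_lit 76)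 (nat_lit 4380212433) (nat_lit 171) (nat_lit 5) (nat_lit 178) (nat_lit 5) (nat_lit 172) (nat_lit 5) (nat_lit 324) (nat_lit 296) (nat_lit 280)))) (XT.nd (nat_lit 78) (nat_lit 988) (nat_lit 0) (XT.lf (nat_lit 0) (nat_lit 142493432) (nat_lit 380) (nat_lit 7915567129) (nat_lit 456) (nat_lit 582063167) (nat_lit 160) (nat_lit 5) (nat_lit 165) (nat_lit 5) (nat_lit 166) (nat_lit 5) (nat_lit 325) (nat_lit 296) (nat_lit 279)) (XT.nd (nat_lit 78) (nat_lit 456) (nat_lit 0) (XT.lf (nat_lit 0) (nat_lit 1293701113) (nat_lit 456) (nat_lit 3045965058) (nat_lit 532) (nat_lit 4498764265) (nat_lit 153) (nat_lit 5) (nat_lit 159) (nat_lit 5) (nat_lit 160) (nat_lit 5) (nat_lit 326) (nat_lit 296) (nat_lit 278)) (XT.lf (nat_lit 0) (nat_lit 398972515) (nat_lit 456) (nat_lit 6551110268) (nat_lit 76) (nat_lit 2097577953) (nat_lit 147) (nat_lit 5) (nat_lit 153) (nat_lit 5) (nat_lit 148) (nat_lit 5) (nat_lit 327) (nat_lit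 296) (nat_lit 277)))))) (XT.nd (nat_lit 468) (nat_lit 2128) (nat_lit 0) (XT.nd (nat_lit 234) (nat_lit 1064) (nat_lit 0) (XT.nd (nat_lit 78) (nat_lit 760) (nat_lit 0) (XT.lf (nat_lit 0) (nat_lit 3701245578) (nat_lit 380) (nat_lit 1724191367) (nat_lit 456) (nat_lit 3841343052) (nat_lit 142) (nat_lit 5) (nat_lit 147) (nat_lit 5) (nat_lit 148) (nat_lit 5) (nat_lit 328) (nat_lit 296) (nat_lit 276)) (XT.nd (nat_lit 78) (nat_lit 380) (nat_lit 0) (XT.lf (nat_lit 0) (nat_lit 1171074131) (nat_lit 380) (nat_lit 4565339758) (nat_lit 76) (nat_lit 3760510970) (nat_lit 137) (nat_lit 5) (nat_lit 142) (nat_lit 5) (nat_lit 138) (nat_lit 5) (nat_lit 329) (nat_lit 296) (nat_lit 275)) (XT.lf (nat_lit 0) (nat_lit 6175473455) (nat_lit 380) (nat_lit 155245334) (nat_lit 456) (nat_lit 3407497437) (nat_lit 132) (nat_lit 5) (nat_lit 137) (nat_lit 5) (nat_lit 138) (nat_lit 5) (nat_lit 330) (nat_lit 296) (nat_lit 274))))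 (XT.nd (nat_lit 78) (nat_lit 684) (nat_lit 0) (XT.lf (nat_lit 0) (nat_lit 1741961903) (nat_lit 380) (nat_lit 2578934221) (nat_lit 76) (nat_lit 5669642482) (nat_lit 127) (nat_lit 5) (nat_lit 132) (nat_lit 5) (nat_lit 128) (nat_lit 5) (nat_lit 331) (nat_lit 296) (nat_lit 273)) (XT.nd (nat_lit 78) (nat_lit 380) (nat_lit 0) (XT.lf (nat_lit 0) (nat_lit 7066022838) (nat_lit 380) (nat_lit 1599116776) (nat_lit 76) (nat_lit 1589751757) (nat_lit 123) (nat_lit 5) (nat_lit 128) (nat_lit 5) (nat_lit 124) (nat_lit 5) (nat_lit 332) (nat_lit 296) (nat_lit 272)) (XT.lf (nat_lit 0) (nat_lit 2102149185) (nat_lit 380) (nat_lit 641995892) (nat_lit 76) (nat_lit 7787161524) (nat_lit 118) (nat_lit 5) (nat_lit 123) (nat_lit 5) (nat_lit 119) (nat_lit 5) (nat_lit 333) (nat_lit 296) (nat_lit 271))))) (XT.nd (nat_lit 234) (nat_lit 912) (nat_lit 0) (XT.nd (nat_lit 78) (nat_lit 608) (nat_lit 0) (XT.lf (nat_lit 0) (nat_lit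 289540354) (nat_lit 304) (nat_lit 7321055399) (nat_lit 380) (nat_lit 3209482715) (nat_lit 110) (nat_lit 5) (nat_lit 114) (nat_lit 5) (nat_lit 115) (nat_lit 5) (nat_lit 334) (nat_lit 296) (nat_lit 270)) (XT.nd (nat_lit 78) (nat_lit 228) (nat_lit 0) (XT.lf (nat_lit 0) (nat_lit 1211397517) (nat_lit 304) (nat_lit 1036002212) (nat_lit 380) (nat_lit 8874662268) (nat_lit 105) (nat_lit 5) (nat_lit 109) (nat_lit 5) (nat_lit 110) (nat_lit 5) (nat_lit 335) (nat_lit 296) (nat_lit 269)) (XT.lf (nat_lit 0) (nat_lit 2065945706) (nat_lit 228) (nat_lit 5890463968) (nat_lit 304) (nat_lit 3480454109) (nat_lit 102) (nat_lit 5) (nat_lit 105) (nat_lit 5) (nat_lit 106) (nat_lit 5) (nat_lit 336) (nat_lit 296) (nat_lit 268)))) (XT.nd (nat_lit 78) (nat_lit 532) (nat_lit 0) (XT.lf (nat_lit 0) (nat_lit 2154899678) (nat_lit 380) (nat_lit 8874224180) (nat_lit 76) (nat_lit 737269883) (nat_lit 97) (nat_lit 5) (nat_lit 102)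 (nat_lit 5) (nat_lit 98) (nat_lit 5) (nat_lit 337) (nat_lit 296) (nat_lit 267)) (XT.nd (nat_lit 78) (nat_lit 304) (nat_lit 0) (XT.lf (nat_lit 0) (nat_lit 3623991125) (nat_lit 228) (nat_lit 4437642540) (nat_lit 304) (nat_lit 4047922088) (nat_lit 94) (nat_lit 5) (nat_lit 97) (nat_lit 5) (nat_lit 98) (nat_lit 5) (nat_lit 338) (nat_lit 296) (nat_lit 266)) (XT.lf (nat_lit 0) (nat_lit 1789577217) (nat_lit 304) (nat_lit 8164694513) (nat_lit 76) (nat_lit 2514198614) (nat_lit 90) (nat_lit 5) (nat_lit 94) (nat_lit 5) (nat_lit 91) (nat_lit 5) (nat_lit 339) (nat_lit 296) (nat_lit 265))))))) (XT.nd (nat_lit 936) (nat_lit 1520) (nat_lit 0) (XT.nd (nat_lit 468) (nat_lit 1216) (nat_lit 0) (XT.nd (nat_lit 234) (nat_lit 684) (nat_lit 0) (XT.nd (nat_lit 78) (nat_lit 456) (nat_lit 0) (XT.lf (nat_lit 0) (nat_lit 4876011891) (nat_lit 228) (nat_lit 3015599485) (nat_lit 304) (nat_lit 4950858348) (nat_lit 87) (nat_lit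 5) (nat_lit 90) (nat_lit 5) (nat_lit 91) (nat_lit 5) (nat_lit 340) (nat_lit 296) (nat_lit 264)) (XT.nd (nat_lit 78) (nat_lit 152) (nat_lit 0) (XT.lf (nat_lit 0) (nat_lit 1099989313) (nat_lit 304) (nat_lit 7871620878) (nat_lit 76) (nat_lit 4261567468) (nat_lit 83) (nat_lit 5) (nat_lit 87) (nat_lit 5) (nat_lit 84) (nat_lit 5) (nat_lit 341) (nat_lit 296) (nat_lit 263)) (XT.lf (nat_lit 0) (nat_lit 5718092860) (nat_lit 152) (nat_lit 1683864610) (nat_lit 228) (nat_lit 6238492706) (nat_lit 81) (nat_lit 5) (nat_lit 83) (nat_lit 5) (nat_lit 84) (nat_lit 5) (nat_lit 342) (nat_lit 296) (nat_lit 262)))) (XT.nd (nat_lit 78) (nat_lit 380) (nat_lit 0) (XT.lf (nat_lit 0) (nat_lit 34008555) (nat_lit 304) (nat_lit 8112832318) (nat_lit 76) (nat_lit 5918822838) (nat_lit 77) (nat_lit 5) (nat_lit 81) (nat_lit 5) (nat_lit 78) (nat_lit 5) (nat_lit 343) (nat_lit 296) (nat_lit 261)) (XT.nd (nat_lit 78) (nat_lit 228)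 (nat_lit 0) (XT.lf (nat_lit 0) (nat_lit 6026733680) (nat_lit 152) (nat_lit 510342809) (nat_lit 228) (nat_lit 7971854899) (nat_lit 75) (nat_lit 5) (nat_lit 77) (nat_lit 5) (nat_lit 78) (nat_lit 5) (nat_lit 344) (nat_lit 296) (nat_lit 260)) (XT.lf (nat_lit 0) (nat_lit 5928701141) (nat_lit 228) (nat_lit 7540473452) (nat_lit 304) (nat_lit 1502095721) (nat_lit 72) (nat_lit 5) (nat_lit 75) (nat_lit 5) (nat_lit 76) (nat_lit 5) (nat_lit 345) (nat_lit 296) (nat_lit 259))))) (XT.nd (nat_lit 234) (nat_lit 532) (nat_lit 0) (XT.nd (nat_lit 78) (nat_lit 456) (nat_lit 0) (XT.lf (nat_lit 0) (nat_lit 5232487614) (nat_lit 228) (nat_lit 9803146851) (nat_lit 76) (nat_lit 418250649) (nat_lit 69) (nat_lit 5) (nat_lit 72) (nat_lit 5) (nat_lit 70) (nat_lit 5) (nat_lit 346) (nat_lit 296) (nat_lit 258)) (XT.nd (nat_lit 78) (nat_lit 228) (nat_lit 0) (XT.lf (nat_lit 0) (nat_lit 5138898973) (nat_lit 228) (nat_lit 7249139005)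 (nat_lit 304) (nat_lit 3568708690) (nat_lit 66) (nat_lit 5) (nat_lit 69) (nat_lit 5) (nat_lit 70) (nat_lit 5) (nat_lit 347) (nat_lit 296) (nat_lit 257)) (XT.lf (nat_lit 0) (nat_lit 3402159868) (nat_lit 228) (nat_lit 12064679263) (nat_lit 76) (nat_lit 1015380098) (nat_lit 63) (nat_lit 5) (nat_lit 66) (nat_lit 5) (nat_lit 64) (nat_lit 5) (nat_lit 348) (nat_lit 296) (nat_lit 256)))) (XT.nd (nat_lit 78) (nat_lit 380) (nat_lit 0) (XT.lf (nat_lit 0) (nat_lit 3392849566) (nat_lit 152) (nat_lit 7374164042) (nat_lit 228) (nat_lit 6262333097) (nat_lit 61) (nat_lit 5) (nat_lit 63) (nat_lit 5) (nat_lit 64) (nat_lit 5) (nat_lit 349) (nat_lit 296) (nat_lit 255)) (XT.nd (nat_lit 78) (nat_lit 152) (nat_lit 0) (XT.lf (nat_lit 0) (nat_lit 938858405) (nat_lit 228) (nat_lit 15476838751) (nat_lit 76) (nat_lit 1186090204) (nat_lit 58) (nat_lit 5) (nat_lit 61) (nat_lit 5) (nat_lit 59) (nat_lit 5) (nat_lit 350) (nat_lit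 296) (nat_lit 254)) (XT.lf (nat_lit 0) (nat_lit 463319683) (nat_lit 152) (nat_lit 8033975481) (nat_lit 228) (nat_lit 9699910283) (nat_lit 56) (nat_lit 5) (nat_lit 58) (nat_lit 5) (nat_lit 59) (nat_lit 5) (nat_lit 351) (nat_lit 296) (nat_lit 253)))))) (XT.nd (nat_lit 468) (nat_lit 684) (nat_lit 0) (XT.nd (nat_lit 234) (nat_lit 456) (nat_lit 0) (XT.nd (nat_lit 78) (nat_lit 380) (nat_lit 0) (XT.lf (nat_lit 0) (nat_lit 16509060280) (nat_lit 228) (nat_lit 1467445280) (nat_lit 76) (nat_lit 843642401) (nat_lit 56) (nat_lit 5) (nat_lit 59) (nat_lit 5) (nat_lit 57) (nat_lit 4) (nat_lit 352) (nat_lit 296) (nat_lit 252)) (XT.nd (nat_lit 78) (nat_lit 152) (nat_lit 0) (XT.lf (nat_lit 0) (nat_lit 5485663541) (nat_lit 228) (nat_lit 3843466619) (nat_lit 76) (nat_lit 10139207684) (nat_lit 53) (nat_lit 5) (nat_lit 56) (nat_lit 5) (nat_lit 54) (nat_lit 5) (nat_lit 353) (nat_lit 296) (nat_lit 251)) (XT.lf (nat_lit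 0) (nat_lit 13540554907) (nat_lit 152) (nat_lit 143203707) (nat_lit 228) (nat_lit 6462726892) (nat_lit 51) (nat_lit 5) (nat_lit 53) (nat_lit 5) (nat_lit 54) (nat_lit 5) (nat_lit 354) (nat_lit 296) (nat_lit 250)))) (XT.nd (nat_lit 78) (nat_lit 228) (nat_lit 0) (XT.lf (nat_lit 0) (nat_lit 1559155848) (nat_lit 228) (nat_lit 9881501879) (nat_lit 76) (nat_lit 9412865161) (nat_lit 48) (nat_lit 5) (nat_lit 51) (nat_lit 5) (nat_lit 49) (nat_lit 5) (nat_lit 355) (nat_lit 296) (nat_lit 249)) (XT.nd (nat_lit 78) (nat_lit 76) (nat_lit 0) (XT.lf (nat_lit 0) (nat_lit 7911101257) (nat_lit 152) (nat_lit 2002059014) (nat_lit 228) (nat_lit 11678903836) (nat_lit 46) (nat_lit 5) (nat_lit 48) (nat_lit 5) (nat_lit 49) (nat_lit 5) (nat_lit 356) (nat_lit 296) (nat_lit 248)) (XT.lf (nat_lit 0) (nat_lit 4295650100) (nat_lit 76) (nat_lit 14528461748) (nat_lit 152) (nat_lit 3539254742) (nat_lit 45) (nat_lit 5) (nat_lit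 46) (nat_lit 5) (nat_lit 47) (nat_lit 4) (nat_lit 357) (nat_lit 296) (nat_lit 247))))) (XT.nd (nat_lit 234) (nat_lit 380) (nat_lit 0) (XT.nd (nat_lit 78) (nat_lit 76) (nat_lit 0) (XT.lf (nat_lit 0) (nat_lit 75841452) (nat_lit 152) (nat_lit 4917885832) (nat_lit 228) (nat_lit 18175551755) (nat_lit 42) (nat_lit 5) (nat_lit 44) (nat_lit 5) (nat_lit 45) (nat_lit 5) (nat_lit 358) (nat_lit 296) (nat_lit 246)) (XT.nd (nat_lit 78) (nat_lit 76) (nat_lit 0) (XT.lf (nat_lit 0) (nat_lit 14041117775) (nat_lit 228) (nat_lit 4734519371) (nat_lit 76) (nat_lit 5233980227) (nat_lit 42) (nat_lit 5) (nat_lit 45) (nat_lit 5) (nat_lit 43) (nat_lit 4) (nat_lit 359) (nat_lit 296) (nat_lit 245)) (XT.lf (nat_lit 0) (nat_lit 14643736309) (nat_lit 76) (nat_lit 9013938978) (nat_lit 152) (nat_lit 1230803149) (nat_lit 41) (nat_lit 5) (nat_lit 42) (nat_lit 5) (nat_lit 43) (nat_lit 4) (nat_lit 360) (nat_lit 296) (nat_lit 244))))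 (XT.nd (nat_lit 78) (nat_lit 152) (nat_lit 0) (XT.lf (nat_lit 0) (nat_lit 7868268352) (nat_lit 228) (nat_lit 16569040599) (nat_lit 76) (nat_lit 1369306733) (nat_lit 38) (nat_lit 5) (nat_lit 41) (nat_lit 5) (nat_lit 39) (nat_lit 4) (nat_lit 361) (nat_lit 296) (nat_lit 243)) (XT.nd (nat_lit 78) (nat_lit 76) (nat_lit 0) (XT.lf (nat_lit 0) (nat_lit 2963933967) (nat_lit 76) (nat_lit 14588677004) (nat_lit 152) (nat_lit 9213018637) (nat_lit 37) (nat_lit 5) (nat_lit 38) (nat_lit 5) (nat_lit 39) (nat_lit 4) (nat_lit 362) (nat_lit 296) (nat_lit 242)) (XT.lf (nat_lit 0) (nat_lit 52848127) (nat_lit 152) (nat_lit 4076576566) (nat_lit 76) (nat_lit 23640094251) (nat_lit 36) (nat_lit 5) (nat_lit 38) (nat_lit 5) (nat_lit 37) (nat_lit 5) (nat_lit 363) (nat_lit 296) (nat_lit 241))))))))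
noncomputable def xc42 : XT := (XT.nd (nat_lit 1872) (nat_lit 228) (nat_lit 0) (XT.nd (nat_lit 936) (nat_lit 684) (nat_lit 0) (XT.nd (nat_lit 468) (nat_lit 456) (nat_lit 0) (XT.nd (nat_lit 234) (nat_lit 304) (nat_lit 0) (XT.nd (nat_lit 78) (nat_lit 76) (nat_lit 0) (XT.lf (nat_lit 0) (nat_lit 9756373218) (nat_lit 228) (nat_lit 12138834258) (nat_lit 76) (nat_lit 6920719148) (nat_lit 34) (nat_lit 5) (nat_lit 37) (nat_lit 5) (nat_lit 35) (nat_lit 4) (nat_lit 364) (nat_lit 296) (nat_lit 240)) (XT.nd (nat_lit 78) (nat_lit 0) (nat_lit 0) (XT.lf (nat_lit 0) (nat_lit 8647349800) (nat_lit 76) (nat_lit 11400678333) (nat_lit 152) (nat_lit 9863545140) (nat_lit 33) (nat_lit 5) (nat_lit 34) (nat_lit 5) (nat_lit 35) (nat_lit 4) (nat_lit 365) (nat_lit 296) (nat_lit 239)) (XT.lf (nat_lit 0) (nat_lit 30610401584) (nat_lit 76) (nat_lit 306535670) (nat_lit 152) (nat_lit 143191705) (nat_lit 33) (nat_lit 5) (nat_lit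 34) (nat_lit 5) (nat_lit 35) (nat_lit 4) (nat_lit 366) (nat_lit 296) (nat_lit 238)))) (XT.nd (nat_lit 78) (nat_lit 76) (nat_lit 0) (XT.lf (nat_lit 0) (nat_lit 10126255321) (nat_lit 228) (nat_lit 10751481472) (nat_lit 76) (nat_lit 11377696622) (nat_lit 30) (nat_lit 5) (nat_lit 33) (nat_lit 5) (nat_lit 31) (nat_lit 4) (nat_lit 367) (nat_lit 296) (nat_lit 237)) (XT.nd (nat_lit 78) (nat_lit 0) (nat_lit 0) (XT.lf (nat_lit 0) (nat_lit 11157652713) (nat_lit 76) (nat_lit 9805021077) (nat_lit 152) (nat_lit 12546098988) (nat_lit 29) (nat_lit 5) (nat_lit 30) (nat_lit 5) (nat_lit 31) (nat_lit 4) (nat_lit 368) (nat_lit 296) (nat_lit 236)) (XT.lf (nat_lit 0) (nat_lit 32412888391) (nat_lit 152) (nat_lit 561064390) (nat_lit 0) (nat_lit 1848672816) (nat_lit 29) (nat_lit 5) (nat_lit 31) (nat_lit 4) (nat_lit 29) (nat_lit 4) (nat_lit 369) (nat_lit 296) (nat_lit 235))))) (XT.nd (nat_lit 234) (nat_lit 228) (nat_lit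 0) (XT.nd (nat_lit 78) (nat_lit 76) (nat_lit 0) (XT.lf (nat_lit 0) (nat_lit 8336578290) (nat_lit 152) (nat_lit 13719155783) (nat_lit 76) (nat_lit 14136153955) (nat_lit 27) (nat_lit 5) (nat_lit 29) (nat_lit 5) (nat_lit 28) (nat_lit 4) (nat_lit 370) (nat_lit 296) (nat_lit 234)) (XT.nd (nat_lit 78) (nat_lit 0) (nat_lit 0) (XT.lf (nat_lit 0) (nat_lit 9092650214) (nat_lit 76) (nat_lit 10517955960) (nat_lit 152) (nat_lit 18017089691) (nat_lit 26) (nat_lit 5) (nat_lit 27) (nat_lit 5) (nat_lit 28) (nat_lit 4) (nat_lit 371) (nat_lit 296) (nat_lit 233)) (XT.lf (nat_lit 0) (nat_lit 31554002607) (nat_lit 152) (nat_lit 5915196215) (nat_lit 0) (nat_lit 1662930075) (nat_lit 26) (nat_lit 5) (nat_lit 28) (nat_lit 4) (nat_lit 26) (nat_lit 4) (nat_lit 372) (nat_lit 296) (nat_lit 232)))) (XT.nd (nat_lit 78) (nat_lit 76) (nat_lit 0) (XT.lf (nat_lit 0) (nat_lit 3548277808) (nat_lit 152) (nat_lit 22753648226) (nat_lit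 76) (nat_lit 14401941391) (nat_lit 24) (nat_lit 5) (nat_lit 26) (nat_lit 5) (nat_lit 25) (nat_lit 4) (nat_lit 373) (nat_lit 296) (nat_lit 231)) (XT.nd (nat_lit 78) (nat_lit 0) (nat_lit 0) (XT.lf (nat_lit 0) (nat_lit 622528888) (nat_lit 76) (nat_lit 14471874005) (nat_lit 152) (nat_lit 27256939461) (nat_lit 23) (nat_lit 5) (nat_lit 24) (nat_lit 5) (nat_lit 25) (nat_lit 4) (nat_lit 374) (nat_lit 296) (nat_lit 230)) (XT.lf (nat_lit 0) (nat_lit 25552978170) (nat_lit 76) (nat_lit 1851736030) (nat_lit 152) (nat_lit 16670874469) (nat_lit 23) (nat_lit 5) (nat_lit 24) (nat_lit 5) (nat_lit 25) (nat_lit 4) (nat_lit 375) (nat_lit 296) (nat_lit 229)))))) (XT.nd (nat_lit 468) (nat_lit 304) (nat_lit 0) (XT.nd (nat_lit 234) (nat_lit 152) (nat_lit 0) (XT.nd (nat_lit 78) (nat_lit 152) (nat_lit 0) (XT.lf (nat_lit 0) (nat_lit 5760023010) (nat_lit 76) (nat_lit 34689980302) (nat_lit 76) (nat_lit 5432463969) (nat_lit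 22) (nat_lit 4) (nat_lit 23) (nat_lit 5) (nat_lit 23) (nat_lit 4) (nat_lit 376) (nat_lit 296) (nat_lit 228)) (XT.nd (nat_lit 78) (nat_lit 76) (nat_lit 0) (XT.lf (nat_lit 0) (nat_lit 6410290032) (nat_lit 152) (nat_lit 16297008670) (nat_lit 76) (nat_lit 25065557834) (nat_lit 21) (nat_lit 5) (nat_lit 23) (nat_lit 5) (nat_lit 22) (nat_lit 4) (nat_lit 377) (nat_lit 296) (nat_lit 227)) (XT.lf (nat_lit 0) (nat_lit 8754649298) (nat_lit 76) (nat_lit 10020933707) (nat_lit 152) (nat_lit 30979289446) (nat_lit 20) (nat_lit 5) (nat_lit 21) (nat_lit 5) (nat_lit 22) (nat_lit 4) (nat_lit 378) (nat_lit 296) (nat_lit 226)))) (XT.nd (nat_lit 78) (nat_lit 152) (nat_lit 0) (XT.lf (nat_lit 0) (nat_lit 31918741231) (nat_lit 152) (nat_lit 16544494149) (nat_lit 0) (nat_lit 3367968989) (nat_lit 20) (nat_lit 5) (nat_lit 22) (nat_lit 4) (nat_lit 20) (nat_lit 4) (nat_lit 379) (nat_lit 296) (nat_lit 225)) (XT.nd (nat_lit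 78) (nat_lit 76) (nat_lit 0) (XT.lf (nat_lit 0) (nat_lit 9135324129) (nat_lit 76) (nat_lit 36733126557) (nat_lit 76) (nat_lit 8138423473) (nat_lit 19) (nat_lit 4) (nat_lit 20) (nat_lit 5) (nat_lit 20) (nat_lit 4) (nat_lit 380) (nat_lit 296) (nat_lit 224)) (XT.lf (nat_lit 0) (nat_lit 4275112186) (nat_lit 152) (nat_lit 19958064243) (nat_lit 76) (nat_lit 32052938877) (nat_lit 18) (nat_lit 5) (nat_lit 20) (nat_lit 5) (nat_lit 19) (nat_lit 4) (nat_lit 381) (nat_lit 296) (nat_lit 223))))) (XT.nd (nat_lit 234) (nat_lit 228) (nat_lit 0) (XT.nd (nat_lit 78) (nat_lit 0) (nat_lit 0) (XT.lf (nat_lit 0) (nat_lit 6168447334) (nat_lit 76) (nat_lit 10996496451) (nat_lit 152) (nat_lit 41511242052) (nat_lit 17) (nat_lit 5) (nat_lit 18) (nat_lit 5) (nat_lit 19) (nat_lit 4) (nat_lit 382) (nat_lit 296) (nat_lit 222)) (XT.nd (nat_lit 78) (nat_lit 0) (nat_lit 0) (XT.lf (nat_lit 0) (nat_lit 30898501721) (nat_lit 152)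 (nat_lit 27260779719) (nat_lit 0) (nat_lit 3020503989) (nat_lit 17) (nat_lit 5) (nat_lit 19) (nat_lit 4) (nat_lit 17) (nat_lit 4) (nat_lit 383) (nat_lit 296) (nat_lit 221)) (XT.lf (nat_lit 0) (nat_lit 45395303060) (nat_lit 152) (nat_lit 928751435) (nat_lit 0) (nat_lit 17482215995) (nat_lit 17) (nat_lit 5) (nat_lit 19) (nat_lit 4) (nat_lit 17) (nat_lit 4) (nat_lit 384) (nat_lit 296) (nat_lit 220)))) (XT.nd (nat_lit 78) (nat_lit 152) (nat_lit 0) (XT.lf (nat_lit 0) (nat_lit 27187268230) (nat_lit 76) (nat_lit 33658231367) (nat_lit 76) (nat_lit 5711725891) (nat_lit 16) (nat_lit 4) (nat_lit 17) (nat_lit 5) (nat_lit 17) (nat_lit 4) (nat_lit 385) (nat_lit 296) (nat_lit 219)) (XT.nd (nat_lit 78) (nat_lit 76) (nat_lit 0) (XT.lf (nat_lit 0) (nat_lit 7451260126) (nat_lit 152) (nat_lit 12852274479) (nat_lit 76) (nat_lit 49140671905) (nat_lit 15) (nat_lit 5) (nat_lit 17) (nat_lit 5) (nat_lit 16) (nat_lit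 4) (nat_lit 386) (nat_lit 296) (nat_lit 218)) (XT.lf (nat_lit 0) (nat_lit 15170664012) (nat_lit 76) (nat_lit 6099931077) (nat_lit 152) (nat_lit 51199757192) (nat_lit 14) (nat_lit 5) (nat_lit 15) (nat_lit 5) (nat_lit 16) (nat_lit 4) (nat_lit 387) (nat_lit 296) (nat_lit 217))))))) (XT.nd (nat_lit 40872) (nat_lit 0) (nat_lit 13224) (XT.nd (nat_lit 546) (nat_lit 0) (nat_lit 0) (XT.nd (nat_lit 234) (nat_lit 152) (nat_lit 0) (XT.nd (nat_lit 78) (nat_lit 76) (nat_lit 0) (XT.lf (nat_lit 0) (nat_lit 35969273418) (nat_lit 152) (nat_lit 30924494702) (nat_lit 0) (nat_lit 8748387883) (nat_lit 14) (nat_lit 5) (nat_lit 16) (nat_lit 4) (nat_lit 14) (nat_lit 4) (nat_lit 388) (nat_lit 296) (nat_lit 216)) (XT.nd (nat_lit 78) (nat_lit 76) (nat_lit 0) (XT.lf (nat_lit 0) (nat_lit 51435920145) (nat_lit 152) (nat_lit 3347298621) (nat_lit 0) (nat_lit 24188341978) (nat_lit 14) (nat_lit 5) (nat_lit 16) (nat_lit 4) (nat_lit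 14) (nat_lit 4) (nat_lit 389) (nat_lit 296) (nat_lit 215)) (XT.lf (nat_lit 0) (nat_lit 26064814646) (nat_lit 76) (nat_lit 41834460646) (nat_lit 76) (nat_lit 14561460926) (nat_lit 13) (nat_lit 4) (nat_lit 14) (nat_lit 5) (nat_lit 14) (nat_lit 4) (nat_lit 390) (nat_lit 296) (nat_lit 214)))) (XT.nd (nat_lit 78) (nat_lit 152) (nat_lit 0) (XT.lf (nat_lit 0) (nat_lit 56966427893) (nat_lit 76) (nat_lit 28227456206) (nat_lit 76) (nat_lit 930245483) (nat_lit 13) (nat_lit 4) (nat_lit 14) (nat_lit 5) (nat_lit 14) (nat_lit 4) (nat_lit 391) (nat_lit 296) (nat_lit 213)) (XT.nd (nat_lit 78) (nat_lit 76) (nat_lit 0) (XT.lf (nat_lit 0) (nat_lit 13096023309) (nat_lit 152) (nat_lit 735341504) (nat_lit 76) (nat_lit 76136231118) (nat_lit 12) (nat_lit 5) (nat_lit 14) (nat_lit 5) (nat_lit 13) (nat_lit 4) (nat_lit 392) (nat_lit 296) (nat_lit 212)) (XT.lf (nat_lit 0) (nat_lit 28080253591) (nat_lit 152) (nat_lit 64380030303)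 (nat_lit 0) (nat_lit 1534400275) (nat_lit 11) (nat_lit 5) (nat_lit 13) (nat_lit 4) (nat_lit 11) (nat_lit 4) (nat_lit 393) (nat_lit 296) (nat_lit 211))))) (XT.nd (nat_lit 40092) (nat_lit 0) (nat_lit 24092) (XT.nd (nat_lit 39936) (nat_lit 0) (nat_lit 26068) (XT.lf (nat_lit 0) (nat_lit 60564642801) (nat_lit 152) (nat_lit 8112282095) (nat_lit 0) (nat_lit 33979145963) (nat_lit 11) (nat_lit 5) (nat_lit 13) (nat_lit 4) (nat_lit 11) (nat_lit 4) (nat_lit 395) (nat_lit 296) (nat_lit 209)) (XT.nd (nat_lit 78) (nat_lit 532) (nat_lit 0) (XT.lf (nat_lit 0) (nat_lit 985233411) (nat_lit 380) (nat_lit 1144420112) (nat_lit 380) (nat_lit 1144420112) (nat_lit 361) (nat_lit 4) (nat_lit 366) (nat_lit 5) (nat_lit 366) (nat_lit 4) (nat_lit 306) (nat_lit 297) (nat_lit 297)) (XT.lf (nat_lit 0) (nat_lit 1822082356) (nat_lit 456) (nat_lit 1058704981) (nat_lit 532) (nat_lit 3706952474) (nat_lit 354) (nat_lit 5) (nat_lit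 360) (nat_lit 5) (nat_lit 361) (nat_lit 4) (nat_lit 307) (nat_lit 297) (nat_lit 296)))) (XT.nd (nat_lit 78) (nat_lit 1368) (nat_lit 0) (XT.lf (nat_lit 0) (nat_lit 1370047163) (nat_lit 608) (nat_lit 4849990274) (nat_lit 76) (nat_lit 415307103) (nat_lit 346) (nat_lit 5) (nat_lit 354) (nat_lit 5) (nat_lit 347) (nat_lit 4) (nat_lit 308) (nat_lit 297) (nat_lit 295)) (XT.nd (nat_lit 78) (nat_lit 760) (nat_lit 0) (XT.lf (nat_lit 0) (nat_lit 1847753337) (nat_lit 608) (nat_lit 4568111586) (nat_lit 684) (nat_lit 274855296) (nat_lit 338) (nat_lit 5) (nat_lit 346) (nat_lit 5) (nat_lit 347) (nat_lit 4) (nat_lit 309) (nat_lit 297) (nat_lit 294)) (XT.lf (nat_lit 0) (nat_lit 2006460320) (nat_lit 684) (nat_lit 2653068638) (nat_lit 760) (nat_lit 2094387329) (nat_lit 328) (nat_lit 5) (nat_lit 337) (nat_lit 5) (nat_lit 338) (nat_lit 5) (nat_lit 310) (nat_lit 297) (nat_lit 293)))))) (XT.nd (nat_lit 468) (nat_lit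 4864) (nat_lit 0) (XT.nd (nat_lit 234) (nat_lit 3344) (nat_lit 0) (XT.nd (nat_lit 78) (nat_lit 1824) (nat_lit 0) (XT.lf (nat_lit 0) (nat_lit 2274809328) (nat_lit 760) (nat_lit 483319557) (nat_lit 836) (nat_lit 4067332110) (nat_lit 317) (nat_lit 5) (nat_lit 327) (nat_lit 5) (nat_lit 328) (nat_lit 5) (nat_lit 311) (nat_lit 297) (nat_lit 292)) (XT.nd (nat_lit 78) (nat_lit 912) (nat_lit 0) (XT.lf (nat_lit 0) (nat_lit 724029459) (nat_lit 912) (nat_lit 4271636816) (nat_lit 76) (nat_lit 1909268751) (nat_lit 305) (nat_lit 5) (nat_lit 317) (nat_lit 5) (nat_lit 306) (nat_lit 5) (nat_lit 312) (nat_lit 297) (nat_lit 291)) (XT.lf (nat_lit 0) (nat_lit 3079068020) (nat_lit 912) (nat_lit 2423197602) (nat_lit 988) (nat_lit 1490147556) (nat_lit 293) (nat_lit 5) (nat_lit 305) (nat_lit 5) (nat_lit 306) (nat_lit 5) (nat_lit 313) (nat_lit 297) (nat_lit 290)))) (XT.nd (nat_lit 78) (nat_lit 2280) (nat_lit 0) (XT.lf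 (nat_lit 0) (nat_lit 3207594897) (nat_lit 1064) (nat_lit 3469463939) (nat_lit 76) (nat_lit 411199052) (nat_lit 279) (nat_lit 5) (nat_lit 293) (nat_lit 5) (nat_lit 280) (nat_lit 5) (nat_lit 314) (nat_lit 297) (nat_lit 289)) (XT.nd (nat_lit 78) (nat_lit 1140) (nat_lit 0) (XT.lf (nat_lit 0) (nat_lit 773803207) (nat_lit 1140) (nat_lit 2954529015) (nat_lit 76) (nat_lit 3463884792) (nat_lit 264) (nat_lit 5) (nat_lit 279) (nat_lit 5) (nat_lit 265) (nat_lit 5) (nat_lit 315) (nat_lit 297) (nat_lit 288)) (XT.lf (nat_lit 0) (nat_lit 4941839392) (nat_lit 1140) (nat_lit 495939338) (nat_lit 1216) (nat_lit 1866878991) (nat_lit 249) (nat_lit 5) (nat_lit 264) (nat_lit 5) (nat_lit 265) (nat_lit 5) (nat_lit 316) (nat_lit 297) (nat_lit 287))))) (XT.nd (nat_lit 234) (nat_lit 2280) (nat_lit 0) (XT.nd (nat_lit 78) (nat_lit 1292) (nat_lit 0) (XT.lf (nat_lit 0) (nat_lit 2749555464) (nat_lit 1292) (nat_lit 1714172534)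 (nat_lit 76) (nat_lit 2961464603) (nat_lit 232) (nat_lit 5) (nat_lit 249) (nat_lit 5) (nat_lit 233) (nat_lit 5) (nat_lit 317) (nat_lit 297) (nat_lit 286)) (XT.nd (nat_lit 78) (nat_lit 684) (nat_lit 0) (XT.lf (nat_lit 0) (nat_lit 6575010004) (nat_lit 608) (nat_lit 864064519) (nat_lit 684) (nat_lit 115828993) (nat_lit 224) (nat_lit 5) (nat_lit 232) (nat_lit 5) (nat_lit 233) (nat_lit 5) (nat_lit 318) (nat_lit 297) (nat_lit 285)) (XT.lf (nat_lit 0) (nat_lit 4493801283) (nat_lit 684) (nat_lit 211395584) (nat_lit 76) (nat_lit 2987286055) (nat_lit 215) (nat_lit 5) (nat_lit 224) (nat_lit 5) (nat_lit 216) (nat_lit 5) (nat_lit 319) (nat_lit 297) (nat_lit 284)))) (XT.nd (nat_lit 78) (nat_lit 1064) (nat_lit 0) (XT.lf (nat_lit 0) (nat_lit 649999316) (nat_lit 532) (nat_lit 722581231) (nat_lit 608) (nat_lit 6466792419) (nat_lit 199) (nat_lit 5) (nat_lit 206) (nat_lit 5) (nat_lit 207) (nat_lit 5) (nat_lit 320)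 (nat_lit 297) (nat_lit 283)) (XT.nd (nat_lit 78) (nat_lit 532) (nat_lit 0) (XT.lf (nat_lit 0) (nat_lit 1552348850) (nat_lit 532) (nat_lit 4491729015) (nat_lit 608) (nat_lit 1950550623) (nat_lit 192) (nat_lit 5) (nat_lit 199) (nat_lit 5) (nat_lit 200) (nat_lit 5) (nat_lit 321) (nat_lit 297) (nat_lit 282)) (XT.lf (nat_lit 0) (nat_lit 2521009161) (nat_lit 456) (nat_lit 132165893) (nat_lit 532) (nat_lit 5506280272) (nat_lit 185) (nat_lit 5) (nat_lit 191) (nat_lit 5) (nat_lit 192) (nat_lit 5) (nat_lit 322) (nat_lit 297) (nat_lit 281))))))))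
noncomputable def xc43 : XT := (XT.nd (nat_lit 1872) (nat_lit 3268) (nat_lit 0) (XT.nd (nat_lit 936) (nat_lit 3268) (nat_lit 0) (XT.nd (nat_lit 468) (nat_lit 2508) (nat_lit 0) (XT.nd (nat_lit 234) (nat_lit 1368) (nat_lit 0) (XT.nd (nat_lit 78) (nat_lit 988) (nat_lit 0) (XT.lf (nat_lit 0) (nat_lit 3523935771) (nat_lit 532) (nat_lit 3883360982) (nat_lit 608) (nat_lit 925924088) (nat_lit 178) (nat_lit 5) (nat_lit 185) (nat_lit 5) (nat_lit 186) (nat_lit 5) (nat_lit 323) (nat_lit 297) (nat_lit 280)) (XT.nd (nat_lit 78) (nat_lit 456) (nat_lit 0) (XT.lf (nat_lit 0) (nat_lit 3741295758) (nat_lit 532) (nat_lit 3942214136) (nat_lit 76) (nat_lit 833122245) (nat_lit 171) (nat_lit 5) (nat_lit 178) (nat_lit 5) (nat_lit 172) (nat_lit 5) (nat_lit 324) (nat_lit 297) (nat_lit 279)) (XT.lf (nat_lit 0) (nat_lit 5667244804) (nat_lit 456) (nat_lit 2926912480) (nat_lit 532) (nat_lit 115720866) (nat_lit 165) (nat_lit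 5) (nat_lit 171) (nat_lit 5) (nat_lit 172) (nat_lit 5) (nat_lit 325) (nat_lit 297) (nat_lit 278)))) (XT.nd (nat_lit 78) (nat_lit 912) (nat_lit 0) (XT.lf (nat_lit 0) (nat_lit 4643067014) (nat_lit 456) (nat_lit 2131540798) (nat_lit 76) (nat_lit 2138094831) (nat_lit 159) (nat_lit 5) (nat_lit 165) (nat_lit 5) (nat_lit 160) (nat_lit 5) (nat_lit 326) (nat_lit 297) (nat_lit 277)) (XT.nd (nat_lit 78) (nat_lit 380) (nat_lit 0) (XT.lf (nat_lit 0) (nat_lit 476739907) (nat_lit 532) (nat_lit 1182133082) (nat_lit 76) (nat_lit 7467434813) (nat_lit 152) (nat_lit 5) (nat_lit 159) (nat_lit 5) (nat_lit 153) (nat_lit 5) (nat_lit 327) (nat_lit 297) (nat_lit 276)) (XT.lf (nat_lit 0) (nat_lit 5361582585) (nat_lit 456) (nat_lit 241393259) (nat_lit 76) (nat_lit 3746732476) (nat_lit 147) (nat_lit 5) (nat_lit 153) (nat_lit 5) (nat_lit 148) (nat_lit 5) (nat_lit 328) (nat_lit 297) (nat_lit 275))))) (XT.nd (nat_lit 234)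 (nat_lit 988) (nat_lit 0) (XT.nd (nat_lit 78) (nat_lit 760) (nat_lit 0) (XT.lf (nat_lit 0) (nat_lit 754496339) (nat_lit 304) (nat_lit 116461785) (nat_lit 380) (nat_lit 8713653459) (nat_lit 137) (nat_lit 5) (nat_lit 141) (nat_lit 5) (nat_lit 142) (nat_lit 5) (nat_lit 329) (nat_lit 297) (nat_lit 274)) (XT.nd (nat_lit 78) (nat_lit 380) (nat_lit 0) (XT.lf (nat_lit 0) (nat_lit 1722107223) (nat_lit 380) (nat_lit 4190555196) (nat_lit 456) (nat_lit 3916807452) (nat_lit 132) (nat_lit 5) (nat_lit 137) (nat_lit 5) (nat_lit 138) (nat_lit 5) (nat_lit 330) (nat_lit 297) (nat_lit 273)) (XT.lf (nat_lit 0) (nat_lit 1085338765) (nat_lit 380) (nat_lit 7367737988) (nat_lit 76) (nat_lit 1633606467) (nat_lit 127) (nat_lit 5) (nat_lit 132) (nat_lit 5) (nat_lit 128) (nat_lit 5) (nat_lit 331) (nat_lit 297) (nat_lit 272)))) (XT.nd (nat_lit 78) (nat_lit 684) (nat_lit 0) (XT.lf (nat_lit 0) (nat_lit 3685461715) (nat_lit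 304) (nat_lit 2590453046) (nat_lit 380) (nat_lit 4079151055) (nat_lit 123) (nat_lit 5) (nat_lit 127) (nat_lit 5) (nat_lit 128) (nat_lit 5) (nat_lit 332) (nat_lit 297) (nat_lit 271)) (XT.nd (nat_lit 78) (nat_lit 304) (nat_lit 0) (XT.lf (nat_lit 0) (nat_lit 1084600144) (nat_lit 380) (nat_lit 5983642247) (nat_lit 76) (nat_lit 3567857945) (nat_lit 118) (nat_lit 5) (nat_lit 123) (nat_lit 5) (nat_lit 119) (nat_lit 5) (nat_lit 333) (nat_lit 297) (nat_lit 270)) (XT.lf (nat_lit 0) (nat_lit 5591809205) (nat_lit 304) (nat_lit 844626909) (nat_lit 380) (nat_lit 4493156671) (nat_lit 114) (nat_lit 5) (nat_lit 118) (nat_lit 5) (nat_lit 119) (nat_lit 5) (nat_lit 334) (nat_lit 297) (nat_lit 269)))))) (XT.nd (nat_lit 468) (nat_lit 1444) (nat_lit 0) (XT.nd (nat_lit 234) (nat_lit 836) (nat_lit 0) (XT.nd (nat_lit 78) (nat_lit 608) (nat_lit 0) (XT.lf (nat_lit 0) (nat_lit 850270144) (nat_lit 380) (nat_lit 4735651638)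 (nat_lit 76) (nat_lit 5650200445) (nat_lit 109) (nat_lit 5) (nat_lit 114) (nat_lit 5) (nat_lit 110) (nat_lit 5) (nat_lit 335) (nat_lit 297) (nat_lit 268)) (XT.nd (nat_lit 78) (nat_lit 304) (nat_lit 0) (XT.lf (nat_lit 0) (nat_lit 6384792276) (nat_lit 380) (nat_lit 4185421350) (nat_lit 76) (nat_lit 985964627) (nat_lit 105) (nat_lit 5) (nat_lit 110) (nat_lit 5) (nat_lit 106) (nat_lit 5) (nat_lit 336) (nat_lit 297) (nat_lit 267)) (XT.lf (nat_lit 0) (nat_lit 357915933) (nat_lit 304) (nat_lit 3692454503) (nat_lit 76) (nat_lit 7840014974) (nat_lit 101) (nat_lit 5) (nat_lit 105) (nat_lit 5) (nat_lit 102) (nat_lit 5) (nat_lit 337) (nat_lit 297) (nat_lit 266)))) (XT.nd (nat_lit 78) (nat_lit 532) (nat_lit 0) (XT.lf (nat_lit 0) (nat_lit 6093560343) (nat_lit 380) (nat_lit 3286286306) (nat_lit 76) (nat_lit 2858850725) (nat_lit 97) (nat_lit 5) (nat_lit 102) (nat_lit 5) (nat_lit 98) (nat_lit 5) (nat_lit 338)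 (nat_lit 297) (nat_lit 265)) (XT.nd (nat_lit 78) (nat_lit 304) (nat_lit 0) (XT.lf (nat_lit 0) (nat_lit 9663943755) (nat_lit 228) (nat_lit 2505580636) (nat_lit 304) (nat_lit 433328132) (nat_lit 94) (nat_lit 5) (nat_lit 97) (nat_lit 5) (nat_lit 98) (nat_lit 5) (nat_lit 339) (nat_lit 297) (nat_lit 264)) (XT.lf (nat_lit 0) (nat_lit 5519370386) (nat_lit 304) (nat_lit 2719854286) (nat_lit 76) (nat_lit 4742501141) (nat_lit 90) (nat_lit 5) (nat_lit 94) (nat_lit 5) (nat_lit 91) (nat_lit 5) (nat_lit 340) (nat_lit 297) (nat_lit 263))))) (XT.nd (nat_lit 234) (nat_lit 760) (nat_lit 0) (XT.nd (nat_lit 78) (nat_lit 456) (nat_lit 0) (XT.lf (nat_lit 0) (nat_lit 10805110220) (nat_lit 228) (nat_lit 1002698292) (nat_lit 304) (nat_lit 1570223231) (nat_lit 87) (nat_lit 5) (nat_lit 90) (nat_lit 5) (nat_lit 91) (nat_lit 5) (nat_lit 341) (nat_lit 297) (nat_lit 262)) (XT.nd (nat_lit 78) (nat_lit 152) (nat_lit 0) (XT.lf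 (nat_lit 0) (nat_lit 4617391618) (nat_lit 304) (nat_lit 2589814865) (nat_lit 76) (nat_lit 6582913805) (nat_lit 83) (nat_lit 5) (nat_lit 87) (nat_lit 5) (nat_lit 84) (nat_lit 5) (nat_lit 342) (nat_lit 297) (nat_lit 261)) (XT.lf (nat_lit 0) (nat_lit 11126361926) (nat_lit 228) (nat_lit 2708241038) (nat_lit 76) (nat_lit 386436551) (nat_lit 81) (nat_lit 5) (nat_lit 84) (nat_lit 5) (nat_lit 82) (nat_lit 5) (nat_lit 343) (nat_lit 297) (nat_lit 260)))) (XT.nd (nat_lit 78) (nat_lit 456) (nat_lit 0) (XT.lf (nat_lit 0) (nat_lit 3331755029) (nat_lit 304) (nat_lit 3019223337) (nat_lit 76) (nat_lit 8318343764) (nat_lit 77) (nat_lit 5) (nat_lit 81) (nat_lit 5) (nat_lit 78) (nat_lit 5) (nat_lit 344) (nat_lit 297) (nat_lit 259)) (XT.nd (nat_lit 78) (nat_lit 304) (nat_lit 0) (XT.lf (nat_lit 0) (nat_lit 10069896082) (nat_lit 228) (nat_lit 3483798192) (nat_lit 76) (nat_lit 1583796722) (nat_lit 75) (nat_lit 5) (nat_lit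 78) (nat_lit 5) (nat_lit 76) (nat_lit 5) (nat_lit 345) (nat_lit 297) (nat_lit 258)) (XT.lf (nat_lit 0) (nat_lit 1593806260) (nat_lit 304) (nat_lit 4154314354) (nat_lit 76) (nat_lit 9877306516) (nat_lit 71) (nat_lit 5) (nat_lit 75) (nat_lit 5) (nat_lit 72) (nat_lit 5) (nat_lit 346) (nat_lit 297) (nat_lit 257))))))) (XT.nd (nat_lit 936) (nat_lit 1292) (nat_lit 0) (XT.nd (nat_lit 468) (nat_lit 836) (nat_lit 0) (XT.nd (nat_lit 234) (nat_lit 532) (nat_lit 0) (XT.nd (nat_lit 78) (nat_lit 456) (nat_lit 0) (XT.lf (nat_lit 0) (nat_lit 8555024720) (nat_lit 228) (nat_lit 5049387998) (nat_lit 76) (nat_lit 2529715810) (nat_lit 69) (nat_lit 5) (nat_lit 72) (nat_lit 5) (nat_lit 70) (nat_lit 5) (nat_lit 347) (nat_lit 297) (nat_lit 256)) (XT.nd (nat_lit 78) (nat_lit 228) (nat_lit 0) (XT.lf (nat_lit 0) (nat_lit 10489444313) (nat_lit 228) (nat_lit 5482113344) (nat_lit 304) (nat_lit 693509039) (nat_lit 66) (nat_lit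 5) (nat_lit 69) (nat_lit 5) (nat_lit 70) (nat_lit 5) (nat_lit 348) (nat_lit 297) (nat_lit 255)) (XT.lf (nat_lit 0) (nat_lit 6492111244) (nat_lit 228) (nat_lit 7594592048) (nat_lit 76) (nat_lit 3131482570) (nat_lit 63) (nat_lit 5) (nat_lit 66) (nat_lit 5) (nat_lit 64) (nat_lit 5) (nat_lit 349) (nat_lit 297) (nat_lit 254)))) (XT.nd (nat_lit 78) (nat_lit 380) (nat_lit 0) (XT.lf (nat_lit 0) (nat_lit 8490387490) (nat_lit 152) (nat_lit 5643149966) (nat_lit 228) (nat_lit 3661908507) (nat_lit 61) (nat_lit 5) (nat_lit 63) (nat_lit 5) (nat_lit 64) (nat_lit 5) (nat_lit 350) (nat_lit 297) (nat_lit 253)) (XT.nd (nat_lit 78) (nat_lit 152) (nat_lit 0) (XT.lf (nat_lit 0) (nat_lit 3772951467) (nat_lit 228) (nat_lit 11344773377) (nat_lit 76) (nat_lit 3280053902) (nat_lit 58) (nat_lit 5) (nat_lit 61) (nat_lit 5) (nat_lit 59) (nat_lit 5) (nat_lit 351) (nat_lit 297) (nat_lit 252)) (XT.lf (nat_lit 0) (nat_lit 5251766131)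 (nat_lit 152) (nat_lit 6370629288) (nat_lit 228) (nat_lit 7403202779) (nat_lit 56) (nat_lit 5) (nat_lit 58) (nat_lit 5) (nat_lit 59) (nat_lit 5) (nat_lit 352) (nat_lit 297) (nat_lit 251))))) (XT.nd (nat_lit 234) (nat_lit 456) (nat_lit 0) (XT.nd (nat_lit 78) (nat_lit 152) (nat_lit 0) (XT.lf (nat_lit 0) (nat_lit 267607272) (nat_lit 228) (nat_lit 16567672173) (nat_lit 76) (nat_lit 2846743044) (nat_lit 53) (nat_lit 5) (nat_lit 56) (nat_lit 5) (nat_lit 54) (nat_lit 5) (nat_lit 353) (nat_lit 297) (nat_lit 250)) (XT.nd (nat_lit 78) (nat_lit 0) (nat_lit 0) (XT.lf (nat_lit 0) (nat_lit 490059321) (nat_lit 152) (nat_lit 7809981414) (nat_lit 228) (nat_lit 12065105697) (nat_lit 51) (nat_lit 5) (nat_lit 53) (nat_lit 5) (nat_lit 54) (nat_lit 5) (nat_lit 354) (nat_lit 297) (nat_lit 249)) (XT.lf (nat_lit 0) (nat_lit 16841870396) (nat_lit 228) (nat_lit 2492559750) (nat_lit 76) (nat_lit 1744775747) (nat_lit 51)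 (nat_lit 5) (nat_lit 54) (nat_lit 5) (nat_lit 52) (nat_lit 4) (nat_lit 355) (nat_lit 297) (nat_lit 248)))) (XT.nd (nat_lit 78) (nat_lit 228) (nat_lit 0) (XT.lf (nat_lit 0) (nat_lit 4060198288) (nat_lit 228) (nat_lit 6012109177) (nat_lit 76) (nat_lit 11750841956) (nat_lit 48) (nat_lit 5) (nat_lit 51) (nat_lit 5) (nat_lit 49) (nat_lit 5) (nat_lit 356) (nat_lit 297) (nat_lit 247)) (XT.nd (nat_lit 78) (nat_lit 76) (nat_lit 0) (XT.lf (nat_lit 0) (nat_lit 12545046188) (nat_lit 152) (nat_lit 212213757) (nat_lit 228) (nat_lit 9843614049) (nat_lit 46) (nat_lit 5) (nat_lit 48) (nat_lit 5) (nat_lit 49) (nat_lit 5) (nat_lit 357) (nat_lit 297) (nat_lit 246)) (XT.lf (nat_lit 0) (nat_lit 8678447346) (nat_lit 76) (nat_lit 13380848934) (nat_lit 152) (nat_lit 1353095399) (nat_lit 45) (nat_lit 5) (nat_lit 46) (nat_lit 5) (nat_lit 47) (nat_lit 4) (nat_lit 358) (nat_lit 297) (nat_lit 245)))))) (XT.nd (nat_lit 468)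 (nat_lit 608) (nat_lit 0) (XT.nd (nat_lit 234) (nat_lit 304) (nat_lit 0) (XT.nd (nat_lit 78) (nat_lit 152) (nat_lit 0) (XT.lf (nat_lit 0) (nat_lit 4173269592) (nat_lit 152) (nat_lit 3316169883) (nat_lit 228) (nat_lit 16770623273) (nat_lit 42) (nat_lit 5) (nat_lit 44) (nat_lit 5) (nat_lit 45) (nat_lit 5) (nat_lit 359) (nat_lit 297) (nat_lit 244)) (XT.nd (nat_lit 78) (nat_lit 152) (nat_lit 0) (XT.lf (nat_lit 0) (nat_lit 16899160508) (nat_lit 228) (nat_lit 1025001577) (nat_lit 76) (nat_lit 7220971343) (nat_lit 42) (nat_lit 5) (nat_lit 45) (nat_lit 5) (nat_lit 43) (nat_lit 4) (nat_lit 360) (nat_lit 297) (nat_lit 243)) (XT.lf (nat_lit 0) (nat_lit 844003167) (nat_lit 152) (nat_lit 6869151657) (nat_lit 76) (nat_lit 18356522658) (nat_lit 40) (nat_lit 5) (nat_lit 42) (nat_lit 5) (nat_lit 41) (nat_lit 5) (nat_lit 361) (nat_lit 297) (nat_lit 242)))) (XT.nd (nat_lit 78) (nat_lit 152) (nat_lit 0) (XT.lf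 (nat_lit 0) (nat_lit 10324974962) (nat_lit 228) (nat_lit 13588030878) (nat_lit 76) (nat_lit 3121790674) (nat_lit 38) (nat_lit 5) (nat_lit 41) (nat_lit 5) (nat_lit 39) (nat_lit 4) (nat_lit 362) (nat_lit 297) (nat_lit 241)) (XT.nd (nat_lit 78) (nat_lit 76) (nat_lit 0) (XT.lf (nat_lit 0) (nat_lit 6812394960) (nat_lit 76) (nat_lit 13618456900) (nat_lit 152) (nat_lit 7612801722) (nat_lit 37) (nat_lit 5) (nat_lit 38) (nat_lit 5) (nat_lit 39) (nat_lit 4) (nat_lit 363) (nat_lit 297) (nat_lit 240)) (XT.lf (nat_lit 0) (nat_lit 1979921860) (nat_lit 152) (nat_lit 717823033) (nat_lit 76) (nat_lit 26402295886) (nat_lit 36) (nat_lit 5) (nat_lit 38) (nat_lit 5) (nat_lit 37) (nat_lit 5) (nat_lit 364) (nat_lit 297) (nat_lit 239))))) (XT.nd (nat_lit 234) (nat_lit 152) (nat_lit 0) (XT.nd (nat_lit 78) (nat_lit 304) (nat_lit 0) (XT.lf (nat_lit 0) (nat_lit 12125574097) (nat_lit 228) (nat_lit 9244448407) (nat_lit 76)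 (nat_lit 8830048344) (nat_lit 34) (nat_lit 5) (nat_lit 37) (nat_lit 5) (nat_lit 35) (nat_lit 4) (nat_lit 365) (nat_lit 297) (nat_lit 238)) (XT.nd (nat_lit 78) (nat_lit 228) (nat_lit 0) (XT.lf (nat_lit 0) (nat_lit 12480680001) (nat_lit 76) (nat_lit 10394234261) (nat_lit 152) (nat_lit 8477302523) (nat_lit 33) (nat_lit 5) (nat_lit 34) (nat_lit 5) (nat_lit 35) (nat_lit 4) (nat_lit 366) (nat_lit 297) (nat_lit 237)) (XT.lf (nat_lit 0) (nat_lit 1646829000) (nat_lit 228) (nat_lit 29712136274) (nat_lit 76) (nat_lit 1200200608) (nat_lit 30) (nat_lit 5) (nat_lit 33) (nat_lit 5) (nat_lit 31) (nat_lit 4) (nat_lit 367) (nat_lit 297) (nat_lit 236)))) (XT.nd (nat_lit 78) (nat_lit 152) (nat_lit 0) (XT.lf (nat_lit 0) (nat_lit 12348773533) (nat_lit 228) (nat_lit 8071755831) (nat_lit 76) (nat_lit 13396012900) (nat_lit 30) (nat_lit 5) (nat_lit 33) (nat_lit 5) (nat_lit 31) (nat_lit 4) (nat_lit 368) (nat_lit 297)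 (nat_lit 235)) (XT.nd (nat_lit 78) (nat_lit 76) (nat_lit 0) (XT.lf (nat_lit 0) (nat_lit 14840611813) (nat_lit 76) (nat_lit 8834717191) (nat_lit 152) (nat_lit 11458778521) (nat_lit 29) (nat_lit 5) (nat_lit 30) (nat_lit 5) (nat_lit 31) (nat_lit 4) (nat_lit 369) (nat_lit 297) (nat_lit 234)) (XT.lf (nat_lit 0) (nat_lit 2469684942) (nat_lit 76) (nat_lit 33186217773) (nat_lit 76) (nat_lit 859022829) (nat_lit 28) (nat_lit 4) (nat_lit 29) (nat_lit 5) (nat_lit 29) (nat_lit 4) (nat_lit 370) (nat_lit 297) (nat_lit 233))))))))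
noncomputable def xc44 : XT := (XT.nd (nat_lit 41652) (nat_lit 0) (nat_lit 10716) (XT.nd (nat_lit 936) (nat_lit 532) (nat_lit 0) (XT.nd (nat_lit 468) (nat_lit 380) (nat_lit 0) (XT.nd (nat_lit 234) (nat_lit 228) (nat_lit 0) (XT.nd (nat_lit 78) (nat_lit 76) (nat_lit 0) (XT.lf (nat_lit 0) (nat_lit 10319524280) (nat_lit 152) (nat_lit 11449485042) (nat_lit 76) (nat_lit 16185341435) (nat_lit 27) (nat_lit 5) (nat_lit 29) (nat_lit 5) (nat_lit 28) (nat_lit 4) (nat_lit 371) (nat_lit 297) (nat_lit 232)) (XT.nd (nat_lit 78) (nat_lit 0) (nat_lit 0) (XT.lf (nat_lit 0) (nat_lit 12418188757) (nat_lit 76) (nat_lit 9692084703) (nat_lit 152) (nat_lit 17353091984) (nat_lit 26) (nat_lit 5) (nat_lit 27) (nat_lit 5) (nat_lit 28) (nat_lit 4) (nat_lit 372) (nat_lit 297) (nat_lit 231)) (XT.lf (nat_lit 0) (nat_lit 34590875126) (nat_lit 152) (nat_lit 3445596773) (nat_lit 0) (nat_lit 3008353885) (nat_lit 26) (nat_lit 5)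 (nat_lit 28) (nat_lit 4) (nat_lit 26) (nat_lit 4) (nat_lit 373) (nat_lit 297) (nat_lit 230)))) (XT.nd (nat_lit 78) (nat_lit 76) (nat_lit 0) (XT.lf (nat_lit 0) (nat_lit 5155340459) (nat_lit 152) (nat_lit 21176662781) (nat_lit 76) (nat_lit 16364043836) (nat_lit 24) (nat_lit 5) (nat_lit 26) (nat_lit 5) (nat_lit 25) (nat_lit 4) (nat_lit 374) (nat_lit 297) (nat_lit 229)) (XT.nd (nat_lit 78) (nat_lit 0) (nat_lit 0) (XT.lf (nat_lit 0) (nat_lit 3290507779) (nat_lit 76) (nat_lit 13945532544) (nat_lit 152) (nat_lit 27191143289) (nat_lit 23) (nat_lit 5) (nat_lit 24) (nat_lit 5) (nat_lit 25) (nat_lit 4) (nat_lit 375) (nat_lit 297) (nat_lit 228)) (XT.lf (nat_lit 0) (nat_lit 29341915123) (nat_lit 76) (nat_lit 753908393) (nat_lit 152) (nat_lit 16143805672) (nat_lit 23) (nat_lit 5) (nat_lit 24) (nat_lit 5) (nat_lit 25) (nat_lit 4) (nat_lit 376) (nat_lit 297) (nat_lit 227))))) (XT.nd (nat_lit 234) (nat_lit 152)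 (nat_lit 0) (XT.nd (nat_lit 78) (nat_lit 152) (nat_lit 0) (XT.lf (nat_lit 0) (nat_lit 8514811463) (nat_lit 76) (nat_lit 35250277233) (nat_lit 76) (nat_lit 4372617053) (nat_lit 22) (nat_lit 4) (nat_lit 23) (nat_lit 5) (nat_lit 23) (nat_lit 4) (nat_lit 377) (nat_lit 297) (nat_lit 226)) (XT.nd (nat_lit 78) (nat_lit 76) (nat_lit 0) (XT.lf (nat_lit 0) (nat_lit 7974126759) (nat_lit 152) (nat_lit 14737694063) (nat_lit 76) (nat_lit 27412279624) (nat_lit 21) (nat_lit 5) (nat_lit 23) (nat_lit 5) (nat_lit 22) (nat_lit 4) (nat_lit 378) (nat_lit 297) (nat_lit 225)) (XT.lf (nat_lit 0) (nat_lit 11498491840) (nat_lit 76) (nat_lit 9422154461) (nat_lit 152) (nat_lit 31285686724) (nat_lit 20) (nat_lit 5) (nat_lit 21) (nat_lit 5) (nat_lit 22) (nat_lit 4) (nat_lit 379) (nat_lit 297) (nat_lit 224)))) (XT.nd (nat_lit 78) (nat_lit 152) (nat_lit 0) (XT.lf (nat_lit 0) (nat_lit 34673589098) (nat_lit 152) (nat_lit 15150937023)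 (nat_lit 0) (nat_lit 4563381120) (nat_lit 20) (nat_lit 5) (nat_lit 22) (nat_lit 4) (nat_lit 20) (nat_lit 4) (nat_lit 380) (nat_lit 297) (nat_lit 223)) (XT.nd (nat_lit 78) (nat_lit 76) (nat_lit 0) (XT.lf (nat_lit 0) (nat_lit 11749213904) (nat_lit 76) (nat_lit 37537119484) (nat_lit 76) (nat_lit 7387064937) (nat_lit 19) (nat_lit 4) (nat_lit 20) (nat_lit 5) (nat_lit 20) (nat_lit 4) (nat_lit 381) (nat_lit 297) (nat_lit 222)) (XT.lf (nat_lit 0) (nat_lit 5570465414) (nat_lit 152) (nat_lit 18879958868) (nat_lit 76) (nat_lit 34617469585) (nat_lit 18) (nat_lit 5) (nat_lit 20) (nat_lit 5) (nat_lit 19) (nat_lit 4) (nat_lit 382) (nat_lit 297) (nat_lit 221)))))) (XT.nd (nat_lit 468) (nat_lit 228) (nat_lit 0) (XT.nd (nat_lit 234) (nat_lit 152) (nat_lit 0) (XT.nd (nat_lit 78) (nat_lit 76) (nat_lit 0) (XT.lf (nat_lit 0) (nat_lit 8493369918) (nat_lit 76) (nat_lit 10579297860) (nat_lit 152) (nat_lit 42505767547)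 (nat_lit 17) (nat_lit 5) (nat_lit 18) (nat_lit 5) (nat_lit 19) (nat_lit 4) (nat_lit 383) (nat_lit 297) (nat_lit 220)) (XT.nd (nat_lit 78) (nat_lit 76) (nat_lit 0) (XT.lf (nat_lit 0) (nat_lit 33451781497) (nat_lit 152) (nat_lit 26682138323) (nat_lit 0) (nat_lit 4074532335) (nat_lit 17) (nat_lit 5) (nat_lit 19) (nat_lit 4) (nat_lit 17) (nat_lit 4) (nat_lit 384) (nat_lit 297) (nat_lit 219)) (XT.lf (nat_lit 0) (nat_lit 891425322) (nat_lit 76) (nat_lit 47742549616) (nat_lit 76) (nat_lit 18333473394) (nat_lit 16) (nat_lit 4) (nat_lit 17) (nat_lit 5) (nat_lit 17) (nat_lit 4) (nat_lit 385) (nat_lit 297) (nat_lit 218)))) (XT.nd (nat_lit 78) (nat_lit 152) (nat_lit 0) (XT.lf (nat_lit 0) (nat_lit 30342843550) (nat_lit 76) (nat_lit 34476804744) (nat_lit 76) (nat_lit 5037417038) (nat_lit 16) (nat_lit 4) (nat_lit 17) (nat_lit 5) (nat_lit 17) (nat_lit 4) (nat_lit 386) (nat_lit 297) (nat_lit 217)) (XT.nd (nat_lit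 78) (nat_lit 76) (nat_lit 0) (XT.lf (nat_lit 0) (nat_lit 8720169928) (nat_lit 152) (nat_lit 11766310831) (nat_lit 76) (nat_lit 52402985367) (nat_lit 15) (nat_lit 5) (nat_lit 17) (nat_lit 5) (nat_lit 16) (nat_lit 4) (nat_lit 387) (nat_lit 297) (nat_lit 216)) (XT.lf (nat_lit 0) (nat_lit 17608225261) (nat_lit 76) (nat_lit 5595703043) (nat_lit 152) (nat_lit 52863790054) (nat_lit 14) (nat_lit 5) (nat_lit 15) (nat_lit 5) (nat_lit 16) (nat_lit 4) (nat_lit 388) (nat_lit 297) (nat_lit 215))))) (XT.nd (nat_lit 234) (nat_lit 152) (nat_lit 0) (XT.nd (nat_lit 78) (nat_lit 76) (nat_lit 0) (XT.lf (nat_lit 0) (nat_lit 38603529681) (nat_lit 152) (nat_lit 30854147224) (nat_lit 0) (nat_lit 9941458422) (nat_lit 14) (nat_lit 5) (nat_lit 16) (nat_lit 4) (nat_lit 14) (nat_lit 4) (nat_lit 389) (nat_lit 297) (nat_lit 214)) (XT.nd (nat_lit 78) (nat_lit 76) (nat_lit 0) (XT.lf (nat_lit 0) (nat_lit 54803709097) (nat_lit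 152) (nat_lit 1975070968) (nat_lit 0) (nat_lit 26117426834) (nat_lit 14) (nat_lit 5) (nat_lit 16) (nat_lit 4) (nat_lit 14) (nat_lit 4) (nat_lit 390) (nat_lit 297) (nat_lit 213)) (XT.lf (nat_lit 0) (nat_lit 28863515850) (nat_lit 76) (nat_lit 43203187007) (nat_lit 76) (nat_lit 14493846645) (nat_lit 13) (nat_lit 4) (nat_lit 14) (nat_lit 5) (nat_lit 14) (nat_lit 4) (nat_lit 391) (nat_lit 297) (nat_lit 212)))) (XT.nd (nat_lit 78) (nat_lit 152) (nat_lit 0) (XT.lf (nat_lit 0) (nat_lit 61238997356) (nat_lit 76) (nat_lit 28950260758) (nat_lit 76) (nat_lit 218960302) (nat_lit 13) (nat_lit 4) (nat_lit 14) (nat_lit 5) (nat_lit 14) (nat_lit 4) (nat_lit 392) (nat_lit 297) (nat_lit 211)) (XT.nd (nat_lit 156) (nat_lit 0) (nat_lit 0) (XT.lf (nat_lit 0) (nat_lit 610355269) (nat_lit 76) (nat_lit 13853964976) (nat_lit 152) (nat_lit 79980206919) (nat_lit 11) (nat_lit 5) (nat_lit 12) (nat_lit 5) (nat_lit 13) (nat_lit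 4) (nat_lit 393) (nat_lit 297) (nat_lit 210)) (XT.lf (nat_lit 0) (nat_lit 46794079842) (nat_lit 152) (nat_lit 37474921764) (nat_lit 0) (nat_lit 18841552426) (nat_lit 11) (nat_lit 5) (nat_lit 13) (nat_lit 4) (nat_lit 11) (nat_lit 4) (nat_lit 395) (nat_lit 297) (nat_lit 208))))))) (XT.nd (nat_lit 936) (nat_lit 8512) (nat_lit 0) (XT.nd (nat_lit 468) (nat_lit 5548) (nat_lit 0) (XT.nd (nat_lit 234) (nat_lit 1748) (nat_lit 0) (XT.nd (nat_lit 78) (nat_lit 836) (nat_lit 0) (XT.lf (nat_lit 0) (nat_lit 1369344671) (nat_lit 228) (nat_lit 937577173) (nat_lit 228) (nat_lit 937577173) (nat_lit 371) (nat_lit 4) (nat_lit 374) (nat_lit 5) (nat_lit 374) (nat_lit 4) (nat_lit 304) (nat_lit 298) (nat_lit 298)) (XT.nd (nat_lit 78) (nat_lit 456) (nat_lit 0) (XT.lf (nat_lit 0) (nat_lit 2235990343) (nat_lit 304) (nat_lit 1010324154) (nat_lit 380) (nat_lit 3270295853) (nat_lit 366) (nat_lit 5) (nat_lit 370) (nat_lit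 5) (nat_lit 371) (nat_lit 4) (nat_lit 305) (nat_lit 298) (nat_lit 297)) (XT.lf (nat_lit 0) (nat_lit 1749508489) (nat_lit 456) (nat_lit 4701625443) (nat_lit 76) (nat_lit 101118897) (nat_lit 360) (nat_lit 5) (nat_lit 366) (nat_lit 5) (nat_lit 361) (nat_lit 4) (nat_lit 306) (nat_lit 298) (nat_lit 296)))) (XT.nd (nat_lit 78) (nat_lit 1216) (nat_lit 0) (XT.lf (nat_lit 0) (nat_lit 129926324) (nat_lit 532) (nat_lit 5026036366) (nat_lit 76) (nat_lit 1439699255) (nat_lit 353) (nat_lit 5) (nat_lit 360) (nat_lit 5) (nat_lit 354) (nat_lit 5) (nat_lit 307) (nat_lit 298) (nat_lit 295)) (XT.nd (nat_lit 78) (nat_lit 684) (nat_lit 0) (XT.lf (nat_lit 0) (nat_lit 1385333520) (nat_lit 532) (nat_lit 3601882180) (nat_lit 608) (nat_lit 1659520658) (nat_lit 346) (nat_lit 5) (nat_lit 353) (nat_lit 5) (nat_lit 354) (nat_lit 5) (nat_lit 308) (nat_lit 298) (nat_lit 294)) (XT.lf (nat_lit 0) (nat_lit 1310504961) (nat_lit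 608) (nat_lit 1798201449) (nat_lit 684) (nat_lit 3597270174) (nat_lit 337) (nat_lit 5) (nat_lit 345) (nat_lit 5) (nat_lit 346) (nat_lit 5) (nat_lit 309) (nat_lit 298) (nat_lit 293))))) (XT.nd (nat_lit 234) (nat_lit 3116) (nat_lit 0) (XT.nd (nat_lit 78) (nat_lit 1672) (nat_lit 0) (XT.lf (nat_lit 0) (nat_lit 1089369376) (nat_lit 760) (nat_lit 5430259932) (nat_lit 76) (nat_lit 253833928) (nat_lit 327) (nat_lit 5) (nat_lit 337) (nat_lit 5) (nat_lit 328) (nat_lit 5) (nat_lit 310) (nat_lit 298) (nat_lit 292)) (XT.nd (nat_lit 78) (nat_lit 912) (nat_lit 0) (XT.lf (nat_lit 0) (nat_lit 1454520647) (nat_lit 760) (nat_lit 4313156550) (nat_lit 836) (nat_lit 1080822596) (nat_lit 317) (nat_lit 5) (nat_lit 327) (nat_lit 5) (nat_lit 328) (nat_lit 5) (nat_lit 311) (nat_lit 298) (nat_lit 291)) (XT.lf (nat_lit 0) (nat_lit 1660227084) (nat_lit 836) (nat_lit 1842068777) (nat_lit 912) (nat_lit 3429404121) (nat_lit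 305) (nat_lit 5) (nat_lit 316) (nat_lit 5) (nat_lit 317) (nat_lit 5) (nat_lit 312) (nat_lit 298) (nat_lit 290)))) (XT.nd (nat_lit 78) (nat_lit 2128) (nat_lit 0) (XT.lf (nat_lit 0) (nat_lit 1090213490) (nat_lit 988) (nat_lit 5060762673) (nat_lit 76) (nat_lit 872315801) (nat_lit 292) (nat_lit 5) (nat_lit 305) (nat_lit 5) (nat_lit 293) (nat_lit 5) (nat_lit 313) (nat_lit 298) (nat_lit 289)) (XT.nd (nat_lit 78) (nat_lit 1140) (nat_lit 0) (XT.lf (nat_lit 0) (nat_lit 2334827798) (nat_lit 988) (nat_lit 3294378947) (nat_lit 1064) (nat_lit 1493468212) (nat_lit 279) (nat_lit 5) (nat_lit 292) (nat_lit 5) (nat_lit 293) (nat_lit 5) (nat_lit 314) (nat_lit 298) (nat_lit 288)) (XT.lf (nat_lit 0) (nat_lit 2797887240) (nat_lit 1064) (nat_lit 162503489) (nat_lit 1140) (nat_lit 4270247682) (nat_lit 264) (nat_lit 5) (nat_lit 278) (nat_lit 5) (nat_lit 279) (nat_lit 5) (nat_lit 315) (nat_lit 298) (nat_lit 287))))))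 (XT.nd (nat_lit 468) (nat_lit 3572) (nat_lit 0) (XT.nd (nat_lit 234) (nat_lit 1824) (nat_lit 0) (XT.nd (nat_lit 78) (nat_lit 1900) (nat_lit 0) (XT.lf (nat_lit 0) (nat_lit 151900943) (nat_lit 1216) (nat_lit 4015565692) (nat_lit 76) (nat_lit 3179314867) (nat_lit 248) (nat_lit 5) (nat_lit 264) (nat_lit 5) (nat_lit 249) (nat_lit 5) (nat_lit 316) (nat_lit 298) (nat_lit 286)) (XT.nd (nat_lit 78) (nat_lit 684) (nat_lit 0) (XT.lf (nat_lit 0) (nat_lit 3934747859) (nat_lit 1216) (nat_lit 648191177) (nat_lit 1292) (nat_lit 2888371395) (nat_lit 232) (nat_lit 5) (nat_lit 248) (nat_lit 5) (nat_lit 249) (nat_lit 5) (nat_lit 317) (nat_lit 298) (nat_lit 285)) (XT.lf (nat_lit 0) (nat_lit 1513906817) (nat_lit 684) (nat_lit 2999322373) (nat_lit 76) (nat_lit 3091116210) (nat_lit 223) (nat_lit 5) (nat_lit 232) (nat_lit 5) (nat_lit 224) (nat_lit 5) (nat_lit 318) (nat_lit 298) (nat_lit 284)))) (XT.nd (nat_lit 78) (nat_lit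 1216) (nat_lit 0) (XT.lf (nat_lit 0) (nat_lit 5349035574) (nat_lit 608) (nat_lit 626322075) (nat_lit 684) (nat_lit 1770967171) (nat_lit 215) (nat_lit 5) (nat_lit 223) (nat_lit 5) (nat_lit 224) (nat_lit 5) (nat_lit 319) (nat_lit 298) (nat_lit 283)) (XT.nd (nat_lit 78) (nat_lit 532) (nat_lit 0) (XT.lf (nat_lit 0) (nat_lit 2644319365) (nat_lit 684) (nat_lit 1757370737) (nat_lit 76) (nat_lit 3495008148) (nat_lit 206) (nat_lit 5) (nat_lit 215) (nat_lit 5) (nat_lit 207) (nat_lit 5) (nat_lit 320) (nat_lit 298) (nat_lit 282)) (XT.lf (nat_lit 0) (nat_lit 7009658191) (nat_lit 532) (nat_lit 149128167) (nat_lit 608) (nat_lit 897927498) (nat_lit 199) (nat_lit 5) (nat_lit 206) (nat_lit 5) (nat_lit 207) (nat_lit 5) (nat_lit 321) (nat_lit 298) (nat_lit 281))))) (XT.nd (nat_lit 234) (nat_lit 1444) (nat_lit 0) (XT.nd (nat_lit 78) (nat_lit 1520) (nat_lit 0) (XT.lf (nat_lit 0) (nat_lit 3560896951) (nat_lit 608)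 (nat_lit 321282668) (nat_lit 76) (nat_lit 4342833812) (nat_lit 191) (nat_lit 5) (nat_lit 199) (nat_lit 5) (nat_lit 192) (nat_lit 5) (nat_lit 322) (nat_lit 298) (nat_lit 280)) (XT.nd (nat_lit 78) (nat_lit 532) (nat_lit 0) (XT.lf (nat_lit 0) (nat_lit 484954410) (nat_lit 532) (nat_lit 7676417689) (nat_lit 608) (nat_lit 242059548) (nat_lit 178) (nat_lit 5) (nat_lit 185) (nat_lit 5) (nat_lit 186) (nat_lit 5) (nat_lit 323) (nat_lit 298) (nat_lit 279)) (XT.lf (nat_lit 0) (nat_lit 1302857304) (nat_lit 456) (nat_lit 2986312978) (nat_lit 532) (nat_lit 4301194852) (nat_lit 171) (nat_lit 5) (nat_lit 177) (nat_lit 5) (nat_lit 178) (nat_lit 5) (nat_lit 324) (nat_lit 298) (nat_lit 278)))) (XT.nd (nat_lit 78) (nat_lit 912) (nat_lit 0) (XT.lf (nat_lit 0) (nat_lit 207680689) (nat_lit 532) (nat_lit 6606886025) (nat_lit 76) (nat_lit 1973290471) (nat_lit 164) (nat_lit 5) (nat_lit 171) (nat_lit 5) (nat_lit 165) (nat_lit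 5) (nat_lit 325) (nat_lit 298) (nat_lit 277)) (XT.nd (nat_lit 78) (nat_lit 532) (nat_lit 0) (XT.lf (nat_lit 0) (nat_lit 3066139426) (nat_lit 380) (nat_lit 1763173633) (nat_lit 456) (nat_lit 4165417428) (nat_lit 159) (nat_lit 5) (nat_lit 164) (nat_lit 5) (nat_lit 165) (nat_lit 5) (nat_lit 326) (nat_lit 298) (nat_lit 276)) (XT.lf (nat_lit 0) (nat_lit 447219952) (nat_lit 532) (nat_lit 5222701681) (nat_lit 76) (nat_lit 3542367697) (nat_lit 152) (nat_lit 5) (nat_lit 159) (nat_lit 5) (nat_lit 153) (nat_lit 5) (nat_lit 327) (nat_lit 298) (nat_lit 275))))))))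
noncomputable def xc45 : XT := (XT.nd (nat_lit 1872) (nat_lit 2812) (nat_lit 0) (XT.nd (nat_lit 936) (nat_lit 2508) (nat_lit 0) (XT.nd (nat_lit 468) (nat_lit 2204) (nat_lit 0) (XT.nd (nat_lit 234) (nat_lit 1064) (nat_lit 0) (XT.nd (nat_lit 78) (nat_lit 760) (nat_lit 0) (XT.lf (nat_lit 0) (nat_lit 4926944038) (nat_lit 380) (nat_lit 254341454) (nat_lit 456) (nat_lit 4258958720) (nat_lit 147) (nat_lit 5) (nat_lit 152) (nat_lit 5) (nat_lit 153) (nat_lit 5) (nat_lit 328) (nat_lit 298) (nat_lit 274)) (XT.nd (nat_lit 78) (nat_lit 304) (nat_lit 0) (XT.lf (nat_lit 0) (nat_lit 480633503) (nat_lit 456) (nat_lit 3802342719) (nat_lit 76) (nat_lit 5396021363) (nat_lit 141) (nat_lit 5) (nat_lit 147) (nat_lit 5) (nat_lit 142) (nat_lit 5) (nat_lit 329) (nat_lit 298) (nat_lit 273)) (XT.lf (nat_lit 0) (nat_lit 5357597824) (nat_lit 380) (nat_lit 3097007954) (nat_lit 76) (nat_lit 1474219637) (nat_lit 137) (nat_lit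 5) (nat_lit 142) (nat_lit 5) (nat_lit 138) (nat_lit 5) (nat_lit 330) (nat_lit 298) (nat_lit 272)))) (XT.nd (nat_lit 78) (nat_lit 608) (nat_lit 0) (XT.lf (nat_lit 0) (nat_lit 301969901) (nat_lit 456) (nat_lit 2388863825) (nat_lit 76) (nat_lit 7499670605) (nat_lit 131) (nat_lit 5) (nat_lit 137) (nat_lit 5) (nat_lit 132) (nat_lit 5) (nat_lit 331) (nat_lit 298) (nat_lit 271)) (XT.nd (nat_lit 78) (nat_lit 304) (nat_lit 0) (XT.lf (nat_lit 0) (nat_lit 5340965561) (nat_lit 380) (nat_lit 1715719158) (nat_lit 76) (nat_lit 3406773697) (nat_lit 127) (nat_lit 5) (nat_lit 132) (nat_lit 5) (nat_lit 128) (nat_lit 5) (nat_lit 332) (nat_lit 298) (nat_lit 270)) (XT.lf (nat_lit 0) (nat_lit 9717566808) (nat_lit 304) (nat_lit 929651732) (nat_lit 380) (nat_lit 102429451) (nat_lit 123) (nat_lit 5) (nat_lit 127) (nat_lit 5) (nat_lit 128) (nat_lit 5) (nat_lit 333) (nat_lit 298) (nat_lit 269))))) (XT.nd (nat_lit 234)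 (nat_lit 836) (nat_lit 0) (XT.nd (nat_lit 78) (nat_lit 988) (nat_lit 0) (XT.lf (nat_lit 0) (nat_lit 5115427847) (nat_lit 380) (nat_lit 419216212) (nat_lit 76) (nat_lit 5512626447) (nat_lit 118) (nat_lit 5) (nat_lit 123) (nat_lit 5) (nat_lit 119) (nat_lit 5) (nat_lit 334) (nat_lit 298) (nat_lit 268)) (XT.nd (nat_lit 78) (nat_lit 380) (nat_lit 0) (XT.lf (nat_lit 0) (nat_lit 202039169) (nat_lit 304) (nat_lit 10409438061) (nat_lit 380) (nat_lit 747725362) (nat_lit 110) (nat_lit 5) (nat_lit 114) (nat_lit 5) (nat_lit 115) (nat_lit 5) (nat_lit 335) (nat_lit 298) (nat_lit 267)) (XT.lf (nat_lit 0) (nat_lit 746457750) (nat_lit 304) (nat_lit 3921725345) (nat_lit 380) (nat_lit 7015305958) (nat_lit 105) (nat_lit 5) (nat_lit 109) (nat_lit 5) (nat_lit 110) (nat_lit 5) (nat_lit 336) (nat_lit 298) (nat_lit 266)))) (XT.nd (nat_lit 78) (nat_lit 608) (nat_lit 0) (XT.lf (nat_lit 0) (nat_lit 1262894266) (nat_lit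 228) (nat_lit 9113575912) (nat_lit 304) (nat_lit 1646222598) (nat_lit 102) (nat_lit 5) (nat_lit 105) (nat_lit 5) (nat_lit 106) (nat_lit 5) (nat_lit 337) (nat_lit 298) (nat_lit 265)) (XT.nd (nat_lit 78) (nat_lit 228) (nat_lit 0) (XT.lf (nat_lit 0) (nat_lit 1699746653) (nat_lit 304) (nat_lit 2267080491) (nat_lit 380) (nat_lit 8409310327) (nat_lit 97) (nat_lit 5) (nat_lit 101) (nat_lit 5) (nat_lit 102) (nat_lit 5) (nat_lit 338) (nat_lit 298) (nat_lit 264)) (XT.lf (nat_lit 0) (nat_lit 2060490491) (nat_lit 228) (nat_lit 7832308015) (nat_lit 304) (nat_lit 2852009554) (nat_lit 94) (nat_lit 5) (nat_lit 97) (nat_lit 5) (nat_lit 98) (nat_lit 5) (nat_lit 339) (nat_lit 298) (nat_lit 263)))))) (XT.nd (nat_lit 468) (nat_lit 1064) (nat_lit 0) (XT.nd (nat_lit 234) (nat_lit 608) (nat_lit 0) (XT.nd (nat_lit 78) (nat_lit 532) (nat_lit 0) (XT.lf (nat_lit 0) (nat_lit 2346848132) (nat_lit 228) (nat_lit 624159274)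 (nat_lit 304) (nat_lit 10158692282) (nat_lit 90) (nat_lit 5) (nat_lit 93) (nat_lit 5) (nat_lit 94) (nat_lit 5) (nat_lit 340) (nat_lit 298) (nat_lit 262)) (XT.nd (nat_lit 78) (nat_lit 304) (nat_lit 0) (XT.lf (nat_lit 0) (nat_lit 2501885315) (nat_lit 228) (nat_lit 6619375630) (nat_lit 304) (nat_lit 4408904002) (nat_lit 87) (nat_lit 5) (nat_lit 90) (nat_lit 5) (nat_lit 91) (nat_lit 5) (nat_lit 341) (nat_lit 298) (nat_lit 261)) (XT.lf (nat_lit 0) (nat_lit 1644096195) (nat_lit 304) (nat_lit 11371700115) (nat_lit 76) (nat_lit 932988773) (nat_lit 83) (nat_lit 5) (nat_lit 87) (nat_lit 5) (nat_lit 84) (nat_lit 5) (nat_lit 342) (nat_lit 298) (nat_lit 260)))) (XT.nd (nat_lit 78) (nat_lit 456) (nat_lit 0) (XT.lf (nat_lit 0) (nat_lit 2476768426) (nat_lit 152) (nat_lit 5535802426) (nat_lit 228) (nat_lit 6371360473) (nat_lit 81) (nat_lit 5) (nat_lit 83) (nat_lit 5) (nat_lit 84) (nat_lit 5) (nat_lit 343) (nat_lit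 298) (nat_lit 259)) (XT.nd (nat_lit 78) (nat_lit 228) (nat_lit 0) (XT.lf (nat_lit 0) (nat_lit 2273952096) (nat_lit 228) (nat_lit 12488457053) (nat_lit 304) (nat_lit 76561242) (nat_lit 78) (nat_lit 5) (nat_lit 81) (nat_lit 5) (nat_lit 82) (nat_lit 5) (nat_lit 344) (nat_lit 298) (nat_lit 258)) (XT.lf (nat_lit 0) (nat_lit 1853975639) (nat_lit 152) (nat_lit 4651799615) (nat_lit 228) (nat_lit 8806115735) (nat_lit 75) (nat_lit 5) (nat_lit 77) (nat_lit 5) (nat_lit 78) (nat_lit 5) (nat_lit 345) (nat_lit 298) (nat_lit 257))))) (XT.nd (nat_lit 234) (nat_lit 608) (nat_lit 0) (XT.nd (nat_lit 78) (nat_lit 228) (nat_lit 0) (XT.lf (nat_lit 0) (nat_lit 1280706853) (nat_lit 228) (nat_lit 12217572551) (nat_lit 304) (nat_lit 2307697323) (nat_lit 72) (nat_lit 5) (nat_lit 75) (nat_lit 5) (nat_lit 76) (nat_lit 5) (nat_lit 346) (nat_lit 298) (nat_lit 256)) (XT.nd (nat_lit 78) (nat_lit 0) (nat_lit 0) (XT.lf (nat_lit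 0) (nat_lit 477419677) (nat_lit 152) (nat_lit 4048947239) (nat_lit 228) (nat_lit 11794151687) (nat_lit 69) (nat_lit 5) (nat_lit 71) (nat_lit 5) (nat_lit 72) (nat_lit 5) (nat_lit 347) (nat_lit 298) (nat_lit 255)) (XT.lf (nat_lit 0) (nat_lit 11759114029) (nat_lit 228) (nat_lit 545470826) (nat_lit 76) (nat_lit 4552394460) (nat_lit 69) (nat_lit 5) (nat_lit 72) (nat_lit 5) (nat_lit 70) (nat_lit 5) (nat_lit 348) (nat_lit 298) (nat_lit 254)))) (XT.nd (nat_lit 78) (nat_lit 304) (nat_lit 0) (XT.lf (nat_lit 0) (nat_lit 2001714503) (nat_lit 304) (nat_lit 1802787614) (nat_lit 76) (nat_lit 13612034339) (nat_lit 65) (nat_lit 5) (nat_lit 69) (nat_lit 5) (nat_lit 66) (nat_lit 5) (nat_lit 349) (nat_lit 298) (nat_lit 253)) (XT.nd (nat_lit 78) (nat_lit 152) (nat_lit 0) (XT.lf (nat_lit 0) (nat_lit 9465100827) (nat_lit 228) (nat_lit 3372669788) (nat_lit 76) (nat_lit 5161375036) (nat_lit 63) (nat_lit 5) (nat_lit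 66) (nat_lit 5) (nat_lit 64) (nat_lit 5) (nat_lit 350) (nat_lit 298) (nat_lit 252)) (XT.lf (nat_lit 0) (nat_lit 13384653300) (nat_lit 152) (nat_lit 4020797462) (nat_lit 228) (nat_lit 1202336136) (nat_lit 61) (nat_lit 5) (nat_lit 63) (nat_lit 5) (nat_lit 64) (nat_lit 5) (nat_lit 351) (nat_lit 298) (nat_lit 251))))))) (XT.nd (nat_lit 936) (nat_lit 1064) (nat_lit 0) (XT.nd (nat_lit 468) (nat_lit 760) (nat_lit 0) (XT.nd (nat_lit 234) (nat_lit 380) (nat_lit 0) (XT.nd (nat_lit 78) (nat_lit 380) (nat_lit 0) (XT.lf (nat_lit 0) (nat_lit 6489626380) (nat_lit 228) (nat_lit 7462209495) (nat_lit 76) (nat_lit 5289552459) (nat_lit 58) (nat_lit 5) (nat_lit 61) (nat_lit 5) (nat_lit 59) (nat_lit 5) (nat_lit 352) (nat_lit 298) (nat_lit 250)) (XT.nd (nat_lit 78) (nat_lit 228) (nat_lit 0) (XT.lf (nat_lit 0) (nat_lit 9836604291) (nat_lit 152) (nat_lit 4816104094) (nat_lit 228) (nat_lit 5250276280) (nat_lit 56) (nat_lit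 5) (nat_lit 58) (nat_lit 5) (nat_lit 59) (nat_lit 5) (nat_lit 353) (nat_lit 298) (nat_lit 249)) (XT.lf (nat_lit 0) (nat_lit 2695638367) (nat_lit 228) (nat_lit 13094973449) (nat_lit 76) (nat_lit 4802686101) (nat_lit 53) (nat_lit 5) (nat_lit 56) (nat_lit 5) (nat_lit 54) (nat_lit 5) (nat_lit 354) (nat_lit 298) (nat_lit 248)))) (XT.nd (nat_lit 78) (nat_lit 228) (nat_lit 0) (XT.lf (nat_lit 0) (nat_lit 4692354957) (nat_lit 152) (nat_lit 6362514676) (nat_lit 228) (nat_lit 10257971530) (nat_lit 51) (nat_lit 5) (nat_lit 53) (nat_lit 5) (nat_lit 54) (nat_lit 5) (nat_lit 355) (nat_lit 298) (nat_lit 247)) (XT.nd (nat_lit 78) (nat_lit 76) (nat_lit 0) (XT.lf (nat_lit 0) (nat_lit 1440140892) (nat_lit 152) (nat_lit 18502899408) (nat_lit 228) (nat_lit 2122003324) (nat_lit 49) (nat_lit 5) (nat_lit 51) (nat_lit 5) (nat_lit 52) (nat_lit 4) (nat_lit 356) (nat_lit 298) (nat_lit 246)) (XT.lf (nat_lit 0) (nat_lit 6461017407)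 (nat_lit 228) (nat_lit 2354920716) (nat_lit 76) (nat_lit 14032110618) (nat_lit 48) (nat_lit 5) (nat_lit 51) (nat_lit 5) (nat_lit 49) (nat_lit 5) (nat_lit 357) (nat_lit 298) (nat_lit 245))))) (XT.nd (nat_lit 234) (nat_lit 304) (nat_lit 0) (XT.nd (nat_lit 78) (nat_lit 304) (nat_lit 0) (XT.lf (nat_lit 0) (nat_lit 15539565145) (nat_lit 228) (nat_lit 6664399404) (nat_lit 76) (nat_lit 1462311426) (nat_lit 46) (nat_lit 5) (nat_lit 49) (nat_lit 5) (nat_lit 47) (nat_lit 4) (nat_lit 358) (nat_lit 298) (nat_lit 244)) (XT.nd (nat_lit 78) (nat_lit 152) (nat_lit 0) (XT.lf (nat_lit 0) (nat_lit 708569300) (nat_lit 152) (nat_lit 11634361114) (nat_lit 76) (nat_lit 12177157490) (nat_lit 44) (nat_lit 5) (nat_lit 46) (nat_lit 5) (nat_lit 45) (nat_lit 5) (nat_lit 359) (nat_lit 298) (nat_lit 243)) (XT.lf (nat_lit 0) (nat_lit 8094981658) (nat_lit 152) (nat_lit 1806141424) (nat_lit 228) (nat_lit 15510554827) (nat_lit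 42) (nat_lit 5) (nat_lit 44) (nat_lit 5) (nat_lit 45) (nat_lit 5) (nat_lit 360) (nat_lit 298) (nat_lit 242)))) (XT.nd (nat_lit 78) (nat_lit 228) (nat_lit 0) (XT.lf (nat_lit 0) (nat_lit 2552924517) (nat_lit 76) (nat_lit 17171277911) (nat_lit 152) (nat_lit 6618526463) (nat_lit 41) (nat_lit 5) (nat_lit 42) (nat_lit 5) (nat_lit 43) (nat_lit 4) (nat_lit 361) (nat_lit 298) (nat_lit 241)) (XT.nd (nat_lit 78) (nat_lit 152) (nat_lit 0) (XT.lf (nat_lit 0) (nat_lit 2801058837) (nat_lit 152) (nat_lit 3697502860) (nat_lit 76) (nat_lit 20816914795) (nat_lit 40) (nat_lit 5) (nat_lit 42) (nat_lit 5) (nat_lit 41) (nat_lit 5) (nat_lit 362) (nat_lit 298) (nat_lit 240)) (XT.lf (nat_lit 0) (nat_lit 12712691458) (nat_lit 228) (nat_lit 10812138318) (nat_lit 76) (nat_lit 4805334725) (nat_lit 38) (nat_lit 5) (nat_lit 41) (nat_lit 5) (nat_lit 39) (nat_lit 4) (nat_lit 363) (nat_lit 298) (nat_lit 239)))))) (XT.nd (nat_lit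 468) (nat_lit 456) (nat_lit 0) (XT.nd (nat_lit 234) (nat_lit 304) (nat_lit 0) (XT.nd (nat_lit 78) (nat_lit 228) (nat_lit 0) (XT.lf (nat_lit 0) (nat_lit 10509263501) (nat_lit 76) (nat_lit 12757743505) (nat_lit 152) (nat_lit 6124173919) (nat_lit 37) (nat_lit 5) (nat_lit 38) (nat_lit 5) (nat_lit 39) (nat_lit 4) (nat_lit 364) (nat_lit 298) (nat_lit 238)) (XT.nd (nat_lit 78) (nat_lit 0) (nat_lit 0) (XT.lf (nat_lit 0) (nat_lit 2526963190) (nat_lit 152) (nat_lit 1321761421) (nat_lit 228) (nat_lit 26653023397) (nat_lit 34) (nat_lit 5) (nat_lit 36) (nat_lit 5) (nat_lit 37) (nat_lit 5) (nat_lit 365) (nat_lit 298) (nat_lit 237)) (XT.lf (nat_lit 0) (nat_lit 14438321934) (nat_lit 228) (nat_lit 6530863514) (nat_lit 76) (nat_lit 10689503812) (nat_lit 34) (nat_lit 5) (nat_lit 37) (nat_lit 5) (nat_lit 35) (nat_lit 4) (nat_lit 366) (nat_lit 298) (nat_lit 236)))) (XT.nd (nat_lit 78) (nat_lit 228) (nat_lit 0) (XT.lf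 (nat_lit 0) (nat_lit 16189487436) (nat_lit 76) (nat_lit 9484033966) (nat_lit 152) (nat_lit 7196478421) (nat_lit 33) (nat_lit 5) (nat_lit 34) (nat_lit 5) (nat_lit 35) (nat_lit 4) (nat_lit 367) (nat_lit 298) (nat_lit 235)) (XT.nd (nat_lit 78) (nat_lit 0) (nat_lit 0) (XT.lf (nat_lit 0) (nat_lit 3363651827) (nat_lit 228) (nat_lit 28133648121) (nat_lit 76) (nat_lit 2640621539) (nat_lit 30) (nat_lit 5) (nat_lit 33) (nat_lit 5) (nat_lit 31) (nat_lit 4) (nat_lit 368) (nat_lit 298) (nat_lit 234)) (XT.lf (nat_lit 0) (nat_lit 14522861140) (nat_lit 228) (nat_lit 5557157941) (nat_lit 76) (nat_lit 15380490593) (nat_lit 30) (nat_lit 5) (nat_lit 33) (nat_lit 5) (nat_lit 31) (nat_lit 4) (nat_lit 369) (nat_lit 298) (nat_lit 233))))) (XT.nd (nat_lit 234) (nat_lit 228) (nat_lit 0) (XT.nd (nat_lit 78) (nat_lit 152) (nat_lit 0) (XT.lf (nat_lit 0) (nat_lit 18417178879) (nat_lit 76) (nat_lit 7951686665) (nat_lit 152)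 (nat_lit 10476501649) (nat_lit 29) (nat_lit 5) (nat_lit 30) (nat_lit 5) (nat_lit 31) (nat_lit 4) (nat_lit 370) (nat_lit 298) (nat_lit 232)) (XT.nd (nat_lit 78) (nat_lit 0) (nat_lit 0) (XT.lf (nat_lit 0) (nat_lit 607166861) (nat_lit 152) (nat_lit 32923947992) (nat_lit 76) (nat_lit 4764929771) (nat_lit 27) (nat_lit 5) (nat_lit 29) (nat_lit 5) (nat_lit 28) (nat_lit 4) (nat_lit 371) (nat_lit 298) (nat_lit 231)) (XT.lf (nat_lit 0) (nat_lit 12256014848) (nat_lit 152) (nat_lit 9341117089) (nat_lit 76) (nat_lit 18212186541) (nat_lit 27) (nat_lit 5) (nat_lit 29) (nat_lit 5) (nat_lit 28) (nat_lit 4) (nat_lit 372) (nat_lit 298) (nat_lit 230)))) (XT.nd (nat_lit 78) (nat_lit 152) (nat_lit 0) (XT.lf (nat_lit 0) (nat_lit 15643094595) (nat_lit 76) (nat_lit 8950594557) (nat_lit 152) (nat_lit 16801379517) (nat_lit 26) (nat_lit 5) (nat_lit 27) (nat_lit 5) (nat_lit 28) (nat_lit 4) (nat_lit 373) (nat_lit 298) (nat_lit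 229)) (XT.nd (nat_lit 78) (nat_lit 152) (nat_lit 0) (XT.lf (nat_lit 0) (nat_lit 37643931252) (nat_lit 152) (nat_lit 1109614252) (nat_lit 0) (nat_lit 4303694306) (nat_lit 26) (nat_lit 5) (nat_lit 28) (nat_lit 4) (nat_lit 26) (nat_lit 4) (nat_lit 374) (nat_lit 298) (nat_lit 228)) (XT.lf (nat_lit 0) (nat_lit 6709841050) (nat_lit 152) (nat_lit 19773212150) (nat_lit 76) (nat_lit 18308781516) (nat_lit 24) (nat_lit 5) (nat_lit 26) (nat_lit 5) (nat_lit 25) (nat_lit 4) (nat_lit 375) (nat_lit 298) (nat_lit 227))))))))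
noncomputable def xc46 : XT := (XT.nd (nat_lit 41496) (nat_lit 0) (nat_lit 9576) (XT.nd (nat_lit 936) (nat_lit 380) (nat_lit 0) (XT.nd (nat_lit 468) (nat_lit 304) (nat_lit 0) (XT.nd (nat_lit 234) (nat_lit 152) (nat_lit 0) (XT.nd (nat_lit 78) (nat_lit 76) (nat_lit 0) (XT.lf (nat_lit 0) (nat_lit 5846736068) (nat_lit 76) (nat_lit 13509081134) (nat_lit 152) (nat_lit 27254879005) (nat_lit 23) (nat_lit 5) (nat_lit 24) (nat_lit 5) (nat_lit 25) (nat_lit 4) (nat_lit 376) (nat_lit 298) (nat_lit 226)) (XT.nd (nat_lit 78) (nat_lit 76) (nat_lit 0) (XT.lf (nat_lit 0) (nat_lit 32801455741) (nat_lit 152) (nat_lit 15431512867) (nat_lit 0) (nat_lit 282514580) (nat_lit 23) (nat_lit 5) (nat_lit 25) (nat_lit 4) (nat_lit 23) (nat_lit 4) (nat_lit 377) (nat_lit 298) (nat_lit 225)) (XT.lf (nat_lit 0) (nat_lit 11178000837) (nat_lit 76) (nat_lit 35947755191) (nat_lit 76) (nat_lit 3383565263) (nat_lit 22) (nat_lit 4) (nat_lit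 23) (nat_lit 5) (nat_lit 23) (nat_lit 4) (nat_lit 378) (nat_lit 298) (nat_lit 224)))) (XT.nd (nat_lit 78) (nat_lit 76) (nat_lit 0) (XT.lf (nat_lit 0) (nat_lit 9500563007) (nat_lit 152) (nat_lit 13321141087) (nat_lit 76) (nat_lit 29774679455) (nat_lit 21) (nat_lit 5) (nat_lit 23) (nat_lit 5) (nat_lit 22) (nat_lit 4) (nat_lit 379) (nat_lit 298) (nat_lit 223)) (XT.nd (nat_lit 78) (nat_lit 0) (nat_lit 0) (XT.lf (nat_lit 0) (nat_lit 14165126252) (nat_lit 76) (nat_lit 8895687644) (nat_lit 152) (nat_lit 31722925986) (nat_lit 20) (nat_lit 5) (nat_lit 21) (nat_lit 5) (nat_lit 22) (nat_lit 4) (nat_lit 380) (nat_lit 298) (nat_lit 222)) (XT.lf (nat_lit 0) (nat_lit 37458434816) (nat_lit 152) (nat_lit 13894169286) (nat_lit 0) (nat_lit 5723081860) (nat_lit 20) (nat_lit 5) (nat_lit 22) (nat_lit 4) (nat_lit 20) (nat_lit 4) (nat_lit 381) (nat_lit 298) (nat_lit 221))))) (XT.nd (nat_lit 234) (nat_lit 76) (nat_lit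 0) (XT.nd (nat_lit 78) (nat_lit 152) (nat_lit 0) (XT.lf (nat_lit 0) (nat_lit 14293249264) (nat_lit 76) (nat_lit 38477319313) (nat_lit 76) (nat_lit 6705824344) (nat_lit 19) (nat_lit 4) (nat_lit 20) (nat_lit 5) (nat_lit 20) (nat_lit 4) (nat_lit 382) (nat_lit 298) (nat_lit 220)) (XT.nd (nat_lit 78) (nat_lit 76) (nat_lit 0) (XT.lf (nat_lit 0) (nat_lit 6830029609) (nat_lit 152) (nat_lit 17940955826) (nat_lit 76) (nat_lit 37220799994) (nat_lit 18) (nat_lit 5) (nat_lit 20) (nat_lit 5) (nat_lit 19) (nat_lit 4) (nat_lit 383) (nat_lit 298) (nat_lit 219)) (XT.lf (nat_lit 0) (nat_lit 10747063554) (nat_lit 76) (nat_lit 10231144011) (nat_lit 152) (nat_lit 43650523853) (nat_lit 17) (nat_lit 5) (nat_lit 18) (nat_lit 5) (nat_lit 19) (nat_lit 4) (nat_lit 384) (nat_lit 298) (nat_lit 218)))) (XT.nd (nat_lit 78) (nat_lit 76) (nat_lit 0) (XT.lf (nat_lit 0) (nat_lit 36038978001) (nat_lit 152) (nat_lit 26255083895)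 (nat_lit 0) (nat_lit 5097309424) (nat_lit 17) (nat_lit 5) (nat_lit 19) (nat_lit 4) (nat_lit 17) (nat_lit 4) (nat_lit 385) (nat_lit 298) (nat_lit 217)) (XT.nd (nat_lit 78) (nat_lit 0) (nat_lit 0) (XT.lf (nat_lit 0) (nat_lit 2646674596) (nat_lit 76) (nat_lit 49306497866) (nat_lit 76) (nat_lit 18335961209) (nat_lit 16) (nat_lit 4) (nat_lit 17) (nat_lit 5) (nat_lit 17) (nat_lit 4) (nat_lit 386) (nat_lit 298) (nat_lit 216)) (XT.lf (nat_lit 0) (nat_lit 33489202878) (nat_lit 76) (nat_lit 35416664762) (nat_lit 76) (nat_lit 4418634695) (nat_lit 16) (nat_lit 4) (nat_lit 17) (nat_lit 5) (nat_lit 17) (nat_lit 4) (nat_lit 387) (nat_lit 298) (nat_lit 215)))))) (XT.nd (nat_lit 546) (nat_lit 76) (nat_lit 0) (XT.nd (nat_lit 234) (nat_lit 152) (nat_lit 0) (XT.nd (nat_lit 78) (nat_lit 76) (nat_lit 0) (XT.lf (nat_lit 0) (nat_lit 9969191392) (nat_lit 152) (nat_lit 10786755741) (nat_lit 76) (nat_lit 55753547213)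 (nat_lit 15) (nat_lit 5) (nat_lit 17) (nat_lit 5) (nat_lit 16) (nat_lit 4) (nat_lit 388) (nat_lit 298) (nat_lit 214)) (XT.nd (nat_lit 78) (nat_lit 0) (nat_lit 0) (XT.lf (nat_lit 0) (nat_lit 20011564459) (nat_lit 76) (nat_lit 5141497639) (nat_lit 152) (nat_lit 54694321963) (nat_lit 14) (nat_lit 5) (nat_lit 15) (nat_lit 5) (nat_lit 16) (nat_lit 4) (nat_lit 389) (nat_lit 298) (nat_lit 213)) (XT.lf (nat_lit 0) (nat_lit 41291794685) (nat_lit 152) (nat_lit 30930575934) (nat_lit 0) (nat_lit 11123929206) (nat_lit 14) (nat_lit 5) (nat_lit 16) (nat_lit 4) (nat_lit 14) (nat_lit 4) (nat_lit 390) (nat_lit 298) (nat_lit 212)))) (XT.nd (nat_lit 78) (nat_lit 152) (nat_lit 0) (XT.lf (nat_lit 0) (nat_lit 58265883618) (nat_lit 152) (nat_lit 677368659) (nat_lit 0) (nat_lit 28076058045) (nat_lit 14) (nat_lit 5) (nat_lit 16) (nat_lit 4) (nat_lit 14) (nat_lit 4) (nat_lit 391) (nat_lit 298) (nat_lit 211)) (XT.nd (nat_lit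 78) (nat_lit 76) (nat_lit 0) (XT.lf (nat_lit 0) (nat_lit 31663118374) (nat_lit 76) (nat_lit 44707567064) (nat_lit 76) (nat_lit 14496827116) (nat_lit 13) (nat_lit 4) (nat_lit 14) (nat_lit 5) (nat_lit 14) (nat_lit 4) (nat_lit 392) (nat_lit 298) (nat_lit 210)) (XT.lf (nat_lit 0) (nat_lit 448510081) (nat_lit 152) (nat_lit 29320182934) (nat_lit 76) (nat_lit 65139743052) (nat_lit 12) (nat_lit 5) (nat_lit 14) (nat_lit 5) (nat_lit 13) (nat_lit 4) (nat_lit 393) (nat_lit 298) (nat_lit 209))))) (XT.nd (nat_lit 39780) (nat_lit 0) (nat_lit 26524) (XT.nd (nat_lit 39624) (nat_lit 0) (nat_lit 27588) (XT.lf (nat_lit 0) (nat_lit 32314553660) (nat_lit 152) (nat_lit 68345379951) (nat_lit 0) (nat_lit 2928442031) (nat_lit 11) (nat_lit 5) (nat_lit 13) (nat_lit 4) (nat_lit 11) (nat_lit 4) (nat_lit 395) (nat_lit 298) (nat_lit 207)) (XT.nd (nat_lit 78) (nat_lit 228) (nat_lit 0) (XT.lf (nat_lit 0) (nat_lit 2112285058)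 (nat_lit 76) (nat_lit 557292710) (nat_lit 76) (nat_lit 557292710) (nat_lit 377) (nat_lit 4) (nat_lit 378) (nat_lit 5) (nat_lit 378) (nat_lit 4) (nat_lit 302) (nat_lit 299) (nat_lit 299)) (XT.lf (nat_lit 0) (nat_lit 3361566545) (nat_lit 152) (nat_lit 614023564) (nat_lit 228) (nat_lit 2493800912) (nat_lit 374) (nat_lit 5) (nat_lit 376) (nat_lit 5) (nat_lit 377) (nat_lit 4) (nat_lit 303) (nat_lit 299) (nat_lit 298)))) (XT.nd (nat_lit 78) (nat_lit 760) (nat_lit 0) (XT.lf (nat_lit 0) (nat_lit 2488506367) (nat_lit 304) (nat_lit 3874089656) (nat_lit 76) (nat_lit 130432104) (nat_lit 370) (nat_lit 5) (nat_lit 374) (nat_lit 5) (nat_lit 371) (nat_lit 4) (nat_lit 304) (nat_lit 299) (nat_lit 297)) (XT.nd (nat_lit 78) (nat_lit 380) (nat_lit 0) (XT.lf (nat_lit 0) (nat_lit 880757268) (nat_lit 380) (nat_lit 4537075138) (nat_lit 76) (nat_lit 1106656141) (nat_lit 365) (nat_lit 5) (nat_lit 370) (nat_lit 5) (nat_lit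 366) (nat_lit 5) (nat_lit 305) (nat_lit 299) (nat_lit 296)) (XT.lf (nat_lit 0) (nat_lit 1462657398) (nat_lit 380) (nat_lit 4225958529) (nat_lit 456) (nat_lit 875142964) (nat_lit 360) (nat_lit 5) (nat_lit 365) (nat_lit 5) (nat_lit 366) (nat_lit 5) (nat_lit 306) (nat_lit 299) (nat_lit 295))))))) (XT.nd (nat_lit 936) (nat_lit 6536) (nat_lit 0) (XT.nd (nat_lit 468) (nat_lit 6232) (nat_lit 0) (XT.nd (nat_lit 234) (nat_lit 2432) (nat_lit 0) (XT.nd (nat_lit 78) (nat_lit 1216) (nat_lit 0) (XT.lf (nat_lit 0) (nat_lit 1041634122) (nat_lit 456) (nat_lit 2781999430) (nat_lit 532) (nat_lit 2787236857) (nat_lit 353) (nat_lit 5) (nat_lit 359) (nat_lit 5) (nat_lit 360) (nat_lit 5) (nat_lit 307) (nat_lit 299) (nat_lit 294)) (XT.nd (nat_lit 78) (nat_lit 608) (nat_lit 0) (XT.lf (nat_lit 0) (nat_lit 732058224) (nat_lit 532) (nat_lit 1090738291) (nat_lit 608) (nat_lit 4843378210) (nat_lit 345) (nat_lit 5) (nat_lit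 352) (nat_lit 5) (nat_lit 353) (nat_lit 5) (nat_lit 308) (nat_lit 299) (nat_lit 293)) (XT.lf (nat_lit 0) (nat_lit 521462679) (nat_lit 608) (nat_lit 5890395318) (nat_lit 684) (nat_lit 317585295) (nat_lit 337) (nat_lit 5) (nat_lit 345) (nat_lit 5) (nat_lit 346) (nat_lit 5) (nat_lit 309) (nat_lit 299) (nat_lit 292)))) (XT.nd (nat_lit 78) (nat_lit 1672) (nat_lit 0) (XT.lf (nat_lit 0) (nat_lit 387729541) (nat_lit 684) (nat_lit 3780834390) (nat_lit 760) (nat_lit 2631610621) (nat_lit 327) (nat_lit 5) (nat_lit 336) (nat_lit 5) (nat_lit 337) (nat_lit 5) (nat_lit 310) (nat_lit 299) (nat_lit 291)) (XT.nd (nat_lit 78) (nat_lit 836) (nat_lit 0) (XT.lf (nat_lit 0) (nat_lit 359532954) (nat_lit 760) (nat_lit 1419522359) (nat_lit 836) (nat_lit 5100299583) (nat_lit 316) (nat_lit 5) (nat_lit 326) (nat_lit 5) (nat_lit 327) (nat_lit 5) (nat_lit 311) (nat_lit 299) (nat_lit 290)) (XT.lf (nat_lit 0) (nat_lit 417241117)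 (nat_lit 836) (nat_lit 5782335731) (nat_lit 912) (nat_lit 766995960) (nat_lit 305) (nat_lit 5) (nat_lit 316) (nat_lit 5) (nat_lit 317) (nat_lit 5) (nat_lit 312) (nat_lit 299) (nat_lit 289))))) (XT.nd (nat_lit 234) (nat_lit 3116) (nat_lit 0) (XT.nd (nat_lit 78) (nat_lit 2128) (nat_lit 0) (XT.lf (nat_lit 0) (nat_lit 544336382) (nat_lit 912) (nat_lit 3021591651) (nat_lit 988) (nat_lit 3495589068) (nat_lit 292) (nat_lit 5) (nat_lit 304) (nat_lit 5) (nat_lit 305) (nat_lit 5) (nat_lit 313) (nat_lit 299) (nat_lit 288)) (XT.nd (nat_lit 78) (nat_lit 1064) (nat_lit 0) (XT.lf (nat_lit 0) (nat_lit 772174941) (nat_lit 1064) (nat_lit 6392391300) (nat_lit 76) (nat_lit 736377) (nat_lit 278) (nat_lit 5) (nat_lit 292) (nat_lit 5) (nat_lit 279) (nat_lit 5) (nat_lit 314) (nat_lit 299) (nat_lit 287)) (XT.lf (nat_lit 0) (nat_lit 1049052064) (nat_lit 1064) (nat_lit 4026304544) (nat_lit 1140) (nat_lit 2201193390) (nat_lit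 264) (nat_lit 5) (nat_lit 278) (nat_lit 5) (nat_lit 279) (nat_lit 5) (nat_lit 315) (nat_lit 299) (nat_lit 286)))) (XT.nd (nat_lit 78) (nat_lit 1900) (nat_lit 0) (XT.lf (nat_lit 0) (nat_lit 1415526635) (nat_lit 1140) (nat_lit 613469167) (nat_lit 1216) (nat_lit 5367711570) (nat_lit 248) (nat_lit 5) (nat_lit 263) (nat_lit 5) (nat_lit 264) (nat_lit 5) (nat_lit 316) (nat_lit 299) (nat_lit 285)) (XT.nd (nat_lit 78) (nat_lit 684) (nat_lit 0) (XT.lf (nat_lit 0) (nat_lit 1838661736) (nat_lit 1216) (nat_lit 4497639799) (nat_lit 1292) (nat_lit 1188707130) (nat_lit 232) (nat_lit 5) (nat_lit 248) (nat_lit 5) (nat_lit 249) (nat_lit 5) (nat_lit 317) (nat_lit 299) (nat_lit 284)) (XT.lf (nat_lit 0) (nat_lit 2330446178) (nat_lit 608) (nat_lit 702576146) (nat_lit 684) (nat_lit 4629008470) (nat_lit 223) (nat_lit 5) (nat_lit 231) (nat_lit 5) (nat_lit 232) (nat_lit 5) (nat_lit 318) (nat_lit 299) (nat_lit 283))))))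 (XT.nd (nat_lit 468) (nat_lit 3040) (nat_lit 0) (XT.nd (nat_lit 234) (nat_lit 1596) (nat_lit 0) (XT.nd (nat_lit 78) (nat_lit 1292) (nat_lit 0) (XT.lf (nat_lit 0) (nat_lit 2880613823) (nat_lit 608) (nat_lit 4492094402) (nat_lit 684) (nat_lit 435008120) (nat_lit 215) (nat_lit 5) (nat_lit 223) (nat_lit 5) (nat_lit 224) (nat_lit 5) (nat_lit 319) (nat_lit 299) (nat_lit 282)) (XT.nd (nat_lit 78) (nat_lit 608) (nat_lit 0) (XT.lf (nat_lit 0) (nat_lit 3485648664) (nat_lit 608) (nat_lit 319707199) (nat_lit 684) (nat_lit 4156863420) (nat_lit 206) (nat_lit 5) (nat_lit 214) (nat_lit 5) (nat_lit 215) (nat_lit 5) (nat_lit 320) (nat_lit 299) (nat_lit 281)) (XT.lf (nat_lit 0) (nat_lit 76470335) (nat_lit 608) (nat_lit 3982610964) (nat_lit 76) (nat_lit 4066659937) (nat_lit 198) (nat_lit 5) (nat_lit 206) (nat_lit 5) (nat_lit 199) (nat_lit 5) (nat_lit 321) (nat_lit 299) (nat_lit 280)))) (XT.nd (nat_lit 78) (nat_lit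 1064) (nat_lit 0) (XT.lf (nat_lit 0) (nat_lit 4367002383) (nat_lit 608) (nat_lit 3452940574) (nat_lit 76) (nat_lit 478405335) (nat_lit 191) (nat_lit 5) (nat_lit 199) (nat_lit 5) (nat_lit 192) (nat_lit 5) (nat_lit 322) (nat_lit 299) (nat_lit 279)) (XT.nd (nat_lit 78) (nat_lit 532) (nat_lit 0) (XT.lf (nat_lit 0) (nat_lit 356405477) (nat_lit 532) (nat_lit 2885878576) (nat_lit 76) (nat_lit 5238122884) (nat_lit 184) (nat_lit 5) (nat_lit 191) (nat_lit 5) (nat_lit 185) (nat_lit 5) (nat_lit 323) (nat_lit 299) (nat_lit 278)) (XT.lf (nat_lit 0) (nat_lit 4731649666) (nat_lit 608) (nat_lit 2294969730) (nat_lit 76) (nat_lit 1645227223) (nat_lit 177) (nat_lit 5) (nat_lit 185) (nat_lit 5) (nat_lit 178) (nat_lit 5) (nat_lit 324) (nat_lit 299) (nat_lit 277))))) (XT.nd (nat_lit 234) (nat_lit 1596) (nat_lit 0) (XT.nd (nat_lit 78) (nat_lit 912) (nat_lit 0) (XT.lf (nat_lit 0) (nat_lit 421492360) (nat_lit 532) (nat_lit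 1665217714) (nat_lit 76) (nat_lit 6786764007) (nat_lit 170) (nat_lit 5) (nat_lit 177) (nat_lit 5) (nat_lit 171) (nat_lit 5) (nat_lit 325) (nat_lit 299) (nat_lit 276)) (XT.nd (nat_lit 78) (nat_lit 456) (nat_lit 0) (XT.lf (nat_lit 0) (nat_lit 4902803128) (nat_lit 532) (nat_lit 1032558880) (nat_lit 76) (nat_lit 3149228605) (nat_lit 164) (nat_lit 5) (nat_lit 171) (nat_lit 5) (nat_lit 165) (nat_lit 5) (nat_lit 326) (nat_lit 299) (nat_lit 275)) (XT.lf (nat_lit 0) (nat_lit 275143836) (nat_lit 456) (nat_lit 354782784) (nat_lit 76) (nat_lit 8676939372) (nat_lit 158) (nat_lit 5) (nat_lit 164) (nat_lit 5) (nat_lit 159) (nat_lit 5) (nat_lit 327) (nat_lit 299) (nat_lit 274)))) (XT.nd (nat_lit 78) (nat_lit 760) (nat_lit 0) (XT.lf (nat_lit 0) (nat_lit 305011635) (nat_lit 380) (nat_lit 4580213453) (nat_lit 456) (nat_lit 4653344886) (nat_lit 147) (nat_lit 5) (nat_lit 152) (nat_lit 5) (nat_lit 153) (nat_lit 5)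 (nat_lit 328) (nat_lit 299) (nat_lit 273)) (XT.nd (nat_lit 78) (nat_lit 380) (nat_lit 0) (XT.lf (nat_lit 0) (nat_lit 1016972295) (nat_lit 380) (nat_lit 8700242893) (nat_lit 456) (nat_lit 64959558) (nat_lit 142) (nat_lit 5) (nat_lit 147) (nat_lit 5) (nat_lit 148) (nat_lit 5) (nat_lit 329) (nat_lit 299) (nat_lit 272)) (XT.lf (nat_lit 0) (nat_lit 1694256682) (nat_lit 304) (nat_lit 2989017837) (nat_lit 380) (nat_lit 5352672767) (nat_lit 137) (nat_lit 5) (nat_lit 141) (nat_lit 5) (nat_lit 142) (nat_lit 5) (nat_lit 330) (nat_lit 299) (nat_lit 271))))))))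
noncomputable def xc47 : XT := (XT.nd (nat_lit 1872) (nat_lit 2508) (nat_lit 0) (XT.nd (nat_lit 936) (nat_lit 2356) (nat_lit 0) (XT.nd (nat_lit 468) (nat_lit 1672) (nat_lit 0) (XT.nd (nat_lit 234) (nat_lit 1064) (nat_lit 0) (XT.nd (nat_lit 78) (nat_lit 684) (nat_lit 0) (XT.lf (nat_lit 0) (nat_lit 2394353983) (nat_lit 380) (nat_lit 7285221151) (nat_lit 456) (nat_lit 622504916) (nat_lit 132) (nat_lit 5) (nat_lit 137) (nat_lit 5) (nat_lit 138) (nat_lit 5) (nat_lit 331) (nat_lit 299) (nat_lit 270)) (XT.nd (nat_lit 78) (nat_lit 304) (nat_lit 0) (XT.lf (nat_lit 0) (nat_lit 3070275103) (nat_lit 304) (nat_lit 1207703622) (nat_lit 380) (nat_lit 6301777639) (nat_lit 127) (nat_lit 5) (nat_lit 131) (nat_lit 5) (nat_lit 132) (nat_lit 5) (nat_lit 332) (nat_lit 299) (nat_lit 269)) (XT.lf (nat_lit 0) (nat_lit 3732005215) (nat_lit 304) (nat_lit 5722640182) (nat_lit 380) (nat_lit 1415209971) (nat_lit 123) (nat_lit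 5) (nat_lit 127) (nat_lit 5) (nat_lit 128) (nat_lit 5) (nat_lit 333) (nat_lit 299) (nat_lit 268)))) (XT.nd (nat_lit 78) (nat_lit 684) (nat_lit 0) (XT.lf (nat_lit 0) (nat_lit 3661670925) (nat_lit 380) (nat_lit 6797790879) (nat_lit 76) (nat_lit 713412655) (nat_lit 118) (nat_lit 5) (nat_lit 123) (nat_lit 5) (nat_lit 119) (nat_lit 5) (nat_lit 334) (nat_lit 299) (nat_lit 267)) (XT.nd (nat_lit 78) (nat_lit 380) (nat_lit 0) (XT.lf (nat_lit 0) (nat_lit 4975375920) (nat_lit 304) (nat_lit 4050541009) (nat_lit 380) (nat_lit 2462862950) (nat_lit 114) (nat_lit 5) (nat_lit 118) (nat_lit 5) (nat_lit 119) (nat_lit 5) (nat_lit 335) (nat_lit 299) (nat_lit 266)) (XT.lf (nat_lit 0) (nat_lit 2818993521) (nat_lit 380) (nat_lit 6274783296) (nat_lit 76) (nat_lit 2724827529) (nat_lit 109) (nat_lit 5) (nat_lit 114) (nat_lit 5) (nat_lit 110) (nat_lit 5) (nat_lit 336) (nat_lit 299) (nat_lit 265))))) (XT.nd (nat_lit 234)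 (nat_lit 760) (nat_lit 0) (XT.nd (nat_lit 78) (nat_lit 608) (nat_lit 0) (XT.lf (nat_lit 0) (nat_lit 6060744956) (nat_lit 304) (nat_lit 2309462985) (nat_lit 380) (nat_lit 3792329246) (nat_lit 105) (nat_lit 5) (nat_lit 109) (nat_lit 5) (nat_lit 110) (nat_lit 5) (nat_lit 337) (nat_lit 299) (nat_lit 264)) (XT.nd (nat_lit 78) (nat_lit 304) (nat_lit 0) (XT.lf (nat_lit 0) (nat_lit 1709649914) (nat_lit 304) (nat_lit 6001500615) (nat_lit 76) (nat_lit 4810054369) (nat_lit 101) (nat_lit 5) (nat_lit 105) (nat_lit 5) (nat_lit 102) (nat_lit 5) (nat_lit 338) (nat_lit 299) (nat_lit 263)) (XT.lf (nat_lit 0) (nat_lit 6913065343) (nat_lit 304) (nat_lit 543736698) (nat_lit 380) (nat_lit 5438452939) (nat_lit 97) (nat_lit 5) (nat_lit 101) (nat_lit 5) (nat_lit 102) (nat_lit 5) (nat_lit 339) (nat_lit 299) (nat_lit 262)))) (XT.nd (nat_lit 78) (nat_lit 456) (nat_lit 0) (XT.lf (nat_lit 0) (nat_lit 296743713) (nat_lit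 304) (nat_lit 6063525335) (nat_lit 76) (nat_lit 6924785958) (nat_lit 93) (nat_lit 5) (nat_lit 97) (nat_lit 5) (nat_lit 94) (nat_lit 5) (nat_lit 340) (nat_lit 299) (nat_lit 261)) (XT.nd (nat_lit 78) (nat_lit 228) (nat_lit 0) (XT.lf (nat_lit 0) (nat_lit 6257898356) (nat_lit 304) (nat_lit 6259588133) (nat_lit 76) (nat_lit 1173719876) (nat_lit 90) (nat_lit 5) (nat_lit 94) (nat_lit 5) (nat_lit 91) (nat_lit 5) (nat_lit 341) (nat_lit 299) (nat_lit 260)) (XT.lf (nat_lit 0) (nat_lit 7538153522) (nat_lit 228) (nat_lit 5081275269) (nat_lit 304) (nat_lit 1495192602) (nat_lit 87) (nat_lit 5) (nat_lit 90) (nat_lit 5) (nat_lit 91) (nat_lit 5) (nat_lit 342) (nat_lit 299) (nat_lit 259)))))) (XT.nd (nat_lit 468) (nat_lit 988) (nat_lit 0) (XT.nd (nat_lit 234) (nat_lit 608) (nat_lit 0) (XT.nd (nat_lit 78) (nat_lit 456) (nat_lit 0) (XT.lf (nat_lit 0) (nat_lit 4717254758) (nat_lit 304) (nat_lit 7037672394) (nat_lit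 76) (nat_lit 2800839346) (nat_lit 83) (nat_lit 5) (nat_lit 87) (nat_lit 5) (nat_lit 84) (nat_lit 5) (nat_lit 343) (nat_lit 299) (nat_lit 258)) (XT.nd (nat_lit 78) (nat_lit 304) (nat_lit 0) (XT.lf (nat_lit 0) (nat_lit 7362687164) (nat_lit 152) (nat_lit 3944815644) (nat_lit 228) (nat_lit 3708101480) (nat_lit 81) (nat_lit 5) (nat_lit 83) (nat_lit 5) (nat_lit 84) (nat_lit 5) (nat_lit 344) (nat_lit 299) (nat_lit 257)) (XT.lf (nat_lit 0) (nat_lit 2768427881) (nat_lit 304) (nat_lit 8442037030) (nat_lit 76) (nat_lit 4284417564) (nat_lit 77) (nat_lit 5) (nat_lit 81) (nat_lit 5) (nat_lit 78) (nat_lit 5) (nat_lit 345) (nat_lit 299) (nat_lit 256)))) (XT.nd (nat_lit 78) (nat_lit 456) (nat_lit 0) (XT.lf (nat_lit 0) (nat_lit 6560962885) (nat_lit 152) (nat_lit 3026121734) (nat_lit 228) (nat_lit 6407108716) (nat_lit 75) (nat_lit 5) (nat_lit 77) (nat_lit 5) (nat_lit 78) (nat_lit 5) (nat_lit 346) (nat_lit 299)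 (nat_lit 255)) (XT.nd (nat_lit 78) (nat_lit 152) (nat_lit 0) (XT.lf (nat_lit 0) (nat_lit 336849532) (nat_lit 304) (nat_lit 10628114008) (nat_lit 76) (nat_lit 5550065830) (nat_lit 71) (nat_lit 5) (nat_lit 75) (nat_lit 5) (nat_lit 72) (nat_lit 5) (nat_lit 347) (nat_lit 299) (nat_lit 254)) (XT.lf (nat_lit 0) (nat_lit 4969556149) (nat_lit 152) (nat_lit 2409555729) (nat_lit 228) (nat_lit 9678101288) (nat_lit 69) (nat_lit 5) (nat_lit 71) (nat_lit 5) (nat_lit 72) (nat_lit 5) (nat_lit 348) (nat_lit 299) (nat_lit 253))))) (XT.nd (nat_lit 234) (nat_lit 380) (nat_lit 0) (XT.nd (nat_lit 78) (nat_lit 380) (nat_lit 0) (XT.lf (nat_lit 0) (nat_lit 3815900425) (nat_lit 228) (nat_lit 11086070548) (nat_lit 304) (nat_lit 2720697347) (nat_lit 66) (nat_lit 5) (nat_lit 69) (nat_lit 5) (nat_lit 70) (nat_lit 5) (nat_lit 349) (nat_lit 299) (nat_lit 252)) (XT.nd (nat_lit 78) (nat_lit 152) (nat_lit 0) (XT.lf (nat_lit 0)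 (nat_lit 2393799285) (nat_lit 152) (nat_lit 2194222030) (nat_lit 228) (nat_lit 13624281062) (nat_lit 63) (nat_lit 5) (nat_lit 65) (nat_lit 5) (nat_lit 66) (nat_lit 5) (nat_lit 350) (nat_lit 299) (nat_lit 251)) (XT.lf (nat_lit 0) (nat_lit 645119211) (nat_lit 152) (nat_lit 11701600315) (nat_lit 228) (nat_lit 6479680813) (nat_lit 61) (nat_lit 5) (nat_lit 63) (nat_lit 5) (nat_lit 64) (nat_lit 5) (nat_lit 351) (nat_lit 299) (nat_lit 250)))) (XT.nd (nat_lit 78) (nat_lit 304) (nat_lit 0) (XT.lf (nat_lit 0) (nat_lit 1112385986) (nat_lit 228) (nat_lit 1370771716) (nat_lit 76) (nat_lit 16984458839) (nat_lit 60) (nat_lit 5) (nat_lit 63) (nat_lit 5) (nat_lit 61) (nat_lit 5) (nat_lit 352) (nat_lit 299) (nat_lit 249)) (XT.nd (nat_lit 78) (nat_lit 152) (nat_lit 0) (XT.lf (nat_lit 0) (nat_lit 9107103018) (nat_lit 228) (nat_lit 3799217883) (nat_lit 76) (nat_lit 7227949230) (nat_lit 58) (nat_lit 5) (nat_lit 61)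 (nat_lit 5) (nat_lit 59) (nat_lit 5) (nat_lit 353) (nat_lit 299) (nat_lit 248)) (XT.lf (nat_lit 0) (nat_lit 14248842537) (nat_lit 152) (nat_lit 3357991694) (nat_lit 228) (nat_lit 3224276137) (nat_lit 56) (nat_lit 5) (nat_lit 58) (nat_lit 5) (nat_lit 59) (nat_lit 5) (nat_lit 354) (nat_lit 299) (nat_lit 247))))))) (XT.nd (nat_lit 936) (nat_lit 836) (nat_lit 0) (XT.nd (nat_lit 468) (nat_lit 760) (nat_lit 0) (XT.nd (nat_lit 234) (nat_lit 380) (nat_lit 0) (XT.nd (nat_lit 78) (nat_lit 304) (nat_lit 0) (XT.lf (nat_lit 0) (nat_lit 5020579679) (nat_lit 228) (nat_lit 9848513657) (nat_lit 76) (nat_lit 6687814425) (nat_lit 53) (nat_lit 5) (nat_lit 56) (nat_lit 5) (nat_lit 54) (nat_lit 5) (nat_lit 355) (nat_lit 299) (nat_lit 246)) (XT.nd (nat_lit 78) (nat_lit 152) (nat_lit 0) (XT.lf (nat_lit 0) (nat_lit 8716353813) (nat_lit 152) (nat_lit 5013551241) (nat_lit 228) (nat_lit 8584575818) (nat_lit 51) (nat_lit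 5) (nat_lit 53) (nat_lit 5) (nat_lit 54) (nat_lit 5) (nat_lit 356) (nat_lit 299) (nat_lit 245)) (XT.lf (nat_lit 0) (nat_lit 5239509205) (nat_lit 152) (nat_lit 17773005186) (nat_lit 228) (nat_lit 93294046) (nat_lit 49) (nat_lit 5) (nat_lit 51) (nat_lit 5) (nat_lit 52) (nat_lit 4) (nat_lit 357) (nat_lit 299) (nat_lit 244)))) (XT.nd (nat_lit 78) (nat_lit 152) (nat_lit 0) (XT.lf (nat_lit 0) (nat_lit 1139402856) (nat_lit 152) (nat_lit 7649095794) (nat_lit 228) (nat_lit 15141525852) (nat_lit 46) (nat_lit 5) (nat_lit 48) (nat_lit 5) (nat_lit 49) (nat_lit 5) (nat_lit 358) (nat_lit 299) (nat_lit 243)) (XT.nd (nat_lit 78) (nat_lit 152) (nat_lit 0) (XT.lf (nat_lit 0) (nat_lit 18263558482) (nat_lit 228) (nat_lit 3467390016) (nat_lit 76) (nat_lit 3059951048) (nat_lit 46) (nat_lit 5) (nat_lit 49) (nat_lit 5) (nat_lit 47) (nat_lit 4) (nat_lit 359) (nat_lit 299) (nat_lit 242)) (XT.lf (nat_lit 0) (nat_lit 2650206850)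 (nat_lit 152) (nat_lit 8748847136) (nat_lit 76) (nat_lit 14289593347) (nat_lit 44) (nat_lit 5) (nat_lit 46) (nat_lit 5) (nat_lit 45) (nat_lit 5) (nat_lit 360) (nat_lit 299) (nat_lit 241))))) (XT.nd (nat_lit 234) (nat_lit 456) (nat_lit 0) (XT.nd (nat_lit 78) (nat_lit 152) (nat_lit 0) (XT.lf (nat_lit 0) (nat_lit 11867575264) (nat_lit 152) (nat_lit 376414979) (nat_lit 228) (nat_lit 14382590859) (nat_lit 42) (nat_lit 5) (nat_lit 44) (nat_lit 5) (nat_lit 45) (nat_lit 5) (nat_lit 361) (nat_lit 299) (nat_lit 240)) (XT.nd (nat_lit 78) (nat_lit 76) (nat_lit 0) (XT.lf (nat_lit 0) (nat_lit 5991768649) (nat_lit 76) (nat_lit 16524208872) (nat_lit 152) (nat_lit 5089486224) (nat_lit 41) (nat_lit 5) (nat_lit 42) (nat_lit 5) (nat_lit 43) (nat_lit 4) (nat_lit 362) (nat_lit 299) (nat_lit 239)) (XT.lf (nat_lit 0) (nat_lit 4677942175) (nat_lit 152) (nat_lit 694072897) (nat_lit 76) (nat_lit 23256913373) (nat_lit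 40) (nat_lit 5) (nat_lit 42) (nat_lit 5) (nat_lit 41) (nat_lit 5) (nat_lit 363) (nat_lit 299) (nat_lit 238)))) (XT.nd (nat_lit 78) (nat_lit 304) (nat_lit 0) (XT.lf (nat_lit 0) (nat_lit 15045802446) (nat_lit 228) (nat_lit 8218691624) (nat_lit 76) (nat_lit 6431047735) (nat_lit 38) (nat_lit 5) (nat_lit 41) (nat_lit 5) (nat_lit 39) (nat_lit 4) (nat_lit 364) (nat_lit 299) (nat_lit 237)) (XT.nd (nat_lit 78) (nat_lit 228) (nat_lit 0) (XT.lf (nat_lit 0) (nat_lit 14078943268) (nat_lit 76) (nat_lit 11997321165) (nat_lit 152) (nat_lit 4734901537) (nat_lit 37) (nat_lit 5) (nat_lit 38) (nat_lit 5) (nat_lit 39) (nat_lit 4) (nat_lit 365) (nat_lit 299) (nat_lit 236)) (XT.lf (nat_lit 0) (nat_lit 5642588233) (nat_lit 152) (nat_lit 10541781) (nat_lit 228) (nat_lit 26325164360) (nat_lit 34) (nat_lit 5) (nat_lit 36) (nat_lit 5) (nat_lit 37) (nat_lit 5) (nat_lit 366) (nat_lit 299) (nat_lit 235)))))) (XT.nd (nat_lit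 468) (nat_lit 304) (nat_lit 0) (XT.nd (nat_lit 234) (nat_lit 228) (nat_lit 0) (XT.nd (nat_lit 78) (nat_lit 304) (nat_lit 0) (XT.lf (nat_lit 0) (nat_lit 16708055838) (nat_lit 228) (nat_lit 3976855838) (nat_lit 76) (nat_lit 12510104219) (nat_lit 34) (nat_lit 5) (nat_lit 37) (nat_lit 5) (nat_lit 35) (nat_lit 4) (nat_lit 367) (nat_lit 299) (nat_lit 234)) (XT.nd (nat_lit 78) (nat_lit 228) (nat_lit 0) (XT.lf (nat_lit 0) (nat_lit 19796942248) (nat_lit 76) (nat_lit 8661263321) (nat_lit 152) (nat_lit 6010098961) (nat_lit 33) (nat_lit 5) (nat_lit 34) (nat_lit 5) (nat_lit 35) (nat_lit 4) (nat_lit 368) (nat_lit 299) (nat_lit 233)) (XT.lf (nat_lit 0) (nat_lit 5014357209) (nat_lit 228) (nat_lit 26761106068) (nat_lit 76) (nat_lit 4024725996) (nat_lit 30) (nat_lit 5) (nat_lit 33) (nat_lit 5) (nat_lit 31) (nat_lit 4) (nat_lit 369) (nat_lit 299) (nat_lit 232)))) (XT.nd (nat_lit 78) (nat_lit 228) (nat_lit 0) (XT.lf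 (nat_lit 0) (nat_lit 16660930665) (nat_lit 228) (nat_lit 3188135400) (nat_lit 76) (nat_lit 17341965960) (nat_lit 30) (nat_lit 5) (nat_lit 33) (nat_lit 5) (nat_lit 31) (nat_lit 4) (nat_lit 370) (nat_lit 299) (nat_lit 231)) (XT.nd (nat_lit 78) (nat_lit 152) (nat_lit 0) (XT.lf (nat_lit 0) (nat_lit 21909045964) (nat_lit 76) (nat_lit 7147668834) (nat_lit 152) (nat_lit 9589700158) (nat_lit 29) (nat_lit 5) (nat_lit 30) (nat_lit 5) (nat_lit 31) (nat_lit 4) (nat_lit 371) (nat_lit 299) (nat_lit 230)) (XT.lf (nat_lit 0) (nat_lit 1990396018) (nat_lit 152) (nat_lit 32016962340) (nat_lit 76) (nat_lit 6162774387) (nat_lit 27) (nat_lit 5) (nat_lit 29) (nat_lit 5) (nat_lit 28) (nat_lit 4) (nat_lit 372) (nat_lit 299) (nat_lit 229))))) (XT.nd (nat_lit 234) (nat_lit 152) (nat_lit 0) (XT.nd (nat_lit 78) (nat_lit 152) (nat_lit 0) (XT.lf (nat_lit 0) (nat_lit 14157263984) (nat_lit 152) (nat_lit 7376570037) (nat_lit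 76) (nat_lit 20227175037) (nat_lit 27) (nat_lit 5) (nat_lit 29) (nat_lit 5) (nat_lit 28) (nat_lit 4) (nat_lit 373) (nat_lit 299) (nat_lit 228)) (XT.nd (nat_lit 78) (nat_lit 76) (nat_lit 0) (XT.lf (nat_lit 0) (nat_lit 18787150822) (nat_lit 76) (nat_lit 8286020538) (nat_lit 152) (nat_lit 16354040723) (nat_lit 26) (nat_lit 5) (nat_lit 27) (nat_lit 5) (nat_lit 28) (nat_lit 4) (nat_lit 374) (nat_lit 299) (nat_lit 227)) (XT.lf (nat_lit 0) (nat_lit 1132063573) (nat_lit 76) (nat_lit 39605411065) (nat_lit 76) (nat_lit 4436176200) (nat_lit 25) (nat_lit 4) (nat_lit 26) (nat_lit 5) (nat_lit 26) (nat_lit 4) (nat_lit 375) (nat_lit 299) (nat_lit 226)))) (XT.nd (nat_lit 78) (nat_lit 76) (nat_lit 0) (XT.lf (nat_lit 0) (nat_lit 8221508675) (nat_lit 152) (nat_lit 18528508794) (nat_lit 76) (nat_lit 20246021488) (nat_lit 24) (nat_lit 5) (nat_lit 26) (nat_lit 5) (nat_lit 25) (nat_lit 4) (nat_lit 376) (nat_lit 299)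 (nat_lit 225)) (XT.nd (nat_lit 78) (nat_lit 0) (nat_lit 0) (XT.lf (nat_lit 0) (nat_lit 8308417905) (nat_lit 76) (nat_lit 13156210440) (nat_lit 152) (nat_lit 27442274704) (nat_lit 23) (nat_lit 5) (nat_lit 24) (nat_lit 5) (nat_lit 25) (nat_lit 4) (nat_lit 377) (nat_lit 299) (nat_lit 224)) (XT.lf (nat_lit 0) (nat_lit 35537628690) (nat_lit 152) (nat_lit 14113766496) (nat_lit 0) (nat_lit 1256886434) (nat_lit 23) (nat_lit 5) (nat_lit 25) (nat_lit 4) (nat_lit 23) (nat_lit 4) (nat_lit 378) (nat_lit 299) (nat_lit 223))))))))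
noncomputable def xc48 : XT := (XT.nd (nat_lit 41262) (nat_lit 0) (nat_lit 9880) (XT.nd (nat_lit 858) (nat_lit 304) (nat_lit 0) (XT.nd (nat_lit 390) (nat_lit 304) (nat_lit 0) (XT.nd (nat_lit 156) (nat_lit 152) (nat_lit 0) (XT.nd (nat_lit 78) (nat_lit 76) (nat_lit 0) (XT.lf (nat_lit 0) (nat_lit 13766332898) (nat_lit 76) (nat_lit 36779123990) (nat_lit 76) (nat_lit 2457339768) (nat_lit 22) (nat_lit 4) (nat_lit 23) (nat_lit 5) (nat_lit 23) (nat_lit 4) (nat_lit 379) (nat_lit 299) (nat_lit 222)) (XT.lf (nat_lit 0) (nat_lit 10998475429) (nat_lit 152) (nat_lit 12033966686) (nat_lit 76) (nat_lit 32162992429) (nat_lit 21) (nat_lit 5) (nat_lit 23) (nat_lit 5) (nat_lit 22) (nat_lit 4) (nat_lit 380) (nat_lit 299) (nat_lit 221))) (XT.nd (nat_lit 78) (nat_lit 76) (nat_lit 0) (XT.lf (nat_lit 0) (nat_lit 16770625032) (nat_lit 76) (nat_lit 8435642511) (nat_lit 152) (nat_lit 32286809179) (nat_lit 20) (nat_lit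 5) (nat_lit 21) (nat_lit 5) (nat_lit 22) (nat_lit 4) (nat_lit 381) (nat_lit 299) (nat_lit 220)) (XT.nd (nat_lit 78) (nat_lit 76) (nat_lit 0) (XT.lf (nat_lit 0) (nat_lit 40284795345) (nat_lit 152) (nat_lit 12761835039) (nat_lit 0) (nat_lit 6854162650) (nat_lit 20) (nat_lit 5) (nat_lit 22) (nat_lit 4) (nat_lit 20) (nat_lit 4) (nat_lit 382) (nat_lit 299) (nat_lit 219)) (XT.lf (nat_lit 0) (nat_lit 16782582625) (nat_lit 76) (nat_lit 39551610543) (nat_lit 76) (nat_lit 6088195978) (nat_lit 19) (nat_lit 4) (nat_lit 20) (nat_lit 5) (nat_lit 20) (nat_lit 4) (nat_lit 383) (nat_lit 299) (nat_lit 218))))) (XT.nd (nat_lit 234) (nat_lit 152) (nat_lit 0) (XT.nd (nat_lit 78) (nat_lit 76) (nat_lit 0) (XT.lf (nat_lit 0) (nat_lit 8061364127) (nat_lit 152) (nat_lit 17130066215) (nat_lit 76) (nat_lit 39873184147) (nat_lit 18) (nat_lit 5) (nat_lit 20) (nat_lit 5) (nat_lit 19) (nat_lit 4) (nat_lit 384) (nat_lit 299)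 (nat_lit 217)) (XT.nd (nat_lit 78) (nat_lit 0) (nat_lit 0) (XT.lf (nat_lit 0) (nat_lit 12943396451) (nat_lit 76) (nat_lit 9947128656) (nat_lit 152) (nat_lit 44943678553) (nat_lit 17) (nat_lit 5) (nat_lit 18) (nat_lit 5) (nat_lit 19) (nat_lit 4) (nat_lit 385) (nat_lit 299) (nat_lit 216)) (XT.lf (nat_lit 0) (nat_lit 38670502800) (nat_lit 152) (nat_lit 25970412834) (nat_lit 0) (nat_lit 6095077819) (nat_lit 17) (nat_lit 5) (nat_lit 19) (nat_lit 4) (nat_lit 17) (nat_lit 4) (nat_lit 386) (nat_lit 299) (nat_lit 215)))) (XT.nd (nat_lit 78) (nat_lit 76) (nat_lit 0) (XT.lf (nat_lit 0) (nat_lit 4330643707) (nat_lit 76) (nat_lit 51025174932) (nat_lit 76) (nat_lit 18423565750) (nat_lit 16) (nat_lit 4) (nat_lit 17) (nat_lit 5) (nat_lit 17) (nat_lit 4) (nat_lit 387) (nat_lit 299) (nat_lit 214)) (XT.nd (nat_lit 78) (nat_lit 76) (nat_lit 0) (XT.lf (nat_lit 0) (nat_lit 36641411004) (nat_lit 76) (nat_lit 36476404831)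 (nat_lit 76) (nat_lit 3849858316) (nat_lit 16) (nat_lit 4) (nat_lit 17) (nat_lit 5) (nat_lit 17) (nat_lit 4) (nat_lit 388) (nat_lit 299) (nat_lit 213)) (XT.lf (nat_lit 0) (nat_lit 11205077689) (nat_lit 152) (nat_lit 9903988646) (nat_lit 76) (nat_lit 59203730312) (nat_lit 15) (nat_lit 5) (nat_lit 17) (nat_lit 5) (nat_lit 16) (nat_lit 4) (nat_lit 389) (nat_lit 299) (nat_lit 212)))))) (XT.nd (nat_lit 39936) (nat_lit 0) (nat_lit 26448) (XT.nd (nat_lit 234) (nat_lit 152) (nat_lit 0) (XT.nd (nat_lit 78) (nat_lit 76) (nat_lit 0) (XT.lf (nat_lit 0) (nat_lit 22393483213) (nat_lit 76) (nat_lit 4732821450) (nat_lit 152) (nat_lit 56691933667) (nat_lit 14) (nat_lit 5) (nat_lit 15) (nat_lit 5) (nat_lit 16) (nat_lit 4) (nat_lit 390) (nat_lit 299) (nat_lit 211)) (XT.nd (nat_lit 78) (nat_lit 76) (nat_lit 0) (XT.lf (nat_lit 0) (nat_lit 44043993053) (nat_lit 152) (nat_lit 31147146770) (nat_lit 0) (nat_lit 12301801733)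 (nat_lit 14) (nat_lit 5) (nat_lit 16) (nat_lit 4) (nat_lit 14) (nat_lit 4) (nat_lit 391) (nat_lit 299) (nat_lit 210)) (XT.lf (nat_lit 0) (nat_lit 566442877) (nat_lit 76) (nat_lit 61273045282) (nat_lit 76) (nat_lit 29510935510) (nat_lit 13) (nat_lit 4) (nat_lit 14) (nat_lit 5) (nat_lit 14) (nat_lit 4) (nat_lit 392) (nat_lit 299) (nat_lit 209)))) (XT.nd (nat_lit 156) (nat_lit 152) (nat_lit 0) (XT.lf (nat_lit 0) (nat_lit 34476593323) (nat_lit 76) (nat_lit 46348134266) (nat_lit 76) (nat_lit 14567054539) (nat_lit 13) (nat_lit 4) (nat_lit 14) (nat_lit 5) (nat_lit 14) (nat_lit 4) (nat_lit 393) (nat_lit 299) (nat_lit 208)) (XT.nd (nat_lit 39468) (nat_lit 0) (nat_lit 27968) (XT.lf (nat_lit 0) (nat_lit 3154182126) (nat_lit 76) (nat_lit 14072682300) (nat_lit 152) (nat_lit 86859750680) (nat_lit 11) (nat_lit 5) (nat_lit 12) (nat_lit 5) (nat_lit 13) (nat_lit 4) (nat_lit 395) (nat_lit 299) (nat_lit 206)) (XT.lf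 (nat_lit 0) (nat_lit 1073741823) (nat_lit 0) (nat_lit 0) (nat_lit 0) (nat_lit 0) (nat_lit 379) (nat_lit 0) (nat_lit 1) (nat_lit 0) (nat_lit 1) (nat_lit 0) (nat_lit 300) (nat_lit 300) (nat_lit 300))))) (XT.nd (nat_lit 234) (nat_lit 1064) (nat_lit 0) (XT.nd (nat_lit 78) (nat_lit 380) (nat_lit 0) (XT.lf (nat_lit 0) (nat_lit 5077316378) (nat_lit 76) (nat_lit 1235739124) (nat_lit 0) (nat_lit 132990931) (nat_lit 378) (nat_lit 5) (nat_lit 379) (nat_lit 0) (nat_lit 378) (nat_lit 4) (nat_lit 301) (nat_lit 300) (nat_lit 299)) (XT.nd (nat_lit 78) (nat_lit 228) (nat_lit 0) (XT.lf (nat_lit 0) (nat_lit 3594708033) (nat_lit 152) (nat_lit 2355949516) (nat_lit 76) (nat_lit 506944009) (nat_lit 376) (nat_lit 5) (nat_lit 378) (nat_lit 5) (nat_lit 377) (nat_lit 4) (nat_lit 302) (nat_lit 300) (nat_lit 298)) (XT.lf (nat_lit 0) (nat_lit 1990931507) (nat_lit 228) (nat_lit 3363291989) (nat_lit 76) (nat_lit 1122915361)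 (nat_lit 373) (nat_lit 5) (nat_lit 376) (nat_lit 5) (nat_lit 374) (nat_lit 5) (nat_lit 303) (nat_lit 300) (nat_lit 297)))) (XT.nd (nat_lit 78) (nat_lit 760) (nat_lit 0) (XT.lf (nat_lit 0) (nat_lit 261941471) (nat_lit 304) (nat_lit 4260107911) (nat_lit 76) (nat_lit 1982647194) (nat_lit 369) (nat_lit 5) (nat_lit 373) (nat_lit 5) (nat_lit 370) (nat_lit 5) (nat_lit 304) (nat_lit 300) (nat_lit 296)) (XT.nd (nat_lit 78) (nat_lit 456) (nat_lit 0) (XT.lf (nat_lit 0) (nat_lit 1475778860) (nat_lit 304) (nat_lit 3435633894) (nat_lit 380) (nat_lit 1628446415) (nat_lit 365) (nat_lit 5) (nat_lit 369) (nat_lit 5) (nat_lit 370) (nat_lit 5) (nat_lit 305) (nat_lit 300) (nat_lit 295)) (XT.lf (nat_lit 0) (nat_lit 817884083) (nat_lit 380) (nat_lit 2104040525) (nat_lit 456) (nat_lit 3661125071) (nat_lit 359) (nat_lit 5) (nat_lit 364) (nat_lit 5) (nat_lit 365) (nat_lit 5) (nat_lit 306) (nat_lit 300) (nat_lit 294)))))))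 (XT.nd (nat_lit 936) (nat_lit 6840) (nat_lit 0) (XT.nd (nat_lit 468) (nat_lit 6384) (nat_lit 0) (XT.nd (nat_lit 234) (nat_lit 2204) (nat_lit 0) (XT.nd (nat_lit 78) (nat_lit 608) (nat_lit 0) (XT.lf (nat_lit 0) (nat_lit 272157859) (nat_lit 456) (nat_lit 526118676) (nat_lit 532) (nat_lit 5836153239) (nat_lit 352) (nat_lit 5) (nat_lit 358) (nat_lit 5) (nat_lit 359) (nat_lit 5) (nat_lit 307) (nat_lit 300) (nat_lit 293)) (XT.nd (nat_lit 78) (nat_lit 608) (nat_lit 0) (XT.lf (nat_lit 0) (nat_lit 5213624846) (nat_lit 532) (nat_lit 186343073) (nat_lit 76) (nat_lit 1293274712) (nat_lit 352) (nat_lit 5) (nat_lit 359) (nat_lit 5) (nat_lit 353) (nat_lit 5) (nat_lit 308) (nat_lit 300) (nat_lit 292)) (XT.lf (nat_lit 0) (nat_lit 2847323496) (nat_lit 608) (nat_lit 548254362) (nat_lit 76) (nat_lit 3364332826) (nat_lit 344) (nat_lit 5) (nat_lit 352) (nat_lit 5) (nat_lit 345) (nat_lit 5) (nat_lit 309) (nat_lit 300)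 (nat_lit 291)))) (XT.nd (nat_lit 78) (nat_lit 1520) (nat_lit 0) (XT.lf (nat_lit 0) (nat_lit 335827809) (nat_lit 684) (nat_lit 806527243) (nat_lit 76) (nat_lit 5692676632) (nat_lit 335) (nat_lit 5) (nat_lit 344) (nat_lit 5) (nat_lit 336) (nat_lit 5) (nat_lit 310) (nat_lit 300) (nat_lit 290)) (XT.nd (nat_lit 78) (nat_lit 836) (nat_lit 0) (XT.lf (nat_lit 0) (nat_lit 4557465500) (nat_lit 760) (nat_lit 997667401) (nat_lit 76) (nat_lit 1362534733) (nat_lit 326) (nat_lit 5) (nat_lit 336) (nat_lit 5) (nat_lit 327) (nat_lit 5) (nat_lit 311) (nat_lit 300) (nat_lit 289)) (XT.lf (nat_lit 0) (nat_lit 1797200859) (nat_lit 836) (nat_lit 1103959307) (nat_lit 76) (nat_lit 4107356209) (nat_lit 315) (nat_lit 5) (nat_lit 326) (nat_lit 5) (nat_lit 316) (nat_lit 5) (nat_lit 312) (nat_lit 300) (nat_lit 288))))) (XT.nd (nat_lit 234) (nat_lit 3572) (nat_lit 0) (XT.nd (nat_lit 78) (nat_lit 1976) (nat_lit 0) (XT.lf (nat_lit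 0) (nat_lit 5963992142) (nat_lit 912) (nat_lit 1122249985) (nat_lit 76) (nat_lit 21606501) (nat_lit 304) (nat_lit 5) (nat_lit 316) (nat_lit 5) (nat_lit 305) (nat_lit 5) (nat_lit 313) (nat_lit 300) (nat_lit 287)) (XT.nd (nat_lit 78) (nat_lit 988) (nat_lit 0) (XT.lf (nat_lit 0) (nat_lit 2955514983) (nat_lit 988) (nat_lit 1090915543) (nat_lit 76) (nat_lit 3168269063) (nat_lit 291) (nat_lit 5) (nat_lit 304) (nat_lit 5) (nat_lit 292) (nat_lit 5) (nat_lit 314) (nat_lit 300) (nat_lit 286)) (XT.lf (nat_lit 0) (nat_lit 6364534938) (nat_lit 988) (nat_lit 741773426) (nat_lit 1064) (nat_lit 224275569) (nat_lit 278) (nat_lit 5) (nat_lit 291) (nat_lit 5) (nat_lit 292) (nat_lit 5) (nat_lit 315) (nat_lit 300) (nat_lit 285)))) (XT.nd (nat_lit 78) (nat_lit 2432) (nat_lit 0) (XT.lf (nat_lit 0) (nat_lit 3840185576) (nat_lit 1140) (nat_lit 803138798) (nat_lit 76) (nat_lit 2810721762) (nat_lit 263) (nat_lit 5) (nat_lit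 278) (nat_lit 5) (nat_lit 264) (nat_lit 5) (nat_lit 316) (nat_lit 300) (nat_lit 284)) (XT.nd (nat_lit 78) (nat_lit 1216) (nat_lit 0) (XT.lf (nat_lit 0) (nat_lit 404454331) (nat_lit 1216) (nat_lit 554771329) (nat_lit 76) (nat_lit 6627504481) (nat_lit 247) (nat_lit 5) (nat_lit 263) (nat_lit 5) (nat_lit 248) (nat_lit 5) (nat_lit 317) (nat_lit 300) (nat_lit 283)) (XT.lf (nat_lit 0) (nat_lit 4475479896) (nat_lit 1292) (nat_lit 273705940) (nat_lit 76) (nat_lit 2978102058) (nat_lit 231) (nat_lit 5) (nat_lit 248) (nat_lit 5) (nat_lit 232) (nat_lit 5) (nat_lit 318) (nat_lit 300) (nat_lit 282)))))) (XT.nd (nat_lit 468) (nat_lit 2736) (nat_lit 0) (XT.nd (nat_lit 234) (nat_lit 1596) (nat_lit 0) (XT.nd (nat_lit 78) (nat_lit 1216) (nat_lit 0) (XT.lf (nat_lit 0) (nat_lit 85554018) (nat_lit 608) (nat_lit 688006409) (nat_lit 684) (nat_lit 7103697874) (nat_lit 214) (nat_lit 5) (nat_lit 222) (nat_lit 5) (nat_lit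 223) (nat_lit 5) (nat_lit 319) (nat_lit 300) (nat_lit 281)) (XT.nd (nat_lit 78) (nat_lit 608) (nat_lit 0) (XT.lf (nat_lit 0) (nat_lit 475361399) (nat_lit 608) (nat_lit 4410009552) (nat_lit 684) (nat_lit 3149913621) (nat_lit 206) (nat_lit 5) (nat_lit 214) (nat_lit 5) (nat_lit 215) (nat_lit 5) (nat_lit 320) (nat_lit 300) (nat_lit 280)) (XT.lf (nat_lit 0) (nat_lit 910813724) (nat_lit 608) (nat_lit 7264081158) (nat_lit 76) (nat_lit 28253281) (nat_lit 198) (nat_lit 5) (nat_lit 206) (nat_lit 5) (nat_lit 199) (nat_lit 5) (nat_lit 321) (nat_lit 300) (nat_lit 279)))) (XT.nd (nat_lit 78) (nat_lit 1064) (nat_lit 0) (XT.lf (nat_lit 0) (nat_lit 1413399475) (nat_lit 532) (nat_lit 3671066225) (nat_lit 608) (nat_lit 3294837162) (nat_lit 191) (nat_lit 5) (nat_lit 198) (nat_lit 5) (nat_lit 199) (nat_lit 5) (nat_lit 322) (nat_lit 300) (nat_lit 278)) (XT.nd (nat_lit 78) (nat_lit 532) (nat_lit 0) (XT.lf (nat_lit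 0) (nat_lit 832457916) (nat_lit 532) (nat_lit 6612580568) (nat_lit 76) (nat_lit 1120618674) (nat_lit 184) (nat_lit 5) (nat_lit 191) (nat_lit 5) (nat_lit 185) (nat_lit 5) (nat_lit 323) (nat_lit 300) (nat_lit 277)) (XT.lf (nat_lit 0) (nat_lit 2503890693) (nat_lit 532) (nat_lit 2576039772) (nat_lit 608) (nat_lit 3681035841) (nat_lit 177) (nat_lit 5) (nat_lit 184) (nat_lit 5) (nat_lit 185) (nat_lit 5) (nat_lit 324) (nat_lit 300) (nat_lit 276))))) (XT.nd (nat_lit 234) (nat_lit 1292) (nat_lit 0) (XT.nd (nat_lit 78) (nat_lit 912) (nat_lit 0) (XT.lf (nat_lit 0) (nat_lit 538350753) (nat_lit 532) (nat_lit 5863580273) (nat_lit 76) (nat_lit 2564738953) (nat_lit 170) (nat_lit 5) (nat_lit 177) (nat_lit 5) (nat_lit 171) (nat_lit 5) (nat_lit 325) (nat_lit 300) (nat_lit 275)) (XT.nd (nat_lit 78) (nat_lit 456) (nat_lit 0) (XT.lf (nat_lit 0) (nat_lit 3714714072) (nat_lit 456) (nat_lit 1162308005) (nat_lit 532)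 (nat_lit 4305075599) (nat_lit 164) (nat_lit 5) (nat_lit 170) (nat_lit 5) (nat_lit 171) (nat_lit 5) (nat_lit 326) (nat_lit 300) (nat_lit 274)) (XT.lf (nat_lit 0) (nat_lit 30247319) (nat_lit 456) (nat_lit 5051928101) (nat_lit 76) (nat_lit 4325983187) (nat_lit 158) (nat_lit 5) (nat_lit 164) (nat_lit 5) (nat_lit 159) (nat_lit 5) (nat_lit 327) (nat_lit 300) (nat_lit 273)))) (XT.nd (nat_lit 78) (nat_lit 836) (nat_lit 0) (XT.lf (nat_lit 0) (nat_lit 4481437719) (nat_lit 532) (nat_lit 4638340036) (nat_lit 76) (nat_lit 524879723) (nat_lit 152) (nat_lit 5) (nat_lit 159) (nat_lit 5) (nat_lit 153) (nat_lit 5) (nat_lit 328) (nat_lit 300) (nat_lit 272)) (XT.nd (nat_lit 78) (nat_lit 456) (nat_lit 0) (XT.lf (nat_lit 0) (nat_lit 5669910747) (nat_lit 380) (nat_lit 3513459717) (nat_lit 456) (nat_lit 708820329) (nat_lit 147) (nat_lit 5) (nat_lit 152) (nat_lit 5) (nat_lit 153) (nat_lit 5) (nat_lit 329) (nat_lit 300)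 (nat_lit 271)) (XT.lf (nat_lit 0) (nat_lit 3897240685) (nat_lit 456) (nat_lit 3818373124) (nat_lit 76) (nat_lit 2435202114) (nat_lit 141) (nat_lit 5) (nat_lit 147) (nat_lit 5) (nat_lit 142) (nat_lit 5) (nat_lit 330) (nat_lit 300) (nat_lit 270))))))))
noncomputable def xc49 : XT := (XT.nd (nat_lit 1872) (nat_lit 2660) (nat_lit 0) (XT.nd (nat_lit 936) (nat_lit 2432) (nat_lit 0) (XT.nd (nat_lit 468) (nat_lit 1748) (nat_lit 0) (XT.nd (nat_lit 234) (nat_lit 1064) (nat_lit 0) (XT.nd (nat_lit 78) (nat_lit 760) (nat_lit 0) (XT.lf (nat_lit 0) (nat_lit 7009059600) (nat_lit 304) (nat_lit 1734003229) (nat_lit 380) (nat_lit 1678423833) (nat_lit 137) (nat_lit 5) (nat_lit 141) (nat_lit 5) (nat_lit 142) (nat_lit 5) (nat_lit 331) (nat_lit 300) (nat_lit 269)) (XT.nd (nat_lit 78) (nat_lit 304) (nat_lit 0) (XT.lf (nat_lit 0) (nat_lit 3103312103) (nat_lit 456) (nat_lit 3040953093) (nat_lit 76) (nat_lit 4559404699)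 (nat_lit 131) (nat_lit 5) (nat_lit 137) (nat_lit 5) (nat_lit 132) (nat_lit 5) (nat_lit 332) (nat_lit 300) (nat_lit 268)) (XT.lf (nat_lit 0) (nat_lit 8108980626) (nat_lit 380) (nat_lit 2672112852) (nat_lit 76) (nat_lit 217826164) (nat_lit 127) (nat_lit 5) (nat_lit 132) (nat_lit 5) (nat_lit 128) (nat_lit 5) (nat_lit 333) (nat_lit 300) (nat_lit 267)))) (XT.nd (nat_lit 78) (nat_lit 684) (nat_lit 0) (XT.lf (nat_lit 0) (nat_lit 2083982043) (nat_lit 380) (nat_lit 2357196859) (nat_lit 76) (nat_lit 6865156457) (nat_lit 122) (nat_lit 5) (nat_lit 127) (nat_lit 5) (nat_lit 123) (nat_lit 5) (nat_lit 334) (nat_lit 300) (nat_lit 266)) (XT.nd (nat_lit 78) (nat_lit 380) (nat_lit 0) (XT.lf (nat_lit 0) (nat_lit 7279889074) (nat_lit 380) (nat_lit 2072475243) (nat_lit 76) (nat_lit 2274944949) (nat_lit 118) (nat_lit 5) (nat_lit 123) (nat_lit 5) (nat_lit 119) (nat_lit 5) (nat_lit 335) (nat_lit 300) (nat_lit 265))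 (XT.lf (nat_lit 0) (nat_lit 817245458) (nat_lit 380) (nat_lit 1826408864) (nat_lit 76) (nat_lit 9318658772) (nat_lit 113) (nat_lit 5) (nat_lit 118) (nat_lit 5) (nat_lit 114) (nat_lit 5) (nat_lit 336) (nat_lit 300) (nat_lit 264))))) (XT.nd (nat_lit 234) (nat_lit 836) (nat_lit 0) (XT.nd (nat_lit 78) (nat_lit 608) (nat_lit 0) (XT.lf (nat_lit 0) (nat_lit 6215076799) (nat_lit 380) (nat_lit 1660911282) (nat_lit 76) (nat_lit 4434875476) (nat_lit 109) (nat_lit 5) (nat_lit 114) (nat_lit 5) (nat_lit 110) (nat_lit 5) (nat_lit 337) (nat_lit 300) (nat_lit 263)) (XT.nd (nat_lit 78) (nat_lit 304) (nat_lit 0) (XT.lf (nat_lit 0) (nat_lit 11150144397) (nat_lit 304) (nat_lit 784710621) (nat_lit 380) (nat_lit 740456356) (nat_lit 105) (nat_lit 5) (nat_lit 109) (nat_lit 5) (nat_lit 110) (nat_lit 5) (nat_lit 338) (nat_lit 300) (nat_lit 262)) (XT.lf (nat_lit 0) (nat_lit 4883072296) (nat_lit 304) (nat_lit 1512757416)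 (nat_lit 76) (nat_lit 6657901653) (nat_lit 101) (nat_lit 5) (nat_lit 105) (nat_lit 5) (nat_lit 102) (nat_lit 5) (nat_lit 339) (nat_lit 300) (nat_lit 261)))) (XT.nd (nat_lit 78) (nat_lit 532) (nat_lit 0) (XT.lf (nat_lit 0) (nat_lit 10825776754) (nat_lit 380) (nat_lit 1549856169) (nat_lit 76) (nat_lit 1073647834) (nat_lit 97) (nat_lit 5) (nat_lit 102) (nat_lit 5) (nat_lit 98) (nat_lit 5) (nat_lit 340) (nat_lit 300) (nat_lit 260)) (XT.nd (nat_lit 78) (nat_lit 228) (nat_lit 0) (XT.lf (nat_lit 0) (nat_lit 3243932933) (nat_lit 304) (nat_lit 1717067053) (nat_lit 76) (nat_lit 8899548552) (nat_lit 93) (nat_lit 5) (nat_lit 97) (nat_lit 5) (nat_lit 94) (nat_lit 5) (nat_lit 341) (nat_lit 300) (nat_lit 259)) (XT.lf (nat_lit 0) (nat_lit 9423074788) (nat_lit 304) (nat_lit 1986530160) (nat_lit 76) (nat_lit 2879842187) (nat_lit 90) (nat_lit 5) (nat_lit 94) (nat_lit 5) (nat_lit 91) (nat_lit 5) (nat_lit 342) (nat_lit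 300) (nat_lit 258)))))) (XT.nd (nat_lit 468) (nat_lit 988) (nat_lit 0) (XT.nd (nat_lit 234) (nat_lit 760) (nat_lit 0) (XT.nd (nat_lit 78) (nat_lit 380) (nat_lit 0) (XT.lf (nat_lit 0) (nat_lit 1247982887) (nat_lit 304) (nat_lit 2379453155) (nat_lit 76) (nat_lit 11109055669) (nat_lit 86) (nat_lit 5) (nat_lit 90) (nat_lit 5) (nat_lit 87) (nat_lit 5) (nat_lit 343) (nat_lit 300) (nat_lit 257)) (XT.nd (nat_lit 78) (nat_lit 152) (nat_lit 0) (XT.lf (nat_lit 0) (nat_lit 7666000719) (nat_lit 304) (nat_lit 2942741750) (nat_lit 76) (nat_lit 4592764429) (nat_lit 83) (nat_lit 5) (nat_lit 87) (nat_lit 5) (nat_lit 84) (nat_lit 5) (nat_lit 344) (nat_lit 300) (nat_lit 256)) (XT.lf (nat_lit 0) (nat_lit 12050168748) (nat_lit 152) (nat_lit 2447927715) (nat_lit 228) (nat_lit 1188901550) (nat_lit 81) (nat_lit 5) (nat_lit 83) (nat_lit 5) (nat_lit 84) (nat_lit 5) (nat_lit 345) (nat_lit 300) (nat_lit 255)))) (XT.nd (nat_lit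 78) (nat_lit 456) (nat_lit 0) (XT.lf (nat_lit 0) (nat_lit 5489387598) (nat_lit 304) (nat_lit 4555332143) (nat_lit 76) (nat_lit 6146848246) (nat_lit 77) (nat_lit 5) (nat_lit 81) (nat_lit 5) (nat_lit 78) (nat_lit 5) (nat_lit 346) (nat_lit 300) (nat_lit 254)) (XT.nd (nat_lit 78) (nat_lit 304) (nat_lit 0) (XT.lf (nat_lit 0) (nat_lit 11074306688) (nat_lit 152) (nat_lit 1491924092) (nat_lit 228) (nat_lit 4152123738) (nat_lit 75) (nat_lit 5) (nat_lit 77) (nat_lit 5) (nat_lit 78) (nat_lit 5) (nat_lit 347) (nat_lit 300) (nat_lit 253)) (XT.lf (nat_lit 0) (nat_lit 2814144308) (nat_lit 304) (nat_lit 6987068724) (nat_lit 76) (nat_lit 7465241316) (nat_lit 71) (nat_lit 5) (nat_lit 75) (nat_lit 5) (nat_lit 72) (nat_lit 5) (nat_lit 348) (nat_lit 300) (nat_lit 252))))) (XT.nd (nat_lit 234) (nat_lit 380) (nat_lit 0) (XT.nd (nat_lit 78) (nat_lit 456) (nat_lit 0) (XT.lf (nat_lit 0) (nat_lit 9270882472) (nat_lit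 152) (nat_lit 859431364) (nat_lit 228) (nat_lit 7707804100) (nat_lit 69) (nat_lit 5) (nat_lit 71) (nat_lit 5) (nat_lit 72) (nat_lit 5) (nat_lit 349) (nat_lit 300) (nat_lit 251)) (XT.nd (nat_lit 78) (nat_lit 228) (nat_lit 0) (XT.lf (nat_lit 0) (nat_lit 7997664634) (nat_lit 228) (nat_lit 9971868729) (nat_lit 304) (nat_lit 464129222) (nat_lit 66) (nat_lit 5) (nat_lit 69) (nat_lit 5) (nat_lit 70) (nat_lit 5) (nat_lit 350) (nat_lit 300) (nat_lit 250)) (XT.lf (nat_lit 0) (nat_lit 6435846835) (nat_lit 152) (nat_lit 653484113) (nat_lit 228) (nat_lit 11964999114) (nat_lit 63) (nat_lit 5) (nat_lit 65) (nat_lit 5) (nat_lit 66) (nat_lit 5) (nat_lit 351) (nat_lit 300) (nat_lit 249)))) (XT.nd (nat_lit 78) (nat_lit 228) (nat_lit 0) (XT.lf (nat_lit 0) (nat_lit 4538510198) (nat_lit 152) (nat_lit 10641492984) (nat_lit 228) (nat_lit 4520829051) (nat_lit 61) (nat_lit 5) (nat_lit 63) (nat_lit 5) (nat_lit 64) (nat_lit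 5) (nat_lit 352) (nat_lit 300) (nat_lit 248)) (XT.nd (nat_lit 78) (nat_lit 0) (nat_lit 0) (XT.lf (nat_lit 0) (nat_lit 2326156761) (nat_lit 152) (nat_lit 995913208) (nat_lit 228) (nat_lit 17053926642) (nat_lit 58) (nat_lit 5) (nat_lit 60) (nat_lit 5) (nat_lit 61) (nat_lit 5) (nat_lit 353) (nat_lit 300) (nat_lit 247)) (XT.lf (nat_lit 0) (nat_lit 11642272518) (nat_lit 228) (nat_lit 328315206) (nat_lit 76) (nat_lit 9107640704) (nat_lit 58) (nat_lit 5) (nat_lit 61) (nat_lit 5) (nat_lit 59) (nat_lit 5) (nat_lit 354) (nat_lit 300) (nat_lit 246))))))) (XT.nd (nat_lit 936) (nat_lit 1064) (nat_lit 0) (XT.nd (nat_lit 468) (nat_lit 684) (nat_lit 0) (XT.nd (nat_lit 234) (nat_lit 380) (nat_lit 0) (XT.nd (nat_lit 78) (nat_lit 380) (nat_lit 0) (XT.lf (nat_lit 0) (nat_lit 18517210315) (nat_lit 152) (nat_lit 1984922930) (nat_lit 228) (nat_lit 1309740322) (nat_lit 56) (nat_lit 5) (nat_lit 58) (nat_lit 5) (nat_lit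 59) (nat_lit 5) (nat_lit 355) (nat_lit 300) (nat_lit 245)) (XT.nd (nat_lit 78) (nat_lit 152) (nat_lit 0) (XT.lf (nat_lit 0) (nat_lit 7258147795) (nat_lit 228) (nat_lit 6802428261) (nat_lit 76) (nat_lit 8514263213) (nat_lit 53) (nat_lit 5) (nat_lit 56) (nat_lit 5) (nat_lit 54) (nat_lit 5) (nat_lit 356) (nat_lit 300) (nat_lit 244)) (XT.lf (nat_lit 0) (nat_lit 12589251872) (nat_lit 152) (nat_lit 3752129783) (nat_lit 228) (nat_lit 7030771241) (nat_lit 51) (nat_lit 5) (nat_lit 53) (nat_lit 5) (nat_lit 54) (nat_lit 5) (nat_lit 357) (nat_lit 300) (nat_lit 243)))) (XT.nd (nat_lit 78) (nat_lit 152) (nat_lit 0) (XT.lf (nat_lit 0) (nat_lit 1802503003) (nat_lit 228) (nat_lit 15339781359) (nat_lit 76) (nat_lit 7061606463) (nat_lit 48) (nat_lit 5) (nat_lit 51) (nat_lit 5) (nat_lit 49) (nat_lit 5) (nat_lit 358) (nat_lit 300) (nat_lit 242)) (XT.nd (nat_lit 78) (nat_lit 0) (nat_lit 0) (XT.lf (nat_lit 0) (nat_lit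 4517262365) (nat_lit 152) (nat_lit 6550726709) (nat_lit 228) (nat_lit 14003068235) (nat_lit 46) (nat_lit 5) (nat_lit 48) (nat_lit 5) (nat_lit 49) (nat_lit 5) (nat_lit 359) (nat_lit 300) (nat_lit 241)) (XT.lf (nat_lit 0) (nat_lit 20942736479) (nat_lit 228) (nat_lit 438737423) (nat_lit 76) (nat_lit 4595736854) (nat_lit 46) (nat_lit 5) (nat_lit 49) (nat_lit 5) (nat_lit 47) (nat_lit 4) (nat_lit 360) (nat_lit 300) (nat_lit 240))))) (XT.nd (nat_lit 234) (nat_lit 304) (nat_lit 0) (XT.nd (nat_lit 78) (nat_lit 228) (nat_lit 0) (XT.lf (nat_lit 0) (nat_lit 4511705025) (nat_lit 152) (nat_lit 6041407830) (nat_lit 76) (nat_lit 16367862569) (nat_lit 44) (nat_lit 5) (nat_lit 46) (nat_lit 5) (nat_lit 45) (nat_lit 5) (nat_lit 361) (nat_lit 300) (nat_lit 239)) (XT.nd (nat_lit 78) (nat_lit 76) (nat_lit 0) (XT.lf (nat_lit 0) (nat_lit 14541662615) (nat_lit 228) (nat_lit 12401171635) (nat_lit 76) (nat_lit 964288253)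 (nat_lit 42) (nat_lit 5) (nat_lit 45) (nat_lit 5) (nat_lit 43) (nat_lit 4) (nat_lit 362) (nat_lit 300) (nat_lit 238)) (XT.lf (nat_lit 0) (nat_lit 9294711192) (nat_lit 76) (nat_lit 15984765860) (nat_lit 152) (nat_lit 3656916033) (nat_lit 41) (nat_lit 5) (nat_lit 42) (nat_lit 5) (nat_lit 43) (nat_lit 4) (nat_lit 363) (nat_lit 300) (nat_lit 237)))) (XT.nd (nat_lit 78) (nat_lit 76) (nat_lit 0) (XT.lf (nat_lit 0) (nat_lit 2206160308) (nat_lit 152) (nat_lit 4302242306) (nat_lit 228) (nat_lit 23503878565) (nat_lit 38) (nat_lit 5) (nat_lit 40) (nat_lit 5) (nat_lit 41) (nat_lit 5) (nat_lit 364) (nat_lit 300) (nat_lit 236)) (XT.nd (nat_lit 78) (nat_lit 76) (nat_lit 0) (XT.lf (nat_lit 0) (nat_lit 17337753716) (nat_lit 228) (nat_lit 5786947194) (nat_lit 76) (nat_lit 8009240733) (nat_lit 38) (nat_lit 5) (nat_lit 41) (nat_lit 5) (nat_lit 39) (nat_lit 4) (nat_lit 365) (nat_lit 300) (nat_lit 235)) (XT.lf (nat_lit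 0) (nat_lit 17544084619) (nat_lit 76) (nat_lit 11328879274) (nat_lit 152) (nat_lit 3433795296) (nat_lit 37) (nat_lit 5) (nat_lit 38) (nat_lit 5) (nat_lit 39) (nat_lit 4) (nat_lit 366) (nat_lit 300) (nat_lit 234)))))) (XT.nd (nat_lit 468) (nat_lit 456) (nat_lit 0) (XT.nd (nat_lit 234) (nat_lit 304) (nat_lit 0) (XT.nd (nat_lit 78) (nat_lit 76) (nat_lit 0) (XT.lf (nat_lit 0) (nat_lit 7409792311) (nat_lit 228) (nat_lit 24909003284) (nat_lit 76) (nat_lit 1214028281) (nat_lit 34) (nat_lit 5) (nat_lit 37) (nat_lit 5) (nat_lit 35) (nat_lit 4) (nat_lit 367) (nat_lit 300) (nat_lit 233)) (XT.nd (nat_lit 78) (nat_lit 76) (nat_lit 0) (XT.lf (nat_lit 0) (nat_lit 18947375008) (nat_lit 228) (nat_lit 1562954094) (nat_lit 76) (nat_lit 14302162914) (nat_lit 34) (nat_lit 5) (nat_lit 37) (nat_lit 5) (nat_lit 35) (nat_lit 4) (nat_lit 368) (nat_lit 300) (nat_lit 232)) (XT.lf (nat_lit 0) (nat_lit 23324640099) (nat_lit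 76) (nat_lit 7917934339) (nat_lit 152) (nat_lit 4908151862) (nat_lit 33) (nat_lit 5) (nat_lit 34) (nat_lit 5) (nat_lit 35) (nat_lit 4) (nat_lit 369) (nat_lit 300) (nat_lit 231)))) (XT.nd (nat_lit 78) (nat_lit 76) (nat_lit 0) (XT.lf (nat_lit 0) (nat_lit 6609766944) (nat_lit 228) (nat_lit 25578322860) (nat_lit 76) (nat_lit 5361629760) (nat_lit 30) (nat_lit 5) (nat_lit 33) (nat_lit 5) (nat_lit 31) (nat_lit 4) (nat_lit 370) (nat_lit 300) (nat_lit 230)) (XT.nd (nat_lit 78) (nat_lit 76) (nat_lit 0) (XT.lf (nat_lit 0) (nat_lit 18774636126) (nat_lit 228) (nat_lit 946743588) (nat_lit 76) (nat_lit 19290652320) (nat_lit 30) (nat_lit 5) (nat_lit 33) (nat_lit 5) (nat_lit 31) (nat_lit 4) (nat_lit 371) (nat_lit 300) (nat_lit 229)) (XT.lf (nat_lit 0) (nat_lit 25336478436) (nat_lit 76) (nat_lit 6415163692) (nat_lit 152) (nat_lit 8789705281) (nat_lit 29) (nat_lit 5) (nat_lit 30) (nat_lit 5) (nat_lit 31) (nat_lit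 4) (nat_lit 372) (nat_lit 300) (nat_lit 228))))) (XT.nd (nat_lit 234) (nat_lit 228) (nat_lit 0) (XT.nd (nat_lit 78) (nat_lit 76) (nat_lit 0) (XT.lf (nat_lit 0) (nat_lit 3317009527) (nat_lit 152) (nat_lit 31301998165) (nat_lit 76) (nat_lit 7522702791) (nat_lit 27) (nat_lit 5) (nat_lit 29) (nat_lit 5) (nat_lit 28) (nat_lit 4) (nat_lit 373) (nat_lit 300) (nat_lit 227)) (XT.nd (nat_lit 78) (nat_lit 76) (nat_lit 0) (XT.lf (nat_lit 0) (nat_lit 16033787858) (nat_lit 152) (nat_lit 5539863023) (nat_lit 76) (nat_lit 22240238251) (nat_lit 27) (nat_lit 5) (nat_lit 29) (nat_lit 5) (nat_lit 28) (nat_lit 4) (nat_lit 374) (nat_lit 300) (nat_lit 226)) (XT.lf (nat_lit 0) (nat_lit 21868822647) (nat_lit 76) (nat_lit 7691610684) (nat_lit 152) (nat_lit 16004025960) (nat_lit 26) (nat_lit 5) (nat_lit 27) (nat_lit 5) (nat_lit 28) (nat_lit 4) (nat_lit 375) (nat_lit 300) (nat_lit 225)))) (XT.nd (nat_lit 78) (nat_lit 152)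 (nat_lit 0) (XT.lf (nat_lit 0) (nat_lit 3293289166) (nat_lit 76) (nat_lit 40590147024) (nat_lit 76) (nat_lit 3515524274) (nat_lit 25) (nat_lit 4) (nat_lit 26) (nat_lit 5) (nat_lit 26) (nat_lit 4) (nat_lit 376) (nat_lit 300) (nat_lit 224)) (XT.nd (nat_lit 78) (nat_lit 76) (nat_lit 0) (XT.lf (nat_lit 0) (nat_lit 9699410025) (nat_lit 152) (nat_lit 17429207283) (nat_lit 76) (nat_lit 22185126096) (nat_lit 24) (nat_lit 5) (nat_lit 26) (nat_lit 5) (nat_lit 25) (nat_lit 4) (nat_lit 377) (nat_lit 300) (nat_lit 223)) (XT.lf (nat_lit 0) (nat_lit 10691498695) (nat_lit 76) (nat_lit 12881300100) (nat_lit 152) (nat_lit 27748312927) (nat_lit 23) (nat_lit 5) (nat_lit 24) (nat_lit 5) (nat_lit 25) (nat_lit 4) (nat_lit 378) (nat_lit 300) (nat_lit 222))))))))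
noncomputable def xc50 : XT := (XT.nd (nat_lit 41418) (nat_lit 0) (nat_lit 9044) (XT.nd (nat_lit 936) (nat_lit 228) (nat_lit 0) (XT.nd (nat_lit 468) (nat_lit 304) (nat_lit 0) (XT.nd (nat_lit 234) (nat_lit 152) (nat_lit 0) (XT.nd (nat_lit 78) (nat_lit 152) (nat_lit 0) (XT.lf (nat_lit 0) (nat_lit 38308705283) (nat_lit 152) (nat_lit 12924378163) (nat_lit 0) (nat_lit 2190702297) (nat_lit 23) (nat_lit 5) (nat_lit 25) (nat_lit 4) (nat_lit 23) (nat_lit 4) (nat_lit 379) (nat_lit 300) (nat_lit 221)) (XT.nd (nat_lit 78) (nat_lit 76) (nat_lit 0) (XT.lf (nat_lit 0) (nat_lit 16295404208) (nat_lit 76) (nat_lit 37741872515) (nat_lit 76) (nat_lit 1586643257) (nat_lit 22) (nat_lit 4) (nat_lit 23) (nat_lit 5) (nat_lit 23) (nat_lit 4) (nat_lit 380) (nat_lit 300) (nat_lit 220)) (XT.lf (nat_lit 0) (nat_lit 12476185388) (nat_lit 152) (nat_lit 10864026513) (nat_lit 76) (nat_lit 34587086723) (nat_lit 21) (nat_lit 5)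 (nat_lit 23) (nat_lit 5) (nat_lit 22) (nat_lit 4) (nat_lit 381) (nat_lit 300) (nat_lit 219)))) (XT.nd (nat_lit 78) (nat_lit 76) (nat_lit 0) (XT.lf (nat_lit 0) (nat_lit 19330011129) (nat_lit 76) (nat_lit 8036717594) (nat_lit 152) (nat_lit 32973926866) (nat_lit 20) (nat_lit 5) (nat_lit 21) (nat_lit 5) (nat_lit 22) (nat_lit 4) (nat_lit 382) (nat_lit 300) (nat_lit 218)) (XT.nd (nat_lit 78) (nat_lit 76) (nat_lit 0) (XT.lf (nat_lit 0) (nat_lit 43163832198) (nat_lit 152) (nat_lit 11742745194) (nat_lit 0) (nat_lit 7963244204) (nat_lit 20) (nat_lit 5) (nat_lit 22) (nat_lit 4) (nat_lit 20) (nat_lit 4) (nat_lit 383) (nat_lit 300) (nat_lit 217)) (XT.lf (nat_lit 0) (nat_lit 19231390576) (nat_lit 76) (nat_lit 40758601742) (nat_lit 76) (nat_lit 5528279625) (nat_lit 19) (nat_lit 4) (nat_lit 20) (nat_lit 5) (nat_lit 20) (nat_lit 4) (nat_lit 384) (nat_lit 300) (nat_lit 216))))) (XT.nd (nat_lit 234) (nat_lit 152)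 (nat_lit 0) (XT.nd (nat_lit 78) (nat_lit 76) (nat_lit 0) (XT.lf (nat_lit 0) (nat_lit 9271537130) (nat_lit 152) (nat_lit 16437419954) (nat_lit 76) (nat_lit 42584615829) (nat_lit 18) (nat_lit 5) (nat_lit 20) (nat_lit 5) (nat_lit 19) (nat_lit 4) (nat_lit 385) (nat_lit 300) (nat_lit 215)) (XT.nd (nat_lit 78) (nat_lit 0) (nat_lit 0) (XT.lf (nat_lit 0) (nat_lit 15095309784) (nat_lit 76) (nat_lit 9722877329) (nat_lit 152) (nat_lit 46384176319) (nat_lit 17) (nat_lit 5) (nat_lit 18) (nat_lit 5) (nat_lit 19) (nat_lit 4) (nat_lit 386) (nat_lit 300) (nat_lit 214)) (XT.lf (nat_lit 0) (nat_lit 41356477735) (nat_lit 152) (nat_lit 25820021679) (nat_lit 0) (nat_lit 7073666561) (nat_lit 17) (nat_lit 5) (nat_lit 19) (nat_lit 4) (nat_lit 17) (nat_lit 4) (nat_lit 387) (nat_lit 300) (nat_lit 213)))) (XT.nd (nat_lit 78) (nat_lit 76) (nat_lit 0) (XT.lf (nat_lit 0) (nat_lit 5954554923) (nat_lit 76) (nat_lit 52899202088)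 (nat_lit 76) (nat_lit 18592641072) (nat_lit 16) (nat_lit 4) (nat_lit 17) (nat_lit 5) (nat_lit 17) (nat_lit 4) (nat_lit 388) (nat_lit 300) (nat_lit 212)) (XT.nd (nat_lit 78) (nat_lit 76) (nat_lit 0) (XT.lf (nat_lit 0) (nat_lit 39813842536) (nat_lit 76) (nat_lit 37655242605) (nat_lit 76) (nat_lit 3326062693) (nat_lit 16) (nat_lit 4) (nat_lit 17) (nat_lit 5) (nat_lit 17) (nat_lit 4) (nat_lit 389) (nat_lit 300) (nat_lit 211)) (XT.lf (nat_lit 0) (nat_lit 12434199354) (nat_lit 152) (nat_lit 9109297030) (nat_lit 76) (nat_lit 62764829063) (nat_lit 15) (nat_lit 5) (nat_lit 17) (nat_lit 5) (nat_lit 16) (nat_lit 4) (nat_lit 390) (nat_lit 300) (nat_lit 210)))))) (XT.nd (nat_lit 40014) (nat_lit 0) (nat_lit 25764) (XT.nd (nat_lit 312) (nat_lit 76) (nat_lit 0) (XT.nd (nat_lit 78) (nat_lit 76) (nat_lit 0) (XT.lf (nat_lit 0) (nat_lit 24766073954) (nat_lit 76) (nat_lit 4365606675) (nat_lit 152) (nat_lit 58857954937)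 (nat_lit 14) (nat_lit 5) (nat_lit 15) (nat_lit 5) (nat_lit 16) (nat_lit 4) (nat_lit 391) (nat_lit 300) (nat_lit 209)) (XT.nd (nat_lit 78) (nat_lit 76) (nat_lit 0) (XT.lf (nat_lit 0) (nat_lit 46869874007) (nat_lit 152) (nat_lit 31498193033) (nat_lit 0) (nat_lit 13480770338) (nat_lit 14) (nat_lit 5) (nat_lit 16) (nat_lit 4) (nat_lit 14) (nat_lit 4) (nat_lit 392) (nat_lit 300) (nat_lit 208)) (XT.lf (nat_lit 0) (nat_lit 1766497431) (nat_lit 76) (nat_lit 63770210736) (nat_lit 76) (nat_lit 30363040444) (nat_lit 13) (nat_lit 4) (nat_lit 14) (nat_lit 5) (nat_lit 14) (nat_lit 4) (nat_lit 393) (nat_lit 300) (nat_lit 207)))) (XT.nd (nat_lit 39546) (nat_lit 0) (nat_lit 27360) (XT.lf (nat_lit 0) (nat_lit 1690767996) (nat_lit 152) (nat_lit 30008504527) (nat_lit 76) (nat_lit 72901315812) (nat_lit 12) (nat_lit 5) (nat_lit 14) (nat_lit 5) (nat_lit 13) (nat_lit 4) (nat_lit 395) (nat_lit 300) (nat_lit 205)) (XT.nd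 (nat_lit 78) (nat_lit 228) (nat_lit 0) (XT.lf (nat_lit 0) (nat_lit 1734915593) (nat_lit 228) (nat_lit 745946043) (nat_lit 228) (nat_lit 745946043) (nat_lit 375) (nat_lit 3) (nat_lit 378) (nat_lit 3) (nat_lit 378) (nat_lit 5) (nat_lit 301) (nat_lit 301) (nat_lit 298)) (XT.lf (nat_lit 0) (nat_lit 1742490575) (nat_lit 228) (nat_lit 2736267551) (nat_lit 304) (nat_lit 1990444021) (nat_lit 372) (nat_lit 5) (nat_lit 375) (nat_lit 3) (nat_lit 376) (nat_lit 5) (nat_lit 302) (nat_lit 301) (nat_lit 297))))) (XT.nd (nat_lit 234) (nat_lit 912) (nat_lit 0) (XT.nd (nat_lit 78) (nat_lit 684) (nat_lit 0) (XT.lf (nat_lit 76) (nat_lit 2623046772) (nat_lit 0) (nat_lit 3758935522) (nat_lit 304) (nat_lit 110822981) (nat_lit 373) (nat_lit 5) (nat_lit 372) (nat_lit 5) (nat_lit 376) (nat_lit 5) (nat_lit 303) (nat_lit 301) (nat_lit 296)) (XT.nd (nat_lit 78) (nat_lit 380) (nat_lit 0) (XT.lf (nat_lit 76) (nat_lit 1612056415)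 (nat_lit 0) (nat_lit 2782407032) (nat_lit 380) (nat_lit 2129489306) (nat_lit 369) (nat_lit 5) (nat_lit 368) (nat_lit 5) (nat_lit 373) (nat_lit 5) (nat_lit 304) (nat_lit 301) (nat_lit 295)) (XT.lf (nat_lit 76) (nat_lit 715628376) (nat_lit 0) (nat_lit 1563983336) (nat_lit 456) (nat_lit 4283606124) (nat_lit 364) (nat_lit 5) (nat_lit 363) (nat_lit 5) (nat_lit 369) (nat_lit 5) (nat_lit 305) (nat_lit 301) (nat_lit 294)))) (XT.nd (nat_lit 78) (nat_lit 456) (nat_lit 0) (XT.lf (nat_lit 0) (nat_lit 32989300) (nat_lit 456) (nat_lit 66526755) (nat_lit 532) (nat_lit 6511141628) (nat_lit 357) (nat_lit 5) (nat_lit 363) (nat_lit 5) (nat_lit 364) (nat_lit 5) (nat_lit 306) (nat_lit 301) (nat_lit 293)) (XT.nd (nat_lit 78) (nat_lit 532) (nat_lit 0) (XT.lf (nat_lit 0) (nat_lit 4288913124) (nat_lit 456) (nat_lit 764050886) (nat_lit 76) (nat_lit 1612082499) (nat_lit 358) (nat_lit 5) (nat_lit 364) (nat_lit 5) (nat_lit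 359) (nat_lit 5) (nat_lit 307) (nat_lit 301) (nat_lit 292)) (XT.lf (nat_lit 0) (nat_lit 1797581795) (nat_lit 532) (nat_lit 1358234678) (nat_lit 76) (nat_lit 3571892696) (nat_lit 351) (nat_lit 5) (nat_lit 358) (nat_lit 5) (nat_lit 352) (nat_lit 5) (nat_lit 308) (nat_lit 301) (nat_lit 291))))))) (XT.nd (nat_lit 936) (nat_lit 6308) (nat_lit 0) (XT.nd (nat_lit 468) (nat_lit 5852) (nat_lit 0) (XT.nd (nat_lit 234) (nat_lit 2584) (nat_lit 0) (XT.nd (nat_lit 78) (nat_lit 1444) (nat_lit 0) (XT.lf (nat_lit 0) (nat_lit 4941764885) (nat_lit 532) (nat_lit 1003262609) (nat_lit 608) (nat_lit 853532816) (nat_lit 344) (nat_lit 5) (nat_lit 351) (nat_lit 5) (nat_lit 352) (nat_lit 5) (nat_lit 309) (nat_lit 301) (nat_lit 290)) (XT.nd (nat_lit 78) (nat_lit 760) (nat_lit 0) (XT.lf (nat_lit 0) (nat_lit 3197892241) (nat_lit 684) (nat_lit 2284805181) (nat_lit 76) (nat_lit 1394304851) (nat_lit 335) (nat_lit 5) (nat_lit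 344) (nat_lit 5) (nat_lit 336) (nat_lit 5) (nat_lit 310) (nat_lit 301) (nat_lit 289)) (XT.lf (nat_lit 0) (nat_lit 311593587) (nat_lit 760) (nat_lit 2623437194) (nat_lit 76) (nat_lit 4028732416) (nat_lit 325) (nat_lit 5) (nat_lit 335) (nat_lit 5) (nat_lit 326) (nat_lit 5) (nat_lit 311) (nat_lit 301) (nat_lit 288)))) (XT.nd (nat_lit 78) (nat_lit 1824) (nat_lit 0) (XT.lf (nat_lit 0) (nat_lit 4168563362) (nat_lit 760) (nat_lit 104611273) (nat_lit 836) (nat_lit 2785323818) (nat_lit 315) (nat_lit 5) (nat_lit 325) (nat_lit 5) (nat_lit 326) (nat_lit 5) (nat_lit 312) (nat_lit 301) (nat_lit 287)) (XT.nd (nat_lit 78) (nat_lit 912) (nat_lit 0) (XT.lf (nat_lit 0) (nat_lit 1134938195) (nat_lit 912) (nat_lit 3090823539) (nat_lit 76) (nat_lit 2935433150) (nat_lit 303) (nat_lit 5) (nat_lit 315) (nat_lit 5) (nat_lit 304) (nat_lit 5) (nat_lit 313) (nat_lit 301) (nat_lit 286)) (XT.lf (nat_lit 0) (nat_lit 4053432784)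 (nat_lit 912) (nat_lit 1009141945) (nat_lit 988) (nat_lit 2209688992) (nat_lit 291) (nat_lit 5) (nat_lit 303) (nat_lit 5) (nat_lit 304) (nat_lit 5) (nat_lit 314) (nat_lit 301) (nat_lit 285))))) (XT.nd (nat_lit 234) (nat_lit 2508) (nat_lit 0) (XT.nd (nat_lit 78) (nat_lit 2280) (nat_lit 0) (XT.lf (nat_lit 0) (nat_lit 1662736859) (nat_lit 1064) (nat_lit 3287993640) (nat_lit 76) (nat_lit 2440757602) (nat_lit 277) (nat_lit 5) (nat_lit 291) (nat_lit 5) (nat_lit 278) (nat_lit 5) (nat_lit 315) (nat_lit 301) (nat_lit 284)) (XT.nd (nat_lit 78) (nat_lit 1216) (nat_lit 0) (XT.lf (nat_lit 0) (nat_lit 4225544876) (nat_lit 1064) (nat_lit 1354612176) (nat_lit 1140) (nat_lit 1939066030) (nat_lit 263) (nat_lit 5) (nat_lit 277) (nat_lit 5) (nat_lit 278) (nat_lit 5) (nat_lit 316) (nat_lit 301) (nat_lit 283)) (XT.lf (nat_lit 0) (nat_lit 1919305141) (nat_lit 1216) (nat_lit 3249288658) (nat_lit 76) (nat_lit 2486701369)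 (nat_lit 247) (nat_lit 5) (nat_lit 263) (nat_lit 5) (nat_lit 248) (nat_lit 5) (nat_lit 317) (nat_lit 301) (nat_lit 282)))) (XT.nd (nat_lit 78) (nat_lit 1292) (nat_lit 0) (XT.lf (nat_lit 0) (nat_lit 4652301222) (nat_lit 1216) (nat_lit 1196299243) (nat_lit 1292) (nat_lit 1951555012) (nat_lit 231) (nat_lit 5) (nat_lit 247) (nat_lit 5) (nat_lit 248) (nat_lit 5) (nat_lit 318) (nat_lit 301) (nat_lit 281)) (XT.nd (nat_lit 78) (nat_lit 608) (nat_lit 0) (XT.lf (nat_lit 0) (nat_lit 1924004179) (nat_lit 684) (nat_lit 3007020715) (nat_lit 76) (nat_lit 3022505958) (nat_lit 222) (nat_lit 5) (nat_lit 231) (nat_lit 5) (nat_lit 223) (nat_lit 5) (nat_lit 319) (nat_lit 301) (nat_lit 280)) (XT.lf (nat_lit 0) (nat_lit 5302966183) (nat_lit 608) (nat_lit 582832508) (nat_lit 684) (nat_lit 2230303514) (nat_lit 214) (nat_lit 5) (nat_lit 222) (nat_lit 5) (nat_lit 223) (nat_lit 5) (nat_lit 320) (nat_lit 301) (nat_lit 279))))))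 (XT.nd (nat_lit 468) (nat_lit 2964) (nat_lit 0) (XT.nd (nat_lit 234) (nat_lit 1520) (nat_lit 0) (XT.nd (nat_lit 78) (nat_lit 1140) (nat_lit 0) (XT.lf (nat_lit 0) (nat_lit 1691456401) (nat_lit 684) (nat_lit 2592350222) (nat_lit 76) (nat_lit 4003565895) (nat_lit 205) (nat_lit 5) (nat_lit 214) (nat_lit 5) (nat_lit 206) (nat_lit 5) (nat_lit 321) (nat_lit 301) (nat_lit 278)) (XT.nd (nat_lit 78) (nat_lit 608) (nat_lit 0) (XT.lf (nat_lit 0) (nat_lit 5709292874) (nat_lit 608) (nat_lit 2324846670) (nat_lit 76) (nat_lit 434101414) (nat_lit 198) (nat_lit 5) (nat_lit 206) (nat_lit 5) (nat_lit 199) (nat_lit 5) (nat_lit 322) (nat_lit 301) (nat_lit 277)) (XT.lf (nat_lit 0) (nat_lit 1231667719) (nat_lit 608) (nat_lit 2036186470) (nat_lit 76) (nat_lit 5390409510) (nat_lit 190) (nat_lit 5) (nat_lit 198) (nat_lit 5) (nat_lit 191) (nat_lit 5) (nat_lit 323) (nat_lit 301) (nat_lit 276)))) (XT.nd (nat_lit 78) (nat_lit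 1064) (nat_lit 0) (XT.lf (nat_lit 0) (nat_lit 5332781560) (nat_lit 532) (nat_lit 1719206479) (nat_lit 76) (nat_lit 1806010158) (nat_lit 184) (nat_lit 5) (nat_lit 191) (nat_lit 5) (nat_lit 185) (nat_lit 5) (nat_lit 324) (nat_lit 301) (nat_lit 275)) (XT.nd (nat_lit 78) (nat_lit 456) (nat_lit 0) (XT.lf (nat_lit 0) (nat_lit 550055428) (nat_lit 608) (nat_lit 1370132272) (nat_lit 76) (nat_lit 7147733435) (nat_lit 176) (nat_lit 5) (nat_lit 184) (nat_lit 5) (nat_lit 177) (nat_lit 5) (nat_lit 325) (nat_lit 301) (nat_lit 274)) (XT.lf (nat_lit 0) (nat_lit 4754551143) (nat_lit 532) (nat_lit 1022754314) (nat_lit 76) (nat_lit 3510099101) (nat_lit 170) (nat_lit 5) (nat_lit 177) (nat_lit 5) (nat_lit 171) (nat_lit 5) (nat_lit 326) (nat_lit 301) (nat_lit 273))))) (XT.nd (nat_lit 234) (nat_lit 1216) (nat_lit 0) (XT.nd (nat_lit 78) (nat_lit 1292) (nat_lit 0) (XT.lf (nat_lit 0) (nat_lit 8887289526) (nat_lit 456)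 (nat_lit 271313402) (nat_lit 532) (nat_lit 359638754) (nat_lit 164) (nat_lit 5) (nat_lit 170) (nat_lit 5) (nat_lit 171) (nat_lit 5) (nat_lit 327) (nat_lit 301) (nat_lit 272)) (XT.nd (nat_lit 78) (nat_lit 836) (nat_lit 0) (XT.lf (nat_lit 0) (nat_lit 3973870234) (nat_lit 456) (nat_lit 269910306) (nat_lit 76) (nat_lit 5514831525) (nat_lit 158) (nat_lit 5) (nat_lit 164) (nat_lit 5) (nat_lit 159) (nat_lit 5) (nat_lit 328) (nat_lit 301) (nat_lit 271)) (XT.lf (nat_lit 0) (nat_lit 127718659) (nat_lit 380) (nat_lit 8390885348) (nat_lit 456) (nat_lit 1492282888) (nat_lit 147) (nat_lit 5) (nat_lit 152) (nat_lit 5) (nat_lit 153) (nat_lit 5) (nat_lit 329) (nat_lit 301) (nat_lit 270)))) (XT.nd (nat_lit 78) (nat_lit 760) (nat_lit 0) (XT.lf (nat_lit 0) (nat_lit 511452533) (nat_lit 380) (nat_lit 2478627996) (nat_lit 456) (nat_lit 7283850622) (nat_lit 141) (nat_lit 5) (nat_lit 146) (nat_lit 5) (nat_lit 147) (nat_lit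 5) (nat_lit 330) (nat_lit 301) (nat_lit 269)) (XT.nd (nat_lit 78) (nat_lit 456) (nat_lit 0) (XT.lf (nat_lit 0) (nat_lit 891953626) (nat_lit 304) (nat_lit 6804294295) (nat_lit 380) (nat_lit 2852566107) (nat_lit 137) (nat_lit 5) (nat_lit 141) (nat_lit 5) (nat_lit 142) (nat_lit 5) (nat_lit 331) (nat_lit 301) (nat_lit 268)) (XT.lf (nat_lit 0) (nat_lit 1273672598) (nat_lit 380) (nat_lit 516250085) (nat_lit 456) (nat_lit 9046298742) (nat_lit 131) (nat_lit 5) (nat_lit 136) (nat_lit 5) (nat_lit 137) (nat_lit 5) (nat_lit 332) (nat_lit 301) (nat_lit 267))))))))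
noncomputable def xc51 : XT := (XT.nd (nat_lit 1872) (nat_lit 2432) (nat_lit 0) (XT.nd (nat_lit 936) (nat_lit 2128) (nat_lit 0) (XT.nd (nat_lit 468) (nat_lit 1672) (nat_lit 0) (XT.nd (nat_lit 234) (nat_lit 988) (nat_lit 0) (XT.nd (nat_lit 78) (nat_lit 684) (nat_lit 0) (XT.lf (nat_lit 0) (nat_lit 1605564228) (nat_lit 304) (nat_lit 5064435659) (nat_lit 380) (nat_lit 4465258836) (nat_lit 127) (nat_lit 5) (nat_lit 131) (nat_lit 5) (nat_lit 132) (nat_lit 5) (nat_lit 333) (nat_lit 301) (nat_lit 266)) (XT.nd (nat_lit 78) (nat_lit 304) (nat_lit 0) (XT.lf (nat_lit 0) (nat_lit 369336347) (nat_lit 380) (nat_lit 9502510531) (nat_lit 76) (nat_lit 1576402149) (nat_lit 122) (nat_lit 5) (nat_lit 127) (nat_lit 5) (nat_lit 123) (nat_lit 5) (nat_lit 334) (nat_lit 301) (nat_lit 265)) (XT.lf (nat_lit 0) (nat_lit 2215117649) (nat_lit 304) (nat_lit 3206107926) (nat_lit 380) (nat_lit 6352335337) (nat_lit 118) (nat_lit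 5) (nat_lit 122) (nat_lit 5) (nat_lit 123) (nat_lit 5) (nat_lit 335) (nat_lit 301) (nat_lit 264)))) (XT.nd (nat_lit 78) (nat_lit 684) (nat_lit 0) (XT.lf (nat_lit 0) (nat_lit 2466318158) (nat_lit 304) (nat_lit 8317041476) (nat_lit 380) (nat_lit 1330083303) (nat_lit 114) (nat_lit 5) (nat_lit 118) (nat_lit 5) (nat_lit 119) (nat_lit 5) (nat_lit 336) (nat_lit 301) (nat_lit 263)) (XT.nd (nat_lit 78) (nat_lit 304) (nat_lit 0) (XT.lf (nat_lit 0) (nat_lit 2658230340) (nat_lit 304) (nat_lit 1266508624) (nat_lit 380) (nat_lit 8542722279) (nat_lit 109) (nat_lit 5) (nat_lit 113) (nat_lit 5) (nat_lit 114) (nat_lit 5) (nat_lit 337) (nat_lit 301) (nat_lit 262)) (XT.lf (nat_lit 0) (nat_lit 2779775177) (nat_lit 304) (nat_lit 6725278494) (nat_lit 380) (nat_lit 3331053926) (nat_lit 105) (nat_lit 5) (nat_lit 109) (nat_lit 5) (nat_lit 110) (nat_lit 5) (nat_lit 338) (nat_lit 301) (nat_lit 261))))) (XT.nd (nat_lit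 234) (nat_lit 760) (nat_lit 0) (XT.nd (nat_lit 78) (nat_lit 608) (nat_lit 0) (XT.lf (nat_lit 0) (nat_lit 2154811403) (nat_lit 304) (nat_lit 10366516190) (nat_lit 76) (nat_lit 699607051) (nat_lit 101) (nat_lit 5) (nat_lit 105) (nat_lit 5) (nat_lit 102) (nat_lit 5) (nat_lit 339) (nat_lit 301) (nat_lit 260)) (XT.nd (nat_lit 78) (nat_lit 304) (nat_lit 0) (XT.lf (nat_lit 0) (nat_lit 2810037975) (nat_lit 304) (nat_lit 5145052244) (nat_lit 380) (nat_lit 5665679468) (nat_lit 97) (nat_lit 5) (nat_lit 101) (nat_lit 5) (nat_lit 102) (nat_lit 5) (nat_lit 340) (nat_lit 301) (nat_lit 259)) (XT.lf (nat_lit 0) (nat_lit 75678366) (nat_lit 304) (nat_lit 11327098834) (nat_lit 76) (nat_lit 2635712765) (nat_lit 93) (nat_lit 5) (nat_lit 97) (nat_lit 5) (nat_lit 94) (nat_lit 5) (nat_lit 341) (nat_lit 301) (nat_lit 258)))) (XT.nd (nat_lit 78) (nat_lit 532) (nat_lit 0) (XT.lf (nat_lit 0) (nat_lit 2462487188) (nat_lit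 228) (nat_lit 3627043060) (nat_lit 304) (nat_lit 8382828359) (nat_lit 90) (nat_lit 5) (nat_lit 93) (nat_lit 5) (nat_lit 94) (nat_lit 5) (nat_lit 342) (nat_lit 301) (nat_lit 257)) (XT.nd (nat_lit 78) (nat_lit 304) (nat_lit 0) (XT.lf (nat_lit 0) (nat_lit 2115087397) (nat_lit 228) (nat_lit 10386576058) (nat_lit 304) (nat_lit 2423351716) (nat_lit 87) (nat_lit 5) (nat_lit 90) (nat_lit 5) (nat_lit 91) (nat_lit 5) (nat_lit 343) (nat_lit 301) (nat_lit 256)) (XT.lf (nat_lit 0) (nat_lit 1624657394) (nat_lit 228) (nat_lit 2229504829) (nat_lit 304) (nat_lit 11542210735) (nat_lit 83) (nat_lit 5) (nat_lit 86) (nat_lit 5) (nat_lit 87) (nat_lit 5) (nat_lit 344) (nat_lit 301) (nat_lit 255)))))) (XT.nd (nat_lit 468) (nat_lit 1064) (nat_lit 0) (XT.nd (nat_lit 234) (nat_lit 608) (nat_lit 0) (XT.nd (nat_lit 78) (nat_lit 304) (nat_lit 0) (XT.lf (nat_lit 0) (nat_lit 962290539) (nat_lit 152) (nat_lit 9556925395) (nat_lit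 228) (nat_lit 5367668916) (nat_lit 81) (nat_lit 5) (nat_lit 83) (nat_lit 5) (nat_lit 84) (nat_lit 5) (nat_lit 345) (nat_lit 301) (nat_lit 254)) (XT.nd (nat_lit 78) (nat_lit 0) (nat_lit 0) (XT.lf (nat_lit 0) (nat_lit 162703988) (nat_lit 228) (nat_lit 1020159680) (nat_lit 304) (nat_lit 15216084000) (nat_lit 77) (nat_lit 5) (nat_lit 80) (nat_lit 5) (nat_lit 81) (nat_lit 5) (nat_lit 346) (nat_lit 301) (nat_lit 253)) (XT.lf (nat_lit 0) (nat_lit 8106295366) (nat_lit 304) (nat_lit 874884021) (nat_lit 76) (nat_lit 7949165537) (nat_lit 77) (nat_lit 5) (nat_lit 81) (nat_lit 5) (nat_lit 78) (nat_lit 5) (nat_lit 347) (nat_lit 301) (nat_lit 252)))) (XT.nd (nat_lit 78) (nat_lit 456) (nat_lit 0) (XT.lf (nat_lit 0) (nat_lit 15424208560) (nat_lit 152) (nat_lit 37718729) (nat_lit 228) (nat_lit 2023820253) (nat_lit 75) (nat_lit 5) (nat_lit 77) (nat_lit 5) (nat_lit 78) (nat_lit 5) (nat_lit 348) (nat_lit 301) (nat_lit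 251)) (XT.nd (nat_lit 78) (nat_lit 152) (nat_lit 0) (XT.lf (nat_lit 0) (nat_lit 5186554290) (nat_lit 304) (nat_lit 3551886119) (nat_lit 76) (nat_lit 9323920337) (nat_lit 71) (nat_lit 5) (nat_lit 75) (nat_lit 5) (nat_lit 72) (nat_lit 5) (nat_lit 349) (nat_lit 301) (nat_lit 250)) (XT.lf (nat_lit 0) (nat_lit 12803488606) (nat_lit 228) (nat_lit 5260169452) (nat_lit 76) (nat_lit 600922920) (nat_lit 69) (nat_lit 5) (nat_lit 72) (nat_lit 5) (nat_lit 70) (nat_lit 5) (nat_lit 350) (nat_lit 301) (nat_lit 249))))) (XT.nd (nat_lit 234) (nat_lit 456) (nat_lit 0) (XT.nd (nat_lit 78) (nat_lit 304) (nat_lit 0) (XT.lf (nat_lit 0) (nat_lit 1649987767) (nat_lit 304) (nat_lit 7290429222) (nat_lit 76) (nat_lit 10350825158) (nat_lit 65) (nat_lit 5) (nat_lit 69) (nat_lit 5) (nat_lit 66) (nat_lit 5) (nat_lit 351) (nat_lit 301) (nat_lit 248)) (XT.nd (nat_lit 78) (nat_lit 152) (nat_lit 0) (XT.lf (nat_lit 0) (nat_lit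 9512279902) (nat_lit 228) (nat_lit 9637296971) (nat_lit 76) (nat_lit 795025037) (nat_lit 63) (nat_lit 5) (nat_lit 66) (nat_lit 5) (nat_lit 64) (nat_lit 5) (nat_lit 352) (nat_lit 301) (nat_lit 247)) (XT.lf (nat_lit 0) (nat_lit 8267598998) (nat_lit 152) (nat_lit 9681334212) (nat_lit 228) (nat_lit 2676271136) (nat_lit 61) (nat_lit 5) (nat_lit 63) (nat_lit 5) (nat_lit 64) (nat_lit 5) (nat_lit 353) (nat_lit 301) (nat_lit 246)))) (XT.nd (nat_lit 78) (nat_lit 228) (nat_lit 0) (XT.lf (nat_lit 0) (nat_lit 5458897044) (nat_lit 228) (nat_lit 15455743115) (nat_lit 76) (nat_lit 420690975) (nat_lit 58) (nat_lit 5) (nat_lit 61) (nat_lit 5) (nat_lit 59) (nat_lit 5) (nat_lit 354) (nat_lit 301) (nat_lit 245)) (XT.nd (nat_lit 78) (nat_lit 76) (nat_lit 0) (XT.lf (nat_lit 0) (nat_lit 3035004069) (nat_lit 152) (nat_lit 11105009314) (nat_lit 228) (nat_lit 7934330412) (nat_lit 56) (nat_lit 5) (nat_lit 58) (nat_lit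 5) (nat_lit 59) (nat_lit 5) (nat_lit 355) (nat_lit 301) (nat_lit 244)) (XT.lf (nat_lit 0) (nat_lit 497634848) (nat_lit 228) (nat_lit 183805374) (nat_lit 76) (nat_lit 22165740235) (nat_lit 55) (nat_lit 5) (nat_lit 58) (nat_lit 5) (nat_lit 56) (nat_lit 5) (nat_lit 356) (nat_lit 301) (nat_lit 243))))))) (XT.nd (nat_lit 936) (nat_lit 836) (nat_lit 0) (XT.nd (nat_lit 468) (nat_lit 760) (nat_lit 0) (XT.nd (nat_lit 234) (nat_lit 304) (nat_lit 0) (XT.nd (nat_lit 78) (nat_lit 380) (nat_lit 0) (XT.lf (nat_lit 0) (nat_lit 9422904738) (nat_lit 228) (nat_lit 3933015815) (nat_lit 76) (nat_lit 10293317023) (nat_lit 53) (nat_lit 5) (nat_lit 56) (nat_lit 5) (nat_lit 54) (nat_lit 5) (nat_lit 357) (nat_lit 301) (nat_lit 242)) (XT.nd (nat_lit 78) (nat_lit 228) (nat_lit 0) (XT.lf (nat_lit 0) (nat_lit 16336247681) (nat_lit 152) (nat_lit 2568217888) (nat_lit 228) (nat_lit 5583640082) (nat_lit 51) (nat_lit 5) (nat_lit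 53) (nat_lit 5) (nat_lit 54) (nat_lit 5) (nat_lit 358) (nat_lit 301) (nat_lit 241)) (XT.lf (nat_lit 0) (nat_lit 3614669174) (nat_lit 228) (nat_lit 13005735330) (nat_lit 76) (nat_lit 8741765869) (nat_lit 48) (nat_lit 5) (nat_lit 51) (nat_lit 5) (nat_lit 49) (nat_lit 5) (nat_lit 359) (nat_lit 301) (nat_lit 240)))) (XT.nd (nat_lit 78) (nat_lit 152) (nat_lit 0) (XT.lf (nat_lit 0) (nat_lit 7755270032) (nat_lit 152) (nat_lit 5535112139) (nat_lit 228) (nat_lit 12983916514) (nat_lit 46) (nat_lit 5) (nat_lit 48) (nat_lit 5) (nat_lit 49) (nat_lit 5) (nat_lit 360) (nat_lit 301) (nat_lit 239)) (XT.nd (nat_lit 78) (nat_lit 76) (nat_lit 0) (XT.lf (nat_lit 0) (nat_lit 2492287643) (nat_lit 76) (nat_lit 21123357178) (nat_lit 152) (nat_lit 3611423156) (nat_lit 45) (nat_lit 5) (nat_lit 46) (nat_lit 5) (nat_lit 47) (nat_lit 4) (nat_lit 361) (nat_lit 301) (nat_lit 238)) (XT.lf (nat_lit 0) (nat_lit 6305533208) (nat_lit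 152) (nat_lit 3490977847) (nat_lit 76) (nat_lit 18423253025) (nat_lit 44) (nat_lit 5) (nat_lit 46) (nat_lit 5) (nat_lit 45) (nat_lit 5) (nat_lit 362) (nat_lit 301) (nat_lit 237))))) (XT.nd (nat_lit 234) (nat_lit 304) (nat_lit 0) (XT.nd (nat_lit 78) (nat_lit 304) (nat_lit 0) (XT.lf (nat_lit 0) (nat_lit 16800965343) (nat_lit 228) (nat_lit 10216708451) (nat_lit 76) (nat_lit 2238635553) (nat_lit 42) (nat_lit 5) (nat_lit 45) (nat_lit 5) (nat_lit 43) (nat_lit 4) (nat_lit 363) (nat_lit 301) (nat_lit 236)) (XT.nd (nat_lit 78) (nat_lit 228) (nat_lit 0) (XT.lf (nat_lit 0) (nat_lit 12483577465) (nat_lit 76) (nat_lit 15545316212) (nat_lit 152) (nat_lit 2309562741) (nat_lit 41) (nat_lit 5) (nat_lit 42) (nat_lit 5) (nat_lit 43) (nat_lit 4) (nat_lit 364) (nat_lit 301) (nat_lit 235)) (XT.lf (nat_lit 0) (nat_lit 4991698195) (nat_lit 152) (nat_lit 3296735161) (nat_lit 228) (nat_lit 23180645071) (nat_lit 38) (nat_lit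 5) (nat_lit 40) (nat_lit 5) (nat_lit 41) (nat_lit 5) (nat_lit 365) (nat_lit 301) (nat_lit 234)))) (XT.nd (nat_lit 78) (nat_lit 304) (nat_lit 0) (XT.lf (nat_lit 0) (nat_lit 19601159450) (nat_lit 228) (nat_lit 3497900893) (nat_lit 76) (nat_lit 9549512848) (nat_lit 38) (nat_lit 5) (nat_lit 41) (nat_lit 5) (nat_lit 39) (nat_lit 4) (nat_lit 366) (nat_lit 301) (nat_lit 233)) (XT.nd (nat_lit 78) (nat_lit 228) (nat_lit 0) (XT.lf (nat_lit 0) (nat_lit 20925773374) (nat_lit 76) (nat_lit 10744930539) (nat_lit 152) (nat_lit 2210608582) (nat_lit 37) (nat_lit 5) (nat_lit 38) (nat_lit 5) (nat_lit 39) (nat_lit 4) (nat_lit 367) (nat_lit 301) (nat_lit 232)) (XT.lf (nat_lit 0) (nat_lit 9117345144) (nat_lit 228) (nat_lit 23666125319) (nat_lit 76) (nat_lit 2385733014) (nat_lit 34) (nat_lit 5) (nat_lit 37) (nat_lit 5) (nat_lit 35) (nat_lit 4) (nat_lit 368) (nat_lit 301) (nat_lit 231)))))) (XT.nd (nat_lit 468) (nat_lit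 304) (nat_lit 0) (XT.nd (nat_lit 234) (nat_lit 228) (nat_lit 0) (XT.nd (nat_lit 78) (nat_lit 228) (nat_lit 0) (XT.lf (nat_lit 0) (nat_lit 743237761) (nat_lit 76) (nat_lit 20432043993) (nat_lit 152) (nat_lit 15339276153) (nat_lit 33) (nat_lit 5) (nat_lit 34) (nat_lit 5) (nat_lit 35) (nat_lit 4) (nat_lit 369) (nat_lit 301) (nat_lit 230)) (XT.nd (nat_lit 78) (nat_lit 228) (nat_lit 0) (XT.lf (nat_lit 0) (nat_lit 26792777536) (nat_lit 76) (nat_lit 7246808700) (nat_lit 152) (nat_lit 3881494106) (nat_lit 33) (nat_lit 5) (nat_lit 34) (nat_lit 5) (nat_lit 35) (nat_lit 4) (nat_lit 370) (nat_lit 301) (nat_lit 229)) (XT.lf (nat_lit 0) (nat_lit 8159930460) (nat_lit 228) (nat_lit 24570764162) (nat_lit 76) (nat_lit 6659795116) (nat_lit 30) (nat_lit 5) (nat_lit 33) (nat_lit 5) (nat_lit 31) (nat_lit 4) (nat_lit 371) (nat_lit 301) (nat_lit 228)))) (XT.nd (nat_lit 78) (nat_lit 152) (nat_lit 0) (XT.lf (nat_lit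 0) (nat_lit 1207068574) (nat_lit 76) (nat_lit 19679497839) (nat_lit 152) (nat_lit 20040751699) (nat_lit 29) (nat_lit 5) (nat_lit 30) (nat_lit 5) (nat_lit 31) (nat_lit 4) (nat_lit 372) (nat_lit 301) (nat_lit 227)) (XT.nd (nat_lit 78) (nat_lit 152) (nat_lit 0) (XT.lf (nat_lit 0) (nat_lit 28718477118) (nat_lit 76) (nat_lit 5747360802) (nat_lit 152) (nat_lit 8068664572) (nat_lit 29) (nat_lit 5) (nat_lit 30) (nat_lit 5) (nat_lit 31) (nat_lit 4) (nat_lit 373) (nat_lit 301) (nat_lit 226)) (XT.lf (nat_lit 0) (nat_lit 4595870170) (nat_lit 152) (nat_lit 30766588058) (nat_lit 76) (nat_lit 8852842180) (nat_lit 27) (nat_lit 5) (nat_lit 29) (nat_lit 5) (nat_lit 28) (nat_lit 4) (nat_lit 374) (nat_lit 301) (nat_lit 225))))) (XT.nd (nat_lit 234) (nat_lit 152) (nat_lit 0) (XT.nd (nat_lit 78) (nat_lit 152) (nat_lit 0) (XT.lf (nat_lit 0) (nat_lit 17895486933) (nat_lit 152) (nat_lit 3816370446) (nat_lit 76) (nat_lit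 24260825639) (nat_lit 27) (nat_lit 5) (nat_lit 29) (nat_lit 5) (nat_lit 28) (nat_lit 4) (nat_lit 375) (nat_lit 301) (nat_lit 224)) (XT.nd (nat_lit 78) (nat_lit 76) (nat_lit 0) (XT.lf (nat_lit 0) (nat_lit 24905405986) (nat_lit 76) (nat_lit 7161260713) (nat_lit 152) (nat_lit 15745073700) (nat_lit 26) (nat_lit 5) (nat_lit 27) (nat_lit 5) (nat_lit 28) (nat_lit 4) (nat_lit 376) (nat_lit 301) (nat_lit 223)) (XT.lf (nat_lit 0) (nat_lit 5366908196) (nat_lit 76) (nat_lit 41716675151) (nat_lit 76) (nat_lit 2655054922) (nat_lit 25) (nat_lit 4) (nat_lit 26) (nat_lit 5) (nat_lit 26) (nat_lit 4) (nat_lit 377) (nat_lit 301) (nat_lit 222)))) (XT.nd (nat_lit 78) (nat_lit 76) (nat_lit 0) (XT.lf (nat_lit 0) (nat_lit 11152023081) (nat_lit 152) (nat_lit 16463273587) (nat_lit 76) (nat_lit 24135020527) (nat_lit 24) (nat_lit 5) (nat_lit 26) (nat_lit 5) (nat_lit 25) (nat_lit 4) (nat_lit 378) (nat_lit 301) (nat_lit 221))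 (XT.nd (nat_lit 78) (nat_lit 0) (nat_lit 0) (XT.lf (nat_lit 0) (nat_lit 13010799158) (nat_lit 76) (nat_lit 12679359788) (nat_lit 152) (nat_lit 28168766658) (nat_lit 23) (nat_lit 5) (nat_lit 24) (nat_lit 5) (nat_lit 25) (nat_lit 4) (nat_lit 379) (nat_lit 301) (nat_lit 220)) (XT.lf (nat_lit 0) (nat_lit 41125904863) (nat_lit 152) (nat_lit 11851706679) (nat_lit 0) (nat_lit 3090234275) (nat_lit 23) (nat_lit 5) (nat_lit 25) (nat_lit 4) (nat_lit 23) (nat_lit 4) (nat_lit 380) (nat_lit 301) (nat_lit 219))))))))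
noncomputable def xc52 : XT := (XT.nd (nat_lit 41496) (nat_lit 0) (nat_lit 8284) (XT.nd (nat_lit 936) (nat_lit 76) (nat_lit 0) (XT.nd (nat_lit 468) (nat_lit 304) (nat_lit 0) (XT.nd (nat_lit 234) (nat_lit 152) (nat_lit 0) (XT.nd (nat_lit 78) (nat_lit 152) (nat_lit 0) (XT.lf (nat_lit 0) (nat_lit 18779793163) (nat_lit 76) (nat_lit 38834219952) (nat_lit 76) (nat_lit 764784037) (nat_lit 22) (nat_lit 4) (nat_lit 23) (nat_lit 5) (nat_lit 23) (nat_lit 4) (nat_lit 381) (nat_lit 301) (nat_lit 218)) (XT.nd (nat_lit 78) (nat_lit 76) (nat_lit 0) (XT.lf (nat_lit 0) (nat_lit 13941524079) (nat_lit 152) (nat_lit 9800299487) (nat_lit 76) (nat_lit 37056526930) (nat_lit 21) (nat_lit 5) (nat_lit 23) (nat_lit 5) (nat_lit 22) (nat_lit 4) (nat_lit 382) (nat_lit 301) (nat_lit 217)) (XT.lf (nat_lit 0) (nat_lit 21857377758) (nat_lit 76) (nat_lit 7694147992) (nat_lit 152) (nat_lit 33781604823) (nat_lit 20) (nat_lit 5)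 (nat_lit 21) (nat_lit 5) (nat_lit 22) (nat_lit 4) (nat_lit 383) (nat_lit 301) (nat_lit 216)))) (XT.nd (nat_lit 78) (nat_lit 152) (nat_lit 0) (XT.lf (nat_lit 0) (nat_lit 46106420258) (nat_lit 152) (nat_lit 10826769894) (nat_lit 0) (nat_lit 9056529700) (nat_lit 20) (nat_lit 5) (nat_lit 22) (nat_lit 4) (nat_lit 20) (nat_lit 4) (nat_lit 384) (nat_lit 301) (nat_lit 215)) (XT.nd (nat_lit 78) (nat_lit 76) (nat_lit 0) (XT.lf (nat_lit 0) (nat_lit 21652986244) (nat_lit 76) (nat_lit 42097584591) (nat_lit 76) (nat_lit 5020724307) (nat_lit 19) (nat_lit 4) (nat_lit 20) (nat_lit 5) (nat_lit 20) (nat_lit 4) (nat_lit 385) (nat_lit 301) (nat_lit 214)) (XT.lf (nat_lit 0) (nat_lit 10467181829) (nat_lit 152) (nat_lit 15854166625) (nat_lit 76) (nat_lit 45364887414) (nat_lit 18) (nat_lit 5) (nat_lit 20) (nat_lit 5) (nat_lit 19) (nat_lit 4) (nat_lit 386) (nat_lit 301) (nat_lit 213))))) (XT.nd (nat_lit 234) (nat_lit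 152) (nat_lit 0) (XT.nd (nat_lit 78) (nat_lit 76) (nat_lit 0) (XT.lf (nat_lit 0) (nat_lit 17214921994) (nat_lit 76) (nat_lit 9554501685) (nat_lit 152) (nat_lit 47971697006) (nat_lit 17) (nat_lit 5) (nat_lit 18) (nat_lit 5) (nat_lit 19) (nat_lit 4) (nat_lit 387) (nat_lit 301) (nat_lit 212)) (XT.nd (nat_lit 78) (nat_lit 76) (nat_lit 0) (XT.lf (nat_lit 0) (nat_lit 44106795767) (nat_lit 152) (nat_lit 25796817052) (nat_lit 0) (nat_lit 8038537962) (nat_lit 17) (nat_lit 5) (nat_lit 19) (nat_lit 4) (nat_lit 17) (nat_lit 4) (nat_lit 388) (nat_lit 301) (nat_lit 211)) (XT.lf (nat_lit 0) (nat_lit 7528816938) (nat_lit 76) (nat_lit 54929893177) (nat_lit 76) (nat_lit 18840093566) (nat_lit 16) (nat_lit 4) (nat_lit 17) (nat_lit 5) (nat_lit 17) (nat_lit 4) (nat_lit 389) (nat_lit 301) (nat_lit 210)))) (XT.nd (nat_lit 78) (nat_lit 152) (nat_lit 0) (XT.lf (nat_lit 0) (nat_lit 43020281585) (nat_lit 76) (nat_lit 38952986625)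 (nat_lit 76) (nat_lit 2842671008) (nat_lit 16) (nat_lit 4) (nat_lit 17) (nat_lit 5) (nat_lit 17) (nat_lit 4) (nat_lit 390) (nat_lit 301) (nat_lit 209)) (XT.nd (nat_lit 78) (nat_lit 76) (nat_lit 0) (XT.lf (nat_lit 0) (nat_lit 13662592115) (nat_lit 152) (nat_lit 8394792676) (nat_lit 76) (nat_lit 66448115627) (nat_lit 15) (nat_lit 5) (nat_lit 17) (nat_lit 5) (nat_lit 16) (nat_lit 4) (nat_lit 391) (nat_lit 301) (nat_lit 208)) (XT.lf (nat_lit 0) (nat_lit 27140809925) (nat_lit 76) (nat_lit 4036171955) (nat_lit 152) (nat_lit 61194435075) (nat_lit 14) (nat_lit 5) (nat_lit 15) (nat_lit 5) (nat_lit 16) (nat_lit 4) (nat_lit 392) (nat_lit 301) (nat_lit 207)))))) (XT.nd (nat_lit 40092) (nat_lit 0) (nat_lit 23712) (XT.nd (nat_lit 39858) (nat_lit 0) (nat_lit 26524) (XT.nd (nat_lit 156) (nat_lit 76) (nat_lit 0) (XT.lf (nat_lit 0) (nat_lit 49779065032) (nat_lit 152) (nat_lit 31978942980) (nat_lit 0) (nat_lit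 14666263294) (nat_lit 14) (nat_lit 5) (nat_lit 16) (nat_lit 4) (nat_lit 14) (nat_lit 4) (nat_lit 393) (nat_lit 301) (nat_lit 206)) (XT.nd (nat_lit 39624) (nat_lit 0) (nat_lit 27284) (XT.lf (nat_lit 0) (nat_lit 40194363061) (nat_lit 76) (nat_lit 50042978612) (nat_lit 76) (nat_lit 14898183285) (nat_lit 13) (nat_lit 4) (nat_lit 14) (nat_lit 5) (nat_lit 14) (nat_lit 4) (nat_lit 395) (nat_lit 301) (nat_lit 204)) (XT.lf (nat_lit 0) (nat_lit 1563029947) (nat_lit 0) (nat_lit 1563029947) (nat_lit 228) (nat_lit 118349356) (nat_lit 372) (nat_lit 5) (nat_lit 372) (nat_lit 3) (nat_lit 375) (nat_lit 3) (nat_lit 302) (nat_lit 302) (nat_lit 296)))) (XT.nd (nat_lit 78) (nat_lit 380) (nat_lit 0) (XT.lf (nat_lit 76) (nat_lit 1873576755) (nat_lit 0) (nat_lit 2262767577) (nat_lit 380) (nat_lit 2379663223) (nat_lit 368) (nat_lit 5) (nat_lit 367) (nat_lit 3) (nat_lit 372) (nat_lit 5) (nat_lit 303) (nat_lit 302) (nat_lit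 295)) (XT.nd (nat_lit 78) (nat_lit 0) (nat_lit 76) (XT.lf (nat_lit 76) (nat_lit 736736171) (nat_lit 0) (nat_lit 1158193027) (nat_lit 456) (nat_lit 4656405553) (nat_lit 363) (nat_lit 5) (nat_lit 362) (nat_lit 5) (nat_lit 368) (nat_lit 5) (nat_lit 304) (nat_lit 302) (nat_lit 294)) (XT.lf (nat_lit 0) (nat_lit 6112741863) (nat_lit 380) (nat_lit 287277820) (nat_lit 456) (nat_lit 194569950) (nat_lit 363) (nat_lit 5) (nat_lit 368) (nat_lit 5) (nat_lit 369) (nat_lit 5) (nat_lit 305) (nat_lit 302) (nat_lit 293))))) (XT.nd (nat_lit 234) (nat_lit 1900) (nat_lit 0) (XT.nd (nat_lit 78) (nat_lit 532) (nat_lit 0) (XT.lf (nat_lit 0) (nat_lit 3630196075) (nat_lit 456) (nat_lit 1220463310) (nat_lit 532) (nat_lit 1794288158) (nat_lit 357) (nat_lit 5) (nat_lit 363) (nat_lit 5) (nat_lit 364) (nat_lit 5) (nat_lit 306) (nat_lit 302) (nat_lit 292)) (XT.nd (nat_lit 78) (nat_lit 0) (nat_lit 0) (XT.lf (nat_lit 0) (nat_lit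 1012761644) (nat_lit 532) (nat_lit 2048593046) (nat_lit 608) (nat_lit 3642260985) (nat_lit 350) (nat_lit 5) (nat_lit 357) (nat_lit 5) (nat_lit 358) (nat_lit 5) (nat_lit 307) (nat_lit 302) (nat_lit 291)) (XT.lf (nat_lit 76) (nat_lit 3980412918) (nat_lit 0) (nat_lit 1009343144) (nat_lit 608) (nat_lit 1780438752) (nat_lit 351) (nat_lit 5) (nat_lit 350) (nat_lit 5) (nat_lit 358) (nat_lit 5) (nat_lit 308) (nat_lit 302) (nat_lit 290)))) (XT.nd (nat_lit 78) (nat_lit 1368) (nat_lit 0) (XT.lf (nat_lit 0) (nat_lit 2113231182) (nat_lit 608) (nat_lit 3451551764) (nat_lit 76) (nat_lit 1279828621) (nat_lit 343) (nat_lit 5) (nat_lit 351) (nat_lit 5) (nat_lit 344) (nat_lit 5) (nat_lit 309) (nat_lit 302) (nat_lit 289)) (XT.nd (nat_lit 78) (nat_lit 760) (nat_lit 0) (XT.lf (nat_lit 0) (nat_lit 2894113765) (nat_lit 608) (nat_lit 3114956871) (nat_lit 684) (nat_lit 917984872) (nat_lit 335) (nat_lit 5) (nat_lit 343)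 (nat_lit 5) (nat_lit 344) (nat_lit 5) (nat_lit 310) (nat_lit 302) (nat_lit 288)) (XT.lf (nat_lit 0) (nat_lit 2479630794) (nat_lit 684) (nat_lit 389802302) (nat_lit 760) (nat_lit 4148143441) (nat_lit 325) (nat_lit 5) (nat_lit 334) (nat_lit 5) (nat_lit 335) (nat_lit 5) (nat_lit 311) (nat_lit 302) (nat_lit 287))))))) (XT.nd (nat_lit 936) (nat_lit 5168) (nat_lit 0) (XT.nd (nat_lit 468) (nat_lit 4332) (nat_lit 0) (XT.nd (nat_lit 234) (nat_lit 3344) (nat_lit 0) (XT.nd (nat_lit 78) (nat_lit 1824) (nat_lit 0) (XT.lf (nat_lit 0) (nat_lit 2141253943) (nat_lit 760) (nat_lit 4565666381) (nat_lit 836) (nat_lit 409184922) (nat_lit 315) (nat_lit 5) (nat_lit 325) (nat_lit 5) (nat_lit 326) (nat_lit 5) (nat_lit 312) (nat_lit 302) (nat_lit 286)) (XT.nd (nat_lit 78) (nat_lit 912) (nat_lit 0) (XT.lf (nat_lit 0) (nat_lit 1871986879) (nat_lit 836) (nat_lit 1444728050) (nat_lit 912) (nat_lit 3905906690) (nat_lit 303)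 (nat_lit 5) (nat_lit 314) (nat_lit 5) (nat_lit 315) (nat_lit 5) (nat_lit 313) (nat_lit 302) (nat_lit 285)) (XT.lf (nat_lit 0) (nat_lit 1683610836) (nat_lit 912) (nat_lit 5430398918) (nat_lit 988) (nat_lit 223653157) (nat_lit 291) (nat_lit 5) (nat_lit 303) (nat_lit 5) (nat_lit 304) (nat_lit 5) (nat_lit 314) (nat_lit 302) (nat_lit 284)))) (XT.nd (nat_lit 78) (nat_lit 2280) (nat_lit 0) (XT.lf (nat_lit 0) (nat_lit 1546150267) (nat_lit 988) (nat_lit 1924232151) (nat_lit 1064) (nat_lit 3990178727) (nat_lit 277) (nat_lit 5) (nat_lit 290) (nat_lit 5) (nat_lit 291) (nat_lit 5) (nat_lit 315) (nat_lit 302) (nat_lit 283)) (XT.nd (nat_lit 78) (nat_lit 1216) (nat_lit 0) (XT.lf (nat_lit 0) (nat_lit 1486302219) (nat_lit 1064) (nat_lit 5769508854) (nat_lit 1140) (nat_lit 336499574) (nat_lit 263) (nat_lit 5) (nat_lit 277) (nat_lit 5) (nat_lit 278) (nat_lit 5) (nat_lit 316) (nat_lit 302) (nat_lit 282)) (XT.lf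 (nat_lit 0) (nat_lit 1468192453) (nat_lit 1140) (nat_lit 1884926365) (nat_lit 1216) (nat_lit 4378976849) (nat_lit 247) (nat_lit 5) (nat_lit 262) (nat_lit 5) (nat_lit 263) (nat_lit 5) (nat_lit 317) (nat_lit 302) (nat_lit 281))))) (XT.nd (nat_lit 234) (nat_lit 1824) (nat_lit 0) (XT.nd (nat_lit 78) (nat_lit 1292) (nat_lit 0) (XT.lf (nat_lit 0) (nat_lit 1516921769) (nat_lit 1216) (nat_lit 5635980354) (nat_lit 1292) (nat_lit 727987452) (nat_lit 231) (nat_lit 5) (nat_lit 247) (nat_lit 5) (nat_lit 248) (nat_lit 5) (nat_lit 318) (nat_lit 302) (nat_lit 280)) (XT.nd (nat_lit 78) (nat_lit 608) (nat_lit 0) (XT.lf (nat_lit 0) (nat_lit 1606291456) (nat_lit 608) (nat_lit 1376441588) (nat_lit 684) (nat_lit 5055452532) (nat_lit 222) (nat_lit 5) (nat_lit 230) (nat_lit 5) (nat_lit 231) (nat_lit 5) (nat_lit 319) (nat_lit 302) (nat_lit 279)) (XT.lf (nat_lit 0) (nat_lit 1744680325) (nat_lit 608) (nat_lit 5076531572)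 (nat_lit 684) (nat_lit 1383286981) (nat_lit 214) (nat_lit 5) (nat_lit 222) (nat_lit 5) (nat_lit 223) (nat_lit 5) (nat_lit 320) (nat_lit 302) (nat_lit 278)))) (XT.nd (nat_lit 78) (nat_lit 1140) (nat_lit 0) (XT.lf (nat_lit 0) (nat_lit 1929862611) (nat_lit 608) (nat_lit 442499769) (nat_lit 684) (nat_lit 6007689293) (nat_lit 205) (nat_lit 5) (nat_lit 213) (nat_lit 5) (nat_lit 214) (nat_lit 5) (nat_lit 321) (nat_lit 302) (nat_lit 277)) (XT.nd (nat_lit 78) (nat_lit 608) (nat_lit 0) (XT.lf (nat_lit 0) (nat_lit 2139533999) (nat_lit 532) (nat_lit 4132641084) (nat_lit 608) (nat_lit 2292323153) (nat_lit 198) (nat_lit 5) (nat_lit 205) (nat_lit 5) (nat_lit 206) (nat_lit 5) (nat_lit 322) (nat_lit 302) (nat_lit 276)) (XT.lf (nat_lit 0) (nat_lit 1539024074) (nat_lit 608) (nat_lit 6358952564) (nat_lit 76) (nat_lit 860949252) (nat_lit 190) (nat_lit 5) (nat_lit 198) (nat_lit 5) (nat_lit 191) (nat_lit 5) (nat_lit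 323) (nat_lit 302) (nat_lit 275)))))) (XT.nd (nat_lit 468) (nat_lit 2280) (nat_lit 0) (XT.nd (nat_lit 234) (nat_lit 1368) (nat_lit 0) (XT.nd (nat_lit 78) (nat_lit 1064) (nat_lit 0) (XT.lf (nat_lit 0) (nat_lit 2671279236) (nat_lit 456) (nat_lit 2841516408) (nat_lit 532) (nat_lit 3449717954) (nat_lit 184) (nat_lit 5) (nat_lit 190) (nat_lit 5) (nat_lit 191) (nat_lit 5) (nat_lit 324) (nat_lit 302) (nat_lit 274)) (XT.nd (nat_lit 78) (nat_lit 456) (nat_lit 0) (XT.lf (nat_lit 0) (nat_lit 485946635) (nat_lit 608) (nat_lit 6189962743) (nat_lit 76) (nat_lit 2500679871) (nat_lit 176) (nat_lit 5) (nat_lit 184) (nat_lit 5) (nat_lit 177) (nat_lit 5) (nat_lit 325) (nat_lit 302) (nat_lit 273)) (XT.lf (nat_lit 0) (nat_lit 3308593564) (nat_lit 456) (nat_lit 1237023990) (nat_lit 532) (nat_lit 4854828872) (nat_lit 170) (nat_lit 5) (nat_lit 176) (nat_lit 5) (nat_lit 177) (nat_lit 5) (nat_lit 326) (nat_lit 302) (nat_lit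 272)))) (XT.nd (nat_lit 78) (nat_lit 912) (nat_lit 0) (XT.lf (nat_lit 0) (nat_lit 3654106603) (nat_lit 456) (nat_lit 5173100646) (nat_lit 532) (nat_lit 807777790) (nat_lit 164) (nat_lit 5) (nat_lit 170) (nat_lit 5) (nat_lit 171) (nat_lit 5) (nat_lit 327) (nat_lit 302) (nat_lit 271)) (XT.nd (nat_lit 78) (nat_lit 456) (nat_lit 0) (XT.lf (nat_lit 0) (nat_lit 3374841210) (nat_lit 456) (nat_lit 5868730103) (nat_lit 76) (nat_lit 636727932) (nat_lit 158) (nat_lit 5) (nat_lit 164) (nat_lit 5) (nat_lit 159) (nat_lit 5) (nat_lit 328) (nat_lit 302) (nat_lit 270)) (XT.lf (nat_lit 0) (nat_lit 4368380507) (nat_lit 456) (nat_lit 3421785259) (nat_lit 532) (nat_lit 2346314914) (nat_lit 152) (nat_lit 5) (nat_lit 158) (nat_lit 5) (nat_lit 159) (nat_lit 5) (nat_lit 329) (nat_lit 302) (nat_lit 269))))) (XT.nd (nat_lit 234) (nat_lit 1064) (nat_lit 0) (XT.nd (nat_lit 78) (nat_lit 760) (nat_lit 0) (XT.lf (nat_lit 0)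 (nat_lit 2001680925) (nat_lit 456) (nat_lit 5669205622) (nat_lit 76) (nat_lit 2733438153) (nat_lit 146) (nat_lit 5) (nat_lit 152) (nat_lit 5) (nat_lit 147) (nat_lit 5) (nat_lit 330) (nat_lit 302) (nat_lit 268)) (XT.nd (nat_lit 78) (nat_lit 380) (nat_lit 0) (XT.lf (nat_lit 0) (nat_lit 5095558618) (nat_lit 380) (nat_lit 1457371211) (nat_lit 456) (nat_lit 4130946727) (nat_lit 141) (nat_lit 5) (nat_lit 146) (nat_lit 5) (nat_lit 147) (nat_lit 5) (nat_lit 331) (nat_lit 302) (nat_lit 267)) (XT.lf (nat_lit 0) (nat_lit 401952322) (nat_lit 380) (nat_lit 5525267652) (nat_lit 76) (nat_lit 5048488512) (nat_lit 136) (nat_lit 5) (nat_lit 141) (nat_lit 5) (nat_lit 137) (nat_lit 5) (nat_lit 332) (nat_lit 302) (nat_lit 266)))) (XT.nd (nat_lit 78) (nat_lit 684) (nat_lit 0) (XT.lf (nat_lit 0) (nat_lit 5108578194) (nat_lit 456) (nat_lit 5495242170) (nat_lit 76) (nat_lit 676147827) (nat_lit 131) (nat_lit 5) (nat_lit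 137) (nat_lit 5) (nat_lit 132) (nat_lit 5) (nat_lit 333) (nat_lit 302) (nat_lit 265)) (XT.nd (nat_lit 78) (nat_lit 380) (nat_lit 0) (XT.lf (nat_lit 0) (nat_lit 6095921308) (nat_lit 304) (nat_lit 4030323344) (nat_lit 380) (nat_lit 1470961785) (nat_lit 127) (nat_lit 5) (nat_lit 131) (nat_lit 5) (nat_lit 132) (nat_lit 5) (nat_lit 334) (nat_lit 302) (nat_lit 264)) (XT.lf (nat_lit 0) (nat_lit 3446613986) (nat_lit 380) (nat_lit 5551969935) (nat_lit 76) (nat_lit 2929265723) (nat_lit 122) (nat_lit 5) (nat_lit 127) (nat_lit 5) (nat_lit 123) (nat_lit 5) (nat_lit 335) (nat_lit 302) (nat_lit 263))))))))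
noncomputable def xc53 : XT := (XT.nd (nat_lit 1872) (nat_lit 2280) (nat_lit 0) (XT.nd (nat_lit 936) (nat_lit 1976) (nat_lit 0) (XT.nd (nat_lit 468) (nat_lit 1520) (nat_lit 0) (XT.nd (nat_lit 234) (nat_lit 912) (nat_lit 0) (XT.nd (nat_lit 78) (nat_lit 684) (nat_lit 0) (XT.lf (nat_lit 0) (nat_lit 6624678822) (nat_lit 304) (nat_lit 2022083941) (nat_lit 380) (nat_lit 3625844289) (nat_lit 118) (nat_lit 5) (nat_lit 122) (nat_lit 5) (nat_lit 123) (nat_lit 5) (nat_lit 336) (nat_lit 302) (nat_lit 262)) (XT.nd (nat_lit 78) (nat_lit 304) (nat_lit 0) (XT.lf (nat_lit 0) (nat_lit 1526930408) (nat_lit 380) (nat_lit 5807400928) (nat_lit 76) (nat_lit 5297376084) (nat_lit 113) (nat_lit 5) (nat_lit 118) (nat_lit 5) (nat_lit 114) (nat_lit 5) (nat_lit 337) (nat_lit 302) (nat_lit 261)) (XT.lf (nat_lit 0) (nat_lit 6920099527) (nat_lit 380) (nat_lit 6030253463) (nat_lit 76) (nat_lit 55629085) (nat_lit 109) (nat_lit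 5) (nat_lit 114) (nat_lit 5) (nat_lit 110) (nat_lit 5) (nat_lit 338) (nat_lit 302) (nat_lit 260)))) (XT.nd (nat_lit 78) (nat_lit 608) (nat_lit 0) (XT.lf (nat_lit 0) (nat_lit 7053403559) (nat_lit 304) (nat_lit 5644653951) (nat_lit 380) (nat_lit 697486245) (nat_lit 105) (nat_lit 5) (nat_lit 109) (nat_lit 5) (nat_lit 110) (nat_lit 5) (nat_lit 339) (nat_lit 302) (nat_lit 259)) (XT.nd (nat_lit 78) (nat_lit 304) (nat_lit 0) (XT.lf (nat_lit 0) (nat_lit 4930030549) (nat_lit 304) (nat_lit 6748080760) (nat_lit 76) (nat_lit 2123072073) (nat_lit 101) (nat_lit 5) (nat_lit 105) (nat_lit 5) (nat_lit 102) (nat_lit 5) (nat_lit 340) (nat_lit 302) (nat_lit 258)) (XT.lf (nat_lit 0) (nat_lit 6968721682) (nat_lit 304) (nat_lit 3963204056) (nat_lit 380) (nat_lit 3291773207) (nat_lit 97) (nat_lit 5) (nat_lit 101) (nat_lit 5) (nat_lit 102) (nat_lit 5) (nat_lit 341) (nat_lit 302) (nat_lit 257))))) (XT.nd (nat_lit 234)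 (nat_lit 760) (nat_lit 0) (XT.nd (nat_lit 78) (nat_lit 456) (nat_lit 0) (XT.lf (nat_lit 0) (nat_lit 2612538224) (nat_lit 304) (nat_lit 7876924633) (nat_lit 76) (nat_lit 4174278055) (nat_lit 93) (nat_lit 5) (nat_lit 97) (nat_lit 5) (nat_lit 94) (nat_lit 5) (nat_lit 342) (nat_lit 302) (nat_lit 256)) (XT.nd (nat_lit 78) (nat_lit 228) (nat_lit 0) (XT.lf (nat_lit 0) (nat_lit 6487007689) (nat_lit 228) (nat_lit 2356954954) (nat_lit 304) (nat_lit 6277866388) (nat_lit 90) (nat_lit 5) (nat_lit 93) (nat_lit 5) (nat_lit 94) (nat_lit 5) (nat_lit 343) (nat_lit 302) (nat_lit 255)) (XT.lf (nat_lit 0) (nat_lit 6068875058) (nat_lit 228) (nat_lit 9441440280) (nat_lit 304) (nat_lit 88825596) (nat_lit 87) (nat_lit 5) (nat_lit 90) (nat_lit 5) (nat_lit 91) (nat_lit 5) (nat_lit 344) (nat_lit 302) (nat_lit 254)))) (XT.nd (nat_lit 78) (nat_lit 456) (nat_lit 0) (XT.lf (nat_lit 0) (nat_lit 5490749020) (nat_lit 228) (nat_lit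 885622050) (nat_lit 304) (nat_lit 9719364145) (nat_lit 83) (nat_lit 5) (nat_lit 86) (nat_lit 5) (nat_lit 87) (nat_lit 5) (nat_lit 345) (nat_lit 302) (nat_lit 253)) (XT.nd (nat_lit 78) (nat_lit 304) (nat_lit 0) (XT.lf (nat_lit 0) (nat_lit 4741619601) (nat_lit 152) (nat_lit 8571319588) (nat_lit 228) (nat_lit 3299712871) (nat_lit 81) (nat_lit 5) (nat_lit 83) (nat_lit 5) (nat_lit 84) (nat_lit 5) (nat_lit 346) (nat_lit 302) (nat_lit 252)) (XT.lf (nat_lit 0) (nat_lit 3462603836) (nat_lit 304) (nat_lit 13315649880) (nat_lit 76) (nat_lit 373520274) (nat_lit 77) (nat_lit 5) (nat_lit 81) (nat_lit 5) (nat_lit 78) (nat_lit 5) (nat_lit 347) (nat_lit 302) (nat_lit 251)))))) (XT.nd (nat_lit 468) (nat_lit 912) (nat_lit 0) (XT.nd (nat_lit 234) (nat_lit 608) (nat_lit 0) (XT.nd (nat_lit 78) (nat_lit 304) (nat_lit 0) (XT.lf (nat_lit 0) (nat_lit 2678505025) (nat_lit 152) (nat_lit 7983513207) (nat_lit 228) (nat_lit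 7049852502) (nat_lit 75) (nat_lit 5) (nat_lit 77) (nat_lit 5) (nat_lit 78) (nat_lit 5) (nat_lit 348) (nat_lit 302) (nat_lit 250)) (XT.nd (nat_lit 78) (nat_lit 0) (nat_lit 0) (XT.lf (nat_lit 0) (nat_lit 20074018) (nat_lit 304) (nat_lit 16943029837) (nat_lit 76) (nat_lit 1333992229) (nat_lit 71) (nat_lit 5) (nat_lit 75) (nat_lit 5) (nat_lit 72) (nat_lit 5) (nat_lit 349) (nat_lit 302) (nat_lit 249)) (XT.lf (nat_lit 0) (nat_lit 7470102200) (nat_lit 304) (nat_lit 296794674) (nat_lit 76) (nat_lit 11137433321) (nat_lit 71) (nat_lit 5) (nat_lit 75) (nat_lit 5) (nat_lit 72) (nat_lit 5) (nat_lit 350) (nat_lit 302) (nat_lit 248)))) (XT.nd (nat_lit 78) (nat_lit 456) (nat_lit 0) (XT.lf (nat_lit 0) (nat_lit 15416754671) (nat_lit 228) (nat_lit 2142902789) (nat_lit 76) (nat_lit 1978557930) (nat_lit 69) (nat_lit 5) (nat_lit 72) (nat_lit 5) (nat_lit 70) (nat_lit 5) (nat_lit 351) (nat_lit 302) (nat_lit 247)) (XT.nd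 (nat_lit 78) (nat_lit 152) (nat_lit 0) (XT.lf (nat_lit 0) (nat_lit 3662476977) (nat_lit 304) (nat_lit 4332788271) (nat_lit 76) (nat_lit 12202267709) (nat_lit 65) (nat_lit 5) (nat_lit 69) (nat_lit 5) (nat_lit 66) (nat_lit 5) (nat_lit 352) (nat_lit 302) (nat_lit 246)) (XT.lf (nat_lit 0) (nat_lit 11870050975) (nat_lit 228) (nat_lit 6848853753) (nat_lit 76) (nat_lit 2166108657) (nat_lit 63) (nat_lit 5) (nat_lit 66) (nat_lit 5) (nat_lit 64) (nat_lit 5) (nat_lit 353) (nat_lit 302) (nat_lit 245))))) (XT.nd (nat_lit 234) (nat_lit 380) (nat_lit 0) (XT.nd (nat_lit 78) (nat_lit 380) (nat_lit 0) (XT.lf (nat_lit 0) (nat_lit 11857544291) (nat_lit 152) (nat_lit 8811901221) (nat_lit 228) (nat_lit 931990028) (nat_lit 61) (nat_lit 5) (nat_lit 63) (nat_lit 5) (nat_lit 64) (nat_lit 5) (nat_lit 354) (nat_lit 302) (nat_lit 244)) (XT.nd (nat_lit 78) (nat_lit 152) (nat_lit 0) (XT.lf (nat_lit 0) (nat_lit 7528463729)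 (nat_lit 228) (nat_lit 13066138675) (nat_lit 76) (nat_lit 1753284977) (nat_lit 58) (nat_lit 5) (nat_lit 61) (nat_lit 5) (nat_lit 59) (nat_lit 5) (nat_lit 355) (nat_lit 302) (nat_lit 243)) (XT.lf (nat_lit 0) (nat_lit 6258496547) (nat_lit 152) (nat_lit 10329113382) (nat_lit 228) (nat_lit 6537936365) (nat_lit 56) (nat_lit 5) (nat_lit 58) (nat_lit 5) (nat_lit 59) (nat_lit 5) (nat_lit 356) (nat_lit 302) (nat_lit 242)))) (XT.nd (nat_lit 78) (nat_lit 152) (nat_lit 0) (XT.lf (nat_lit 0) (nat_lit 2229774994) (nat_lit 228) (nat_lit 21122837292) (nat_lit 76) (nat_lit 585434995) (nat_lit 53) (nat_lit 5) (nat_lit 56) (nat_lit 5) (nat_lit 54) (nat_lit 5) (nat_lit 357) (nat_lit 302) (nat_lit 241)) (XT.nd (nat_lit 78) (nat_lit 152) (nat_lit 0) (XT.lf (nat_lit 0) (nat_lit 11528380635) (nat_lit 228) (nat_lit 1218524784) (nat_lit 76) (nat_lit 12035502738) (nat_lit 53) (nat_lit 5) (nat_lit 56) (nat_lit 5) (nat_lit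 54) (nat_lit 5) (nat_lit 358) (nat_lit 302) (nat_lit 240)) (XT.lf (nat_lit 0) (nat_lit 19980754591) (nat_lit 152) (nat_lit 1452621176) (nat_lit 228) (nat_lit 4231375627) (nat_lit 51) (nat_lit 5) (nat_lit 53) (nat_lit 5) (nat_lit 54) (nat_lit 5) (nat_lit 359) (nat_lit 302) (nat_lit 239))))))) (XT.nd (nat_lit 936) (nat_lit 912) (nat_lit 0) (XT.nd (nat_lit 468) (nat_lit 608) (nat_lit 0) (XT.nd (nat_lit 234) (nat_lit 304) (nat_lit 0) (XT.nd (nat_lit 78) (nat_lit 228) (nat_lit 0) (XT.lf (nat_lit 0) (nat_lit 5357344601) (nat_lit 228) (nat_lit 10843291849) (nat_lit 76) (nat_lit 10382554010) (nat_lit 48) (nat_lit 5) (nat_lit 51) (nat_lit 5) (nat_lit 49) (nat_lit 5) (nat_lit 360) (nat_lit 302) (nat_lit 238)) (XT.nd (nat_lit 78) (nat_lit 76) (nat_lit 0) (XT.lf (nat_lit 0) (nat_lit 10875137433) (nat_lit 152) (nat_lit 4593590280) (nat_lit 228) (nat_lit 12073651901) (nat_lit 46) (nat_lit 5) (nat_lit 48)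 (nat_lit 5) (nat_lit 49) (nat_lit 5) (nat_lit 361) (nat_lit 302) (nat_lit 237)) (XT.lf (nat_lit 0) (nat_lit 5303641490) (nat_lit 76) (nat_lit 20971504786) (nat_lit 152) (nat_lit 2268704751) (nat_lit 45) (nat_lit 5) (nat_lit 46) (nat_lit 5) (nat_lit 47) (nat_lit 4) (nat_lit 362) (nat_lit 302) (nat_lit 236)))) (XT.nd (nat_lit 78) (nat_lit 228) (nat_lit 0) (XT.lf (nat_lit 0) (nat_lit 8043252437) (nat_lit 152) (nat_lit 1078224813) (nat_lit 76) (nat_lit 20466408717) (nat_lit 44) (nat_lit 5) (nat_lit 46) (nat_lit 5) (nat_lit 45) (nat_lit 5) (nat_lit 363) (nat_lit 302) (nat_lit 235)) (XT.nd (nat_lit 78) (nat_lit 76) (nat_lit 0) (XT.lf (nat_lit 0) (nat_lit 19030781954) (nat_lit 228) (nat_lit 8183759959) (nat_lit 76) (nat_lit 3462706004) (nat_lit 42) (nat_lit 5) (nat_lit 45) (nat_lit 5) (nat_lit 43) (nat_lit 4) (nat_lit 364) (nat_lit 302) (nat_lit 234)) (XT.lf (nat_lit 0) (nat_lit 15578623197) (nat_lit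 76) (nat_lit 15199055545) (nat_lit 152) (nat_lit 1037105191) (nat_lit 41) (nat_lit 5) (nat_lit 42) (nat_lit 5) (nat_lit 43) (nat_lit 4) (nat_lit 365) (nat_lit 302) (nat_lit 233))))) (XT.nd (nat_lit 234) (nat_lit 304) (nat_lit 0) (XT.nd (nat_lit 78) (nat_lit 76) (nat_lit 0) (XT.lf (nat_lit 0) (nat_lit 7667795460) (nat_lit 152) (nat_lit 2354434268) (nat_lit 228) (nat_lit 22980559481) (nat_lit 38) (nat_lit 5) (nat_lit 40) (nat_lit 5) (nat_lit 41) (nat_lit 5) (nat_lit 366) (nat_lit 302) (nat_lit 232)) (XT.nd (nat_lit 78) (nat_lit 76) (nat_lit 0) (XT.lf (nat_lit 0) (nat_lit 21847900459) (nat_lit 228) (nat_lit 1334116880) (nat_lit 76) (nat_lit 11060829831) (nat_lit 38) (nat_lit 5) (nat_lit 41) (nat_lit 5) (nat_lit 39) (nat_lit 4) (nat_lit 367) (nat_lit 302) (nat_lit 231)) (XT.lf (nat_lit 0) (nat_lit 24243703334) (nat_lit 76) (nat_lit 10238736977) (nat_lit 152) (nat_lit 1055944925) (nat_lit 37) (nat_lit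 5) (nat_lit 38) (nat_lit 5) (nat_lit 39) (nat_lit 4) (nat_lit 368) (nat_lit 302) (nat_lit 230)))) (XT.nd (nat_lit 78) (nat_lit 76) (nat_lit 0) (XT.lf (nat_lit 0) (nat_lit 10785968154) (nat_lit 228) (nat_lit 22592444618) (nat_lit 76) (nat_lit 3512732425) (nat_lit 34) (nat_lit 5) (nat_lit 37) (nat_lit 5) (nat_lit 35) (nat_lit 4) (nat_lit 369) (nat_lit 302) (nat_lit 229)) (XT.nd (nat_lit 78) (nat_lit 0) (nat_lit 0) (XT.lf (nat_lit 0) (nat_lit 2972690537) (nat_lit 76) (nat_lit 20437434425) (nat_lit 152) (nat_lit 14894749152) (nat_lit 33) (nat_lit 5) (nat_lit 34) (nat_lit 5) (nat_lit 35) (nat_lit 4) (nat_lit 370) (nat_lit 302) (nat_lit 228)) (XT.lf (nat_lit 0) (nat_lit 30220312496) (nat_lit 76) (nat_lit 6641328403) (nat_lit 152) (nat_lit 2921768042) (nat_lit 33) (nat_lit 5) (nat_lit 34) (nat_lit 5) (nat_lit 35) (nat_lit 4) (nat_lit 371) (nat_lit 302) (nat_lit 227)))))) (XT.nd (nat_lit 468) (nat_lit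 380) (nat_lit 0) (XT.nd (nat_lit 234) (nat_lit 228) (nat_lit 0) (XT.nd (nat_lit 78) (nat_lit 76) (nat_lit 0) (XT.lf (nat_lit 0) (nat_lit 9674208316) (nat_lit 228) (nat_lit 23725402288) (nat_lit 76) (nat_lit 7927101305) (nat_lit 30) (nat_lit 5) (nat_lit 33) (nat_lit 5) (nat_lit 31) (nat_lit 4) (nat_lit 372) (nat_lit 302) (nat_lit 226)) (XT.nd (nat_lit 78) (nat_lit 0) (nat_lit 0) (XT.lf (nat_lit 0) (nat_lit 3281874155) (nat_lit 76) (nat_lit 19721985994) (nat_lit 152) (nat_lit 19937526452) (nat_lit 29) (nat_lit 5) (nat_lit 30) (nat_lit 5) (nat_lit 31) (nat_lit 4) (nat_lit 373) (nat_lit 302) (nat_lit 225)) (XT.lf (nat_lit 0) (nat_lit 32072926833) (nat_lit 76) (nat_lit 5138074807) (nat_lit 152) (nat_lit 7419466533) (nat_lit 29) (nat_lit 5) (nat_lit 30) (nat_lit 5) (nat_lit 31) (nat_lit 4) (nat_lit 374) (nat_lit 302) (nat_lit 224)))) (XT.nd (nat_lit 78) (nat_lit 76) (nat_lit 0) (XT.lf (nat_lit 0)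 (nat_lit 5835196709) (nat_lit 152) (nat_lit 30399692958) (nat_lit 76) (nat_lit 10160794266) (nat_lit 27) (nat_lit 5) (nat_lit 29) (nat_lit 5) (nat_lit 28) (nat_lit 4) (nat_lit 375) (nat_lit 302) (nat_lit 223)) (XT.nd (nat_lit 78) (nat_lit 76) (nat_lit 0) (XT.lf (nat_lit 0) (nat_lit 19751721309) (nat_lit 152) (nat_lit 2192689441) (nat_lit 76) (nat_lit 26297971661) (nat_lit 27) (nat_lit 5) (nat_lit 29) (nat_lit 5) (nat_lit 28) (nat_lit 4) (nat_lit 376) (nat_lit 302) (nat_lit 222)) (XT.lf (nat_lit 0) (nat_lit 27913163548) (nat_lit 76) (nat_lit 6689454810) (nat_lit 152) (nat_lit 15571643885) (nat_lit 26) (nat_lit 5) (nat_lit 27) (nat_lit 5) (nat_lit 28) (nat_lit 4) (nat_lit 377) (nat_lit 302) (nat_lit 221))))) (XT.nd (nat_lit 234) (nat_lit 152) (nat_lit 0) (XT.nd (nat_lit 78) (nat_lit 152) (nat_lit 0) (XT.lf (nat_lit 0) (nat_lit 7366731675) (nat_lit 76) (nat_lit 42983480134) (nat_lit 76) (nat_lit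 1847902393) (nat_lit 25) (nat_lit 4) (nat_lit 26) (nat_lit 5) (nat_lit 26) (nat_lit 4) (nat_lit 378) (nat_lit 302) (nat_lit 220)) (XT.nd (nat_lit 78) (nat_lit 76) (nat_lit 0) (XT.lf (nat_lit 0) (nat_lit 12587304557) (nat_lit 152) (nat_lit 15619866691) (nat_lit 76) (nat_lit 26104255114) (nat_lit 24) (nat_lit 5) (nat_lit 26) (nat_lit 5) (nat_lit 25) (nat_lit 4) (nat_lit 379) (nat_lit 302) (nat_lit 219)) (XT.lf (nat_lit 0) (nat_lit 15280137781) (nat_lit 76) (nat_lit 12545976016) (nat_lit 152) (nat_lit 28700142029) (nat_lit 23) (nat_lit 5) (nat_lit 24) (nat_lit 5) (nat_lit 25) (nat_lit 4) (nat_lit 380) (nat_lit 302) (nat_lit 218)))) (XT.nd (nat_lit 78) (nat_lit 152) (nat_lit 0) (XT.lf (nat_lit 0) (nat_lit 44000126923) (nat_lit 152) (nat_lit 10885207757) (nat_lit 0) (nat_lit 3961296431) (nat_lit 23) (nat_lit 5) (nat_lit 25) (nat_lit 4) (nat_lit 23) (nat_lit 4) (nat_lit 381) (nat_lit 302) (nat_lit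 217)) (XT.nd (nat_lit 78) (nat_lit 0) (nat_lit 0) (XT.lf (nat_lit 0) (nat_lit 14103228) (nat_lit 152) (nat_lit 40040827084) (nat_lit 76) (nat_lit 21218930596) (nat_lit 21) (nat_lit 5) (nat_lit 23) (nat_lit 5) (nat_lit 22) (nat_lit 4) (nat_lit 382) (nat_lit 302) (nat_lit 216)) (XT.lf (nat_lit 0) (nat_lit 15401892276) (nat_lit 152) (nat_lit 8832783076) (nat_lit 76) (nat_lit 39580632978) (nat_lit 21) (nat_lit 5) (nat_lit 23) (nat_lit 5) (nat_lit 22) (nat_lit 4) (nat_lit 383) (nat_lit 302) (nat_lit 215))))))))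
noncomputable def xc54 : XT := (XT.nd (nat_lit 41574) (nat_lit 0) (nat_lit 7296) (XT.nd (nat_lit 40638) (nat_lit 0) (nat_lit 21052) (XT.nd (nat_lit 468) (nat_lit 304) (nat_lit 0) (XT.nd (nat_lit 234) (nat_lit 152) (nat_lit 0) (XT.nd (nat_lit 78) (nat_lit 76) (nat_lit 0) (XT.lf (nat_lit 0) (nat_lit 24365998187) (nat_lit 76) (nat_lit 7403657676) (nat_lit 152) (nat_lit 34707856595) (nat_lit 20) (nat_lit 5) (nat_lit 21) (nat_lit 5) (nat_lit 22) (nat_lit 4) (nat_lit 384) (nat_lit 302) (nat_lit 214)) (XT.nd (nat_lit 78) (nat_lit 76) (nat_lit 0) (XT.lf (nat_lit 0) (nat_lit 49123211974) (nat_lit 152) (nat_lit 10004740988) (nat_lit 0) (nat_lit 10139853495) (nat_lit 20) (nat_lit 5) (nat_lit 22) (nat_lit 4) (nat_lit 20) (nat_lit 4) (nat_lit 385) (nat_lit 302) (nat_lit 213)) (XT.lf (nat_lit 0) (nat_lit 24059922304) (nat_lit 76) (nat_lit 43568498073) (nat_lit 76) (nat_lit 4560677257) (nat_lit 19) (nat_lit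 4) (nat_lit 20) (nat_lit 5) (nat_lit 20) (nat_lit 4) (nat_lit 386) (nat_lit 302) (nat_lit 212)))) (XT.nd (nat_lit 78) (nat_lit 76) (nat_lit 0) (XT.lf (nat_lit 0) (nat_lit 11654548034) (nat_lit 152) (nat_lit 15372385770) (nat_lit 76) (nat_lit 48223644976) (nat_lit 18) (nat_lit 5) (nat_lit 20) (nat_lit 5) (nat_lit 19) (nat_lit 4) (nat_lit 387) (nat_lit 302) (nat_lit 211)) (XT.nd (nat_lit 78) (nat_lit 0) (nat_lit 0) (XT.lf (nat_lit 0) (nat_lit 19313624303) (nat_lit 76) (nat_lit 9438558279) (nat_lit 152) (nat_lit 49706619155) (nat_lit 17) (nat_lit 5) (nat_lit 18) (nat_lit 5) (nat_lit 19) (nat_lit 4) (nat_lit 388) (nat_lit 302) (nat_lit 210)) (XT.lf (nat_lit 0) (nat_lit 46931177864) (nat_lit 152) (nat_lit 25894634584) (nat_lit 0) (nat_lit 8994830460) (nat_lit 17) (nat_lit 5) (nat_lit 19) (nat_lit 4) (nat_lit 17) (nat_lit 4) (nat_lit 389) (nat_lit 302) (nat_lit 209))))) (XT.nd (nat_lit 234) (nat_lit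 152) (nat_lit 0) (XT.nd (nat_lit 78) (nat_lit 76) (nat_lit 0) (XT.lf (nat_lit 0) (nat_lit 9063111996) (nat_lit 76) (nat_lit 57119227731) (nat_lit 76) (nat_lit 19163341273) (nat_lit 16) (nat_lit 4) (nat_lit 17) (nat_lit 5) (nat_lit 17) (nat_lit 4) (nat_lit 390) (nat_lit 302) (nat_lit 208)) (XT.nd (nat_lit 78) (nat_lit 76) (nat_lit 0) (XT.lf (nat_lit 0) (nat_lit 46274013961) (nat_lit 76) (nat_lit 40370007285) (nat_lit 76) (nat_lit 2395512205) (nat_lit 16) (nat_lit 4) (nat_lit 17) (nat_lit 5) (nat_lit 17) (nat_lit 4) (nat_lit 391) (nat_lit 302) (nat_lit 207)) (XT.lf (nat_lit 0) (nat_lit 14896000899) (nat_lit 152) (nat_lit 7753335751) (nat_lit 76) (nat_lit 70264893391) (nat_lit 15) (nat_lit 5) (nat_lit 17) (nat_lit 5) (nat_lit 16) (nat_lit 4) (nat_lit 392) (nat_lit 302) (nat_lit 206)))) (XT.nd (nat_lit 156) (nat_lit 76) (nat_lit 0) (XT.lf (nat_lit 0) (nat_lit 29528627993) (nat_lit 76) (nat_lit 3741186853)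 (nat_lit 152) (nat_lit 63704118181) (nat_lit 14) (nat_lit 5) (nat_lit 15) (nat_lit 5) (nat_lit 16) (nat_lit 4) (nat_lit 393) (nat_lit 302) (nat_lit 205)) (XT.nd (nat_lit 39702) (nat_lit 0) (nat_lit 26524) (XT.lf (nat_lit 0) (nat_lit 4027486201) (nat_lit 76) (nat_lit 69301095988) (nat_lit 76) (nat_lit 32368590810) (nat_lit 13) (nat_lit 4) (nat_lit 14) (nat_lit 5) (nat_lit 14) (nat_lit 4) (nat_lit 395) (nat_lit 302) (nat_lit 203)) (XT.lf (nat_lit 0) (nat_lit 441704788) (nat_lit 0) (nat_lit 441704788) (nat_lit 380) (nat_lit 2390278617) (nat_lit 362) (nat_lit 5) (nat_lit 362) (nat_lit 3) (nat_lit 367) (nat_lit 3) (nat_lit 303) (nat_lit 303) (nat_lit 294)))))) (XT.nd (nat_lit 468) (nat_lit 3952) (nat_lit 0) (XT.nd (nat_lit 234) (nat_lit 532) (nat_lit 0) (XT.nd (nat_lit 78) (nat_lit 988) (nat_lit 0) (XT.lf (nat_lit 0) (nat_lit 5847797093) (nat_lit 380) (nat_lit 384394011) (nat_lit 456) (nat_lit 354353466)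 (nat_lit 362) (nat_lit 5) (nat_lit 367) (nat_lit 3) (nat_lit 368) (nat_lit 5) (nat_lit 304) (nat_lit 303) (nat_lit 293)) (XT.nd (nat_lit 78) (nat_lit 532) (nat_lit 0) (XT.lf (nat_lit 0) (nat_lit 3235681627) (nat_lit 456) (nat_lit 1553886840) (nat_lit 532) (nat_lit 1843336122) (nat_lit 356) (nat_lit 5) (nat_lit 362) (nat_lit 5) (nat_lit 363) (nat_lit 5) (nat_lit 305) (nat_lit 303) (nat_lit 292)) (XT.lf (nat_lit 0) (nat_lit 490730611) (nat_lit 532) (nat_lit 2617833452) (nat_lit 608) (nat_lit 3579016682) (nat_lit 349) (nat_lit 5) (nat_lit 356) (nat_lit 5) (nat_lit 357) (nat_lit 5) (nat_lit 306) (nat_lit 303) (nat_lit 291)))) (XT.nd (nat_lit 78) (nat_lit 532) (nat_lit 0) (XT.lf (nat_lit 76) (nat_lit 3149065594) (nat_lit 0) (nat_lit 1160187868) (nat_lit 608) (nat_lit 2440721963) (nat_lit 350) (nat_lit 5) (nat_lit 349) (nat_lit 5) (nat_lit 357) (nat_lit 5) (nat_lit 307) (nat_lit 303) (nat_lit 290))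 (XT.nd (nat_lit 78) (nat_lit 0) (nat_lit 0) (XT.lf (nat_lit 0) (nat_lit 1300603483) (nat_lit 608) (nat_lit 4496840954) (nat_lit 684) (nat_lit 1022982849) (nat_lit 342) (nat_lit 5) (nat_lit 350) (nat_lit 5) (nat_lit 351) (nat_lit 5) (nat_lit 308) (nat_lit 303) (nat_lit 289)) (XT.lf (nat_lit 76) (nat_lit 1575415205) (nat_lit 0) (nat_lit 3445505926) (nat_lit 684) (nat_lit 1877647968) (nat_lit 343) (nat_lit 5) (nat_lit 342) (nat_lit 5) (nat_lit 351) (nat_lit 5) (nat_lit 309) (nat_lit 303) (nat_lit 288))))) (XT.nd (nat_lit 234) (nat_lit 2584) (nat_lit 0) (XT.nd (nat_lit 78) (nat_lit 684) (nat_lit 0) (XT.lf (nat_lit 76) (nat_lit 919633841) (nat_lit 0) (nat_lit 829223705) (nat_lit 760) (nat_lit 5236144934) (nat_lit 334) (nat_lit 5) (nat_lit 333) (nat_lit 5) (nat_lit 343) (nat_lit 5) (nat_lit 310) (nat_lit 303) (nat_lit 287)) (XT.nd (nat_lit 78) (nat_lit 76) (nat_lit 0) (XT.lf (nat_lit 0) (nat_lit 332265363)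 (nat_lit 684) (nat_lit 5057068384) (nat_lit 760) (nat_lit 1689866530) (nat_lit 325) (nat_lit 5) (nat_lit 334) (nat_lit 5) (nat_lit 335) (nat_lit 5) (nat_lit 311) (nat_lit 303) (nat_lit 286)) (XT.lf (nat_lit 0) (nat_lit 1865944353) (nat_lit 760) (nat_lit 176079762) (nat_lit 76) (nat_lit 5139474145) (nat_lit 324) (nat_lit 5) (nat_lit 334) (nat_lit 5) (nat_lit 325) (nat_lit 5) (nat_lit 312) (nat_lit 303) (nat_lit 285)))) (XT.nd (nat_lit 78) (nat_lit 1824) (nat_lit 0) (XT.lf (nat_lit 0) (nat_lit 5451350185) (nat_lit 836) (nat_lit 608248084) (nat_lit 76) (nat_lit 1232335849) (nat_lit 314) (nat_lit 5) (nat_lit 325) (nat_lit 5) (nat_lit 315) (nat_lit 5) (nat_lit 313) (nat_lit 303) (nat_lit 284)) (XT.nd (nat_lit 78) (nat_lit 912) (nat_lit 0) (XT.lf (nat_lit 0) (nat_lit 1674309249) (nat_lit 912) (nat_lit 982729323) (nat_lit 76) (nat_lit 4753405940) (nat_lit 302) (nat_lit 5) (nat_lit 314) (nat_lit 5)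 (nat_lit 303) (nat_lit 5) (nat_lit 314) (nat_lit 303) (nat_lit 283)) (XT.lf (nat_lit 0) (nat_lit 5227287989) (nat_lit 988) (nat_lit 1293117422) (nat_lit 76) (nat_lit 1017028391) (nat_lit 290) (nat_lit 5) (nat_lit 303) (nat_lit 5) (nat_lit 291) (nat_lit 5) (nat_lit 315) (nat_lit 303) (nat_lit 282))))))) (XT.nd (nat_lit 936) (nat_lit 4636) (nat_lit 0) (XT.nd (nat_lit 468) (nat_lit 3268) (nat_lit 0) (XT.nd (nat_lit 234) (nat_lit 2508) (nat_lit 0) (XT.nd (nat_lit 78) (nat_lit 2280) (nat_lit 0) (XT.lf (nat_lit 0) (nat_lit 1188179636) (nat_lit 1064) (nat_lit 1552925460) (nat_lit 76) (nat_lit 4931615509) (nat_lit 276) (nat_lit 5) (nat_lit 290) (nat_lit 5) (nat_lit 277) (nat_lit 5) (nat_lit 316) (nat_lit 303) (nat_lit 281)) (XT.nd (nat_lit 78) (nat_lit 1216) (nat_lit 0) (XT.lf (nat_lit 0) (nat_lit 4734803334) (nat_lit 1140) (nat_lit 1761880685) (nat_lit 76) (nat_lit 1319865656) (nat_lit 262) (nat_lit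 5) (nat_lit 277) (nat_lit 5) (nat_lit 263) (nat_lit 5) (nat_lit 317) (nat_lit 303) (nat_lit 280)) (XT.lf (nat_lit 0) (nat_lit 425629598) (nat_lit 1216) (nat_lit 1919040916) (nat_lit 76) (nat_lit 5624528678) (nat_lit 246) (nat_lit 5) (nat_lit 262) (nat_lit 5) (nat_lit 247) (nat_lit 5) (nat_lit 318) (nat_lit 303) (nat_lit 279)))) (XT.nd (nat_lit 78) (nat_lit 1292) (nat_lit 0) (XT.lf (nat_lit 0) (nat_lit 3989995011) (nat_lit 1292) (nat_lit 2045774277) (nat_lit 76) (nat_lit 2094522932) (nat_lit 230) (nat_lit 5) (nat_lit 247) (nat_lit 5) (nat_lit 231) (nat_lit 5) (nat_lit 319) (nat_lit 303) (nat_lit 278)) (XT.nd (nat_lit 78) (nat_lit 684) (nat_lit 0) (XT.lf (nat_lit 0) (nat_lit 6182959573) (nat_lit 608) (nat_lit 1505908868) (nat_lit 684) (nat_lit 611965699) (nat_lit 222) (nat_lit 5) (nat_lit 230) (nat_lit 5) (nat_lit 231) (nat_lit 5) (nat_lit 320) (nat_lit 303) (nat_lit 277)) (XT.lf (nat_lit 0) (nat_lit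 3004398592) (nat_lit 684) (nat_lit 2175051563) (nat_lit 76) (nat_lit 3300478770) (nat_lit 213) (nat_lit 5) (nat_lit 222) (nat_lit 5) (nat_lit 214) (nat_lit 5) (nat_lit 321) (nat_lit 303) (nat_lit 276))))) (XT.nd (nat_lit 234) (nat_lit 1520) (nat_lit 0) (XT.nd (nat_lit 78) (nat_lit 1140) (nat_lit 0) (XT.lf (nat_lit 0) (nat_lit 6488471568) (nat_lit 608) (nat_lit 263027582) (nat_lit 684) (nat_lit 1917493327) (nat_lit 205) (nat_lit 5) (nat_lit 213) (nat_lit 5) (nat_lit 214) (nat_lit 5) (nat_lit 322) (nat_lit 303) (nat_lit 275)) (XT.nd (nat_lit 78) (nat_lit 532) (nat_lit 0) (XT.lf (nat_lit 0) (nat_lit 1785085289) (nat_lit 608) (nat_lit 2179842343) (nat_lit 76) (nat_lit 4902060979) (nat_lit 197) (nat_lit 5) (nat_lit 205) (nat_lit 5) (nat_lit 198) (nat_lit 5) (nat_lit 323) (nat_lit 303) (nat_lit 274)) (XT.lf (nat_lit 0) (nat_lit 5610133915) (nat_lit 608) (nat_lit 2146282335) (nat_lit 76) (nat_lit 1318653129)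 (nat_lit 190) (nat_lit 5) (nat_lit 198) (nat_lit 5) (nat_lit 191) (nat_lit 5) (nat_lit 324) (nat_lit 303) (nat_lit 273)))) (XT.nd (nat_lit 78) (nat_lit 988) (nat_lit 0) (XT.lf (nat_lit 0) (nat_lit 334670594) (nat_lit 532) (nat_lit 2091056805) (nat_lit 76) (nat_lit 6867541693) (nat_lit 183) (nat_lit 5) (nat_lit 190) (nat_lit 5) (nat_lit 184) (nat_lit 5) (nat_lit 325) (nat_lit 303) (nat_lit 272)) (XT.nd (nat_lit 78) (nat_lit 456) (nat_lit 0) (XT.lf (nat_lit 0) (nat_lit 4259058377) (nat_lit 608) (nat_lit 2039775287) (nat_lit 76) (nat_lit 3222378726) (nat_lit 176) (nat_lit 5) (nat_lit 184) (nat_lit 5) (nat_lit 177) (nat_lit 5) (nat_lit 326) (nat_lit 303) (nat_lit 271)) (XT.lf (nat_lit 0) (nat_lit 7805872844) (nat_lit 456) (nat_lit 578965414) (nat_lit 532) (nat_lit 1375613352) (nat_lit 170) (nat_lit 5) (nat_lit 176) (nat_lit 5) (nat_lit 177) (nat_lit 5) (nat_lit 327) (nat_lit 303) (nat_lit 270))))))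 (XT.nd (nat_lit 468) (nat_lit 2052) (nat_lit 0) (XT.nd (nat_lit 234) (nat_lit 1140) (nat_lit 0) (XT.nd (nat_lit 78) (nat_lit 912) (nat_lit 0) (XT.lf (nat_lit 0) (nat_lit 2692410077) (nat_lit 532) (nat_lit 1892280632) (nat_lit 76) (nat_lit 5425033468) (nat_lit 163) (nat_lit 5) (nat_lit 170) (nat_lit 5) (nat_lit 164) (nat_lit 5) (nat_lit 328) (nat_lit 303) (nat_lit 269)) (XT.nd (nat_lit 78) (nat_lit 532) (nat_lit 0) (XT.lf (nat_lit 0) (nat_lit 6948926580) (nat_lit 456) (nat_lit 1813077568) (nat_lit 76) (nat_lit 1508688875) (nat_lit 158) (nat_lit 5) (nat_lit 164) (nat_lit 5) (nat_lit 159) (nat_lit 5) (nat_lit 329) (nat_lit 303) (nat_lit 268)) (XT.lf (nat_lit 0) (nat_lit 902112452) (nat_lit 532) (nat_lit 1741021073) (nat_lit 76) (nat_lit 7900000789) (nat_lit 151) (nat_lit 5) (nat_lit 158) (nat_lit 5) (nat_lit 152) (nat_lit 5) (nat_lit 330) (nat_lit 303) (nat_lit 267)))) (XT.nd (nat_lit 78) (nat_lit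 760) (nat_lit 0) (XT.lf (nat_lit 0) (nat_lit 5310837220) (nat_lit 456) (nat_lit 1695922997) (nat_lit 76) (nat_lit 3820222080) (nat_lit 146) (nat_lit 5) (nat_lit 152) (nat_lit 5) (nat_lit 147) (nat_lit 5) (nat_lit 331) (nat_lit 303) (nat_lit 266)) (XT.nd (nat_lit 78) (nat_lit 380) (nat_lit 0) (XT.lf (nat_lit 0) (nat_lit 9485060774) (nat_lit 380) (nat_lit 491520330) (nat_lit 456) (nat_lit 1147383927) (nat_lit 141) (nat_lit 5) (nat_lit 146) (nat_lit 5) (nat_lit 147) (nat_lit 5) (nat_lit 332) (nat_lit 303) (nat_lit 265)) (XT.lf (nat_lit 0) (nat_lit 3450348990) (nat_lit 380) (nat_lit 1642216632) (nat_lit 76) (nat_lit 6339946437) (nat_lit 136) (nat_lit 5) (nat_lit 141) (nat_lit 5) (nat_lit 137) (nat_lit 5) (nat_lit 333) (nat_lit 303) (nat_lit 264))))) (XT.nd (nat_lit 234) (nat_lit 988) (nat_lit 0) (XT.nd (nat_lit 78) (nat_lit 684) (nat_lit 0) (XT.lf (nat_lit 0) (nat_lit 8297676050) (nat_lit 456) (nat_lit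 1651887759) (nat_lit 76) (nat_lit 1805313789) (nat_lit 131) (nat_lit 5) (nat_lit 137) (nat_lit 5) (nat_lit 132) (nat_lit 5) (nat_lit 334) (nat_lit 303) (nat_lit 263)) (XT.nd (nat_lit 78) (nat_lit 304) (nat_lit 0) (XT.lf (nat_lit 0) (nat_lit 1347101918) (nat_lit 380) (nat_lit 1703484528) (nat_lit 76) (nat_lit 9040083902) (nat_lit 126) (nat_lit 5) (nat_lit 131) (nat_lit 5) (nat_lit 127) (nat_lit 5) (nat_lit 335) (nat_lit 303) (nat_lit 262)) (XT.lf (nat_lit 0) (nat_lit 6393376270) (nat_lit 380) (nat_lit 1815358797) (nat_lit 76) (nat_lit 4231323990) (nat_lit 122) (nat_lit 5) (nat_lit 127) (nat_lit 5) (nat_lit 123) (nat_lit 5) (nat_lit 336) (nat_lit 303) (nat_lit 261)))) (XT.nd (nat_lit 78) (nat_lit 684) (nat_lit 0) (XT.lf (nat_lit 0) (nat_lit 10855055885) (nat_lit 304) (nat_lit 903841761) (nat_lit 380) (nat_lit 1046040980) (nat_lit 118) (nat_lit 5) (nat_lit 122) (nat_lit 5) (nat_lit 123) (nat_lit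 5) (nat_lit 337) (nat_lit 303) (nat_lit 260)) (XT.nd (nat_lit 78) (nat_lit 304) (nat_lit 0) (XT.lf (nat_lit 0) (nat_lit 4230275047) (nat_lit 380) (nat_lit 2189693661) (nat_lit 76) (nat_lit 6763677452) (nat_lit 113) (nat_lit 5) (nat_lit 118) (nat_lit 5) (nat_lit 114) (nat_lit 5) (nat_lit 338) (nat_lit 303) (nat_lit 259)) (XT.lf (nat_lit 0) (nat_lit 9816586855) (nat_lit 380) (nat_lit 2470853839) (nat_lit 76) (nat_lit 1291529169) (nat_lit 109) (nat_lit 5) (nat_lit 114) (nat_lit 5) (nat_lit 110) (nat_lit 5) (nat_lit 339) (nat_lit 303) (nat_lit 258))))))))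
noncomputable def xc55 : XT := (XT.nd (nat_lit 1872) (nat_lit 1976) (nat_lit 0) (XT.nd (nat_lit 936) (nat_lit 1824) (nat_lit 0) (XT.nd (nat_lit 468) (nat_lit 1292) (nat_lit 0) (XT.nd (nat_lit 234) (nat_lit 836) (nat_lit 0) (XT.nd (nat_lit 78) (nat_lit 532) (nat_lit 0) (XT.lf (nat_lit 0) (nat_lit 1772161675) (nat_lit 380) (nat_lit 2851670006) (nat_lit 76) (nat_lit 9366256724) (nat_lit 104) (nat_lit 5) (nat_lit 109) (nat_lit 5) (nat_lit 105) (nat_lit 5) (nat_lit 340) (nat_lit 303) (nat_lit 257)) (XT.nd (nat_lit 78) (nat_lit 304) (nat_lit 0) (XT.lf (nat_lit 0) (nat_lit 7596013778) (nat_lit 304) (nat_lit 3333320409) (nat_lit 76) (nat_lit 3488622203) (nat_lit 101) (nat_lit 5) (nat_lit 105) (nat_lit 5) (nat_lit 102) (nat_lit 5) (nat_lit 341) (nat_lit 303) (nat_lit 256)) (XT.lf (nat_lit 0) (nat_lit 10961767116) (nat_lit 304) (nat_lit 2856057411) (nat_lit 380) (nat_lit 1046211995) (nat_lit 97) (nat_lit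 5) (nat_lit 101) (nat_lit 5) (nat_lit 102) (nat_lit 5) (nat_lit 342) (nat_lit 303) (nat_lit 255)))) (XT.nd (nat_lit 78) (nat_lit 532) (nat_lit 0) (XT.lf (nat_lit 0) (nat_lit 5040739684) (nat_lit 304) (nat_lit 4627660532) (nat_lit 76) (nat_lit 5658982573) (nat_lit 93) (nat_lit 5) (nat_lit 97) (nat_lit 5) (nat_lit 94) (nat_lit 5) (nat_lit 343) (nat_lit 303) (nat_lit 254)) (XT.nd (nat_lit 78) (nat_lit 304) (nat_lit 0) (XT.lf (nat_lit 0) (nat_lit 10350039380) (nat_lit 228) (nat_lit 1158303601) (nat_lit 304) (nat_lit 4302323527) (nat_lit 90) (nat_lit 5) (nat_lit 93) (nat_lit 5) (nat_lit 94) (nat_lit 5) (nat_lit 344) (nat_lit 303) (nat_lit 253)) (XT.lf (nat_lit 0) (nat_lit 2092475343) (nat_lit 304) (nat_lit 6471594509) (nat_lit 76) (nat_lit 7748993199) (nat_lit 86) (nat_lit 5) (nat_lit 90) (nat_lit 5) (nat_lit 87) (nat_lit 5) (nat_lit 345) (nat_lit 303) (nat_lit 252))))) (XT.nd (nat_lit 234) (nat_lit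 608) (nat_lit 0) (XT.nd (nat_lit 78) (nat_lit 456) (nat_lit 0) (XT.lf (nat_lit 0) (nat_lit 8811865818) (nat_lit 304) (nat_lit 7642101374) (nat_lit 76) (nat_lit 382536251) (nat_lit 83) (nat_lit 5) (nat_lit 87) (nat_lit 5) (nat_lit 84) (nat_lit 5) (nat_lit 346) (nat_lit 303) (nat_lit 251)) (XT.nd (nat_lit 78) (nat_lit 304) (nat_lit 0) (XT.lf (nat_lit 0) (nat_lit 8363022155) (nat_lit 152) (nat_lit 7672491393) (nat_lit 228) (nat_lit 1345569724) (nat_lit 81) (nat_lit 5) (nat_lit 83) (nat_lit 5) (nat_lit 84) (nat_lit 5) (nat_lit 347) (nat_lit 303) (nat_lit 250)) (XT.lf (nat_lit 0) (nat_lit 5659220379) (nat_lit 304) (nat_lit 10605369548) (nat_lit 76) (nat_lit 1683611797) (nat_lit 77) (nat_lit 5) (nat_lit 81) (nat_lit 5) (nat_lit 78) (nat_lit 5) (nat_lit 348) (nat_lit 303) (nat_lit 249)))) (XT.nd (nat_lit 78) (nat_lit 456) (nat_lit 0) (XT.lf (nat_lit 0) (nat_lit 6091718939) (nat_lit 152) (nat_lit 7062052592)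 (nat_lit 228) (nat_lit 5384498525) (nat_lit 75) (nat_lit 5) (nat_lit 77) (nat_lit 5) (nat_lit 78) (nat_lit 5) (nat_lit 349) (nat_lit 303) (nat_lit 248)) (XT.nd (nat_lit 78) (nat_lit 152) (nat_lit 0) (XT.lf (nat_lit 0) (nat_lit 1948906477) (nat_lit 304) (nat_lit 14520956804) (nat_lit 76) (nat_lit 2683850857) (nat_lit 71) (nat_lit 5) (nat_lit 75) (nat_lit 5) (nat_lit 72) (nat_lit 5) (nat_lit 350) (nat_lit 303) (nat_lit 247)) (XT.lf (nat_lit 0) (nat_lit 2857676316) (nat_lit 152) (nat_lit 6849428115) (nat_lit 228) (nat_lit 10086154608) (nat_lit 69) (nat_lit 5) (nat_lit 71) (nat_lit 5) (nat_lit 72) (nat_lit 5) (nat_lit 351) (nat_lit 303) (nat_lit 246)))))) (XT.nd (nat_lit 468) (nat_lit 836) (nat_lit 0) (XT.nd (nat_lit 234) (nat_lit 532) (nat_lit 0) (XT.nd (nat_lit 78) (nat_lit 228) (nat_lit 0) (XT.lf (nat_lit 0) (nat_lit 832200493) (nat_lit 228) (nat_lit 17153043808) (nat_lit 304) (nat_lit 2475587778)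 (nat_lit 66) (nat_lit 5) (nat_lit 69) (nat_lit 5) (nat_lit 70) (nat_lit 5) (nat_lit 352) (nat_lit 303) (nat_lit 245)) (XT.nd (nat_lit 78) (nat_lit 152) (nat_lit 0) (XT.lf (nat_lit 0) (nat_lit 5596158486) (nat_lit 304) (nat_lit 1536128444) (nat_lit 76) (nat_lit 14022268890) (nat_lit 65) (nat_lit 5) (nat_lit 69) (nat_lit 5) (nat_lit 66) (nat_lit 5) (nat_lit 353) (nat_lit 303) (nat_lit 244)) (XT.lf (nat_lit 0) (nat_lit 14170725478) (nat_lit 228) (nat_lit 4225030621) (nat_lit 76) (nat_lit 3481971793) (nat_lit 63) (nat_lit 5) (nat_lit 66) (nat_lit 5) (nat_lit 64) (nat_lit 5) (nat_lit 354) (nat_lit 303) (nat_lit 243)))) (XT.nd (nat_lit 78) (nat_lit 304) (nat_lit 0) (XT.lf (nat_lit 0) (nat_lit 710752328) (nat_lit 228) (nat_lit 7306902620) (nat_lit 76) (nat_lit 14613730377) (nat_lit 60) (nat_lit 5) (nat_lit 63) (nat_lit 5) (nat_lit 61) (nat_lit 5) (nat_lit 355) (nat_lit 303) (nat_lit 242)) (XT.nd (nat_lit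 78) (nat_lit 152) (nat_lit 0) (XT.lf (nat_lit 0) (nat_lit 9534475879) (nat_lit 228) (nat_lit 10851063209) (nat_lit 76) (nat_lit 3030572313) (nat_lit 58) (nat_lit 5) (nat_lit 61) (nat_lit 5) (nat_lit 59) (nat_lit 5) (nat_lit 356) (nat_lit 303) (nat_lit 241)) (XT.lf (nat_lit 0) (nat_lit 9357582169) (nat_lit 152) (nat_lit 9638180028) (nat_lit 228) (nat_lit 5238429040) (nat_lit 56) (nat_lit 5) (nat_lit 58) (nat_lit 5) (nat_lit 59) (nat_lit 5) (nat_lit 357) (nat_lit 303) (nat_lit 240))))) (XT.nd (nat_lit 234) (nat_lit 456) (nat_lit 0) (XT.nd (nat_lit 78) (nat_lit 152) (nat_lit 0) (XT.lf (nat_lit 0) (nat_lit 3897769135) (nat_lit 228) (nat_lit 19406463136) (nat_lit 76) (nat_lit 1783773282) (nat_lit 53) (nat_lit 5) (nat_lit 56) (nat_lit 5) (nat_lit 54) (nat_lit 5) (nat_lit 358) (nat_lit 303) (nat_lit 239)) (XT.nd (nat_lit 78) (nat_lit 0) (nat_lit 0) (XT.lf (nat_lit 0) (nat_lit 1388127797) (nat_lit 152)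 (nat_lit 12212401489) (nat_lit 228) (nat_lit 12375890313) (nat_lit 51) (nat_lit 5) (nat_lit 53) (nat_lit 5) (nat_lit 54) (nat_lit 5) (nat_lit 359) (nat_lit 303) (nat_lit 238)) (XT.lf (nat_lit 0) (nat_lit 23544594612) (nat_lit 152) (nat_lit 396900666) (nat_lit 228) (nat_lit 2963174377) (nat_lit 51) (nat_lit 5) (nat_lit 53) (nat_lit 5) (nat_lit 54) (nat_lit 5) (nat_lit 360) (nat_lit 303) (nat_lit 237)))) (XT.nd (nat_lit 78) (nat_lit 228) (nat_lit 0) (XT.lf (nat_lit 0) (nat_lit 7041939240) (nat_lit 228) (nat_lit 8834227192) (nat_lit 76) (nat_lit 11993472955) (nat_lit 48) (nat_lit 5) (nat_lit 51) (nat_lit 5) (nat_lit 49) (nat_lit 5) (nat_lit 361) (nat_lit 303) (nat_lit 236)) (XT.nd (nat_lit 78) (nat_lit 76) (nat_lit 0) (XT.lf (nat_lit 0) (nat_lit 13896993080) (nat_lit 152) (nat_lit 3718256219) (nat_lit 228) (nat_lit 11262857908) (nat_lit 46) (nat_lit 5) (nat_lit 48) (nat_lit 5) (nat_lit 49) (nat_lit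 5) (nat_lit 362) (nat_lit 303) (nat_lit 235)) (XT.lf (nat_lit 0) (nat_lit 8005775460) (nat_lit 76) (nat_lit 20924370046) (nat_lit 152) (nat_lit 1000471450) (nat_lit 45) (nat_lit 5) (nat_lit 46) (nat_lit 5) (nat_lit 47) (nat_lit 4) (nat_lit 363) (nat_lit 303) (nat_lit 234))))))) (XT.nd (nat_lit 936) (nat_lit 760) (nat_lit 0) (XT.nd (nat_lit 468) (nat_lit 532) (nat_lit 0) (XT.nd (nat_lit 234) (nat_lit 304) (nat_lit 0) (XT.nd (nat_lit 78) (nat_lit 152) (nat_lit 0) (XT.lf (nat_lit 0) (nat_lit 1238796443) (nat_lit 152) (nat_lit 8508724025) (nat_lit 228) (nat_lit 21280521541) (nat_lit 42) (nat_lit 5) (nat_lit 44) (nat_lit 5) (nat_lit 45) (nat_lit 5) (nat_lit 364) (nat_lit 303) (nat_lit 233)) (XT.nd (nat_lit 78) (nat_lit 152) (nat_lit 0) (XT.lf (nat_lit 0) (nat_lit 21242881907) (nat_lit 228) (nat_lit 6285660959) (nat_lit 76) (nat_lit 4644583866) (nat_lit 42) (nat_lit 5) (nat_lit 45) (nat_lit 5) (nat_lit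 43) (nat_lit 4) (nat_lit 365) (nat_lit 303) (nat_lit 232)) (XT.lf (nat_lit 0) (nat_lit 166622025) (nat_lit 152) (nat_lit 14771632106) (nat_lit 76) (nat_lit 18430398855) (nat_lit 40) (nat_lit 5) (nat_lit 42) (nat_lit 5) (nat_lit 41) (nat_lit 5) (nat_lit 366) (nat_lit 303) (nat_lit 231)))) (XT.nd (nat_lit 78) (nat_lit 152) (nat_lit 0) (XT.lf (nat_lit 0) (nat_lit 10252103469) (nat_lit 152) (nat_lit 1467949495) (nat_lit 228) (nat_lit 22896827506) (nat_lit 38) (nat_lit 5) (nat_lit 40) (nat_lit 5) (nat_lit 41) (nat_lit 5) (nat_lit 367) (nat_lit 303) (nat_lit 230)) (XT.nd (nat_lit 78) (nat_lit 76) (nat_lit 0) (XT.lf (nat_lit 0) (nat_lit 734766053) (nat_lit 76) (nat_lit 23361511304) (nat_lit 152) (nat_lit 11823892862) (nat_lit 37) (nat_lit 5) (nat_lit 38) (nat_lit 5) (nat_lit 39) (nat_lit 4) (nat_lit 368) (nat_lit 303) (nat_lit 229)) (XT.lf (nat_lit 0) (nat_lit 38068520) (nat_lit 152) (nat_lit 9765789968)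 (nat_lit 76) (nat_lit 27477881179) (nat_lit 36) (nat_lit 5) (nat_lit 38) (nat_lit 5) (nat_lit 37) (nat_lit 5) (nat_lit 369) (nat_lit 303) (nat_lit 228))))) (XT.nd (nat_lit 234) (nat_lit 304) (nat_lit 0) (XT.nd (nat_lit 78) (nat_lit 76) (nat_lit 0) (XT.lf (nat_lit 0) (nat_lit 12425271780) (nat_lit 228) (nat_lit 21674913139) (nat_lit 76) (nat_lit 4602394225) (nat_lit 34) (nat_lit 5) (nat_lit 37) (nat_lit 5) (nat_lit 35) (nat_lit 4) (nat_lit 370) (nat_lit 303) (nat_lit 227)) (XT.nd (nat_lit 78) (nat_lit 0) (nat_lit 0) (XT.lf (nat_lit 0) (nat_lit 5109797524) (nat_lit 76) (nat_lit 20537572116) (nat_lit 152) (nat_lit 14540628734) (nat_lit 33) (nat_lit 5) (nat_lit 34) (nat_lit 5) (nat_lit 35) (nat_lit 4) (nat_lit 371) (nat_lit 303) (nat_lit 226)) (XT.lf (nat_lit 0) (nat_lit 33625111417) (nat_lit 76) (nat_lit 6095552890) (nat_lit 152) (nat_lit 2021325134) (nat_lit 33) (nat_lit 5) (nat_lit 34) (nat_lit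 5) (nat_lit 35) (nat_lit 4) (nat_lit 372) (nat_lit 303) (nat_lit 225)))) (XT.nd (nat_lit 78) (nat_lit 76) (nat_lit 0) (XT.lf (nat_lit 0) (nat_lit 11161348512) (nat_lit 228) (nat_lit 23030583893) (nat_lit 76) (nat_lit 9170908918) (nat_lit 30) (nat_lit 5) (nat_lit 33) (nat_lit 5) (nat_lit 31) (nat_lit 4) (nat_lit 373) (nat_lit 303) (nat_lit 224)) (XT.nd (nat_lit 78) (nat_lit 0) (nat_lit 0) (XT.lf (nat_lit 0) (nat_lit 5273135348) (nat_lit 76) (nat_lit 19854129069) (nat_lit 152) (nat_lit 19931896805) (nat_lit 29) (nat_lit 5) (nat_lit 30) (nat_lit 5) (nat_lit 31) (nat_lit 4) (nat_lit 374) (nat_lit 303) (nat_lit 223)) (XT.lf (nat_lit 0) (nat_lit 35416732685) (nat_lit 76) (nat_lit 4581686906) (nat_lit 152) (nat_lit 6835672269) (nat_lit 29) (nat_lit 5) (nat_lit 30) (nat_lit 5) (nat_lit 31) (nat_lit 4) (nat_lit 375) (nat_lit 303) (nat_lit 222)))))) (XT.nd (nat_lit 468) (nat_lit 304) (nat_lit 0) (XT.nd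 (nat_lit 234) (nat_lit 228) (nat_lit 0) (XT.nd (nat_lit 78) (nat_lit 76) (nat_lit 0) (XT.lf (nat_lit 0) (nat_lit 7042632763) (nat_lit 152) (nat_lit 30191582818) (nat_lit 76) (nat_lit 11453695637) (nat_lit 27) (nat_lit 5) (nat_lit 29) (nat_lit 5) (nat_lit 28) (nat_lit 4) (nat_lit 376) (nat_lit 303) (nat_lit 221)) (XT.nd (nat_lit 78) (nat_lit 76) (nat_lit 0) (XT.lf (nat_lit 0) (nat_lit 21611379963) (nat_lit 152) (nat_lit 656519353) (nat_lit 76) (nat_lit 28360357537) (nat_lit 27) (nat_lit 5) (nat_lit 29) (nat_lit 5) (nat_lit 28) (nat_lit 4) (nat_lit 377) (nat_lit 303) (nat_lit 220)) (XT.lf (nat_lit 0) (nat_lit 30907449628) (nat_lit 76) (nat_lit 6271211960) (nat_lit 152) (nat_lit 15478857826) (nat_lit 26) (nat_lit 5) (nat_lit 27) (nat_lit 5) (nat_lit 28) (nat_lit 4) (nat_lit 378) (nat_lit 303) (nat_lit 219)))) (XT.nd (nat_lit 78) (nat_lit 152) (nat_lit 0) (XT.lf (nat_lit 0) (nat_lit 9305569909)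 (nat_lit 76) (nat_lit 44389770899) (nat_lit 76) (nat_lit 1087775722) (nat_lit 25) (nat_lit 4) (nat_lit 26) (nat_lit 5) (nat_lit 26) (nat_lit 4) (nat_lit 379) (nat_lit 303) (nat_lit 218)) (XT.nd (nat_lit 78) (nat_lit 76) (nat_lit 0) (XT.lf (nat_lit 0) (nat_lit 14012751709) (nat_lit 152) (nat_lit 14889231385) (nat_lit 76) (nat_lit 28101062936) (nat_lit 24) (nat_lit 5) (nat_lit 26) (nat_lit 5) (nat_lit 25) (nat_lit 4) (nat_lit 380) (nat_lit 303) (nat_lit 217)) (XT.lf (nat_lit 0) (nat_lit 17512442779) (nat_lit 76) (nat_lit 12477264149) (nat_lit 152) (nat_lit 29339627170) (nat_lit 23) (nat_lit 5) (nat_lit 24) (nat_lit 5) (nat_lit 25) (nat_lit 4) (nat_lit 381) (nat_lit 303) (nat_lit 216))))) (XT.nd (nat_lit 234) (nat_lit 152) (nat_lit 0) (XT.nd (nat_lit 78) (nat_lit 152) (nat_lit 0) (XT.lf (nat_lit 0) (nat_lit 46942017004) (nat_lit 152) (nat_lit 10015332766) (nat_lit 0) (nat_lit 4809293627) (nat_lit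 23) (nat_lit 5) (nat_lit 25) (nat_lit 4) (nat_lit 23) (nat_lit 4) (nat_lit 382) (nat_lit 303) (nat_lit 215)) (XT.nd (nat_lit 78) (nat_lit 0) (nat_lit 0) (XT.lf (nat_lit 0) (nat_lit 741753145) (nat_lit 152) (nat_lit 40654743310) (nat_lit 76) (nat_lit 22919191127) (nat_lit 21) (nat_lit 5) (nat_lit 23) (nat_lit 5) (nat_lit 22) (nat_lit 4) (nat_lit 383) (nat_lit 303) (nat_lit 214)) (XT.lf (nat_lit 0) (nat_lit 16864315228) (nat_lit 152) (nat_lit 7952398299) (nat_lit 76) (nat_lit 42168535104) (nat_lit 21) (nat_lit 5) (nat_lit 23) (nat_lit 5) (nat_lit 22) (nat_lit 4) (nat_lit 384) (nat_lit 303) (nat_lit 213)))) (XT.nd (nat_lit 78) (nat_lit 76) (nat_lit 0) (XT.lf (nat_lit 0) (nat_lit 26868426477) (nat_lit 76) (nat_lit 7161416328) (nat_lit 152) (nat_lit 35751341516) (nat_lit 20) (nat_lit 5) (nat_lit 21) (nat_lit 5) (nat_lit 22) (nat_lit 4) (nat_lit 385) (nat_lit 303) (nat_lit 212)) (XT.nd (nat_lit 78)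 (nat_lit 76) (nat_lit 0) (XT.lf (nat_lit 0) (nat_lit 52224697474) (nat_lit 152) (nat_lit 9268363615) (nat_lit 0) (nat_lit 11218725817) (nat_lit 20) (nat_lit 5) (nat_lit 22) (nat_lit 4) (nat_lit 20) (nat_lit 4) (nat_lit 386) (nat_lit 303) (nat_lit 211)) (XT.lf (nat_lit 0) (nat_lit 26464085538) (nat_lit 76) (nat_lit 45171897355) (nat_lit 76) (nat_lit 4143737637) (nat_lit 19) (nat_lit 4) (nat_lit 20) (nat_lit 5) (nat_lit 20) (nat_lit 4) (nat_lit 387) (nat_lit 303) (nat_lit 210))))))))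
noncomputable def xc56 : XT := (XT.nd (nat_lit 41574) (nat_lit 0) (nat_lit 6232) (XT.nd (nat_lit 40638) (nat_lit 0) (nat_lit 16416) (XT.nd (nat_lit 390) (nat_lit 152) (nat_lit 0) (XT.nd (nat_lit 156) (nat_lit 76) (nat_lit 0) (XT.nd (nat_lit 78) (nat_lit 76) (nat_lit 0) (XT.lf (nat_lit 0) (nat_lit 12839549461) (nat_lit 152) (nat_lit 14985005797) (nat_lit 76) (nat_lit 51170440096) (nat_lit 18) (nat_lit 5) (nat_lit 20) (nat_lit 5) (nat_lit 19) (nat_lit 4) (nat_lit 388) (nat_lit 303) (nat_lit 209)) (XT.lf (nat_lit 0) (nat_lit 21402168293) (nat_lit 76) (nat_lit 9372011372) (nat_lit 152) (nat_lit 51589988479) (nat_lit 17) (nat_lit 5) (nat_lit 18) (nat_lit 5) (nat_lit 19) (nat_lit 4) (nat_lit 389) (nat_lit 303) (nat_lit 208))) (XT.nd (nat_lit 78) (nat_lit 76) (nat_lit 0) (XT.lf (nat_lit 0) (nat_lit 49839226380) (nat_lit 152) (nat_lit 26108166023) (nat_lit 0) (nat_lit 9947397923) (nat_lit 17) (nat_lit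 5) (nat_lit 19) (nat_lit 4) (nat_lit 17) (nat_lit 4) (nat_lit 390) (nat_lit 303) (nat_lit 207)) (XT.nd (nat_lit 78) (nat_lit 0) (nat_lit 0) (XT.lf (nat_lit 0) (nat_lit 10566475498) (nat_lit 76) (nat_lit 59469828478) (nat_lit 76) (nat_lit 19560277524) (nat_lit 16) (nat_lit 4) (nat_lit 17) (nat_lit 5) (nat_lit 17) (nat_lit 4) (nat_lit 391) (nat_lit 303) (nat_lit 206)) (XT.lf (nat_lit 0) (nat_lit 49587912660) (nat_lit 76) (nat_lit 41907211802) (nat_lit 76) (nat_lit 1980782280) (nat_lit 16) (nat_lit 4) (nat_lit 17) (nat_lit 5) (nat_lit 17) (nat_lit 4) (nat_lit 392) (nat_lit 303) (nat_lit 205))))) (XT.nd (nat_lit 40014) (nat_lit 0) (nat_lit 24852) (XT.nd (nat_lit 156) (nat_lit 76) (nat_lit 0) (XT.lf (nat_lit 0) (nat_lit 16139920380) (nat_lit 152) (nat_lit 7178465978) (nat_lit 76) (nat_lit 74226548023) (nat_lit 15) (nat_lit 5) (nat_lit 17) (nat_lit 5) (nat_lit 16) (nat_lit 4) (nat_lit 393) (nat_lit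 303) (nat_lit 204)) (XT.nd (nat_lit 39780) (nat_lit 0) (nat_lit 25916) (XT.lf (nat_lit 0) (nat_lit 55885579144) (nat_lit 152) (nat_lit 33314559876) (nat_lit 0) (nat_lit 17077429579) (nat_lit 14) (nat_lit 5) (nat_lit 16) (nat_lit 4) (nat_lit 14) (nat_lit 4) (nat_lit 395) (nat_lit 303) (nat_lit 202)) (XT.lf (nat_lit 0) (nat_lit 1552148017) (nat_lit 532) (nat_lit 881149243) (nat_lit 532) (nat_lit 881149243) (nat_lit 355) (nat_lit 3) (nat_lit 362) (nat_lit 3) (nat_lit 362) (nat_lit 5) (nat_lit 304) (nat_lit 304) (nat_lit 292)))) (XT.nd (nat_lit 78) (nat_lit 532) (nat_lit 0) (XT.lf (nat_lit 0) (nat_lit 230069522) (nat_lit 532) (nat_lit 3064139123) (nat_lit 608) (nat_lit 3385362846) (nat_lit 348) (nat_lit 5) (nat_lit 355) (nat_lit 3) (nat_lit 356) (nat_lit 5) (nat_lit 305) (nat_lit 304) (nat_lit 291)) (XT.nd (nat_lit 78) (nat_lit 532) (nat_lit 0) (XT.lf (nat_lit 76) (nat_lit 2449284254) (nat_lit 0)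 (nat_lit 1452400545) (nat_lit 608) (nat_lit 2836175640) (nat_lit 349) (nat_lit 5) (nat_lit 348) (nat_lit 5) (nat_lit 356) (nat_lit 5) (nat_lit 306) (nat_lit 304) (nat_lit 290)) (XT.lf (nat_lit 0) (nat_lit 757860784) (nat_lit 608) (nat_lit 5419293474) (nat_lit 684) (nat_lit 627243996) (nat_lit 341) (nat_lit 5) (nat_lit 349) (nat_lit 5) (nat_lit 350) (nat_lit 5) (nat_lit 307) (nat_lit 304) (nat_lit 289)))))) (XT.nd (nat_lit 468) (nat_lit 6308) (nat_lit 0) (XT.nd (nat_lit 234) (nat_lit 1444) (nat_lit 0) (XT.nd (nat_lit 78) (nat_lit 684) (nat_lit 0) (XT.lf (nat_lit 76) (nat_lit 388490590) (nat_lit 0) (nat_lit 3926112985) (nat_lit 684) (nat_lit 2563731565) (nat_lit 342) (nat_lit 5) (nat_lit 341) (nat_lit 5) (nat_lit 350) (nat_lit 5) (nat_lit 308) (nat_lit 304) (nat_lit 288)) (XT.nd (nat_lit 78) (nat_lit 0) (nat_lit 76) (XT.lf (nat_lit 0) (nat_lit 913409798) (nat_lit 684) (nat_lit 500533808) (nat_lit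 760) (nat_lit 5546616221) (nat_lit 332) (nat_lit 5) (nat_lit 341) (nat_lit 5) (nat_lit 342) (nat_lit 5) (nat_lit 309) (nat_lit 304) (nat_lit 287)) (XT.lf (nat_lit 0) (nat_lit 4375826464) (nat_lit 684) (nat_lit 1318209835) (nat_lit 760) (nat_lit 1356309547) (nat_lit 333) (nat_lit 5) (nat_lit 342) (nat_lit 5) (nat_lit 343) (nat_lit 5) (nat_lit 310) (nat_lit 304) (nat_lit 286)))) (XT.nd (nat_lit 78) (nat_lit 760) (nat_lit 0) (XT.lf (nat_lit 0) (nat_lit 721539022) (nat_lit 760) (nat_lit 2059761257) (nat_lit 836) (nat_lit 4367053547) (nat_lit 323) (nat_lit 5) (nat_lit 333) (nat_lit 5) (nat_lit 334) (nat_lit 5) (nat_lit 311) (nat_lit 304) (nat_lit 285)) (XT.nd (nat_lit 78) (nat_lit 836) (nat_lit 0) (XT.lf (nat_lit 0) (nat_lit 4104552377) (nat_lit 760) (nat_lit 2736849188) (nat_lit 76) (nat_lit 413019793) (nat_lit 324) (nat_lit 5) (nat_lit 334) (nat_lit 5) (nat_lit 325) (nat_lit 5) (nat_lit 312) (nat_lit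 304) (nat_lit 284)) (XT.lf (nat_lit 0) (nat_lit 191342869) (nat_lit 836) (nat_lit 3352892020) (nat_lit 76) (nat_lit 3824408517) (nat_lit 313) (nat_lit 5) (nat_lit 324) (nat_lit 5) (nat_lit 314) (nat_lit 5) (nat_lit 313) (nat_lit 304) (nat_lit 283))))) (XT.nd (nat_lit 234) (nat_lit 3496) (nat_lit 0) (XT.nd (nat_lit 78) (nat_lit 1976) (nat_lit 0) (XT.lf (nat_lit 0) (nat_lit 3523044361) (nat_lit 912) (nat_lit 3912294209) (nat_lit 76) (nat_lit 55757482) (nat_lit 302) (nat_lit 5) (nat_lit 314) (nat_lit 5) (nat_lit 303) (nat_lit 5) (nat_lit 314) (nat_lit 304) (nat_lit 282)) (XT.nd (nat_lit 78) (nat_lit 1064) (nat_lit 0) (XT.lf (nat_lit 0) (nat_lit 3199283844) (nat_lit 912) (nat_lit 3755464455) (nat_lit 988) (nat_lit 667027458) (nat_lit 290) (nat_lit 5) (nat_lit 302) (nat_lit 5) (nat_lit 303) (nat_lit 5) (nat_lit 315) (nat_lit 304) (nat_lit 281)) (XT.lf (nat_lit 0) (nat_lit 2652152446) (nat_lit 1064)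 (nat_lit 4878973614) (nat_lit 76) (nat_lit 229923370) (nat_lit 276) (nat_lit 5) (nat_lit 290) (nat_lit 5) (nat_lit 277) (nat_lit 5) (nat_lit 316) (nat_lit 304) (nat_lit 280)))) (XT.nd (nat_lit 78) (nat_lit 2432) (nat_lit 0) (XT.lf (nat_lit 0) (nat_lit 2608013538) (nat_lit 1064) (nat_lit 3468374066) (nat_lit 1140) (nat_lit 1832208492) (nat_lit 262) (nat_lit 5) (nat_lit 276) (nat_lit 5) (nat_lit 277) (nat_lit 5) (nat_lit 317) (nat_lit 304) (nat_lit 279)) (XT.nd (nat_lit 78) (nat_lit 1216) (nat_lit 0) (XT.lf (nat_lit 0) (nat_lit 1507881290) (nat_lit 1216) (nat_lit 5669277932) (nat_lit 76) (nat_lit 888055626) (nat_lit 246) (nat_lit 5) (nat_lit 262) (nat_lit 5) (nat_lit 247) (nat_lit 5) (nat_lit 318) (nat_lit 304) (nat_lit 278)) (XT.lf (nat_lit 0) (nat_lit 2213099042) (nat_lit 1216) (nat_lit 2730217850) (nat_lit 1292) (nat_lit 3286899332) (nat_lit 230) (nat_lit 5) (nat_lit 246) (nat_lit 5) (nat_lit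 247) (nat_lit 5) (nat_lit 319) (nat_lit 304) (nat_lit 277))))))) (XT.nd (nat_lit 936) (nat_lit 3800) (nat_lit 0) (XT.nd (nat_lit 468) (nat_lit 2812) (nat_lit 0) (XT.nd (nat_lit 234) (nat_lit 1672) (nat_lit 0) (XT.nd (nat_lit 78) (nat_lit 1216) (nat_lit 0) (XT.lf (nat_lit 0) (nat_lit 101602670) (nat_lit 684) (nat_lit 6314377652) (nat_lit 76) (nat_lit 1988799156) (nat_lit 221) (nat_lit 5) (nat_lit 230) (nat_lit 5) (nat_lit 222) (nat_lit 5) (nat_lit 320) (nat_lit 304) (nat_lit 276)) (XT.nd (nat_lit 78) (nat_lit 608) (nat_lit 0) (XT.lf (nat_lit 0) (nat_lit 1984832108) (nat_lit 608) (nat_lit 1580746802) (nat_lit 684) (nat_lit 5022367893) (nat_lit 213) (nat_lit 5) (nat_lit 221) (nat_lit 5) (nat_lit 222) (nat_lit 5) (nat_lit 321) (nat_lit 304) (nat_lit 275)) (XT.lf (nat_lit 0) (nat_lit 1920377798) (nat_lit 608) (nat_lit 5269487296) (nat_lit 684) (nat_lit 1590863622) (nat_lit 205) (nat_lit 5) (nat_lit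 213) (nat_lit 5) (nat_lit 214) (nat_lit 5) (nat_lit 322) (nat_lit 304) (nat_lit 274)))) (XT.nd (nat_lit 78) (nat_lit 1064) (nat_lit 0) (XT.lf (nat_lit 0) (nat_lit 1893719385) (nat_lit 532) (nat_lit 55079457) (nat_lit 608) (nat_lit 7034559460) (nat_lit 197) (nat_lit 5) (nat_lit 204) (nat_lit 5) (nat_lit 205) (nat_lit 5) (nat_lit 323) (nat_lit 304) (nat_lit 273)) (XT.nd (nat_lit 78) (nat_lit 532) (nat_lit 0) (XT.lf (nat_lit 0) (nat_lit 1868472548) (nat_lit 532) (nat_lit 3783516383) (nat_lit 608) (nat_lit 3543135774) (nat_lit 190) (nat_lit 5) (nat_lit 197) (nat_lit 5) (nat_lit 198) (nat_lit 5) (nat_lit 324) (nat_lit 304) (nat_lit 272)) (XT.lf (nat_lit 0) (nat_lit 111634396) (nat_lit 532) (nat_lit 7526151034) (nat_lit 76) (nat_lit 1779980022) (nat_lit 183) (nat_lit 5) (nat_lit 190) (nat_lit 5) (nat_lit 184) (nat_lit 5) (nat_lit 325) (nat_lit 304) (nat_lit 271))))) (XT.nd (nat_lit 234) (nat_lit 1292)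 (nat_lit 0) (XT.nd (nat_lit 78) (nat_lit 988) (nat_lit 0) (XT.lf (nat_lit 0) (nat_lit 1904983336) (nat_lit 532) (nat_lit 1989623539) (nat_lit 608) (nat_lit 5755370645) (nat_lit 176) (nat_lit 5) (nat_lit 183) (nat_lit 5) (nat_lit 184) (nat_lit 5) (nat_lit 326) (nat_lit 304) (nat_lit 270)) (XT.nd (nat_lit 78) (nat_lit 532) (nat_lit 0) (XT.lf (nat_lit 0) (nat_lit 1941181693) (nat_lit 456) (nat_lit 5949774607) (nat_lit 532) (nat_lit 2002168413) (nat_lit 170) (nat_lit 5) (nat_lit 176) (nat_lit 5) (nat_lit 177) (nat_lit 5) (nat_lit 327) (nat_lit 304) (nat_lit 269)) (XT.lf (nat_lit 0) (nat_lit 1913843004) (nat_lit 532) (nat_lit 8151361659) (nat_lit 76) (nat_lit 82323624) (nat_lit 163) (nat_lit 5) (nat_lit 170) (nat_lit 5) (nat_lit 164) (nat_lit 5) (nat_lit 328) (nat_lit 304) (nat_lit 268)))) (XT.nd (nat_lit 78) (nat_lit 912) (nat_lit 0) (XT.lf (nat_lit 0) (nat_lit 2024944585) (nat_lit 380) (nat_lit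 4017946440) (nat_lit 456) (nat_lit 4369452230) (nat_lit 158) (nat_lit 5) (nat_lit 163) (nat_lit 5) (nat_lit 164) (nat_lit 5) (nat_lit 329) (nat_lit 304) (nat_lit 267)) (XT.nd (nat_lit 78) (nat_lit 456) (nat_lit 0) (XT.lf (nat_lit 0) (nat_lit 2081640826) (nat_lit 456) (nat_lit 8323488854) (nat_lit 532) (nat_lit 284510227) (nat_lit 152) (nat_lit 5) (nat_lit 158) (nat_lit 5) (nat_lit 159) (nat_lit 5) (nat_lit 330) (nat_lit 304) (nat_lit 266)) (XT.lf (nat_lit 0) (nat_lit 2105810925) (nat_lit 380) (nat_lit 1870872896) (nat_lit 456) (nat_lit 7001498025) (nat_lit 146) (nat_lit 5) (nat_lit 151) (nat_lit 5) (nat_lit 152) (nat_lit 5) (nat_lit 331) (nat_lit 304) (nat_lit 265)))))) (XT.nd (nat_lit 468) (nat_lit 1672) (nat_lit 0) (XT.nd (nat_lit 234) (nat_lit 988) (nat_lit 0) (XT.nd (nat_lit 78) (nat_lit 760) (nat_lit 0) (XT.lf (nat_lit 0) (nat_lit 2121673644) (nat_lit 380) (nat_lit 6385823389) (nat_lit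 456) (nat_lit 2771733973) (nat_lit 141) (nat_lit 5) (nat_lit 146) (nat_lit 5) (nat_lit 147) (nat_lit 5) (nat_lit 332) (nat_lit 304) (nat_lit 264)) (XT.nd (nat_lit 78) (nat_lit 380) (nat_lit 0) (XT.lf (nat_lit 0) (nat_lit 1680851136) (nat_lit 380) (nat_lit 9457806454) (nat_lit 76) (nat_lit 454911327) (nat_lit 136) (nat_lit 5) (nat_lit 141) (nat_lit 5) (nat_lit 137) (nat_lit 5) (nat_lit 333) (nat_lit 304) (nat_lit 263)) (XT.lf (nat_lit 0) (nat_lit 2089058363) (nat_lit 380) (nat_lit 4300645893) (nat_lit 456) (nat_lit 5530400716) (nat_lit 131) (nat_lit 5) (nat_lit 136) (nat_lit 5) (nat_lit 137) (nat_lit 5) (nat_lit 334) (nat_lit 304) (nat_lit 262)))) (XT.nd (nat_lit 78) (nat_lit 684) (nat_lit 0) (XT.lf (nat_lit 0) (nat_lit 2040590195) (nat_lit 304) (nat_lit 9352509273) (nat_lit 380) (nat_lit 868127197) (nat_lit 127) (nat_lit 5) (nat_lit 131) (nat_lit 5) (nat_lit 132) (nat_lit 5) (nat_lit 335) (nat_lit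 304) (nat_lit 261)) (XT.nd (nat_lit 78) (nat_lit 304) (nat_lit 0) (XT.lf (nat_lit 0) (nat_lit 1929739437) (nat_lit 304) (nat_lit 2098707633) (nat_lit 380) (nat_lit 8587432217) (nat_lit 122) (nat_lit 5) (nat_lit 126) (nat_lit 5) (nat_lit 127) (nat_lit 5) (nat_lit 336) (nat_lit 304) (nat_lit 260)) (XT.lf (nat_lit 0) (nat_lit 1769407241) (nat_lit 304) (nat_lit 7477137700) (nat_lit 380) (nat_lit 3738650286) (nat_lit 118) (nat_lit 5) (nat_lit 122) (nat_lit 5) (nat_lit 123) (nat_lit 5) (nat_lit 337) (nat_lit 304) (nat_lit 259))))) (XT.nd (nat_lit 234) (nat_lit 684) (nat_lit 0) (XT.nd (nat_lit 78) (nat_lit 608) (nat_lit 0) (XT.lf (nat_lit 0) (nat_lit 1395598816) (nat_lit 380) (nat_lit 11792053651) (nat_lit 76) (nat_lit 182877706) (nat_lit 113) (nat_lit 5) (nat_lit 118) (nat_lit 5) (nat_lit 114) (nat_lit 5) (nat_lit 338) (nat_lit 304) (nat_lit 258)) (XT.nd (nat_lit 78) (nat_lit 304) (nat_lit 0) (XT.lf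 (nat_lit 0) (nat_lit 1270352128) (nat_lit 304) (nat_lit 5566412805) (nat_lit 380) (nat_lit 6933455350) (nat_lit 109) (nat_lit 5) (nat_lit 113) (nat_lit 5) (nat_lit 114) (nat_lit 5) (nat_lit 339) (nat_lit 304) (nat_lit 257)) (XT.lf (nat_lit 0) (nat_lit 925627053) (nat_lit 304) (nat_lit 11704049516) (nat_lit 380) (nat_lit 1557851214) (nat_lit 105) (nat_lit 5) (nat_lit 109) (nat_lit 5) (nat_lit 110) (nat_lit 5) (nat_lit 340) (nat_lit 304) (nat_lit 256)))) (XT.nd (nat_lit 78) (nat_lit 380) (nat_lit 0) (XT.lf (nat_lit 0) (nat_lit 461960370) (nat_lit 228) (nat_lit 3661963178) (nat_lit 304) (nat_lit 10497106369) (nat_lit 101) (nat_lit 5) (nat_lit 104) (nat_lit 5) (nat_lit 105) (nat_lit 5) (nat_lit 341) (nat_lit 304) (nat_lit 255)) (XT.nd (nat_lit 78) (nat_lit 380) (nat_lit 0) (XT.lf (nat_lit 0) (nat_lit 10170355692) (nat_lit 304) (nat_lit 96662721) (nat_lit 76) (nat_lit 4805363087) (nat_lit 101) (nat_lit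 5) (nat_lit 105) (nat_lit 5) (nat_lit 102) (nat_lit 5) (nat_lit 342) (nat_lit 304) (nat_lit 254)) (XT.lf (nat_lit 0) (nat_lit 1066332283) (nat_lit 380) (nat_lit 737808342) (nat_lit 76) (nat_lit 13738523441) (nat_lit 96) (nat_lit 5) (nat_lit 101) (nat_lit 5) (nat_lit 97) (nat_lit 5) (nat_lit 343) (nat_lit 304) (nat_lit 253))))))))
noncomputable def xc57 : XT := (XT.nd (nat_lit 1872) (nat_lit 1748) (nat_lit 0) (XT.nd (nat_lit 936) (nat_lit 1748) (nat_lit 0) (XT.nd (nat_lit 468) (nat_lit 1064) (nat_lit 0) (XT.nd (nat_lit 234) (nat_lit 684) (nat_lit 0) (XT.nd (nat_lit 78) (nat_lit 532) (nat_lit 0) (XT.lf (nat_lit 0) (nat_lit 7376744512) (nat_lit 304) (nat_lit 1554635092) (nat_lit 76) (nat_lit 7099292803) (nat_lit 93) (nat_lit 5) (nat_lit 97) (nat_lit 5) (nat_lit 94) (nat_lit 5) (nat_lit 344) (nat_lit 304) (nat_lit 252)) (XT.nd (nat_lit 78) (nat_lit 304) (nat_lit 0) (XT.lf (nat_lit 0) (nat_lit 14077229610)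 (nat_lit 228) (nat_lit 22115288) (nat_lit 304) (nat_lit 2440853598) (nat_lit 90) (nat_lit 5) (nat_lit 93) (nat_lit 5) (nat_lit 94) (nat_lit 5) (nat_lit 345) (nat_lit 304) (nat_lit 251)) (XT.lf (nat_lit 0) (nat_lit 4177980966) (nat_lit 304) (nat_lit 3589470720) (nat_lit 76) (nat_lit 9301344492) (nat_lit 86) (nat_lit 5) (nat_lit 90) (nat_lit 5) (nat_lit 87) (nat_lit 5) (nat_lit 346) (nat_lit 304) (nat_lit 250)))) (XT.nd (nat_lit 78) (nat_lit 456) (nat_lit 0) (XT.lf (nat_lit 0) (nat_lit 11180454566) (nat_lit 304) (nat_lit 4863938567) (nat_lit 76) (nat_lit 1575625553) (nat_lit 83) (nat_lit 5) (nat_lit 87) (nat_lit 5) (nat_lit 84) (nat_lit 5) (nat_lit 347) (nat_lit 304) (nat_lit 249)) (XT.nd (nat_lit 78) (nat_lit 228) (nat_lit 0) (XT.lf (nat_lit 0) (nat_lit 499326494) (nat_lit 228) (nat_lit 6347761604) (nat_lit 76) (nat_lit 11346483981) (nat_lit 80) (nat_lit 5) (nat_lit 83) (nat_lit 5) (nat_lit 81)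 (nat_lit 5) (nat_lit 348) (nat_lit 304) (nat_lit 248)) (XT.lf (nat_lit 0) (nat_lit 7777543169) (nat_lit 304) (nat_lit 8073449520) (nat_lit 76) (nat_lit 2939144323) (nat_lit 77) (nat_lit 5) (nat_lit 81) (nat_lit 5) (nat_lit 78) (nat_lit 5) (nat_lit 349) (nat_lit 304) (nat_lit 247))))) (XT.nd (nat_lit 234) (nat_lit 456) (nat_lit 0) (XT.nd (nat_lit 78) (nat_lit 456) (nat_lit 0) (XT.lf (nat_lit 0) (nat_lit 9370716372) (nat_lit 152) (nat_lit 6217299189) (nat_lit 228) (nat_lit 3823477101) (nat_lit 75) (nat_lit 5) (nat_lit 77) (nat_lit 5) (nat_lit 78) (nat_lit 5) (nat_lit 350) (nat_lit 304) (nat_lit 246)) (XT.nd (nat_lit 78) (nat_lit 152) (nat_lit 0) (XT.lf (nat_lit 0) (nat_lit 3794949314) (nat_lit 304) (nat_lit 12281721628) (nat_lit 76) (nat_lit 3981906453) (nat_lit 71) (nat_lit 5) (nat_lit 75) (nat_lit 5) (nat_lit 72) (nat_lit 5) (nat_lit 351) (nat_lit 304) (nat_lit 245)) (XT.lf (nat_lit 0) (nat_lit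 5880843906) (nat_lit 152) (nat_lit 6004633761) (nat_lit 228) (nat_lit 8846306618) (nat_lit 69) (nat_lit 5) (nat_lit 71) (nat_lit 5) (nat_lit 72) (nat_lit 5) (nat_lit 352) (nat_lit 304) (nat_lit 244)))) (XT.nd (nat_lit 78) (nat_lit 228) (nat_lit 0) (XT.lf (nat_lit 0) (nat_lit 3710117808) (nat_lit 228) (nat_lit 16824920399) (nat_lit 304) (nat_lit 898988890) (nat_lit 66) (nat_lit 5) (nat_lit 69) (nat_lit 5) (nat_lit 70) (nat_lit 5) (nat_lit 353) (nat_lit 304) (nat_lit 243)) (XT.nd (nat_lit 78) (nat_lit 0) (nat_lit 0) (XT.lf (nat_lit 0) (nat_lit 1142510873) (nat_lit 152) (nat_lit 6332245453) (nat_lit 228) (nat_lit 14689257870) (nat_lit 63) (nat_lit 5) (nat_lit 65) (nat_lit 5) (nat_lit 66) (nat_lit 5) (nat_lit 354) (nat_lit 304) (nat_lit 242)) (XT.lf (nat_lit 0) (nat_lit 16427717038) (nat_lit 228) (nat_lit 1745791612) (nat_lit 76) (nat_lit 4751360817) (nat_lit 63) (nat_lit 5) (nat_lit 66) (nat_lit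 5) (nat_lit 64) (nat_lit 5) (nat_lit 355) (nat_lit 304) (nat_lit 241)))))) (XT.nd (nat_lit 468) (nat_lit 836) (nat_lit 0) (XT.nd (nat_lit 234) (nat_lit 380) (nat_lit 0) (XT.nd (nat_lit 78) (nat_lit 304) (nat_lit 0) (XT.lf (nat_lit 0) (nat_lit 2261252351) (nat_lit 228) (nat_lit 5028459640) (nat_lit 76) (nat_lit 16427524509) (nat_lit 60) (nat_lit 5) (nat_lit 63) (nat_lit 5) (nat_lit 61) (nat_lit 5) (nat_lit 356) (nat_lit 304) (nat_lit 240)) (XT.nd (nat_lit 78) (nat_lit 152) (nat_lit 0) (XT.lf (nat_lit 0) (nat_lit 11489284900) (nat_lit 228) (nat_lit 8791908978) (nat_lit 76) (nat_lit 4261124137) (nat_lit 58) (nat_lit 5) (nat_lit 61) (nat_lit 5) (nat_lit 59) (nat_lit 5) (nat_lit 357) (nat_lit 304) (nat_lit 239)) (XT.lf (nat_lit 0) (nat_lit 12352591249) (nat_lit 152) (nat_lit 9024951594) (nat_lit 228) (nat_lit 4025153990) (nat_lit 56) (nat_lit 5) (nat_lit 58) (nat_lit 5) (nat_lit 59) (nat_lit 5) (nat_lit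 358) (nat_lit 304) (nat_lit 238)))) (XT.nd (nat_lit 78) (nat_lit 152) (nat_lit 0) (XT.lf (nat_lit 0) (nat_lit 5504453864) (nat_lit 228) (nat_lit 17862032533) (nat_lit 76) (nat_lit 2933339758) (nat_lit 53) (nat_lit 5) (nat_lit 56) (nat_lit 5) (nat_lit 54) (nat_lit 5) (nat_lit 359) (nat_lit 304) (nat_lit 237)) (XT.nd (nat_lit 78) (nat_lit 0) (nat_lit 0) (XT.lf (nat_lit 0) (nat_lit 3900203036) (nat_lit 152) (nat_lit 11748401021) (nat_lit 228) (nat_lit 11585380037) (nat_lit 51) (nat_lit 5) (nat_lit 53) (nat_lit 5) (nat_lit 54) (nat_lit 5) (nat_lit 360) (nat_lit 304) (nat_lit 236)) (XT.lf (nat_lit 0) (nat_lit 26447305185) (nat_lit 228) (nat_lit 1168267615) (nat_lit 76) (nat_lit 594863486) (nat_lit 51) (nat_lit 5) (nat_lit 54) (nat_lit 5) (nat_lit 52) (nat_lit 4) (nat_lit 361) (nat_lit 304) (nat_lit 235))))) (XT.nd (nat_lit 234) (nat_lit 304) (nat_lit 0) (XT.nd (nat_lit 78) (nat_lit 304) (nat_lit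 0) (XT.lf (nat_lit 0) (nat_lit 8679049725) (nat_lit 228) (nat_lit 6961898416) (nat_lit 76) (nat_lit 13583433447) (nat_lit 48) (nat_lit 5) (nat_lit 51) (nat_lit 5) (nat_lit 49) (nat_lit 5) (nat_lit 362) (nat_lit 304) (nat_lit 234)) (XT.nd (nat_lit 78) (nat_lit 152) (nat_lit 0) (XT.lf (nat_lit 0) (nat_lit 16839551374) (nat_lit 152) (nat_lit 2901889144) (nat_lit 228) (nat_lit 10543028842) (nat_lit 46) (nat_lit 5) (nat_lit 48) (nat_lit 5) (nat_lit 49) (nat_lit 5) (nat_lit 363) (nat_lit 304) (nat_lit 233)) (XT.lf (nat_lit 0) (nat_lit 198763290) (nat_lit 152) (nat_lit 20775976888) (nat_lit 76) (nat_lit 10415681030) (nat_lit 44) (nat_lit 5) (nat_lit 46) (nat_lit 5) (nat_lit 45) (nat_lit 5) (nat_lit 364) (nat_lit 304) (nat_lit 232)))) (XT.nd (nat_lit 78) (nat_lit 152) (nat_lit 0) (XT.lf (nat_lit 0) (nat_lit 3471678874) (nat_lit 152) (nat_lit 7954333069) (nat_lit 228) (nat_lit 21117539890) (nat_lit 42)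 (nat_lit 5) (nat_lit 44) (nat_lit 5) (nat_lit 45) (nat_lit 5) (nat_lit 365) (nat_lit 304) (nat_lit 231)) (XT.nd (nat_lit 78) (nat_lit 152) (nat_lit 0) (XT.lf (nat_lit 0) (nat_lit 23448391857) (nat_lit 228) (nat_lit 4507166686) (nat_lit 76) (nat_lit 5791772298) (nat_lit 42) (nat_lit 5) (nat_lit 45) (nat_lit 5) (nat_lit 43) (nat_lit 4) (nat_lit 366) (nat_lit 304) (nat_lit 230)) (XT.lf (nat_lit 0) (nat_lit 1294529486) (nat_lit 152) (nat_lit 13455003812) (nat_lit 76) (nat_lit 20253825192) (nat_lit 40) (nat_lit 5) (nat_lit 42) (nat_lit 5) (nat_lit 41) (nat_lit 5) (nat_lit 367) (nat_lit 304) (nat_lit 229))))))) (XT.nd (nat_lit 936) (nat_lit 684) (nat_lit 0) (XT.nd (nat_lit 468) (nat_lit 532) (nat_lit 0) (XT.nd (nat_lit 234) (nat_lit 228) (nat_lit 0) (XT.nd (nat_lit 78) (nat_lit 152) (nat_lit 0) (XT.lf (nat_lit 0) (nat_lit 12761006362) (nat_lit 152) (nat_lit 630502084) (nat_lit 228) (nat_lit 22923519268)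 (nat_lit 38) (nat_lit 5) (nat_lit 40) (nat_lit 5) (nat_lit 41) (nat_lit 5) (nat_lit 368) (nat_lit 304) (nat_lit 228)) (XT.nd (nat_lit 78) (nat_lit 76) (nat_lit 0) (XT.lf (nat_lit 0) (nat_lit 2733833513) (nat_lit 76) (nat_lit 23628224088) (nat_lit 152) (nat_lit 11322165285) (nat_lit 37) (nat_lit 5) (nat_lit 38) (nat_lit 5) (nat_lit 39) (nat_lit 4) (nat_lit 369) (nat_lit 304) (nat_lit 227)) (XT.lf (nat_lit 0) (nat_lit 1060538967) (nat_lit 152) (nat_lit 8364765977) (nat_lit 76) (nat_lit 29689787404) (nat_lit 36) (nat_lit 5) (nat_lit 38) (nat_lit 5) (nat_lit 37) (nat_lit 5) (nat_lit 370) (nat_lit 304) (nat_lit 226)))) (XT.nd (nat_lit 78) (nat_lit 76) (nat_lit 0) (XT.lf (nat_lit 0) (nat_lit 14044272528) (nat_lit 228) (nat_lit 20901830033) (nat_lit 76) (nat_lit 5661561718) (nat_lit 34) (nat_lit 5) (nat_lit 37) (nat_lit 5) (nat_lit 35) (nat_lit 4) (nat_lit 371) (nat_lit 304) (nat_lit 225)) (XT.nd (nat_lit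 78) (nat_lit 0) (nat_lit 0) (XT.lf (nat_lit 0) (nat_lit 7168890539) (nat_lit 76) (nat_lit 20728410786) (nat_lit 152) (nat_lit 14270963685) (nat_lit 33) (nat_lit 5) (nat_lit 34) (nat_lit 5) (nat_lit 35) (nat_lit 4) (nat_lit 372) (nat_lit 304) (nat_lit 224)) (XT.lf (nat_lit 0) (nat_lit 37024084263) (nat_lit 76) (nat_lit 5604102024) (nat_lit 152) (nat_lit 1173156642) (nat_lit 33) (nat_lit 5) (nat_lit 34) (nat_lit 5) (nat_lit 35) (nat_lit 4) (nat_lit 373) (nat_lit 304) (nat_lit 223))))) (XT.nd (nat_lit 234) (nat_lit 228) (nat_lit 0) (XT.nd (nat_lit 78) (nat_lit 76) (nat_lit 0) (XT.lf (nat_lit 0) (nat_lit 12629556328) (nat_lit 228) (nat_lit 22475910357) (nat_lit 76) (nat_lit 10398118806) (nat_lit 30) (nat_lit 5) (nat_lit 33) (nat_lit 5) (nat_lit 31) (nat_lit 4) (nat_lit 374) (nat_lit 304) (nat_lit 222)) (XT.nd (nat_lit 78) (nat_lit 0) (nat_lit 0) (XT.lf (nat_lit 0) (nat_lit 7194086887) (nat_lit 76)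 (nat_lit 20072272054) (nat_lit 152) (nat_lit 20019189179) (nat_lit 29) (nat_lit 5) (nat_lit 30) (nat_lit 5) (nat_lit 31) (nat_lit 4) (nat_lit 375) (nat_lit 304) (nat_lit 221)) (XT.lf (nat_lit 0) (nat_lit 38765945292) (nat_lit 76) (nat_lit 4073091757) (nat_lit 152) (nat_lit 6311453534) (nat_lit 29) (nat_lit 5) (nat_lit 30) (nat_lit 5) (nat_lit 31) (nat_lit 4) (nat_lit 376) (nat_lit 304) (nat_lit 220)))) (XT.nd (nat_lit 78) (nat_lit 76) (nat_lit 0) (XT.lf (nat_lit 0) (nat_lit 8225309723) (nat_lit 152) (nat_lit 30133729044) (nat_lit 76) (nat_lit 12738273078) (nat_lit 27) (nat_lit 5) (nat_lit 29) (nat_lit 5) (nat_lit 28) (nat_lit 4) (nat_lit 377) (nat_lit 304) (nat_lit 219)) (XT.nd (nat_lit 78) (nat_lit 0) (nat_lit 0) (XT.lf (nat_lit 0) (nat_lit 819438119) (nat_lit 76) (nat_lit 22671383328) (nat_lit 152) (nat_lit 29644807243) (nat_lit 26) (nat_lit 5) (nat_lit 27) (nat_lit 5) (nat_lit 28) (nat_lit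 4) (nat_lit 378) (nat_lit 304) (nat_lit 218)) (XT.lf (nat_lit 0) (nat_lit 33902824742) (nat_lit 76) (nat_lit 5902037329) (nat_lit 152) (nat_lit 15462444024) (nat_lit 26) (nat_lit 5) (nat_lit 27) (nat_lit 5) (nat_lit 28) (nat_lit 4) (nat_lit 379) (nat_lit 304) (nat_lit 217)))))) (XT.nd (nat_lit 468) (nat_lit 304) (nat_lit 0) (XT.nd (nat_lit 234) (nat_lit 152) (nat_lit 0) (XT.nd (nat_lit 78) (nat_lit 152) (nat_lit 0) (XT.lf (nat_lit 0) (nat_lit 11195339698) (nat_lit 76) (nat_lit 45935442444) (nat_lit 76) (nat_lit 368902112) (nat_lit 25) (nat_lit 4) (nat_lit 26) (nat_lit 5) (nat_lit 26) (nat_lit 4) (nat_lit 380) (nat_lit 304) (nat_lit 216)) (XT.nd (nat_lit 78) (nat_lit 76) (nat_lit 0) (XT.lf (nat_lit 0) (nat_lit 15435459067) (nat_lit 152) (nat_lit 14262601217) (nat_lit 76) (nat_lit 30133413196) (nat_lit 24) (nat_lit 5) (nat_lit 26) (nat_lit 5) (nat_lit 25) (nat_lit 4) (nat_lit 381) (nat_lit 304)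 (nat_lit 215)) (XT.lf (nat_lit 0) (nat_lit 19719854586) (nat_lit 76) (nat_lit 12469825164) (nat_lit 152) (nat_lit 30085046659) (nat_lit 23) (nat_lit 5) (nat_lit 24) (nat_lit 5) (nat_lit 25) (nat_lit 4) (nat_lit 382) (nat_lit 304) (nat_lit 214)))) (XT.nd (nat_lit 78) (nat_lit 152) (nat_lit 0) (XT.lf (nat_lit 0) (nat_lit 49962028271) (nat_lit 152) (nat_lit 9233436928) (nat_lit 0) (nat_lit 5639266131) (nat_lit 23) (nat_lit 5) (nat_lit 25) (nat_lit 4) (nat_lit 23) (nat_lit 4) (nat_lit 383) (nat_lit 304) (nat_lit 213)) (XT.nd (nat_lit 78) (nat_lit 0) (nat_lit 0) (XT.lf (nat_lit 0) (nat_lit 1438201124) (nat_lit 152) (nat_lit 41428410064) (nat_lit 76) (nat_lit 24645027328) (nat_lit 21) (nat_lit 5) (nat_lit 23) (nat_lit 5) (nat_lit 22) (nat_lit 4) (nat_lit 384) (nat_lit 304) (nat_lit 212)) (XT.lf (nat_lit 0) (nat_lit 18335493200) (nat_lit 152) (nat_lit 7150903536) (nat_lit 76) (nat_lit 44829225331)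 (nat_lit 21) (nat_lit 5) (nat_lit 23) (nat_lit 5) (nat_lit 22) (nat_lit 4) (nat_lit 385) (nat_lit 304) (nat_lit 211))))) (XT.nd (nat_lit 234) (nat_lit 152) (nat_lit 0) (XT.nd (nat_lit 78) (nat_lit 76) (nat_lit 0) (XT.lf (nat_lit 0) (nat_lit 29376590097) (nat_lit 76) (nat_lit 6964000313) (nat_lit 152) (nat_lit 36911327723) (nat_lit 20) (nat_lit 5) (nat_lit 21) (nat_lit 5) (nat_lit 22) (nat_lit 4) (nat_lit 386) (nat_lit 304) (nat_lit 210)) (XT.nd (nat_lit 78) (nat_lit 76) (nat_lit 0) (XT.lf (nat_lit 0) (nat_lit 55421261056) (nat_lit 152) (nat_lit 8610136061) (nat_lit 0) (nat_lit 12298373805) (nat_lit 20) (nat_lit 5) (nat_lit 22) (nat_lit 4) (nat_lit 20) (nat_lit 4) (nat_lit 387) (nat_lit 304) (nat_lit 209)) (XT.lf (nat_lit 0) (nat_lit 28876783800) (nat_lit 76) (nat_lit 46908927033) (nat_lit 76) (nat_lit 3765914558) (nat_lit 19) (nat_lit 4) (nat_lit 20) (nat_lit 5) (nat_lit 20) (nat_lit 4) (nat_lit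 388) (nat_lit 304) (nat_lit 208)))) (XT.nd (nat_lit 78) (nat_lit 76) (nat_lit 0) (XT.lf (nat_lit 0) (nat_lit 14027807229) (nat_lit 152) (nat_lit 14685730679) (nat_lit 76) (nat_lit 54214778765) (nat_lit 18) (nat_lit 5) (nat_lit 20) (nat_lit 5) (nat_lit 19) (nat_lit 4) (nat_lit 389) (nat_lit 304) (nat_lit 207)) (XT.nd (nat_lit 78) (nat_lit 0) (nat_lit 0) (XT.lf (nat_lit 0) (nat_lit 23490746344) (nat_lit 76) (nat_lit 9352199405) (nat_lit 152) (nat_lit 53623490956) (nat_lit 17) (nat_lit 5) (nat_lit 18) (nat_lit 5) (nat_lit 19) (nat_lit 4) (nat_lit 390) (nat_lit 304) (nat_lit 206)) (XT.lf (nat_lit 0) (nat_lit 52840475338) (nat_lit 152) (nat_lit 26432893788) (nat_lit 0) (nat_lit 10900845770) (nat_lit 17) (nat_lit 5) (nat_lit 19) (nat_lit 4) (nat_lit 17) (nat_lit 4) (nat_lit 391) (nat_lit 304) (nat_lit 205))))))))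
noncomputable def xc58 : XT := (XT.nd (nat_lit 41730) (nat_lit 0) (nat_lit 5016) (XT.nd (nat_lit 40794) (nat_lit 0) (nat_lit 13376) (XT.nd (nat_lit 40326) (nat_lit 0) (nat_lit 22648) (XT.nd (nat_lit 40092) (nat_lit 0) (nat_lit 24776) (XT.nd (nat_lit 78) (nat_lit 152) (nat_lit 0) (XT.lf (nat_lit 0) (nat_lit 12047368798) (nat_lit 76) (nat_lit 61984942904) (nat_lit 76) (nat_lit 20029238509) (nat_lit 16) (nat_lit 4) (nat_lit 17) (nat_lit 5) (nat_lit 17) (nat_lit 4) (nat_lit 392) (nat_lit 304) (nat_lit 204)) (XT.nd (nat_lit 156) (nat_lit 152) (nat_lit 0) (XT.lf (nat_lit 0) (nat_lit 52974517365) (nat_lit 76) (nat_lit 43566022871) (nat_lit 76) (nat_lit 1595009117) (nat_lit 16) (nat_lit 4) (nat_lit 17) (nat_lit 5) (nat_lit 17) (nat_lit 4) (nat_lit 393) (nat_lit 304) (nat_lit 203)) (XT.lf (nat_lit 0) (nat_lit 34385028548) (nat_lit 76) (nat_lit 3242808242) (nat_lit 152) (nat_lit 69257425808) (nat_lit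 14) (nat_lit 5) (nat_lit 15) (nat_lit 5) (nat_lit 16) (nat_lit 4) (nat_lit 395) (nat_lit 304) (nat_lit 201)))) (XT.nd (nat_lit 78) (nat_lit 608) (nat_lit 0) (XT.lf (nat_lit 0) (nat_lit 941487663) (nat_lit 0) (nat_lit 941487663) (nat_lit 532) (nat_lit 1483937115) (nat_lit 348) (nat_lit 5) (nat_lit 348) (nat_lit 3) (nat_lit 355) (nat_lit 3) (nat_lit 305) (nat_lit 305) (nat_lit 290)) (XT.nd (nat_lit 78) (nat_lit 0) (nat_lit 0) (XT.lf (nat_lit 0) (nat_lit 483580888) (nat_lit 608) (nat_lit 6217207281) (nat_lit 684) (nat_lit 95702035) (nat_lit 340) (nat_lit 5) (nat_lit 348) (nat_lit 5) (nat_lit 349) (nat_lit 5) (nat_lit 306) (nat_lit 305) (nat_lit 289)) (XT.lf (nat_lit 0) (nat_lit 3894666975) (nat_lit 608) (nat_lit 652228358) (nat_lit 684) (nat_lit 2319223199) (nat_lit 340) (nat_lit 5) (nat_lit 348) (nat_lit 5) (nat_lit 349) (nat_lit 5) (nat_lit 307) (nat_lit 305) (nat_lit 288))))) (XT.nd (nat_lit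 234) (nat_lit 1444) (nat_lit 0) (XT.nd (nat_lit 78) (nat_lit 0) (nat_lit 76) (XT.lf (nat_lit 0) (nat_lit 363563807) (nat_lit 684) (nat_lit 1774187866) (nat_lit 760) (nat_lit 4806364816) (nat_lit 331) (nat_lit 5) (nat_lit 340) (nat_lit 5) (nat_lit 341) (nat_lit 5) (nat_lit 308) (nat_lit 305) (nat_lit 287)) (XT.nd (nat_lit 78) (nat_lit 0) (nat_lit 0) (XT.lf (nat_lit 0) (nat_lit 3652765671) (nat_lit 684) (nat_lit 2831506792) (nat_lit 760) (nat_lit 545537382) (nat_lit 332) (nat_lit 5) (nat_lit 341) (nat_lit 5) (nat_lit 342) (nat_lit 5) (nat_lit 309) (nat_lit 305) (nat_lit 286)) (XT.lf (nat_lit 76) (nat_lit 3307508157) (nat_lit 0) (nat_lit 3675894300) (nat_lit 760) (nat_lit 140214078) (nat_lit 333) (nat_lit 5) (nat_lit 332) (nat_lit 5) (nat_lit 342) (nat_lit 5) (nat_lit 310) (nat_lit 305) (nat_lit 285)))) (XT.nd (nat_lit 78) (nat_lit 760) (nat_lit 0) (XT.lf (nat_lit 76) (nat_lit 2485393139) (nat_lit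 0) (nat_lit 574124067) (nat_lit 836) (nat_lit 4165844885) (nat_lit 323) (nat_lit 5) (nat_lit 322) (nat_lit 5) (nat_lit 333) (nat_lit 5) (nat_lit 311) (nat_lit 305) (nat_lit 284)) (XT.nd (nat_lit 78) (nat_lit 836) (nat_lit 0) (XT.lf (nat_lit 76) (nat_lit 1731377250) (nat_lit 0) (nat_lit 4586833122) (nat_lit 836) (nat_lit 1017008098) (nat_lit 324) (nat_lit 5) (nat_lit 323) (nat_lit 5) (nat_lit 334) (nat_lit 5) (nat_lit 312) (nat_lit 305) (nat_lit 283)) (XT.lf (nat_lit 76) (nat_lit 1042797966) (nat_lit 0) (nat_lit 1092227900) (nat_lit 912) (nat_lit 5318281102) (nat_lit 313) (nat_lit 5) (nat_lit 312) (nat_lit 5) (nat_lit 324) (nat_lit 5) (nat_lit 313) (nat_lit 305) (nat_lit 282)))))) (XT.nd (nat_lit 468) (nat_lit 4256) (nat_lit 0) (XT.nd (nat_lit 234) (nat_lit 3268) (nat_lit 0) (XT.nd (nat_lit 78) (nat_lit 988) (nat_lit 0) (XT.lf (nat_lit 0) (nat_lit 408181032) (nat_lit 836) (nat_lit 4935512642)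 (nat_lit 912) (nat_lit 2235809120) (nat_lit 302) (nat_lit 5) (nat_lit 313) (nat_lit 5) (nat_lit 314) (nat_lit 5) (nat_lit 314) (nat_lit 305) (nat_lit 281)) (XT.nd (nat_lit 78) (nat_lit 912) (nat_lit 0) (XT.lf (nat_lit 0) (nat_lit 896920212) (nat_lit 912) (nat_lit 156707832) (nat_lit 76) (nat_lit 6660720768) (nat_lit 301) (nat_lit 5) (nat_lit 313) (nat_lit 5) (nat_lit 302) (nat_lit 5) (nat_lit 315) (nat_lit 305) (nat_lit 280)) (XT.lf (nat_lit 0) (nat_lit 4085730601) (nat_lit 988) (nat_lit 682602162) (nat_lit 76) (nat_lit 3088663908) (nat_lit 289) (nat_lit 5) (nat_lit 302) (nat_lit 5) (nat_lit 290) (nat_lit 5) (nat_lit 316) (nat_lit 305) (nat_lit 279)))) (XT.nd (nat_lit 78) (nat_lit 2280) (nat_lit 0) (XT.lf (nat_lit 0) (nat_lit 6869550651) (nat_lit 988) (nat_lit 494947310) (nat_lit 1064) (nat_lit 644453165) (nat_lit 276) (nat_lit 5) (nat_lit 289) (nat_lit 5) (nat_lit 290) (nat_lit 5) (nat_lit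 317) (nat_lit 305) (nat_lit 278)) (XT.nd (nat_lit 78) (nat_lit 1140) (nat_lit 0) (XT.lf (nat_lit 0) (nat_lit 2554169065) (nat_lit 1140) (nat_lit 1582238077) (nat_lit 76) (nat_lit 4032409373) (nat_lit 261) (nat_lit 5) (nat_lit 276) (nat_lit 5) (nat_lit 262) (nat_lit 5) (nat_lit 318) (nat_lit 305) (nat_lit 277)) (XT.lf (nat_lit 0) (nat_lit 5845305976) (nat_lit 1216) (nat_lit 1967116618) (nat_lit 76) (nat_lit 525762789) (nat_lit 246) (nat_lit 5) (nat_lit 262) (nat_lit 5) (nat_lit 247) (nat_lit 5) (nat_lit 319) (nat_lit 305) (nat_lit 276))))) (XT.nd (nat_lit 234) (nat_lit 1748) (nat_lit 0) (XT.nd (nat_lit 78) (nat_lit 1216) (nat_lit 0) (XT.lf (nat_lit 0) (nat_lit 755218540) (nat_lit 1292) (nat_lit 2328796748) (nat_lit 76) (nat_lit 5432287292) (nat_lit 229) (nat_lit 5) (nat_lit 246) (nat_lit 5) (nat_lit 230) (nat_lit 5) (nat_lit 320) (nat_lit 305) (nat_lit 275)) (XT.nd (nat_lit 78) (nat_lit 608)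 (nat_lit 0) (XT.lf (nat_lit 0) (nat_lit 4084325410) (nat_lit 684) (nat_lit 2664675141) (nat_lit 76) (nat_lit 1954549365) (nat_lit 221) (nat_lit 5) (nat_lit 230) (nat_lit 5) (nat_lit 222) (nat_lit 5) (nat_lit 321) (nat_lit 305) (nat_lit 274)) (XT.lf (nat_lit 0) (nat_lit 5935827099) (nat_lit 608) (nat_lit 1633287220) (nat_lit 684) (nat_lit 1331434741) (nat_lit 213) (nat_lit 5) (nat_lit 221) (nat_lit 5) (nat_lit 222) (nat_lit 5) (nat_lit 322) (nat_lit 305) (nat_lit 273)))) (XT.nd (nat_lit 78) (nat_lit 1064) (nat_lit 0) (XT.lf (nat_lit 0) (nat_lit 2080927122) (nat_lit 684) (nat_lit 3256874035) (nat_lit 76) (nat_lit 3768999701) (nat_lit 204) (nat_lit 5) (nat_lit 213) (nat_lit 5) (nat_lit 205) (nat_lit 5) (nat_lit 323) (nat_lit 305) (nat_lit 272)) (XT.nd (nat_lit 78) (nat_lit 532) (nat_lit 0) (XT.lf (nat_lit 0) (nat_lit 5626338547) (nat_lit 608) (nat_lit 3518949333) (nat_lit 76) (nat_lit 178041197)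 (nat_lit 197) (nat_lit 5) (nat_lit 205) (nat_lit 5) (nat_lit 198) (nat_lit 5) (nat_lit 324) (nat_lit 305) (nat_lit 271)) (XT.lf (nat_lit 0) (nat_lit 5774013457) (nat_lit 532) (nat_lit 3607367602) (nat_lit 608) (nat_lit 168387389) (nat_lit 190) (nat_lit 5) (nat_lit 197) (nat_lit 5) (nat_lit 198) (nat_lit 5) (nat_lit 325) (nat_lit 305) (nat_lit 270))))))) (XT.nd (nat_lit 936) (nat_lit 3192) (nat_lit 0) (XT.nd (nat_lit 468) (nat_lit 2204) (nat_lit 0) (XT.nd (nat_lit 234) (nat_lit 1368) (nat_lit 0) (XT.nd (nat_lit 78) (nat_lit 1064) (nat_lit 0) (XT.lf (nat_lit 0) (nat_lit 3474255056) (nat_lit 532) (nat_lit 4032534875) (nat_lit 76) (nat_lit 2279572680) (nat_lit 183) (nat_lit 5) (nat_lit 190) (nat_lit 5) (nat_lit 184) (nat_lit 5) (nat_lit 326) (nat_lit 305) (nat_lit 269)) (XT.nd (nat_lit 78) (nat_lit 532) (nat_lit 0) (XT.lf (nat_lit 0) (nat_lit 5759225628) (nat_lit 532) (nat_lit 1563425276) (nat_lit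 608) (nat_lit 2711321372) (nat_lit 176) (nat_lit 5) (nat_lit 183) (nat_lit 5) (nat_lit 184) (nat_lit 5) (nat_lit 327) (nat_lit 305) (nat_lit 268)) (XT.lf (nat_lit 0) (nat_lit 1091173048) (nat_lit 532) (nat_lit 4523186449) (nat_lit 76) (nat_lit 4678063577) (nat_lit 169) (nat_lit 5) (nat_lit 176) (nat_lit 5) (nat_lit 170) (nat_lit 5) (nat_lit 328) (nat_lit 305) (nat_lit 267)))) (XT.nd (nat_lit 78) (nat_lit 912) (nat_lit 0) (XT.lf (nat_lit 0) (nat_lit 5053721286) (nat_lit 532) (nat_lit 4775762802) (nat_lit 76) (nat_lit 732769965) (nat_lit 163) (nat_lit 5) (nat_lit 170) (nat_lit 5) (nat_lit 164) (nat_lit 5) (nat_lit 329) (nat_lit 305) (nat_lit 266)) (XT.nd (nat_lit 78) (nat_lit 532) (nat_lit 0) (XT.lf (nat_lit 0) (nat_lit 5800915033) (nat_lit 380) (nat_lit 3478669118) (nat_lit 456) (nat_lit 1564077842) (nat_lit 158) (nat_lit 5) (nat_lit 163) (nat_lit 5) (nat_lit 164) (nat_lit 5) (nat_lit 330) (nat_lit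 305) (nat_lit 265)) (XT.lf (nat_lit 0) (nat_lit 2573020723) (nat_lit 532) (nat_lit 5328107313) (nat_lit 76) (nat_lit 3235935337) (nat_lit 151) (nat_lit 5) (nat_lit 158) (nat_lit 5) (nat_lit 152) (nat_lit 5) (nat_lit 331) (nat_lit 305) (nat_lit 264))))) (XT.nd (nat_lit 234) (nat_lit 1064) (nat_lit 0) (XT.nd (nat_lit 78) (nat_lit 760) (nat_lit 0) (XT.lf (nat_lit 0) (nat_lit 5812249111) (nat_lit 380) (nat_lit 1127339671) (nat_lit 456) (nat_lit 4503468731) (nat_lit 146) (nat_lit 5) (nat_lit 151) (nat_lit 5) (nat_lit 152) (nat_lit 5) (nat_lit 332) (nat_lit 305) (nat_lit 263)) (XT.nd (nat_lit 78) (nat_lit 380) (nat_lit 0) (XT.lf (nat_lit 0) (nat_lit 5799487572) (nat_lit 380) (nat_lit 5807829651) (nat_lit 456) (nat_lit 154583592) (nat_lit 141) (nat_lit 5) (nat_lit 146) (nat_lit 5) (nat_lit 147) (nat_lit 5) (nat_lit 333) (nat_lit 305) (nat_lit 262)) (XT.lf (nat_lit 0) (nat_lit 4380852273) (nat_lit 380)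 (nat_lit 6337724611) (nat_lit 76) (nat_lit 1375213097) (nat_lit 136) (nat_lit 5) (nat_lit 141) (nat_lit 5) (nat_lit 137) (nat_lit 5) (nat_lit 334) (nat_lit 305) (nat_lit 261)))) (XT.nd (nat_lit 78) (nat_lit 684) (nat_lit 0) (XT.lf (nat_lit 0) (nat_lit 5683491620) (nat_lit 380) (nat_lit 3550634798) (nat_lit 456) (nat_lit 3205303670) (nat_lit 131) (nat_lit 5) (nat_lit 136) (nat_lit 5) (nat_lit 137) (nat_lit 5) (nat_lit 335) (nat_lit 305) (nat_lit 260)) (XT.nd (nat_lit 78) (nat_lit 304) (nat_lit 0) (XT.lf (nat_lit 0) (nat_lit 1578101573) (nat_lit 380) (nat_lit 7217437481) (nat_lit 76) (nat_lit 4003994588) (nat_lit 126) (nat_lit 5) (nat_lit 131) (nat_lit 5) (nat_lit 127) (nat_lit 5) (nat_lit 336) (nat_lit 305) (nat_lit 259)) (XT.lf (nat_lit 0) (nat_lit 5431211451) (nat_lit 304) (nat_lit 1185529560) (nat_lit 380) (nat_lit 6557505342) (nat_lit 122) (nat_lit 5) (nat_lit 126) (nat_lit 5) (nat_lit 127)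 (nat_lit 5) (nat_lit 337) (nat_lit 305) (nat_lit 258)))))) (XT.nd (nat_lit 468) (nat_lit 1292) (nat_lit 0) (XT.nd (nat_lit 234) (nat_lit 912) (nat_lit 0) (XT.nd (nat_lit 78) (nat_lit 684) (nat_lit 0) (XT.lf (nat_lit 0) (nat_lit 5226104034) (nat_lit 304) (nat_lit 6797677339) (nat_lit 380) (nat_lit 1540444674) (nat_lit 118) (nat_lit 5) (nat_lit 122) (nat_lit 5) (nat_lit 123) (nat_lit 5) (nat_lit 338) (nat_lit 305) (nat_lit 257)) (XT.nd (nat_lit 78) (nat_lit 304) (nat_lit 0) (XT.lf (nat_lit 0) (nat_lit 3734678503) (nat_lit 380) (nat_lit 9005712213) (nat_lit 76) (nat_lit 1229864212) (nat_lit 113) (nat_lit 5) (nat_lit 118) (nat_lit 5) (nat_lit 114) (nat_lit 5) (nat_lit 339) (nat_lit 305) (nat_lit 256)) (XT.lf (nat_lit 0) (nat_lit 4613043095) (nat_lit 304) (nat_lit 4758319358) (nat_lit 380) (nat_lit 5020897722) (nat_lit 109) (nat_lit 5) (nat_lit 113) (nat_lit 5) (nat_lit 114) (nat_lit 5) (nat_lit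 340) (nat_lit 305) (nat_lit 255)))) (XT.nd (nat_lit 78) (nat_lit 532) (nat_lit 0) (XT.lf (nat_lit 0) (nat_lit 547330852) (nat_lit 380) (nat_lit 10626224981) (nat_lit 76) (nat_lit 3658648919) (nat_lit 104) (nat_lit 5) (nat_lit 109) (nat_lit 5) (nat_lit 105) (nat_lit 5) (nat_lit 341) (nat_lit 305) (nat_lit 254)) (XT.nd (nat_lit 78) (nat_lit 304) (nat_lit 0) (XT.lf (nat_lit 0) (nat_lit 3673997520) (nat_lit 228) (nat_lit 2735495643) (nat_lit 304) (nat_lit 8879600882) (nat_lit 101) (nat_lit 5) (nat_lit 104) (nat_lit 5) (nat_lit 105) (nat_lit 5) (nat_lit 342) (nat_lit 305) (nat_lit 253)) (XT.lf (nat_lit 0) (nat_lit 3044834764) (nat_lit 304) (nat_lit 9653821110) (nat_lit 380) (nat_lit 3066173931) (nat_lit 97) (nat_lit 5) (nat_lit 101) (nat_lit 5) (nat_lit 102) (nat_lit 5) (nat_lit 343) (nat_lit 305) (nat_lit 252))))) (XT.nd (nat_lit 234) (nat_lit 532) (nat_lit 0) (XT.nd (nat_lit 78) (nat_lit 456) (nat_lit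 0) (XT.lf (nat_lit 0) (nat_lit 2307993714) (nat_lit 228) (nat_lit 777985018) (nat_lit 304) (nat_lit 13174294849) (nat_lit 93) (nat_lit 5) (nat_lit 96) (nat_lit 5) (nat_lit 97) (nat_lit 5) (nat_lit 344) (nat_lit 305) (nat_lit 251)) (XT.nd (nat_lit 78) (nat_lit 228) (nat_lit 0) (XT.lf (nat_lit 0) (nat_lit 1391991813) (nat_lit 228) (nat_lit 8257190868) (nat_lit 304) (nat_lit 7125406943) (nat_lit 90) (nat_lit 5) (nat_lit 93) (nat_lit 5) (nat_lit 94) (nat_lit 5) (nat_lit 345) (nat_lit 305) (nat_lit 250)) (XT.lf (nat_lit 0) (nat_lit 377676293) (nat_lit 228) (nat_lit 16268649185) (nat_lit 304) (nat_lit 665138374) (nat_lit 87) (nat_lit 5) (nat_lit 90) (nat_lit 5) (nat_lit 91) (nat_lit 5) (nat_lit 346) (nat_lit 305) (nat_lit 249)))) (XT.nd (nat_lit 78) (nat_lit 456) (nat_lit 0) (XT.lf (nat_lit 0) (nat_lit 6183598252) (nat_lit 304) (nat_lit 861276670) (nat_lit 76) (nat_lit 10823011837) (nat_lit 86) (nat_lit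 5) (nat_lit 90) (nat_lit 5) (nat_lit 87) (nat_lit 5) (nat_lit 347) (nat_lit 305) (nat_lit 248)) (XT.nd (nat_lit 78) (nat_lit 228) (nat_lit 0) (XT.lf (nat_lit 0) (nat_lit 13488226009) (nat_lit 304) (nat_lit 2240679372) (nat_lit 76) (nat_lit 2719225415) (nat_lit 83) (nat_lit 5) (nat_lit 87) (nat_lit 5) (nat_lit 84) (nat_lit 5) (nat_lit 348) (nat_lit 305) (nat_lit 247)) (XT.lf (nat_lit 0) (nat_lit 2233685061) (nat_lit 228) (nat_lit 3846445460) (nat_lit 76) (nat_lit 12971444162) (nat_lit 80) (nat_lit 5) (nat_lit 83) (nat_lit 5) (nat_lit 81) (nat_lit 5) (nat_lit 349) (nat_lit 305) (nat_lit 246))))))))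
noncomputable def xc59 : XT := (XT.nd (nat_lit 1872) (nat_lit 1292) (nat_lit 0) (XT.nd (nat_lit 936) (nat_lit 1368) (nat_lit 0) (XT.nd (nat_lit 468) (nat_lit 912) (nat_lit 0) (XT.nd (nat_lit 234) (nat_lit 608) (nat_lit 0) (XT.nd (nat_lit 78) (nat_lit 456) (nat_lit 0) (XT.lf (nat_lit 0) (nat_lit 9831147557) (nat_lit 304) (nat_lit 5699626754) (nat_lit 76) (nat_lit 4148552274) (nat_lit 77) (nat_lit 5) (nat_lit 81) (nat_lit 5) (nat_lit 78) (nat_lit 5) (nat_lit 350) (nat_lit 305) (nat_lit 245)) (XT.nd (nat_lit 78) (nat_lit 304) (nat_lit 0) (XT.lf (nat_lit 0) (nat_lit 12537131089) (nat_lit 152) (nat_lit 5441673417) (nat_lit 228) (nat_lit 2354563563) (nat_lit 75) (nat_lit 5) (nat_lit 77) (nat_lit 5) (nat_lit 78) (nat_lit 5) (nat_lit 351) (nat_lit 305) (nat_lit 244)) (XT.lf (nat_lit 0) (nat_lit 5570726270) (nat_lit 304) (nat_lit 10206208602) (nat_lit 76) (nat_lit 5236659873) (nat_lit 71) (nat_lit 5)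 (nat_lit 75) (nat_lit 5) (nat_lit 72) (nat_lit 5) (nat_lit 352) (nat_lit 305) (nat_lit 243)))) (XT.nd (nat_lit 78) (nat_lit 456) (nat_lit 0) (XT.lf (nat_lit 0) (nat_lit 8787388390) (nat_lit 152) (nat_lit 5227980407) (nat_lit 228) (nat_lit 7706621295) (nat_lit 69) (nat_lit 5) (nat_lit 71) (nat_lit 5) (nat_lit 72) (nat_lit 5) (nat_lit 353) (nat_lit 305) (nat_lit 242)) (XT.nd (nat_lit 78) (nat_lit 152) (nat_lit 0) (XT.lf (nat_lit 0) (nat_lit 586678827) (nat_lit 304) (nat_lit 15998029863) (nat_lit 76) (nat_lit 5875634888) (nat_lit 65) (nat_lit 5) (nat_lit 69) (nat_lit 5) (nat_lit 66) (nat_lit 5) (nat_lit 354) (nat_lit 305) (nat_lit 241)) (XT.lf (nat_lit 0) (nat_lit 3728023089) (nat_lit 152) (nat_lit 5584963572) (nat_lit 228) (nat_lit 13915016173) (nat_lit 63) (nat_lit 5) (nat_lit 65) (nat_lit 5) (nat_lit 66) (nat_lit 5) (nat_lit 355) (nat_lit 305) (nat_lit 240))))) (XT.nd (nat_lit 234) (nat_lit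 532) (nat_lit 0) (XT.nd (nat_lit 78) (nat_lit 228) (nat_lit 0) (XT.lf (nat_lit 0) (nat_lit 619358961) (nat_lit 152) (nat_lit 18040192177) (nat_lit 228) (nat_lit 5368984265) (nat_lit 61) (nat_lit 5) (nat_lit 63) (nat_lit 5) (nat_lit 64) (nat_lit 5) (nat_lit 356) (nat_lit 305) (nat_lit 239)) (XT.nd (nat_lit 78) (nat_lit 152) (nat_lit 0) (XT.lf (nat_lit 0) (nat_lit 3748430529) (nat_lit 228) (nat_lit 2881888872) (nat_lit 76) (nat_lit 18231311268) (nat_lit 60) (nat_lit 5) (nat_lit 63) (nat_lit 5) (nat_lit 61) (nat_lit 5) (nat_lit 357) (nat_lit 305) (nat_lit 238)) (XT.lf (nat_lit 0) (nat_lit 13404416018) (nat_lit 228) (nat_lit 6871679128) (nat_lit 76) (nat_lit 5452886202) (nat_lit 58) (nat_lit 5) (nat_lit 61) (nat_lit 5) (nat_lit 59) (nat_lit 5) (nat_lit 358) (nat_lit 305) (nat_lit 237)))) (XT.nd (nat_lit 78) (nat_lit 380) (nat_lit 0) (XT.lf (nat_lit 0) (nat_lit 15262402192) (nat_lit 152) (nat_lit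 8482877236) (nat_lit 228) (nat_lit 2888364976) (nat_lit 56) (nat_lit 5) (nat_lit 58) (nat_lit 5) (nat_lit 59) (nat_lit 5) (nat_lit 359) (nat_lit 305) (nat_lit 236)) (XT.nd (nat_lit 78) (nat_lit 152) (nat_lit 0) (XT.lf (nat_lit 0) (nat_lit 7060217394) (nat_lit 228) (nat_lit 16474178368) (nat_lit 76) (nat_lit 4041800679) (nat_lit 53) (nat_lit 5) (nat_lit 56) (nat_lit 5) (nat_lit 54) (nat_lit 5) (nat_lit 360) (nat_lit 305) (nat_lit 235)) (XT.lf (nat_lit 0) (nat_lit 6310785839) (nat_lit 152) (nat_lit 11361108562) (nat_lit 228) (nat_lit 10886368049) (nat_lit 51) (nat_lit 5) (nat_lit 53) (nat_lit 5) (nat_lit 54) (nat_lit 5) (nat_lit 361) (nat_lit 305) (nat_lit 234)))))) (XT.nd (nat_lit 468) (nat_lit 684) (nat_lit 0) (XT.nd (nat_lit 234) (nat_lit 304) (nat_lit 0) (XT.nd (nat_lit 78) (nat_lit 228) (nat_lit 0) (XT.lf (nat_lit 0) (nat_lit 928216582) (nat_lit 152) (nat_lit 28041071376) (nat_lit 228) (nat_lit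 615495862) (nat_lit 49) (nat_lit 5) (nat_lit 51) (nat_lit 5) (nat_lit 52) (nat_lit 4) (nat_lit 362) (nat_lit 305) (nat_lit 233)) (XT.nd (nat_lit 78) (nat_lit 152) (nat_lit 0) (XT.lf (nat_lit 0) (nat_lit 10278547357) (nat_lit 228) (nat_lit 5211090720) (nat_lit 76) (nat_lit 15160824478) (nat_lit 48) (nat_lit 5) (nat_lit 51) (nat_lit 5) (nat_lit 49) (nat_lit 5) (nat_lit 363) (nat_lit 305) (nat_lit 232)) (XT.lf (nat_lit 0) (nat_lit 19720266937) (nat_lit 152) (nat_lit 2137886199) (nat_lit 228) (nat_lit 9906486895) (nat_lit 46) (nat_lit 5) (nat_lit 48) (nat_lit 5) (nat_lit 49) (nat_lit 5) (nat_lit 364) (nat_lit 305) (nat_lit 231)))) (XT.nd (nat_lit 78) (nat_lit 152) (nat_lit 0) (XT.lf (nat_lit 0) (nat_lit 1323222428) (nat_lit 152) (nat_lit 19787556972) (nat_lit 76) (nat_lit 11815575987) (nat_lit 44) (nat_lit 5) (nat_lit 46) (nat_lit 5) (nat_lit 45) (nat_lit 5) (nat_lit 365) (nat_lit 305) (nat_lit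 230)) (XT.nd (nat_lit 78) (nat_lit 0) (nat_lit 0) (XT.lf (nat_lit 0) (nat_lit 5614371759) (nat_lit 152) (nat_lit 7463317606) (nat_lit 228) (nat_lit 21060484705) (nat_lit 42) (nat_lit 5) (nat_lit 44) (nat_lit 5) (nat_lit 45) (nat_lit 5) (nat_lit 366) (nat_lit 305) (nat_lit 229)) (XT.lf (nat_lit 0) (nat_lit 25657877985) (nat_lit 228) (nat_lit 2834314297) (nat_lit 76) (nat_lit 6911255915) (nat_lit 42) (nat_lit 5) (nat_lit 45) (nat_lit 5) (nat_lit 43) (nat_lit 4) (nat_lit 367) (nat_lit 305) (nat_lit 228))))) (XT.nd (nat_lit 234) (nat_lit 304) (nat_lit 0) (XT.nd (nat_lit 78) (nat_lit 228) (nat_lit 0) (XT.lf (nat_lit 0) (nat_lit 2374744721) (nat_lit 152) (nat_lit 12263618040) (nat_lit 76) (nat_lit 22084572139) (nat_lit 40) (nat_lit 5) (nat_lit 42) (nat_lit 5) (nat_lit 41) (nat_lit 5) (nat_lit 368) (nat_lit 305) (nat_lit 227)) (XT.nd (nat_lit 78) (nat_lit 76) (nat_lit 0) (XT.lf (nat_lit 0) (nat_lit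 15047199363) (nat_lit 228) (nat_lit 22892942374) (nat_lit 76) (nat_lit 160933088) (nat_lit 38) (nat_lit 5) (nat_lit 41) (nat_lit 5) (nat_lit 39) (nat_lit 4) (nat_lit 369) (nat_lit 305) (nat_lit 226)) (XT.lf (nat_lit 0) (nat_lit 4650415582) (nat_lit 76) (nat_lit 23992072680) (nat_lit 152) (nat_lit 10896960878) (nat_lit 37) (nat_lit 5) (nat_lit 38) (nat_lit 5) (nat_lit 39) (nat_lit 4) (nat_lit 370) (nat_lit 305) (nat_lit 225)))) (XT.nd (nat_lit 78) (nat_lit 228) (nat_lit 0) (XT.lf (nat_lit 0) (nat_lit 2039250287) (nat_lit 152) (nat_lit 7069341246) (nat_lit 76) (nat_lit 31934378513) (nat_lit 36) (nat_lit 5) (nat_lit 38) (nat_lit 5) (nat_lit 37) (nat_lit 5) (nat_lit 371) (nat_lit 305) (nat_lit 224)) (XT.nd (nat_lit 78) (nat_lit 76) (nat_lit 0) (XT.lf (nat_lit 0) (nat_lit 15651463169) (nat_lit 228) (nat_lit 20262723111) (nat_lit 76) (nat_lit 6696610581) (nat_lit 34) (nat_lit 5) (nat_lit 37) (nat_lit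 5) (nat_lit 35) (nat_lit 4) (nat_lit 372) (nat_lit 305) (nat_lit 223)) (XT.lf (nat_lit 0) (nat_lit 9163256280) (nat_lit 76) (nat_lit 21006518458) (nat_lit 152) (nat_lit 14080478775) (nat_lit 33) (nat_lit 5) (nat_lit 34) (nat_lit 5) (nat_lit 35) (nat_lit 4) (nat_lit 373) (nat_lit 305) (nat_lit 222))))))) (XT.nd (nat_lit 936) (nat_lit 380) (nat_lit 0) (XT.nd (nat_lit 468) (nat_lit 380) (nat_lit 0) (XT.nd (nat_lit 234) (nat_lit 228) (nat_lit 0) (XT.nd (nat_lit 78) (nat_lit 304) (nat_lit 0) (XT.lf (nat_lit 0) (nat_lit 40433308680) (nat_lit 76) (nat_lit 5162104394) (nat_lit 152) (nat_lit 370830575) (nat_lit 33) (nat_lit 5) (nat_lit 34) (nat_lit 5) (nat_lit 35) (nat_lit 4) (nat_lit 374) (nat_lit 305) (nat_lit 221)) (XT.nd (nat_lit 78) (nat_lit 76) (nat_lit 0) (XT.lf (nat_lit 0) (nat_lit 14086558308) (nat_lit 228) (nat_lit 22052129703) (nat_lit 76) (nat_lit 11615226054) (nat_lit 30) (nat_lit 5) (nat_lit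 33) (nat_lit 5) (nat_lit 31) (nat_lit 4) (nat_lit 375) (nat_lit 305) (nat_lit 220)) (XT.lf (nat_lit 0) (nat_lit 9057006444) (nat_lit 76) (nat_lit 20373333758) (nat_lit 152) (nat_lit 20195384495) (nat_lit 29) (nat_lit 5) (nat_lit 30) (nat_lit 5) (nat_lit 31) (nat_lit 4) (nat_lit 376) (nat_lit 305) (nat_lit 219)))) (XT.nd (nat_lit 78) (nat_lit 228) (nat_lit 0) (XT.lf (nat_lit 0) (nat_lit 42135876092) (nat_lit 76) (nat_lit 3607649298) (nat_lit 152) (nat_lit 5841536551) (nat_lit 29) (nat_lit 5) (nat_lit 30) (nat_lit 5) (nat_lit 31) (nat_lit 4) (nat_lit 377) (nat_lit 305) (nat_lit 218)) (XT.nd (nat_lit 78) (nat_lit 76) (nat_lit 0) (XT.lf (nat_lit 0) (nat_lit 9389904300) (nat_lit 152) (nat_lit 30218707638) (nat_lit 76) (nat_lit 14020894359) (nat_lit 27) (nat_lit 5) (nat_lit 29) (nat_lit 5) (nat_lit 28) (nat_lit 4) (nat_lit 378) (nat_lit 305) (nat_lit 217)) (XT.lf (nat_lit 0) (nat_lit 2241364914) (nat_lit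 76) (nat_lit 23154728466) (nat_lit 152) (nat_lit 30374326945) (nat_lit 26) (nat_lit 5) (nat_lit 27) (nat_lit 5) (nat_lit 28) (nat_lit 4) (nat_lit 379) (nat_lit 305) (nat_lit 216))))) (XT.nd (nat_lit 234) (nat_lit 228) (nat_lit 0) (XT.nd (nat_lit 78) (nat_lit 152) (nat_lit 0) (XT.lf (nat_lit 0) (nat_lit 36913161111) (nat_lit 76) (nat_lit 5577878216) (nat_lit 152) (nat_lit 15518689406) (nat_lit 26) (nat_lit 5) (nat_lit 27) (nat_lit 5) (nat_lit 28) (nat_lit 4) (nat_lit 380) (nat_lit 305) (nat_lit 215)) (XT.nd (nat_lit 78) (nat_lit 0) (nat_lit 0) (XT.lf (nat_lit 0) (nat_lit 307896818) (nat_lit 152) (nat_lit 47310036712) (nat_lit 76) (nat_lit 12736156304) (nat_lit 24) (nat_lit 5) (nat_lit 26) (nat_lit 5) (nat_lit 25) (nat_lit 4) (nat_lit 381) (nat_lit 305) (nat_lit 214)) (XT.lf (nat_lit 0) (nat_lit 16862170589) (nat_lit 152) (nat_lit 13732110655) (nat_lit 76) (nat_lit 32209060829) (nat_lit 24) (nat_lit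 5) (nat_lit 26) (nat_lit 5) (nat_lit 25) (nat_lit 4) (nat_lit 382) (nat_lit 305) (nat_lit 213)))) (XT.nd (nat_lit 78) (nat_lit 152) (nat_lit 0) (XT.lf (nat_lit 0) (nat_lit 21913819803) (nat_lit 76) (nat_lit 12520706723) (nat_lit 152) (nat_lit 30934821106) (nat_lit 23) (nat_lit 5) (nat_lit 24) (nat_lit 5) (nat_lit 25) (nat_lit 4) (nat_lit 383) (nat_lit 305) (nat_lit 212)) (XT.nd (nat_lit 78) (nat_lit 152) (nat_lit 0) (XT.lf (nat_lit 0) (nat_lit 53070479269) (nat_lit 152) (nat_lit 8531696098) (nat_lit 0) (nat_lit 6455930410) (nat_lit 23) (nat_lit 5) (nat_lit 25) (nat_lit 4) (nat_lit 23) (nat_lit 4) (nat_lit 384) (nat_lit 305) (nat_lit 211)) (XT.lf (nat_lit 0) (nat_lit 2108170429) (nat_lit 152) (nat_lit 42357816589) (nat_lit 76) (nat_lit 26403243906) (nat_lit 21) (nat_lit 5) (nat_lit 23) (nat_lit 5) (nat_lit 22) (nat_lit 4) (nat_lit 385) (nat_lit 305) (nat_lit 210)))))) (XT.nd (nat_lit 468) (nat_lit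 76) (nat_lit 0) (XT.nd (nat_lit 234) (nat_lit 228) (nat_lit 0) (XT.nd (nat_lit 78) (nat_lit 76) (nat_lit 0) (XT.lf (nat_lit 0) (nat_lit 19821848097) (nat_lit 152) (nat_lit 6420816353) (nat_lit 76) (nat_lit 47571605846) (nat_lit 21) (nat_lit 5) (nat_lit 23) (nat_lit 5) (nat_lit 22) (nat_lit 4) (nat_lit 386) (nat_lit 305) (nat_lit 209)) (XT.nd (nat_lit 78) (nat_lit 0) (nat_lit 0) (XT.lf (nat_lit 0) (nat_lit 31901875199) (nat_lit 76) (nat_lit 6808357398) (nat_lit 152) (nat_lit 38187659760) (nat_lit 20) (nat_lit 5) (nat_lit 21) (nat_lit 5) (nat_lit 22) (nat_lit 4) (nat_lit 387) (nat_lit 305) (nat_lit 208)) (XT.lf (nat_lit 0) (nat_lit 58723234501) (nat_lit 152) (nat_lit 8023277118) (nat_lit 0) (nat_lit 13383779296) (nat_lit 20) (nat_lit 5) (nat_lit 22) (nat_lit 4) (nat_lit 20) (nat_lit 4) (nat_lit 388) (nat_lit 305) (nat_lit 207)))) (XT.nd (nat_lit 78) (nat_lit 152) (nat_lit 0) (XT.lf (nat_lit 0)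 (nat_lit 31308826151) (nat_lit 76) (nat_lit 48781298383) (nat_lit 76) (nat_lit 3423589005) (nat_lit 19) (nat_lit 4) (nat_lit 20) (nat_lit 5) (nat_lit 20) (nat_lit 4) (nat_lit 389) (nat_lit 305) (nat_lit 206)) (XT.nd (nat_lit 78) (nat_lit 76) (nat_lit 0) (XT.lf (nat_lit 0) (nat_lit 15224689922) (nat_lit 152) (nat_lit 14468973760) (nat_lit 76) (nat_lit 57366167738) (nat_lit 18) (nat_lit 5) (nat_lit 20) (nat_lit 5) (nat_lit 19) (nat_lit 4) (nat_lit 390) (nat_lit 305) (nat_lit 205)) (XT.lf (nat_lit 0) (nat_lit 25589065645) (nat_lit 76) (nat_lit 9376804808) (nat_lit 152) (nat_lit 55809430178) (nat_lit 17) (nat_lit 5) (nat_lit 18) (nat_lit 5) (nat_lit 19) (nat_lit 4) (nat_lit 391) (nat_lit 305) (nat_lit 204))))) (XT.nd (nat_lit 40248) (nat_lit 0) (nat_lit 23864) (XT.nd (nat_lit 78) (nat_lit 76) (nat_lit 0) (XT.lf (nat_lit 0) (nat_lit 55944438007) (nat_lit 152) (nat_lit 26865032322) (nat_lit 0) (nat_lit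 11859564204) (nat_lit 17) (nat_lit 5) (nat_lit 19) (nat_lit 4) (nat_lit 17) (nat_lit 4) (nat_lit 392) (nat_lit 305) (nat_lit 203)) (XT.nd (nat_lit 40092) (nat_lit 0) (nat_lit 24548) (XT.lf (nat_lit 0) (nat_lit 13513745877) (nat_lit 76) (nat_lit 64668428601) (nat_lit 76) (nat_lit 20568974456) (nat_lit 16) (nat_lit 4) (nat_lit 17) (nat_lit 5) (nat_lit 17) (nat_lit 4) (nat_lit 393) (nat_lit 305) (nat_lit 202)) (XT.lf (nat_lit 0) (nat_lit 1878028307) (nat_lit 684) (nat_lit 776488804) (nat_lit 684) (nat_lit 776488804) (nat_lit 339) (nat_lit 3) (nat_lit 348) (nat_lit 3) (nat_lit 348) (nat_lit 5) (nat_lit 306) (nat_lit 306) (nat_lit 288)))) (XT.nd (nat_lit 78) (nat_lit 0) (nat_lit 0) (XT.lf (nat_lit 0) (nat_lit 89008251) (nat_lit 684) (nat_lit 2917708046) (nat_lit 760) (nat_lit 3929187083) (nat_lit 330) (nat_lit 5) (nat_lit 339) (nat_lit 3) (nat_lit 340) (nat_lit 5) (nat_lit 307) (nat_lit 306) (nat_lit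 287)) (XT.nd (nat_lit 78) (nat_lit 0) (nat_lit 76) (XT.lf (nat_lit 76) (nat_lit 2800721323) (nat_lit 0) (nat_lit 418387985) (nat_lit 760) (nat_lit 3798413681) (nat_lit 331) (nat_lit 5) (nat_lit 330) (nat_lit 5) (nat_lit 340) (nat_lit 5) (nat_lit 308) (nat_lit 306) (nat_lit 286)) (XT.lf (nat_lit 76) (nat_lit 1660220955) (nat_lit 0) (nat_lit 4719393746) (nat_lit 760) (nat_lit 727529812) (nat_lit 332) (nat_lit 5) (nat_lit 331) (nat_lit 5) (nat_lit 341) (nat_lit 5) (nat_lit 309) (nat_lit 306) (nat_lit 285))))))))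
noncomputable def xc60 : XT := (XT.nd (nat_lit 1872) (nat_lit 6460) (nat_lit 0) (XT.nd (nat_lit 936) (nat_lit 5700) (nat_lit 0) (XT.nd (nat_lit 468) (nat_lit 6080) (nat_lit 0) (XT.nd (nat_lit 234) (nat_lit 760) (nat_lit 0) (XT.nd (nat_lit 78) (nat_lit 760) (nat_lit 0) (XT.lf (nat_lit 76) (nat_lit 587969698) (nat_lit 0) (nat_lit 1725651395) (nat_lit 836) (nat_lit 4891070098) (nat_lit 322) (nat_lit 5) (nat_lit 321) (nat_lit 5) (nat_lit 332) (nat_lit 5) (nat_lit 310) (nat_lit 306) (nat_lit 284)) (XT.nd (nat_lit 78) (nat_lit 836) (nat_lit 0) (XT.lf (nat_lit 0) (nat_lit 5382479253) (nat_lit 760) (nat_lit 405575082) (nat_lit 836) (nat_lit 1522245332) (nat_lit 322) (nat_lit 5) (nat_lit 332) (nat_lit 5) (nat_lit 333) (nat_lit 5) (nat_lit 311) (nat_lit 306) (nat_lit 283)) (XT.lf (nat_lit 0) (nat_lit 1064415551) (nat_lit 836) (nat_lit 1328195238) (nat_lit 912) (nat_lit 5031231151) (nat_lit 311) (nat_lit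 5) (nat_lit 322) (nat_lit 5) (nat_lit 323) (nat_lit 5) (nat_lit 312) (nat_lit 306) (nat_lit 282)))) (XT.nd (nat_lit 78) (nat_lit 836) (nat_lit 0) (XT.lf (nat_lit 0) (nat_lit 4069283550) (nat_lit 836) (nat_lit 2197525793) (nat_lit 912) (nat_lit 1278699596) (nat_lit 312) (nat_lit 5) (nat_lit 323) (nat_lit 5) (nat_lit 324) (nat_lit 5) (nat_lit 313) (nat_lit 306) (nat_lit 281)) (XT.nd (nat_lit 78) (nat_lit 836) (nat_lit 0) (XT.lf (nat_lit 76) (nat_lit 4665801689) (nat_lit 0) (nat_lit 2482971548) (nat_lit 912) (nat_lit 526856556) (nat_lit 313) (nat_lit 5) (nat_lit 312) (nat_lit 5) (nat_lit 324) (nat_lit 5) (nat_lit 314) (nat_lit 306) (nat_lit 280)) (XT.lf (nat_lit 0) (nat_lit 2443593038) (nat_lit 912) (nat_lit 3782968027) (nat_lit 76) (nat_lit 1587335819) (nat_lit 301) (nat_lit 5) (nat_lit 313) (nat_lit 5) (nat_lit 302) (nat_lit 5) (nat_lit 315) (nat_lit 306) (nat_lit 279))))) (XT.nd (nat_lit 234)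 (nat_lit 3040) (nat_lit 0) (XT.nd (nat_lit 78) (nat_lit 2128) (nat_lit 0) (XT.lf (nat_lit 0) (nat_lit 3449777464) (nat_lit 912) (nat_lit 2044562027) (nat_lit 988) (nat_lit 2466390925) (nat_lit 289) (nat_lit 5) (nat_lit 301) (nat_lit 5) (nat_lit 302) (nat_lit 5) (nat_lit 316) (nat_lit 306) (nat_lit 278)) (XT.nd (nat_lit 78) (nat_lit 1064) (nat_lit 0) (XT.lf (nat_lit 0) (nat_lit 520037116) (nat_lit 1064) (nat_lit 5194576208) (nat_lit 76) (nat_lit 2401746480) (nat_lit 275) (nat_lit 5) (nat_lit 289) (nat_lit 5) (nat_lit 276) (nat_lit 5) (nat_lit 317) (nat_lit 306) (nat_lit 277)) (XT.lf (nat_lit 0) (nat_lit 2427351810) (nat_lit 1064) (nat_lit 1132216907) (nat_lit 1140) (nat_lit 4720904610) (nat_lit 261) (nat_lit 5) (nat_lit 275) (nat_lit 5) (nat_lit 276) (nat_lit 5) (nat_lit 318) (nat_lit 306) (nat_lit 276)))) (XT.nd (nat_lit 78) (nat_lit 1900) (nat_lit 0) (XT.lf (nat_lit 0) (nat_lit 1973422254)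 (nat_lit 1140) (nat_lit 4755041647) (nat_lit 1216) (nat_lit 1725082241) (nat_lit 246) (nat_lit 5) (nat_lit 261) (nat_lit 5) (nat_lit 262) (nat_lit 5) (nat_lit 319) (nat_lit 306) (nat_lit 275)) (XT.nd (nat_lit 78) (nat_lit 608) (nat_lit 0) (XT.lf (nat_lit 0) (nat_lit 1355119550) (nat_lit 1292) (nat_lit 7069299987) (nat_lit 76) (nat_lit 211643726) (nat_lit 229) (nat_lit 5) (nat_lit 246) (nat_lit 5) (nat_lit 230) (nat_lit 5) (nat_lit 320) (nat_lit 306) (nat_lit 274)) (XT.lf (nat_lit 0) (nat_lit 1165720175) (nat_lit 608) (nat_lit 3392765708) (nat_lit 684) (nat_lit 4268629245) (nat_lit 221) (nat_lit 5) (nat_lit 229) (nat_lit 5) (nat_lit 230) (nat_lit 5) (nat_lit 321) (nat_lit 306) (nat_lit 273)))))) (XT.nd (nat_lit 468) (nat_lit 2812) (nat_lit 0) (XT.nd (nat_lit 234) (nat_lit 1064) (nat_lit 0) (XT.nd (nat_lit 78) (nat_lit 1216) (nat_lit 0) (XT.lf (nat_lit 0) (nat_lit 814743786) (nat_lit 608) (nat_lit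 7089468809) (nat_lit 684) (nat_lit 1124104319) (nat_lit 213) (nat_lit 5) (nat_lit 221) (nat_lit 5) (nat_lit 222) (nat_lit 5) (nat_lit 322) (nat_lit 306) (nat_lit 272)) (XT.nd (nat_lit 78) (nat_lit 532) (nat_lit 0) (XT.lf (nat_lit 0) (nat_lit 474968791) (nat_lit 608) (nat_lit 1664655525) (nat_lit 684) (nat_lit 7099250686) (nat_lit 204) (nat_lit 5) (nat_lit 212) (nat_lit 5) (nat_lit 213) (nat_lit 5) (nat_lit 323) (nat_lit 306) (nat_lit 271)) (XT.lf (nat_lit 0) (nat_lit 148196752) (nat_lit 532) (nat_lit 5411206519) (nat_lit 608) (nat_lit 3899796025) (nat_lit 197) (nat_lit 5) (nat_lit 204) (nat_lit 5) (nat_lit 205) (nat_lit 5) (nat_lit 324) (nat_lit 306) (nat_lit 270)))) (XT.nd (nat_lit 78) (nat_lit 1064) (nat_lit 0) (XT.lf (nat_lit 0) (nat_lit 9155415739) (nat_lit 608) (nat_lit 135154759) (nat_lit 76) (nat_lit 399864880) (nat_lit 197) (nat_lit 5) (nat_lit 205) (nat_lit 5) (nat_lit 198) (nat_lit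 5) (nat_lit 325) (nat_lit 306) (nat_lit 269)) (XT.nd (nat_lit 78) (nat_lit 456) (nat_lit 0) (XT.lf (nat_lit 0) (nat_lit 2985459441) (nat_lit 608) (nat_lit 440769074) (nat_lit 76) (nat_lit 6504810151) (nat_lit 189) (nat_lit 5) (nat_lit 197) (nat_lit 5) (nat_lit 190) (nat_lit 5) (nat_lit 326) (nat_lit 306) (nat_lit 268)) (XT.lf (nat_lit 0) (nat_lit 6692901088) (nat_lit 532) (nat_lit 724026733) (nat_lit 76) (nat_lit 2765971864) (nat_lit 183) (nat_lit 5) (nat_lit 190) (nat_lit 5) (nat_lit 184) (nat_lit 5) (nat_lit 327) (nat_lit 306) (nat_lit 267))))) (XT.nd (nat_lit 234) (nat_lit 1292) (nat_lit 0) (XT.nd (nat_lit 78) (nat_lit 912) (nat_lit 0) (XT.lf (nat_lit 0) (nat_lit 171751336) (nat_lit 608) (nat_lit 991304102) (nat_lit 76) (nat_lit 9283218794) (nat_lit 175) (nat_lit 5) (nat_lit 183) (nat_lit 5) (nat_lit 176) (nat_lit 5) (nat_lit 328) (nat_lit 306) (nat_lit 266)) (XT.nd (nat_lit 78) (nat_lit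 456) (nat_lit 0) (XT.lf (nat_lit 0) (nat_lit 4005075818) (nat_lit 532) (nat_lit 1297059739) (nat_lit 76) (nat_lit 5417866382) (nat_lit 169) (nat_lit 5) (nat_lit 176) (nat_lit 5) (nat_lit 170) (nat_lit 5) (nat_lit 329) (nat_lit 306) (nat_lit 265)) (XT.lf (nat_lit 0) (nat_lit 8067573910) (nat_lit 532) (nat_lit 1583107005) (nat_lit 76) (nat_lit 1355648971) (nat_lit 163) (nat_lit 5) (nat_lit 170) (nat_lit 5) (nat_lit 164) (nat_lit 5) (nat_lit 330) (nat_lit 306) (nat_lit 264)))) (XT.nd (nat_lit 78) (nat_lit 836) (nat_lit 0) (XT.lf (nat_lit 0) (nat_lit 1078963149) (nat_lit 456) (nat_lit 1891383791) (nat_lit 76) (nat_lit 8334184509) (nat_lit 157) (nat_lit 5) (nat_lit 163) (nat_lit 5) (nat_lit 158) (nat_lit 5) (nat_lit 331) (nat_lit 306) (nat_lit 263)) (XT.nd (nat_lit 78) (nat_lit 380) (nat_lit 0) (XT.lf (nat_lit 0) (nat_lit 5301152079) (nat_lit 532) (nat_lit 2231773366) (nat_lit 76) (nat_lit 4081948304)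 (nat_lit 151) (nat_lit 5) (nat_lit 158) (nat_lit 5) (nat_lit 152) (nat_lit 5) (nat_lit 332) (nat_lit 306) (nat_lit 262)) (XT.lf (nat_lit 0) (nat_lit 9369208632) (nat_lit 380) (nat_lit 424453259) (nat_lit 456) (nat_lit 2145327706) (nat_lit 146) (nat_lit 5) (nat_lit 151) (nat_lit 5) (nat_lit 152) (nat_lit 5) (nat_lit 333) (nat_lit 306) (nat_lit 261))))))) (XT.nd (nat_lit 936) (nat_lit 2432) (nat_lit 0) (XT.nd (nat_lit 468) (nat_lit 1824) (nat_lit 0) (XT.nd (nat_lit 234) (nat_lit 1064) (nat_lit 0) (XT.nd (nat_lit 78) (nat_lit 684) (nat_lit 0) (XT.lf (nat_lit 0) (nat_lit 2291614374) (nat_lit 456) (nat_lit 2969602084) (nat_lit 76) (nat_lit 7014371385) (nat_lit 140) (nat_lit 5) (nat_lit 146) (nat_lit 5) (nat_lit 141) (nat_lit 5) (nat_lit 334) (nat_lit 306) (nat_lit 260)) (XT.nd (nat_lit 78) (nat_lit 380) (nat_lit 0) (XT.lf (nat_lit 0) (nat_lit 6972646434) (nat_lit 380) (nat_lit 3395679172) (nat_lit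 76) (nat_lit 2258083686) (nat_lit 136) (nat_lit 5) (nat_lit 141) (nat_lit 5) (nat_lit 137) (nat_lit 5) (nat_lit 335) (nat_lit 306) (nat_lit 259)) (XT.lf (nat_lit 0) (nat_lit 9133181248) (nat_lit 380) (nat_lit 2852843736) (nat_lit 456) (nat_lit 1005825468) (nat_lit 131) (nat_lit 5) (nat_lit 136) (nat_lit 5) (nat_lit 137) (nat_lit 5) (nat_lit 336) (nat_lit 306) (nat_lit 258)))) (XT.nd (nat_lit 78) (nat_lit 684) (nat_lit 0) (XT.lf (nat_lit 0) (nat_lit 3899045499) (nat_lit 380) (nat_lit 4398746002) (nat_lit 76) (nat_lit 5073675991) (nat_lit 126) (nat_lit 5) (nat_lit 131) (nat_lit 5) (nat_lit 127) (nat_lit 5) (nat_lit 337) (nat_lit 306) (nat_lit 257)) (XT.nd (nat_lit 78) (nat_lit 380) (nat_lit 0) (XT.lf (nat_lit 0) (nat_lit 8791193830) (nat_lit 304) (nat_lit 321347123) (nat_lit 380) (nat_lit 4654724386) (nat_lit 122) (nat_lit 5) (nat_lit 126) (nat_lit 5) (nat_lit 127) (nat_lit 5) (nat_lit 338) (nat_lit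 306) (nat_lit 256)) (XT.lf (nat_lit 0) (nat_lit 535270745) (nat_lit 380) (nat_lit 5641495483) (nat_lit 76) (nat_lit 8001813967) (nat_lit 117) (nat_lit 5) (nat_lit 122) (nat_lit 5) (nat_lit 118) (nat_lit 5) (nat_lit 339) (nat_lit 306) (nat_lit 255))))) (XT.nd (nat_lit 234) (nat_lit 836) (nat_lit 0) (XT.nd (nat_lit 78) (nat_lit 684) (nat_lit 0) (XT.lf (nat_lit 0) (nat_lit 5979734193) (nat_lit 380) (nat_lit 6393916988) (nat_lit 76) (nat_lit 2232711274) (nat_lit 113) (nat_lit 5) (nat_lit 118) (nat_lit 5) (nat_lit 114) (nat_lit 5) (nat_lit 340) (nat_lit 306) (nat_lit 254)) (XT.nd (nat_lit 78) (nat_lit 380) (nat_lit 0) (XT.lf (nat_lit 0) (nat_lit 7818002153) (nat_lit 304) (nat_lit 4010825723) (nat_lit 380) (nat_lit 3222754040) (nat_lit 109) (nat_lit 5) (nat_lit 113) (nat_lit 5) (nat_lit 114) (nat_lit 5) (nat_lit 341) (nat_lit 306) (nat_lit 253)) (XT.lf (nat_lit 0) (nat_lit 2525858732) (nat_lit 380)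 (nat_lit 8179715808) (nat_lit 76) (nat_lit 4809128311) (nat_lit 104) (nat_lit 5) (nat_lit 109) (nat_lit 5) (nat_lit 105) (nat_lit 5) (nat_lit 342) (nat_lit 306) (nat_lit 252)))) (XT.nd (nat_lit 78) (nat_lit 608) (nat_lit 0) (XT.lf (nat_lit 0) (nat_lit 6750159194) (nat_lit 228) (nat_lit 1865861633) (nat_lit 304) (nat_lit 7380396522) (nat_lit 101) (nat_lit 5) (nat_lit 104) (nat_lit 5) (nat_lit 105) (nat_lit 5) (nat_lit 343) (nat_lit 306) (nat_lit 251)) (XT.nd (nat_lit 78) (nat_lit 304) (nat_lit 0) (XT.lf (nat_lit 0) (nat_lit 6052723294) (nat_lit 304) (nat_lit 9113770095) (nat_lit 380) (nat_lit 1331067137) (nat_lit 97) (nat_lit 5) (nat_lit 101) (nat_lit 5) (nat_lit 102) (nat_lit 5) (nat_lit 344) (nat_lit 306) (nat_lit 250)) (XT.lf (nat_lit 0) (nat_lit 5032635055) (nat_lit 304) (nat_lit 11787569195) (nat_lit 76) (nat_lit 198828120) (nat_lit 93) (nat_lit 5) (nat_lit 97) (nat_lit 5) (nat_lit 94) (nat_lit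 5) (nat_lit 345) (nat_lit 306) (nat_lit 249)))))) (XT.nd (nat_lit 468) (nat_lit 1216) (nat_lit 0) (XT.nd (nat_lit 234) (nat_lit 456) (nat_lit 0) (XT.nd (nat_lit 78) (nat_lit 532) (nat_lit 0) (XT.lf (nat_lit 0) (nat_lit 4234240803) (nat_lit 228) (nat_lit 7638538917) (nat_lit 304) (nat_lit 5687844136) (nat_lit 90) (nat_lit 5) (nat_lit 93) (nat_lit 5) (nat_lit 94) (nat_lit 5) (nat_lit 346) (nat_lit 306) (nat_lit 248)) (XT.nd (nat_lit 78) (nat_lit 228) (nat_lit 0) (XT.lf (nat_lit 0) (nat_lit 1026393140) (nat_lit 304) (nat_lit 15004556310) (nat_lit 76) (nat_lit 2094527827) (nat_lit 86) (nat_lit 5) (nat_lit 90) (nat_lit 5) (nat_lit 87) (nat_lit 5) (nat_lit 347) (nat_lit 306) (nat_lit 247)) (XT.lf (nat_lit 0) (nat_lit 1767489802) (nat_lit 228) (nat_lit 6371954961) (nat_lit 304) (nat_lit 10572030276) (nat_lit 83) (nat_lit 5) (nat_lit 86) (nat_lit 5) (nat_lit 87) (nat_lit 5) (nat_lit 348) (nat_lit 306)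 (nat_lit 246)))) (XT.nd (nat_lit 78) (nat_lit 304) (nat_lit 0) (XT.lf (nat_lit 0) (nat_lit 252167558) (nat_lit 152) (nat_lit 15499060373) (nat_lit 228) (nat_lit 3571264961) (nat_lit 81) (nat_lit 5) (nat_lit 83) (nat_lit 5) (nat_lit 84) (nat_lit 5) (nat_lit 349) (nat_lit 306) (nat_lit 245)) (XT.nd (nat_lit 78) (nat_lit 228) (nat_lit 0) (XT.lf (nat_lit 0) (nat_lit 3895838469) (nat_lit 228) (nat_lit 1482119910) (nat_lit 76) (nat_lit 14579323382) (nat_lit 80) (nat_lit 5) (nat_lit 83) (nat_lit 5) (nat_lit 81) (nat_lit 5) (nat_lit 350) (nat_lit 306) (nat_lit 244)) (XT.lf (nat_lit 0) (nat_lit 11832661605) (nat_lit 304) (nat_lit 3465338031) (nat_lit 76) (nat_lit 5319654024) (nat_lit 77) (nat_lit 5) (nat_lit 81) (nat_lit 5) (nat_lit 78) (nat_lit 5) (nat_lit 351) (nat_lit 306) (nat_lit 243))))) (XT.nd (nat_lit 234) (nat_lit 608) (nat_lit 0) (XT.nd (nat_lit 78) (nat_lit 456) (nat_lit 0) (XT.lf (nat_lit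 0) (nat_lit 15611043334) (nat_lit 152) (nat_lit 4728277965) (nat_lit 228) (nat_lit 966543539) (nat_lit 75) (nat_lit 5) (nat_lit 77) (nat_lit 5) (nat_lit 78) (nat_lit 5) (nat_lit 352) (nat_lit 306) (nat_lit 242)) (XT.nd (nat_lit 78) (nat_lit 152) (nat_lit 0) (XT.lf (nat_lit 0) (nat_lit 7287838085) (nat_lit 304) (nat_lit 8276973356) (nat_lit 76) (nat_lit 6456005881) (nat_lit 71) (nat_lit 5) (nat_lit 75) (nat_lit 5) (nat_lit 72) (nat_lit 5) (nat_lit 353) (nat_lit 306) (nat_lit 241)) (XT.lf (nat_lit 0) (nat_lit 11596374399) (nat_lit 152) (nat_lit 4512612949) (nat_lit 228) (nat_lit 6657031131) (nat_lit 69) (nat_lit 5) (nat_lit 71) (nat_lit 5) (nat_lit 72) (nat_lit 5) (nat_lit 354) (nat_lit 306) (nat_lit 240)))) (XT.nd (nat_lit 78) (nat_lit 304) (nat_lit 0) (XT.lf (nat_lit 0) (nat_lit 1987620501) (nat_lit 304) (nat_lit 14436932554) (nat_lit 76) (nat_lit 7117395378) (nat_lit 65) (nat_lit 5) (nat_lit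 69) (nat_lit 5) (nat_lit 66) (nat_lit 5) (nat_lit 355) (nat_lit 306) (nat_lit 239)) (XT.nd (nat_lit 78) (nat_lit 152) (nat_lit 0) (XT.lf (nat_lit 0) (nat_lit 6207745489) (nat_lit 152) (nat_lit 4899228391) (nat_lit 228) (nat_lit 13242327444) (nat_lit 63) (nat_lit 5) (nat_lit 65) (nat_lit 5) (nat_lit 66) (nat_lit 5) (nat_lit 356) (nat_lit 306) (nat_lit 238)) (XT.lf (nat_lit 0) (nat_lit 2907852592) (nat_lit 152) (nat_lit 17980294817) (nat_lit 228) (nat_lit 4302706664) (nat_lit 61) (nat_lit 5) (nat_lit 63) (nat_lit 5) (nat_lit 64) (nat_lit 5) (nat_lit 357) (nat_lit 306) (nat_lit 237))))))))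
noncomputable def xc61 : XT := (XT.nd (nat_lit 1872) (nat_lit 684) (nat_lit 0) (XT.nd (nat_lit 936) (nat_lit 1064) (nat_lit 0) (XT.nd (nat_lit 468) (nat_lit 608) (nat_lit 0) (XT.nd (nat_lit 234) (nat_lit 608) (nat_lit 0) (XT.nd (nat_lit 78) (nat_lit 304) (nat_lit 0) (XT.lf (nat_lit 0) (nat_lit 5182215376) (nat_lit 228) (nat_lit 850932295) (nat_lit 76) (nat_lit 20033952145) (nat_lit 60) (nat_lit 5) (nat_lit 63) (nat_lit 5) (nat_lit 61) (nat_lit 5) (nat_lit 358) (nat_lit 306) (nat_lit 236)) (XT.nd (nat_lit 78) (nat_lit 152) (nat_lit 0) (XT.lf (nat_lit 0) (nat_lit 15290661194) (nat_lit 228) (nat_lit 5074831975) (nat_lit 76) (nat_lit 6613245576) (nat_lit 58) (nat_lit 5) (nat_lit 61) (nat_lit 5) (nat_lit 59) (nat_lit 5) (nat_lit 359) (nat_lit 306) (nat_lit 235)) (XT.lf (nat_lit 0) (nat_lit 18104598383) (nat_lit 152) (nat_lit 8006048820) (nat_lit 228) (nat_lit 1819135412) (nat_lit 56) (nat_lit 5)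 (nat_lit 58) (nat_lit 5) (nat_lit 59) (nat_lit 5) (nat_lit 360) (nat_lit 306) (nat_lit 234)))) (XT.nd (nat_lit 78) (nat_lit 380) (nat_lit 0) (XT.lf (nat_lit 0) (nat_lit 8574716552) (nat_lit 228) (nat_lit 15228993144) (nat_lit 76) (nat_lit 5116266162) (nat_lit 53) (nat_lit 5) (nat_lit 56) (nat_lit 5) (nat_lit 54) (nat_lit 5) (nat_lit 361) (nat_lit 306) (nat_lit 233)) (XT.nd (nat_lit 78) (nat_lit 228) (nat_lit 0) (XT.lf (nat_lit 0) (nat_lit 8635914838) (nat_lit 152) (nat_lit 11045071010) (nat_lit 228) (nat_lit 10271247912) (nat_lit 51) (nat_lit 5) (nat_lit 53) (nat_lit 5) (nat_lit 54) (nat_lit 5) (nat_lit 362) (nat_lit 306) (nat_lit 232)) (XT.lf (nat_lit 0) (nat_lit 476383408) (nat_lit 228) (nat_lit 28084228377) (nat_lit 76) (nat_lit 2470132727) (nat_lit 48) (nat_lit 5) (nat_lit 51) (nat_lit 5) (nat_lit 49) (nat_lit 5) (nat_lit 363) (nat_lit 306) (nat_lit 231))))) (XT.nd (nat_lit 234) (nat_lit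 304) (nat_lit 0) (XT.nd (nat_lit 78) (nat_lit 304) (nat_lit 0) (XT.lf (nat_lit 0) (nat_lit 11849658530) (nat_lit 228) (nat_lit 3567878709) (nat_lit 76) (nat_lit 16733577139) (nat_lit 48) (nat_lit 5) (nat_lit 51) (nat_lit 5) (nat_lit 49) (nat_lit 5) (nat_lit 364) (nat_lit 306) (nat_lit 230)) (XT.nd (nat_lit 78) (nat_lit 152) (nat_lit 0) (XT.lf (nat_lit 0) (nat_lit 22555475745) (nat_lit 152) (nat_lit 1420202366) (nat_lit 228) (nat_lit 9346307031) (nat_lit 46) (nat_lit 5) (nat_lit 48) (nat_lit 5) (nat_lit 49) (nat_lit 5) (nat_lit 365) (nat_lit 306) (nat_lit 229)) (XT.lf (nat_lit 0) (nat_lit 2400286926) (nat_lit 152) (nat_lit 18938187646) (nat_lit 76) (nat_lit 13203734294) (nat_lit 44) (nat_lit 5) (nat_lit 46) (nat_lit 5) (nat_lit 45) (nat_lit 5) (nat_lit 366) (nat_lit 306) (nat_lit 228)))) (XT.nd (nat_lit 78) (nat_lit 152) (nat_lit 0) (XT.lf (nat_lit 0) (nat_lit 7681130203) (nat_lit 152) (nat_lit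 7030377258) (nat_lit 228) (nat_lit 21104046646) (nat_lit 42) (nat_lit 5) (nat_lit 44) (nat_lit 5) (nat_lit 45) (nat_lit 5) (nat_lit 367) (nat_lit 306) (nat_lit 227)) (XT.nd (nat_lit 78) (nat_lit 152) (nat_lit 0) (XT.lf (nat_lit 0) (nat_lit 27881421803) (nat_lit 228) (nat_lit 1254296930) (nat_lit 76) (nat_lit 8009557941) (nat_lit 42) (nat_lit 5) (nat_lit 45) (nat_lit 5) (nat_lit 43) (nat_lit 4) (nat_lit 368) (nat_lit 306) (nat_lit 226)) (XT.lf (nat_lit 0) (nat_lit 3414560199) (nat_lit 152) (nat_lit 11185972672) (nat_lit 76) (nat_lit 23930801369) (nat_lit 40) (nat_lit 5) (nat_lit 42) (nat_lit 5) (nat_lit 41) (nat_lit 5) (nat_lit 369) (nat_lit 306) (nat_lit 225)))))) (XT.nd (nat_lit 468) (nat_lit 456) (nat_lit 0) (XT.nd (nat_lit 234) (nat_lit 304) (nat_lit 0) (XT.nd (nat_lit 78) (nat_lit 152) (nat_lit 0) (XT.lf (nat_lit 0) (nat_lit 16699767316) (nat_lit 228) (nat_lit 22375533949) (nat_lit 76) (nat_lit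 903711481) (nat_lit 38) (nat_lit 5) (nat_lit 41) (nat_lit 5) (nat_lit 39) (nat_lit 4) (nat_lit 370) (nat_lit 306) (nat_lit 224)) (XT.nd (nat_lit 78) (nat_lit 76) (nat_lit 0) (XT.lf (nat_lit 0) (nat_lit 6497349416) (nat_lit 76) (nat_lit 24450122923) (nat_lit 152) (nat_lit 10542659106) (nat_lit 37) (nat_lit 5) (nat_lit 38) (nat_lit 5) (nat_lit 39) (nat_lit 4) (nat_lit 371) (nat_lit 306) (nat_lit 223)) (XT.lf (nat_lit 0) (nat_lit 2980835815) (nat_lit 152) (nat_lit 5868465425) (nat_lit 76) (nat_lit 34220532122) (nat_lit 36) (nat_lit 5) (nat_lit 38) (nat_lit 5) (nat_lit 37) (nat_lit 5) (nat_lit 372) (nat_lit 306) (nat_lit 222)))) (XT.nd (nat_lit 78) (nat_lit 152) (nat_lit 0) (XT.lf (nat_lit 0) (nat_lit 17254877157) (nat_lit 228) (nat_lit 19748241648) (nat_lit 76) (nat_lit 7713500772) (nat_lit 34) (nat_lit 5) (nat_lit 37) (nat_lit 5) (nat_lit 35) (nat_lit 4) (nat_lit 373) (nat_lit 306) (nat_lit 221))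 (XT.nd (nat_lit 78) (nat_lit 76) (nat_lit 0) (XT.lf (nat_lit 0) (nat_lit 11105247860) (nat_lit 76) (nat_lit 21369032256) (nat_lit 152) (nat_lit 13964518048) (nat_lit 33) (nat_lit 5) (nat_lit 34) (nat_lit 5) (nat_lit 35) (nat_lit 4) (nat_lit 374) (nat_lit 306) (nat_lit 220)) (XT.lf (nat_lit 0) (nat_lit 383924815) (nat_lit 152) (nat_lit 4377348744) (nat_lit 76) (nat_lit 43480342663) (nat_lit 32) (nat_lit 5) (nat_lit 34) (nat_lit 5) (nat_lit 33) (nat_lit 5) (nat_lit 375) (nat_lit 306) (nat_lit 219))))) (XT.nd (nat_lit 234) (nat_lit 228) (nat_lit 0) (XT.nd (nat_lit 78) (nat_lit 76) (nat_lit 0) (XT.lf (nat_lit 0) (nat_lit 15539660974) (nat_lit 228) (nat_lit 21751038979) (nat_lit 76) (nat_lit 12828369496) (nat_lit 30) (nat_lit 5) (nat_lit 33) (nat_lit 5) (nat_lit 31) (nat_lit 4) (nat_lit 376) (nat_lit 306) (nat_lit 218)) (XT.nd (nat_lit 78) (nat_lit 0) (nat_lit 0) (XT.lf (nat_lit 0) (nat_lit 10873317276)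 (nat_lit 76) (nat_lit 20754765164) (nat_lit 152) (nat_lit 20457068331) (nat_lit 29) (nat_lit 5) (nat_lit 30) (nat_lit 5) (nat_lit 31) (nat_lit 4) (nat_lit 377) (nat_lit 306) (nat_lit 217)) (XT.lf (nat_lit 0) (nat_lit 45541203715) (nat_lit 76) (nat_lit 3181141018) (nat_lit 152) (nat_lit 5421151103) (nat_lit 29) (nat_lit 5) (nat_lit 30) (nat_lit 5) (nat_lit 31) (nat_lit 4) (nat_lit 378) (nat_lit 306) (nat_lit 216)))) (XT.nd (nat_lit 78) (nat_lit 76) (nat_lit 0) (XT.lf (nat_lit 0) (nat_lit 10542691208) (nat_lit 152) (nat_lit 30440112082) (nat_lit 76) (nat_lit 15307614930) (nat_lit 27) (nat_lit 5) (nat_lit 29) (nat_lit 5) (nat_lit 28) (nat_lit 4) (nat_lit 379) (nat_lit 306) (nat_lit 215)) (XT.nd (nat_lit 78) (nat_lit 0) (nat_lit 0) (XT.lf (nat_lit 0) (nat_lit 3605999951) (nat_lit 76) (nat_lit 23722692528) (nat_lit 152) (nat_lit 31210303465) (nat_lit 26) (nat_lit 5) (nat_lit 27) (nat_lit 5) (nat_lit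 28) (nat_lit 4) (nat_lit 380) (nat_lit 306) (nat_lit 214)) (XT.lf (nat_lit 0) (nat_lit 39951739921) (nat_lit 76) (nat_lit 5295084164) (nat_lit 152) (nat_lit 15644395470) (nat_lit 26) (nat_lit 5) (nat_lit 27) (nat_lit 5) (nat_lit 28) (nat_lit 4) (nat_lit 381) (nat_lit 306) (nat_lit 213))))))) (XT.nd (nat_lit 41106) (nat_lit 0) (nat_lit 18544) (XT.nd (nat_lit 468) (nat_lit 304) (nat_lit 0) (XT.nd (nat_lit 234) (nat_lit 152) (nat_lit 0) (XT.nd (nat_lit 78) (nat_lit 76) (nat_lit 0) (XT.lf (nat_lit 0) (nat_lit 947042678) (nat_lit 152) (nat_lit 48491137954) (nat_lit 76) (nat_lit 13914846950) (nat_lit 24) (nat_lit 5) (nat_lit 26) (nat_lit 5) (nat_lit 25) (nat_lit 4) (nat_lit 382) (nat_lit 306) (nat_lit 212)) (XT.nd (nat_lit 78) (nat_lit 76) (nat_lit 0) (XT.lf (nat_lit 0) (nat_lit 18299327708) (nat_lit 152) (nat_lit 13290715622) (nat_lit 76) (nat_lit 34335592757) (nat_lit 24) (nat_lit 5) (nat_lit 26)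 (nat_lit 5) (nat_lit 25) (nat_lit 4) (nat_lit 383) (nat_lit 306) (nat_lit 211)) (XT.lf (nat_lit 0) (nat_lit 24105177449) (nat_lit 76) (nat_lit 12627368182) (nat_lit 152) (nat_lit 31887931426) (nat_lit 23) (nat_lit 5) (nat_lit 24) (nat_lit 5) (nat_lit 25) (nat_lit 4) (nat_lit 384) (nat_lit 306) (nat_lit 210)))) (XT.nd (nat_lit 78) (nat_lit 152) (nat_lit 0) (XT.lf (nat_lit 0) (nat_lit 56277608297) (nat_lit 152) (nat_lit 7903031310) (nat_lit 0) (nat_lit 7263716475) (nat_lit 23) (nat_lit 5) (nat_lit 25) (nat_lit 4) (nat_lit 23) (nat_lit 4) (nat_lit 385) (nat_lit 306) (nat_lit 209)) (XT.nd (nat_lit 78) (nat_lit 0) (nat_lit 0) (XT.lf (nat_lit 0) (nat_lit 2756036319) (nat_lit 152) (nat_lit 43439867075) (nat_lit 76) (nat_lit 28200472052) (nat_lit 21) (nat_lit 5) (nat_lit 23) (nat_lit 5) (nat_lit 22) (nat_lit 4) (nat_lit 386) (nat_lit 306) (nat_lit 208)) (XT.lf (nat_lit 0) (nat_lit 21329566568) (nat_lit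 152) (nat_lit 5755342558) (nat_lit 76) (nat_lit 50404534663) (nat_lit 21) (nat_lit 5) (nat_lit 23) (nat_lit 5) (nat_lit 22) (nat_lit 4) (nat_lit 387) (nat_lit 306) (nat_lit 207))))) (XT.nd (nat_lit 234) (nat_lit 152) (nat_lit 0) (XT.nd (nat_lit 78) (nat_lit 76) (nat_lit 0) (XT.lf (nat_lit 0) (nat_lit 34455205328) (nat_lit 76) (nat_lit 6691774877) (nat_lit 152) (nat_lit 39580730414) (nat_lit 20) (nat_lit 5) (nat_lit 21) (nat_lit 5) (nat_lit 22) (nat_lit 4) (nat_lit 388) (nat_lit 306) (nat_lit 206)) (XT.nd (nat_lit 78) (nat_lit 76) (nat_lit 0) (XT.lf (nat_lit 0) (nat_lit 62140947603) (nat_lit 152) (nat_lit 7501660252) (nat_lit 0) (nat_lit 14479713659) (nat_lit 20) (nat_lit 5) (nat_lit 22) (nat_lit 4) (nat_lit 20) (nat_lit 4) (nat_lit 389) (nat_lit 306) (nat_lit 205)) (XT.lf (nat_lit 0) (nat_lit 33770596856) (nat_lit 76) (nat_lit 50791270329) (nat_lit 76) (nat_lit 3113479312) (nat_lit 19) (nat_lit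 4) (nat_lit 20) (nat_lit 5) (nat_lit 20) (nat_lit 4) (nat_lit 390) (nat_lit 306) (nat_lit 204)))) (XT.nd (nat_lit 78) (nat_lit 76) (nat_lit 0) (XT.lf (nat_lit 0) (nat_lit 16435350569) (nat_lit 152) (nat_lit 14329798000) (nat_lit 76) (nat_lit 60634158697) (nat_lit 18) (nat_lit 5) (nat_lit 20) (nat_lit 5) (nat_lit 19) (nat_lit 4) (nat_lit 391) (nat_lit 306) (nat_lit 203)) (XT.nd (nat_lit 40248) (nat_lit 0) (nat_lit 23788) (XT.lf (nat_lit 0) (nat_lit 27706416418) (nat_lit 76) (nat_lit 9443826846) (nat_lit 152) (nat_lit 58150708647) (nat_lit 17) (nat_lit 5) (nat_lit 18) (nat_lit 5) (nat_lit 19) (nat_lit 4) (nat_lit 392) (nat_lit 306) (nat_lit 202)) (XT.lf (nat_lit 0) (nat_lit 769116614) (nat_lit 0) (nat_lit 769116614) (nat_lit 684) (nat_lit 1968455161) (nat_lit 330) (nat_lit 5) (nat_lit 330) (nat_lit 3) (nat_lit 339) (nat_lit 3) (nat_lit 307) (nat_lit 307) (nat_lit 286)))))) (XT.nd (nat_lit 468)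 (nat_lit 3724) (nat_lit 0) (XT.nd (nat_lit 234) (nat_lit 760) (nat_lit 0) (XT.nd (nat_lit 78) (nat_lit 760) (nat_lit 0) (XT.lf (nat_lit 76) (nat_lit 155446173) (nat_lit 0) (nat_lit 5916115330) (nat_lit 760) (nat_lit 1027552341) (nat_lit 331) (nat_lit 5) (nat_lit 330) (nat_lit 5) (nat_lit 340) (nat_lit 5) (nat_lit 308) (nat_lit 307) (nat_lit 285)) (XT.nd (nat_lit 78) (nat_lit 0) (nat_lit 76) (XT.lf (nat_lit 0) (nat_lit 1872143293) (nat_lit 760) (nat_lit 1146475240) (nat_lit 836) (nat_lit 4173529252) (nat_lit 320) (nat_lit 5) (nat_lit 330) (nat_lit 5) (nat_lit 331) (nat_lit 5) (nat_lit 309) (nat_lit 307) (nat_lit 284)) (XT.lf (nat_lit 0) (nat_lit 4765613375) (nat_lit 760) (nat_lit 2369239297) (nat_lit 836) (nat_lit 158695751) (nat_lit 321) (nat_lit 5) (nat_lit 331) (nat_lit 5) (nat_lit 332) (nat_lit 5) (nat_lit 310) (nat_lit 307) (nat_lit 283)))) (XT.nd (nat_lit 78) (nat_lit 0) (nat_lit 0) (XT.lf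 (nat_lit 0) (nat_lit 303611376) (nat_lit 836) (nat_lit 3541610254) (nat_lit 912) (nat_lit 3557560773) (nat_lit 310) (nat_lit 5) (nat_lit 321) (nat_lit 5) (nat_lit 322) (nat_lit 5) (nat_lit 311) (nat_lit 307) (nat_lit 282)) (XT.nd (nat_lit 78) (nat_lit 0) (nat_lit 76) (XT.lf (nat_lit 76) (nat_lit 2862021174) (nat_lit 0) (nat_lit 249734616) (nat_lit 912) (nat_lit 4408459298) (nat_lit 311) (nat_lit 5) (nat_lit 310) (nat_lit 5) (nat_lit 322) (nat_lit 5) (nat_lit 312) (nat_lit 307) (nat_lit 281)) (XT.lf (nat_lit 76) (nat_lit 1914153171) (nat_lit 0) (nat_lit 4077391114) (nat_lit 912) (nat_lit 1654139872) (nat_lit 312) (nat_lit 5) (nat_lit 311) (nat_lit 5) (nat_lit 323) (nat_lit 5) (nat_lit 313) (nat_lit 307) (nat_lit 280))))) (XT.nd (nat_lit 234) (nat_lit 2888) (nat_lit 0) (XT.nd (nat_lit 78) (nat_lit 0) (nat_lit 76) (XT.lf (nat_lit 76) (nat_lit 1035325019) (nat_lit 0) (nat_lit 86373833) (nat_lit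 988) (nat_lit 6658226249) (nat_lit 300) (nat_lit 5) (nat_lit 299) (nat_lit 5) (nat_lit 312) (nat_lit 5) (nat_lit 314) (nat_lit 307) (nat_lit 279)) (XT.nd (nat_lit 78) (nat_lit 0) (nat_lit 76) (XT.lf (nat_lit 76) (nat_lit 179653171) (nat_lit 0) (nat_lit 3777312566) (nat_lit 988) (nat_lit 3964865330) (nat_lit 301) (nat_lit 5) (nat_lit 300) (nat_lit 5) (nat_lit 313) (nat_lit 5) (nat_lit 315) (nat_lit 307) (nat_lit 278)) (XT.lf (nat_lit 0) (nat_lit 6869974497) (nat_lit 912) (nat_lit 594018234) (nat_lit 76) (nat_lit 608845669) (nat_lit 301) (nat_lit 5) (nat_lit 313) (nat_lit 5) (nat_lit 302) (nat_lit 5) (nat_lit 316) (nat_lit 307) (nat_lit 277)))) (XT.nd (nat_lit 78) (nat_lit 2052) (nat_lit 0) (XT.lf (nat_lit 0) (nat_lit 1634957621) (nat_lit 988) (nat_lit 1344838301) (nat_lit 76) (nat_lit 5252064537) (nat_lit 288) (nat_lit 5) (nat_lit 301) (nat_lit 5) (nat_lit 289) (nat_lit 5) (nat_lit 317) (nat_lit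 307) (nat_lit 276)) (XT.nd (nat_lit 78) (nat_lit 1064) (nat_lit 0) (XT.lf (nat_lit 0) (nat_lit 4545759894) (nat_lit 1064) (nat_lit 2054446627) (nat_lit 76) (nat_lit 1799666037) (nat_lit 275) (nat_lit 5) (nat_lit 289) (nat_lit 5) (nat_lit 276) (nat_lit 5) (nat_lit 318) (nat_lit 307) (nat_lit 275)) (XT.lf (nat_lit 0) (nat_lit 5851121533) (nat_lit 1064) (nat_lit 1727428350) (nat_lit 1140) (nat_lit 998513592) (nat_lit 261) (nat_lit 5) (nat_lit 275) (nat_lit 5) (nat_lit 276) (nat_lit 5) (nat_lit 319) (nat_lit 307) (nat_lit 274))))))))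
noncomputable def xc62 : XT := (XT.nd (nat_lit 1872) (nat_lit 4560) (nat_lit 0) (XT.nd (nat_lit 936) (nat_lit 4104) (nat_lit 0) (XT.nd (nat_lit 468) (nat_lit 2964) (nat_lit 0) (XT.nd (nat_lit 234) (nat_lit 1824) (nat_lit 0) (XT.nd (nat_lit 78) (nat_lit 1824) (nat_lit 0) (XT.lf (nat_lit 0) (nat_lit 1947700105) (nat_lit 1216) (nat_lit 3383736575) (nat_lit 76) (nat_lit 3431561008) (nat_lit 245) (nat_lit 5) (nat_lit 261) (nat_lit 5) (nat_lit 246) (nat_lit 5) (nat_lit 320) (nat_lit 307) (nat_lit 273)) (XT.nd (nat_lit 78) (nat_lit 608) (nat_lit 0) (XT.lf (nat_lit 0) (nat_lit 4952781530) (nat_lit 1216) (nat_lit 46061339) (nat_lit 1292) (nat_lit 3959804166) (nat_lit 229) (nat_lit 5) (nat_lit 245) (nat_lit 5) (nat_lit 246) (nat_lit 5) (nat_lit 321) (nat_lit 307) (nat_lit 272)) (XT.lf (nat_lit 0) (nat_lit 4543391005) (nat_lit 608) (nat_lit 3680188628) (nat_lit 684) (nat_lit 939928196) (nat_lit 221) (nat_lit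 5) (nat_lit 229) (nat_lit 5) (nat_lit 230) (nat_lit 5) (nat_lit 322) (nat_lit 307) (nat_lit 271)))) (XT.nd (nat_lit 78) (nat_lit 1140) (nat_lit 0) (XT.lf (nat_lit 0) (nat_lit 2181565377) (nat_lit 684) (nat_lit 5217458303) (nat_lit 76) (nat_lit 1979175460) (nat_lit 212) (nat_lit 5) (nat_lit 221) (nat_lit 5) (nat_lit 213) (nat_lit 5) (nat_lit 323) (nat_lit 307) (nat_lit 270)) (XT.nd (nat_lit 78) (nat_lit 532) (nat_lit 0) (XT.lf (nat_lit 0) (nat_lit 3796835031) (nat_lit 608) (nat_lit 1661324333) (nat_lit 684) (nat_lit 4144685428) (nat_lit 204) (nat_lit 5) (nat_lit 212) (nat_lit 5) (nat_lit 213) (nat_lit 5) (nat_lit 324) (nat_lit 307) (nat_lit 269)) (XT.lf (nat_lit 0) (nat_lit 3453541807) (nat_lit 532) (nat_lit 5474948578) (nat_lit 608) (nat_lit 909385515) (nat_lit 197) (nat_lit 5) (nat_lit 204) (nat_lit 5) (nat_lit 205) (nat_lit 5) (nat_lit 325) (nat_lit 307) (nat_lit 268))))) (XT.nd (nat_lit 234)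 (nat_lit 1368) (nat_lit 0) (XT.nd (nat_lit 78) (nat_lit 988) (nat_lit 0) (XT.lf (nat_lit 0) (nat_lit 2456182722) (nat_lit 608) (nat_lit 6959965585) (nat_lit 76) (nat_lit 667328050) (nat_lit 189) (nat_lit 5) (nat_lit 197) (nat_lit 5) (nat_lit 190) (nat_lit 5) (nat_lit 326) (nat_lit 307) (nat_lit 267)) (XT.nd (nat_lit 78) (nat_lit 532) (nat_lit 0) (XT.lf (nat_lit 0) (nat_lit 2786186025) (nat_lit 456) (nat_lit 3240468199) (nat_lit 532) (nat_lit 4312813904) (nat_lit 183) (nat_lit 5) (nat_lit 189) (nat_lit 5) (nat_lit 190) (nat_lit 5) (nat_lit 327) (nat_lit 307) (nat_lit 266)) (XT.lf (nat_lit 0) (nat_lit 2471801494) (nat_lit 532) (nat_lit 7341349360) (nat_lit 608) (nat_lit 794025848) (nat_lit 176) (nat_lit 5) (nat_lit 183) (nat_lit 5) (nat_lit 184) (nat_lit 5) (nat_lit 328) (nat_lit 307) (nat_lit 265)))) (XT.nd (nat_lit 78) (nat_lit 836) (nat_lit 0) (XT.lf (nat_lit 0) (nat_lit 2148274720) (nat_lit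 456) (nat_lit 740320836) (nat_lit 532) (nat_lit 7997542816) (nat_lit 169) (nat_lit 5) (nat_lit 175) (nat_lit 5) (nat_lit 176) (nat_lit 5) (nat_lit 329) (nat_lit 307) (nat_lit 264)) (XT.nd (nat_lit 78) (nat_lit 380) (nat_lit 0) (XT.lf (nat_lit 0) (nat_lit 1804627251) (nat_lit 456) (nat_lit 5011558942) (nat_lit 532) (nat_lit 4360345504) (nat_lit 163) (nat_lit 5) (nat_lit 169) (nat_lit 5) (nat_lit 170) (nat_lit 5) (nat_lit 330) (nat_lit 307) (nat_lit 263)) (XT.lf (nat_lit 0) (nat_lit 1479019445) (nat_lit 380) (nat_lit 9510609864) (nat_lit 456) (nat_lit 490366635) (nat_lit 158) (nat_lit 5) (nat_lit 163) (nat_lit 5) (nat_lit 164) (nat_lit 5) (nat_lit 331) (nat_lit 307) (nat_lit 262)))))) (XT.nd (nat_lit 468) (nat_lit 1976) (nat_lit 0) (XT.nd (nat_lit 234) (nat_lit 760) (nat_lit 0) (XT.nd (nat_lit 78) (nat_lit 836) (nat_lit 0) (XT.lf (nat_lit 0) (nat_lit 1108432910) (nat_lit 456) (nat_lit 2474315238)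 (nat_lit 532) (nat_lit 8212506785) (nat_lit 151) (nat_lit 5) (nat_lit 157) (nat_lit 5) (nat_lit 158) (nat_lit 5) (nat_lit 332) (nat_lit 307) (nat_lit 261)) (XT.nd (nat_lit 78) (nat_lit 456) (nat_lit 0) (XT.lf (nat_lit 0) (nat_lit 720807194) (nat_lit 380) (nat_lit 7210136607) (nat_lit 456) (nat_lit 4192771628) (nat_lit 146) (nat_lit 5) (nat_lit 151) (nat_lit 5) (nat_lit 152) (nat_lit 5) (nat_lit 333) (nat_lit 307) (nat_lit 260)) (XT.lf (nat_lit 0) (nat_lit 94419468) (nat_lit 456) (nat_lit 12129769394) (nat_lit 76) (nat_lit 242420451) (nat_lit 140) (nat_lit 5) (nat_lit 146) (nat_lit 5) (nat_lit 141) (nat_lit 5) (nat_lit 334) (nat_lit 307) (nat_lit 259)))) (XT.nd (nat_lit 78) (nat_lit 760) (nat_lit 0) (XT.lf (nat_lit 0) (nat_lit 4629106512) (nat_lit 456) (nat_lit 134525208) (nat_lit 76) (nat_lit 8058202801) (nat_lit 140) (nat_lit 5) (nat_lit 146) (nat_lit 5) (nat_lit 141) (nat_lit 5) (nat_lit 335)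 (nat_lit 307) (nat_lit 258)) (XT.nd (nat_lit 78) (nat_lit 456) (nat_lit 0) (XT.lf (nat_lit 0) (nat_lit 9473434354) (nat_lit 380) (nat_lit 609516038) (nat_lit 76) (nat_lit 3109409580) (nat_lit 136) (nat_lit 5) (nat_lit 141) (nat_lit 5) (nat_lit 137) (nat_lit 5) (nat_lit 336) (nat_lit 307) (nat_lit 257)) (XT.lf (nat_lit 0) (nat_lit 1063082640) (nat_lit 456) (nat_lit 1127724647) (nat_lit 76) (nat_lit 11387238082) (nat_lit 130) (nat_lit 5) (nat_lit 136) (nat_lit 5) (nat_lit 131) (nat_lit 5) (nat_lit 337) (nat_lit 307) (nat_lit 256))))) (XT.nd (nat_lit 234) (nat_lit 988) (nat_lit 0) (XT.nd (nat_lit 78) (nat_lit 684) (nat_lit 0) (XT.lf (nat_lit 0) (nat_lit 6127593099) (nat_lit 380) (nat_lit 1734725614) (nat_lit 76) (nat_lit 6116005299) (nat_lit 126) (nat_lit 5) (nat_lit 131) (nat_lit 5) (nat_lit 127) (nat_lit 5) (nat_lit 338) (nat_lit 307) (nat_lit 255)) (XT.nd (nat_lit 78) (nat_lit 380) (nat_lit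 0) (XT.lf (nat_lit 0) (nat_lit 11536661296) (nat_lit 380) (nat_lit 2368807808) (nat_lit 76) (nat_lit 490429470) (nat_lit 122) (nat_lit 5) (nat_lit 127) (nat_lit 5) (nat_lit 123) (nat_lit 5) (nat_lit 339) (nat_lit 307) (nat_lit 254)) (XT.lf (nat_lit 0) (nat_lit 2486002580) (nat_lit 380) (nat_lit 3113606947) (nat_lit 76) (nat_lit 9229556280) (nat_lit 117) (nat_lit 5) (nat_lit 122) (nat_lit 5) (nat_lit 118) (nat_lit 5) (nat_lit 340) (nat_lit 307) (nat_lit 253)))) (XT.nd (nat_lit 78) (nat_lit 684) (nat_lit 0) (XT.lf (nat_lit 0) (nat_lit 8145679419) (nat_lit 380) (nat_lit 3936215254) (nat_lit 76) (nat_lit 3198182531) (nat_lit 113) (nat_lit 5) (nat_lit 118) (nat_lit 5) (nat_lit 114) (nat_lit 5) (nat_lit 341) (nat_lit 307) (nat_lit 252)) (XT.nd (nat_lit 78) (nat_lit 380) (nat_lit 0) (XT.lf (nat_lit 0) (nat_lit 10906686300) (nat_lit 304) (nat_lit 3317571451) (nat_lit 380) (nat_lit 1525217304) (nat_lit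 109) (nat_lit 5) (nat_lit 113) (nat_lit 5) (nat_lit 114) (nat_lit 5) (nat_lit 342) (nat_lit 307) (nat_lit 251)) (XT.lf (nat_lit 0) (nat_lit 4421912519) (nat_lit 380) (nat_lit 5887730693) (nat_lit 76) (nat_lit 5927178328) (nat_lit 104) (nat_lit 5) (nat_lit 109) (nat_lit 5) (nat_lit 105) (nat_lit 5) (nat_lit 343) (nat_lit 307) (nat_lit 250))))))) (XT.nd (nat_lit 936) (nat_lit 1900) (nat_lit 0) (XT.nd (nat_lit 468) (nat_lit 1064) (nat_lit 0) (XT.nd (nat_lit 234) (nat_lit 760) (nat_lit 0) (XT.nd (nat_lit 78) (nat_lit 608) (nat_lit 0) (XT.lf (nat_lit 0) (nat_lit 9711215270) (nat_lit 228) (nat_lit 1046312272) (nat_lit 304) (nat_lit 5986890811) (nat_lit 101) (nat_lit 5) (nat_lit 104) (nat_lit 5) (nat_lit 105) (nat_lit 5) (nat_lit 344) (nat_lit 307) (nat_lit 249)) (XT.nd (nat_lit 78) (nat_lit 228) (nat_lit 0) (XT.lf (nat_lit 0) (nat_lit 309076788) (nat_lit 380) (nat_lit 8329603534) (nat_lit 76) (nat_lit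 8633317421) (nat_lit 96) (nat_lit 5) (nat_lit 101) (nat_lit 5) (nat_lit 97) (nat_lit 5) (nat_lit 345) (nat_lit 307) (nat_lit 248)) (XT.lf (nat_lit 0) (nat_lit 6917110144) (nat_lit 304) (nat_lit 9787857157) (nat_lit 76) (nat_lit 1115592233) (nat_lit 93) (nat_lit 5) (nat_lit 97) (nat_lit 5) (nat_lit 94) (nat_lit 5) (nat_lit 346) (nat_lit 307) (nat_lit 247)))) (XT.nd (nat_lit 78) (nat_lit 532) (nat_lit 0) (XT.lf (nat_lit 0) (nat_lit 6960827581) (nat_lit 228) (nat_lit 7084854530) (nat_lit 304) (nat_lit 4345176793) (nat_lit 90) (nat_lit 5) (nat_lit 93) (nat_lit 5) (nat_lit 94) (nat_lit 5) (nat_lit 347) (nat_lit 307) (nat_lit 246)) (XT.nd (nat_lit 78) (nat_lit 228) (nat_lit 0) (XT.lf (nat_lit 0) (nat_lit 2629785564) (nat_lit 304) (nat_lit 13243031541) (nat_lit 76) (nat_lit 3111985129) (nat_lit 86) (nat_lit 5) (nat_lit 90) (nat_lit 5) (nat_lit 87) (nat_lit 5) (nat_lit 348) (nat_lit 307) (nat_lit 245))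 (XT.lf (nat_lit 0) (nat_lit 4295617993) (nat_lit 228) (nat_lit 5752415953) (nat_lit 304) (nat_lit 9553598028) (nat_lit 83) (nat_lit 5) (nat_lit 86) (nat_lit 5) (nat_lit 87) (nat_lit 5) (nat_lit 349) (nat_lit 307) (nat_lit 244))))) (XT.nd (nat_lit 234) (nat_lit 608) (nat_lit 0) (XT.nd (nat_lit 78) (nat_lit 304) (nat_lit 0) (XT.lf (nat_lit 0) (nat_lit 2669950094) (nat_lit 152) (nat_lit 15330659135) (nat_lit 228) (nat_lit 2243802942) (nat_lit 81) (nat_lit 5) (nat_lit 83) (nat_lit 5) (nat_lit 84) (nat_lit 5) (nat_lit 350) (nat_lit 307) (nat_lit 243)) (XT.nd (nat_lit 78) (nat_lit 0) (nat_lit 0) (XT.lf (nat_lit 0) (nat_lit 777908838) (nat_lit 228) (nat_lit 4726520518) (nat_lit 304) (nat_lit 15407978188) (nat_lit 77) (nat_lit 5) (nat_lit 80) (nat_lit 5) (nat_lit 81) (nat_lit 5) (nat_lit 351) (nat_lit 307) (nat_lit 242)) (XT.lf (nat_lit 0) (nat_lit 13793869897) (nat_lit 304) (nat_lit 1353552723) (nat_lit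 76) (nat_lit 6459717575) (nat_lit 77) (nat_lit 5) (nat_lit 81) (nat_lit 5) (nat_lit 78) (nat_lit 5) (nat_lit 352) (nat_lit 307) (nat_lit 241)))) (XT.nd (nat_lit 78) (nat_lit 380) (nat_lit 0) (XT.lf (nat_lit 0) (nat_lit 344040214) (nat_lit 228) (nat_lit 3723318903) (nat_lit 76) (nat_lit 18263632801) (nat_lit 74) (nat_lit 5) (nat_lit 77) (nat_lit 5) (nat_lit 75) (nat_lit 5) (nat_lit 353) (nat_lit 307) (nat_lit 240)) (XT.nd (nat_lit 78) (nat_lit 152) (nat_lit 0) (XT.lf (nat_lit 0) (nat_lit 8957060376) (nat_lit 304) (nat_lit 6478082182) (nat_lit 76) (nat_lit 7647298705) (nat_lit 71) (nat_lit 5) (nat_lit 75) (nat_lit 5) (nat_lit 72) (nat_lit 5) (nat_lit 354) (nat_lit 307) (nat_lit 239)) (XT.lf (nat_lit 0) (nat_lit 14325505217) (nat_lit 152) (nat_lit 3852287607) (nat_lit 228) (nat_lit 5688366834) (nat_lit 69) (nat_lit 5) (nat_lit 71) (nat_lit 5) (nat_lit 72) (nat_lit 5) (nat_lit 355) (nat_lit 307)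 (nat_lit 238)))))) (XT.nd (nat_lit 468) (nat_lit 912) (nat_lit 0) (XT.nd (nat_lit 234) (nat_lit 380) (nat_lit 0) (XT.nd (nat_lit 78) (nat_lit 304) (nat_lit 0) (XT.lf (nat_lit 0) (nat_lit 3331090173) (nat_lit 304) (nat_lit 13017283670) (nat_lit 76) (nat_lit 8333109814) (nat_lit 65) (nat_lit 5) (nat_lit 69) (nat_lit 5) (nat_lit 66) (nat_lit 5) (nat_lit 356) (nat_lit 307) (nat_lit 237)) (XT.nd (nat_lit 78) (nat_lit 152) (nat_lit 0) (XT.lf (nat_lit 0) (nat_lit 8598242736) (nat_lit 152) (nat_lit 4268921458) (nat_lit 228) (nat_lit 12663228816) (nat_lit 63) (nat_lit 5) (nat_lit 65) (nat_lit 5) (nat_lit 66) (nat_lit 5) (nat_lit 357) (nat_lit 307) (nat_lit 236)) (XT.lf (nat_lit 0) (nat_lit 5100887564) (nat_lit 152) (nat_lit 18006831582) (nat_lit 228) (nat_lit 3307205431) (nat_lit 61) (nat_lit 5) (nat_lit 63) (nat_lit 5) (nat_lit 64) (nat_lit 5) (nat_lit 358) (nat_lit 307) (nat_lit 235)))) (XT.nd (nat_lit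 78) (nat_lit 152) (nat_lit 0) (XT.lf (nat_lit 0) (nat_lit 1100837793) (nat_lit 152) (nat_lit 5481558550) (nat_lit 228) (nat_lit 20753625461) (nat_lit 58) (nat_lit 5) (nat_lit 60) (nat_lit 5) (nat_lit 61) (nat_lit 5) (nat_lit 359) (nat_lit 307) (nat_lit 234)) (XT.nd (nat_lit 78) (nat_lit 152) (nat_lit 0) (XT.lf (nat_lit 0) (nat_lit 17158164208) (nat_lit 228) (nat_lit 3387139460) (nat_lit 76) (nat_lit 7749091586) (nat_lit 58) (nat_lit 5) (nat_lit 61) (nat_lit 5) (nat_lit 59) (nat_lit 5) (nat_lit 360) (nat_lit 307) (nat_lit 233)) (XT.lf (nat_lit 0) (nat_lit 20895611597) (nat_lit 152) (nat_lit 7589142845) (nat_lit 228) (nat_lit 809277840) (nat_lit 56) (nat_lit 5) (nat_lit 58) (nat_lit 5) (nat_lit 59) (nat_lit 5) (nat_lit 361) (nat_lit 307) (nat_lit 232))))) (XT.nd (nat_lit 234) (nat_lit 304) (nat_lit 0) (XT.nd (nat_lit 78) (nat_lit 380) (nat_lit 0) (XT.lf (nat_lit 0) (nat_lit 10056956495) (nat_lit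 228) (nat_lit 14113894826) (nat_lit 76) (nat_lit 6163349720) (nat_lit 53) (nat_lit 5) (nat_lit 56) (nat_lit 5) (nat_lit 54) (nat_lit 5) (nat_lit 362) (nat_lit 307) (nat_lit 231)) (XT.nd (nat_lit 78) (nat_lit 228) (nat_lit 0) (XT.lf (nat_lit 0) (nat_lit 10890467684) (nat_lit 152) (nat_lit 10795426166) (nat_lit 228) (nat_lit 9733165374) (nat_lit 51) (nat_lit 5) (nat_lit 53) (nat_lit 5) (nat_lit 54) (nat_lit 5) (nat_lit 363) (nat_lit 307) (nat_lit 230)) (XT.lf (nat_lit 0) (nat_lit 1507044298) (nat_lit 228) (nat_lit 27675328800) (nat_lit 76) (nat_lit 3369555017) (nat_lit 48) (nat_lit 5) (nat_lit 51) (nat_lit 5) (nat_lit 49) (nat_lit 5) (nat_lit 364) (nat_lit 307) (nat_lit 229)))) (XT.nd (nat_lit 78) (nat_lit 304) (nat_lit 0) (XT.lf (nat_lit 0) (nat_lit 13401038333) (nat_lit 228) (nat_lit 2019500267) (nat_lit 76) (nat_lit 18309223286) (nat_lit 48) (nat_lit 5) (nat_lit 51) (nat_lit 5) (nat_lit 49)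 (nat_lit 5) (nat_lit 365) (nat_lit 307) (nat_lit 228)) (XT.nd (nat_lit 78) (nat_lit 152) (nat_lit 0) (XT.lf (nat_lit 0) (nat_lit 25360524326) (nat_lit 152) (nat_lit 743295801) (nat_lit 228) (nat_lit 8856248951) (nat_lit 46) (nat_lit 5) (nat_lit 48) (nat_lit 5) (nat_lit 49) (nat_lit 5) (nat_lit 366) (nat_lit 307) (nat_lit 227)) (XT.lf (nat_lit 0) (nat_lit 3437220435) (nat_lit 152) (nat_lit 18217299137) (nat_lit 76) (nat_lit 14587167727) (nat_lit 44) (nat_lit 5) (nat_lit 46) (nat_lit 5) (nat_lit 45) (nat_lit 5) (nat_lit 367) (nat_lit 307) (nat_lit 226))))))))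
noncomputable def xc63 : XT := (XT.nd (nat_lit 1872) (nat_lit 76) (nat_lit 0) (XT.nd (nat_lit 936) (nat_lit 760) (nat_lit 0) (XT.nd (nat_lit 468) (nat_lit 532) (nat_lit 0) (XT.nd (nat_lit 234) (nat_lit 304) (nat_lit 0) (XT.nd (nat_lit 78) (nat_lit 152) (nat_lit 0) (XT.lf (nat_lit 0) (nat_lit 9685177512) (nat_lit 152) (nat_lit 6650734010) (nat_lit 228) (nat_lit 21243636920) (nat_lit 42) (nat_lit 5) (nat_lit 44) (nat_lit 5) (nat_lit 45) (nat_lit 5) (nat_lit 368) (nat_lit 307) (nat_lit 225)) (XT.nd (nat_lit 78) (nat_lit 76) (nat_lit 0) (XT.lf (nat_lit 0) (nat_lit 249519914) (nat_lit 76) (nat_lit 29881568722) (nat_lit 152) (nat_lit 8845671133) (nat_lit 41) (nat_lit 5) (nat_lit 42) (nat_lit 5) (nat_lit 43) (nat_lit 4) (nat_lit 369) (nat_lit 307) (nat_lit 224)) (XT.lf (nat_lit 0) (nat_lit 4420733326) (nat_lit 152) (nat_lit 10211642036) (nat_lit 76) (nat_lit 25800357876) (nat_lit 40) (nat_lit 5) (nat_lit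 42) (nat_lit 5) (nat_lit 41) (nat_lit 5) (nat_lit 370) (nat_lit 307) (nat_lit 223)))) (XT.nd (nat_lit 78) (nat_lit 152) (nat_lit 0) (XT.lf (nat_lit 0) (nat_lit 18351270861) (nat_lit 228) (nat_lit 21986777274) (nat_lit 76) (nat_lit 1615320401) (nat_lit 38) (nat_lit 5) (nat_lit 41) (nat_lit 5) (nat_lit 39) (nat_lit 4) (nat_lit 371) (nat_lit 307) (nat_lit 222)) (XT.nd (nat_lit 78) (nat_lit 76) (nat_lit 0) (XT.lf (nat_lit 0) (nat_lit 8286537118) (nat_lit 76) (nat_lit 25000018284) (nat_lit 152) (nat_lit 10254236674) (nat_lit 37) (nat_lit 5) (nat_lit 38) (nat_lit 5) (nat_lit 39) (nat_lit 4) (nat_lit 372) (nat_lit 307) (nat_lit 221)) (XT.lf (nat_lit 0) (nat_lit 3891440429) (nat_lit 152) (nat_lit 4752053881) (nat_lit 76) (nat_lit 36556896309) (nat_lit 36) (nat_lit 5) (nat_lit 38) (nat_lit 5) (nat_lit 37) (nat_lit 5) (nat_lit 373) (nat_lit 307) (nat_lit 220))))) (XT.nd (nat_lit 234) (nat_lit 228) (nat_lit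 0) (XT.nd (nat_lit 78) (nat_lit 152) (nat_lit 0) (XT.lf (nat_lit 0) (nat_lit 18862147845) (nat_lit 228) (nat_lit 19350059519) (nat_lit 76) (nat_lit 8717824030) (nat_lit 34) (nat_lit 5) (nat_lit 37) (nat_lit 5) (nat_lit 35) (nat_lit 4) (nat_lit 374) (nat_lit 307) (nat_lit 219)) (XT.nd (nat_lit 78) (nat_lit 76) (nat_lit 0) (XT.lf (nat_lit 0) (nat_lit 13006386685) (nat_lit 76) (nat_lit 21813617996) (nat_lit 152) (nat_lit 13918993687) (nat_lit 33) (nat_lit 5) (nat_lit 34) (nat_lit 5) (nat_lit 35) (nat_lit 4) (nat_lit 375) (nat_lit 307) (nat_lit 218)) (XT.lf (nat_lit 0) (nat_lit 1097632501) (nat_lit 152) (nat_lit 3300533559) (nat_lit 76) (nat_lit 46234622225) (nat_lit 32) (nat_lit 5) (nat_lit 34) (nat_lit 5) (nat_lit 33) (nat_lit 5) (nat_lit 376) (nat_lit 307) (nat_lit 217)))) (XT.nd (nat_lit 78) (nat_lit 76) (nat_lit 0) (XT.lf (nat_lit 0) (nat_lit 16995804795) (nat_lit 228) (nat_lit 21565396181)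 (nat_lit 76) (nat_lit 14043377212) (nat_lit 30) (nat_lit 5) (nat_lit 33) (nat_lit 5) (nat_lit 31) (nat_lit 4) (nat_lit 377) (nat_lit 307) (nat_lit 216)) (XT.nd (nat_lit 78) (nat_lit 0) (nat_lit 0) (XT.lf (nat_lit 0) (nat_lit 12653682015) (nat_lit 76) (nat_lit 21214512236) (nat_lit 152) (nat_lit 20801386246) (nat_lit 29) (nat_lit 5) (nat_lit 30) (nat_lit 5) (nat_lit 31) (nat_lit 4) (nat_lit 378) (nat_lit 307) (nat_lit 215)) (XT.lf (nat_lit 0) (nat_lit 48996072354) (nat_lit 76) (nat_lit 2789730273) (nat_lit 152) (nat_lit 5045984371) (nat_lit 29) (nat_lit 5) (nat_lit 30) (nat_lit 5) (nat_lit 31) (nat_lit 4) (nat_lit 379) (nat_lit 307) (nat_lit 214)))))) (XT.nd (nat_lit 468) (nat_lit 304) (nat_lit 0) (XT.nd (nat_lit 234) (nat_lit 228) (nat_lit 0) (XT.nd (nat_lit 78) (nat_lit 76) (nat_lit 0) (XT.lf (nat_lit 0) (nat_lit 11689591476) (nat_lit 152) (nat_lit 30792475113) (nat_lit 76) (nat_lit 16604220940)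 (nat_lit 27) (nat_lit 5) (nat_lit 29) (nat_lit 5) (nat_lit 28) (nat_lit 4) (nat_lit 380) (nat_lit 307) (nat_lit 213)) (XT.nd (nat_lit 78) (nat_lit 0) (nat_lit 0) (XT.lf (nat_lit 0) (nat_lit 4922414953) (nat_lit 76) (nat_lit 24373886238) (nat_lit 152) (nat_lit 32151553489) (nat_lit 26) (nat_lit 5) (nat_lit 27) (nat_lit 5) (nat_lit 28) (nat_lit 4) (nat_lit 381) (nat_lit 307) (nat_lit 212)) (XT.lf (nat_lit 0) (nat_lit 43031341207) (nat_lit 76) (nat_lit 5050370832) (nat_lit 152) (nat_lit 15836838910) (nat_lit 26) (nat_lit 5) (nat_lit 27) (nat_lit 5) (nat_lit 28) (nat_lit 4) (nat_lit 382) (nat_lit 307) (nat_lit 211)))) (XT.nd (nat_lit 78) (nat_lit 76) (nat_lit 0) (XT.lf (nat_lit 0) (nat_lit 1560155372) (nat_lit 152) (nat_lit 49841408599) (nat_lit 76) (nat_lit 15102093000) (nat_lit 24) (nat_lit 5) (nat_lit 26) (nat_lit 5) (nat_lit 25) (nat_lit 4) (nat_lit 383) (nat_lit 307) (nat_lit 210)) (XT.nd (nat_lit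 78) (nat_lit 76) (nat_lit 0) (XT.lf (nat_lit 0) (nat_lit 19753113675) (nat_lit 152) (nat_lit 12932121639) (nat_lit 76) (nat_lit 36520471159) (nat_lit 24) (nat_lit 5) (nat_lit 26) (nat_lit 5) (nat_lit 25) (nat_lit 4) (nat_lit 384) (nat_lit 307) (nat_lit 209)) (XT.lf (nat_lit 0) (nat_lit 26304238276) (nat_lit 76) (nat_lit 12787649175) (nat_lit 152) (nat_lit 32943887420) (nat_lit 23) (nat_lit 5) (nat_lit 24) (nat_lit 5) (nat_lit 25) (nat_lit 4) (nat_lit 385) (nat_lit 307) (nat_lit 208))))) (XT.nd (nat_lit 234) (nat_lit 152) (nat_lit 0) (XT.nd (nat_lit 78) (nat_lit 152) (nat_lit 0) (XT.lf (nat_lit 0) (nat_lit 59593624826) (nat_lit 152) (nat_lit 7341040387) (nat_lit 0) (nat_lit 8066802112) (nat_lit 23) (nat_lit 5) (nat_lit 25) (nat_lit 4) (nat_lit 23) (nat_lit 4) (nat_lit 386) (nat_lit 307) (nat_lit 207)) (XT.nd (nat_lit 78) (nat_lit 0) (nat_lit 0) (XT.lf (nat_lit 0) (nat_lit 3385862959) (nat_lit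 152) (nat_lit 44672322703) (nat_lit 76) (nat_lit 30043208536) (nat_lit 21) (nat_lit 5) (nat_lit 23) (nat_lit 5) (nat_lit 22) (nat_lit 4) (nat_lit 387) (nat_lit 307) (nat_lit 206)) (XT.lf (nat_lit 0) (nat_lit 22864639967) (nat_lit 152) (nat_lit 5148311851) (nat_lit 76) (nat_lit 53336868902) (nat_lit 21) (nat_lit 5) (nat_lit 23) (nat_lit 5) (nat_lit 22) (nat_lit 4) (nat_lit 388) (nat_lit 307) (nat_lit 205)))) (XT.nd (nat_lit 78) (nat_lit 76) (nat_lit 0) (XT.lf (nat_lit 0) (nat_lit 37047114229) (nat_lit 76) (nat_lit 6611850794) (nat_lit 152) (nat_lit 41091456427) (nat_lit 20) (nat_lit 5) (nat_lit 21) (nat_lit 5) (nat_lit 22) (nat_lit 4) (nat_lit 389) (nat_lit 307) (nat_lit 204)) (XT.nd (nat_lit 78) (nat_lit 76) (nat_lit 0) (XT.lf (nat_lit 0) (nat_lit 65684776278) (nat_lit 152) (nat_lit 7039753948) (nat_lit 0) (nat_lit 15590769997) (nat_lit 20) (nat_lit 5) (nat_lit 22) (nat_lit 4) (nat_lit 20) (nat_lit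 4) (nat_lit 390) (nat_lit 307) (nat_lit 203)) (XT.lf (nat_lit 0) (nat_lit 36272123885) (nat_lit 76) (nat_lit 52941633871) (nat_lit 76) (nat_lit 2832609838) (nat_lit 19) (nat_lit 4) (nat_lit 20) (nat_lit 5) (nat_lit 20) (nat_lit 4) (nat_lit 391) (nat_lit 307) (nat_lit 202))))))) (XT.nd (nat_lit 41184) (nat_lit 0) (nat_lit 11476) (XT.nd (nat_lit 40716) (nat_lit 0) (nat_lit 19532) (XT.nd (nat_lit 40482) (nat_lit 0) (nat_lit 22116) (XT.nd (nat_lit 40326) (nat_lit 0) (nat_lit 22876) (XT.lf (nat_lit 0) (nat_lit 17664760865) (nat_lit 152) (nat_lit 14263862098) (nat_lit 76) (nat_lit 64028390506) (nat_lit 18) (nat_lit 5) (nat_lit 20) (nat_lit 5) (nat_lit 19) (nat_lit 4) (nat_lit 392) (nat_lit 307) (nat_lit 201)) (XT.nd (nat_lit 78) (nat_lit 0) (nat_lit 0) (XT.lf (nat_lit 0) (nat_lit 863497985) (nat_lit 836) (nat_lit 1365229284) (nat_lit 836) (nat_lit 1365229284) (nat_lit 319) (nat_lit 3) (nat_lit 330)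 (nat_lit 3) (nat_lit 330) (nat_lit 5) (nat_lit 308) (nat_lit 308) (nat_lit 284)) (XT.lf (nat_lit 76) (nat_lit 3079661452) (nat_lit 0) (nat_lit 1383043621) (nat_lit 836) (nat_lit 2822322950) (nat_lit 320) (nat_lit 5) (nat_lit 319) (nat_lit 3) (nat_lit 330) (nat_lit 5) (nat_lit 309) (nat_lit 308) (nat_lit 283)))) (XT.nd (nat_lit 78) (nat_lit 836) (nat_lit 0) (XT.lf (nat_lit 76) (nat_lit 1772122257) (nat_lit 0) (nat_lit 5455697745) (nat_lit 836) (nat_lit 162515736) (nat_lit 321) (nat_lit 5) (nat_lit 320) (nat_lit 5) (nat_lit 331) (nat_lit 5) (nat_lit 310) (nat_lit 308) (nat_lit 282)) (XT.nd (nat_lit 78) (nat_lit 0) (nat_lit 76) (XT.lf (nat_lit 76) (nat_lit 510765693) (nat_lit 0) (nat_lit 1965744708) (nat_lit 912) (nat_lit 5026820222) (nat_lit 310) (nat_lit 5) (nat_lit 309) (nat_lit 5) (nat_lit 321) (nat_lit 5) (nat_lit 311) (nat_lit 308) (nat_lit 281)) (XT.lf (nat_lit 0) (nat_lit 5161440892) (nat_lit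 836) (nat_lit 674173254) (nat_lit 912) (nat_lit 1788895266) (nat_lit 310) (nat_lit 5) (nat_lit 321) (nat_lit 5) (nat_lit 322) (nat_lit 5) (nat_lit 312) (nat_lit 308) (nat_lit 280))))) (XT.nd (nat_lit 234) (nat_lit 1748) (nat_lit 0) (XT.nd (nat_lit 78) (nat_lit 0) (nat_lit 76) (XT.lf (nat_lit 0) (nat_lit 150787918) (nat_lit 912) (nat_lit 1793137221) (nat_lit 988) (nat_lit 5810058682) (nat_lit 298) (nat_lit 5) (nat_lit 310) (nat_lit 5) (nat_lit 311) (nat_lit 5) (nat_lit 313) (nat_lit 308) (nat_lit 279)) (XT.nd (nat_lit 78) (nat_lit 0) (nat_lit 0) (XT.lf (nat_lit 0) (nat_lit 2776903734) (nat_lit 912) (nat_lit 2883179153) (nat_lit 988) (nat_lit 2231231954) (nat_lit 299) (nat_lit 5) (nat_lit 311) (nat_lit 5) (nat_lit 312) (nat_lit 5) (nat_lit 314) (nat_lit 308) (nat_lit 278)) (XT.lf (nat_lit 76) (nat_lit 4115940503) (nat_lit 0) (nat_lit 1357490313) (nat_lit 988) (nat_lit 2563993856) (nat_lit 300)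 (nat_lit 5) (nat_lit 299) (nat_lit 5) (nat_lit 312) (nat_lit 5) (nat_lit 315) (nat_lit 308) (nat_lit 277)))) (XT.nd (nat_lit 78) (nat_lit 912) (nat_lit 0) (XT.lf (nat_lit 0) (nat_lit 70383412) (nat_lit 988) (nat_lit 4922617732) (nat_lit 1064) (nat_lit 3199125097) (nat_lit 287) (nat_lit 5) (nat_lit 300) (nat_lit 5) (nat_lit 301) (nat_lit 5) (nat_lit 316) (nat_lit 308) (nat_lit 276)) (XT.nd (nat_lit 78) (nat_lit 912) (nat_lit 0) (XT.lf (nat_lit 76) (nat_lit 2458584904) (nat_lit 0) (nat_lit 274886001) (nat_lit 1064) (nat_lit 5621905065) (nat_lit 288) (nat_lit 5) (nat_lit 287) (nat_lit 5) (nat_lit 301) (nat_lit 5) (nat_lit 317) (nat_lit 308) (nat_lit 275)) (XT.lf (nat_lit 0) (nat_lit 1674350596) (nat_lit 988) (nat_lit 3844511933) (nat_lit 1064) (nat_lit 3008322807) (nat_lit 275) (nat_lit 5) (nat_lit 288) (nat_lit 5) (nat_lit 289) (nat_lit 5) (nat_lit 318) (nat_lit 308) (nat_lit 274)))))) (XT.nd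 (nat_lit 468) (nat_lit 3268) (nat_lit 0) (XT.nd (nat_lit 234) (nat_lit 2508) (nat_lit 0) (XT.nd (nat_lit 78) (nat_lit 1216) (nat_lit 0) (XT.lf (nat_lit 0) (nat_lit 945044037) (nat_lit 1064) (nat_lit 7464952975) (nat_lit 1140) (nat_lit 298662191) (nat_lit 261) (nat_lit 5) (nat_lit 275) (nat_lit 5) (nat_lit 276) (nat_lit 5) (nat_lit 319) (nat_lit 308) (nat_lit 273)) (XT.nd (nat_lit 78) (nat_lit 0) (nat_lit 0) (XT.lf (nat_lit 0) (nat_lit 219500900) (nat_lit 1140) (nat_lit 2274985001) (nat_lit 1216) (nat_lit 6404118735) (nat_lit 245) (nat_lit 5) (nat_lit 260) (nat_lit 5) (nat_lit 261) (nat_lit 5) (nat_lit 320) (nat_lit 308) (nat_lit 272)) (XT.lf (nat_lit 0) (nat_lit 5422582400) (nat_lit 1216) (nat_lit 466318564) (nat_lit 76) (nat_lit 3209073717) (nat_lit 245) (nat_lit 5) (nat_lit 261) (nat_lit 5) (nat_lit 246) (nat_lit 5) (nat_lit 321) (nat_lit 308) (nat_lit 271)))) (XT.nd (nat_lit 78) (nat_lit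 1292) (nat_lit 0) (XT.lf (nat_lit 0) (nat_lit 8198548538) (nat_lit 1216) (nat_lit 295720400) (nat_lit 1292) (nat_lit 813185958) (nat_lit 229) (nat_lit 5) (nat_lit 245) (nat_lit 5) (nat_lit 246) (nat_lit 5) (nat_lit 322) (nat_lit 308) (nat_lit 270)) (XT.nd (nat_lit 78) (nat_lit 608) (nat_lit 0) (XT.lf (nat_lit 0) (nat_lit 2182458787) (nat_lit 684) (nat_lit 1766534853) (nat_lit 76) (nat_lit 5576843096) (nat_lit 220) (nat_lit 5) (nat_lit 229) (nat_lit 5) (nat_lit 221) (nat_lit 5) (nat_lit 323) (nat_lit 308) (nat_lit 269)) (XT.lf (nat_lit 0) (nat_lit 5319072509) (nat_lit 684) (nat_lit 2398560129) (nat_lit 76) (nat_lit 2037073740) (nat_lit 212) (nat_lit 5) (nat_lit 221) (nat_lit 5) (nat_lit 213) (nat_lit 5) (nat_lit 324) (nat_lit 308) (nat_lit 268))))) (XT.nd (nat_lit 234) (nat_lit 1520) (nat_lit 0) (XT.nd (nat_lit 78) (nat_lit 1140) (nat_lit 0) (XT.lf (nat_lit 0) (nat_lit 6978166852) (nat_lit 608)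 (nat_lit 1665874479) (nat_lit 684) (nat_lit 1350080432) (nat_lit 204) (nat_lit 5) (nat_lit 212) (nat_lit 5) (nat_lit 213) (nat_lit 5) (nat_lit 325) (nat_lit 308) (nat_lit 267)) (XT.nd (nat_lit 78) (nat_lit 532) (nat_lit 0) (XT.lf (nat_lit 0) (nat_lit 1896650134) (nat_lit 608) (nat_lit 3645303159) (nat_lit 76) (nat_lit 4701740776) (nat_lit 196) (nat_lit 5) (nat_lit 204) (nat_lit 5) (nat_lit 197) (nat_lit 5) (nat_lit 326) (nat_lit 308) (nat_lit 266)) (XT.lf (nat_lit 0) (nat_lit 5307695941) (nat_lit 608) (nat_lit 4265463837) (nat_lit 76) (nat_lit 931329449) (nat_lit 189) (nat_lit 5) (nat_lit 197) (nat_lit 5) (nat_lit 190) (nat_lit 5) (nat_lit 327) (nat_lit 308) (nat_lit 265)))) (XT.nd (nat_lit 78) (nat_lit 1064) (nat_lit 0) (XT.lf (nat_lit 0) (nat_lit 5880782700) (nat_lit 456) (nat_lit 3074378058) (nat_lit 532) (nat_lit 1821227632) (nat_lit 183) (nat_lit 5) (nat_lit 189) (nat_lit 5) (nat_lit 190)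 (nat_lit 5) (nat_lit 328) (nat_lit 308) (nat_lit 264)) (XT.nd (nat_lit 78) (nat_lit 456) (nat_lit 0) (XT.lf (nat_lit 0) (nat_lit 1742166756) (nat_lit 608) (nat_lit 5536774007) (nat_lit 76) (nat_lit 3780901816) (nat_lit 175) (nat_lit 5) (nat_lit 183) (nat_lit 5) (nat_lit 176) (nat_lit 5) (nat_lit 329) (nat_lit 308) (nat_lit 263)) (XT.lf (nat_lit 0) (nat_lit 5167125525) (nat_lit 456) (nat_lit 331624302) (nat_lit 532) (nat_lit 5856633594) (nat_lit 169) (nat_lit 5) (nat_lit 175) (nat_lit 5) (nat_lit 176) (nat_lit 5) (nat_lit 330) (nat_lit 308) (nat_lit 262))))))))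
noncomputable def xc64 : XT := (XT.nd (nat_lit 1794) (nat_lit 3268) (nat_lit 0) (XT.nd (nat_lit 858) (nat_lit 3192) (nat_lit 0) (XT.nd (nat_lit 390) (nat_lit 1748) (nat_lit 0) (XT.nd (nat_lit 156) (nat_lit 1292) (nat_lit 0) (XT.nd (nat_lit 78) (nat_lit 456) (nat_lit 0) (XT.lf (nat_lit 0) (nat_lit 4791588510) (nat_lit 456) (nat_lit 4745641614) (nat_lit 532) (nat_lit 2125682896) (nat_lit 163) (nat_lit 5) (nat_lit 169) (nat_lit 5) (nat_lit 170) (nat_lit 5) (nat_lit 331) (nat_lit 308) (nat_lit 261)) (XT.lf (nat_lit 0) (nat_lit 1818192679) (nat_lit 456) (nat_lit 7569641295) (nat_lit 76) (nat_lit 2595659353) (nat_lit 157) (nat_lit 5) (nat_lit 163) (nat_lit 5) (nat_lit 158) (nat_lit 5) (nat_lit 332) (nat_lit 308) (nat_lit 260))) (XT.nd (nat_lit 78) (nat_lit 836) (nat_lit 0) (XT.lf (nat_lit 0) (nat_lit 4006403535) (nat_lit 456) (nat_lit 1995216232) (nat_lit 532) (nat_lit 6315291614) (nat_lit 151) (nat_lit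 5) (nat_lit 157) (nat_lit 5) (nat_lit 158) (nat_lit 5) (nat_lit 333) (nat_lit 308) (nat_lit 259)) (XT.nd (nat_lit 78) (nat_lit 456) (nat_lit 0) (XT.lf (nat_lit 0) (nat_lit 3578440959) (nat_lit 380) (nat_lit 6914771807) (nat_lit 456) (nat_lit 2170846048) (nat_lit 146) (nat_lit 5) (nat_lit 151) (nat_lit 5) (nat_lit 152) (nat_lit 5) (nat_lit 334) (nat_lit 308) (nat_lit 258)) (XT.lf (nat_lit 0) (nat_lit 2216198936) (nat_lit 456) (nat_lit 9894775025) (nat_lit 76) (nat_lit 914648946) (nat_lit 140) (nat_lit 5) (nat_lit 146) (nat_lit 5) (nat_lit 141) (nat_lit 5) (nat_lit 335) (nat_lit 308) (nat_lit 257))))) (XT.nd (nat_lit 234) (nat_lit 684) (nat_lit 0) (XT.nd (nat_lit 78) (nat_lit 760) (nat_lit 0) (XT.lf (nat_lit 0) (nat_lit 2615969653) (nat_lit 304) (nat_lit 4285984670) (nat_lit 380) (nat_lit 6498963371) (nat_lit 136) (nat_lit 5) (nat_lit 140) (nat_lit 5) (nat_lit 141) (nat_lit 5) (nat_lit 336) (nat_lit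 308) (nat_lit 256)) (XT.nd (nat_lit 78) (nat_lit 380) (nat_lit 0) (XT.lf (nat_lit 0) (nat_lit 2081761983) (nat_lit 380) (nat_lit 9837423828) (nat_lit 456) (nat_lit 1872899503) (nat_lit 131) (nat_lit 5) (nat_lit 136) (nat_lit 5) (nat_lit 137) (nat_lit 5) (nat_lit 337) (nat_lit 308) (nat_lit 255)) (XT.lf (nat_lit 0) (nat_lit 1487755951) (nat_lit 304) (nat_lit 1546265707) (nat_lit 380) (nat_lit 11164717200) (nat_lit 126) (nat_lit 5) (nat_lit 130) (nat_lit 5) (nat_lit 131) (nat_lit 5) (nat_lit 338) (nat_lit 308) (nat_lit 254)))) (XT.nd (nat_lit 78) (nat_lit 380) (nat_lit 0) (XT.lf (nat_lit 0) (nat_lit 810182318) (nat_lit 304) (nat_lit 7476109311) (nat_lit 380) (nat_lit 6334735937) (nat_lit 122) (nat_lit 5) (nat_lit 126) (nat_lit 5) (nat_lit 127) (nat_lit 5) (nat_lit 339) (nat_lit 308) (nat_lit 253)) (XT.nd (nat_lit 78) (nat_lit 76) (nat_lit 0) (XT.lf (nat_lit 0) (nat_lit 102344227) (nat_lit 304)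 (nat_lit 13800557266) (nat_lit 380) (nat_lit 1158497340) (nat_lit 118) (nat_lit 5) (nat_lit 122) (nat_lit 5) (nat_lit 123) (nat_lit 5) (nat_lit 340) (nat_lit 308) (nat_lit 252)) (XT.lf (nat_lit 0) (nat_lit 4355398671) (nat_lit 380) (nat_lit 720567738) (nat_lit 76) (nat_lit 10441738507) (nat_lit 117) (nat_lit 5) (nat_lit 122) (nat_lit 5) (nat_lit 118) (nat_lit 5) (nat_lit 341) (nat_lit 308) (nat_lit 251)))))) (XT.nd (nat_lit 468) (nat_lit 1368) (nat_lit 0) (XT.nd (nat_lit 234) (nat_lit 836) (nat_lit 0) (XT.nd (nat_lit 78) (nat_lit 684) (nat_lit 0) (XT.lf (nat_lit 0) (nat_lit 10246349800) (nat_lit 380) (nat_lit 1613844535) (nat_lit 76) (nat_lit 4132545801) (nat_lit 113) (nat_lit 5) (nat_lit 118) (nat_lit 5) (nat_lit 114) (nat_lit 5) (nat_lit 342) (nat_lit 308) (nat_lit 250)) (XT.nd (nat_lit 78) (nat_lit 304) (nat_lit 0) (XT.lf (nat_lit 0) (nat_lit 82747499) (nat_lit 380) (nat_lit 2589168017) (nat_lit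 76) (nat_lit 13815407178) (nat_lit 108) (nat_lit 5) (nat_lit 113) (nat_lit 5) (nat_lit 109) (nat_lit 5) (nat_lit 343) (nat_lit 308) (nat_lit 249)) (XT.lf (nat_lit 0) (nat_lit 6248233407) (nat_lit 380) (nat_lit 3732256997) (nat_lit 76) (nat_lit 7019540511) (nat_lit 104) (nat_lit 5) (nat_lit 109) (nat_lit 5) (nat_lit 105) (nat_lit 5) (nat_lit 344) (nat_lit 308) (nat_lit 248)))) (XT.nd (nat_lit 78) (nat_lit 608) (nat_lit 0) (XT.lf (nat_lit 0) (nat_lit 12576411513) (nat_lit 228) (nat_lit 270652881) (nat_lit 304) (nat_lit 4687572734) (nat_lit 101) (nat_lit 5) (nat_lit 104) (nat_lit 5) (nat_lit 105) (nat_lit 5) (nat_lit 345) (nat_lit 308) (nat_lit 247)) (XT.nd (nat_lit 78) (nat_lit 228) (nat_lit 0) (XT.lf (nat_lit 0) (nat_lit 1847818313) (nat_lit 380) (nat_lit 6366001374) (nat_lit 76) (nat_lit 9875661072) (nat_lit 96) (nat_lit 5) (nat_lit 101) (nat_lit 5) (nat_lit 97) (nat_lit 5) (nat_lit 346) (nat_lit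 308) (nat_lit 246)) (XT.lf (nat_lit 0) (nat_lit 8744002691) (nat_lit 304) (nat_lit 7928868612) (nat_lit 76) (nat_lit 1993886772) (nat_lit 93) (nat_lit 5) (nat_lit 97) (nat_lit 5) (nat_lit 94) (nat_lit 5) (nat_lit 347) (nat_lit 308) (nat_lit 245))))) (XT.nd (nat_lit 234) (nat_lit 608) (nat_lit 0) (XT.nd (nat_lit 78) (nat_lit 532) (nat_lit 0) (XT.lf (nat_lit 0) (nat_lit 9589934483) (nat_lit 228) (nat_lit 6590470198) (nat_lit 304) (nat_lit 3086644657) (nat_lit 90) (nat_lit 5) (nat_lit 93) (nat_lit 5) (nat_lit 94) (nat_lit 5) (nat_lit 348) (nat_lit 308) (nat_lit 244)) (XT.nd (nat_lit 78) (nat_lit 228) (nat_lit 0) (XT.lf (nat_lit 0) (nat_lit 4169050595) (nat_lit 304) (nat_lit 11626949481) (nat_lit 76) (nat_lit 4095458228) (nat_lit 86) (nat_lit 5) (nat_lit 90) (nat_lit 5) (nat_lit 87) (nat_lit 5) (nat_lit 349) (nat_lit 308) (nat_lit 243)) (XT.lf (nat_lit 0) (nat_lit 6723327420) (nat_lit 228) (nat_lit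 5189119058) (nat_lit 304) (nat_lit 8628072703) (nat_lit 83) (nat_lit 5) (nat_lit 86) (nat_lit 5) (nat_lit 87) (nat_lit 5) (nat_lit 350) (nat_lit 308) (nat_lit 242)))) (XT.nd (nat_lit 78) (nat_lit 456) (nat_lit 0) (XT.lf (nat_lit 0) (nat_lit 4985011460) (nat_lit 152) (nat_lit 15241541971) (nat_lit 228) (nat_lit 989983776) (nat_lit 81) (nat_lit 5) (nat_lit 83) (nat_lit 5) (nat_lit 84) (nat_lit 5) (nat_lit 351) (nat_lit 308) (nat_lit 241)) (XT.nd (nat_lit 78) (nat_lit 152) (nat_lit 0) (XT.lf (nat_lit 0) (nat_lit 2962025770) (nat_lit 228) (nat_lit 4113821046) (nat_lit 304) (nat_lit 14843001043) (nat_lit 77) (nat_lit 5) (nat_lit 80) (nat_lit 5) (nat_lit 81) (nat_lit 5) (nat_lit 352) (nat_lit 308) (nat_lit 240)) (XT.lf (nat_lit 0) (nat_lit 664343079) (nat_lit 152) (nat_lit 15067851474) (nat_lit 228) (nat_lit 6917563543) (nat_lit 75) (nat_lit 5) (nat_lit 77) (nat_lit 5) (nat_lit 78) (nat_lit 5) (nat_lit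 353) (nat_lit 308) (nat_lit 239))))))) (XT.nd (nat_lit 936) (nat_lit 1216) (nat_lit 0) (XT.nd (nat_lit 468) (nat_lit 988) (nat_lit 0) (XT.nd (nat_lit 234) (nat_lit 608) (nat_lit 0) (XT.nd (nat_lit 78) (nat_lit 380) (nat_lit 0) (XT.lf (nat_lit 0) (nat_lit 1575851883) (nat_lit 228) (nat_lit 1871853902) (nat_lit 76) (nat_lit 19963138379) (nat_lit 74) (nat_lit 5) (nat_lit 77) (nat_lit 5) (nat_lit 75) (nat_lit 5) (nat_lit 354) (nat_lit 308) (nat_lit 238)) (XT.nd (nat_lit 78) (nat_lit 152) (nat_lit 0) (XT.lf (nat_lit 0) (nat_lit 10588433020) (nat_lit 304) (nat_lit 4794966026) (nat_lit 76) (nat_lit 8817411966) (nat_lit 71) (nat_lit 5) (nat_lit 75) (nat_lit 5) (nat_lit 72) (nat_lit 5) (nat_lit 355) (nat_lit 308) (nat_lit 237)) (XT.lf (nat_lit 0) (nat_lit 16991269910) (nat_lit 152) (nat_lit 3241313789) (nat_lit 228) (nat_lit 4792271930) (nat_lit 69) (nat_lit 5) (nat_lit 71) (nat_lit 5) (nat_lit 72) (nat_lit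 5) (nat_lit 356) (nat_lit 308) (nat_lit 236)))) (XT.nd (nat_lit 78) (nat_lit 304) (nat_lit 0) (XT.lf (nat_lit 0) (nat_lit 4626069758) (nat_lit 304) (nat_lit 11725748296) (nat_lit 76) (nat_lit 9529669765) (nat_lit 65) (nat_lit 5) (nat_lit 69) (nat_lit 5) (nat_lit 66) (nat_lit 5) (nat_lit 357) (nat_lit 308) (nat_lit 235)) (XT.nd (nat_lit 78) (nat_lit 152) (nat_lit 0) (XT.lf (nat_lit 0) (nat_lit 10914875937) (nat_lit 152) (nat_lit 3688473333) (nat_lit 228) (nat_lit 12170571662) (nat_lit 63) (nat_lit 5) (nat_lit 65) (nat_lit 5) (nat_lit 66) (nat_lit 5) (nat_lit 358) (nat_lit 308) (nat_lit 234)) (XT.lf (nat_lit 0) (nat_lit 7213203909) (nat_lit 152) (nat_lit 18115809918) (nat_lit 228) (nat_lit 2374482649) (nat_lit 61) (nat_lit 5) (nat_lit 63) (nat_lit 5) (nat_lit 64) (nat_lit 5) (nat_lit 359) (nat_lit 308) (nat_lit 233))))) (XT.nd (nat_lit 234) (nat_lit 532) (nat_lit 0) (XT.nd (nat_lit 78) (nat_lit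 228) (nat_lit 0) (XT.lf (nat_lit 0) (nat_lit 2980912504) (nat_lit 152) (nat_lit 4973533176) (nat_lit 228) (nat_lit 20716907111) (nat_lit 58) (nat_lit 5) (nat_lit 60) (nat_lit 5) (nat_lit 61) (nat_lit 5) (nat_lit 360) (nat_lit 308) (nat_lit 232)) (XT.nd (nat_lit 78) (nat_lit 228) (nat_lit 0) (XT.lf (nat_lit 0) (nat_lit 19016498681) (nat_lit 228) (nat_lit 1795558462) (nat_lit 76) (nat_lit 8866871545) (nat_lit 58) (nat_lit 5) (nat_lit 61) (nat_lit 5) (nat_lit 59) (nat_lit 5) (nat_lit 361) (nat_lit 308) (nat_lit 231)) (XT.lf (nat_lit 0) (nat_lit 145827081) (nat_lit 228) (nat_lit 7080068214) (nat_lit 76) (nat_lit 23503553565) (nat_lit 55) (nat_lit 5) (nat_lit 58) (nat_lit 5) (nat_lit 56) (nat_lit 5) (nat_lit 362) (nat_lit 308) (nat_lit 230)))) (XT.nd (nat_lit 78) (nat_lit 380) (nat_lit 0) (XT.lf (nat_lit 0) (nat_lit 11515363608) (nat_lit 228) (nat_lit 13117505237) (nat_lit 76) (nat_lit 7189222647)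 (nat_lit 53) (nat_lit 5) (nat_lit 56) (nat_lit 5) (nat_lit 54) (nat_lit 5) (nat_lit 363) (nat_lit 308) (nat_lit 229)) (XT.nd (nat_lit 78) (nat_lit 228) (nat_lit 0) (XT.lf (nat_lit 0) (nat_lit 13088285493) (nat_lit 152) (nat_lit 10607851992) (nat_lit 228) (nat_lit 9265950687) (nat_lit 51) (nat_lit 5) (nat_lit 53) (nat_lit 5) (nat_lit 54) (nat_lit 5) (nat_lit 364) (nat_lit 308) (nat_lit 228)) (XT.lf (nat_lit 0) (nat_lit 2495631633) (nat_lit 228) (nat_lit 27414550118) (nat_lit 76) (nat_lit 4241811139) (nat_lit 48) (nat_lit 5) (nat_lit 51) (nat_lit 5) (nat_lit 49) (nat_lit 5) (nat_lit 365) (nat_lit 308) (nat_lit 227)))))) (XT.nd (nat_lit 468) (nat_lit 608) (nat_lit 0) (XT.nd (nat_lit 234) (nat_lit 304) (nat_lit 0) (XT.nd (nat_lit 78) (nat_lit 304) (nat_lit 0) (XT.lf (nat_lit 0) (nat_lit 14940837982) (nat_lit 228) (nat_lit 554241832) (nat_lit 76) (nat_lit 19894949566) (nat_lit 48) (nat_lit 5) (nat_lit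 51) (nat_lit 5) (nat_lit 49) (nat_lit 5) (nat_lit 366) (nat_lit 308) (nat_lit 226)) (XT.nd (nat_lit 78) (nat_lit 152) (nat_lit 0) (XT.lf (nat_lit 0) (nat_lit 28149888224) (nat_lit 152) (nat_lit 102078113) (nat_lit 228) (nat_lit 8430695475) (nat_lit 46) (nat_lit 5) (nat_lit 48) (nat_lit 5) (nat_lit 49) (nat_lit 5) (nat_lit 367) (nat_lit 308) (nat_lit 225)) (XT.lf (nat_lit 0) (nat_lit 4440754166) (nat_lit 152) (nat_lit 17615422243) (nat_lit 76) (nat_lit 15972532206) (nat_lit 44) (nat_lit 5) (nat_lit 46) (nat_lit 5) (nat_lit 45) (nat_lit 5) (nat_lit 368) (nat_lit 308) (nat_lit 224)))) (XT.nd (nat_lit 78) (nat_lit 152) (nat_lit 0) (XT.lf (nat_lit 0) (nat_lit 11638815798) (nat_lit 152) (nat_lit 6320085122) (nat_lit 228) (nat_lit 21475331638) (nat_lit 42) (nat_lit 5) (nat_lit 44) (nat_lit 5) (nat_lit 45) (nat_lit 5) (nat_lit 369) (nat_lit 308) (nat_lit 223)) (XT.nd (nat_lit 78) (nat_lit 76) (nat_lit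 0) (XT.lf (nat_lit 0) (nat_lit 1706660589) (nat_lit 76) (nat_lit 30718744496) (nat_lit 152) (nat_lit 8476457439) (nat_lit 41) (nat_lit 5) (nat_lit 42) (nat_lit 5) (nat_lit 43) (nat_lit 4) (nat_lit 370) (nat_lit 308) (nat_lit 222)) (XT.lf (nat_lit 0) (nat_lit 5399543341) (nat_lit 152) (nat_lit 9331177181) (nat_lit 76) (nat_lit 27700821518) (nat_lit 40) (nat_lit 5) (nat_lit 42) (nat_lit 5) (nat_lit 41) (nat_lit 5) (nat_lit 371) (nat_lit 308) (nat_lit 221))))) (XT.nd (nat_lit 234) (nat_lit 304) (nat_lit 0) (XT.nd (nat_lit 78) (nat_lit 152) (nat_lit 0) (XT.lf (nat_lit 0) (nat_lit 20009437742) (nat_lit 228) (nat_lit 21718738929) (nat_lit 76) (nat_lit 2300552042) (nat_lit 38) (nat_lit 5) (nat_lit 41) (nat_lit 5) (nat_lit 39) (nat_lit 4) (nat_lit 372) (nat_lit 308) (nat_lit 220)) (XT.nd (nat_lit 78) (nat_lit 76) (nat_lit 0) (XT.lf (nat_lit 0) (nat_lit 10029045589) (nat_lit 76) (nat_lit 25639941389)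 (nat_lit 152) (nat_lit 10027215729) (nat_lit 37) (nat_lit 5) (nat_lit 38) (nat_lit 5) (nat_lit 39) (nat_lit 4) (nat_lit 373) (nat_lit 308) (nat_lit 219)) (XT.lf (nat_lit 0) (nat_lit 4776772382) (nat_lit 152) (nat_lit 3710894838) (nat_lit 76) (nat_lit 38951940745) (nat_lit 36) (nat_lit 5) (nat_lit 38) (nat_lit 5) (nat_lit 37) (nat_lit 5) (nat_lit 374) (nat_lit 308) (nat_lit 218)))) (XT.nd (nat_lit 78) (nat_lit 152) (nat_lit 0) (XT.lf (nat_lit 0) (nat_lit 20480563019) (nat_lit 228) (nat_lit 19060787700) (nat_lit 76) (nat_lit 9714847404) (nat_lit 34) (nat_lit 5) (nat_lit 37) (nat_lit 5) (nat_lit 35) (nat_lit 4) (nat_lit 375) (nat_lit 308) (nat_lit 217)) (XT.nd (nat_lit 78) (nat_lit 76) (nat_lit 0) (XT.lf (nat_lit 0) (nat_lit 14877455617) (nat_lit 76) (nat_lit 22338434159) (nat_lit 152) (nat_lit 13940339957) (nat_lit 33) (nat_lit 5) (nat_lit 34) (nat_lit 5) (nat_lit 35) (nat_lit 4) (nat_lit 376)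 (nat_lit 308) (nat_lit 216)) (XT.lf (nat_lit 0) (nat_lit 1782456480) (nat_lit 152) (nat_lit 2290337903) (nat_lit 76) (nat_lit 49072668465) (nat_lit 32) (nat_lit 5) (nat_lit 34) (nat_lit 5) (nat_lit 33) (nat_lit 5) (nat_lit 377) (nat_lit 308) (nat_lit 215))))))))
noncomputable def xc65 : XT := (XT.nd (nat_lit 42198) (nat_lit 0) (nat_lit 7448) (XT.nd (nat_lit 936) (nat_lit 152) (nat_lit 0) (XT.nd (nat_lit 468) (nat_lit 380) (nat_lit 0) (XT.nd (nat_lit 234) (nat_lit 228) (nat_lit 0) (XT.nd (nat_lit 78) (nat_lit 76) (nat_lit 0) (XT.lf (nat_lit 0) (nat_lit 18461613876) (nat_lit 228) (nat_lit 21488840823) (nat_lit 76) (nat_lit 15265808424) (nat_lit 30) (nat_lit 5) (nat_lit 33) (nat_lit 5) (nat_lit 31) (nat_lit 4) (nat_lit 378) (nat_lit 308) (nat_lit 214)) (XT.nd (nat_lit 78) (nat_lit 0) (nat_lit 0) (XT.lf (nat_lit 0) (nat_lit 14408088451) (nat_lit 76) (nat_lit 21750982804) (nat_lit 152) (nat_lit 21226003857)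 (nat_lit 29) (nat_lit 5) (nat_lit 30) (nat_lit 5) (nat_lit 31) (nat_lit 4) (nat_lit 379) (nat_lit 308) (nat_lit 213)) (XT.lf (nat_lit 0) (nat_lit 52514182958) (nat_lit 76) (nat_lit 2429926269) (nat_lit 152) (nat_lit 4712139112) (nat_lit 29) (nat_lit 5) (nat_lit 30) (nat_lit 5) (nat_lit 31) (nat_lit 4) (nat_lit 380) (nat_lit 308) (nat_lit 212)))) (XT.nd (nat_lit 78) (nat_lit 76) (nat_lit 0) (XT.lf (nat_lit 0) (nat_lit 12836216816) (nat_lit 152) (nat_lit 31271198575) (nat_lit 76) (nat_lit 17916268960) (nat_lit 27) (nat_lit 5) (nat_lit 29) (nat_lit 5) (nat_lit 28) (nat_lit 4) (nat_lit 381) (nat_lit 308) (nat_lit 211)) (XT.nd (nat_lit 78) (nat_lit 0) (nat_lit 0) (XT.lf (nat_lit 0) (nat_lit 6199025501) (nat_lit 76) (nat_lit 25107373369) (nat_lit 152) (nat_lit 33197439418) (nat_lit 26) (nat_lit 5) (nat_lit 27) (nat_lit 5) (nat_lit 28) (nat_lit 4) (nat_lit 382) (nat_lit 308) (nat_lit 210)) (XT.lf (nat_lit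 0) (nat_lit 46164327124) (nat_lit 76) (nat_lit 4840787297) (nat_lit 152) (nat_lit 16093736336) (nat_lit 26) (nat_lit 5) (nat_lit 27) (nat_lit 5) (nat_lit 28) (nat_lit 4) (nat_lit 383) (nat_lit 308) (nat_lit 209))))) (XT.nd (nat_lit 234) (nat_lit 152) (nat_lit 0) (XT.nd (nat_lit 78) (nat_lit 76) (nat_lit 0) (XT.lf (nat_lit 0) (nat_lit 2151324647) (nat_lit 152) (nat_lit 51359069729) (nat_lit 76) (nat_lit 16303005996) (nat_lit 24) (nat_lit 5) (nat_lit 26) (nat_lit 5) (nat_lit 25) (nat_lit 4) (nat_lit 384) (nat_lit 308) (nat_lit 208)) (XT.nd (nat_lit 78) (nat_lit 76) (nat_lit 0) (XT.lf (nat_lit 0) (nat_lit 21229494603) (nat_lit 152) (nat_lit 12650718864) (nat_lit 76) (nat_lit 38771074094) (nat_lit 24) (nat_lit 5) (nat_lit 26) (nat_lit 5) (nat_lit 25) (nat_lit 4) (nat_lit 385) (nat_lit 308) (nat_lit 207)) (XT.lf (nat_lit 0) (nat_lit 28520857859) (nat_lit 76) (nat_lit 12999741460) (nat_lit 152) (nat_lit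 34102700316) (nat_lit 23) (nat_lit 5) (nat_lit 24) (nat_lit 5) (nat_lit 25) (nat_lit 4) (nat_lit 386) (nat_lit 308) (nat_lit 206)))) (XT.nd (nat_lit 78) (nat_lit 152) (nat_lit 0) (XT.lf (nat_lit 0) (nat_lit 63028758324) (nat_lit 152) (nat_lit 6839935955) (nat_lit 0) (nat_lit 8869144316) (nat_lit 23) (nat_lit 5) (nat_lit 25) (nat_lit 4) (nat_lit 23) (nat_lit 4) (nat_lit 387) (nat_lit 308) (nat_lit 205)) (XT.nd (nat_lit 78) (nat_lit 0) (nat_lit 0) (XT.lf (nat_lit 0) (nat_lit 4001437127) (nat_lit 152) (nat_lit 46053750424) (nat_lit 76) (nat_lit 31937852301) (nat_lit 21) (nat_lit 5) (nat_lit 23) (nat_lit 5) (nat_lit 22) (nat_lit 4) (nat_lit 388) (nat_lit 308) (nat_lit 204)) (XT.lf (nat_lit 0) (nat_lit 24432901508) (nat_lit 152) (nat_lit 4594119430) (nat_lit 76) (nat_lit 56377506003) (nat_lit 21) (nat_lit 5) (nat_lit 23) (nat_lit 5) (nat_lit 22) (nat_lit 4) (nat_lit 389) (nat_lit 308) (nat_lit 203))))))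 (XT.nd (nat_lit 40794) (nat_lit 0) (nat_lit 20292) (XT.nd (nat_lit 40560) (nat_lit 0) (nat_lit 21964) (XT.nd (nat_lit 78) (nat_lit 76) (nat_lit 0) (XT.lf (nat_lit 0) (nat_lit 39687813373) (nat_lit 76) (nat_lit 6566467981) (nat_lit 152) (nat_lit 42721257814) (nat_lit 20) (nat_lit 5) (nat_lit 21) (nat_lit 5) (nat_lit 22) (nat_lit 4) (nat_lit 390) (nat_lit 308) (nat_lit 202)) (XT.nd (nat_lit 78) (nat_lit 76) (nat_lit 0) (XT.lf (nat_lit 0) (nat_lit 69365188601) (nat_lit 152) (nat_lit 6632567662) (nat_lit 0) (nat_lit 16721392991) (nat_lit 20) (nat_lit 5) (nat_lit 22) (nat_lit 4) (nat_lit 20) (nat_lit 4) (nat_lit 391) (nat_lit 308) (nat_lit 201)) (XT.lf (nat_lit 0) (nat_lit 38823142493) (nat_lit 76) (nat_lit 55235699714) (nat_lit 76) (nat_lit 2578282560) (nat_lit 19) (nat_lit 4) (nat_lit 20) (nat_lit 5) (nat_lit 20) (nat_lit 4) (nat_lit 392) (nat_lit 308) (nat_lit 200)))) (XT.nd (nat_lit 78) (nat_lit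 836) (nat_lit 0) (XT.lf (nat_lit 0) (nat_lit 3528027689) (nat_lit 836) (nat_lit 82603687) (nat_lit 836) (nat_lit 82603687) (nat_lit 319) (nat_lit 3) (nat_lit 330) (nat_lit 3) (nat_lit 330) (nat_lit 5) (nat_lit 309) (nat_lit 309) (nat_lit 282)) (XT.nd (nat_lit 78) (nat_lit 0) (nat_lit 0) (XT.lf (nat_lit 0) (nat_lit 2165679506) (nat_lit 836) (nat_lit 1658602288) (nat_lit 912) (nat_lit 3670424212) (nat_lit 308) (nat_lit 5) (nat_lit 319) (nat_lit 3) (nat_lit 320) (nat_lit 5) (nat_lit 310) (nat_lit 309) (nat_lit 281)) (XT.lf (nat_lit 76) (nat_lit 4533247172) (nat_lit 0) (nat_lit 134819622) (nat_lit 912) (nat_lit 2943640944) (nat_lit 309) (nat_lit 5) (nat_lit 308) (nat_lit 5) (nat_lit 320) (nat_lit 5) (nat_lit 311) (nat_lit 309) (nat_lit 280))))) (XT.nd (nat_lit 234) (nat_lit 912) (nat_lit 0) (XT.nd (nat_lit 78) (nat_lit 836) (nat_lit 0) (XT.lf (nat_lit 76) (nat_lit 3275779340) (nat_lit 0) (nat_lit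 3954778209) (nat_lit 912) (nat_lit 506049490) (nat_lit 310) (nat_lit 5) (nat_lit 309) (nat_lit 5) (nat_lit 321) (nat_lit 5) (nat_lit 312) (nat_lit 309) (nat_lit 279)) (XT.nd (nat_lit 78) (nat_lit 0) (nat_lit 0) (XT.lf (nat_lit 0) (nat_lit 1923277746) (nat_lit 912) (nat_lit 5794916808) (nat_lit 988) (nat_lit 151756506) (nat_lit 298) (nat_lit 5) (nat_lit 310) (nat_lit 5) (nat_lit 311) (nat_lit 5) (nat_lit 313) (nat_lit 309) (nat_lit 278)) (XT.lf (nat_lit 76) (nat_lit 904442828) (nat_lit 0) (nat_lit 3515951801) (nat_lit 988) (nat_lit 3590799089) (nat_lit 299) (nat_lit 5) (nat_lit 298) (nat_lit 5) (nat_lit 311) (nat_lit 5) (nat_lit 314) (nat_lit 309) (nat_lit 277)))) (XT.nd (nat_lit 78) (nat_lit 988) (nat_lit 0) (XT.lf (nat_lit 0) (nat_lit 6979112605) (nat_lit 912) (nat_lit 199009087) (nat_lit 988) (nat_lit 983355813) (nat_lit 299) (nat_lit 5) (nat_lit 311) (nat_lit 5) (nat_lit 312) (nat_lit 5)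 (nat_lit 315) (nat_lit 309) (nat_lit 276)) (XT.nd (nat_lit 78) (nat_lit 0) (nat_lit 76) (XT.lf (nat_lit 0) (nat_lit 1297532849) (nat_lit 988) (nat_lit 1263752378) (nat_lit 1064) (nat_lit 5758357680) (nat_lit 286) (nat_lit 5) (nat_lit 299) (nat_lit 5) (nat_lit 300) (nat_lit 5) (nat_lit 316) (nat_lit 309) (nat_lit 275)) (XT.lf (nat_lit 0) (nat_lit 3840120058) (nat_lit 988) (nat_lit 2296503073) (nat_lit 1064) (nat_lit 2349919462) (nat_lit 287) (nat_lit 5) (nat_lit 300) (nat_lit 5) (nat_lit 301) (nat_lit 5) (nat_lit 317) (nat_lit 309) (nat_lit 274))))))) (XT.nd (nat_lit 936) (nat_lit 4940) (nat_lit 0) (XT.nd (nat_lit 468) (nat_lit 2888) (nat_lit 0) (XT.nd (nat_lit 234) (nat_lit 3040) (nat_lit 0) (XT.nd (nat_lit 78) (nat_lit 2052) (nat_lit 0) (XT.lf (nat_lit 76) (nat_lit 5371427352) (nat_lit 0) (nat_lit 1112409236) (nat_lit 1064) (nat_lit 2178798906) (nat_lit 288) (nat_lit 5) (nat_lit 287) (nat_lit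 5) (nat_lit 301) (nat_lit 5) (nat_lit 318) (nat_lit 309) (nat_lit 273)) (XT.nd (nat_lit 78) (nat_lit 1064) (nat_lit 0) (XT.lf (nat_lit 0) (nat_lit 400353918) (nat_lit 1064) (nat_lit 4268592044) (nat_lit 76) (nat_lit 4178645548) (nat_lit 274) (nat_lit 5) (nat_lit 288) (nat_lit 5) (nat_lit 275) (nat_lit 5) (nat_lit 319) (nat_lit 309) (nat_lit 272)) (XT.lf (nat_lit 0) (nat_lit 3045244427) (nat_lit 1140) (nat_lit 5227468646) (nat_lit 76) (nat_lit 769039942) (nat_lit 260) (nat_lit 5) (nat_lit 275) (nat_lit 5) (nat_lit 261) (nat_lit 5) (nat_lit 320) (nat_lit 309) (nat_lit 271)))) (XT.nd (nat_lit 78) (nat_lit 1900) (nat_lit 0) (XT.lf (nat_lit 0) (nat_lit 3068049909) (nat_lit 1140) (nat_lit 2771503789) (nat_lit 1216) (nat_lit 3405610893) (nat_lit 245) (nat_lit 5) (nat_lit 260) (nat_lit 5) (nat_lit 261) (nat_lit 5) (nat_lit 321) (nat_lit 309) (nat_lit 270)) (XT.nd (nat_lit 78) (nat_lit 684) (nat_lit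 0) (XT.lf (nat_lit 0) (nat_lit 2355980754) (nat_lit 1216) (nat_lit 6423867499) (nat_lit 1292) (nat_lit 678764896) (nat_lit 229) (nat_lit 5) (nat_lit 245) (nat_lit 5) (nat_lit 246) (nat_lit 5) (nat_lit 322) (nat_lit 309) (nat_lit 269)) (XT.lf (nat_lit 0) (nat_lit 1656314536) (nat_lit 608) (nat_lit 496884136) (nat_lit 684) (nat_lit 7528613878) (nat_lit 220) (nat_lit 5) (nat_lit 228) (nat_lit 5) (nat_lit 229) (nat_lit 5) (nat_lit 323) (nat_lit 309) (nat_lit 268))))) (XT.nd (nat_lit 234) (nat_lit 1596) (nat_lit 0) (XT.nd (nat_lit 78) (nat_lit 684) (nat_lit 0) (XT.lf (nat_lit 0) (nat_lit 952940869) (nat_lit 608) (nat_lit 4205057290) (nat_lit 684) (nat_lit 4756661871) (nat_lit 212) (nat_lit 5) (nat_lit 220) (nat_lit 5) (nat_lit 221) (nat_lit 5) (nat_lit 324) (nat_lit 309) (nat_lit 267)) (XT.nd (nat_lit 78) (nat_lit 76) (nat_lit 0) (XT.lf (nat_lit 0) (nat_lit 280427172) (nat_lit 608) (nat_lit 8054168853)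 (nat_lit 684) (nat_lit 1823952814) (nat_lit 204) (nat_lit 5) (nat_lit 212) (nat_lit 5) (nat_lit 213) (nat_lit 5) (nat_lit 325) (nat_lit 309) (nat_lit 266)) (XT.lf (nat_lit 0) (nat_lit 1279703639) (nat_lit 684) (nat_lit 385325675) (nat_lit 76) (nat_lit 8747818734) (nat_lit 203) (nat_lit 5) (nat_lit 212) (nat_lit 5) (nat_lit 204) (nat_lit 5) (nat_lit 326) (nat_lit 309) (nat_lit 265)))) (XT.nd (nat_lit 78) (nat_lit 1064) (nat_lit 0) (XT.lf (nat_lit 0) (nat_lit 4560981299) (nat_lit 608) (nat_lit 1061972861) (nat_lit 76) (nat_lit 5054601725) (nat_lit 196) (nat_lit 5) (nat_lit 204) (nat_lit 5) (nat_lit 197) (nat_lit 5) (nat_lit 327) (nat_lit 309) (nat_lit 264)) (XT.nd (nat_lit 78) (nat_lit 532) (nat_lit 0) (XT.lf (nat_lit 0) (nat_lit 8048095779) (nat_lit 608) (nat_lit 1719099817) (nat_lit 76) (nat_lit 1187088661) (nat_lit 189) (nat_lit 5) (nat_lit 197) (nat_lit 5) (nat_lit 190) (nat_lit 5) (nat_lit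 328) (nat_lit 309) (nat_lit 263)) (XT.lf (nat_lit 0) (nat_lit 532644970) (nat_lit 532) (nat_lit 2392464658) (nat_lit 76) (nat_lit 8317330960) (nat_lit 182) (nat_lit 5) (nat_lit 189) (nat_lit 5) (nat_lit 183) (nat_lit 5) (nat_lit 329) (nat_lit 309) (nat_lit 262)))))) (XT.nd (nat_lit 468) (nat_lit 2204) (nat_lit 0) (XT.nd (nat_lit 234) (nat_lit 1292) (nat_lit 0) (XT.nd (nat_lit 78) (nat_lit 912) (nat_lit 0) (XT.lf (nat_lit 0) (nat_lit 4150930313) (nat_lit 608) (nat_lit 3094922759) (nat_lit 76) (nat_lit 4296293757) (nat_lit 175) (nat_lit 5) (nat_lit 183) (nat_lit 5) (nat_lit 176) (nat_lit 5) (nat_lit 330) (nat_lit 309) (nat_lit 261)) (XT.nd (nat_lit 78) (nat_lit 456) (nat_lit 0) (XT.lf (nat_lit 0) (nat_lit 8010711090) (nat_lit 532) (nat_lit 3789367186) (nat_lit 76) (nat_lit 54974819) (nat_lit 169) (nat_lit 5) (nat_lit 176) (nat_lit 5) (nat_lit 170) (nat_lit 5) (nat_lit 331) (nat_lit 309) (nat_lit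 260)) (XT.lf (nat_lit 0) (nat_lit 7658587343) (nat_lit 456) (nat_lit 4514447254) (nat_lit 532) (nat_lit 7314086) (nat_lit 163) (nat_lit 5) (nat_lit 169) (nat_lit 5) (nat_lit 170) (nat_lit 5) (nat_lit 332) (nat_lit 309) (nat_lit 259)))) (XT.nd (nat_lit 78) (nat_lit 836) (nat_lit 0) (XT.lf (nat_lit 0) (nat_lit 4016159354) (nat_lit 456) (nat_lit 5293760873) (nat_lit 76) (nat_lit 3208665321) (nat_lit 157) (nat_lit 5) (nat_lit 163) (nat_lit 5) (nat_lit 158) (nat_lit 5) (nat_lit 333) (nat_lit 309) (nat_lit 258)) (XT.nd (nat_lit 78) (nat_lit 380) (nat_lit 0) (XT.lf (nat_lit 0) (nat_lit 6784999430) (nat_lit 456) (nat_lit 1548206280) (nat_lit 532) (nat_lit 4537776821) (nat_lit 151) (nat_lit 5) (nat_lit 157) (nat_lit 5) (nat_lit 158) (nat_lit 5) (nat_lit 334) (nat_lit 309) (nat_lit 257)) (XT.lf (nat_lit 0) (nat_lit 6316631401) (nat_lit 380) (nat_lit 6665615494) (nat_lit 456) (nat_lit 255293873) (nat_lit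 146) (nat_lit 5) (nat_lit 151) (nat_lit 5) (nat_lit 152) (nat_lit 5) (nat_lit 335) (nat_lit 309) (nat_lit 256))))) (XT.nd (nat_lit 234) (nat_lit 1064) (nat_lit 0) (XT.nd (nat_lit 78) (nat_lit 684) (nat_lit 0) (XT.lf (nat_lit 0) (nat_lit 4247243346) (nat_lit 456) (nat_lit 7812205079) (nat_lit 76) (nat_lit 1559118330) (nat_lit 140) (nat_lit 5) (nat_lit 146) (nat_lit 5) (nat_lit 141) (nat_lit 5) (nat_lit 336) (nat_lit 309) (nat_lit 255)) (XT.nd (nat_lit 78) (nat_lit 380) (nat_lit 0) (XT.lf (nat_lit 0) (nat_lit 5250198797) (nat_lit 304) (nat_lit 3849712476) (nat_lit 380) (nat_lit 4914771039) (nat_lit 136) (nat_lit 5) (nat_lit 140) (nat_lit 5) (nat_lit 141) (nat_lit 5) (nat_lit 337) (nat_lit 309) (nat_lit 254)) (XT.lf (nat_lit 0) (nat_lit 4666113952) (nat_lit 380) (nat_lit 9643456699) (nat_lit 456) (nat_lit 117623790) (nat_lit 131) (nat_lit 5) (nat_lit 136) (nat_lit 5) (nat_lit 137) (nat_lit 5) (nat_lit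 338) (nat_lit 309) (nat_lit 253)))) (XT.nd (nat_lit 78) (nat_lit 684) (nat_lit 0) (XT.lf (nat_lit 0) (nat_lit 4006980900) (nat_lit 304) (nat_lit 928758908) (nat_lit 380) (nat_lit 9919823025) (nat_lit 126) (nat_lit 5) (nat_lit 130) (nat_lit 5) (nat_lit 131) (nat_lit 5) (nat_lit 339) (nat_lit 309) (nat_lit 252)) (XT.nd (nat_lit 78) (nat_lit 380) (nat_lit 0) (XT.lf (nat_lit 0) (nat_lit 3270550733) (nat_lit 304) (nat_lit 7126360553) (nat_lit 380) (nat_lit 4903695215) (nat_lit 122) (nat_lit 5) (nat_lit 126) (nat_lit 5) (nat_lit 127) (nat_lit 5) (nat_lit 340) (nat_lit 309) (nat_lit 251)) (XT.lf (nat_lit 0) (nat_lit 469310725) (nat_lit 380) (nat_lit 13267962384) (nat_lit 76) (nat_lit 2027147235) (nat_lit 117) (nat_lit 5) (nat_lit 122) (nat_lit 5) (nat_lit 118) (nat_lit 5) (nat_lit 341) (nat_lit 309) (nat_lit 250))))))))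
noncomputable def xc66 : XT := (XT.nd (nat_lit 1872) (nat_lit 2280) (nat_lit 0) (XT.nd (nat_lit 936) (nat_lit 1976) (nat_lit 0) (XT.nd (nat_lit 468) (nat_lit 1444) (nat_lit 0) (XT.nd (nat_lit 234) (nat_lit 912) (nat_lit 0) (XT.nd (nat_lit 78) (nat_lit 380) (nat_lit 0) (XT.lf (nat_lit 0) (nat_lit 1586118529) (nat_lit 304) (nat_lit 4585150296) (nat_lit 380) (nat_lit 10073864676) (nat_lit 113) (nat_lit 5) (nat_lit 117) (nat_lit 5) (nat_lit 118) (nat_lit 5) (nat_lit 342) (nat_lit 309) (nat_lit 249)) (XT.nd (nat_lit 78) (nat_lit 76) (nat_lit 0) (XT.lf (nat_lit 0) (nat_lit 602185919) (nat_lit 304) (nat_lit 11698221343) (nat_lit 380) (nat_lit 4445228489) (nat_lit 109) (nat_lit 5) (nat_lit 113) (nat_lit 5) (nat_lit 114) (nat_lit 5) (nat_lit 343) (nat_lit 309) (nat_lit 248)) (XT.lf (nat_lit 0) (nat_lit 1586181982) (nat_lit 380) (nat_lit 468861532) (nat_lit 76) (nat_lit 15211214074) (nat_lit 108) (nat_lit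 5) (nat_lit 113) (nat_lit 5) (nat_lit 109) (nat_lit 5) (nat_lit 344) (nat_lit 309) (nat_lit 247)))) (XT.nd (nat_lit 78) (nat_lit 608) (nat_lit 0) (XT.lf (nat_lit 0) (nat_lit 8016631709) (nat_lit 380) (nat_lit 1696774399) (nat_lit 76) (nat_lit 8092515964) (nat_lit 104) (nat_lit 5) (nat_lit 109) (nat_lit 5) (nat_lit 105) (nat_lit 5) (nat_lit 345) (nat_lit 309) (nat_lit 246)) (XT.nd (nat_lit 78) (nat_lit 380) (nat_lit 0) (XT.lf (nat_lit 0) (nat_lit 14901306691) (nat_lit 304) (nat_lit 3009592324) (nat_lit 76) (nat_lit 457703022) (nat_lit 101) (nat_lit 5) (nat_lit 105) (nat_lit 5) (nat_lit 102) (nat_lit 5) (nat_lit 346) (nat_lit 309) (nat_lit 245)) (XT.lf (nat_lit 0) (nat_lit 3321876064) (nat_lit 380) (nat_lit 4525496602) (nat_lit 76) (nat_lit 11104752768) (nat_lit 96) (nat_lit 5) (nat_lit 101) (nat_lit 5) (nat_lit 97) (nat_lit 5) (nat_lit 347) (nat_lit 309) (nat_lit 244))))) (XT.nd (nat_lit 234)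 (nat_lit 684) (nat_lit 0) (XT.nd (nat_lit 78) (nat_lit 532) (nat_lit 0) (XT.lf (nat_lit 0) (nat_lit 10524547079) (nat_lit 304) (nat_lit 6195260882) (nat_lit 76) (nat_lit 2839626396) (nat_lit 93) (nat_lit 5) (nat_lit 97) (nat_lit 5) (nat_lit 94) (nat_lit 5) (nat_lit 348) (nat_lit 309) (nat_lit 243)) (XT.nd (nat_lit 78) (nat_lit 304) (nat_lit 0) (XT.lf (nat_lit 0) (nat_lit 12138424878) (nat_lit 228) (nat_lit 6150263949) (nat_lit 304) (nat_lit 1902390972) (nat_lit 90) (nat_lit 5) (nat_lit 93) (nat_lit 5) (nat_lit 94) (nat_lit 5) (nat_lit 349) (nat_lit 309) (nat_lit 242)) (XT.lf (nat_lit 0) (nat_lit 5654397231) (nat_lit 304) (nat_lit 10141871887) (nat_lit 76) (nat_lit 5051137118) (nat_lit 86) (nat_lit 5) (nat_lit 90) (nat_lit 5) (nat_lit 87) (nat_lit 5) (nat_lit 350) (nat_lit 309) (nat_lit 241)))) (XT.nd (nat_lit 78) (nat_lit 456) (nat_lit 0) (XT.lf (nat_lit 0) (nat_lit 9066685199) (nat_lit 228)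 (nat_lit 4676767580) (nat_lit 304) (nat_lit 7786727833) (nat_lit 83) (nat_lit 5) (nat_lit 86) (nat_lit 5) (nat_lit 87) (nat_lit 5) (nat_lit 351) (nat_lit 309) (nat_lit 240)) (XT.nd (nat_lit 78) (nat_lit 228) (nat_lit 0) (XT.lf (nat_lit 0) (nat_lit 195634244) (nat_lit 228) (nat_lit 15029909422) (nat_lit 76) (nat_lit 7015394999) (nat_lit 80) (nat_lit 5) (nat_lit 83) (nat_lit 5) (nat_lit 81) (nat_lit 5) (nat_lit 352) (nat_lit 309) (nat_lit 239)) (XT.lf (nat_lit 0) (nat_lit 5055906187) (nat_lit 228) (nat_lit 3549420945) (nat_lit 304) (nat_lit 14373925648) (nat_lit 77) (nat_lit 5) (nat_lit 80) (nat_lit 5) (nat_lit 81) (nat_lit 5) (nat_lit 353) (nat_lit 309) (nat_lit 238)))))) (XT.nd (nat_lit 468) (nat_lit 912) (nat_lit 0) (XT.nd (nat_lit 234) (nat_lit 608) (nat_lit 0) (XT.nd (nat_lit 78) (nat_lit 304) (nat_lit 0) (XT.lf (nat_lit 0) (nat_lit 2614892398) (nat_lit 152) (nat_lit 15049095369) (nat_lit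 228) (nat_lit 6083648604) (nat_lit 75) (nat_lit 5) (nat_lit 77) (nat_lit 5) (nat_lit 78) (nat_lit 5) (nat_lit 354) (nat_lit 309) (nat_lit 237)) (XT.nd (nat_lit 78) (nat_lit 228) (nat_lit 0) (XT.lf (nat_lit 0) (nat_lit 2756331243) (nat_lit 228) (nat_lit 117255262) (nat_lit 76) (nat_lit 21674514289) (nat_lit 74) (nat_lit 5) (nat_lit 77) (nat_lit 5) (nat_lit 75) (nat_lit 5) (nat_lit 355) (nat_lit 309) (nat_lit 236)) (XT.lf (nat_lit 0) (nat_lit 12191341860) (nat_lit 304) (nat_lit 3214287784) (nat_lit 76) (nat_lit 9972793518) (nat_lit 71) (nat_lit 5) (nat_lit 75) (nat_lit 5) (nat_lit 72) (nat_lit 5) (nat_lit 356) (nat_lit 309) (nat_lit 235)))) (XT.nd (nat_lit 78) (nat_lit 456) (nat_lit 0) (XT.lf (nat_lit 0) (nat_lit 19609077788) (nat_lit 152) (nat_lit 2674501293) (nat_lit 228) (nat_lit 3961125214) (nat_lit 69) (nat_lit 5) (nat_lit 71) (nat_lit 5) (nat_lit 72) (nat_lit 5) (nat_lit 357) (nat_lit 309)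 (nat_lit 234)) (XT.nd (nat_lit 78) (nat_lit 152) (nat_lit 0) (XT.lf (nat_lit 0) (nat_lit 5880888055) (nat_lit 304) (nat_lit 10550222053) (nat_lit 76) (nat_lit 10713549589) (nat_lit 65) (nat_lit 5) (nat_lit 69) (nat_lit 5) (nat_lit 66) (nat_lit 5) (nat_lit 358) (nat_lit 309) (nat_lit 233)) (XT.lf (nat_lit 0) (nat_lit 13171931356) (nat_lit 152) (nat_lit 3152811560) (nat_lit 228) (nat_lit 11757949593) (nat_lit 63) (nat_lit 5) (nat_lit 65) (nat_lit 5) (nat_lit 66) (nat_lit 5) (nat_lit 359) (nat_lit 309) (nat_lit 232))))) (XT.nd (nat_lit 234) (nat_lit 532) (nat_lit 0) (XT.nd (nat_lit 78) (nat_lit 228) (nat_lit 0) (XT.lf (nat_lit 0) (nat_lit 9258464527) (nat_lit 152) (nat_lit 18303810624) (nat_lit 228) (nat_lit 1497213082) (nat_lit 61) (nat_lit 5) (nat_lit 63) (nat_lit 5) (nat_lit 64) (nat_lit 5) (nat_lit 360) (nat_lit 309) (nat_lit 231)) (XT.nd (nat_lit 78) (nat_lit 0) (nat_lit 0) (XT.lf (nat_lit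 0) (nat_lit 4785316698) (nat_lit 152) (nat_lit 4512819086) (nat_lit 228) (nat_lit 20778240336) (nat_lit 58) (nat_lit 5) (nat_lit 60) (nat_lit 5) (nat_lit 61) (nat_lit 5) (nat_lit 361) (nat_lit 309) (nat_lit 230)) (XT.lf (nat_lit 0) (nat_lit 20874739726) (nat_lit 228) (nat_lit 288113735) (nat_lit 76) (nat_lit 9972641771) (nat_lit 58) (nat_lit 5) (nat_lit 61) (nat_lit 5) (nat_lit 59) (nat_lit 5) (nat_lit 362) (nat_lit 309) (nat_lit 229)))) (XT.nd (nat_lit 78) (nat_lit 304) (nat_lit 0) (XT.lf (nat_lit 0) (nat_lit 1041088768) (nat_lit 228) (nat_lit 5864815146) (nat_lit 76) (nat_lit 25333232734) (nat_lit 55) (nat_lit 5) (nat_lit 58) (nat_lit 5) (nat_lit 56) (nat_lit 5) (nat_lit 363) (nat_lit 309) (nat_lit 228)) (XT.nd (nat_lit 78) (nat_lit 152) (nat_lit 0) (XT.lf (nat_lit 0) (nat_lit 12957852232) (nat_lit 228) (nat_lit 12229539836) (nat_lit 76) (nat_lit 8199663772) (nat_lit 53) (nat_lit 5) (nat_lit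 56) (nat_lit 5) (nat_lit 54) (nat_lit 5) (nat_lit 364) (nat_lit 309) (nat_lit 227)) (XT.lf (nat_lit 0) (nat_lit 15242286548) (nat_lit 152) (nat_lit 10478520798) (nat_lit 228) (nat_lit 8864057331) (nat_lit 51) (nat_lit 5) (nat_lit 53) (nat_lit 5) (nat_lit 54) (nat_lit 5) (nat_lit 365) (nat_lit 309) (nat_lit 226))))))) (XT.nd (nat_lit 936) (nat_lit 912) (nat_lit 0) (XT.nd (nat_lit 468) (nat_lit 608) (nat_lit 0) (XT.nd (nat_lit 234) (nat_lit 380) (nat_lit 0) (XT.nd (nat_lit 78) (nat_lit 152) (nat_lit 0) (XT.lf (nat_lit 0) (nat_lit 3448744389) (nat_lit 228) (nat_lit 27293626720) (nat_lit 76) (nat_lit 5092249425) (nat_lit 48) (nat_lit 5) (nat_lit 51) (nat_lit 5) (nat_lit 49) (nat_lit 5) (nat_lit 366) (nat_lit 309) (nat_lit 225)) (XT.nd (nat_lit 78) (nat_lit 0) (nat_lit 0) (XT.lf (nat_lit 0) (nat_lit 855357082) (nat_lit 152) (nat_lit 15629631848) (nat_lit 228) (nat_lit 20650512395) (nat_lit 46) (nat_lit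 5) (nat_lit 48) (nat_lit 5) (nat_lit 49) (nat_lit 5) (nat_lit 367) (nat_lit 309) (nat_lit 224)) (XT.lf (nat_lit 0) (nat_lit 30434034337) (nat_lit 228) (nat_lit 7561350335) (nat_lit 76) (nat_lit 498215423) (nat_lit 46) (nat_lit 5) (nat_lit 49) (nat_lit 5) (nat_lit 47) (nat_lit 4) (nat_lit 368) (nat_lit 309) (nat_lit 223)))) (XT.nd (nat_lit 78) (nat_lit 228) (nat_lit 0) (XT.lf (nat_lit 0) (nat_lit 5417143539) (nat_lit 152) (nat_lit 17124091903) (nat_lit 76) (nat_lit 17366175682) (nat_lit 44) (nat_lit 5) (nat_lit 46) (nat_lit 5) (nat_lit 45) (nat_lit 5) (nat_lit 369) (nat_lit 309) (nat_lit 222)) (XT.nd (nat_lit 78) (nat_lit 76) (nat_lit 0) (XT.lf (nat_lit 0) (nat_lit 13553527027) (nat_lit 152) (nat_lit 6034560499) (nat_lit 228) (nat_lit 21795821914) (nat_lit 42) (nat_lit 5) (nat_lit 44) (nat_lit 5) (nat_lit 45) (nat_lit 5) (nat_lit 370) (nat_lit 309) (nat_lit 221)) (XT.lf (nat_lit 0) (nat_lit 3102347068)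 (nat_lit 76) (nat_lit 31658851641) (nat_lit 152) (nat_lit 8164228383) (nat_lit 41) (nat_lit 5) (nat_lit 42) (nat_lit 5) (nat_lit 43) (nat_lit 4) (nat_lit 371) (nat_lit 309) (nat_lit 220))))) (XT.nd (nat_lit 234) (nat_lit 304) (nat_lit 0) (XT.nd (nat_lit 78) (nat_lit 228) (nat_lit 0) (XT.lf (nat_lit 0) (nat_lit 6356843273) (nat_lit 152) (nat_lit 8536015445) (nat_lit 76) (nat_lit 29639554884) (nat_lit 40) (nat_lit 5) (nat_lit 42) (nat_lit 5) (nat_lit 41) (nat_lit 5) (nat_lit 372) (nat_lit 309) (nat_lit 219)) (XT.nd (nat_lit 78) (nat_lit 76) (nat_lit 0) (XT.lf (nat_lit 0) (nat_lit 21681658688) (nat_lit 228) (nat_lit 21564424439) (nat_lit 76) (nat_lit 2963847780) (nat_lit 38) (nat_lit 5) (nat_lit 41) (nat_lit 5) (nat_lit 39) (nat_lit 4) (nat_lit 373) (nat_lit 309) (nat_lit 218)) (XT.lf (nat_lit 0) (nat_lit 11735197747) (nat_lit 76) (nat_lit 26368579901) (nat_lit 152) (nat_lit 9857617079) (nat_lit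 37) (nat_lit 5) (nat_lit 38) (nat_lit 5) (nat_lit 39) (nat_lit 4) (nat_lit 374) (nat_lit 309) (nat_lit 217)))) (XT.nd (nat_lit 78) (nat_lit 228) (nat_lit 0) (XT.lf (nat_lit 0) (nat_lit 5642150621) (nat_lit 152) (nat_lit 2736564989) (nat_lit 76) (nat_lit 41414004558) (nat_lit 36) (nat_lit 5) (nat_lit 38) (nat_lit 5) (nat_lit 37) (nat_lit 5) (nat_lit 375) (nat_lit 309) (nat_lit 216)) (XT.nd (nat_lit 78) (nat_lit 76) (nat_lit 0) (XT.lf (nat_lit 0) (nat_lit 22117115236) (nat_lit 228) (nat_lit 18873895298) (nat_lit 76) (nat_lit 10709553195) (nat_lit 34) (nat_lit 5) (nat_lit 37) (nat_lit 5) (nat_lit 35) (nat_lit 4) (nat_lit 376) (nat_lit 309) (nat_lit 215)) (XT.lf (nat_lit 0) (nat_lit 16728584269) (nat_lit 76) (nat_lit 22942099869) (nat_lit 152) (nat_lit 14025471773) (nat_lit 33) (nat_lit 5) (nat_lit 34) (nat_lit 5) (nat_lit 35) (nat_lit 4) (nat_lit 377) (nat_lit 309) (nat_lit 214)))))) (XT.nd (nat_lit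 468) (nat_lit 380) (nat_lit 0) (XT.nd (nat_lit 234) (nat_lit 228) (nat_lit 0) (XT.nd (nat_lit 78) (nat_lit 228) (nat_lit 0) (XT.lf (nat_lit 0) (nat_lit 2442955588) (nat_lit 152) (nat_lit 1338893498) (nat_lit 76) (nat_lit 52003685225) (nat_lit 32) (nat_lit 5) (nat_lit 34) (nat_lit 5) (nat_lit 33) (nat_lit 5) (nat_lit 378) (nat_lit 309) (nat_lit 213)) (XT.nd (nat_lit 78) (nat_lit 76) (nat_lit 0) (XT.lf (nat_lit 0) (nat_lit 19943441818) (nat_lit 228) (nat_lit 21515822395) (nat_lit 76) (nat_lit 16500992133) (nat_lit 30) (nat_lit 5) (nat_lit 33) (nat_lit 5) (nat_lit 31) (nat_lit 4) (nat_lit 379) (nat_lit 309) (nat_lit 212)) (XT.lf (nat_lit 0) (nat_lit 16145928099) (nat_lit 76) (nat_lit 22363017165) (nat_lit 152) (nat_lit 21729071214) (nat_lit 29) (nat_lit 5) (nat_lit 30) (nat_lit 5) (nat_lit 31) (nat_lit 4) (nat_lit 380) (nat_lit 309) (nat_lit 211)))) (XT.nd (nat_lit 78) (nat_lit 228) (nat_lit 0)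 (XT.lf (nat_lit 0) (nat_lit 56108878035) (nat_lit 76) (nat_lit 2098551364) (nat_lit 152) (nat_lit 4416095748) (nat_lit 29) (nat_lit 5) (nat_lit 30) (nat_lit 5) (nat_lit 31) (nat_lit 4) (nat_lit 381) (nat_lit 309) (nat_lit 210)) (XT.nd (nat_lit 78) (nat_lit 76) (nat_lit 0) (XT.lf (nat_lit 0) (nat_lit 13987910438) (nat_lit 152) (nat_lit 31872490663) (nat_lit 76) (nat_lit 19249122747) (nat_lit 27) (nat_lit 5) (nat_lit 29) (nat_lit 5) (nat_lit 28) (nat_lit 4) (nat_lit 382) (nat_lit 309) (nat_lit 209)) (XT.lf (nat_lit 0) (nat_lit 7443661401) (nat_lit 76) (nat_lit 25922644821) (nat_lit 152) (nat_lit 34347840417) (nat_lit 26) (nat_lit 5) (nat_lit 27) (nat_lit 5) (nat_lit 28) (nat_lit 4) (nat_lit 383) (nat_lit 309) (nat_lit 208))))) (XT.nd (nat_lit 234) (nat_lit 228) (nat_lit 0) (XT.nd (nat_lit 78) (nat_lit 152) (nat_lit 0) (XT.lf (nat_lit 0) (nat_lit 49362719314) (nat_lit 76) (nat_lit 4663686455) (nat_lit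 152) (nat_lit 16413212704) (nat_lit 26) (nat_lit 5) (nat_lit 27) (nat_lit 5) (nat_lit 28) (nat_lit 4) (nat_lit 384) (nat_lit 309) (nat_lit 207)) (XT.nd (nat_lit 78) (nat_lit 0) (nat_lit 0) (XT.lf (nat_lit 0) (nat_lit 2724343493) (nat_lit 152) (nat_lit 53043205257) (nat_lit 76) (nat_lit 17522517608) (nat_lit 24) (nat_lit 5) (nat_lit 26) (nat_lit 5) (nat_lit 25) (nat_lit 4) (nat_lit 385) (nat_lit 309) (nat_lit 206)) (XT.lf (nat_lit 0) (nat_lit 22734257536) (nat_lit 152) (nat_lit 12441523418) (nat_lit 76) (nat_lit 41094733810) (nat_lit 24) (nat_lit 5) (nat_lit 26) (nat_lit 5) (nat_lit 25) (nat_lit 4) (nat_lit 386) (nat_lit 309) (nat_lit 205)))) (XT.nd (nat_lit 78) (nat_lit 152) (nat_lit 0) (XT.lf (nat_lit 0) (nat_lit 30764504080) (nat_lit 76) (nat_lit 13262163750) (nat_lit 152) (nat_lit 35364858937) (nat_lit 23) (nat_lit 5) (nat_lit 24) (nat_lit 5) (nat_lit 25) (nat_lit 4) (nat_lit 387) (nat_lit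 309) (nat_lit 204)) (XT.nd (nat_lit 78) (nat_lit 152) (nat_lit 0) (XT.lf (nat_lit 0) (nat_lit 66593304864) (nat_lit 152) (nat_lit 6394489259) (nat_lit 0) (nat_lit 9674508197) (nat_lit 23) (nat_lit 5) (nat_lit 25) (nat_lit 4) (nat_lit 23) (nat_lit 4) (nat_lit 388) (nat_lit 309) (nat_lit 203)) (XT.lf (nat_lit 0) (nat_lit 4606299024) (nat_lit 152) (nat_lit 47583477932) (nat_lit 76) (nat_lit 33890738874) (nat_lit 21) (nat_lit 5) (nat_lit 23) (nat_lit 5) (nat_lit 22) (nat_lit 4) (nat_lit 389) (nat_lit 309) (nat_lit 202))))))))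
noncomputable def xc67 : XT := (XT.nd (nat_lit 42276) (nat_lit 0) (nat_lit 4332) (XT.nd (nat_lit 41340) (nat_lit 0) (nat_lit 12312) (XT.nd (nat_lit 40872) (nat_lit 0) (nat_lit 20140) (XT.nd (nat_lit 40638) (nat_lit 0) (nat_lit 20976) (XT.nd (nat_lit 78) (nat_lit 76) (nat_lit 0) (XT.lf (nat_lit 0) (nat_lit 26040060907) (nat_lit 152) (nat_lit 4087673009) (nat_lit 76) (nat_lit 59535423168) (nat_lit 21) (nat_lit 5) (nat_lit 23) (nat_lit 5) (nat_lit 22) (nat_lit 4) (nat_lit 390) (nat_lit 309) (nat_lit 201)) (XT.nd (nat_lit 78) (nat_lit 0) (nat_lit 0) (XT.lf (nat_lit 0) (nat_lit 42387254774) (nat_lit 76) (nat_lit 6553770652) (nat_lit 152) (nat_lit 44472040491) (nat_lit 20) (nat_lit 5) (nat_lit 21) (nat_lit 5) (nat_lit 22) (nat_lit 4) (nat_lit 391) (nat_lit 309) (nat_lit 200)) (XT.lf (nat_lit 0) (nat_lit 73192789083) (nat_lit 152) (nat_lit 6275602863) (nat_lit 0) (nat_lit 17875906627) (nat_lit 20)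 (nat_lit 5) (nat_lit 22) (nat_lit 4) (nat_lit 20) (nat_lit 4) (nat_lit 392) (nat_lit 309) (nat_lit 199)))) (XT.nd (nat_lit 78) (nat_lit 912) (nat_lit 0) (XT.lf (nat_lit 0) (nat_lit 1127398157) (nat_lit 0) (nat_lit 1127398157) (nat_lit 836) (nat_lit 1548837832) (nat_lit 308) (nat_lit 5) (nat_lit 308) (nat_lit 3) (nat_lit 319) (nat_lit 3) (nat_lit 310) (nat_lit 310) (nat_lit 280)) (XT.nd (nat_lit 78) (nat_lit 912) (nat_lit 0) (XT.lf (nat_lit 76) (nat_lit 747934347) (nat_lit 0) (nat_lit 6133029380) (nat_lit 912) (nat_lit 847284105) (nat_lit 309) (nat_lit 5) (nat_lit 308) (nat_lit 5) (nat_lit 320) (nat_lit 5) (nat_lit 311) (nat_lit 310) (nat_lit 279)) (XT.lf (nat_lit 0) (nat_lit 1419758911) (nat_lit 912) (nat_lit 707414847) (nat_lit 988) (nat_lit 5729743991) (nat_lit 296) (nat_lit 5) (nat_lit 308) (nat_lit 5) (nat_lit 309) (nat_lit 5) (nat_lit 312) (nat_lit 310) (nat_lit 278))))) (XT.nd (nat_lit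 234) (nat_lit 0) (nat_lit 0) (XT.nd (nat_lit 78) (nat_lit 912) (nat_lit 0) (XT.lf (nat_lit 0) (nat_lit 3722999079) (nat_lit 912) (nat_lit 2106885648) (nat_lit 988) (nat_lit 2163759146) (nat_lit 297) (nat_lit 5) (nat_lit 309) (nat_lit 5) (nat_lit 310) (nat_lit 5) (nat_lit 313) (nat_lit 310) (nat_lit 277)) (XT.nd (nat_lit 78) (nat_lit 912) (nat_lit 0) (XT.lf (nat_lit 76) (nat_lit 4678548484) (nat_lit 0) (nat_lit 1405232779) (nat_lit 988) (nat_lit 2055234993) (nat_lit 298) (nat_lit 5) (nat_lit 297) (nat_lit 5) (nat_lit 310) (nat_lit 5) (nat_lit 314) (nat_lit 310) (nat_lit 276)) (XT.lf (nat_lit 0) (nat_lit 226574925) (nat_lit 988) (nat_lit 4783356231) (nat_lit 1064) (nat_lit 3282895691) (nat_lit 285) (nat_lit 5) (nat_lit 298) (nat_lit 5) (nat_lit 299) (nat_lit 5) (nat_lit 315) (nat_lit 310) (nat_lit 275)))) (XT.nd (nat_lit 78) (nat_lit 0) (nat_lit 76) (XT.lf (nat_lit 76) (nat_lit 2376222590) (nat_lit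 0) (nat_lit 155654078) (nat_lit 1064) (nat_lit 5923355274) (nat_lit 286) (nat_lit 5) (nat_lit 285) (nat_lit 5) (nat_lit 299) (nat_lit 5) (nat_lit 316) (nat_lit 310) (nat_lit 274)) (XT.nd (nat_lit 78) (nat_lit 0) (nat_lit 76) (XT.lf (nat_lit 76) (nat_lit 1262713227) (nat_lit 0) (nat_lit 3682983448) (nat_lit 1064) (nat_lit 3680331252) (nat_lit 287) (nat_lit 5) (nat_lit 286) (nat_lit 5) (nat_lit 300) (nat_lit 5) (nat_lit 317) (nat_lit 310) (nat_lit 273)) (XT.lf (nat_lit 76) (nat_lit 197741806) (nat_lit 0) (nat_lit 7252355342) (nat_lit 1064) (nat_lit 1356234860) (nat_lit 288) (nat_lit 5) (nat_lit 287) (nat_lit 5) (nat_lit 301) (nat_lit 5) (nat_lit 318) (nat_lit 310) (nat_lit 272)))))) (XT.nd (nat_lit 468) (nat_lit 2888) (nat_lit 0) (XT.nd (nat_lit 234) (nat_lit 3040) (nat_lit 0) (XT.nd (nat_lit 78) (nat_lit 988) (nat_lit 0) (XT.lf (nat_lit 0) (nat_lit 1068947463) (nat_lit 1064) (nat_lit 835479739)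 (nat_lit 1140) (nat_lit 7090790501) (nat_lit 273) (nat_lit 5) (nat_lit 287) (nat_lit 5) (nat_lit 288) (nat_lit 5) (nat_lit 319) (nat_lit 310) (nat_lit 271)) (XT.nd (nat_lit 78) (nat_lit 1064) (nat_lit 0) (XT.lf (nat_lit 0) (nat_lit 3592665938) (nat_lit 1064) (nat_lit 1854791984) (nat_lit 76) (nat_lit 3745584361) (nat_lit 274) (nat_lit 5) (nat_lit 288) (nat_lit 5) (nat_lit 275) (nat_lit 5) (nat_lit 320) (nat_lit 310) (nat_lit 270)) (XT.lf (nat_lit 0) (nat_lit 6238522842) (nat_lit 1140) (nat_lit 2839125245) (nat_lit 76) (nat_lit 323285927) (nat_lit 260) (nat_lit 5) (nat_lit 275) (nat_lit 5) (nat_lit 261) (nat_lit 5) (nat_lit 321) (nat_lit 310) (nat_lit 269)))) (XT.nd (nat_lit 78) (nat_lit 1900) (nat_lit 0) (XT.lf (nat_lit 0) (nat_lit 5795215636) (nat_lit 1140) (nat_lit 3257262232) (nat_lit 1216) (nat_lit 565720210) (nat_lit 245) (nat_lit 5) (nat_lit 260) (nat_lit 5) (nat_lit 261) (nat_lit 5) (nat_lit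 322) (nat_lit 310) (nat_lit 268)) (XT.nd (nat_lit 78) (nat_lit 608) (nat_lit 0) (XT.lf (nat_lit 0) (nat_lit 2134024097) (nat_lit 1292) (nat_lit 4803162726) (nat_lit 76) (nat_lit 2908101868) (nat_lit 228) (nat_lit 5) (nat_lit 245) (nat_lit 5) (nat_lit 229) (nat_lit 5) (nat_lit 323) (nat_lit 310) (nat_lit 267)) (XT.lf (nat_lit 0) (nat_lit 4310983381) (nat_lit 608) (nat_lit 672521100) (nat_lit 684) (nat_lit 5099313558) (nat_lit 220) (nat_lit 5) (nat_lit 228) (nat_lit 5) (nat_lit 229) (nat_lit 5) (nat_lit 324) (nat_lit 310) (nat_lit 266))))) (XT.nd (nat_lit 234) (nat_lit 1064) (nat_lit 0) (XT.nd (nat_lit 78) (nat_lit 1216) (nat_lit 0) (XT.lf (nat_lit 0) (nat_lit 3580830858) (nat_lit 608) (nat_lit 4451485666) (nat_lit 684) (nat_lit 2298245133) (nat_lit 212) (nat_lit 5) (nat_lit 220) (nat_lit 5) (nat_lit 221) (nat_lit 5) (nat_lit 325) (nat_lit 310) (nat_lit 265)) (XT.nd (nat_lit 78) (nat_lit 532)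 (nat_lit 0) (XT.lf (nat_lit 0) (nat_lit 664721899) (nat_lit 684) (nat_lit 7717617875) (nat_lit 76) (nat_lit 2207175841) (nat_lit 203) (nat_lit 5) (nat_lit 212) (nat_lit 5) (nat_lit 204) (nat_lit 5) (nat_lit 326) (nat_lit 310) (nat_lit 264)) (XT.lf (nat_lit 0) (nat_lit 2147795726) (nat_lit 532) (nat_lit 1637968422) (nat_lit 608) (nat_lit 7073285063) (nat_lit 196) (nat_lit 5) (nat_lit 203) (nat_lit 5) (nat_lit 204) (nat_lit 5) (nat_lit 327) (nat_lit 310) (nat_lit 263)))) (XT.nd (nat_lit 78) (nat_lit 532) (nat_lit 0) (XT.lf (nat_lit 0) (nat_lit 1421136593) (nat_lit 532) (nat_lit 5712165632) (nat_lit 608) (nat_lit 4006680460) (nat_lit 189) (nat_lit 5) (nat_lit 196) (nat_lit 5) (nat_lit 197) (nat_lit 5) (nat_lit 328) (nat_lit 310) (nat_lit 262)) (XT.nd (nat_lit 78) (nat_lit 76) (nat_lit 0) (XT.lf (nat_lit 0) (nat_lit 711909410) (nat_lit 456) (nat_lit 9990346069) (nat_lit 532) (nat_lit 731120975)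 (nat_lit 183) (nat_lit 5) (nat_lit 189) (nat_lit 5) (nat_lit 190) (nat_lit 5) (nat_lit 329) (nat_lit 310) (nat_lit 261)) (XT.lf (nat_lit 0) (nat_lit 2743058024) (nat_lit 532) (nat_lit 36315351) (nat_lit 76) (nat_lit 8958687035) (nat_lit 182) (nat_lit 5) (nat_lit 189) (nat_lit 5) (nat_lit 183) (nat_lit 5) (nat_lit 330) (nat_lit 310) (nat_lit 260))))))) (XT.nd (nat_lit 936) (nat_lit 3040) (nat_lit 0) (XT.nd (nat_lit 468) (nat_lit 2128) (nat_lit 0) (XT.nd (nat_lit 234) (nat_lit 1292) (nat_lit 0) (XT.nd (nat_lit 78) (nat_lit 988) (nat_lit 0) (XT.lf (nat_lit 0) (nat_lit 6464286550) (nat_lit 608) (nat_lit 783736972) (nat_lit 76) (nat_lit 4807114658) (nat_lit 175) (nat_lit 5) (nat_lit 183) (nat_lit 5) (nat_lit 176) (nat_lit 5) (nat_lit 331) (nat_lit 310) (nat_lit 259)) (XT.nd (nat_lit 78) (nat_lit 532) (nat_lit 0) (XT.lf (nat_lit 0) (nat_lit 10443329125) (nat_lit 532) (nat_lit 1525360316) (nat_lit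 76) (nat_lit 417256979) (nat_lit 169) (nat_lit 5) (nat_lit 176) (nat_lit 5) (nat_lit 170) (nat_lit 5) (nat_lit 332) (nat_lit 310) (nat_lit 258)) (XT.lf (nat_lit 0) (nat_lit 1970920829) (nat_lit 532) (nat_lit 2324424410) (nat_lit 76) (nat_lit 8433840300) (nat_lit 162) (nat_lit 5) (nat_lit 169) (nat_lit 5) (nat_lit 163) (nat_lit 5) (nat_lit 333) (nat_lit 310) (nat_lit 257)))) (XT.nd (nat_lit 78) (nat_lit 912) (nat_lit 0) (XT.lf (nat_lit 0) (nat_lit 6128130171) (nat_lit 456) (nat_lit 3150863896) (nat_lit 76) (nat_lit 3807396093) (nat_lit 157) (nat_lit 5) (nat_lit 163) (nat_lit 5) (nat_lit 158) (nat_lit 5) (nat_lit 334) (nat_lit 310) (nat_lit 256)) (XT.nd (nat_lit 78) (nat_lit 456) (nat_lit 0) (XT.lf (nat_lit 0) (nat_lit 9462821482) (nat_lit 456) (nat_lit 1129679394) (nat_lit 532) (nat_lit 2865999564) (nat_lit 151) (nat_lit 5) (nat_lit 157) (nat_lit 5) (nat_lit 158) (nat_lit 5) (nat_lit 335) (nat_lit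 310) (nat_lit 255)) (XT.lf (nat_lit 0) (nat_lit 1537260296) (nat_lit 456) (nat_lit 4906525443) (nat_lit 76) (nat_lit 7401011237) (nat_lit 145) (nat_lit 5) (nat_lit 151) (nat_lit 5) (nat_lit 146) (nat_lit 5) (nat_lit 336) (nat_lit 310) (nat_lit 254))))) (XT.nd (nat_lit 234) (nat_lit 988) (nat_lit 0) (XT.nd (nat_lit 78) (nat_lit 760) (nat_lit 0) (XT.lf (nat_lit 0) (nat_lit 6201314776) (nat_lit 456) (nat_lit 5865120369) (nat_lit 76) (nat_lit 2180146297) (nat_lit 140) (nat_lit 5) (nat_lit 146) (nat_lit 5) (nat_lit 141) (nat_lit 5) (nat_lit 337) (nat_lit 310) (nat_lit 253)) (XT.nd (nat_lit 78) (nat_lit 456) (nat_lit 0) (XT.lf (nat_lit 0) (nat_lit 7783394143) (nat_lit 304) (nat_lit 3452110636) (nat_lit 380) (nat_lit 3428862879) (nat_lit 136) (nat_lit 5) (nat_lit 140) (nat_lit 5) (nat_lit 141) (nat_lit 5) (nat_lit 338) (nat_lit 310) (nat_lit 252)) (XT.lf (nat_lit 0) (nat_lit 1523205805) (nat_lit 456)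 (nat_lit 7964966764) (nat_lit 76) (nat_lit 5610504896) (nat_lit 130) (nat_lit 5) (nat_lit 136) (nat_lit 5) (nat_lit 131) (nat_lit 5) (nat_lit 339) (nat_lit 310) (nat_lit 251)))) (XT.nd (nat_lit 78) (nat_lit 684) (nat_lit 0) (XT.lf (nat_lit 0) (nat_lit 6424869311) (nat_lit 304) (nat_lit 344974554) (nat_lit 380) (nat_lit 8780322081) (nat_lit 126) (nat_lit 5) (nat_lit 130) (nat_lit 5) (nat_lit 131) (nat_lit 5) (nat_lit 340) (nat_lit 310) (nat_lit 250)) (XT.nd (nat_lit 78) (nat_lit 380) (nat_lit 0) (XT.lf (nat_lit 0) (nat_lit 5628961988) (nat_lit 304) (nat_lit 6826393570) (nat_lit 380) (nat_lit 3563594244) (nat_lit 122) (nat_lit 5) (nat_lit 126) (nat_lit 5) (nat_lit 127) (nat_lit 5) (nat_lit 341) (nat_lit 310) (nat_lit 249)) (XT.lf (nat_lit 0) (nat_lit 2000255766) (nat_lit 380) (nat_lit 11729680723) (nat_lit 76) (nat_lit 2776991293) (nat_lit 117) (nat_lit 5) (nat_lit 122) (nat_lit 5) (nat_lit 118)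 (nat_lit 5) (nat_lit 342) (nat_lit 310) (nat_lit 248)))))) (XT.nd (nat_lit 468) (nat_lit 1444) (nat_lit 0) (XT.nd (nat_lit 234) (nat_lit 608) (nat_lit 0) (XT.nd (nat_lit 78) (nat_lit 684) (nat_lit 0) (XT.lf (nat_lit 0) (nat_lit 3803993527) (nat_lit 304) (nat_lit 4132090740) (nat_lit 380) (nat_lit 9077152451) (nat_lit 113) (nat_lit 5) (nat_lit 117) (nat_lit 5) (nat_lit 118) (nat_lit 5) (nat_lit 343) (nat_lit 310) (nat_lit 247)) (XT.nd (nat_lit 78) (nat_lit 380) (nat_lit 0) (XT.lf (nat_lit 0) (nat_lit 2746079601) (nat_lit 304) (nat_lit 11582820202) (nat_lit 380) (nat_lit 3211169856) (nat_lit 109) (nat_lit 5) (nat_lit 113) (nat_lit 5) (nat_lit 114) (nat_lit 5) (nat_lit 344) (nat_lit 310) (nat_lit 246)) (XT.lf (nat_lit 0) (nat_lit 1579112638) (nat_lit 304) (nat_lit 1461464513) (nat_lit 380) (nat_lit 15047330458) (nat_lit 104) (nat_lit 5) (nat_lit 108) (nat_lit 5) (nat_lit 109) (nat_lit 5) (nat_lit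 345) (nat_lit 310) (nat_lit 245)))) (XT.nd (nat_lit 78) (nat_lit 380) (nat_lit 0) (XT.lf (nat_lit 0) (nat_lit 238547883) (nat_lit 228) (nat_lit 9501831273) (nat_lit 304) (nat_lit 8915760804) (nat_lit 101) (nat_lit 5) (nat_lit 104) (nat_lit 5) (nat_lit 105) (nat_lit 5) (nat_lit 346) (nat_lit 310) (nat_lit 244)) (XT.nd (nat_lit 78) (nat_lit 380) (nat_lit 0) (XT.lf (nat_lit 0) (nat_lit 16929474829) (nat_lit 304) (nat_lit 1170219053) (nat_lit 76) (nat_lit 1148473040) (nat_lit 101) (nat_lit 5) (nat_lit 105) (nat_lit 5) (nat_lit 102) (nat_lit 5) (nat_lit 347) (nat_lit 310) (nat_lit 243)) (XT.lf (nat_lit 0) (nat_lit 4741182416) (nat_lit 380) (nat_lit 2793671803) (nat_lit 76) (nat_lit 12326937022) (nat_lit 96) (nat_lit 5) (nat_lit 101) (nat_lit 5) (nat_lit 97) (nat_lit 5) (nat_lit 348) (nat_lit 310) (nat_lit 242))))) (XT.nd (nat_lit 234) (nat_lit 684) (nat_lit 0) (XT.nd (nat_lit 78) (nat_lit 532) (nat_lit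 0) (XT.lf (nat_lit 0) (nat_lit 12269227270) (nat_lit 304) (nat_lit 4573004734) (nat_lit 76) (nat_lit 3658292782) (nat_lit 93) (nat_lit 5) (nat_lit 97) (nat_lit 5) (nat_lit 94) (nat_lit 5) (nat_lit 349) (nat_lit 310) (nat_lit 241)) (XT.nd (nat_lit 78) (nat_lit 304) (nat_lit 0) (XT.lf (nat_lit 0) (nat_lit 14621984372) (nat_lit 228) (nat_lit 5759609565) (nat_lit 304) (nat_lit 783373633) (nat_lit 90) (nat_lit 5) (nat_lit 93) (nat_lit 5) (nat_lit 94) (nat_lit 5) (nat_lit 350) (nat_lit 310) (nat_lit 240)) (XT.lf (nat_lit 0) (nat_lit 7095297688) (nat_lit 304) (nat_lit 8774657030) (nat_lit 76) (nat_lit 5984787832) (nat_lit 86) (nat_lit 5) (nat_lit 90) (nat_lit 5) (nat_lit 87) (nat_lit 5) (nat_lit 351) (nat_lit 310) (nat_lit 239)))) (XT.nd (nat_lit 78) (nat_lit 456) (nat_lit 0) (XT.lf (nat_lit 0) (nat_lit 11340601235) (nat_lit 228) (nat_lit 4210553867) (nat_lit 304) (nat_lit 7021643812) (nat_lit 83)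 (nat_lit 5) (nat_lit 86) (nat_lit 5) (nat_lit 87) (nat_lit 5) (nat_lit 352) (nat_lit 310) (nat_lit 238)) (XT.nd (nat_lit 78) (nat_lit 228) (nat_lit 0) (XT.lf (nat_lit 0) (nat_lit 1307305437) (nat_lit 228) (nat_lit 13964443017) (nat_lit 76) (nat_lit 8047926332) (nat_lit 80) (nat_lit 5) (nat_lit 83) (nat_lit 5) (nat_lit 81) (nat_lit 5) (nat_lit 353) (nat_lit 310) (nat_lit 237)) (XT.lf (nat_lit 0) (nat_lit 7073580524) (nat_lit 228) (nat_lit 3028396614) (nat_lit 304) (nat_lit 13994004746) (nat_lit 77) (nat_lit 5) (nat_lit 80) (nat_lit 5) (nat_lit 81) (nat_lit 5) (nat_lit 354) (nat_lit 310) (nat_lit 236))))))))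
noncomputable def xc68 : XT := (XT.nd (nat_lit 1794) (nat_lit 1064) (nat_lit 0) (XT.nd (nat_lit 858) (nat_lit 1444) (nat_lit 0) (XT.nd (nat_lit 390) (nat_lit 912) (nat_lit 0) (XT.nd (nat_lit 156) (nat_lit 456) (nat_lit 0) (XT.nd (nat_lit 78) (nat_lit 304) (nat_lit 0) (XT.lf (nat_lit 0) (nat_lit 4484713810) (nat_lit 152) (nat_lit 15101188524) (nat_lit 228) (nat_lit 5317723899) (nat_lit 75) (nat_lit 5) (nat_lit 77) (nat_lit 5) (nat_lit 78) (nat_lit 5) (nat_lit 355) (nat_lit 310) (nat_lit 235)) (XT.lf (nat_lit 0) (nat_lit 1584158638) (nat_lit 228) (nat_lit 2324479440) (nat_lit 304) (nat_lit 21836219917) (nat_lit 71) (nat_lit 5) (nat_lit 74) (nat_lit 5) (nat_lit 75) (nat_lit 5) (nat_lit 356) (nat_lit 310) (nat_lit 234))) (XT.nd (nat_lit 78) (nat_lit 456) (nat_lit 0) (XT.lf (nat_lit 0) (nat_lit 13774593477) (nat_lit 304) (nat_lit 1723821634) (nat_lit 76) (nat_lit 11119515691) (nat_lit 71) (nat_lit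 5) (nat_lit 75) (nat_lit 5) (nat_lit 72) (nat_lit 5) (nat_lit 357) (nat_lit 310) (nat_lit 233)) (XT.nd (nat_lit 78) (nat_lit 304) (nat_lit 0) (XT.lf (nat_lit 0) (nat_lit 22193381457) (nat_lit 152) (nat_lit 2147112358) (nat_lit 228) (nat_lit 3187970306) (nat_lit 69) (nat_lit 5) (nat_lit 71) (nat_lit 5) (nat_lit 72) (nat_lit 5) (nat_lit 358) (nat_lit 310) (nat_lit 232)) (XT.lf (nat_lit 0) (nat_lit 7103290561) (nat_lit 304) (nat_lit 9479716233) (nat_lit 76) (nat_lit 11890856398) (nat_lit 65) (nat_lit 5) (nat_lit 69) (nat_lit 5) (nat_lit 66) (nat_lit 5) (nat_lit 359) (nat_lit 310) (nat_lit 231))))) (XT.nd (nat_lit 234) (nat_lit 380) (nat_lit 0) (XT.nd (nat_lit 78) (nat_lit 380) (nat_lit 0) (XT.lf (nat_lit 0) (nat_lit 15382738013) (nat_lit 152) (nat_lit 2657313416) (nat_lit 228) (nat_lit 11419633329) (nat_lit 63) (nat_lit 5) (nat_lit 65) (nat_lit 5) (nat_lit 66) (nat_lit 5) (nat_lit 360) (nat_lit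 310) (nat_lit 230)) (XT.nd (nat_lit 78) (nat_lit 228) (nat_lit 0) (XT.lf (nat_lit 0) (nat_lit 11249369996) (nat_lit 152) (nat_lit 18567944656) (nat_lit 228) (nat_lit 668678091) (nat_lit 61) (nat_lit 5) (nat_lit 63) (nat_lit 5) (nat_lit 64) (nat_lit 5) (nat_lit 361) (nat_lit 310) (nat_lit 229)) (XT.lf (nat_lit 0) (nat_lit 6526041552) (nat_lit 152) (nat_lit 4095021719) (nat_lit 228) (nat_lit 20933241123) (nat_lit 58) (nat_lit 5) (nat_lit 60) (nat_lit 5) (nat_lit 61) (nat_lit 5) (nat_lit 362) (nat_lit 310) (nat_lit 228)))) (XT.nd (nat_lit 78) (nat_lit 228) (nat_lit 0) (XT.lf (nat_lit 0) (nat_lit 1169020403) (nat_lit 152) (nat_lit 21583746811) (nat_lit 228) (nat_lit 9914331293) (nat_lit 56) (nat_lit 5) (nat_lit 58) (nat_lit 5) (nat_lit 59) (nat_lit 5) (nat_lit 363) (nat_lit 310) (nat_lit 227)) (XT.nd (nat_lit 78) (nat_lit 152) (nat_lit 0) (XT.lf (nat_lit 0) (nat_lit 1898558475) (nat_lit 228) (nat_lit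 4734694018) (nat_lit 76) (nat_lit 27193546517) (nat_lit 55) (nat_lit 5) (nat_lit 58) (nat_lit 5) (nat_lit 56) (nat_lit 5) (nat_lit 364) (nat_lit 310) (nat_lit 226)) (XT.lf (nat_lit 0) (nat_lit 14391885835) (nat_lit 228) (nat_lit 11440707836) (nat_lit 76) (nat_lit 9200105003) (nat_lit 53) (nat_lit 5) (nat_lit 56) (nat_lit 5) (nat_lit 54) (nat_lit 5) (nat_lit 365) (nat_lit 310) (nat_lit 225)))))) (XT.nd (nat_lit 468) (nat_lit 608) (nat_lit 0) (XT.nd (nat_lit 234) (nat_lit 304) (nat_lit 0) (XT.nd (nat_lit 78) (nat_lit 380) (nat_lit 0) (XT.lf (nat_lit 0) (nat_lit 17364570291) (nat_lit 152) (nat_lit 10404057910) (nat_lit 228) (nat_lit 8522506556) (nat_lit 51) (nat_lit 5) (nat_lit 53) (nat_lit 5) (nat_lit 54) (nat_lit 5) (nat_lit 366) (nat_lit 310) (nat_lit 224)) (XT.nd (nat_lit 78) (nat_lit 152) (nat_lit 0) (XT.lf (nat_lit 0) (nat_lit 4372502402) (nat_lit 228) (nat_lit 27305336715) (nat_lit 76) (nat_lit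 5925862104) (nat_lit 48) (nat_lit 5) (nat_lit 51) (nat_lit 5) (nat_lit 49) (nat_lit 5) (nat_lit 367) (nat_lit 310) (nat_lit 223)) (XT.lf (nat_lit 0) (nat_lit 2212313625) (nat_lit 152) (nat_lit 15825101149) (nat_lit 228) (nat_lit 20932910880) (nat_lit 46) (nat_lit 5) (nat_lit 48) (nat_lit 5) (nat_lit 49) (nat_lit 5) (nat_lit 368) (nat_lit 310) (nat_lit 222)))) (XT.nd (nat_lit 78) (nat_lit 304) (nat_lit 0) (XT.lf (nat_lit 0) (nat_lit 32654602250) (nat_lit 228) (nat_lit 6672268978) (nat_lit 76) (nat_lit 1070342461) (nat_lit 46) (nat_lit 5) (nat_lit 49) (nat_lit 5) (nat_lit 47) (nat_lit 4) (nat_lit 369) (nat_lit 310) (nat_lit 221)) (XT.nd (nat_lit 78) (nat_lit 152) (nat_lit 0) (XT.lf (nat_lit 0) (nat_lit 6372219912) (nat_lit 152) (nat_lit 16735760033) (nat_lit 76) (nat_lit 18774182303) (nat_lit 44) (nat_lit 5) (nat_lit 46) (nat_lit 5) (nat_lit 45) (nat_lit 5) (nat_lit 370) (nat_lit 310) (nat_lit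 220)) (XT.lf (nat_lit 0) (nat_lit 15440065456) (nat_lit 152) (nat_lit 5790684099) (nat_lit 228) (nat_lit 22202369194) (nat_lit 42) (nat_lit 5) (nat_lit 44) (nat_lit 5) (nat_lit 45) (nat_lit 5) (nat_lit 371) (nat_lit 310) (nat_lit 219))))) (XT.nd (nat_lit 234) (nat_lit 304) (nat_lit 0) (XT.nd (nat_lit 78) (nat_lit 228) (nat_lit 0) (XT.lf (nat_lit 0) (nat_lit 4445993628) (nat_lit 76) (nat_lit 32701358778) (nat_lit 152) (nat_lit 7904819006) (nat_lit 41) (nat_lit 5) (nat_lit 42) (nat_lit 5) (nat_lit 43) (nat_lit 4) (nat_lit 372) (nat_lit 310) (nat_lit 218)) (XT.nd (nat_lit 78) (nat_lit 152) (nat_lit 0) (XT.lf (nat_lit 0) (nat_lit 7298107446) (nat_lit 152) (nat_lit 7818398443) (nat_lit 76) (nat_lit 31623747856) (nat_lit 40) (nat_lit 5) (nat_lit 42) (nat_lit 5) (nat_lit 41) (nat_lit 5) (nat_lit 373) (nat_lit 310) (nat_lit 217)) (XT.lf (nat_lit 0) (nat_lit 23375037821) (nat_lit 228) (nat_lit 21517701048)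 (nat_lit 76) (nat_lit 3609335531) (nat_lit 38) (nat_lit 5) (nat_lit 41) (nat_lit 5) (nat_lit 39) (nat_lit 4) (nat_lit 374) (nat_lit 310) (nat_lit 216)))) (XT.nd (nat_lit 78) (nat_lit 228) (nat_lit 0) (XT.lf (nat_lit 0) (nat_lit 13414655936) (nat_lit 76) (nat_lit 27185096373) (nat_lit 152) (nat_lit 9741917946) (nat_lit 37) (nat_lit 5) (nat_lit 38) (nat_lit 5) (nat_lit 39) (nat_lit 4) (nat_lit 375) (nat_lit 310) (nat_lit 215)) (XT.nd (nat_lit 78) (nat_lit 152) (nat_lit 0) (XT.lf (nat_lit 0) (nat_lit 6492548056) (nat_lit 152) (nat_lit 1821352793) (nat_lit 76) (nat_lit 43951341317) (nat_lit 36) (nat_lit 5) (nat_lit 38) (nat_lit 5) (nat_lit 37) (nat_lit 5) (nat_lit 376) (nat_lit 310) (nat_lit 214)) (XT.lf (nat_lit 0) (nat_lit 23778548381) (nat_lit 228) (nat_lit 18783638329) (nat_lit 76) (nat_lit 11706675681) (nat_lit 34) (nat_lit 5) (nat_lit 37) (nat_lit 5) (nat_lit 35) (nat_lit 4) (nat_lit 377)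 (nat_lit 310) (nat_lit 213))))))) (XT.nd (nat_lit 936) (nat_lit 228) (nat_lit 0) (XT.nd (nat_lit 468) (nat_lit 304) (nat_lit 0) (XT.nd (nat_lit 234) (nat_lit 228) (nat_lit 0) (XT.nd (nat_lit 78) (nat_lit 228) (nat_lit 0) (XT.lf (nat_lit 0) (nat_lit 18569327197) (nat_lit 76) (nat_lit 23623666543) (nat_lit 152) (nat_lit 14171747463) (nat_lit 33) (nat_lit 5) (nat_lit 34) (nat_lit 5) (nat_lit 35) (nat_lit 4) (nat_lit 378) (nat_lit 310) (nat_lit 212)) (XT.nd (nat_lit 78) (nat_lit 152) (nat_lit 0) (XT.lf (nat_lit 0) (nat_lit 3083358501) (nat_lit 152) (nat_lit 438979851) (nat_lit 76) (nat_lit 55036870245) (nat_lit 32) (nat_lit 5) (nat_lit 34) (nat_lit 5) (nat_lit 33) (nat_lit 5) (nat_lit 379) (nat_lit 310) (nat_lit 211)) (XT.lf (nat_lit 0) (nat_lit 21447414134) (nat_lit 228) (nat_lit 21641535992) (nat_lit 76) (nat_lit 17754062864) (nat_lit 30) (nat_lit 5) (nat_lit 33) (nat_lit 5) (nat_lit 31) (nat_lit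 4) (nat_lit 380) (nat_lit 310) (nat_lit 210)))) (XT.nd (nat_lit 78) (nat_lit 152) (nat_lit 0) (XT.lf (nat_lit 0) (nat_lit 17876068245) (nat_lit 76) (nat_lit 23049862101) (nat_lit 152) (nat_lit 22309191137) (nat_lit 29) (nat_lit 5) (nat_lit 30) (nat_lit 5) (nat_lit 31) (nat_lit 4) (nat_lit 381) (nat_lit 310) (nat_lit 209)) (XT.nd (nat_lit 78) (nat_lit 152) (nat_lit 0) (XT.lf (nat_lit 0) (nat_lit 59793220738) (nat_lit 76) (nat_lit 1792711387) (nat_lit 152) (nat_lit 4154678023) (nat_lit 29) (nat_lit 5) (nat_lit 30) (nat_lit 5) (nat_lit 31) (nat_lit 4) (nat_lit 382) (nat_lit 310) (nat_lit 208)) (XT.lf (nat_lit 0) (nat_lit 15149784673) (nat_lit 152) (nat_lit 32593309899) (nat_lit 76) (nat_lit 20607987355) (nat_lit 27) (nat_lit 5) (nat_lit 29) (nat_lit 5) (nat_lit 28) (nat_lit 4) (nat_lit 383) (nat_lit 310) (nat_lit 207))))) (XT.nd (nat_lit 234) (nat_lit 76) (nat_lit 0) (XT.nd (nat_lit 78) (nat_lit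 152) (nat_lit 0) (XT.lf (nat_lit 0) (nat_lit 8663630980) (nat_lit 76) (nat_lit 26819595913) (nat_lit 152) (nat_lit 35603127249) (nat_lit 26) (nat_lit 5) (nat_lit 27) (nat_lit 5) (nat_lit 28) (nat_lit 4) (nat_lit 384) (nat_lit 310) (nat_lit 206)) (XT.nd (nat_lit 78) (nat_lit 152) (nat_lit 0) (XT.lf (nat_lit 0) (nat_lit 52638271002) (nat_lit 76) (nat_lit 4516698256) (nat_lit 152) (nat_lit 16793773159) (nat_lit 26) (nat_lit 5) (nat_lit 27) (nat_lit 5) (nat_lit 28) (nat_lit 4) (nat_lit 385) (nat_lit 310) (nat_lit 205)) (XT.lf (nat_lit 0) (nat_lit 3282739909) (nat_lit 152) (nat_lit 54893716578) (nat_lit 76) (nat_lit 18765411118) (nat_lit 24) (nat_lit 5) (nat_lit 26) (nat_lit 5) (nat_lit 25) (nat_lit 4) (nat_lit 386) (nat_lit 310) (nat_lit 204)))) (XT.nd (nat_lit 78) (nat_lit 76) (nat_lit 0) (XT.lf (nat_lit 0) (nat_lit 24273045881) (nat_lit 152) (nat_lit 12300124406) (nat_lit 76) (nat_lit 43498773005)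 (nat_lit 24) (nat_lit 5) (nat_lit 26) (nat_lit 5) (nat_lit 25) (nat_lit 4) (nat_lit 387) (nat_lit 310) (nat_lit 203)) (XT.nd (nat_lit 78) (nat_lit 0) (nat_lit 0) (XT.lf (nat_lit 0) (nat_lit 33044319604) (nat_lit 76) (nat_lit 13573739254) (nat_lit 152) (nat_lit 36731309236) (nat_lit 23) (nat_lit 5) (nat_lit 24) (nat_lit 5) (nat_lit 25) (nat_lit 4) (nat_lit 388) (nat_lit 310) (nat_lit 202)) (XT.lf (nat_lit 0) (nat_lit 70297671806) (nat_lit 152) (nat_lit 5999979260) (nat_lit 0) (nat_lit 10486493621) (nat_lit 23) (nat_lit 5) (nat_lit 25) (nat_lit 4) (nat_lit 23) (nat_lit 4) (nat_lit 389) (nat_lit 310) (nat_lit 201)))))) (XT.nd (nat_lit 40950) (nat_lit 0) (nat_lit 19228) (XT.nd (nat_lit 40716) (nat_lit 0) (nat_lit 20900) (XT.nd (nat_lit 78) (nat_lit 76) (nat_lit 0) (XT.lf (nat_lit 0) (nat_lit 5203770474) (nat_lit 152) (nat_lit 49261554312) (nat_lit 76) (nat_lit 35908172832) (nat_lit 21) (nat_lit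 5) (nat_lit 23) (nat_lit 5) (nat_lit 22) (nat_lit 4) (nat_lit 390) (nat_lit 310) (nat_lit 200)) (XT.nd (nat_lit 78) (nat_lit 76) (nat_lit 0) (XT.lf (nat_lit 0) (nat_lit 27691736809) (nat_lit 152) (nat_lit 3624344738) (nat_lit 76) (nat_lit 62819715292) (nat_lit 21) (nat_lit 5) (nat_lit 23) (nat_lit 5) (nat_lit 22) (nat_lit 4) (nat_lit 391) (nat_lit 310) (nat_lit 199)) (XT.lf (nat_lit 0) (nat_lit 45155189605) (nat_lit 76) (nat_lit 6572143332) (nat_lit 152) (nat_lit 46346182005) (nat_lit 20) (nat_lit 5) (nat_lit 21) (nat_lit 5) (nat_lit 22) (nat_lit 4) (nat_lit 392) (nat_lit 310) (nat_lit 198)))) (XT.nd (nat_lit 78) (nat_lit 0) (nat_lit 0) (XT.lf (nat_lit 0) (nat_lit 629604083) (nat_lit 988) (nat_lit 1648288479) (nat_lit 988) (nat_lit 1648288479) (nat_lit 295) (nat_lit 3) (nat_lit 308) (nat_lit 3) (nat_lit 308) (nat_lit 5) (nat_lit 311) (nat_lit 311) (nat_lit 278)) (XT.nd (nat_lit 78) (nat_lit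 0) (nat_lit 76) (XT.lf (nat_lit 76) (nat_lit 3037513171) (nat_lit 0) (nat_lit 331738889) (nat_lit 988) (nat_lit 4615791239) (nat_lit 296) (nat_lit 5) (nat_lit 295) (nat_lit 3) (nat_lit 308) (nat_lit 5) (nat_lit 312) (nat_lit 311) (nat_lit 277)) (XT.lf (nat_lit 76) (nat_lit 1550747521) (nat_lit 0) (nat_lit 3991431070) (nat_lit 988) (nat_lit 2583539927) (nat_lit 297) (nat_lit 5) (nat_lit 296) (nat_lit 5) (nat_lit 309) (nat_lit 5) (nat_lit 313) (nat_lit 311) (nat_lit 276))))) (XT.nd (nat_lit 234) (nat_lit 836) (nat_lit 0) (XT.nd (nat_lit 78) (nat_lit 988) (nat_lit 0) (XT.lf (nat_lit 76) (nat_lit 122936121) (nat_lit 0) (nat_lit 7636811840) (nat_lit 988) (nat_lit 515677121) (nat_lit 298) (nat_lit 5) (nat_lit 297) (nat_lit 5) (nat_lit 310) (nat_lit 5) (nat_lit 314) (nat_lit 311) (nat_lit 275)) (XT.nd (nat_lit 78) (nat_lit 0) (nat_lit 76) (XT.lf (nat_lit 0) (nat_lit 1610745404) (nat_lit 988) (nat_lit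 1270477635) (nat_lit 1064) (nat_lit 5551363958) (nat_lit 284) (nat_lit 5) (nat_lit 297) (nat_lit 5) (nat_lit 298) (nat_lit 5) (nat_lit 315) (nat_lit 311) (nat_lit 274)) (XT.lf (nat_lit 0) (nat_lit 3796489680) (nat_lit 988) (nat_lit 2625708263) (nat_lit 1064) (nat_lit 2176414157) (nat_lit 285) (nat_lit 5) (nat_lit 298) (nat_lit 5) (nat_lit 299) (nat_lit 5) (nat_lit 316) (nat_lit 311) (nat_lit 273)))) (XT.nd (nat_lit 78) (nat_lit 912) (nat_lit 0) (XT.lf (nat_lit 76) (nat_lit 4823145256) (nat_lit 0) (nat_lit 1246834009) (nat_lit 1064) (nat_lit 2703670429) (nat_lit 286) (nat_lit 5) (nat_lit 285) (nat_lit 5) (nat_lit 299) (nat_lit 5) (nat_lit 317) (nat_lit 311) (nat_lit 272)) (XT.nd (nat_lit 78) (nat_lit 988) (nat_lit 0) (XT.lf (nat_lit 76) (nat_lit 3698694178) (nat_lit 0) (nat_lit 4756234178) (nat_lit 1064) (nat_lit 502639151) (nat_lit 287) (nat_lit 5) (nat_lit 286) (nat_lit 5) (nat_lit 300) (nat_lit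 5) (nat_lit 318) (nat_lit 311) (nat_lit 271)) (XT.lf (nat_lit 0) (nat_lit 1758069569) (nat_lit 1064) (nat_lit 6550761701) (nat_lit 1140) (nat_lit 841838194) (nat_lit 273) (nat_lit 5) (nat_lit 287) (nat_lit 5) (nat_lit 288) (nat_lit 5) (nat_lit 319) (nat_lit 311) (nat_lit 270))))))))
noncomputable def xc69 : XT := (XT.nd (nat_lit 1872) (nat_lit 5016) (nat_lit 0) (XT.nd (nat_lit 936) (nat_lit 4408) (nat_lit 0) (XT.nd (nat_lit 468) (nat_lit 3420) (nat_lit 0) (XT.nd (nat_lit 234) (nat_lit 3040) (nat_lit 0) (XT.nd (nat_lit 78) (nat_lit 988) (nat_lit 0) (XT.lf (nat_lit 76) (nat_lit 1508923379) (nat_lit 0) (nat_lit 2632097956) (nat_lit 1140) (nat_lit 5211722294) (nat_lit 274) (nat_lit 5) (nat_lit 273) (nat_lit 5) (nat_lit 288) (nat_lit 5) (nat_lit 320) (nat_lit 311) (nat_lit 269)) (XT.nd (nat_lit 78) (nat_lit 0) (nat_lit 0) (XT.lf (nat_lit 0) (nat_lit 444109339) (nat_lit 1064) (nat_lit 6209823412)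 (nat_lit 1140) (nat_lit 2910716293) (nat_lit 260) (nat_lit 5) (nat_lit 274) (nat_lit 5) (nat_lit 275) (nat_lit 5) (nat_lit 321) (nat_lit 311) (nat_lit 268)) (XT.lf (nat_lit 0) (nat_lit 9207994247) (nat_lit 1064) (nat_lit 101723901) (nat_lit 1140) (nat_lit 476964161) (nat_lit 260) (nat_lit 5) (nat_lit 274) (nat_lit 5) (nat_lit 275) (nat_lit 5) (nat_lit 322) (nat_lit 311) (nat_lit 267)))) (XT.nd (nat_lit 78) (nat_lit 1824) (nat_lit 0) (XT.lf (nat_lit 0) (nat_lit 2094620757) (nat_lit 1216) (nat_lit 1619258468) (nat_lit 76) (nat_lit 6303683220) (nat_lit 244) (nat_lit 5) (nat_lit 260) (nat_lit 5) (nat_lit 245) (nat_lit 5) (nat_lit 323) (nat_lit 311) (nat_lit 266)) (XT.nd (nat_lit 78) (nat_lit 608) (nat_lit 0) (XT.lf (nat_lit 0) (nat_lit 4810176397) (nat_lit 1292) (nat_lit 2641733242) (nat_lit 76) (nat_lit 2807221132) (nat_lit 228) (nat_lit 5) (nat_lit 245) (nat_lit 5) (nat_lit 229) (nat_lit 5) (nat_lit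 324) (nat_lit 311) (nat_lit 265)) (XT.lf (nat_lit 0) (nat_lit 6859279143) (nat_lit 608) (nat_lit 842920632) (nat_lit 684) (nat_lit 2809398498) (nat_lit 220) (nat_lit 5) (nat_lit 228) (nat_lit 5) (nat_lit 229) (nat_lit 5) (nat_lit 325) (nat_lit 311) (nat_lit 264))))) (XT.nd (nat_lit 234) (nat_lit 1596) (nat_lit 0) (XT.nd (nat_lit 78) (nat_lit 1140) (nat_lit 0) (XT.lf (nat_lit 0) (nat_lit 31788044) (nat_lit 684) (nat_lit 4674763164) (nat_lit 76) (nat_lit 6068119773) (nat_lit 211) (nat_lit 5) (nat_lit 220) (nat_lit 5) (nat_lit 212) (nat_lit 5) (nat_lit 326) (nat_lit 311) (nat_lit 263)) (XT.nd (nat_lit 78) (nat_lit 532) (nat_lit 0) (XT.lf (nat_lit 0) (nat_lit 3004081233) (nat_lit 684) (nat_lit 5712568810) (nat_lit 76) (nat_lit 2332034816) (nat_lit 203) (nat_lit 5) (nat_lit 212) (nat_lit 5) (nat_lit 204) (nat_lit 5) (nat_lit 327) (nat_lit 311) (nat_lit 262)) (XT.lf (nat_lit 0) (nat_lit 4577579943)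 (nat_lit 532) (nat_lit 1616104535) (nat_lit 608) (nat_lit 5140688859) (nat_lit 196) (nat_lit 5) (nat_lit 203) (nat_lit 5) (nat_lit 204) (nat_lit 5) (nat_lit 328) (nat_lit 311) (nat_lit 261)))) (XT.nd (nat_lit 78) (nat_lit 1064) (nat_lit 0) (XT.lf (nat_lit 0) (nat_lit 3812737828) (nat_lit 532) (nat_lit 5813468905) (nat_lit 608) (nat_lit 2005669457) (nat_lit 189) (nat_lit 5) (nat_lit 196) (nat_lit 5) (nat_lit 197) (nat_lit 5) (nat_lit 329) (nat_lit 311) (nat_lit 260)) (XT.nd (nat_lit 78) (nat_lit 532) (nat_lit 0) (XT.lf (nat_lit 0) (nat_lit 1327094363) (nat_lit 532) (nat_lit 8892282405) (nat_lit 76) (nat_lit 1722554453) (nat_lit 182) (nat_lit 5) (nat_lit 189) (nat_lit 5) (nat_lit 183) (nat_lit 5) (nat_lit 330) (nat_lit 311) (nat_lit 259)) (XT.lf (nat_lit 0) (nat_lit 2251400490) (nat_lit 532) (nat_lit 2631205840) (nat_lit 608) (nat_lit 7381388383) (nat_lit 175) (nat_lit 5) (nat_lit 182) (nat_lit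 5) (nat_lit 183) (nat_lit 5) (nat_lit 331) (nat_lit 311) (nat_lit 258)))))) (XT.nd (nat_lit 468) (nat_lit 2128) (nat_lit 0) (XT.nd (nat_lit 234) (nat_lit 1292) (nat_lit 0) (XT.nd (nat_lit 78) (nat_lit 532) (nat_lit 0) (XT.lf (nat_lit 0) (nat_lit 1441885507) (nat_lit 456) (nat_lit 7269507150) (nat_lit 532) (nat_lit 3887931530) (nat_lit 169) (nat_lit 5) (nat_lit 175) (nat_lit 5) (nat_lit 176) (nat_lit 5) (nat_lit 332) (nat_lit 311) (nat_lit 257)) (XT.nd (nat_lit 78) (nat_lit 76) (nat_lit 0) (XT.lf (nat_lit 0) (nat_lit 636159795) (nat_lit 456) (nat_lit 12178609656) (nat_lit 532) (nat_lit 134182600) (nat_lit 163) (nat_lit 5) (nat_lit 169) (nat_lit 5) (nat_lit 170) (nat_lit 5) (nat_lit 333) (nat_lit 311) (nat_lit 256)) (XT.lf (nat_lit 0) (nat_lit 3863980032) (nat_lit 532) (nat_lit 242594678) (nat_lit 76) (nat_lit 9204482538) (nat_lit 162) (nat_lit 5) (nat_lit 169) (nat_lit 5) (nat_lit 163) (nat_lit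 5) (nat_lit 334) (nat_lit 311) (nat_lit 255)))) (XT.nd (nat_lit 78) (nat_lit 912) (nat_lit 0) (XT.lf (nat_lit 0) (nat_lit 8168017721) (nat_lit 456) (nat_lit 1124656504) (nat_lit 76) (nat_lit 4395314656) (nat_lit 157) (nat_lit 5) (nat_lit 163) (nat_lit 5) (nat_lit 158) (nat_lit 5) (nat_lit 335) (nat_lit 311) (nat_lit 254)) (XT.nd (nat_lit 78) (nat_lit 456) (nat_lit 0) (XT.lf (nat_lit 0) (nat_lit 12057116370) (nat_lit 456) (nat_lit 736333703) (nat_lit 532) (nat_lit 1287153421) (nat_lit 151) (nat_lit 5) (nat_lit 157) (nat_lit 5) (nat_lit 158) (nat_lit 5) (nat_lit 336) (nat_lit 311) (nat_lit 253)) (XT.lf (nat_lit 0) (nat_lit 3246856260) (nat_lit 456) (nat_lit 3013209857) (nat_lit 76) (nat_lit 8227357890) (nat_lit 145) (nat_lit 5) (nat_lit 151) (nat_lit 5) (nat_lit 146) (nat_lit 5) (nat_lit 337) (nat_lit 311) (nat_lit 252))))) (XT.nd (nat_lit 234) (nat_lit 988) (nat_lit 0) (XT.nd (nat_lit 78) (nat_lit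 760) (nat_lit 0) (XT.lf (nat_lit 0) (nat_lit 8091162159) (nat_lit 456) (nat_lit 4038018144) (nat_lit 76) (nat_lit 2781735971) (nat_lit 140) (nat_lit 5) (nat_lit 146) (nat_lit 5) (nat_lit 141) (nat_lit 5) (nat_lit 338) (nat_lit 311) (nat_lit 251)) (XT.nd (nat_lit 78) (nat_lit 456) (nat_lit 0) (XT.lf (nat_lit 0) (nat_lit 10232142451) (nat_lit 304) (nat_lit 3089489444) (nat_lit 380) (nat_lit 2029651408) (nat_lit 136) (nat_lit 5) (nat_lit 140) (nat_lit 5) (nat_lit 141) (nat_lit 5) (nat_lit 339) (nat_lit 311) (nat_lit 250)) (XT.lf (nat_lit 0) (nat_lit 3090795355) (nat_lit 456) (nat_lit 6292484448) (nat_lit 76) (nat_lit 6425059594) (nat_lit 130) (nat_lit 5) (nat_lit 136) (nat_lit 5) (nat_lit 131) (nat_lit 5) (nat_lit 340) (nat_lit 311) (nat_lit 249)))) (XT.nd (nat_lit 78) (nat_lit 684) (nat_lit 0) (XT.lf (nat_lit 0) (nat_lit 8550092379) (nat_lit 380) (nat_lit 7528504669) (nat_lit 76) (nat_lit 205320637)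 (nat_lit 126) (nat_lit 5) (nat_lit 131) (nat_lit 5) (nat_lit 127) (nat_lit 5) (nat_lit 341) (nat_lit 311) (nat_lit 248)) (XT.nd (nat_lit 78) (nat_lit 380) (nat_lit 0) (XT.lf (nat_lit 0) (nat_lit 7901234321) (nat_lit 304) (nat_lit 6572443398) (nat_lit 380) (nat_lit 2303873066) (nat_lit 122) (nat_lit 5) (nat_lit 126) (nat_lit 5) (nat_lit 127) (nat_lit 5) (nat_lit 342) (nat_lit 311) (nat_lit 247)) (XT.lf (nat_lit 0) (nat_lit 3467596903) (nat_lit 380) (nat_lit 10319176296) (nat_lit 76) (nat_lit 3504037408) (nat_lit 117) (nat_lit 5) (nat_lit 122) (nat_lit 5) (nat_lit 118) (nat_lit 5) (nat_lit 343) (nat_lit 311) (nat_lit 246))))))) (XT.nd (nat_lit 936) (nat_lit 1976) (nat_lit 0) (XT.nd (nat_lit 468) (nat_lit 1444) (nat_lit 0) (XT.nd (nat_lit 234) (nat_lit 608) (nat_lit 0) (XT.nd (nat_lit 78) (nat_lit 684) (nat_lit 0) (XT.lf (nat_lit 0) (nat_lit 5933938393) (nat_lit 304) (nat_lit 3719813580) (nat_lit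 380) (nat_lit 8170098092) (nat_lit 113) (nat_lit 5) (nat_lit 117) (nat_lit 5) (nat_lit 118) (nat_lit 5) (nat_lit 344) (nat_lit 311) (nat_lit 245)) (XT.nd (nat_lit 78) (nat_lit 380) (nat_lit 0) (XT.lf (nat_lit 0) (nat_lit 4800648330) (nat_lit 304) (nat_lit 11526757396) (nat_lit 380) (nat_lit 2050803127) (nat_lit 109) (nat_lit 5) (nat_lit 113) (nat_lit 5) (nat_lit 114) (nat_lit 5) (nat_lit 345) (nat_lit 311) (nat_lit 244)) (XT.lf (nat_lit 0) (nat_lit 3545791693) (nat_lit 304) (nat_lit 898435709) (nat_lit 380) (nat_lit 14510154814) (nat_lit 104) (nat_lit 5) (nat_lit 108) (nat_lit 5) (nat_lit 109) (nat_lit 5) (nat_lit 346) (nat_lit 311) (nat_lit 243)))) (XT.nd (nat_lit 78) (nat_lit 380) (nat_lit 0) (XT.lf (nat_lit 0) (nat_lit 2114981942) (nat_lit 228) (nat_lit 9328182756) (nat_lit 304) (nat_lit 8108954851) (nat_lit 101) (nat_lit 5) (nat_lit 104) (nat_lit 5) (nat_lit 105) (nat_lit 5) (nat_lit 347)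 (nat_lit 311) (nat_lit 242)) (XT.nd (nat_lit 78) (nat_lit 76) (nat_lit 0) (XT.lf (nat_lit 0) (nat_lit 587591240) (nat_lit 304) (nat_lit 18357817683) (nat_lit 380) (nat_lit 1229745000) (nat_lit 97) (nat_lit 5) (nat_lit 101) (nat_lit 5) (nat_lit 102) (nat_lit 5) (nat_lit 348) (nat_lit 311) (nat_lit 241)) (XT.lf (nat_lit 0) (nat_lit 6114942261) (nat_lit 380) (nat_lit 1157301308) (nat_lit 76) (nat_lit 13548224113) (nat_lit 96) (nat_lit 5) (nat_lit 101) (nat_lit 5) (nat_lit 97) (nat_lit 5) (nat_lit 349) (nat_lit 311) (nat_lit 240))))) (XT.nd (nat_lit 234) (nat_lit 684) (nat_lit 0) (XT.nd (nat_lit 78) (nat_lit 532) (nat_lit 0) (XT.lf (nat_lit 0) (nat_lit 13987861276) (nat_lit 304) (nat_lit 3049256610) (nat_lit 76) (nat_lit 4454980724) (nat_lit 93) (nat_lit 5) (nat_lit 97) (nat_lit 5) (nat_lit 94) (nat_lit 5) (nat_lit 350) (nat_lit 311) (nat_lit 239)) (XT.nd (nat_lit 78) (nat_lit 228) (nat_lit 0) (XT.lf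 (nat_lit 0) (nat_lit 273276887) (nat_lit 304) (nat_lit 5138295018) (nat_lit 76) (nat_lit 16779213356) (nat_lit 89) (nat_lit 5) (nat_lit 93) (nat_lit 5) (nat_lit 90) (nat_lit 5) (nat_lit 351) (nat_lit 311) (nat_lit 238)) (XT.lf (nat_lit 0) (nat_lit 8500566514) (nat_lit 304) (nat_lit 7513336864) (nat_lit 76) (nat_lit 6901799431) (nat_lit 86) (nat_lit 5) (nat_lit 90) (nat_lit 5) (nat_lit 87) (nat_lit 5) (nat_lit 352) (nat_lit 311) (nat_lit 237)))) (XT.nd (nat_lit 78) (nat_lit 456) (nat_lit 0) (XT.lf (nat_lit 0) (nat_lit 13558952635) (nat_lit 228) (nat_lit 3786113677) (nat_lit 304) (nat_lit 6325632658) (nat_lit 83) (nat_lit 5) (nat_lit 86) (nat_lit 5) (nat_lit 87) (nat_lit 5) (nat_lit 353) (nat_lit 311) (nat_lit 236)) (XT.nd (nat_lit 78) (nat_lit 228) (nat_lit 0) (XT.lf (nat_lit 0) (nat_lit 2372116950) (nat_lit 228) (nat_lit 13014627186) (nat_lit 76) (nat_lit 9068700503) (nat_lit 80) (nat_lit 5)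 (nat_lit 83) (nat_lit 5) (nat_lit 81) (nat_lit 5) (nat_lit 354) (nat_lit 311) (nat_lit 235)) (XT.lf (nat_lit 0) (nat_lit 9028056855) (nat_lit 228) (nat_lit 2546260547) (nat_lit 304) (nat_lit 13697226811) (nat_lit 77) (nat_lit 5) (nat_lit 80) (nat_lit 5) (nat_lit 81) (nat_lit 5) (nat_lit 355) (nat_lit 311) (nat_lit 234)))))) (XT.nd (nat_lit 468) (nat_lit 912) (nat_lit 0) (XT.nd (nat_lit 234) (nat_lit 608) (nat_lit 0) (XT.nd (nat_lit 78) (nat_lit 304) (nat_lit 0) (XT.lf (nat_lit 0) (nat_lit 6286343417) (nat_lit 152) (nat_lit 15220999322) (nat_lit 228) (nat_lit 4612991377) (nat_lit 75) (nat_lit 5) (nat_lit 77) (nat_lit 5) (nat_lit 78) (nat_lit 5) (nat_lit 356) (nat_lit 311) (nat_lit 233)) (XT.nd (nat_lit 78) (nat_lit 0) (nat_lit 0) (XT.lf (nat_lit 0) (nat_lit 3214139317) (nat_lit 228) (nat_lit 1811198070) (nat_lit 304) (nat_lit 21978932171) (nat_lit 71) (nat_lit 5) (nat_lit 74) (nat_lit 5) (nat_lit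 75) (nat_lit 5) (nat_lit 357) (nat_lit 311) (nat_lit 232)) (XT.lf (nat_lit 0) (nat_lit 15346483718) (nat_lit 304) (nat_lit 312343293) (nat_lit 76) (nat_lit 12263321406) (nat_lit 71) (nat_lit 5) (nat_lit 75) (nat_lit 5) (nat_lit 72) (nat_lit 5) (nat_lit 358) (nat_lit 311) (nat_lit 231)))) (XT.nd (nat_lit 78) (nat_lit 456) (nat_lit 0) (XT.lf (nat_lit 0) (nat_lit 24757789560) (nat_lit 152) (nat_lit 1654818089) (nat_lit 228) (nat_lit 2466451661) (nat_lit 69) (nat_lit 5) (nat_lit 71) (nat_lit 5) (nat_lit 72) (nat_lit 5) (nat_lit 359) (nat_lit 311) (nat_lit 230)) (XT.nd (nat_lit 78) (nat_lit 152) (nat_lit 0) (XT.lf (nat_lit 0) (nat_lit 8300503255) (nat_lit 304) (nat_lit 8504253589) (nat_lit 76) (nat_lit 13067375934) (nat_lit 65) (nat_lit 5) (nat_lit 69) (nat_lit 5) (nat_lit 66) (nat_lit 5) (nat_lit 360) (nat_lit 311) (nat_lit 229)) (XT.lf (nat_lit 0) (nat_lit 17559775220) (nat_lit 152) (nat_lit 2197763013)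 (nat_lit 228) (nat_lit 11150511826) (nat_lit 63) (nat_lit 5) (nat_lit 65) (nat_lit 5) (nat_lit 66) (nat_lit 5) (nat_lit 361) (nat_lit 311) (nat_lit 228))))) (XT.nd (nat_lit 234) (nat_lit 380) (nat_lit 0) (XT.nd (nat_lit 78) (nat_lit 304) (nat_lit 0) (XT.lf (nat_lit 0) (nat_lit 115005646) (nat_lit 228) (nat_lit 18789647474) (nat_lit 76) (nat_lit 13081596454) (nat_lit 60) (nat_lit 5) (nat_lit 63) (nat_lit 5) (nat_lit 61) (nat_lit 5) (nat_lit 362) (nat_lit 311) (nat_lit 227)) (XT.nd (nat_lit 78) (nat_lit 152) (nat_lit 0) (XT.lf (nat_lit 0) (nat_lit 8214211220) (nat_lit 152) (nat_lit 3716155279) (nat_lit 228) (nat_lit 21178169638) (nat_lit 58) (nat_lit 5) (nat_lit 60) (nat_lit 5) (nat_lit 61) (nat_lit 5) (nat_lit 363) (nat_lit 311) (nat_lit 226)) (XT.lf (nat_lit 0) (nat_lit 2567662403) (nat_lit 152) (nat_lit 22082159387) (nat_lit 228) (nat_lit 9627719656) (nat_lit 56) (nat_lit 5) (nat_lit 58) (nat_lit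 5) (nat_lit 59) (nat_lit 5) (nat_lit 364) (nat_lit 311) (nat_lit 225)))) (XT.nd (nat_lit 78) (nat_lit 304) (nat_lit 0) (XT.lf (nat_lit 0) (nat_lit 2724021790) (nat_lit 228) (nat_lit 3680397530) (nat_lit 76) (nat_lit 29091683839) (nat_lit 55) (nat_lit 5) (nat_lit 58) (nat_lit 5) (nat_lit 56) (nat_lit 5) (nat_lit 365) (nat_lit 311) (nat_lit 224)) (XT.nd (nat_lit 78) (nat_lit 152) (nat_lit 0) (XT.lf (nat_lit 0) (nat_lit 15824533181) (nat_lit 228) (nat_lit 10742621694) (nat_lit 76) (nat_lit 10195673104) (nat_lit 53) (nat_lit 5) (nat_lit 56) (nat_lit 5) (nat_lit 54) (nat_lit 5) (nat_lit 366) (nat_lit 311) (nat_lit 223)) (XT.lf (nat_lit 0) (nat_lit 19466512561) (nat_lit 152) (nat_lit 10381504408) (nat_lit 228) (nat_lit 8236837198) (nat_lit 51) (nat_lit 5) (nat_lit 53) (nat_lit 5) (nat_lit 54) (nat_lit 5) (nat_lit 367) (nat_lit 311) (nat_lit 222))))))))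
noncomputable def xc70 : XT := (XT.nd (nat_lit 1872) (nat_lit 0) (nat_lit 0) (XT.nd (nat_lit 936) (nat_lit 912) (nat_lit 0) (XT.nd (nat_lit 468) (nat_lit 608) (nat_lit 0) (XT.nd (nat_lit 234) (nat_lit 380) (nat_lit 0) (XT.nd (nat_lit 78) (nat_lit 152) (nat_lit 0) (XT.lf (nat_lit 0) (nat_lit 5272597629) (nat_lit 228) (nat_lit 27443418661) (nat_lit 76) (nat_lit 6747325466) (nat_lit 48) (nat_lit 5) (nat_lit 51) (nat_lit 5) (nat_lit 49) (nat_lit 5) (nat_lit 368) (nat_lit 311) (nat_lit 221)) (XT.nd (nat_lit 78) (nat_lit 0) (nat_lit 0) (XT.lf (nat_lit 0) (nat_lit 3514937188) (nat_lit 152) (nat_lit 16084825783) (nat_lit 228) (nat_lit 21299169001) (nat_lit 46) (nat_lit 5) (nat_lit 48) (nat_lit 5) (nat_lit 49) (nat_lit 5) (nat_lit 369) (nat_lit 311) (nat_lit 220)) (XT.lf (nat_lit 0) (nat_lit 34921224605) (nat_lit 228) (nat_lit 5856541045) (nat_lit 76) (nat_lit 1620200870) (nat_lit 46) (nat_lit 5) (nat_lit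 49) (nat_lit 5) (nat_lit 47) (nat_lit 4) (nat_lit 370) (nat_lit 311) (nat_lit 219)))) (XT.nd (nat_lit 78) (nat_lit 228) (nat_lit 0) (XT.lf (nat_lit 0) (nat_lit 7311437889) (nat_lit 152) (nat_lit 16443716774) (nat_lit 76) (nat_lit 20202413265) (nat_lit 44) (nat_lit 5) (nat_lit 46) (nat_lit 5) (nat_lit 45) (nat_lit 5) (nat_lit 371) (nat_lit 311) (nat_lit 218)) (XT.nd (nat_lit 78) (nat_lit 76) (nat_lit 0) (XT.lf (nat_lit 0) (nat_lit 17308542268) (nat_lit 152) (nat_lit 5585339007) (nat_lit 228) (nat_lit 22692765372) (nat_lit 42) (nat_lit 5) (nat_lit 44) (nat_lit 5) (nat_lit 45) (nat_lit 5) (nat_lit 372) (nat_lit 311) (nat_lit 217)) (XT.lf (nat_lit 0) (nat_lit 5746324336) (nat_lit 76) (nat_lit 33846235836) (nat_lit 152) (nat_lit 7694508214) (nat_lit 41) (nat_lit 5) (nat_lit 42) (nat_lit 5) (nat_lit 43) (nat_lit 4) (nat_lit 373) (nat_lit 311) (nat_lit 216))))) (XT.nd (nat_lit 234) (nat_lit 304) (nat_lit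 0) (XT.nd (nat_lit 78) (nat_lit 228) (nat_lit 0) (XT.lf (nat_lit 0) (nat_lit 8228474958) (nat_lit 152) (nat_lit 7171297708) (nat_lit 76) (nat_lit 33660459266) (nat_lit 40) (nat_lit 5) (nat_lit 42) (nat_lit 5) (nat_lit 41) (nat_lit 5) (nat_lit 374) (nat_lit 311) (nat_lit 215)) (XT.nd (nat_lit 78) (nat_lit 76) (nat_lit 0) (XT.lf (nat_lit 0) (nat_lit 25096439325) (nat_lit 228) (nat_lit 21573228174) (nat_lit 76) (nat_lit 4240863860) (nat_lit 38) (nat_lit 5) (nat_lit 41) (nat_lit 5) (nat_lit 39) (nat_lit 4) (nat_lit 375) (nat_lit 311) (nat_lit 214)) (XT.lf (nat_lit 0) (nat_lit 15076498304) (nat_lit 76) (nat_lit 28089101737) (nat_lit 152) (nat_lit 9677013855) (nat_lit 37) (nat_lit 5) (nat_lit 38) (nat_lit 5) (nat_lit 39) (nat_lit 4) (nat_lit 376) (nat_lit 311) (nat_lit 213)))) (XT.nd (nat_lit 78) (nat_lit 228) (nat_lit 0) (XT.lf (nat_lit 0) (nat_lit 7332631155) (nat_lit 152) (nat_lit 958188735) (nat_lit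 76) (nat_lit 46572161472) (nat_lit 36) (nat_lit 5) (nat_lit 38) (nat_lit 5) (nat_lit 37) (nat_lit 5) (nat_lit 377) (nat_lit 311) (nat_lit 212)) (XT.nd (nat_lit 78) (nat_lit 76) (nat_lit 0) (XT.lf (nat_lit 0) (nat_lit 25471400865) (nat_lit 228) (nat_lit 18784995544) (nat_lit 76) (nat_lit 12710734931) (nat_lit 34) (nat_lit 5) (nat_lit 37) (nat_lit 5) (nat_lit 35) (nat_lit 4) (nat_lit 378) (nat_lit 311) (nat_lit 211)) (XT.lf (nat_lit 0) (nat_lit 20408735702) (nat_lit 76) (nat_lit 24382592891) (nat_lit 152) (nat_lit 14376935382) (nat_lit 33) (nat_lit 5) (nat_lit 34) (nat_lit 5) (nat_lit 35) (nat_lit 4) (nat_lit 379) (nat_lit 311) (nat_lit 210)))))) (XT.nd (nat_lit 468) (nat_lit 380) (nat_lit 0) (XT.nd (nat_lit 234) (nat_lit 228) (nat_lit 0) (XT.nd (nat_lit 78) (nat_lit 76) (nat_lit 0) (XT.lf (nat_lit 0) (nat_lit 424320170) (nat_lit 152) (nat_lit 3287357764) (nat_lit 228) (nat_lit 57761216863) (nat_lit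 30) (nat_lit 5) (nat_lit 32) (nat_lit 5) (nat_lit 33) (nat_lit 5) (nat_lit 380) (nat_lit 311) (nat_lit 209)) (XT.nd (nat_lit 78) (nat_lit 76) (nat_lit 0) (XT.lf (nat_lit 0) (nat_lit 22979467585) (nat_lit 228) (nat_lit 21861864471) (nat_lit 76) (nat_lit 19029993783) (nat_lit 30) (nat_lit 5) (nat_lit 33) (nat_lit 5) (nat_lit 31) (nat_lit 4) (nat_lit 381) (nat_lit 311) (nat_lit 208)) (XT.lf (nat_lit 0) (nat_lit 19606918135) (nat_lit 76) (nat_lit 23811148021) (nat_lit 152) (nat_lit 22965391158) (nat_lit 29) (nat_lit 5) (nat_lit 30) (nat_lit 5) (nat_lit 31) (nat_lit 4) (nat_lit 382) (nat_lit 311) (nat_lit 207)))) (XT.nd (nat_lit 78) (nat_lit 228) (nat_lit 0) (XT.lf (nat_lit 0) (nat_lit 63580068896) (nat_lit 76) (nat_lit 1509768685) (nat_lit 152) (nat_lit 3925021891) (nat_lit 29) (nat_lit 5) (nat_lit 30) (nat_lit 5) (nat_lit 31) (nat_lit 4) (nat_lit 383) (nat_lit 311) (nat_lit 206)) (XT.nd (nat_lit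 78) (nat_lit 76) (nat_lit 0) (XT.lf (nat_lit 0) (nat_lit 16326755733) (nat_lit 152) (nat_lit 33431315261) (nat_lit 76) (nat_lit 21997940891) (nat_lit 27) (nat_lit 5) (nat_lit 29) (nat_lit 5) (nat_lit 28) (nat_lit 4) (nat_lit 384) (nat_lit 311) (nat_lit 205)) (XT.lf (nat_lit 0) (nat_lit 9865779883) (nat_lit 76) (nat_lit 27798506640) (nat_lit 152) (nat_lit 36964140583) (nat_lit 26) (nat_lit 5) (nat_lit 27) (nat_lit 5) (nat_lit 28) (nat_lit 4) (nat_lit 385) (nat_lit 311) (nat_lit 204))))) (XT.nd (nat_lit 234) (nat_lit 228) (nat_lit 0) (XT.nd (nat_lit 78) (nat_lit 152) (nat_lit 0) (XT.lf (nat_lit 0) (nat_lit 56002534414) (nat_lit 76) (nat_lit 4397705484) (nat_lit 152) (nat_lit 17234277980) (nat_lit 26) (nat_lit 5) (nat_lit 27) (nat_lit 5) (nat_lit 28) (nat_lit 4) (nat_lit 386) (nat_lit 311) (nat_lit 203)) (XT.nd (nat_lit 78) (nat_lit 0) (nat_lit 0) (XT.lf (nat_lit 0) (nat_lit 3829805922) (nat_lit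 152) (nat_lit 56911283184) (nat_lit 76) (nat_lit 20036350726) (nat_lit 24) (nat_lit 5) (nat_lit 26) (nat_lit 5) (nat_lit 25) (nat_lit 4) (nat_lit 387) (nat_lit 311) (nat_lit 202)) (XT.lf (nat_lit 0) (nat_lit 25851392477) (nat_lit 152) (nat_lit 12222636129) (nat_lit 76) (nat_lit 45990539324) (nat_lit 24) (nat_lit 5) (nat_lit 26) (nat_lit 5) (nat_lit 25) (nat_lit 4) (nat_lit 388) (nat_lit 311) (nat_lit 201)))) (XT.nd (nat_lit 78) (nat_lit 152) (nat_lit 0) (XT.lf (nat_lit 0) (nat_lit 35369179866) (nat_lit 76) (nat_lit 13933575710) (nat_lit 152) (nat_lit 38203436921) (nat_lit 23) (nat_lit 5) (nat_lit 24) (nat_lit 5) (nat_lit 25) (nat_lit 4) (nat_lit 389) (nat_lit 311) (nat_lit 200)) (XT.nd (nat_lit 78) (nat_lit 152) (nat_lit 0) (XT.lf (nat_lit 0) (nat_lit 74152420883) (nat_lit 152) (nat_lit 5652146512) (nat_lit 0) (nat_lit 11308559811) (nat_lit 23) (nat_lit 5) (nat_lit 25) (nat_lit 4) (nat_lit 23)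 (nat_lit 4) (nat_lit 390) (nat_lit 311) (nat_lit 199)) (XT.lf (nat_lit 0) (nat_lit 5796980766) (nat_lit 152) (nat_lit 51088715912) (nat_lit 76) (nat_lit 37996458583) (nat_lit 21) (nat_lit 5) (nat_lit 23) (nat_lit 5) (nat_lit 22) (nat_lit 4) (nat_lit 391) (nat_lit 311) (nat_lit 198))))))) (XT.nd (nat_lit 41496) (nat_lit 0) (nat_lit 10716) (XT.nd (nat_lit 41028) (nat_lit 0) (nat_lit 18164) (XT.nd (nat_lit 40794) (nat_lit 0) (nat_lit 19912) (XT.nd (nat_lit 40638) (nat_lit 0) (nat_lit 20824) (XT.lf (nat_lit 0) (nat_lit 29393487238) (nat_lit 152) (nat_lit 3199927580) (nat_lit 76) (nat_lit 66239631637) (nat_lit 21) (nat_lit 5) (nat_lit 23) (nat_lit 5) (nat_lit 22) (nat_lit 4) (nat_lit 392) (nat_lit 311) (nat_lit 197)) (XT.nd (nat_lit 78) (nat_lit 0) (nat_lit 0) (XT.lf (nat_lit 0) (nat_lit 2678453207) (nat_lit 988) (nat_lit 691132368) (nat_lit 988) (nat_lit 691132368) (nat_lit 295) (nat_lit 3) (nat_lit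 308) (nat_lit 3) (nat_lit 308) (nat_lit 5) (nat_lit 312) (nat_lit 312) (nat_lit 276)) (XT.lf (nat_lit 76) (nat_lit 5208931738) (nat_lit 0) (nat_lit 2190803472) (nat_lit 988) (nat_lit 866316622) (nat_lit 296) (nat_lit 5) (nat_lit 295) (nat_lit 3) (nat_lit 308) (nat_lit 5) (nat_lit 313) (nat_lit 312) (nat_lit 275)))) (XT.nd (nat_lit 78) (nat_lit 0) (nat_lit 0) (XT.lf (nat_lit 0) (nat_lit 1060265640) (nat_lit 988) (nat_lit 4707692914) (nat_lit 1064) (nat_lit 2651023311) (nat_lit 283) (nat_lit 5) (nat_lit 296) (nat_lit 5) (nat_lit 297) (nat_lit 5) (nat_lit 314) (nat_lit 312) (nat_lit 274)) (XT.nd (nat_lit 78) (nat_lit 0) (nat_lit 76) (XT.lf (nat_lit 76) (nat_lit 2248911693) (nat_lit 0) (nat_lit 776833782) (nat_lit 1064) (nat_lit 5554809278) (nat_lit 284) (nat_lit 5) (nat_lit 283) (nat_lit 5) (nat_lit 297) (nat_lit 5) (nat_lit 315) (nat_lit 312) (nat_lit 273)) (XT.lf (nat_lit 76) (nat_lit 806238622)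 (nat_lit 0) (nat_lit 4272959062) (nat_lit 1064) (nat_lit 3671382631) (nat_lit 285) (nat_lit 5) (nat_lit 284) (nat_lit 5) (nat_lit 298) (nat_lit 5) (nat_lit 316) (nat_lit 312) (nat_lit 272))))) (XT.nd (nat_lit 234) (nat_lit 836) (nat_lit 0) (XT.nd (nat_lit 78) (nat_lit 1064) (nat_lit 0) (XT.lf (nat_lit 0) (nat_lit 7214056575) (nat_lit 988) (nat_lit 583011109) (nat_lit 1064) (nat_lit 1132739337) (nat_lit 285) (nat_lit 5) (nat_lit 298) (nat_lit 5) (nat_lit 299) (nat_lit 5) (nat_lit 317) (nat_lit 312) (nat_lit 271)) (XT.nd (nat_lit 78) (nat_lit 0) (nat_lit 76) (XT.lf (nat_lit 0) (nat_lit 343295748) (nat_lit 1064) (nat_lit 1945086570) (nat_lit 1140) (nat_lit 6829205950) (nat_lit 271) (nat_lit 5) (nat_lit 285) (nat_lit 5) (nat_lit 286) (nat_lit 5) (nat_lit 318) (nat_lit 312) (nat_lit 270)) (XT.lf (nat_lit 0) (nat_lit 2472196195) (nat_lit 1064) (nat_lit 3303326680) (nat_lit 1140) (nat_lit 3538708983)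 (nat_lit 272) (nat_lit 5) (nat_lit 286) (nat_lit 5) (nat_lit 287) (nat_lit 5) (nat_lit 319) (nat_lit 312) (nat_lit 269)))) (XT.nd (nat_lit 78) (nat_lit 988) (nat_lit 0) (XT.lf (nat_lit 0) (nat_lit 4707041433) (nat_lit 1064) (nat_lit 4633792570) (nat_lit 1140) (nat_lit 179940534) (nat_lit 273) (nat_lit 5) (nat_lit 287) (nat_lit 5) (nat_lit 288) (nat_lit 5) (nat_lit 320) (nat_lit 312) (nat_lit 268)) (XT.nd (nat_lit 78) (nat_lit 988) (nat_lit 0) (XT.lf (nat_lit 76) (nat_lit 3764538414) (nat_lit 0) (nat_lit 3329318138) (nat_lit 1140) (nat_lit 2642630402) (nat_lit 274) (nat_lit 5) (nat_lit 273) (nat_lit 5) (nat_lit 288) (nat_lit 5) (nat_lit 321) (nat_lit 312) (nat_lit 267)) (XT.lf (nat_lit 0) (nat_lit 2670759813) (nat_lit 1064) (nat_lit 6946914440) (nat_lit 1140) (nat_lit 344827963) (nat_lit 260) (nat_lit 5) (nat_lit 274) (nat_lit 5) (nat_lit 275) (nat_lit 5) (nat_lit 322) (nat_lit 312) (nat_lit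 266)))))) (XT.nd (nat_lit 468) (nat_lit 3116) (nat_lit 0) (XT.nd (nat_lit 234) (nat_lit 1900) (nat_lit 0) (XT.nd (nat_lit 78) (nat_lit 1216) (nat_lit 0) (XT.lf (nat_lit 0) (nat_lit 1579208086) (nat_lit 1140) (nat_lit 476851077) (nat_lit 1216) (nat_lit 8142349899) (nat_lit 244) (nat_lit 5) (nat_lit 259) (nat_lit 5) (nat_lit 260) (nat_lit 5) (nat_lit 323) (nat_lit 312) (nat_lit 265)) (XT.nd (nat_lit 78) (nat_lit 0) (nat_lit 0) (XT.lf (nat_lit 0) (nat_lit 476110641) (nat_lit 1216) (nat_lit 4155968185) (nat_lit 1292) (nat_lit 5812104863) (nat_lit 228) (nat_lit 5) (nat_lit 244) (nat_lit 5) (nat_lit 245) (nat_lit 5) (nat_lit 324) (nat_lit 312) (nat_lit 264)) (XT.lf (nat_lit 0) (nat_lit 7381253104) (nat_lit 1292) (nat_lit 595509138) (nat_lit 76) (nat_lit 2724193681) (nat_lit 228) (nat_lit 5) (nat_lit 245) (nat_lit 5) (nat_lit 229) (nat_lit 5) (nat_lit 325) (nat_lit 312) (nat_lit 263)))) (XT.nd (nat_lit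 78) (nat_lit 1292) (nat_lit 0) (XT.lf (nat_lit 0) (nat_lit 9318113025) (nat_lit 608) (nat_lit 1009124238) (nat_lit 684) (nat_lit 641586575) (nat_lit 220) (nat_lit 5) (nat_lit 228) (nat_lit 5) (nat_lit 229) (nat_lit 5) (nat_lit 326) (nat_lit 312) (nat_lit 262)) (XT.nd (nat_lit 78) (nat_lit 608) (nat_lit 0) (XT.lf (nat_lit 0) (nat_lit 2208303562) (nat_lit 684) (nat_lit 2741374401) (nat_lit 76) (nat_lit 6297409415) (nat_lit 211) (nat_lit 5) (nat_lit 220) (nat_lit 5) (nat_lit 212) (nat_lit 5) (nat_lit 327) (nat_lit 312) (nat_lit 261)) (XT.lf (nat_lit 0) (nat_lit 5246007054) (nat_lit 684) (nat_lit 3829553298) (nat_lit 76) (nat_lit 2461788651) (nat_lit 203) (nat_lit 5) (nat_lit 212) (nat_lit 5) (nat_lit 204) (nat_lit 5) (nat_lit 328) (nat_lit 312) (nat_lit 260))))) (XT.nd (nat_lit 234) (nat_lit 1520) (nat_lit 0) (XT.nd (nat_lit 78) (nat_lit 1064) (nat_lit 0) (XT.lf (nat_lit 0) (nat_lit 6912939150)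 (nat_lit 532) (nat_lit 1602794290) (nat_lit 608) (nat_lit 3324017673) (nat_lit 196) (nat_lit 5) (nat_lit 203) (nat_lit 5) (nat_lit 204) (nat_lit 5) (nat_lit 329) (nat_lit 312) (nat_lit 259)) (XT.nd (nat_lit 78) (nat_lit 532) (nat_lit 0) (XT.lf (nat_lit 0) (nat_lit 6108176901) (nat_lit 532) (nat_lit 5936972274) (nat_lit 608) (nat_lit 109268099) (nat_lit 189) (nat_lit 5) (nat_lit 196) (nat_lit 5) (nat_lit 197) (nat_lit 5) (nat_lit 330) (nat_lit 312) (nat_lit 258)) (XT.lf (nat_lit 0) (nat_lit 3279881048) (nat_lit 532) (nat_lit 7198231120) (nat_lit 76) (nat_lit 2003468507) (nat_lit 182) (nat_lit 5) (nat_lit 189) (nat_lit 5) (nat_lit 183) (nat_lit 5) (nat_lit 331) (nat_lit 312) (nat_lit 257)))) (XT.nd (nat_lit 78) (nat_lit 988) (nat_lit 0) (XT.lf (nat_lit 0) (nat_lit 4441331505) (nat_lit 532) (nat_lit 2501975878) (nat_lit 608) (nat_lit 5878576467) (nat_lit 175) (nat_lit 5) (nat_lit 182) (nat_lit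 5) (nat_lit 183) (nat_lit 5) (nat_lit 332) (nat_lit 312) (nat_lit 256)) (XT.nd (nat_lit 78) (nat_lit 532) (nat_lit 0) (XT.lf (nat_lit 0) (nat_lit 3583083751) (nat_lit 456) (nat_lit 7316222902) (nat_lit 532) (nat_lit 2276638675) (nat_lit 169) (nat_lit 5) (nat_lit 175) (nat_lit 5) (nat_lit 176) (nat_lit 5) (nat_lit 333) (nat_lit 312) (nat_lit 255)) (XT.lf (nat_lit 0) (nat_lit 1570917728) (nat_lit 532) (nat_lit 10833695672) (nat_lit 76) (nat_lit 1139838723) (nat_lit 162) (nat_lit 5) (nat_lit 169) (nat_lit 5) (nat_lit 163) (nat_lit 5) (nat_lit 334) (nat_lit 312) (nat_lit 254))))))))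
noncomputable def xc71 : XT := (XT.nd (nat_lit 1872) (nat_lit 3116) (nat_lit 0) (XT.nd (nat_lit 936) (nat_lit 2888) (nat_lit 0) (XT.nd (nat_lit 468) (nat_lit 2052) (nat_lit 0) (XT.nd (nat_lit 234) (nat_lit 1064) (nat_lit 0) (XT.nd (nat_lit 78) (nat_lit 532) (nat_lit 0) (XT.lf (nat_lit 0) (nat_lit 1773581560) (nat_lit 380) (nat_lit 3928322560) (nat_lit 456) (nat_lit 8224681995) (nat_lit 157) (nat_lit 5) (nat_lit 162) (nat_lit 5) (nat_lit 163) (nat_lit 5) (nat_lit 335) (nat_lit 312) (nat_lit 253)) (XT.nd (nat_lit 78) (nat_lit 76) (nat_lit 0) (XT.lf (nat_lit 0) (nat_lit 815755146) (nat_lit 456) (nat_lit 9340823403) (nat_lit 532) (nat_lit 4167755222) (nat_lit 151) (nat_lit 5) (nat_lit 157) (nat_lit 5) (nat_lit 158) (nat_lit 5) (nat_lit 336) (nat_lit 312) (nat_lit 252)) (XT.lf (nat_lit 0) (nat_lit 206418081) (nat_lit 532) (nat_lit 156639127) (nat_lit 76) (nat_lit 14375418727) (nat_lit 150) (nat_lit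 5) (nat_lit 157) (nat_lit 5) (nat_lit 151) (nat_lit 5) (nat_lit 337) (nat_lit 312) (nat_lit 251)))) (XT.nd (nat_lit 78) (nat_lit 684) (nat_lit 0) (XT.lf (nat_lit 0) (nat_lit 4890135987) (nat_lit 456) (nat_lit 1224059139) (nat_lit 76) (nat_lit 9052599791) (nat_lit 145) (nat_lit 5) (nat_lit 151) (nat_lit 5) (nat_lit 146) (nat_lit 5) (nat_lit 338) (nat_lit 312) (nat_lit 250)) (XT.nd (nat_lit 78) (nat_lit 304) (nat_lit 0) (XT.lf (nat_lit 0) (nat_lit 9928628788) (nat_lit 456) (nat_lit 2316691620) (nat_lit 76) (nat_lit 3367609490) (nat_lit 140) (nat_lit 5) (nat_lit 146) (nat_lit 5) (nat_lit 141) (nat_lit 5) (nat_lit 339) (nat_lit 312) (nat_lit 249)) (XT.lf (nat_lit 0) (nat_lit 12611848077) (nat_lit 304) (nat_lit 2758497501) (nat_lit 380) (nat_lit 706503943) (nat_lit 136) (nat_lit 5) (nat_lit 140) (nat_lit 5) (nat_lit 141) (nat_lit 5) (nat_lit 340) (nat_lit 312) (nat_lit 248))))) (XT.nd (nat_lit 234)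 (nat_lit 988) (nat_lit 0) (XT.nd (nat_lit 78) (nat_lit 608) (nat_lit 0) (XT.lf (nat_lit 0) (nat_lit 4598105426) (nat_lit 456) (nat_lit 4728894926) (nat_lit 76) (nat_lit 7230693030) (nat_lit 130) (nat_lit 5) (nat_lit 136) (nat_lit 5) (nat_lit 131) (nat_lit 5) (nat_lit 341) (nat_lit 312) (nat_lit 247)) (XT.nd (nat_lit 78) (nat_lit 304) (nat_lit 0) (XT.lf (nat_lit 0) (nat_lit 10288470676) (nat_lit 380) (nat_lit 6045905062) (nat_lit 76) (nat_lit 723954595) (nat_lit 126) (nat_lit 5) (nat_lit 131) (nat_lit 5) (nat_lit 127) (nat_lit 5) (nat_lit 342) (nat_lit 312) (nat_lit 246)) (XT.lf (nat_lit 0) (nat_lit 10102032303) (nat_lit 304) (nat_lit 6361138266) (nat_lit 380) (nat_lit 1114848224) (nat_lit 122) (nat_lit 5) (nat_lit 126) (nat_lit 5) (nat_lit 127) (nat_lit 5) (nat_lit 343) (nat_lit 312) (nat_lit 245)))) (XT.nd (nat_lit 78) (nat_lit 608) (nat_lit 0) (XT.lf (nat_lit 0) (nat_lit 4881183867) (nat_lit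 380) (nat_lit 9023807707) (nat_lit 76) (nat_lit 4212750889) (nat_lit 117) (nat_lit 5) (nat_lit 122) (nat_lit 5) (nat_lit 118) (nat_lit 5) (nat_lit 344) (nat_lit 312) (nat_lit 244)) (XT.nd (nat_lit 78) (nat_lit 304) (nat_lit 0) (XT.lf (nat_lit 0) (nat_lit 7990041380) (nat_lit 304) (nat_lit 3344460316) (nat_lit 380) (nat_lit 7344215712) (nat_lit 113) (nat_lit 5) (nat_lit 117) (nat_lit 5) (nat_lit 118) (nat_lit 5) (nat_lit 345) (nat_lit 312) (nat_lit 243)) (XT.lf (nat_lit 0) (nat_lit 6779696392) (nat_lit 304) (nat_lit 11526946680) (nat_lit 380) (nat_lit 955225168) (nat_lit 109) (nat_lit 5) (nat_lit 113) (nat_lit 5) (nat_lit 114) (nat_lit 5) (nat_lit 346) (nat_lit 312) (nat_lit 242)))))) (XT.nd (nat_lit 468) (nat_lit 1368) (nat_lit 0) (XT.nd (nat_lit 234) (nat_lit 608) (nat_lit 0) (XT.nd (nat_lit 78) (nat_lit 532) (nat_lit 0) (XT.lf (nat_lit 0) (nat_lit 5435302070) (nat_lit 304) (nat_lit 366394202)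 (nat_lit 380) (nat_lit 14066009795) (nat_lit 104) (nat_lit 5) (nat_lit 108) (nat_lit 5) (nat_lit 109) (nat_lit 5) (nat_lit 347) (nat_lit 312) (nat_lit 241)) (XT.nd (nat_lit 78) (nat_lit 304) (nat_lit 0) (XT.lf (nat_lit 0) (nat_lit 3911893547) (nat_lit 228) (nat_lit 9206165516) (nat_lit 304) (nat_lit 7378262918) (nat_lit 101) (nat_lit 5) (nat_lit 104) (nat_lit 5) (nat_lit 105) (nat_lit 5) (nat_lit 348) (nat_lit 312) (nat_lit 240)) (XT.lf (nat_lit 0) (nat_lit 2286608339) (nat_lit 304) (nat_lit 18677732460) (nat_lit 380) (nat_lit 187114824) (nat_lit 97) (nat_lit 5) (nat_lit 101) (nat_lit 5) (nat_lit 102) (nat_lit 5) (nat_lit 349) (nat_lit 312) (nat_lit 239)))) (XT.nd (nat_lit 78) (nat_lit 304) (nat_lit 0) (XT.lf (nat_lit 0) (nat_lit 403643577) (nat_lit 228) (nat_lit 7051946931) (nat_lit 304) (nat_lit 14374570441) (nat_lit 93) (nat_lit 5) (nat_lit 96) (nat_lit 5) (nat_lit 97) (nat_lit 5) (nat_lit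 350) (nat_lit 312) (nat_lit 238)) (XT.nd (nat_lit 78) (nat_lit 304) (nat_lit 0) (XT.lf (nat_lit 0) (nat_lit 15689678505) (nat_lit 304) (nat_lit 1612242469) (nat_lit 76) (nat_lit 5234440239) (nat_lit 93) (nat_lit 5) (nat_lit 97) (nat_lit 5) (nat_lit 94) (nat_lit 5) (nat_lit 351) (nat_lit 312) (nat_lit 237)) (XT.lf (nat_lit 0) (nat_lit 1266322535) (nat_lit 304) (nat_lit 3831553932) (nat_lit 76) (nat_lit 18172817317) (nat_lit 89) (nat_lit 5) (nat_lit 93) (nat_lit 5) (nat_lit 90) (nat_lit 5) (nat_lit 352) (nat_lit 312) (nat_lit 236))))) (XT.nd (nat_lit 234) (nat_lit 684) (nat_lit 0) (XT.nd (nat_lit 78) (nat_lit 456) (nat_lit 0) (XT.lf (nat_lit 0) (nat_lit 9878432882) (nat_lit 304) (nat_lit 6347005506) (nat_lit 76) (nat_lit 7807227006) (nat_lit 86) (nat_lit 5) (nat_lit 90) (nat_lit 5) (nat_lit 87) (nat_lit 5) (nat_lit 353) (nat_lit 312) (nat_lit 235)) (XT.nd (nat_lit 78) (nat_lit 228) (nat_lit 0)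 (XT.lf (nat_lit 0) (nat_lit 15734697400) (nat_lit 228) (nat_lit 3399484773) (nat_lit 304) (nat_lit 5692169761) (nat_lit 83) (nat_lit 5) (nat_lit 86) (nat_lit 5) (nat_lit 87) (nat_lit 5) (nat_lit 354) (nat_lit 312) (nat_lit 234)) (XT.lf (nat_lit 0) (nat_lit 3397250001) (nat_lit 228) (nat_lit 12170539513) (nat_lit 76) (nat_lit 10083022470) (nat_lit 80) (nat_lit 5) (nat_lit 83) (nat_lit 5) (nat_lit 81) (nat_lit 5) (nat_lit 355) (nat_lit 312) (nat_lit 233)))) (XT.nd (nat_lit 78) (nat_lit 456) (nat_lit 0) (XT.lf (nat_lit 0) (nat_lit 10931430041) (nat_lit 228) (nat_lit 2098919698) (nat_lit 304) (nat_lit 13478253075) (nat_lit 77) (nat_lit 5) (nat_lit 80) (nat_lit 5) (nat_lit 81) (nat_lit 5) (nat_lit 356) (nat_lit 312) (nat_lit 232)) (XT.nd (nat_lit 78) (nat_lit 304) (nat_lit 0) (XT.lf (nat_lit 0) (nat_lit 8031403370) (nat_lit 152) (nat_lit 15405860055) (nat_lit 228) (nat_lit 3963261158) (nat_lit 75)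 (nat_lit 5) (nat_lit 77) (nat_lit 5) (nat_lit 78) (nat_lit 5) (nat_lit 357) (nat_lit 312) (nat_lit 231)) (XT.lf (nat_lit 0) (nat_lit 4781442879) (nat_lit 228) (nat_lit 1330778070) (nat_lit 304) (nat_lit 22217018243) (nat_lit 71) (nat_lit 5) (nat_lit 74) (nat_lit 5) (nat_lit 75) (nat_lit 5) (nat_lit 358) (nat_lit 312) (nat_lit 230))))))) (XT.nd (nat_lit 936) (nat_lit 1216) (nat_lit 0) (XT.nd (nat_lit 468) (nat_lit 912) (nat_lit 0) (XT.nd (nat_lit 234) (nat_lit 532) (nat_lit 0) (XT.nd (nat_lit 78) (nat_lit 304) (nat_lit 0) (XT.lf (nat_lit 0) (nat_lit 1050978228) (nat_lit 152) (nat_lit 15873984989) (nat_lit 228) (nat_lit 12368790968) (nat_lit 69) (nat_lit 5) (nat_lit 71) (nat_lit 5) (nat_lit 72) (nat_lit 5) (nat_lit 359) (nat_lit 312) (nat_lit 229)) (XT.nd (nat_lit 78) (nat_lit 304) (nat_lit 0) (XT.lf (nat_lit 0) (nat_lit 27315170221) (nat_lit 152) (nat_lit 1193658870) (nat_lit 228) (nat_lit 1790756412)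 (nat_lit 69) (nat_lit 5) (nat_lit 71) (nat_lit 5) (nat_lit 72) (nat_lit 5) (nat_lit 360) (nat_lit 312) (nat_lit 228)) (XT.lf (nat_lit 0) (nat_lit 9479290926) (nat_lit 304) (nat_lit 7614773791) (nat_lit 76) (nat_lit 14248614768) (nat_lit 65) (nat_lit 5) (nat_lit 69) (nat_lit 5) (nat_lit 66) (nat_lit 5) (nat_lit 361) (nat_lit 312) (nat_lit 227)))) (XT.nd (nat_lit 78) (nat_lit 380) (nat_lit 0) (XT.lf (nat_lit 0) (nat_lit 19714771062) (nat_lit 152) (nat_lit 1770312322) (nat_lit 228) (nat_lit 10946039078) (nat_lit 63) (nat_lit 5) (nat_lit 65) (nat_lit 5) (nat_lit 66) (nat_lit 5) (nat_lit 362) (nat_lit 312) (nat_lit 226)) (XT.nd (nat_lit 78) (nat_lit 152) (nat_lit 0) (XT.lf (nat_lit 0) (nat_lit 849478749) (nat_lit 228) (nat_lit 18457422563) (nat_lit 76) (nat_lit 14256669558) (nat_lit 60) (nat_lit 5) (nat_lit 63) (nat_lit 5) (nat_lit 61) (nat_lit 5) (nat_lit 363) (nat_lit 312) (nat_lit 225)) (XT.lf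 (nat_lit 0) (nat_lit 9860175832) (nat_lit 152) (nat_lit 3372604744) (nat_lit 228) (nat_lit 21509882163) (nat_lit 58) (nat_lit 5) (nat_lit 60) (nat_lit 5) (nat_lit 61) (nat_lit 5) (nat_lit 364) (nat_lit 312) (nat_lit 224))))) (XT.nd (nat_lit 234) (nat_lit 532) (nat_lit 0) (XT.nd (nat_lit 78) (nat_lit 228) (nat_lit 0) (XT.lf (nat_lit 0) (nat_lit 3911638249) (nat_lit 152) (nat_lit 22659487525) (nat_lit 228) (nat_lit 9399510899) (nat_lit 56) (nat_lit 5) (nat_lit 58) (nat_lit 5) (nat_lit 59) (nat_lit 5) (nat_lit 365) (nat_lit 312) (nat_lit 223)) (XT.nd (nat_lit 78) (nat_lit 152) (nat_lit 0) (XT.lf (nat_lit 0) (nat_lit 3522840014) (nat_lit 228) (nat_lit 2693414061) (nat_lit 76) (nat_lit 31034667120) (nat_lit 55) (nat_lit 5) (nat_lit 58) (nat_lit 5) (nat_lit 56) (nat_lit 5) (nat_lit 366) (nat_lit 312) (nat_lit 222)) (XT.lf (nat_lit 0) (nat_lit 17262519979) (nat_lit 228) (nat_lit 10127715106) (nat_lit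 76) (nat_lit 11191228052) (nat_lit 53) (nat_lit 5) (nat_lit 56) (nat_lit 5) (nat_lit 54) (nat_lit 5) (nat_lit 367) (nat_lit 312) (nat_lit 221)))) (XT.nd (nat_lit 78) (nat_lit 380) (nat_lit 0) (XT.lf (nat_lit 0) (nat_lit 21558852933) (nat_lit 152) (nat_lit 10408283576) (nat_lit 228) (nat_lit 8003060295) (nat_lit 51) (nat_lit 5) (nat_lit 53) (nat_lit 5) (nat_lit 54) (nat_lit 5) (nat_lit 368) (nat_lit 312) (nat_lit 220)) (XT.nd (nat_lit 78) (nat_lit 152) (nat_lit 0) (XT.lf (nat_lit 0) (nat_lit 6154340986) (nat_lit 228) (nat_lit 27702496723) (nat_lit 76) (nat_lit 7561036643) (nat_lit 48) (nat_lit 5) (nat_lit 51) (nat_lit 5) (nat_lit 49) (nat_lit 5) (nat_lit 369) (nat_lit 312) (nat_lit 219)) (XT.lf (nat_lit 0) (nat_lit 4771870335) (nat_lit 152) (nat_lit 16406953310) (nat_lit 228) (nat_lit 21746996001) (nat_lit 46) (nat_lit 5) (nat_lit 48) (nat_lit 5) (nat_lit 49) (nat_lit 5) (nat_lit 370) (nat_lit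 312) (nat_lit 218)))))) (XT.nd (nat_lit 468) (nat_lit 608) (nat_lit 0) (XT.nd (nat_lit 234) (nat_lit 304) (nat_lit 0) (XT.nd (nat_lit 78) (nat_lit 304) (nat_lit 0) (XT.lf (nat_lit 0) (nat_lit 37242244785) (nat_lit 228) (nat_lit 5106881584) (nat_lit 76) (nat_lit 2151407091) (nat_lit 46) (nat_lit 5) (nat_lit 49) (nat_lit 5) (nat_lit 47) (nat_lit 4) (nat_lit 371) (nat_lit 312) (nat_lit 217)) (XT.nd (nat_lit 78) (nat_lit 152) (nat_lit 0) (XT.lf (nat_lit 0) (nat_lit 8239918610) (nat_lit 152) (nat_lit 16242019383) (nat_lit 76) (nat_lit 21656544674) (nat_lit 44) (nat_lit 5) (nat_lit 46) (nat_lit 5) (nat_lit 45) (nat_lit 5) (nat_lit 372) (nat_lit 312) (nat_lit 216)) (XT.lf (nat_lit 0) (nat_lit 19168503203) (nat_lit 152) (nat_lit 5415735847) (nat_lit 228) (nat_lit 23265297263) (nat_lit 42) (nat_lit 5) (nat_lit 44) (nat_lit 5) (nat_lit 45) (nat_lit 5) (nat_lit 373) (nat_lit 312) (nat_lit 215)))) (XT.nd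 (nat_lit 78) (nat_lit 228) (nat_lit 0) (XT.lf (nat_lit 0) (nat_lit 7011446472) (nat_lit 76) (nat_lit 35093930049) (nat_lit 152) (nat_lit 7529980343) (nat_lit 41) (nat_lit 5) (nat_lit 42) (nat_lit 5) (nat_lit 43) (nat_lit 4) (nat_lit 374) (nat_lit 312) (nat_lit 214)) (XT.nd (nat_lit 78) (nat_lit 152) (nat_lit 0) (XT.lf (nat_lit 0) (nat_lit 9152789536) (nat_lit 152) (nat_lit 6588347259) (nat_lit 76) (nat_lit 35756655940) (nat_lit 40) (nat_lit 5) (nat_lit 42) (nat_lit 5) (nat_lit 41) (nat_lit 5) (nat_lit 375) (nat_lit 312) (nat_lit 213)) (XT.lf (nat_lit 0) (nat_lit 26852530782) (nat_lit 228) (nat_lit 21726394865) (nat_lit 76) (nat_lit 4862033177) (nat_lit 38) (nat_lit 5) (nat_lit 41) (nat_lit 5) (nat_lit 39) (nat_lit 4) (nat_lit 376) (nat_lit 312) (nat_lit 212))))) (XT.nd (nat_lit 234) (nat_lit 304) (nat_lit 0) (XT.nd (nat_lit 78) (nat_lit 228) (nat_lit 0) (XT.lf (nat_lit 0) (nat_lit 16729288817)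 (nat_lit 76) (nat_lit 29080632148) (nat_lit 152) (nat_lit 9660184285) (nat_lit 37) (nat_lit 5) (nat_lit 38) (nat_lit 5) (nat_lit 39) (nat_lit 4) (nat_lit 377) (nat_lit 312) (nat_lit 211)) (XT.nd (nat_lit 78) (nat_lit 152) (nat_lit 0) (XT.lf (nat_lit 0) (nat_lit 8166796224) (nat_lit 152) (nat_lit 140581894) (nat_lit 76) (nat_lit 49284672575) (nat_lit 36) (nat_lit 5) (nat_lit 38) (nat_lit 5) (nat_lit 37) (nat_lit 5) (nat_lit 378) (nat_lit 312) (nat_lit 210)) (XT.lf (nat_lit 0) (nat_lit 27202045796) (nat_lit 228) (nat_lit 18873610670) (nat_lit 76) (nat_lit 13726068019) (nat_lit 34) (nat_lit 5) (nat_lit 37) (nat_lit 5) (nat_lit 35) (nat_lit 4) (nat_lit 379) (nat_lit 312) (nat_lit 209)))) (XT.nd (nat_lit 78) (nat_lit 228) (nat_lit 0) (XT.lf (nat_lit 0) (nat_lit 22255423866) (nat_lit 76) (nat_lit 25218723008) (nat_lit 152) (nat_lit 14639184007) (nat_lit 33) (nat_lit 5) (nat_lit 34) (nat_lit 5) (nat_lit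 35) (nat_lit 4) (nat_lit 380) (nat_lit 312) (nat_lit 208)) (XT.nd (nat_lit 78) (nat_lit 0) (nat_lit 0) (XT.lf (nat_lit 0) (nat_lit 1256803664) (nat_lit 152) (nat_lit 3074626347) (nat_lit 228) (nat_lit 60202039416) (nat_lit 30) (nat_lit 5) (nat_lit 32) (nat_lit 5) (nat_lit 33) (nat_lit 5) (nat_lit 381) (nat_lit 312) (nat_lit 207)) (XT.lf (nat_lit 0) (nat_lit 24545386763) (nat_lit 228) (nat_lit 22173326565) (nat_lit 76) (nat_lit 20333627510) (nat_lit 30) (nat_lit 5) (nat_lit 33) (nat_lit 5) (nat_lit 31) (nat_lit 4) (nat_lit 382) (nat_lit 312) (nat_lit 206))))))))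
noncomputable def xc72 : XT := (XT.nd (nat_lit 42354) (nat_lit 0) (nat_lit 6384) (XT.nd (nat_lit 41418) (nat_lit 0) (nat_lit 17024) (XT.nd (nat_lit 390) (nat_lit 456) (nat_lit 0) (XT.nd (nat_lit 156) (nat_lit 228) (nat_lit 0) (XT.nd (nat_lit 78) (nat_lit 0) (nat_lit 0) (XT.lf (nat_lit 0) (nat_lit 21346489872) (nat_lit 76) (nat_lit 24646868972) (nat_lit 152) (nat_lit 23697098779) (nat_lit 29) (nat_lit 5) (nat_lit 30) (nat_lit 5) (nat_lit 31) (nat_lit 4) (nat_lit 383) (nat_lit 312) (nat_lit 205)) (XT.lf (nat_lit 0) (nat_lit 67482144560) (nat_lit 76) (nat_lit 1247317643) (nat_lit 152) (nat_lit 3724547331) (nat_lit 29) (nat_lit 5) (nat_lit 30) (nat_lit 5) (nat_lit 31) (nat_lit 4) (nat_lit 384) (nat_lit 312) (nat_lit 204))) (XT.nd (nat_lit 78) (nat_lit 76) (nat_lit 0) (XT.lf (nat_lit 0) (nat_lit 17523575901) (nat_lit 152) (nat_lit 34384821946) (nat_lit 76) (nat_lit 23423964165) (nat_lit 27) (nat_lit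 5) (nat_lit 29) (nat_lit 5) (nat_lit 28) (nat_lit 4) (nat_lit 385) (nat_lit 312) (nat_lit 203)) (XT.nd (nat_lit 78) (nat_lit 0) (nat_lit 0) (XT.lf (nat_lit 0) (nat_lit 11056544936) (nat_lit 76) (nat_lit 28860024653) (nat_lit 152) (nat_lit 38432172529) (nat_lit 26) (nat_lit 5) (nat_lit 27) (nat_lit 5) (nat_lit 28) (nat_lit 4) (nat_lit 386) (nat_lit 312) (nat_lit 202)) (XT.lf (nat_lit 0) (nat_lit 59466924047) (nat_lit 76) (nat_lit 4304821883) (nat_lit 152) (nat_lit 17733920371) (nat_lit 26) (nat_lit 5) (nat_lit 27) (nat_lit 5) (nat_lit 28) (nat_lit 4) (nat_lit 387) (nat_lit 312) (nat_lit 201))))) (XT.nd (nat_lit 234) (nat_lit 228) (nat_lit 0) (XT.nd (nat_lit 78) (nat_lit 76) (nat_lit 0) (XT.lf (nat_lit 0) (nat_lit 4368624124) (nat_lit 152) (nat_lit 59097328775) (nat_lit 76) (nat_lit 21339908899) (nat_lit 24) (nat_lit 5) (nat_lit 26) (nat_lit 5) (nat_lit 25) (nat_lit 4) (nat_lit 388) (nat_lit 312)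 (nat_lit 200)) (XT.nd (nat_lit 78) (nat_lit 76) (nat_lit 0) (XT.lf (nat_lit 0) (nat_lit 27474750583) (nat_lit 152) (nat_lit 12205655013) (nat_lit 76) (nat_lit 48577438325) (nat_lit 24) (nat_lit 5) (nat_lit 26) (nat_lit 5) (nat_lit 25) (nat_lit 4) (nat_lit 389) (nat_lit 312) (nat_lit 199)) (XT.lf (nat_lit 0) (nat_lit 37747747051) (nat_lit 76) (nat_lit 14341047687) (nat_lit 152) (nat_lit 39783052961) (nat_lit 23) (nat_lit 5) (nat_lit 24) (nat_lit 5) (nat_lit 25) (nat_lit 4) (nat_lit 390) (nat_lit 312) (nat_lit 198)))) (XT.nd (nat_lit 78) (nat_lit 228) (nat_lit 0) (XT.lf (nat_lit 0) (nat_lit 78168309942) (nat_lit 152) (nat_lit 5347151379) (nat_lit 0) (nat_lit 12144048128) (nat_lit 23) (nat_lit 5) (nat_lit 25) (nat_lit 4) (nat_lit 23) (nat_lit 4) (nat_lit 391) (nat_lit 312) (nat_lit 197)) (XT.nd (nat_lit 156) (nat_lit 76) (nat_lit 0) (XT.lf (nat_lit 0) (nat_lit 6388890365) (nat_lit 152) (nat_lit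 53066357046) (nat_lit 76) (nat_lit 40161929685) (nat_lit 21) (nat_lit 5) (nat_lit 23) (nat_lit 5) (nat_lit 22) (nat_lit 4) (nat_lit 392) (nat_lit 312) (nat_lit 196)) (XT.lf (nat_lit 0) (nat_lit 50934866113) (nat_lit 76) (nat_lit 6696726579) (nat_lit 152) (nat_lit 50476344099) (nat_lit 20) (nat_lit 5) (nat_lit 21) (nat_lit 5) (nat_lit 22) (nat_lit 4) (nat_lit 394) (nat_lit 312) (nat_lit 194)))))) (XT.nd (nat_lit 468) (nat_lit 2052) (nat_lit 0) (XT.nd (nat_lit 234) (nat_lit 836) (nat_lit 0) (XT.nd (nat_lit 78) (nat_lit 0) (nat_lit 0) (XT.lf (nat_lit 0) (nat_lit 215102406) (nat_lit 0) (nat_lit 215102406) (nat_lit 988) (nat_lit 3777268020) (nat_lit 282) (nat_lit 5) (nat_lit 282) (nat_lit 3) (nat_lit 295) (nat_lit 3) (nat_lit 313) (nat_lit 313) (nat_lit 274)) (XT.nd (nat_lit 78) (nat_lit 0) (nat_lit 76) (XT.lf (nat_lit 0) (nat_lit 2647886359) (nat_lit 988) (nat_lit 1296900357) (nat_lit 1064) (nat_lit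 4626538457) (nat_lit 282) (nat_lit 5) (nat_lit 295) (nat_lit 3) (nat_lit 296) (nat_lit 5) (nat_lit 314) (nat_lit 313) (nat_lit 273)) (XT.lf (nat_lit 0) (nat_lit 4487471835) (nat_lit 988) (nat_lit 2974868637) (nat_lit 1064) (nat_lit 1274366118) (nat_lit 283) (nat_lit 5) (nat_lit 296) (nat_lit 5) (nat_lit 297) (nat_lit 5) (nat_lit 315) (nat_lit 313) (nat_lit 272)))) (XT.nd (nat_lit 78) (nat_lit 912) (nat_lit 0) (XT.lf (nat_lit 76) (nat_lit 4273147888) (nat_lit 0) (nat_lit 2135779222) (nat_lit 1064) (nat_lit 2501795140) (nat_lit 284) (nat_lit 5) (nat_lit 283) (nat_lit 5) (nat_lit 297) (nat_lit 5) (nat_lit 316) (nat_lit 313) (nat_lit 271)) (XT.nd (nat_lit 78) (nat_lit 988) (nat_lit 0) (XT.lf (nat_lit 76) (nat_lit 2811892400) (nat_lit 0) (nat_lit 5606066490) (nat_lit 1064) (nat_lit 675793630) (nat_lit 285) (nat_lit 5) (nat_lit 284) (nat_lit 5) (nat_lit 298) (nat_lit 5) (nat_lit 317) (nat_lit 313)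 (nat_lit 270)) (XT.lf (nat_lit 0) (nat_lit 1205415931) (nat_lit 1064) (nat_lit 7911393691) (nat_lit 1140) (nat_lit 169177128) (nat_lit 271) (nat_lit 5) (nat_lit 285) (nat_lit 5) (nat_lit 286) (nat_lit 5) (nat_lit 318) (nat_lit 313) (nat_lit 269))))) (XT.nd (nat_lit 234) (nat_lit 2052) (nat_lit 0) (XT.nd (nat_lit 78) (nat_lit 0) (nat_lit 76) (XT.lf (nat_lit 0) (nat_lit 3196518071) (nat_lit 1064) (nat_lit 68958322) (nat_lit 1140) (nat_lit 6221313215) (nat_lit 271) (nat_lit 5) (nat_lit 285) (nat_lit 5) (nat_lit 286) (nat_lit 5) (nat_lit 319) (nat_lit 313) (nat_lit 268)) (XT.nd (nat_lit 78) (nat_lit 0) (nat_lit 0) (XT.lf (nat_lit 0) (nat_lit 5307523546) (nat_lit 1064) (nat_lit 1460858494) (nat_lit 1140) (nat_lit 2928689554) (nat_lit 272) (nat_lit 5) (nat_lit 286) (nat_lit 5) (nat_lit 287) (nat_lit 5) (nat_lit 320) (nat_lit 313) (nat_lit 267)) (XT.lf (nat_lit 76) (nat_lit 7083325044) (nat_lit 0)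 (nat_lit 458549686) (nat_lit 1140) (nat_lit 2375506164) (nat_lit 273) (nat_lit 5) (nat_lit 272) (nat_lit 5) (nat_lit 287) (nat_lit 5) (nat_lit 321) (nat_lit 313) (nat_lit 266)))) (XT.nd (nat_lit 78) (nat_lit 2204) (nat_lit 0) (XT.lf (nat_lit 76) (nat_lit 5930242765) (nat_lit 0) (nat_lit 4008813781) (nat_lit 1140) (nat_lit 208160556) (nat_lit 274) (nat_lit 5) (nat_lit 273) (nat_lit 5) (nat_lit 288) (nat_lit 5) (nat_lit 322) (nat_lit 313) (nat_lit 265)) (XT.nd (nat_lit 78) (nat_lit 1140) (nat_lit 0) (XT.lf (nat_lit 0) (nat_lit 2056346931) (nat_lit 1140) (nat_lit 5604086806) (nat_lit 76) (nat_lit 2726682406) (nat_lit 259) (nat_lit 5) (nat_lit 274) (nat_lit 5) (nat_lit 260) (nat_lit 5) (nat_lit 323) (nat_lit 313) (nat_lit 264)) (XT.lf (nat_lit 0) (nat_lit 3648203416) (nat_lit 1140) (nat_lit 826312914) (nat_lit 1216) (nat_lit 6163129209) (nat_lit 244) (nat_lit 5) (nat_lit 259) (nat_lit 5) (nat_lit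 260) (nat_lit 5) (nat_lit 324) (nat_lit 313) (nat_lit 263))))))) (XT.nd (nat_lit 936) (nat_lit 4028) (nat_lit 0) (XT.nd (nat_lit 468) (nat_lit 2964) (nat_lit 0) (XT.nd (nat_lit 234) (nat_lit 1140) (nat_lit 0) (XT.nd (nat_lit 78) (nat_lit 1292) (nat_lit 0) (XT.lf (nat_lit 0) (nat_lit 2504605311) (nat_lit 1216) (nat_lit 4580751715) (nat_lit 1292) (nat_lit 3813229097) (nat_lit 228) (nat_lit 5) (nat_lit 244) (nat_lit 5) (nat_lit 245) (nat_lit 5) (nat_lit 325) (nat_lit 313) (nat_lit 262)) (XT.nd (nat_lit 78) (nat_lit 684) (nat_lit 0) (XT.lf (nat_lit 0) (nat_lit 1377385229) (nat_lit 608) (nat_lit 8500064575) (nat_lit 684) (nat_lit 1293638444) (nat_lit 220) (nat_lit 5) (nat_lit 228) (nat_lit 5) (nat_lit 229) (nat_lit 5) (nat_lit 326) (nat_lit 313) (nat_lit 261)) (XT.lf (nat_lit 0) (nat_lit 238921629) (nat_lit 608) (nat_lit 1155679225) (nat_lit 684) (nat_lit 10060186367) (nat_lit 211) (nat_lit 5) (nat_lit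 219) (nat_lit 5) (nat_lit 220) (nat_lit 5) (nat_lit 327) (nat_lit 313) (nat_lit 260)))) (XT.nd (nat_lit 78) (nat_lit 1140) (nat_lit 0) (XT.lf (nat_lit 0) (nat_lit 4291440840) (nat_lit 684) (nat_lit 912795120) (nat_lit 76) (nat_lit 6545054174) (nat_lit 211) (nat_lit 5) (nat_lit 220) (nat_lit 5) (nat_lit 212) (nat_lit 5) (nat_lit 328) (nat_lit 313) (nat_lit 259)) (XT.nd (nat_lit 78) (nat_lit 532) (nat_lit 0) (XT.lf (nat_lit 0) (nat_lit 7405560702) (nat_lit 684) (nat_lit 2054006970) (nat_lit 76) (nat_lit 2596807420) (nat_lit 203) (nat_lit 5) (nat_lit 212) (nat_lit 5) (nat_lit 204) (nat_lit 5) (nat_lit 329) (nat_lit 313) (nat_lit 258)) (XT.lf (nat_lit 0) (nat_lit 9169225753) (nat_lit 532) (nat_lit 1597568497) (nat_lit 608) (nat_lit 1609306421) (nat_lit 196) (nat_lit 5) (nat_lit 203) (nat_lit 5) (nat_lit 204) (nat_lit 5) (nat_lit 330) (nat_lit 313) (nat_lit 257))))) (XT.nd (nat_lit 234) (nat_lit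 1368) (nat_lit 0) (XT.nd (nat_lit 78) (nat_lit 988) (nat_lit 0) (XT.lf (nat_lit 0) (nat_lit 1663219173) (nat_lit 608) (nat_lit 4402178275) (nat_lit 76) (nat_lit 6642688946) (nat_lit 188) (nat_lit 5) (nat_lit 196) (nat_lit 5) (nat_lit 189) (nat_lit 5) (nat_lit 331) (nat_lit 313) (nat_lit 256)) (XT.nd (nat_lit 78) (nat_lit 532) (nat_lit 0) (XT.lf (nat_lit 0) (nat_lit 5154924503) (nat_lit 532) (nat_lit 5618310108) (nat_lit 76) (nat_lit 2280318877) (nat_lit 182) (nat_lit 5) (nat_lit 189) (nat_lit 5) (nat_lit 183) (nat_lit 5) (nat_lit 332) (nat_lit 313) (nat_lit 255)) (XT.lf (nat_lit 0) (nat_lit 6547625737) (nat_lit 532) (nat_lit 2390530225) (nat_lit 608) (nat_lit 4474653740) (nat_lit 175) (nat_lit 5) (nat_lit 182) (nat_lit 5) (nat_lit 183) (nat_lit 5) (nat_lit 333) (nat_lit 313) (nat_lit 254)))) (XT.nd (nat_lit 78) (nat_lit 912) (nat_lit 0) (XT.lf (nat_lit 0) (nat_lit 5638976232) (nat_lit 456) (nat_lit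 7394723747) (nat_lit 532) (nat_lit 752657065) (nat_lit 169) (nat_lit 5) (nat_lit 175) (nat_lit 5) (nat_lit 176) (nat_lit 5) (nat_lit 334) (nat_lit 313) (nat_lit 253)) (XT.nd (nat_lit 78) (nat_lit 380) (nat_lit 0) (XT.lf (nat_lit 0) (nat_lit 3199631554) (nat_lit 532) (nat_lit 9476621400) (nat_lit 76) (nat_lit 1498266982) (nat_lit 162) (nat_lit 5) (nat_lit 169) (nat_lit 5) (nat_lit 163) (nat_lit 5) (nat_lit 335) (nat_lit 313) (nat_lit 252)) (XT.lf (nat_lit 0) (nat_lit 3706592147) (nat_lit 380) (nat_lit 3774486441) (nat_lit 456) (nat_lit 7096395641) (nat_lit 157) (nat_lit 5) (nat_lit 162) (nat_lit 5) (nat_lit 163) (nat_lit 5) (nat_lit 336) (nat_lit 313) (nat_lit 251)))))) (XT.nd (nat_lit 468) (nat_lit 1976) (nat_lit 0) (XT.nd (nat_lit 234) (nat_lit 760) (nat_lit 0) (XT.nd (nat_lit 78) (nat_lit 836) (nat_lit 0) (XT.lf (nat_lit 0) (nat_lit 2688875320) (nat_lit 456) (nat_lit 9419284800) (nat_lit 532)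 (nat_lit 2888488413) (nat_lit 151) (nat_lit 5) (nat_lit 157) (nat_lit 5) (nat_lit 158) (nat_lit 5) (nat_lit 337) (nat_lit 313) (nat_lit 250)) (XT.nd (nat_lit 78) (nat_lit 380) (nat_lit 0) (XT.lf (nat_lit 0) (nat_lit 1621862244) (nat_lit 456) (nat_lit 13792072850) (nat_lit 76) (nat_lit 18766005) (nat_lit 145) (nat_lit 5) (nat_lit 151) (nat_lit 5) (nat_lit 146) (nat_lit 5) (nat_lit 338) (nat_lit 313) (nat_lit 249)) (XT.lf (nat_lit 0) (nat_lit 483641439) (nat_lit 380) (nat_lit 5998903842) (nat_lit 456) (nat_lit 9401633322) (nat_lit 140) (nat_lit 5) (nat_lit 145) (nat_lit 5) (nat_lit 146) (nat_lit 5) (nat_lit 339) (nat_lit 313) (nat_lit 248)))) (XT.nd (nat_lit 78) (nat_lit 760) (nat_lit 0) (XT.lf (nat_lit 0) (nat_lit 11724750495) (nat_lit 456) (nat_lit 688102226) (nat_lit 76) (nat_lit 3941238691) (nat_lit 140) (nat_lit 5) (nat_lit 146) (nat_lit 5) (nat_lit 141) (nat_lit 5) (nat_lit 340) (nat_lit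 313) (nat_lit 247)) (XT.nd (nat_lit 78) (nat_lit 380) (nat_lit 0) (XT.lf (nat_lit 0) (nat_lit 539612941) (nat_lit 380) (nat_lit 1911028051) (nat_lit 76) (nat_lit 14391798918) (nat_lit 135) (nat_lit 5) (nat_lit 140) (nat_lit 5) (nat_lit 136) (nat_lit 5) (nat_lit 341) (nat_lit 313) (nat_lit 246)) (XT.lf (nat_lit 0) (nat_lit 6055013240) (nat_lit 456) (nat_lit 3261744439) (nat_lit 76) (nat_lit 8031575035) (nat_lit 130) (nat_lit 5) (nat_lit 136) (nat_lit 5) (nat_lit 131) (nat_lit 5) (nat_lit 342) (nat_lit 313) (nat_lit 245))))) (XT.nd (nat_lit 234) (nat_lit 988) (nat_lit 0) (XT.nd (nat_lit 78) (nat_lit 684) (nat_lit 0) (XT.lf (nat_lit 0) (nat_lit 11991895280) (nat_lit 380) (nat_lit 4662009984) (nat_lit 76) (nat_lit 1221257020) (nat_lit 126) (nat_lit 5) (nat_lit 131) (nat_lit 5) (nat_lit 127) (nat_lit 5) (nat_lit 343) (nat_lit 313) (nat_lit 244)) (XT.nd (nat_lit 78) (nat_lit 304) (nat_lit 0) (XT.lf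 (nat_lit 0) (nat_lit 12132524) (nat_lit 380) (nat_lit 6177210162) (nat_lit 76) (nat_lit 12232734904) (nat_lit 121) (nat_lit 5) (nat_lit 126) (nat_lit 5) (nat_lit 122) (nat_lit 5) (nat_lit 344) (nat_lit 313) (nat_lit 243)) (XT.lf (nat_lit 0) (nat_lit 6250147477) (nat_lit 380) (nat_lit 7832070742) (nat_lit 76) (nat_lit 4907299191) (nat_lit 117) (nat_lit 5) (nat_lit 122) (nat_lit 5) (nat_lit 118) (nat_lit 5) (nat_lit 345) (nat_lit 313) (nat_lit 242)))) (XT.nd (nat_lit 78) (nat_lit 684) (nat_lit 0) (XT.lf (nat_lit 0) (nat_lit 9985376617) (nat_lit 304) (nat_lit 3002527829) (nat_lit 380) (nat_lit 6591800843) (nat_lit 113) (nat_lit 5) (nat_lit 117) (nat_lit 5) (nat_lit 118) (nat_lit 5) (nat_lit 346) (nat_lit 313) (nat_lit 241)) (XT.nd (nat_lit 78) (nat_lit 304) (nat_lit 0) (XT.lf (nat_lit 0) (nat_lit 82107913) (nat_lit 380) (nat_lit 11497773220) (nat_lit 76) (nat_lit 8613082624) (nat_lit 108) (nat_lit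 5) (nat_lit 113) (nat_lit 5) (nat_lit 109) (nat_lit 5) (nat_lit 347) (nat_lit 313) (nat_lit 240)) (XT.lf (nat_lit 0) (nat_lit 7122825496) (nat_lit 380) (nat_lit 13571124343) (nat_lit 76) (nat_lit 135904044) (nat_lit 104) (nat_lit 5) (nat_lit 109) (nat_lit 5) (nat_lit 105) (nat_lit 5) (nat_lit 348) (nat_lit 313) (nat_lit 239))))))))
noncomputable def xc73 : XT := (XT.nd (nat_lit 1872) (nat_lit 1900) (nat_lit 0) (XT.nd (nat_lit 936) (nat_lit 1748) (nat_lit 0) (XT.nd (nat_lit 468) (nat_lit 1292) (nat_lit 0) (XT.nd (nat_lit 234) (nat_lit 532) (nat_lit 0) (XT.nd (nat_lit 78) (nat_lit 608) (nat_lit 0) (XT.lf (nat_lit 0) (nat_lit 5641422472) (nat_lit 228) (nat_lit 9132753722) (nat_lit 304) (nat_lit 6716663886) (nat_lit 101) (nat_lit 5) (nat_lit 104) (nat_lit 5) (nat_lit 105) (nat_lit 5) (nat_lit 349) (nat_lit 313) (nat_lit 238)) (XT.nd (nat_lit 78) (nat_lit 228) (nat_lit 0) (XT.lf (nat_lit 0) (nat_lit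 789288107) (nat_lit 380) (nat_lit 18271978757) (nat_lit 76) (nat_lit 3118090850) (nat_lit 96) (nat_lit 5) (nat_lit 101) (nat_lit 5) (nat_lit 97) (nat_lit 5) (nat_lit 350) (nat_lit 313) (nat_lit 237)) (XT.lf (nat_lit 0) (nat_lit 1914069877) (nat_lit 228) (nat_lit 6863791793) (nat_lit 304) (nat_lit 14115065813) (nat_lit 93) (nat_lit 5) (nat_lit 96) (nat_lit 5) (nat_lit 97) (nat_lit 5) (nat_lit 351) (nat_lit 313) (nat_lit 236)))) (XT.nd (nat_lit 78) (nat_lit 532) (nat_lit 0) (XT.lf (nat_lit 0) (nat_lit 17383390697) (nat_lit 304) (nat_lit 251152125) (nat_lit 76) (nat_lit 6001115066) (nat_lit 93) (nat_lit 5) (nat_lit 97) (nat_lit 5) (nat_lit 94) (nat_lit 5) (nat_lit 352) (nat_lit 313) (nat_lit 235)) (XT.nd (nat_lit 78) (nat_lit 228) (nat_lit 0) (XT.lf (nat_lit 0) (nat_lit 2217966829) (nat_lit 304) (nat_lit 2604849691) (nat_lit 76) (nat_lit 19584536000) (nat_lit 89) (nat_lit 5) (nat_lit 93) (nat_lit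 5) (nat_lit 90) (nat_lit 5) (nat_lit 353) (nat_lit 313) (nat_lit 234)) (XT.lf (nat_lit 0) (nat_lit 11236606719) (nat_lit 304) (nat_lit 5265717957) (nat_lit 76) (nat_lit 8705831080) (nat_lit 86) (nat_lit 5) (nat_lit 90) (nat_lit 5) (nat_lit 87) (nat_lit 5) (nat_lit 354) (nat_lit 313) (nat_lit 233))))) (XT.nd (nat_lit 234) (nat_lit 608) (nat_lit 0) (XT.nd (nat_lit 78) (nat_lit 456) (nat_lit 0) (XT.lf (nat_lit 0) (nat_lit 17879978422) (nat_lit 228) (nat_lit 3047069362) (nat_lit 304) (nat_lit 5115331963) (nat_lit 83) (nat_lit 5) (nat_lit 86) (nat_lit 5) (nat_lit 87) (nat_lit 5) (nat_lit 355) (nat_lit 313) (nat_lit 232)) (XT.nd (nat_lit 78) (nat_lit 228) (nat_lit 0) (XT.lf (nat_lit 0) (nat_lit 4389359397) (nat_lit 228) (nat_lit 11423221563) (nat_lit 76) (nat_lit 11095914584) (nat_lit 80) (nat_lit 5) (nat_lit 83) (nat_lit 5) (nat_lit 81) (nat_lit 5) (nat_lit 356) (nat_lit 313) (nat_lit 231)) (XT.lf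 (nat_lit 0) (nat_lit 12794981448) (nat_lit 228) (nat_lit 1682637677) (nat_lit 304) (nat_lit 13332360670) (nat_lit 77) (nat_lit 5) (nat_lit 80) (nat_lit 5) (nat_lit 81) (nat_lit 5) (nat_lit 357) (nat_lit 313) (nat_lit 230)))) (XT.nd (nat_lit 78) (nat_lit 456) (nat_lit 0) (XT.lf (nat_lit 0) (nat_lit 9730699417) (nat_lit 152) (nat_lit 15653532439) (nat_lit 228) (nat_lit 3362893795) (nat_lit 75) (nat_lit 5) (nat_lit 77) (nat_lit 5) (nat_lit 78) (nat_lit 5) (nat_lit 358) (nat_lit 313) (nat_lit 229)) (XT.nd (nat_lit 78) (nat_lit 152) (nat_lit 0) (XT.lf (nat_lit 0) (nat_lit 6296339600) (nat_lit 228) (nat_lit 879421370) (nat_lit 304) (nat_lit 22547043272) (nat_lit 71) (nat_lit 5) (nat_lit 74) (nat_lit 5) (nat_lit 75) (nat_lit 5) (nat_lit 359) (nat_lit 313) (nat_lit 228)) (XT.lf (nat_lit 0) (nat_lit 2360185409) (nat_lit 152) (nat_lit 16149684120) (nat_lit 228) (nat_lit 12226261153) (nat_lit 69) (nat_lit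 5) (nat_lit 71) (nat_lit 5) (nat_lit 72) (nat_lit 5) (nat_lit 360) (nat_lit 313) (nat_lit 227)))))) (XT.nd (nat_lit 468) (nat_lit 760) (nat_lit 0) (XT.nd (nat_lit 234) (nat_lit 532) (nat_lit 0) (XT.nd (nat_lit 78) (nat_lit 456) (nat_lit 0) (XT.lf (nat_lit 0) (nat_lit 29877746132) (nat_lit 152) (nat_lit 760008367) (nat_lit 228) (nat_lit 1155561505) (nat_lit 69) (nat_lit 5) (nat_lit 71) (nat_lit 5) (nat_lit 72) (nat_lit 5) (nat_lit 361) (nat_lit 313) (nat_lit 226)) (XT.nd (nat_lit 78) (nat_lit 152) (nat_lit 0) (XT.lf (nat_lit 0) (nat_lit 10646010583) (nat_lit 304) (nat_lit 6803047649) (nat_lit 76) (nat_lit 15439839191) (nat_lit 65) (nat_lit 5) (nat_lit 69) (nat_lit 5) (nat_lit 66) (nat_lit 5) (nat_lit 362) (nat_lit 313) (nat_lit 225)) (XT.lf (nat_lit 0) (nat_lit 21858792682) (nat_lit 152) (nat_lit 1371445768) (nat_lit 228) (nat_lit 10802186076) (nat_lit 63) (nat_lit 5) (nat_lit 65) (nat_lit 5)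 (nat_lit 66) (nat_lit 5) (nat_lit 363) (nat_lit 313) (nat_lit 224)))) (XT.nd (nat_lit 78) (nat_lit 304) (nat_lit 0) (XT.lf (nat_lit 0) (nat_lit 1552925766) (nat_lit 228) (nat_lit 18226817696) (nat_lit 76) (nat_lit 15442059300) (nat_lit 60) (nat_lit 5) (nat_lit 63) (nat_lit 5) (nat_lit 61) (nat_lit 5) (nat_lit 364) (nat_lit 313) (nat_lit 223)) (XT.nd (nat_lit 78) (nat_lit 152) (nat_lit 0) (XT.lf (nat_lit 0) (nat_lit 11473596461) (nat_lit 152) (nat_lit 3061091399) (nat_lit 228) (nat_lit 21925788103) (nat_lit 58) (nat_lit 5) (nat_lit 60) (nat_lit 5) (nat_lit 61) (nat_lit 5) (nat_lit 365) (nat_lit 313) (nat_lit 222)) (XT.lf (nat_lit 0) (nat_lit 5209798597) (nat_lit 152) (nat_lit 23314657066) (nat_lit 228) (nat_lit 9225863097) (nat_lit 56) (nat_lit 5) (nat_lit 58) (nat_lit 5) (nat_lit 59) (nat_lit 5) (nat_lit 366) (nat_lit 313) (nat_lit 221))))) (XT.nd (nat_lit 234) (nat_lit 380) (nat_lit 0) (XT.nd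 (nat_lit 78) (nat_lit 304) (nat_lit 0) (XT.lf (nat_lit 0) (nat_lit 4299995288) (nat_lit 228) (nat_lit 1765950210) (nat_lit 76) (nat_lit 33029392847) (nat_lit 55) (nat_lit 5) (nat_lit 58) (nat_lit 5) (nat_lit 56) (nat_lit 5) (nat_lit 367) (nat_lit 313) (nat_lit 220)) (XT.nd (nat_lit 78) (nat_lit 152) (nat_lit 0) (XT.lf (nat_lit 0) (nat_lit 18712276490) (nat_lit 228) (nat_lit 9589168732) (nat_lit 76) (nat_lit 12191398337) (nat_lit 53) (nat_lit 5) (nat_lit 56) (nat_lit 5) (nat_lit 54) (nat_lit 5) (nat_lit 368) (nat_lit 313) (nat_lit 219)) (XT.lf (nat_lit 0) (nat_lit 23651774939) (nat_lit 152) (nat_lit 10482170723) (nat_lit 228) (nat_lit 7817618060) (nat_lit 51) (nat_lit 5) (nat_lit 53) (nat_lit 5) (nat_lit 54) (nat_lit 5) (nat_lit 369) (nat_lit 313) (nat_lit 218)))) (XT.nd (nat_lit 78) (nat_lit 152) (nat_lit 0) (XT.lf (nat_lit 0) (nat_lit 7022705179) (nat_lit 228) (nat_lit 28078013513) (nat_lit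 76) (nat_lit 8371147345) (nat_lit 48) (nat_lit 5) (nat_lit 51) (nat_lit 5) (nat_lit 49) (nat_lit 5) (nat_lit 370) (nat_lit 313) (nat_lit 217)) (XT.nd (nat_lit 78) (nat_lit 0) (nat_lit 0) (XT.lf (nat_lit 0) (nat_lit 5991131686) (nat_lit 152) (nat_lit 16790009581) (nat_lit 228) (nat_lit 22274589384) (nat_lit 46) (nat_lit 5) (nat_lit 48) (nat_lit 5) (nat_lit 49) (nat_lit 5) (nat_lit 371) (nat_lit 313) (nat_lit 216)) (XT.lf (nat_lit 0) (nat_lit 39625861741) (nat_lit 228) (nat_lit 4416659663) (nat_lit 76) (nat_lit 2667318650) (nat_lit 46) (nat_lit 5) (nat_lit 49) (nat_lit 5) (nat_lit 47) (nat_lit 4) (nat_lit 372) (nat_lit 313) (nat_lit 215))))))) (XT.nd (nat_lit 936) (nat_lit 608) (nat_lit 0) (XT.nd (nat_lit 468) (nat_lit 608) (nat_lit 0) (XT.nd (nat_lit 234) (nat_lit 304) (nat_lit 0) (XT.nd (nat_lit 78) (nat_lit 228) (nat_lit 0) (XT.lf (nat_lit 0) (nat_lit 9162489439) (nat_lit 152) (nat_lit 16125428081)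 (nat_lit 76) (nat_lit 23142102743) (nat_lit 44) (nat_lit 5) (nat_lit 46) (nat_lit 5) (nat_lit 45) (nat_lit 5) (nat_lit 373) (nat_lit 313) (nat_lit 214)) (XT.nd (nat_lit 78) (nat_lit 76) (nat_lit 0) (XT.lf (nat_lit 0) (nat_lit 21028999858) (nat_lit 152) (nat_lit 5279384217) (nat_lit 228) (nat_lit 23918715072) (nat_lit 42) (nat_lit 5) (nat_lit 44) (nat_lit 5) (nat_lit 45) (nat_lit 5) (nat_lit 374) (nat_lit 313) (nat_lit 213)) (XT.lf (nat_lit 0) (nat_lit 8248917589) (nat_lit 76) (nat_lit 36445345301) (nat_lit 152) (nat_lit 7408290443) (nat_lit 41) (nat_lit 5) (nat_lit 42) (nat_lit 5) (nat_lit 43) (nat_lit 4) (nat_lit 375) (nat_lit 313) (nat_lit 212)))) (XT.nd (nat_lit 78) (nat_lit 228) (nat_lit 0) (XT.lf (nat_lit 0) (nat_lit 10075636115) (nat_lit 152) (nat_lit 6063782459) (nat_lit 76) (nat_lit 37919249473) (nat_lit 40) (nat_lit 5) (nat_lit 42) (nat_lit 5) (nat_lit 41) (nat_lit 5) (nat_lit 376)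 (nat_lit 313) (nat_lit 211)) (XT.nd (nat_lit 78) (nat_lit 76) (nat_lit 0) (XT.lf (nat_lit 0) (nat_lit 28649823525) (nat_lit 228) (nat_lit 21973263617) (nat_lit 76) (nat_lit 5476224292) (nat_lit 38) (nat_lit 5) (nat_lit 41) (nat_lit 5) (nat_lit 39) (nat_lit 4) (nat_lit 377) (nat_lit 313) (nat_lit 210)) (XT.lf (nat_lit 0) (nat_lit 18381141554) (nat_lit 76) (nat_lit 30160128903) (nat_lit 152) (nat_lit 9689061743) (nat_lit 37) (nat_lit 5) (nat_lit 38) (nat_lit 5) (nat_lit 39) (nat_lit 4) (nat_lit 378) (nat_lit 313) (nat_lit 209))))) (XT.nd (nat_lit 234) (nat_lit 304) (nat_lit 0) (XT.nd (nat_lit 78) (nat_lit 76) (nat_lit 0) (XT.lf (nat_lit 0) (nat_lit 650124051) (nat_lit 152) (nat_lit 8355328050) (nat_lit 228) (nat_lit 51453242907) (nat_lit 34) (nat_lit 5) (nat_lit 36) (nat_lit 5) (nat_lit 37) (nat_lit 5) (nat_lit 379) (nat_lit 313) (nat_lit 208)) (XT.nd (nat_lit 78) (nat_lit 76) (nat_lit 0) (XT.lf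 (nat_lit 0) (nat_lit 28976728484) (nat_lit 228) (nat_lit 19045740500) (nat_lit 76) (nat_lit 14756857897) (nat_lit 34) (nat_lit 5) (nat_lit 37) (nat_lit 5) (nat_lit 35) (nat_lit 4) (nat_lit 380) (nat_lit 313) (nat_lit 207)) (XT.lf (nat_lit 0) (nat_lit 24117629417) (nat_lit 76) (nat_lit 26132267297) (nat_lit 152) (nat_lit 14956995231) (nat_lit 33) (nat_lit 5) (nat_lit 34) (nat_lit 5) (nat_lit 35) (nat_lit 4) (nat_lit 381) (nat_lit 313) (nat_lit 206)))) (XT.nd (nat_lit 78) (nat_lit 76) (nat_lit 0) (XT.lf (nat_lit 0) (nat_lit 2055487371) (nat_lit 152) (nat_lit 2886317478) (nat_lit 228) (nat_lit 62806483074) (nat_lit 30) (nat_lit 5) (nat_lit 32) (nat_lit 5) (nat_lit 33) (nat_lit 5) (nat_lit 382) (nat_lit 313) (nat_lit 205)) (XT.nd (nat_lit 78) (nat_lit 76) (nat_lit 0) (XT.lf (nat_lit 0) (nat_lit 26150838233) (nat_lit 228) (nat_lit 22573030418) (nat_lit 76) (nat_lit 21669704838) (nat_lit 30) (nat_lit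 5) (nat_lit 33) (nat_lit 5) (nat_lit 31) (nat_lit 4) (nat_lit 383) (nat_lit 313) (nat_lit 204)) (XT.lf (nat_lit 0) (nat_lit 23102454575) (nat_lit 76) (nat_lit 25557365301) (nat_lit 152) (nat_lit 24504119762) (nat_lit 29) (nat_lit 5) (nat_lit 30) (nat_lit 5) (nat_lit 31) (nat_lit 4) (nat_lit 384) (nat_lit 313) (nat_lit 203)))))) (XT.nd (nat_lit 468) (nat_lit 228) (nat_lit 0) (XT.nd (nat_lit 234) (nat_lit 152) (nat_lit 0) (XT.nd (nat_lit 78) (nat_lit 228) (nat_lit 0) (XT.lf (nat_lit 0) (nat_lit 71512099606) (nat_lit 76) (nat_lit 1003162459) (nat_lit 152) (nat_lit 3550932834) (nat_lit 29) (nat_lit 5) (nat_lit 30) (nat_lit 5) (nat_lit 31) (nat_lit 4) (nat_lit 385) (nat_lit 313) (nat_lit 202)) (XT.nd (nat_lit 78) (nat_lit 76) (nat_lit 0) (XT.lf (nat_lit 0) (nat_lit 18744863433) (nat_lit 152) (nat_lit 35452762293) (nat_lit 76) (nat_lit 24890968477) (nat_lit 27) (nat_lit 5) (nat_lit 29) (nat_lit 5)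 (nat_lit 28) (nat_lit 4) (nat_lit 386) (nat_lit 313) (nat_lit 201)) (XT.lf (nat_lit 0) (nat_lit 12242003529) (nat_lit 76) (nat_lit 30005150767) (nat_lit 152) (nat_lit 40008951148) (nat_lit 26) (nat_lit 5) (nat_lit 27) (nat_lit 5) (nat_lit 28) (nat_lit 4) (nat_lit 387) (nat_lit 313) (nat_lit 200)))) (XT.nd (nat_lit 78) (nat_lit 152) (nat_lit 0) (XT.lf (nat_lit 0) (nat_lit 63042776293) (nat_lit 76) (nat_lit 4236372387) (nat_lit 152) (nat_lit 18292206859) (nat_lit 26) (nat_lit 5) (nat_lit 27) (nat_lit 5) (nat_lit 28) (nat_lit 4) (nat_lit 388) (nat_lit 313) (nat_lit 199)) (XT.nd (nat_lit 78) (nat_lit 0) (nat_lit 0) (XT.lf (nat_lit 0) (nat_lit 4902091981) (nat_lit 152) (nat_lit 61453992430) (nat_lit 76) (nat_lit 22680591996) (nat_lit 24) (nat_lit 5) (nat_lit 26) (nat_lit 5) (nat_lit 25) (nat_lit 4) (nat_lit 389) (nat_lit 313) (nat_lit 198)) (XT.lf (nat_lit 0) (nat_lit 29148523017) (nat_lit 152) (nat_lit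 12246220827) (nat_lit 76) (nat_lit 51266965149) (nat_lit 24) (nat_lit 5) (nat_lit 26) (nat_lit 5) (nat_lit 25) (nat_lit 4) (nat_lit 390) (nat_lit 313) (nat_lit 197))))) (XT.nd (nat_lit 40872) (nat_lit 0) (nat_lit 19836) (XT.nd (nat_lit 78) (nat_lit 152) (nat_lit 0) (XT.lf (nat_lit 0) (nat_lit 40188520519) (nat_lit 76) (nat_lit 14795780971) (nat_lit 152) (nat_lit 41472381749) (nat_lit 23) (nat_lit 5) (nat_lit 24) (nat_lit 5) (nat_lit 25) (nat_lit 4) (nat_lit 391) (nat_lit 313) (nat_lit 196)) (XT.nd (nat_lit 156) (nat_lit 152) (nat_lit 0) (XT.lf (nat_lit 0) (nat_lit 82356333617) (nat_lit 152) (nat_lit 5081536196) (nat_lit 0) (nat_lit 12996203210) (nat_lit 23) (nat_lit 5) (nat_lit 25) (nat_lit 4) (nat_lit 23) (nat_lit 4) (nat_lit 392) (nat_lit 313) (nat_lit 195)) (XT.lf (nat_lit 0) (nat_lit 32969311510) (nat_lit 152) (nat_lit 2452868579) (nat_lit 76) (nat_lit 73524318932) (nat_lit 21) (nat_lit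 5) (nat_lit 23) (nat_lit 5) (nat_lit 22) (nat_lit 4) (nat_lit 394) (nat_lit 313) (nat_lit 193)))) (XT.nd (nat_lit 78) (nat_lit 0) (nat_lit 0) (XT.lf (nat_lit 0) (nat_lit 1072729904) (nat_lit 0) (nat_lit 1072729904) (nat_lit 988) (nat_lit 2220575034) (nat_lit 282) (nat_lit 5) (nat_lit 282) (nat_lit 3) (nat_lit 295) (nat_lit 3) (nat_lit 314) (nat_lit 314) (nat_lit 272)) (XT.nd (nat_lit 78) (nat_lit 0) (nat_lit 0) (XT.lf (nat_lit 76) (nat_lit 372814658) (nat_lit 0) (nat_lit 5621724214) (nat_lit 1064) (nat_lit 2907021403) (nat_lit 283) (nat_lit 5) (nat_lit 282) (nat_lit 5) (nat_lit 296) (nat_lit 5) (nat_lit 315) (nat_lit 314) (nat_lit 271)) (XT.lf (nat_lit 76) (nat_lit 7741214678) (nat_lit 0) (nat_lit 31425265) (nat_lit 1064) (nat_lit 1307265370) (nat_lit 283) (nat_lit 5) (nat_lit 282) (nat_lit 5) (nat_lit 296) (nat_lit 5) (nat_lit 316) (nat_lit 314) (nat_lit 270))))))))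
noncomputable def xc74 : XT := (XT.nd (nat_lit 1872) (nat_lit 5852) (nat_lit 0) (XT.nd (nat_lit 936) (nat_lit 5396) (nat_lit 0) (XT.nd (nat_lit 468) (nat_lit 4408) (nat_lit 0) (XT.nd (nat_lit 234) (nat_lit 0) (nat_lit 152) (XT.nd (nat_lit 78) (nat_lit 0) (nat_lit 76) (XT.lf (nat_lit 0) (nat_lit 386515300) (nat_lit 1064) (nat_lit 3049522853) (nat_lit 1140) (nat_lit 5830437374) (nat_lit 269) (nat_lit 5) (nat_lit 283) (nat_lit 5) (nat_lit 284) (nat_lit 5) (nat_lit 317) (nat_lit 314) (nat_lit 269)) (XT.nd (nat_lit 78) (nat_lit 0) (nat_lit 0) (XT.lf (nat_lit 0) (nat_lit 2131584127) (nat_lit 1064) (nat_lit 4748643610) (nat_lit 1140) (nat_lit 2582001062) (nat_lit 270) (nat_lit 5) (nat_lit 284) (nat_lit 5) (nat_lit 285) (nat_lit 5) (nat_lit 318) (nat_lit 314) (nat_lit 268)) (XT.lf (nat_lit 76) (nat_lit 3232847820) (nat_lit 0) (nat_lit 740968729) (nat_lit 1140) (nat_lit 5693705313) (nat_lit 271) (nat_lit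 5) (nat_lit 270) (nat_lit 5) (nat_lit 285) (nat_lit 5) (nat_lit 319) (nat_lit 314) (nat_lit 267)))) (XT.nd (nat_lit 78) (nat_lit 0) (nat_lit 76) (XT.lf (nat_lit 76) (nat_lit 1751691746) (nat_lit 0) (nat_lit 4193878349) (nat_lit 1140) (nat_lit 3936434276) (nat_lit 272) (nat_lit 5) (nat_lit 271) (nat_lit 5) (nat_lit 286) (nat_lit 5) (nat_lit 320) (nat_lit 314) (nat_lit 266)) (XT.nd (nat_lit 78) (nat_lit 0) (nat_lit 0) (XT.lf (nat_lit 76) (nat_lit 292795771) (nat_lit 0) (nat_lit 7742526230) (nat_lit 1140) (nat_lit 2071351518) (nat_lit 273) (nat_lit 5) (nat_lit 272) (nat_lit 5) (nat_lit 287) (nat_lit 5) (nat_lit 321) (nat_lit 314) (nat_lit 265)) (XT.lf (nat_lit 76) (nat_lit 9206276855) (nat_lit 0) (nat_lit 1072177829) (nat_lit 1140) (nat_lit 62697349) (nat_lit 273) (nat_lit 5) (nat_lit 272) (nat_lit 5) (nat_lit 287) (nat_lit 5) (nat_lit 322) (nat_lit 314) (nat_lit 264))))) (XT.nd (nat_lit 234) (nat_lit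 2508) (nat_lit 0) (XT.nd (nat_lit 78) (nat_lit 1064) (nat_lit 0) (XT.lf (nat_lit 0) (nat_lit 2068252238) (nat_lit 1140) (nat_lit 2585450033) (nat_lit 1216) (nat_lit 5931247695) (nat_lit 258) (nat_lit 5) (nat_lit 273) (nat_lit 5) (nat_lit 274) (nat_lit 5) (nat_lit 323) (nat_lit 314) (nat_lit 263)) (XT.nd (nat_lit 78) (nat_lit 1140) (nat_lit 0) (XT.lf (nat_lit 0) (nat_lit 4346330730) (nat_lit 1140) (nat_lit 4026003359) (nat_lit 76) (nat_lit 2467366343) (nat_lit 259) (nat_lit 5) (nat_lit 274) (nat_lit 5) (nat_lit 260) (nat_lit 5) (nat_lit 324) (nat_lit 314) (nat_lit 262)) (XT.lf (nat_lit 0) (nat_lit 5635633927) (nat_lit 1140) (nat_lit 1162974849) (nat_lit 1216) (nat_lit 4306806590) (nat_lit 244) (nat_lit 5) (nat_lit 259) (nat_lit 5) (nat_lit 260) (nat_lit 5) (nat_lit 325) (nat_lit 314) (nat_lit 261)))) (XT.nd (nat_lit 78) (nat_lit 1292) (nat_lit 0) (XT.lf (nat_lit 0) (nat_lit 4448147719) (nat_lit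 1216) (nat_lit 5006601202) (nat_lit 1292) (nat_lit 1927263787) (nat_lit 228) (nat_lit 5) (nat_lit 244) (nat_lit 5) (nat_lit 245) (nat_lit 5) (nat_lit 326) (nat_lit 314) (nat_lit 260)) (XT.nd (nat_lit 78) (nat_lit 608) (nat_lit 0) (XT.lf (nat_lit 0) (nat_lit 623256259) (nat_lit 684) (nat_lit 8402683475) (nat_lit 76) (nat_lit 2644472559) (nat_lit 219) (nat_lit 5) (nat_lit 228) (nat_lit 5) (nat_lit 220) (nat_lit 5) (nat_lit 327) (nat_lit 314) (nat_lit 259)) (XT.lf (nat_lit 0) (nat_lit 2064979654) (nat_lit 608) (nat_lit 1278761886) (nat_lit 684) (nat_lit 8626478960) (nat_lit 211) (nat_lit 5) (nat_lit 219) (nat_lit 5) (nat_lit 220) (nat_lit 5) (nat_lit 328) (nat_lit 314) (nat_lit 258)))))) (XT.nd (nat_lit 468) (nat_lit 2660) (nat_lit 0) (XT.nd (nat_lit 234) (nat_lit 1520) (nat_lit 0) (XT.nd (nat_lit 78) (nat_lit 608) (nat_lit 0) (XT.lf (nat_lit 0) (nat_lit 840874291) (nat_lit 608) (nat_lit 5462538687)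 (nat_lit 684) (nat_lit 5978539887) (nat_lit 203) (nat_lit 5) (nat_lit 211) (nat_lit 5) (nat_lit 212) (nat_lit 5) (nat_lit 329) (nat_lit 314) (nat_lit 257)) (XT.nd (nat_lit 78) (nat_lit 608) (nat_lit 0) (XT.lf (nat_lit 0) (nat_lit 9496703405) (nat_lit 684) (nat_lit 372558571) (nat_lit 76) (nat_lit 2737468051) (nat_lit 203) (nat_lit 5) (nat_lit 212) (nat_lit 5) (nat_lit 204) (nat_lit 5) (nat_lit 330) (nat_lit 314) (nat_lit 256)) (XT.lf (nat_lit 0) (nat_lit 15953504) (nat_lit 608) (nat_lit 1583903287) (nat_lit 76) (nat_lit 11344578919) (nat_lit 195) (nat_lit 5) (nat_lit 203) (nat_lit 5) (nat_lit 196) (nat_lit 5) (nat_lit 331) (nat_lit 314) (nat_lit 255)))) (XT.nd (nat_lit 78) (nat_lit 988) (nat_lit 0) (XT.lf (nat_lit 0) (nat_lit 3357003128) (nat_lit 608) (nat_lit 2857868823) (nat_lit 76) (nat_lit 7079562227) (nat_lit 188) (nat_lit 5) (nat_lit 196) (nat_lit 5) (nat_lit 189) (nat_lit 5) (nat_lit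 332) (nat_lit 314) (nat_lit 254)) (XT.nd (nat_lit 78) (nat_lit 532) (nat_lit 0) (XT.lf (nat_lit 0) (nat_lit 6964642976) (nat_lit 532) (nat_lit 4139740292) (nat_lit 76) (nat_lit 2554586017) (nat_lit 182) (nat_lit 5) (nat_lit 189) (nat_lit 5) (nat_lit 183) (nat_lit 5) (nat_lit 333) (nat_lit 314) (nat_lit 253)) (XT.lf (nat_lit 0) (nat_lit 8584057052) (nat_lit 532) (nat_lit 2295503949) (nat_lit 608) (nat_lit 3158385020) (nat_lit 175) (nat_lit 5) (nat_lit 182) (nat_lit 5) (nat_lit 183) (nat_lit 5) (nat_lit 334) (nat_lit 314) (nat_lit 252))))) (XT.nd (nat_lit 234) (nat_lit 1292) (nat_lit 0) (XT.nd (nat_lit 78) (nat_lit 836) (nat_lit 0) (XT.lf (nat_lit 0) (nat_lit 681688311) (nat_lit 532) (nat_lit 6815288996) (nat_lit 76) (nat_lit 6934609973) (nat_lit 168) (nat_lit 5) (nat_lit 175) (nat_lit 5) (nat_lit 169) (nat_lit 5) (nat_lit 335) (nat_lit 314) (nat_lit 251)) (XT.nd (nat_lit 78) (nat_lit 380) (nat_lit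 0) (XT.lf (nat_lit 0) (nat_lit 4765661150) (nat_lit 532) (nat_lit 8228222033) (nat_lit 76) (nat_lit 1846591962) (nat_lit 162) (nat_lit 5) (nat_lit 169) (nat_lit 5) (nat_lit 163) (nat_lit 5) (nat_lit 336) (nat_lit 314) (nat_lit 250)) (XT.lf (nat_lit 0) (nat_lit 5564784801) (nat_lit 380) (nat_lit 3645521650) (nat_lit 456) (nat_lit 6054824988) (nat_lit 157) (nat_lit 5) (nat_lit 162) (nat_lit 5) (nat_lit 163) (nat_lit 5) (nat_lit 337) (nat_lit 314) (nat_lit 249)))) (XT.nd (nat_lit 78) (nat_lit 836) (nat_lit 0) (XT.lf (nat_lit 0) (nat_lit 4485298603) (nat_lit 456) (nat_lit 9537795731) (nat_lit 532) (nat_lit 1683566285) (nat_lit 151) (nat_lit 5) (nat_lit 157) (nat_lit 5) (nat_lit 158) (nat_lit 5) (nat_lit 338) (nat_lit 314) (nat_lit 248)) (XT.nd (nat_lit 78) (nat_lit 380) (nat_lit 0) (XT.lf (nat_lit 0) (nat_lit 2982244344) (nat_lit 456) (nat_lit 12805994635) (nat_lit 76) (nat_lit 377224233) (nat_lit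 145) (nat_lit 5) (nat_lit 151) (nat_lit 5) (nat_lit 146) (nat_lit 5) (nat_lit 339) (nat_lit 314) (nat_lit 247)) (XT.lf (nat_lit 0) (nat_lit 2135472285) (nat_lit 380) (nat_lit 5905216681) (nat_lit 456) (nat_lit 8600207340) (nat_lit 140) (nat_lit 5) (nat_lit 145) (nat_lit 5) (nat_lit 146) (nat_lit 5) (nat_lit 340) (nat_lit 314) (nat_lit 246))))))) (XT.nd (nat_lit 936) (nat_lit 2280) (nat_lit 0) (XT.nd (nat_lit 468) (nat_lit 1824) (nat_lit 0) (XT.nd (nat_lit 234) (nat_lit 988) (nat_lit 0) (XT.nd (nat_lit 78) (nat_lit 456) (nat_lit 0) (XT.lf (nat_lit 0) (nat_lit 876847074) (nat_lit 304) (nat_lit 12621427123) (nat_lit 380) (nat_lit 3637454882) (nat_lit 136) (nat_lit 5) (nat_lit 140) (nat_lit 5) (nat_lit 141) (nat_lit 5) (nat_lit 341) (nat_lit 314) (nat_lit 245)) (XT.nd (nat_lit 78) (nat_lit 380) (nat_lit 0) (XT.lf (nat_lit 0) (nat_lit 1715769392) (nat_lit 380) (nat_lit 446404805) (nat_lit 76) (nat_lit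 15487497899) (nat_lit 135) (nat_lit 5) (nat_lit 140) (nat_lit 5) (nat_lit 136) (nat_lit 5) (nat_lit 342) (nat_lit 314) (nat_lit 244)) (XT.lf (nat_lit 0) (nat_lit 7470691378) (nat_lit 456) (nat_lit 1879620565) (nat_lit 76) (nat_lit 8831654787) (nat_lit 130) (nat_lit 5) (nat_lit 136) (nat_lit 5) (nat_lit 131) (nat_lit 5) (nat_lit 343) (nat_lit 314) (nat_lit 243)))) (XT.nd (nat_lit 78) (nat_lit 684) (nat_lit 0) (XT.lf (nat_lit 0) (nat_lit 13669949063) (nat_lit 380) (nat_lit 3365686146) (nat_lit 76) (nat_lit 1700555423) (nat_lit 126) (nat_lit 5) (nat_lit 131) (nat_lit 5) (nat_lit 127) (nat_lit 5) (nat_lit 344) (nat_lit 314) (nat_lit 242)) (XT.nd (nat_lit 78) (nat_lit 304) (nat_lit 0) (XT.lf (nat_lit 0) (nat_lit 1064785155) (nat_lit 380) (nat_lit 4979201535) (nat_lit 76) (nat_lit 13267285737) (nat_lit 121) (nat_lit 5) (nat_lit 126) (nat_lit 5) (nat_lit 122) (nat_lit 5) (nat_lit 345) (nat_lit 314)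 (nat_lit 241)) (XT.lf (nat_lit 0) (nat_lit 7582976317) (nat_lit 380) (nat_lit 6733490741) (nat_lit 76) (nat_lit 5591585473) (nat_lit 117) (nat_lit 5) (nat_lit 122) (nat_lit 5) (nat_lit 118) (nat_lit 5) (nat_lit 346) (nat_lit 314) (nat_lit 240))))) (XT.nd (nat_lit 234) (nat_lit 836) (nat_lit 0) (XT.nd (nat_lit 78) (nat_lit 684) (nat_lit 0) (XT.lf (nat_lit 0) (nat_lit 11932113174) (nat_lit 304) (nat_lit 2690835169) (nat_lit 380) (nat_lit 5905857411) (nat_lit 113) (nat_lit 5) (nat_lit 117) (nat_lit 5) (nat_lit 118) (nat_lit 5) (nat_lit 347) (nat_lit 314) (nat_lit 239)) (XT.nd (nat_lit 78) (nat_lit 304) (nat_lit 0) (XT.lf (nat_lit 0) (nat_lit 1052673592) (nat_lit 380) (nat_lit 10622443376) (nat_lit 76) (nat_lit 9498209593) (nat_lit 108) (nat_lit 5) (nat_lit 113) (nat_lit 5) (nat_lit 109) (nat_lit 5) (nat_lit 348) (nat_lit 314) (nat_lit 238)) (XT.lf (nat_lit 0) (nat_lit 8417508736) (nat_lit 380)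 (nat_lit 12817298022) (nat_lit 76) (nat_lit 608105870) (nat_lit 104) (nat_lit 5) (nat_lit 109) (nat_lit 5) (nat_lit 105) (nat_lit 5) (nat_lit 349) (nat_lit 314) (nat_lit 237)))) (XT.nd (nat_lit 78) (nat_lit 608) (nat_lit 0) (XT.lf (nat_lit 0) (nat_lit 7314817176) (nat_lit 228) (nat_lit 9105291571) (nat_lit 304) (nat_lit 6117792157) (nat_lit 101) (nat_lit 5) (nat_lit 104) (nat_lit 5) (nat_lit 105) (nat_lit 5) (nat_lit 350) (nat_lit 314) (nat_lit 236)) (XT.nd (nat_lit 78) (nat_lit 228) (nat_lit 0) (XT.lf (nat_lit 0) (nat_lit 1719387273) (nat_lit 380) (nat_lit 17793992846) (nat_lit 76) (nat_lit 3747981900) (nat_lit 96) (nat_lit 5) (nat_lit 101) (nat_lit 5) (nat_lit 97) (nat_lit 5) (nat_lit 351) (nat_lit 314) (nat_lit 235)) (XT.lf (nat_lit 0) (nat_lit 3361468719) (nat_lit 228) (nat_lit 6716502939) (nat_lit 304) (nat_lit 13933532799) (nat_lit 93) (nat_lit 5) (nat_lit 96) (nat_lit 5) (nat_lit 97)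 (nat_lit 5) (nat_lit 352) (nat_lit 314) (nat_lit 234)))))) (XT.nd (nat_lit 468) (nat_lit 1064) (nat_lit 0) (XT.nd (nat_lit 234) (nat_lit 684) (nat_lit 0) (XT.nd (nat_lit 78) (nat_lit 304) (nat_lit 0) (XT.lf (nat_lit 0) (nat_lit 1064733695) (nat_lit 228) (nat_lit 18022758249) (nat_lit 304) (nat_lit 5704679083) (nat_lit 90) (nat_lit 5) (nat_lit 93) (nat_lit 5) (nat_lit 94) (nat_lit 5) (nat_lit 353) (nat_lit 314) (nat_lit 233)) (XT.nd (nat_lit 78) (nat_lit 228) (nat_lit 0) (XT.lf (nat_lit 0) (nat_lit 3134605004) (nat_lit 304) (nat_lit 1448668648) (nat_lit 76) (nat_lit 21020069210) (nat_lit 89) (nat_lit 5) (nat_lit 93) (nat_lit 5) (nat_lit 90) (nat_lit 5) (nat_lit 354) (nat_lit 314) (nat_lit 232)) (XT.lf (nat_lit 0) (nat_lit 12582339270) (nat_lit 304) (nat_lit 4260398118) (nat_lit 76) (nat_lit 9602113767) (nat_lit 86) (nat_lit 5) (nat_lit 90) (nat_lit 5) (nat_lit 87) (nat_lit 5) (nat_lit 355) (nat_lit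 314) (nat_lit 231)))) (XT.nd (nat_lit 78) (nat_lit 456) (nat_lit 0) (XT.lf (nat_lit 0) (nat_lit 20006218751) (nat_lit 228) (nat_lit 2725600019) (nat_lit 304) (nat_lit 4589741385) (nat_lit 83) (nat_lit 5) (nat_lit 86) (nat_lit 5) (nat_lit 87) (nat_lit 5) (nat_lit 356) (nat_lit 314) (nat_lit 230)) (XT.nd (nat_lit 78) (nat_lit 228) (nat_lit 0) (XT.lf (nat_lit 0) (nat_lit 5354629540) (nat_lit 228) (nat_lit 10764591324) (nat_lit 76) (nat_lit 12112153389) (nat_lit 80) (nat_lit 5) (nat_lit 83) (nat_lit 5) (nat_lit 81) (nat_lit 5) (nat_lit 357) (nat_lit 314) (nat_lit 229)) (XT.lf (nat_lit 0) (nat_lit 14629270115) (nat_lit 228) (nat_lit 1294000395) (nat_lit 304) (nat_lit 13255391349) (nat_lit 77) (nat_lit 5) (nat_lit 80) (nat_lit 5) (nat_lit 81) (nat_lit 5) (nat_lit 358) (nat_lit 314) (nat_lit 228))))) (XT.nd (nat_lit 234) (nat_lit 456) (nat_lit 0) (XT.nd (nat_lit 78) (nat_lit 456) (nat_lit 0) (XT.lf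 (nat_lit 0) (nat_lit 11394310015) (nat_lit 152) (nat_lit 15962176754) (nat_lit 228) (nat_lit 2806747854) (nat_lit 75) (nat_lit 5) (nat_lit 77) (nat_lit 5) (nat_lit 78) (nat_lit 5) (nat_lit 359) (nat_lit 314) (nat_lit 227)) (XT.nd (nat_lit 78) (nat_lit 152) (nat_lit 0) (XT.lf (nat_lit 0) (nat_lit 7768367081) (nat_lit 228) (nat_lit 453645860) (nat_lit 304) (nat_lit 22966163341) (nat_lit 71) (nat_lit 5) (nat_lit 74) (nat_lit 5) (nat_lit 75) (nat_lit 5) (nat_lit 360) (nat_lit 314) (nat_lit 226)) (XT.lf (nat_lit 0) (nat_lit 3618020775) (nat_lit 152) (nat_lit 16487326950) (nat_lit 228) (nat_lit 12147352565) (nat_lit 69) (nat_lit 5) (nat_lit 71) (nat_lit 5) (nat_lit 72) (nat_lit 5) (nat_lit 361) (nat_lit 314) (nat_lit 225)))) (XT.nd (nat_lit 78) (nat_lit 456) (nat_lit 0) (XT.lf (nat_lit 0) (nat_lit 32457182101) (nat_lit 152) (nat_lit 350540808) (nat_lit 228) (nat_lit 555985633) (nat_lit 69) (nat_lit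 5) (nat_lit 71) (nat_lit 5) (nat_lit 72) (nat_lit 5) (nat_lit 362) (nat_lit 314) (nat_lit 224)) (XT.nd (nat_lit 78) (nat_lit 152) (nat_lit 0) (XT.lf (nat_lit 0) (nat_lit 11806660418) (nat_lit 304) (nat_lit 6061599277) (nat_lit 76) (nat_lit 16646111136) (nat_lit 65) (nat_lit 5) (nat_lit 69) (nat_lit 5) (nat_lit 66) (nat_lit 5) (nat_lit 363) (nat_lit 314) (nat_lit 223)) (XT.lf (nat_lit 0) (nat_lit 24002329203) (nat_lit 152) (nat_lit 997948061) (nat_lit 228) (nat_lit 10715397461) (nat_lit 63) (nat_lit 5) (nat_lit 65) (nat_lit 5) (nat_lit 66) (nat_lit 5) (nat_lit 364) (nat_lit 314) (nat_lit 222))))))))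
noncomputable def xc75 : XT := (XT.nd (nat_lit 1872) (nat_lit 228) (nat_lit 0) (XT.nd (nat_lit 936) (nat_lit 1140) (nat_lit 0) (XT.nd (nat_lit 468) (nat_lit 760) (nat_lit 0) (XT.nd (nat_lit 234) (nat_lit 380) (nat_lit 0) (XT.nd (nat_lit 78) (nat_lit 304) (nat_lit 0) (XT.lf (nat_lit 0) (nat_lit 2230094122) (nat_lit 228) (nat_lit 18091921850) (nat_lit 76) (nat_lit 16642784726) (nat_lit 60) (nat_lit 5) (nat_lit 63) (nat_lit 5) (nat_lit 61) (nat_lit 5) (nat_lit 365) (nat_lit 314) (nat_lit 221)) (XT.nd (nat_lit 78) (nat_lit 152) (nat_lit 0) (XT.lf (nat_lit 0) (nat_lit 13063522848) (nat_lit 152) (nat_lit 2778641585) (nat_lit 228) (nat_lit 22423811595) (nat_lit 58) (nat_lit 5) (nat_lit 60) (nat_lit 5) (nat_lit 61) (nat_lit 5) (nat_lit 366) (nat_lit 314) (nat_lit 220)) (XT.lf (nat_lit 0) (nat_lit 6470359670) (nat_lit 152) (nat_lit 24047006848) (nat_lit 228) (nat_lit 9103370902) (nat_lit 56) (nat_lit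 5) (nat_lit 58) (nat_lit 5) (nat_lit 59) (nat_lit 5) (nat_lit 367) (nat_lit 314) (nat_lit 219)))) (XT.nd (nat_lit 78) (nat_lit 304) (nat_lit 0) (XT.lf (nat_lit 0) (nat_lit 5060131809) (nat_lit 228) (nat_lit 890860370) (nat_lit 76) (nat_lit 35082669629) (nat_lit 55) (nat_lit 5) (nat_lit 58) (nat_lit 5) (nat_lit 56) (nat_lit 5) (nat_lit 368) (nat_lit 314) (nat_lit 218)) (XT.nd (nat_lit 78) (nat_lit 152) (nat_lit 0) (XT.lf (nat_lit 0) (nat_lit 20179981481) (nat_lit 228) (nat_lit 9120842925) (nat_lit 76) (nat_lit 13200613499) (nat_lit 53) (nat_lit 5) (nat_lit 56) (nat_lit 5) (nat_lit 54) (nat_lit 5) (nat_lit 369) (nat_lit 314) (nat_lit 217)) (XT.lf (nat_lit 0) (nat_lit 25754979885) (nat_lit 152) (nat_lit 10601266079) (nat_lit 228) (nat_lit 7677346809) (nat_lit 51) (nat_lit 5) (nat_lit 53) (nat_lit 5) (nat_lit 54) (nat_lit 5) (nat_lit 370) (nat_lit 314) (nat_lit 216))))) (XT.nd (nat_lit 234) (nat_lit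 380) (nat_lit 0) (XT.nd (nat_lit 78) (nat_lit 152) (nat_lit 0) (XT.lf (nat_lit 0) (nat_lit 7882363924) (nat_lit 228) (nat_lit 28566169929) (nat_lit 76) (nat_lit 9181594843) (nat_lit 48) (nat_lit 5) (nat_lit 51) (nat_lit 5) (nat_lit 49) (nat_lit 5) (nat_lit 371) (nat_lit 314) (nat_lit 215)) (XT.nd (nat_lit 78) (nat_lit 0) (nat_lit 0) (XT.lf (nat_lit 0) (nat_lit 7180182904) (nat_lit 152) (nat_lit 17232873875) (nat_lit 228) (nat_lit 22880603282) (nat_lit 46) (nat_lit 5) (nat_lit 48) (nat_lit 5) (nat_lit 49) (nat_lit 5) (nat_lit 372) (nat_lit 314) (nat_lit 214)) (XT.lf (nat_lit 0) (nat_lit 42080174979) (nat_lit 228) (nat_lit 3779836411) (nat_lit 76) (nat_lit 3171062092) (nat_lit 46) (nat_lit 5) (nat_lit 49) (nat_lit 5) (nat_lit 47) (nat_lit 4) (nat_lit 373) (nat_lit 314) (nat_lit 213)))) (XT.nd (nat_lit 78) (nat_lit 228) (nat_lit 0) (XT.lf (nat_lit 0) (nat_lit 10083720396) (nat_lit 152) (nat_lit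 16089348218) (nat_lit 76) (nat_lit 24664496620) (nat_lit 44) (nat_lit 5) (nat_lit 46) (nat_lit 5) (nat_lit 45) (nat_lit 5) (nat_lit 374) (nat_lit 314) (nat_lit 212)) (XT.nd (nat_lit 78) (nat_lit 76) (nat_lit 0) (XT.lf (nat_lit 0) (nat_lit 22898655287) (nat_lit 152) (nat_lit 5174066877) (nat_lit 228) (nat_lit 24652204517) (nat_lit 42) (nat_lit 5) (nat_lit 44) (nat_lit 5) (nat_lit 45) (nat_lit 5) (nat_lit 375) (nat_lit 314) (nat_lit 211)) (XT.lf (nat_lit 0) (nat_lit 9465806819) (nat_lit 76) (nat_lit 37901824583) (nat_lit 152) (nat_lit 7326832931) (nat_lit 41) (nat_lit 5) (nat_lit 42) (nat_lit 5) (nat_lit 43) (nat_lit 4) (nat_lit 376) (nat_lit 314) (nat_lit 210)))))) (XT.nd (nat_lit 468) (nat_lit 532) (nat_lit 0) (XT.nd (nat_lit 234) (nat_lit 304) (nat_lit 0) (XT.nd (nat_lit 78) (nat_lit 228) (nat_lit 0) (XT.lf (nat_lit 0) (nat_lit 11001374476) (nat_lit 152) (nat_lit 5592384586) (nat_lit 76) (nat_lit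 40155130981) (nat_lit 40) (nat_lit 5) (nat_lit 42) (nat_lit 5) (nat_lit 41) (nat_lit 5) (nat_lit 377) (nat_lit 314) (nat_lit 209)) (XT.nd (nat_lit 78) (nat_lit 76) (nat_lit 0) (XT.lf (nat_lit 0) (nat_lit 30494710352) (nat_lit 228) (nat_lit 22310520004) (nat_lit 76) (nat_lit 6086624582) (nat_lit 38) (nat_lit 5) (nat_lit 41) (nat_lit 5) (nat_lit 39) (nat_lit 4) (nat_lit 378) (nat_lit 314) (nat_lit 208)) (XT.lf (nat_lit 0) (nat_lit 20039779854) (nat_lit 76) (nat_lit 31328421195) (nat_lit 152) (nat_lit 9761603940) (nat_lit 37) (nat_lit 5) (nat_lit 38) (nat_lit 5) (nat_lit 39) (nat_lit 4) (nat_lit 379) (nat_lit 314) (nat_lit 207)))) (XT.nd (nat_lit 78) (nat_lit 76) (nat_lit 0) (XT.lf (nat_lit 0) (nat_lit 1408864075) (nat_lit 152) (nat_lit 8438482612) (nat_lit 228) (nat_lit 53622490206) (nat_lit 34) (nat_lit 5) (nat_lit 36) (nat_lit 5) (nat_lit 37) (nat_lit 5) (nat_lit 380) (nat_lit 314) (nat_lit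 206)) (XT.nd (nat_lit 78) (nat_lit 76) (nat_lit 0) (XT.lf (nat_lit 0) (nat_lit 30801601550) (nat_lit 228) (nat_lit 19298208293) (nat_lit 76) (nat_lit 15807160182) (nat_lit 34) (nat_lit 5) (nat_lit 37) (nat_lit 5) (nat_lit 35) (nat_lit 4) (nat_lit 381) (nat_lit 314) (nat_lit 205)) (XT.lf (nat_lit 0) (nat_lit 26003269942) (nat_lit 76) (nat_lit 27123786002) (nat_lit 152) (nat_lit 15329200570) (nat_lit 33) (nat_lit 5) (nat_lit 34) (nat_lit 5) (nat_lit 35) (nat_lit 4) (nat_lit 382) (nat_lit 314) (nat_lit 204))))) (XT.nd (nat_lit 234) (nat_lit 228) (nat_lit 0) (XT.nd (nat_lit 78) (nat_lit 76) (nat_lit 0) (XT.lf (nat_lit 0) (nat_lit 2825693508) (nat_lit 152) (nat_lit 2720392821) (nat_lit 228) (nat_lit 65578863179) (nat_lit 30) (nat_lit 5) (nat_lit 32) (nat_lit 5) (nat_lit 33) (nat_lit 5) (nat_lit 383) (nat_lit 314) (nat_lit 203)) (XT.nd (nat_lit 78) (nat_lit 76) (nat_lit 0) (XT.lf (nat_lit 0) (nat_lit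 27801402485) (nat_lit 228) (nat_lit 23058632074) (nat_lit 76) (nat_lit 23042891624) (nat_lit 30) (nat_lit 5) (nat_lit 33) (nat_lit 5) (nat_lit 31) (nat_lit 4) (nat_lit 384) (nat_lit 314) (nat_lit 202)) (XT.lf (nat_lit 0) (nat_lit 24882194273) (nat_lit 76) (nat_lit 26543308741) (nat_lit 152) (nat_lit 25386619214) (nat_lit 29) (nat_lit 5) (nat_lit 30) (nat_lit 5) (nat_lit 31) (nat_lit 4) (nat_lit 385) (nat_lit 314) (nat_lit 201)))) (XT.nd (nat_lit 78) (nat_lit 228) (nat_lit 0) (XT.lf (nat_lit 0) (nat_lit 75682577891) (nat_lit 76) (nat_lit 775296939) (nat_lit 152) (nat_lit 3402092298) (nat_lit 29) (nat_lit 5) (nat_lit 30) (nat_lit 5) (nat_lit 31) (nat_lit 4) (nat_lit 386) (nat_lit 314) (nat_lit 200)) (XT.nd (nat_lit 78) (nat_lit 76) (nat_lit 0) (XT.lf (nat_lit 0) (nat_lit 19995130402) (nat_lit 152) (nat_lit 36634651427) (nat_lit 76) (nat_lit 26403821757) (nat_lit 27) (nat_lit 5) (nat_lit 29) (nat_lit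 5) (nat_lit 28) (nat_lit 4) (nat_lit 387) (nat_lit 314) (nat_lit 199)) (XT.lf (nat_lit 0) (nat_lit 13427918985) (nat_lit 76) (nat_lit 31235226791) (nat_lit 152) (nat_lit 41696627724) (nat_lit 26) (nat_lit 5) (nat_lit 27) (nat_lit 5) (nat_lit 28) (nat_lit 4) (nat_lit 388) (nat_lit 314) (nat_lit 198))))))) (XT.nd (nat_lit 41730) (nat_lit 0) (nat_lit 12084) (XT.nd (nat_lit 41262) (nat_lit 0) (nat_lit 17784) (XT.nd (nat_lit 234) (nat_lit 76) (nat_lit 0) (XT.nd (nat_lit 78) (nat_lit 152) (nat_lit 0) (XT.lf (nat_lit 0) (nat_lit 66741405850) (nat_lit 76) (nat_lit 4190875279) (nat_lit 152) (nat_lit 18908940077) (nat_lit 26) (nat_lit 5) (nat_lit 27) (nat_lit 5) (nat_lit 28) (nat_lit 4) (nat_lit 389) (nat_lit 314) (nat_lit 197)) (XT.nd (nat_lit 78) (nat_lit 0) (nat_lit 0) (XT.lf (nat_lit 0) (nat_lit 5432944108) (nat_lit 152) (nat_lit 63984104493) (nat_lit 76) (nat_lit 24062864365) (nat_lit 24) (nat_lit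 5) (nat_lit 26) (nat_lit 5) (nat_lit 25) (nat_lit 4) (nat_lit 390) (nat_lit 314) (nat_lit 196)) (XT.lf (nat_lit 0) (nat_lit 30878089671) (nat_lit 152) (nat_lit 12341781812) (nat_lit 76) (nat_lit 54066735090) (nat_lit 24) (nat_lit 5) (nat_lit 26) (nat_lit 5) (nat_lit 25) (nat_lit 4) (nat_lit 391) (nat_lit 314) (nat_lit 195)))) (XT.nd (nat_lit 40872) (nat_lit 0) (nat_lit 19684) (XT.lf (nat_lit 0) (nat_lit 42699884064) (nat_lit 76) (nat_lit 15297638862) (nat_lit 152) (nat_lit 43274051756) (nat_lit 23) (nat_lit 5) (nat_lit 24) (nat_lit 5) (nat_lit 25) (nat_lit 4) (nat_lit 392) (nat_lit 314) (nat_lit 194)) (XT.nd (nat_lit 78) (nat_lit 0) (nat_lit 0) (XT.lf (nat_lit 0) (nat_lit 1894504609) (nat_lit 0) (nat_lit 1894504609) (nat_lit 988) (nat_lit 748332686) (nat_lit 282) (nat_lit 5) (nat_lit 282) (nat_lit 3) (nat_lit 295) (nat_lit 3) (nat_lit 315) (nat_lit 315) (nat_lit 270)) (XT.lf (nat_lit 76) (nat_lit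 1989334245) (nat_lit 0) (nat_lit 7232467753) (nat_lit 1064) (nat_lit 35283756) (nat_lit 283) (nat_lit 5) (nat_lit 282) (nat_lit 5) (nat_lit 296) (nat_lit 5) (nat_lit 316) (nat_lit 315) (nat_lit 269))))) (XT.nd (nat_lit 234) (nat_lit 836) (nat_lit 0) (XT.nd (nat_lit 78) (nat_lit 0) (nat_lit 76) (XT.lf (nat_lit 76) (nat_lit 190748024) (nat_lit 0) (nat_lit 1282588947) (nat_lit 1140) (nat_lit 7974787676) (nat_lit 269) (nat_lit 5) (nat_lit 268) (nat_lit 5) (nat_lit 283) (nat_lit 5) (nat_lit 317) (nat_lit 315) (nat_lit 268)) (XT.nd (nat_lit 78) (nat_lit 0) (nat_lit 76) (XT.lf (nat_lit 0) (nat_lit 3092589556) (nat_lit 1064) (nat_lit 1574172237) (nat_lit 1140) (nat_lit 4980914726) (nat_lit 269) (nat_lit 5) (nat_lit 283) (nat_lit 5) (nat_lit 284) (nat_lit 5) (nat_lit 318) (nat_lit 315) (nat_lit 267)) (XT.lf (nat_lit 0) (nat_lit 4802626747) (nat_lit 1064) (nat_lit 3316698405) (nat_lit 1140) (nat_lit 1737633251)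 (nat_lit 270) (nat_lit 5) (nat_lit 284) (nat_lit 5) (nat_lit 285) (nat_lit 5) (nat_lit 319) (nat_lit 315) (nat_lit 266)))) (XT.nd (nat_lit 78) (nat_lit 988) (nat_lit 0) (XT.lf (nat_lit 76) (nat_lit 5016015229) (nat_lit 0) (nat_lit 1614425346) (nat_lit 1140) (nat_lit 3445340399) (nat_lit 271) (nat_lit 5) (nat_lit 270) (nat_lit 5) (nat_lit 285) (nat_lit 5) (nat_lit 320) (nat_lit 315) (nat_lit 265)) (XT.nd (nat_lit 78) (nat_lit 1064) (nat_lit 0) (XT.lf (nat_lit 76) (nat_lit 3495094030) (nat_lit 0) (nat_lit 5096902856) (nat_lit 1140) (nat_lit 1712319936) (nat_lit 272) (nat_lit 5) (nat_lit 271) (nat_lit 5) (nat_lit 286) (nat_lit 5) (nat_lit 321) (nat_lit 315) (nat_lit 264)) (XT.lf (nat_lit 0) (nat_lit 138126323) (nat_lit 1140) (nat_lit 8552703469) (nat_lit 1216) (nat_lit 1852472107) (nat_lit 257) (nat_lit 5) (nat_lit 272) (nat_lit 5) (nat_lit 273) (nat_lit 5) (nat_lit 322) (nat_lit 315) (nat_lit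 263)))))) (XT.nd (nat_lit 468) (nat_lit 2812) (nat_lit 0) (XT.nd (nat_lit 234) (nat_lit 2888) (nat_lit 0) (XT.nd (nat_lit 78) (nat_lit 0) (nat_lit 76) (XT.lf (nat_lit 76) (nat_lit 466654773) (nat_lit 0) (nat_lit 1635764273) (nat_lit 1216) (nat_lit 8689644051) (nat_lit 258) (nat_lit 5) (nat_lit 257) (nat_lit 5) (nat_lit 273) (nat_lit 5) (nat_lit 323) (nat_lit 315) (nat_lit 262)) (XT.nd (nat_lit 78) (nat_lit 0) (nat_lit 76) (XT.lf (nat_lit 0) (nat_lit 4242010214) (nat_lit 1140) (nat_lit 1045541576) (nat_lit 1216) (nat_lit 5763433863) (nat_lit 258) (nat_lit 5) (nat_lit 273) (nat_lit 5) (nat_lit 274) (nat_lit 5) (nat_lit 324) (nat_lit 315) (nat_lit 261)) (XT.lf (nat_lit 0) (nat_lit 6547471714) (nat_lit 1140) (nat_lit 2541781725) (nat_lit 76) (nat_lit 2231868281) (nat_lit 259) (nat_lit 5) (nat_lit 274) (nat_lit 5) (nat_lit 260) (nat_lit 5) (nat_lit 325) (nat_lit 315) (nat_lit 260)))) (XT.nd (nat_lit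 78) (nat_lit 1900) (nat_lit 0) (XT.lf (nat_lit 0) (nat_lit 7554622282) (nat_lit 1140) (nat_lit 1489011382) (nat_lit 1216) (nat_lit 2558900589) (nat_lit 244) (nat_lit 5) (nat_lit 259) (nat_lit 5) (nat_lit 260) (nat_lit 5) (nat_lit 326) (nat_lit 315) (nat_lit 259)) (XT.nd (nat_lit 78) (nat_lit 684) (nat_lit 0) (XT.lf (nat_lit 0) (nat_lit 6319817819) (nat_lit 1216) (nat_lit 5435445457) (nat_lit 1292) (nat_lit 140065284) (nat_lit 228) (nat_lit 5) (nat_lit 244) (nat_lit 5) (nat_lit 245) (nat_lit 5) (nat_lit 327) (nat_lit 315) (nat_lit 258)) (XT.lf (nat_lit 0) (nat_lit 2427726015) (nat_lit 684) (nat_lit 7128806139) (nat_lit 76) (nat_lit 2643321773) (nat_lit 219) (nat_lit 5) (nat_lit 228) (nat_lit 5) (nat_lit 220) (nat_lit 5) (nat_lit 328) (nat_lit 315) (nat_lit 257))))) (XT.nd (nat_lit 234) (nat_lit 1064) (nat_lit 0) (XT.nd (nat_lit 78) (nat_lit 1140) (nat_lit 0) (XT.lf (nat_lit 0) (nat_lit 3813681646)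 (nat_lit 608) (nat_lit 1401927827) (nat_lit 684) (nat_lit 7301143748) (nat_lit 211) (nat_lit 5) (nat_lit 219) (nat_lit 5) (nat_lit 220) (nat_lit 5) (nat_lit 329) (nat_lit 315) (nat_lit 256)) (XT.nd (nat_lit 78) (nat_lit 532) (nat_lit 0) (XT.lf (nat_lit 0) (nat_lit 2532245806) (nat_lit 608) (nat_lit 5725155522) (nat_lit 684) (nat_lit 4588686669) (nat_lit 203) (nat_lit 5) (nat_lit 211) (nat_lit 5) (nat_lit 212) (nat_lit 5) (nat_lit 330) (nat_lit 315) (nat_lit 255)) (XT.lf (nat_lit 0) (nat_lit 1251510484) (nat_lit 532) (nat_lit 10292933357) (nat_lit 608) (nat_lit 1644675548) (nat_lit 196) (nat_lit 5) (nat_lit 203) (nat_lit 5) (nat_lit 204) (nat_lit 5) (nat_lit 331) (nat_lit 315) (nat_lit 254)))) (XT.nd (nat_lit 78) (nat_lit 988) (nat_lit 0) (XT.lf (nat_lit 0) (nat_lit 1533986294) (nat_lit 608) (nat_lit 60311823) (nat_lit 76) (nat_lit 11951139615) (nat_lit 195) (nat_lit 5) (nat_lit 203) (nat_lit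 5) (nat_lit 196) (nat_lit 5) (nat_lit 332) (nat_lit 315) (nat_lit 253)) (XT.nd (nat_lit 78) (nat_lit 456) (nat_lit 0) (XT.lf (nat_lit 0) (nat_lit 4985735821) (nat_lit 608) (nat_lit 1400382795) (nat_lit 76) (nat_lit 7528541548) (nat_lit 188) (nat_lit 5) (nat_lit 196) (nat_lit 5) (nat_lit 189) (nat_lit 5) (nat_lit 333) (nat_lit 315) (nat_lit 252)) (XT.lf (nat_lit 0) (nat_lit 8720559703) (nat_lit 532) (nat_lit 2750822252) (nat_lit 76) (nat_lit 2827667877) (nat_lit 182) (nat_lit 5) (nat_lit 189) (nat_lit 5) (nat_lit 183) (nat_lit 5) (nat_lit 334) (nat_lit 315) (nat_lit 251))))))))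
noncomputable def xc76 : XT := (XT.nd (nat_lit 1872) (nat_lit 3496) (nat_lit 0) (XT.nd (nat_lit 936) (nat_lit 3116) (nat_lit 0) (XT.nd (nat_lit 468) (nat_lit 1824) (nat_lit 0) (XT.nd (nat_lit 234) (nat_lit 1292) (nat_lit 0) (XT.nd (nat_lit 78) (nat_lit 988) (nat_lit 0) (XT.lf (nat_lit 0) (nat_lit 10563418661) (nat_lit 532) (nat_lit 2215673445) (nat_lit 608) (nat_lit 1919477598) (nat_lit 175) (nat_lit 5) (nat_lit 182) (nat_lit 5) (nat_lit 183) (nat_lit 5) (nat_lit 335) (nat_lit 315) (nat_lit 250)) (XT.nd (nat_lit 78) (nat_lit 456) (nat_lit 0) (XT.lf (nat_lit 0) (nat_lit 2036912706) (nat_lit 532) (nat_lit 5585201648) (nat_lit 76) (nat_lit 7490856807) (nat_lit 168) (nat_lit 5) (nat_lit 175) (nat_lit 5) (nat_lit 169) (nat_lit 5) (nat_lit 336) (nat_lit 315) (nat_lit 249)) (XT.lf (nat_lit 0) (nat_lit 6279271208) (nat_lit 532) (nat_lit 7077519361) (nat_lit 76) (nat_lit 2186913969) (nat_lit 162) (nat_lit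 5) (nat_lit 169) (nat_lit 5) (nat_lit 163) (nat_lit 5) (nat_lit 337) (nat_lit 315) (nat_lit 248)))) (XT.nd (nat_lit 78) (nat_lit 912) (nat_lit 0) (XT.lf (nat_lit 0) (nat_lit 7360360138) (nat_lit 380) (nat_lit 3539644342) (nat_lit 456) (nat_lit 5090998950) (nat_lit 157) (nat_lit 5) (nat_lit 162) (nat_lit 5) (nat_lit 163) (nat_lit 5) (nat_lit 338) (nat_lit 315) (nat_lit 247)) (XT.nd (nat_lit 78) (nat_lit 456) (nat_lit 0) (XT.lf (nat_lit 0) (nat_lit 6217027947) (nat_lit 456) (nat_lit 9694999976) (nat_lit 532) (nat_lit 543847504) (nat_lit 151) (nat_lit 5) (nat_lit 157) (nat_lit 5) (nat_lit 158) (nat_lit 5) (nat_lit 339) (nat_lit 315) (nat_lit 246)) (XT.lf (nat_lit 0) (nat_lit 4291709385) (nat_lit 456) (nat_lit 11926401526) (nat_lit 76) (nat_lit 720366558) (nat_lit 145) (nat_lit 5) (nat_lit 151) (nat_lit 5) (nat_lit 146) (nat_lit 5) (nat_lit 340) (nat_lit 315) (nat_lit 245))))) (XT.nd (nat_lit 234)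 (nat_lit 684) (nat_lit 0) (XT.nd (nat_lit 78) (nat_lit 760) (nat_lit 0) (XT.lf (nat_lit 0) (nat_lit 3718571317) (nat_lit 380) (nat_lit 5843441368) (nat_lit 456) (nat_lit 7876922787) (nat_lit 140) (nat_lit 5) (nat_lit 145) (nat_lit 5) (nat_lit 146) (nat_lit 5) (nat_lit 341) (nat_lit 315) (nat_lit 244)) (XT.nd (nat_lit 78) (nat_lit 456) (nat_lit 0) (XT.lf (nat_lit 0) (nat_lit 2384393486) (nat_lit 304) (nat_lit 12872122839) (nat_lit 380) (nat_lit 2703092716) (nat_lit 136) (nat_lit 5) (nat_lit 140) (nat_lit 5) (nat_lit 141) (nat_lit 5) (nat_lit 342) (nat_lit 315) (nat_lit 243)) (XT.lf (nat_lit 0) (nat_lit 965234554) (nat_lit 380) (nat_lit 1887938063) (nat_lit 456) (nat_lit 15647058647) (nat_lit 130) (nat_lit 5) (nat_lit 135) (nat_lit 5) (nat_lit 136) (nat_lit 5) (nat_lit 343) (nat_lit 315) (nat_lit 242)))) (XT.nd (nat_lit 78) (nat_lit 684) (nat_lit 0) (XT.lf (nat_lit 0) (nat_lit 8853683976) (nat_lit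 456) (nat_lit 572049579) (nat_lit 76) (nat_lit 9634689680) (nat_lit 130) (nat_lit 5) (nat_lit 136) (nat_lit 5) (nat_lit 131) (nat_lit 5) (nat_lit 344) (nat_lit 315) (nat_lit 241)) (XT.nd (nat_lit 78) (nat_lit 380) (nat_lit 0) (XT.lf (nat_lit 0) (nat_lit 15331640639) (nat_lit 380) (nat_lit 2146737495) (nat_lit 76) (nat_lit 2164935168) (nat_lit 126) (nat_lit 5) (nat_lit 131) (nat_lit 5) (nat_lit 127) (nat_lit 5) (nat_lit 345) (nat_lit 315) (nat_lit 240)) (XT.lf (nat_lit 0) (nat_lit 2072261152) (nat_lit 380) (nat_lit 3861386887) (nat_lit 76) (nat_lit 14314245569) (nat_lit 121) (nat_lit 5) (nat_lit 126) (nat_lit 5) (nat_lit 122) (nat_lit 5) (nat_lit 346) (nat_lit 315) (nat_lit 239)))))) (XT.nd (nat_lit 468) (nat_lit 1216) (nat_lit 0) (XT.nd (nat_lit 234) (nat_lit 912) (nat_lit 0) (XT.nd (nat_lit 78) (nat_lit 684) (nat_lit 0) (XT.lf (nat_lit 0) (nat_lit 8887586781) (nat_lit 380) (nat_lit 5718524881)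 (nat_lit 76) (nat_lit 6269279325) (nat_lit 117) (nat_lit 5) (nat_lit 122) (nat_lit 5) (nat_lit 118) (nat_lit 5) (nat_lit 347) (nat_lit 315) (nat_lit 238)) (XT.nd (nat_lit 78) (nat_lit 380) (nat_lit 0) (XT.lf (nat_lit 0) (nat_lit 13841614729) (nat_lit 304) (nat_lit 2406493435) (nat_lit 380) (nat_lit 5280031485) (nat_lit 113) (nat_lit 5) (nat_lit 117) (nat_lit 5) (nat_lit 118) (nat_lit 5) (nat_lit 348) (nat_lit 315) (nat_lit 237)) (XT.lf (nat_lit 0) (nat_lit 1981915239) (nat_lit 380) (nat_lit 9838174610) (nat_lit 76) (nat_lit 10385340334) (nat_lit 108) (nat_lit 5) (nat_lit 113) (nat_lit 5) (nat_lit 109) (nat_lit 5) (nat_lit 349) (nat_lit 315) (nat_lit 236)))) (XT.nd (nat_lit 78) (nat_lit 608) (nat_lit 0) (XT.lf (nat_lit 0) (nat_lit 9689669401) (nat_lit 380) (nat_lit 12158949737) (nat_lit 76) (nat_lit 1060648691) (nat_lit 104) (nat_lit 5) (nat_lit 109) (nat_lit 5) (nat_lit 105) (nat_lit 5) (nat_lit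 350) (nat_lit 315) (nat_lit 235)) (XT.nd (nat_lit 78) (nat_lit 380) (nat_lit 0) (XT.lf (nat_lit 0) (nat_lit 8942529536) (nat_lit 228) (nat_lit 9121463327) (nat_lit 304) (nat_lit 5575876846) (nat_lit 101) (nat_lit 5) (nat_lit 104) (nat_lit 5) (nat_lit 105) (nat_lit 5) (nat_lit 351) (nat_lit 315) (nat_lit 234)) (XT.lf (nat_lit 0) (nat_lit 2613188619) (nat_lit 380) (nat_lit 17421484009) (nat_lit 76) (nat_lit 4365300730) (nat_lit 96) (nat_lit 5) (nat_lit 101) (nat_lit 5) (nat_lit 97) (nat_lit 5) (nat_lit 352) (nat_lit 315) (nat_lit 233))))) (XT.nd (nat_lit 234) (nat_lit 684) (nat_lit 0) (XT.nd (nat_lit 78) (nat_lit 304) (nat_lit 0) (XT.lf (nat_lit 0) (nat_lit 4755569682) (nat_lit 228) (nat_lit 6607449679) (nat_lit 304) (nat_lit 13825414605) (nat_lit 93) (nat_lit 5) (nat_lit 96) (nat_lit 5) (nat_lit 97) (nat_lit 5) (nat_lit 353) (nat_lit 315) (nat_lit 232)) (XT.nd (nat_lit 78) (nat_lit 76) (nat_lit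 0) (XT.lf (nat_lit 0) (nat_lit 2327668129) (nat_lit 228) (nat_lit 18473851114) (nat_lit 304) (nat_lit 5207269574) (nat_lit 90) (nat_lit 5) (nat_lit 93) (nat_lit 5) (nat_lit 94) (nat_lit 5) (nat_lit 354) (nat_lit 315) (nat_lit 231)) (XT.lf (nat_lit 0) (nat_lit 4022165036) (nat_lit 304) (nat_lit 354278020) (nat_lit 76) (nat_lit 22484956035) (nat_lit 89) (nat_lit 5) (nat_lit 93) (nat_lit 5) (nat_lit 90) (nat_lit 5) (nat_lit 355) (nat_lit 315) (nat_lit 230)))) (XT.nd (nat_lit 78) (nat_lit 456) (nat_lit 0) (XT.lf (nat_lit 0) (nat_lit 13922478651) (nat_lit 304) (nat_lit 3322755224) (nat_lit 76) (nat_lit 10500352002) (nat_lit 86) (nat_lit 5) (nat_lit 90) (nat_lit 5) (nat_lit 87) (nat_lit 5) (nat_lit 356) (nat_lit 315) (nat_lit 229)) (XT.nd (nat_lit 78) (nat_lit 228) (nat_lit 0) (XT.lf (nat_lit 0) (nat_lit 22124208970) (nat_lit 228) (nat_lit 2432108763) (nat_lit 304) (nat_lit 4110514463) (nat_lit 83)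 (nat_lit 5) (nat_lit 86) (nat_lit 5) (nat_lit 87) (nat_lit 5) (nat_lit 357) (nat_lit 315) (nat_lit 228)) (XT.lf (nat_lit 0) (nat_lit 6298825573) (nat_lit 228) (nat_lit 10187363914) (nat_lit 76) (nat_lit 13136303530) (nat_lit 80) (nat_lit 5) (nat_lit 83) (nat_lit 5) (nat_lit 81) (nat_lit 5) (nat_lit 358) (nat_lit 315) (nat_lit 227))))))) (XT.nd (nat_lit 936) (nat_lit 1444) (nat_lit 0) (XT.nd (nat_lit 468) (nat_lit 912) (nat_lit 0) (XT.nd (nat_lit 234) (nat_lit 456) (nat_lit 0) (XT.nd (nat_lit 78) (nat_lit 456) (nat_lit 0) (XT.lf (nat_lit 0) (nat_lit 16444216247) (nat_lit 228) (nat_lit 929884845) (nat_lit 304) (nat_lit 13243705266) (nat_lit 77) (nat_lit 5) (nat_lit 80) (nat_lit 5) (nat_lit 81) (nat_lit 5) (nat_lit 359) (nat_lit 315) (nat_lit 226)) (XT.nd (nat_lit 78) (nat_lit 304) (nat_lit 0) (XT.lf (nat_lit 0) (nat_lit 13031667808) (nat_lit 152) (nat_lit 16330324315) (nat_lit 228) (nat_lit 2290132294)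 (nat_lit 75) (nat_lit 5) (nat_lit 77) (nat_lit 5) (nat_lit 78) (nat_lit 5) (nat_lit 360) (nat_lit 315) (nat_lit 225)) (XT.lf (nat_lit 0) (nat_lit 9206409472) (nat_lit 228) (nat_lit 50254158) (nat_lit 304) (nat_lit 23472084122) (nat_lit 71) (nat_lit 5) (nat_lit 74) (nat_lit 5) (nat_lit 75) (nat_lit 5) (nat_lit 361) (nat_lit 315) (nat_lit 224)))) (XT.nd (nat_lit 78) (nat_lit 304) (nat_lit 0) (XT.lf (nat_lit 0) (nat_lit 4832777682) (nat_lit 152) (nat_lit 16885533318) (nat_lit 228) (nat_lit 12128668814) (nat_lit 69) (nat_lit 5) (nat_lit 71) (nat_lit 5) (nat_lit 72) (nat_lit 5) (nat_lit 362) (nat_lit 315) (nat_lit 223)) (XT.nd (nat_lit 78) (nat_lit 0) (nat_lit 0) (XT.lf (nat_lit 0) (nat_lit 13072363) (nat_lit 304) (nat_lit 34963632283) (nat_lit 76) (nat_lit 37678484) (nat_lit 65) (nat_lit 5) (nat_lit 69) (nat_lit 5) (nat_lit 66) (nat_lit 5) (nat_lit 363) (nat_lit 315) (nat_lit 222)) (XT.lf (nat_lit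 0) (nat_lit 12966924783) (nat_lit 304) (nat_lit 5383635473) (nat_lit 76) (nat_lit 17872321442) (nat_lit 65) (nat_lit 5) (nat_lit 69) (nat_lit 5) (nat_lit 66) (nat_lit 5) (nat_lit 364) (nat_lit 315) (nat_lit 221))))) (XT.nd (nat_lit 234) (nat_lit 380) (nat_lit 0) (XT.nd (nat_lit 78) (nat_lit 380) (nat_lit 0) (XT.lf (nat_lit 0) (nat_lit 26155368008) (nat_lit 152) (nat_lit 646874947) (nat_lit 228) (nat_lit 10682552441) (nat_lit 63) (nat_lit 5) (nat_lit 65) (nat_lit 5) (nat_lit 66) (nat_lit 5) (nat_lit 365) (nat_lit 315) (nat_lit 220)) (XT.nd (nat_lit 78) (nat_lit 152) (nat_lit 0) (XT.lf (nat_lit 0) (nat_lit 2885383016) (nat_lit 228) (nat_lit 18047550387) (nat_lit 76) (nat_lit 17863697170) (nat_lit 60) (nat_lit 5) (nat_lit 63) (nat_lit 5) (nat_lit 61) (nat_lit 5) (nat_lit 366) (nat_lit 315) (nat_lit 219)) (XT.lf (nat_lit 0) (nat_lit 14638464582) (nat_lit 152) (nat_lit 2522558351) (nat_lit 228) (nat_lit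 23002357356) (nat_lit 58) (nat_lit 5) (nat_lit 60) (nat_lit 5) (nat_lit 61) (nat_lit 5) (nat_lit 367) (nat_lit 315) (nat_lit 218)))) (XT.nd (nat_lit 78) (nat_lit 228) (nat_lit 0) (XT.lf (nat_lit 0) (nat_lit 7700971662) (nat_lit 152) (nat_lit 24856265970) (nat_lit 228) (nat_lit 9029028927) (nat_lit 56) (nat_lit 5) (nat_lit 58) (nat_lit 5) (nat_lit 59) (nat_lit 5) (nat_lit 368) (nat_lit 315) (nat_lit 217)) (XT.nd (nat_lit 78) (nat_lit 152) (nat_lit 0) (XT.lf (nat_lit 0) (nat_lit 5807593507) (nat_lit 228) (nat_lit 61582662) (nat_lit 76) (nat_lit 37201254031) (nat_lit 55) (nat_lit 5) (nat_lit 58) (nat_lit 5) (nat_lit 56) (nat_lit 5) (nat_lit 369) (nat_lit 315) (nat_lit 216)) (XT.lf (nat_lit 0) (nat_lit 21671602929) (nat_lit 228) (nat_lit 8717216822) (nat_lit 76) (nat_lit 14223134192) (nat_lit 53) (nat_lit 5) (nat_lit 56) (nat_lit 5) (nat_lit 54) (nat_lit 5) (nat_lit 370) (nat_lit 315) (nat_lit 215))))))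 (XT.nd (nat_lit 468) (nat_lit 608) (nat_lit 0) (XT.nd (nat_lit 234) (nat_lit 304) (nat_lit 0) (XT.nd (nat_lit 78) (nat_lit 380) (nat_lit 0) (XT.lf (nat_lit 0) (nat_lit 27877754910) (nat_lit 152) (nat_lit 10763970489) (nat_lit 228) (nat_lit 7579443488) (nat_lit 51) (nat_lit 5) (nat_lit 53) (nat_lit 5) (nat_lit 54) (nat_lit 5) (nat_lit 371) (nat_lit 315) (nat_lit 214)) (XT.nd (nat_lit 78) (nat_lit 152) (nat_lit 0) (XT.lf (nat_lit 0) (nat_lit 8737727913) (nat_lit 228) (nat_lit 29163871388) (nat_lit 76) (nat_lit 9996130487) (nat_lit 48) (nat_lit 5) (nat_lit 51) (nat_lit 5) (nat_lit 49) (nat_lit 5) (nat_lit 372) (nat_lit 315) (nat_lit 213)) (XT.lf (nat_lit 0) (nat_lit 8345989903) (nat_lit 152) (nat_lit 17734756856) (nat_lit 228) (nat_lit 23564120456) (nat_lit 46) (nat_lit 5) (nat_lit 48) (nat_lit 5) (nat_lit 49) (nat_lit 5) (nat_lit 373) (nat_lit 315) (nat_lit 212)))) (XT.nd (nat_lit 78) (nat_lit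 304) (nat_lit 0) (XT.lf (nat_lit 0) (nat_lit 44613226948) (nat_lit 228) (nat_lit 3190908744) (nat_lit 76) (nat_lit 3665558515) (nat_lit 46) (nat_lit 5) (nat_lit 49) (nat_lit 5) (nat_lit 47) (nat_lit 4) (nat_lit 374) (nat_lit 315) (nat_lit 211)) (XT.nd (nat_lit 78) (nat_lit 152) (nat_lit 0) (XT.lf (nat_lit 0) (nat_lit 11007957649) (nat_lit 152) (nat_lit 16129778199) (nat_lit 76) (nat_lit 26229049106) (nat_lit 44) (nat_lit 5) (nat_lit 46) (nat_lit 5) (nat_lit 45) (nat_lit 5) (nat_lit 375) (nat_lit 315) (nat_lit 210)) (XT.lf (nat_lit 0) (nat_lit 24785724502) (nat_lit 152) (nat_lit 5097816433) (nat_lit 228) (nat_lit 25465362309) (nat_lit 42) (nat_lit 5) (nat_lit 44) (nat_lit 5) (nat_lit 45) (nat_lit 5) (nat_lit 376) (nat_lit 315) (nat_lit 209))))) (XT.nd (nat_lit 234) (nat_lit 304) (nat_lit 0) (XT.nd (nat_lit 78) (nat_lit 228) (nat_lit 0) (XT.lf (nat_lit 0) (nat_lit 10668750992) (nat_lit 76) (nat_lit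 39465135330) (nat_lit 152) (nat_lit 7283313323) (nat_lit 41) (nat_lit 5) (nat_lit 42) (nat_lit 5) (nat_lit 43) (nat_lit 4) (nat_lit 377) (nat_lit 315) (nat_lit 208)) (XT.nd (nat_lit 78) (nat_lit 152) (nat_lit 0) (XT.lf (nat_lit 0) (nat_lit 11934170234) (nat_lit 152) (nat_lit 5169430576) (nat_lit 76) (nat_lit 42471204115) (nat_lit 40) (nat_lit 5) (nat_lit 42) (nat_lit 5) (nat_lit 41) (nat_lit 5) (nat_lit 378) (nat_lit 315) (nat_lit 207)) (XT.lf (nat_lit 0) (nat_lit 32393500881) (nat_lit 228) (nat_lit 22735427596) (nat_lit 76) (nat_lit 6696252024) (nat_lit 38) (nat_lit 5) (nat_lit 41) (nat_lit 5) (nat_lit 39) (nat_lit 4) (nat_lit 379) (nat_lit 315) (nat_lit 206)))) (XT.nd (nat_lit 78) (nat_lit 228) (nat_lit 0) (XT.lf (nat_lit 0) (nat_lit 21712590816) (nat_lit 76) (nat_lit 32586711505) (nat_lit 152) (nat_lit 9876068817) (nat_lit 37) (nat_lit 5) (nat_lit 38) (nat_lit 5) (nat_lit 39) (nat_lit 4)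 (nat_lit 380) (nat_lit 315) (nat_lit 205)) (XT.nd (nat_lit 78) (nat_lit 0) (nat_lit 0) (XT.lf (nat_lit 0) (nat_lit 2138022763) (nat_lit 152) (nat_lit 8556903938) (nat_lit 228) (nat_lit 55937705560) (nat_lit 34) (nat_lit 5) (nat_lit 36) (nat_lit 5) (nat_lit 37) (nat_lit 5) (nat_lit 381) (nat_lit 315) (nat_lit 204)) (XT.lf (nat_lit 0) (nat_lit 32682757947) (nat_lit 228) (nat_lit 19628362035) (nat_lit 76) (nat_lit 16880928068) (nat_lit 34) (nat_lit 5) (nat_lit 37) (nat_lit 5) (nat_lit 35) (nat_lit 4) (nat_lit 382) (nat_lit 315) (nat_lit 203))))))))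
noncomputable def xc77 : XT := (XT.nd (nat_lit 42822) (nat_lit 0) (nat_lit 5244) (XT.nd (nat_lit 41886) (nat_lit 0) (nat_lit 14212) (XT.nd (nat_lit 468) (nat_lit 228) (nat_lit 0) (XT.nd (nat_lit 234) (nat_lit 228) (nat_lit 0) (XT.nd (nat_lit 78) (nat_lit 228) (nat_lit 0) (XT.lf (nat_lit 0) (nat_lit 27919994940) (nat_lit 76) (nat_lit 28194175158) (nat_lit 152) (nat_lit 15754940033) (nat_lit 33) (nat_lit 5) (nat_lit 34) (nat_lit 5) (nat_lit 35) (nat_lit 4) (nat_lit 383) (nat_lit 315) (nat_lit 202)) (XT.nd (nat_lit 78) (nat_lit 0) (nat_lit 0) (XT.lf (nat_lit 0) (nat_lit 3572358471) (nat_lit 152) (nat_lit 2575015154) (nat_lit 228) (nat_lit 68524070240) (nat_lit 30) (nat_lit 5) (nat_lit 32) (nat_lit 5) (nat_lit 33) (nat_lit 5) (nat_lit 384) (nat_lit 315) (nat_lit 201)) (XT.lf (nat_lit 0) (nat_lit 29502603985) (nat_lit 228) (nat_lit 23628298494) (nat_lit 76) (nat_lit 24457804045) (nat_lit 30) (nat_lit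 5) (nat_lit 33) (nat_lit 5) (nat_lit 31) (nat_lit 4) (nat_lit 385) (nat_lit 315) (nat_lit 200)))) (XT.nd (nat_lit 78) (nat_lit 152) (nat_lit 0) (XT.lf (nat_lit 0) (nat_lit 26692849990) (nat_lit 76) (nat_lit 27605689756) (nat_lit 152) (nat_lit 26345105243) (nat_lit 29) (nat_lit 5) (nat_lit 30) (nat_lit 5) (nat_lit 31) (nat_lit 4) (nat_lit 386) (nat_lit 315) (nat_lit 199)) (XT.nd (nat_lit 78) (nat_lit 152) (nat_lit 0) (XT.lf (nat_lit 0) (nat_lit 80006274408) (nat_lit 76) (nat_lit 561886146) (nat_lit 152) (nat_lit 3276154122) (nat_lit 29) (nat_lit 5) (nat_lit 30) (nat_lit 5) (nat_lit 31) (nat_lit 4) (nat_lit 387) (nat_lit 315) (nat_lit 198)) (XT.lf (nat_lit 0) (nat_lit 21278808733) (nat_lit 152) (nat_lit 37930557258) (nat_lit 76) (nat_lit 27967373259) (nat_lit 27) (nat_lit 5) (nat_lit 29) (nat_lit 5) (nat_lit 28) (nat_lit 4) (nat_lit 388) (nat_lit 315) (nat_lit 197))))) (XT.nd (nat_lit 41184) (nat_lit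 0) (nat_lit 18468) (XT.nd (nat_lit 78) (nat_lit 152) (nat_lit 0) (XT.lf (nat_lit 0) (nat_lit 14619782308) (nat_lit 76) (nat_lit 32551925533) (nat_lit 152) (nat_lit 43497766610) (nat_lit 26) (nat_lit 5) (nat_lit 27) (nat_lit 5) (nat_lit 28) (nat_lit 4) (nat_lit 389) (nat_lit 315) (nat_lit 196)) (XT.nd (nat_lit 78) (nat_lit 152) (nat_lit 0) (XT.lf (nat_lit 0) (nat_lit 70574159356) (nat_lit 76) (nat_lit 4167026093) (nat_lit 152) (nat_lit 19584203748) (nat_lit 26) (nat_lit 5) (nat_lit 27) (nat_lit 5) (nat_lit 28) (nat_lit 4) (nat_lit 390) (nat_lit 315) (nat_lit 195)) (XT.lf (nat_lit 0) (nat_lit 5963772745) (nat_lit 152) (nat_lit 66691166808) (nat_lit 76) (nat_lit 25491171092) (nat_lit 24) (nat_lit 5) (nat_lit 26) (nat_lit 5) (nat_lit 25) (nat_lit 4) (nat_lit 391) (nat_lit 315) (nat_lit 194)))) (XT.nd (nat_lit 78) (nat_lit 0) (nat_lit 76) (XT.lf (nat_lit 0) (nat_lit 637634070) (nat_lit 1140) (nat_lit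 2041880915) (nat_lit 1140) (nat_lit 2041880915) (nat_lit 267) (nat_lit 3) (nat_lit 282) (nat_lit 3) (nat_lit 282) (nat_lit 5) (nat_lit 316) (nat_lit 316) (nat_lit 268)) (XT.nd (nat_lit 78) (nat_lit 0) (nat_lit 0) (XT.lf (nat_lit 0) (nat_lit 2646862703) (nat_lit 1064) (nat_lit 6126538706) (nat_lit 1140) (nat_lit 864533355) (nat_lit 268) (nat_lit 5) (nat_lit 282) (nat_lit 5) (nat_lit 283) (nat_lit 5) (nat_lit 317) (nat_lit 316) (nat_lit 267)) (XT.lf (nat_lit 76) (nat_lit 1661410817) (nat_lit 0) (nat_lit 2455055099) (nat_lit 1140) (nat_lit 5725533166) (nat_lit 269) (nat_lit 5) (nat_lit 268) (nat_lit 5) (nat_lit 283) (nat_lit 5) (nat_lit 318) (nat_lit 316) (nat_lit 266)))))) (XT.nd (nat_lit 468) (nat_lit 3420) (nat_lit 0) (XT.nd (nat_lit 234) (nat_lit 988) (nat_lit 0) (XT.nd (nat_lit 78) (nat_lit 0) (nat_lit 76) (XT.lf (nat_lit 0) (nat_lit 5684179116) (nat_lit 1064) (nat_lit 176393992) (nat_lit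 1140) (nat_lit 4194999449) (nat_lit 269) (nat_lit 5) (nat_lit 283) (nat_lit 5) (nat_lit 284) (nat_lit 5) (nat_lit 319) (nat_lit 316) (nat_lit 265)) (XT.nd (nat_lit 78) (nat_lit 0) (nat_lit 0) (XT.lf (nat_lit 0) (nat_lit 7368801996) (nat_lit 1064) (nat_lit 1968358826) (nat_lit 1140) (nat_lit 941550864) (nat_lit 270) (nat_lit 5) (nat_lit 284) (nat_lit 5) (nat_lit 285) (nat_lit 5) (nat_lit 320) (nat_lit 316) (nat_lit 264)) (XT.lf (nat_lit 76) (nat_lit 6737586982) (nat_lit 0) (nat_lit 2453793489) (nat_lit 1140) (nat_lit 1320056236) (nat_lit 271) (nat_lit 5) (nat_lit 270) (nat_lit 5) (nat_lit 285) (nat_lit 5) (nat_lit 321) (nat_lit 316) (nat_lit 263)))) (XT.nd (nat_lit 78) (nat_lit 0) (nat_lit 76) (XT.lf (nat_lit 0) (nat_lit 390159494) (nat_lit 1140) (nat_lit 5586519942) (nat_lit 1216) (nat_lit 4777624853) (nat_lit 256) (nat_lit 5) (nat_lit 271) (nat_lit 5) (nat_lit 272) (nat_lit 5) (nat_lit 322)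 (nat_lit 316) (nat_lit 262)) (XT.nd (nat_lit 78) (nat_lit 0) (nat_lit 0) (XT.lf (nat_lit 0) (nat_lit 2204538229) (nat_lit 1140) (nat_lit 7410305523) (nat_lit 1216) (nat_lit 1392736624) (nat_lit 257) (nat_lit 5) (nat_lit 272) (nat_lit 5) (nat_lit 273) (nat_lit 5) (nat_lit 323) (nat_lit 316) (nat_lit 261)) (XT.lf (nat_lit 76) (nat_lit 2015015947) (nat_lit 0) (nat_lit 2168617452) (nat_lit 1216) (nat_lit 7087701049) (nat_lit 258) (nat_lit 5) (nat_lit 257) (nat_lit 5) (nat_lit 273) (nat_lit 5) (nat_lit 324) (nat_lit 316) (nat_lit 260))))) (XT.nd (nat_lit 234) (nat_lit 2508) (nat_lit 0) (XT.nd (nat_lit 78) (nat_lit 1064) (nat_lit 0) (XT.lf (nat_lit 76) (nat_lit 424460430) (nat_lit 0) (nat_lit 5911594742) (nat_lit 1216) (nat_lit 5210022381) (nat_lit 259) (nat_lit 5) (nat_lit 258) (nat_lit 5) (nat_lit 274) (nat_lit 5) (nat_lit 325) (nat_lit 316) (nat_lit 259)) (XT.nd (nat_lit 78) (nat_lit 1140) (nat_lit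 0) (XT.lf (nat_lit 0) (nat_lit 8674232554) (nat_lit 1140) (nat_lit 1140052850) (nat_lit 76) (nat_lit 2017959310) (nat_lit 259) (nat_lit 5) (nat_lit 274) (nat_lit 5) (nat_lit 260) (nat_lit 5) (nat_lit 326) (nat_lit 316) (nat_lit 258)) (XT.lf (nat_lit 0) (nat_lit 9417348098) (nat_lit 1140) (nat_lit 1806444074) (nat_lit 1216) (nat_lit 906123323) (nat_lit 244) (nat_lit 5) (nat_lit 259) (nat_lit 5) (nat_lit 260) (nat_lit 5) (nat_lit 327) (nat_lit 316) (nat_lit 257)))) (XT.nd (nat_lit 78) (nat_lit 1216) (nat_lit 0) (XT.lf (nat_lit 0) (nat_lit 1530909332) (nat_lit 1292) (nat_lit 4322766853) (nat_lit 76) (nat_lit 6585370095) (nat_lit 227) (nat_lit 5) (nat_lit 244) (nat_lit 5) (nat_lit 228) (nat_lit 5) (nat_lit 328) (nat_lit 316) (nat_lit 256)) (XT.nd (nat_lit 78) (nat_lit 608) (nat_lit 0) (XT.lf (nat_lit 0) (nat_lit 4157553987) (nat_lit 684) (nat_lit 5948728070) (nat_lit 76) (nat_lit 2654513336) (nat_lit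 219) (nat_lit 5) (nat_lit 228) (nat_lit 5) (nat_lit 220) (nat_lit 5) (nat_lit 329) (nat_lit 316) (nat_lit 255)) (XT.lf (nat_lit 0) (nat_lit 5496840114) (nat_lit 608) (nat_lit 1525745620) (nat_lit 684) (nat_lit 6072859293) (nat_lit 211) (nat_lit 5) (nat_lit 219) (nat_lit 5) (nat_lit 220) (nat_lit 5) (nat_lit 330) (nat_lit 316) (nat_lit 254))))))) (XT.nd (nat_lit 936) (nat_lit 3572) (nat_lit 0) (XT.nd (nat_lit 468) (nat_lit 2660) (nat_lit 0) (XT.nd (nat_lit 234) (nat_lit 988) (nat_lit 0) (XT.nd (nat_lit 78) (nat_lit 1140) (nat_lit 0) (XT.lf (nat_lit 0) (nat_lit 4154847032) (nat_lit 608) (nat_lit 6001880328) (nat_lit 684) (nat_lit 3286347567) (nat_lit 203) (nat_lit 5) (nat_lit 211) (nat_lit 5) (nat_lit 212) (nat_lit 5) (nat_lit 331) (nat_lit 316) (nat_lit 253)) (XT.nd (nat_lit 78) (nat_lit 608) (nat_lit 0) (XT.lf (nat_lit 0) (nat_lit 2811122165) (nat_lit 532) (nat_lit 10740693916) (nat_lit 608)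 (nat_lit 253165451) (nat_lit 196) (nat_lit 5) (nat_lit 203) (nat_lit 5) (nat_lit 204) (nat_lit 5) (nat_lit 332) (nat_lit 316) (nat_lit 252)) (XT.lf (nat_lit 0) (nat_lit 1418119933) (nat_lit 532) (nat_lit 1582374487) (nat_lit 608) (nat_lit 11179883556) (nat_lit 188) (nat_lit 5) (nat_lit 195) (nat_lit 5) (nat_lit 196) (nat_lit 5) (nat_lit 333) (nat_lit 316) (nat_lit 251)))) (XT.nd (nat_lit 78) (nat_lit 988) (nat_lit 0) (XT.lf (nat_lit 0) (nat_lit 6560086136) (nat_lit 608) (nat_lit 18810578) (nat_lit 76) (nat_lit 7991137523) (nat_lit 188) (nat_lit 5) (nat_lit 196) (nat_lit 5) (nat_lit 189) (nat_lit 5) (nat_lit 334) (nat_lit 316) (nat_lit 250)) (XT.nd (nat_lit 78) (nat_lit 532) (nat_lit 0) (XT.lf (nat_lit 0) (nat_lit 10433399098) (nat_lit 532) (nat_lit 1440830436) (nat_lit 76) (nat_lit 3100890327) (nat_lit 182) (nat_lit 5) (nat_lit 189) (nat_lit 5) (nat_lit 183) (nat_lit 5) (nat_lit 335) (nat_lit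 316) (nat_lit 249)) (XT.lf (nat_lit 0) (nat_lit 12497629282) (nat_lit 532) (nat_lit 2149944008) (nat_lit 608) (nat_lit 748488510) (nat_lit 175) (nat_lit 5) (nat_lit 182) (nat_lit 5) (nat_lit 183) (nat_lit 5) (nat_lit 336) (nat_lit 316) (nat_lit 248))))) (XT.nd (nat_lit 234) (nat_lit 1292) (nat_lit 0) (XT.nd (nat_lit 78) (nat_lit 836) (nat_lit 0) (XT.lf (nat_lit 0) (nat_lit 3337071248) (nat_lit 532) (nat_lit 4439652843) (nat_lit 76) (nat_lit 8055437141) (nat_lit 168) (nat_lit 5) (nat_lit 175) (nat_lit 5) (nat_lit 169) (nat_lit 5) (nat_lit 337) (nat_lit 316) (nat_lit 247)) (XT.nd (nat_lit 78) (nat_lit 380) (nat_lit 0) (XT.lf (nat_lit 0) (nat_lit 7749993952) (nat_lit 532) (nat_lit 6014512086) (nat_lit 76) (nat_lit 2521196093) (nat_lit 162) (nat_lit 5) (nat_lit 169) (nat_lit 5) (nat_lit 163) (nat_lit 5) (nat_lit 338) (nat_lit 316) (nat_lit 246)) (XT.lf (nat_lit 0) (nat_lit 9104646713) (nat_lit 380)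 (nat_lit 3455262939) (nat_lit 456) (nat_lit 4196735032) (nat_lit 157) (nat_lit 5) (nat_lit 162) (nat_lit 5) (nat_lit 163) (nat_lit 5) (nat_lit 339) (nat_lit 316) (nat_lit 245)))) (XT.nd (nat_lit 78) (nat_lit 760) (nat_lit 0) (XT.lf (nat_lit 0) (nat_lit 528551651) (nat_lit 532) (nat_lit 9355896778) (nat_lit 76) (nat_lit 7361305019) (nat_lit 150) (nat_lit 5) (nat_lit 157) (nat_lit 5) (nat_lit 151) (nat_lit 5) (nat_lit 340) (nat_lit 316) (nat_lit 244)) (XT.nd (nat_lit 78) (nat_lit 380) (nat_lit 0) (XT.lf (nat_lit 0) (nat_lit 5558769071) (nat_lit 456) (nat_lit 11144133991) (nat_lit 76) (nat_lit 1050517415) (nat_lit 145) (nat_lit 5) (nat_lit 151) (nat_lit 5) (nat_lit 146) (nat_lit 5) (nat_lit 341) (nat_lit 316) (nat_lit 243)) (XT.lf (nat_lit 0) (nat_lit 5243570556) (nat_lit 380) (nat_lit 5811771126) (nat_lit 456) (nat_lit 7224696438) (nat_lit 140) (nat_lit 5) (nat_lit 145) (nat_lit 5) (nat_lit 146)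 (nat_lit 5) (nat_lit 342) (nat_lit 316) (nat_lit 242)))))) (XT.nd (nat_lit 468) (nat_lit 1824) (nat_lit 0) (XT.nd (nat_lit 234) (nat_lit 684) (nat_lit 0) (XT.nd (nat_lit 78) (nat_lit 760) (nat_lit 0) (XT.lf (nat_lit 0) (nat_lit 3831235890) (nat_lit 304) (nat_lit 13170717062) (nat_lit 380) (nat_lit 1825789383) (nat_lit 136) (nat_lit 5) (nat_lit 140) (nat_lit 5) (nat_lit 141) (nat_lit 5) (nat_lit 343) (nat_lit 316) (nat_lit 241)) (XT.nd (nat_lit 78) (nat_lit 304) (nat_lit 0) (XT.lf (nat_lit 0) (nat_lit 2322601178) (nat_lit 380) (nat_lit 1631243765) (nat_lit 456) (nat_lit 15442316434) (nat_lit 130) (nat_lit 5) (nat_lit 135) (nat_lit 5) (nat_lit 136) (nat_lit 5) (nat_lit 344) (nat_lit 316) (nat_lit 240)) (XT.lf (nat_lit 0) (nat_lit 683943128) (nat_lit 304) (nat_lit 9534607715) (nat_lit 380) (nat_lit 9766903275) (nat_lit 126) (nat_lit 5) (nat_lit 130) (nat_lit 5) (nat_lit 131) (nat_lit 5) (nat_lit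 345) (nat_lit 316) (nat_lit 239)))) (XT.nd (nat_lit 78) (nat_lit 684) (nat_lit 0) (XT.lf (nat_lit 0) (nat_lit 16985473575) (nat_lit 380) (nat_lit 995813183) (nat_lit 76) (nat_lit 2617265349) (nat_lit 126) (nat_lit 5) (nat_lit 131) (nat_lit 5) (nat_lit 127) (nat_lit 5) (nat_lit 346) (nat_lit 316) (nat_lit 238)) (XT.nd (nat_lit 78) (nat_lit 304) (nat_lit 0) (XT.lf (nat_lit 0) (nat_lit 3041395061) (nat_lit 380) (nat_lit 2814751265) (nat_lit 76) (nat_lit 15377890315) (nat_lit 121) (nat_lit 5) (nat_lit 126) (nat_lit 5) (nat_lit 122) (nat_lit 5) (nat_lit 347) (nat_lit 316) (nat_lit 237)) (XT.lf (nat_lit 0) (nat_lit 10171387115) (nat_lit 380) (nat_lit 4778473440) (nat_lit 76) (nat_lit 6943844949) (nat_lit 117) (nat_lit 5) (nat_lit 122) (nat_lit 5) (nat_lit 118) (nat_lit 5) (nat_lit 348) (nat_lit 316) (nat_lit 236))))) (XT.nd (nat_lit 234) (nat_lit 836) (nat_lit 0) (XT.nd (nat_lit 78) (nat_lit 684)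 (nat_lit 0) (XT.lf (nat_lit 0) (nat_lit 15724530746) (nat_lit 304) (nat_lit 2146878430) (nat_lit 380) (nat_lit 4708551157) (nat_lit 113) (nat_lit 5) (nat_lit 117) (nat_lit 5) (nat_lit 118) (nat_lit 5) (nat_lit 349) (nat_lit 316) (nat_lit 235)) (XT.nd (nat_lit 78) (nat_lit 304) (nat_lit 0) (XT.lf (nat_lit 0) (nat_lit 2876120268) (nat_lit 380) (nat_lit 9136984987) (nat_lit 76) (nat_lit 11278503279) (nat_lit 108) (nat_lit 5) (nat_lit 113) (nat_lit 5) (nat_lit 109) (nat_lit 5) (nat_lit 350) (nat_lit 316) (nat_lit 234)) (XT.lf (nat_lit 0) (nat_lit 10946293668) (nat_lit 380) (nat_lit 11588472565) (nat_lit 76) (nat_lit 1496572307) (nat_lit 104) (nat_lit 5) (nat_lit 109) (nat_lit 5) (nat_lit 105) (nat_lit 5) (nat_lit 351) (nat_lit 316) (nat_lit 233)))) (XT.nd (nat_lit 78) (nat_lit 608) (nat_lit 0) (XT.lf (nat_lit 0) (nat_lit 10534301366) (nat_lit 228) (nat_lit 9179266360) (nat_lit 304) (nat_lit 5085686635)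 (nat_lit 101) (nat_lit 5) (nat_lit 104) (nat_lit 5) (nat_lit 105) (nat_lit 5) (nat_lit 352) (nat_lit 316) (nat_lit 232)) (XT.nd (nat_lit 78) (nat_lit 228) (nat_lit 0) (XT.lf (nat_lit 0) (nat_lit 3476575472) (nat_lit 380) (nat_lit 17147697910) (nat_lit 76) (nat_lit 4973515639) (nat_lit 96) (nat_lit 5) (nat_lit 101) (nat_lit 5) (nat_lit 97) (nat_lit 5) (nat_lit 353) (nat_lit 316) (nat_lit 231)) (XT.lf (nat_lit 0) (nat_lit 6105391275) (nat_lit 228) (nat_lit 6534304333) (nat_lit 304) (nat_lit 13786712696) (nat_lit 93) (nat_lit 5) (nat_lit 96) (nat_lit 5) (nat_lit 97) (nat_lit 5) (nat_lit 354) (nat_lit 316) (nat_lit 230))))))))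
noncomputable def xc78 : XT := (XT.nd (nat_lit 1872) (nat_lit 1140) (nat_lit 0) (XT.nd (nat_lit 936) (nat_lit 1672) (nat_lit 0) (XT.nd (nat_lit 468) (nat_lit 1064) (nat_lit 0) (XT.nd (nat_lit 234) (nat_lit 684) (nat_lit 0) (XT.nd (nat_lit 78) (nat_lit 304) (nat_lit 0) (XT.lf (nat_lit 0) (nat_lit 3541283053) (nat_lit 228) (nat_lit 18989339544) (nat_lit 304) (nat_lit 4757752361) (nat_lit 90) (nat_lit 5) (nat_lit 93) (nat_lit 5) (nat_lit 94) (nat_lit 5) (nat_lit 355) (nat_lit 316) (nat_lit 229)) (XT.nd (nat_lit 78) (nat_lit 0) (nat_lit 0) (XT.lf (nat_lit 0) (nat_lit 700011645) (nat_lit 228) (nat_lit 4192874737) (nat_lit 304) (nat_lit 23291325544) (nat_lit 86) (nat_lit 5) (nat_lit 89) (nat_lit 5) (nat_lit 90) (nat_lit 5) (nat_lit 356) (nat_lit 316) (nat_lit 228)) (XT.lf (nat_lit 0) (nat_lit 15263520877) (nat_lit 304) (nat_lit 2445207907) (nat_lit 76) (nat_lit 11404628148) (nat_lit 86) (nat_lit 5)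 (nat_lit 90) (nat_lit 5) (nat_lit 87) (nat_lit 5) (nat_lit 357) (nat_lit 316) (nat_lit 227)))) (XT.nd (nat_lit 78) (nat_lit 456) (nat_lit 0) (XT.lf (nat_lit 0) (nat_lit 24244187474) (nat_lit 228) (nat_lit 2163899002) (nat_lit 304) (nat_lit 3673215704) (nat_lit 83) (nat_lit 5) (nat_lit 86) (nat_lit 5) (nat_lit 87) (nat_lit 5) (nat_lit 358) (nat_lit 316) (nat_lit 226)) (XT.nd (nat_lit 78) (nat_lit 228) (nat_lit 0) (XT.lf (nat_lit 0) (nat_lit 7227340146) (nat_lit 228) (nat_lit 9684979750) (nat_lit 76) (nat_lit 14172749067) (nat_lit 80) (nat_lit 5) (nat_lit 83) (nat_lit 5) (nat_lit 81) (nat_lit 5) (nat_lit 359) (nat_lit 316) (nat_lit 225)) (XT.lf (nat_lit 0) (nat_lit 18249177741) (nat_lit 228) (nat_lit 587430725) (nat_lit 304) (nat_lit 13294139373) (nat_lit 77) (nat_lit 5) (nat_lit 80) (nat_lit 5) (nat_lit 81) (nat_lit 5) (nat_lit 360) (nat_lit 316) (nat_lit 224))))) (XT.nd (nat_lit 234) (nat_lit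 456) (nat_lit 0) (XT.nd (nat_lit 78) (nat_lit 456) (nat_lit 0) (XT.lf (nat_lit 0) (nat_lit 14651634229) (nat_lit 152) (nat_lit 16756852978) (nat_lit 228) (nat_lit 1808763215) (nat_lit 75) (nat_lit 5) (nat_lit 77) (nat_lit 5) (nat_lit 78) (nat_lit 5) (nat_lit 361) (nat_lit 316) (nat_lit 223)) (XT.nd (nat_lit 78) (nat_lit 152) (nat_lit 0) (XT.lf (nat_lit 0) (nat_lit 10288282760) (nat_lit 304) (nat_lit 23732536903) (nat_lit 76) (nat_lit 327183218) (nat_lit 71) (nat_lit 5) (nat_lit 75) (nat_lit 5) (nat_lit 72) (nat_lit 5) (nat_lit 362) (nat_lit 316) (nat_lit 222)) (XT.lf (nat_lit 0) (nat_lit 6012154315) (nat_lit 152) (nat_lit 17343270320) (nat_lit 228) (nat_lit 12167255200) (nat_lit 69) (nat_lit 5) (nat_lit 71) (nat_lit 5) (nat_lit 72) (nat_lit 5) (nat_lit 363) (nat_lit 316) (nat_lit 221)))) (XT.nd (nat_lit 78) (nat_lit 152) (nat_lit 0) (XT.lf (nat_lit 0) (nat_lit 556517737) (nat_lit 304) (nat_lit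 35777486499) (nat_lit 76) (nat_lit 414709789) (nat_lit 65) (nat_lit 5) (nat_lit 69) (nat_lit 5) (nat_lit 66) (nat_lit 5) (nat_lit 364) (nat_lit 316) (nat_lit 220)) (XT.nd (nat_lit 78) (nat_lit 152) (nat_lit 0) (XT.lf (nat_lit 0) (nat_lit 14132215551) (nat_lit 304) (nat_lit 4762981629) (nat_lit 76) (nat_lit 19123220734) (nat_lit 65) (nat_lit 5) (nat_lit 69) (nat_lit 5) (nat_lit 66) (nat_lit 5) (nat_lit 365) (nat_lit 316) (nat_lit 219)) (XT.lf (nat_lit 0) (nat_lit 28327465067) (nat_lit 152) (nat_lit 315526615) (nat_lit 228) (nat_lit 10700929593) (nat_lit 63) (nat_lit 5) (nat_lit 65) (nat_lit 5) (nat_lit 66) (nat_lit 5) (nat_lit 366) (nat_lit 316) (nat_lit 218)))))) (XT.nd (nat_lit 468) (nat_lit 760) (nat_lit 0) (XT.nd (nat_lit 234) (nat_lit 380) (nat_lit 0) (XT.nd (nat_lit 78) (nat_lit 304) (nat_lit 0) (XT.lf (nat_lit 0) (nat_lit 3522880456) (nat_lit 228) (nat_lit 18089186359) (nat_lit 76) (nat_lit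 19109510789) (nat_lit 60) (nat_lit 5) (nat_lit 63) (nat_lit 5) (nat_lit 61) (nat_lit 5) (nat_lit 367) (nat_lit 316) (nat_lit 217)) (XT.nd (nat_lit 78) (nat_lit 152) (nat_lit 0) (XT.lf (nat_lit 0) (nat_lit 16206456375) (nat_lit 152) (nat_lit 2290395735) (nat_lit 228) (nat_lit 23660280377) (nat_lit 58) (nat_lit 5) (nat_lit 60) (nat_lit 5) (nat_lit 61) (nat_lit 5) (nat_lit 368) (nat_lit 316) (nat_lit 216)) (XT.lf (nat_lit 0) (nat_lit 8908781250) (nat_lit 152) (nat_lit 25742533943) (nat_lit 228) (nat_lit 9000198722) (nat_lit 56) (nat_lit 5) (nat_lit 58) (nat_lit 5) (nat_lit 59) (nat_lit 5) (nat_lit 369) (nat_lit 316) (nat_lit 215)))) (XT.nd (nat_lit 78) (nat_lit 152) (nat_lit 0) (XT.lf (nat_lit 0) (nat_lit 742406383) (nat_lit 152) (nat_lit 5811188622) (nat_lit 228) (nat_lit 38656614541) (nat_lit 53) (nat_lit 5) (nat_lit 55) (nat_lit 5) (nat_lit 56) (nat_lit 5) (nat_lit 370) (nat_lit 316) (nat_lit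 214)) (XT.nd (nat_lit 78) (nat_lit 152) (nat_lit 0) (XT.lf (nat_lit 0) (nat_lit 23192935796) (nat_lit 228) (nat_lit 8373333220) (nat_lit 76) (nat_lit 15263080034) (nat_lit 53) (nat_lit 5) (nat_lit 56) (nat_lit 5) (nat_lit 54) (nat_lit 5) (nat_lit 371) (nat_lit 316) (nat_lit 213)) (XT.lf (nat_lit 0) (nat_lit 30029035881) (nat_lit 152) (nat_lit 10968963667) (nat_lit 228) (nat_lit 7521435471) (nat_lit 51) (nat_lit 5) (nat_lit 53) (nat_lit 5) (nat_lit 54) (nat_lit 5) (nat_lit 372) (nat_lit 316) (nat_lit 212))))) (XT.nd (nat_lit 234) (nat_lit 380) (nat_lit 0) (XT.nd (nat_lit 78) (nat_lit 152) (nat_lit 0) (XT.lf (nat_lit 0) (nat_lit 9592977839) (nat_lit 228) (nat_lit 29868679889) (nat_lit 76) (nat_lit 10818345992) (nat_lit 48) (nat_lit 5) (nat_lit 51) (nat_lit 5) (nat_lit 49) (nat_lit 5) (nat_lit 373) (nat_lit 316) (nat_lit 211)) (XT.nd (nat_lit 78) (nat_lit 0) (nat_lit 0) (XT.lf (nat_lit 0) (nat_lit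 9495078835) (nat_lit 152) (nat_lit 18295181128) (nat_lit 228) (nat_lit 24324627622) (nat_lit 46) (nat_lit 5) (nat_lit 48) (nat_lit 5) (nat_lit 49) (nat_lit 5) (nat_lit 374) (nat_lit 316) (nat_lit 210)) (XT.lf (nat_lit 0) (nat_lit 47233043144) (nat_lit 228) (nat_lit 2644858274) (nat_lit 76) (nat_lit 4153546935) (nat_lit 46) (nat_lit 5) (nat_lit 49) (nat_lit 5) (nat_lit 47) (nat_lit 4) (nat_lit 375) (nat_lit 316) (nat_lit 209)))) (XT.nd (nat_lit 78) (nat_lit 228) (nat_lit 0) (XT.lf (nat_lit 0) (nat_lit 11939354382) (nat_lit 152) (nat_lit 16243262637) (nat_lit 76) (nat_lit 27841025511) (nat_lit 44) (nat_lit 5) (nat_lit 46) (nat_lit 5) (nat_lit 45) (nat_lit 5) (nat_lit 376) (nat_lit 316) (nat_lit 208)) (XT.nd (nat_lit 78) (nat_lit 76) (nat_lit 0) (XT.lf (nat_lit 0) (nat_lit 26698150365) (nat_lit 152) (nat_lit 5048894295) (nat_lit 228) (nat_lit 26358174703) (nat_lit 42) (nat_lit 5) (nat_lit 44) (nat_lit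 5) (nat_lit 45) (nat_lit 5) (nat_lit 377) (nat_lit 316) (nat_lit 207)) (XT.lf (nat_lit 0) (nat_lit 11864006076) (nat_lit 76) (nat_lit 41137457418) (nat_lit 152) (nat_lit 7275722748) (nat_lit 41) (nat_lit 5) (nat_lit 42) (nat_lit 5) (nat_lit 43) (nat_lit 4) (nat_lit 378) (nat_lit 316) (nat_lit 206))))))) (XT.nd (nat_lit 936) (nat_lit 0) (nat_lit 0) (XT.nd (nat_lit 468) (nat_lit 532) (nat_lit 0) (XT.nd (nat_lit 234) (nat_lit 304) (nat_lit 0) (XT.nd (nat_lit 78) (nat_lit 228) (nat_lit 0) (XT.lf (nat_lit 0) (nat_lit 12878023448) (nat_lit 152) (nat_lit 4790647467) (nat_lit 76) (nat_lit 44874416552) (nat_lit 40) (nat_lit 5) (nat_lit 42) (nat_lit 5) (nat_lit 41) (nat_lit 5) (nat_lit 379) (nat_lit 316) (nat_lit 205)) (XT.nd (nat_lit 78) (nat_lit 76) (nat_lit 0) (XT.lf (nat_lit 0) (nat_lit 34352454847) (nat_lit 228) (nat_lit 23245787722) (nat_lit 76) (nat_lit 7307977291) (nat_lit 38) (nat_lit 5) (nat_lit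 41) (nat_lit 5) (nat_lit 39) (nat_lit 4) (nat_lit 380) (nat_lit 316) (nat_lit 204)) (XT.lf (nat_lit 0) (nat_lit 23406675658) (nat_lit 76) (nat_lit 33936563406) (nat_lit 152) (nat_lit 10030992149) (nat_lit 37) (nat_lit 5) (nat_lit 38) (nat_lit 5) (nat_lit 39) (nat_lit 4) (nat_lit 381) (nat_lit 316) (nat_lit 203)))) (XT.nd (nat_lit 78) (nat_lit 76) (nat_lit 0) (XT.lf (nat_lit 0) (nat_lit 2842398264) (nat_lit 152) (nat_lit 8709463145) (nat_lit 228) (nat_lit 58402700445) (nat_lit 34) (nat_lit 5) (nat_lit 36) (nat_lit 5) (nat_lit 37) (nat_lit 5) (nat_lit 382) (nat_lit 316) (nat_lit 202)) (XT.nd (nat_lit 78) (nat_lit 76) (nat_lit 0) (XT.lf (nat_lit 0) (nat_lit 34626262120) (nat_lit 228) (nat_lit 20034037123) (nat_lit 76) (nat_lit 17982035585) (nat_lit 34) (nat_lit 5) (nat_lit 37) (nat_lit 5) (nat_lit 35) (nat_lit 4) (nat_lit 383) (nat_lit 316) (nat_lit 201)) (XT.lf (nat_lit 0) (nat_lit 29875234143)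 (nat_lit 76) (nat_lit 29344654760) (nat_lit 152) (nat_lit 16233643438) (nat_lit 33) (nat_lit 5) (nat_lit 34) (nat_lit 5) (nat_lit 35) (nat_lit 4) (nat_lit 384) (nat_lit 316) (nat_lit 200))))) (XT.nd (nat_lit 234) (nat_lit 228) (nat_lit 0) (XT.nd (nat_lit 78) (nat_lit 76) (nat_lit 0) (XT.lf (nat_lit 0) (nat_lit 4300074162) (nat_lit 152) (nat_lit 2448530259) (nat_lit 228) (nat_lit 71647565273) (nat_lit 30) (nat_lit 5) (nat_lit 32) (nat_lit 5) (nat_lit 33) (nat_lit 5) (nat_lit 385) (nat_lit 316) (nat_lit 199)) (XT.nd (nat_lit 78) (nat_lit 76) (nat_lit 0) (XT.lf (nat_lit 0) (nat_lit 31259939513) (nat_lit 228) (nat_lit 24280674704) (nat_lit 76) (nat_lit 25919032425) (nat_lit 30) (nat_lit 5) (nat_lit 33) (nat_lit 5) (nat_lit 31) (nat_lit 4) (nat_lit 386) (nat_lit 316) (nat_lit 198)) (XT.lf (nat_lit 0) (nat_lit 28541366416) (nat_lit 76) (nat_lit 28745806968) (nat_lit 152) (nat_lit 27380414990) (nat_lit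 29) (nat_lit 5) (nat_lit 30) (nat_lit 5) (nat_lit 31) (nat_lit 4) (nat_lit 387) (nat_lit 316) (nat_lit 197)))) (XT.nd (nat_lit 78) (nat_lit 228) (nat_lit 0) (XT.lf (nat_lit 0) (nat_lit 84495991868) (nat_lit 76) (nat_lit 361249714) (nat_lit 152) (nat_lit 3171442289) (nat_lit 29) (nat_lit 5) (nat_lit 30) (nat_lit 5) (nat_lit 31) (nat_lit 4) (nat_lit 388) (nat_lit 316) (nat_lit 196)) (XT.nd (nat_lit 78) (nat_lit 76) (nat_lit 0) (XT.lf (nat_lit 0) (nat_lit 22600274623) (nat_lit 152) (nat_lit 39341074473) (nat_lit 76) (nat_lit 29586476991) (nat_lit 27) (nat_lit 5) (nat_lit 29) (nat_lit 5) (nat_lit 28) (nat_lit 4) (nat_lit 389) (nat_lit 316) (nat_lit 195)) (XT.lf (nat_lit 0) (nat_lit 15822850674) (nat_lit 76) (nat_lit 33957242809) (nat_lit 152) (nat_lit 45415337480) (nat_lit 26) (nat_lit 5) (nat_lit 27) (nat_lit 5) (nat_lit 28) (nat_lit 4) (nat_lit 390) (nat_lit 316) (nat_lit 194)))))) (XT.nd (nat_lit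 41496) (nat_lit 0) (nat_lit 16568) (XT.nd (nat_lit 41262) (nat_lit 0) (nat_lit 18392) (XT.nd (nat_lit 41106) (nat_lit 0) (nat_lit 18316) (XT.lf (nat_lit 0) (nat_lit 74552466610) (nat_lit 76) (nat_lit 4163683112) (nat_lit 152) (nat_lit 20318349687) (nat_lit 26) (nat_lit 5) (nat_lit 27) (nat_lit 5) (nat_lit 28) (nat_lit 4) (nat_lit 391) (nat_lit 316) (nat_lit 193)) (XT.nd (nat_lit 78) (nat_lit 0) (nat_lit 0) (XT.lf (nat_lit 0) (nat_lit 1946659168) (nat_lit 1140) (nat_lit 1485884130) (nat_lit 1140) (nat_lit 1485884130) (nat_lit 267) (nat_lit 3) (nat_lit 282) (nat_lit 3) (nat_lit 282) (nat_lit 5) (nat_lit 317) (nat_lit 317) (nat_lit 266)) (XT.lf (nat_lit 76) (nat_lit 4974586038) (nat_lit 0) (nat_lit 240663554) (nat_lit 1140) (nat_lit 4830121613) (nat_lit 268) (nat_lit 5) (nat_lit 267) (nat_lit 3) (nat_lit 282) (nat_lit 5) (nat_lit 318) (nat_lit 317) (nat_lit 265)))) (XT.nd (nat_lit 78) (nat_lit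 0) (nat_lit 76) (XT.lf (nat_lit 76) (nat_lit 3069765160) (nat_lit 0) (nat_lit 3583101917) (nat_lit 1140) (nat_lit 3610001303) (nat_lit 269) (nat_lit 5) (nat_lit 268) (nat_lit 5) (nat_lit 283) (nat_lit 5) (nat_lit 319) (nat_lit 317) (nat_lit 264)) (XT.nd (nat_lit 78) (nat_lit 0) (nat_lit 76) (XT.lf (nat_lit 76) (nat_lit 1176970342) (nat_lit 0) (nat_lit 7013126121) (nat_lit 1140) (nat_lit 2300352691) (nat_lit 270) (nat_lit 5) (nat_lit 269) (nat_lit 5) (nat_lit 284) (nat_lit 5) (nat_lit 320) (nat_lit 317) (nat_lit 263)) (XT.lf (nat_lit 0) (nat_lit 9847032493) (nat_lit 1064) (nat_lit 693375861) (nat_lit 1140) (nat_lit 187753986) (nat_lit 270) (nat_lit 5) (nat_lit 284) (nat_lit 5) (nat_lit 285) (nat_lit 5) (nat_lit 321) (nat_lit 317) (nat_lit 262))))) (XT.nd (nat_lit 234) (nat_lit 836) (nat_lit 0) (XT.nd (nat_lit 78) (nat_lit 0) (nat_lit 76) (XT.lf (nat_lit 0) (nat_lit 684269302) (nat_lit 1140) (nat_lit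 2573419163) (nat_lit 1216) (nat_lit 7717319895) (nat_lit 255) (nat_lit 5) (nat_lit 270) (nat_lit 5) (nat_lit 271) (nat_lit 5) (nat_lit 322) (nat_lit 317) (nat_lit 261)) (XT.nd (nat_lit 78) (nat_lit 0) (nat_lit 76) (XT.lf (nat_lit 0) (nat_lit 2362512114) (nat_lit 1140) (nat_lit 4463686184) (nat_lit 1216) (nat_lit 4406186865) (nat_lit 256) (nat_lit 5) (nat_lit 271) (nat_lit 5) (nat_lit 272) (nat_lit 5) (nat_lit 323) (nat_lit 317) (nat_lit 260)) (XT.lf (nat_lit 0) (nat_lit 4182797421) (nat_lit 1140) (nat_lit 6356754477) (nat_lit 1216) (nat_lit 961367480) (nat_lit 257) (nat_lit 5) (nat_lit 272) (nat_lit 5) (nat_lit 273) (nat_lit 5) (nat_lit 324) (nat_lit 317) (nat_lit 259)))) (XT.nd (nat_lit 78) (nat_lit 988) (nat_lit 0) (XT.lf (nat_lit 76) (nat_lit 3499012492) (nat_lit 0) (nat_lit 2686177546) (nat_lit 1216) (nat_lit 5594988411) (nat_lit 258) (nat_lit 5) (nat_lit 257) (nat_lit 5) (nat_lit 273) (nat_lit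 5) (nat_lit 325) (nat_lit 317) (nat_lit 258)) (XT.nd (nat_lit 78) (nat_lit 1064) (nat_lit 0) (XT.lf (nat_lit 76) (nat_lit 1846252912) (nat_lit 0) (nat_lit 6523346404) (nat_lit 1216) (nat_lit 3701373708) (nat_lit 259) (nat_lit 5) (nat_lit 258) (nat_lit 5) (nat_lit 274) (nat_lit 5) (nat_lit 326) (nat_lit 317) (nat_lit 257)) (XT.lf (nat_lit 0) (nat_lit 193401423) (nat_lit 1140) (nat_lit 10548499134) (nat_lit 1216) (nat_lit 1632074686) (nat_lit 244) (nat_lit 5) (nat_lit 259) (nat_lit 5) (nat_lit 260) (nat_lit 5) (nat_lit 327) (nat_lit 317) (nat_lit 256))))))))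
noncomputable def xc79 : XT := (XT.nd (nat_lit 1872) (nat_lit 4712) (nat_lit 0) (XT.nd (nat_lit 936) (nat_lit 4104) (nat_lit 0) (XT.nd (nat_lit 468) (nat_lit 2508) (nat_lit 0) (XT.nd (nat_lit 234) (nat_lit 1824) (nat_lit 0) (XT.nd (nat_lit 78) (nat_lit 1824) (nat_lit 0) (XT.lf (nat_lit 0) (nat_lit 650786203) (nat_lit 1216) (nat_lit 1459800358) (nat_lit 76) (nat_lit 10577791604) (nat_lit 243) (nat_lit 5) (nat_lit 259) (nat_lit 5) (nat_lit 244) (nat_lit 5) (nat_lit 328) (nat_lit 317) (nat_lit 255)) (XT.nd (nat_lit 78) (nat_lit 608) (nat_lit 0) (XT.lf (nat_lit 0) (nat_lit 3126827175) (nat_lit 1292) (nat_lit 3151054209) (nat_lit 76) (nat_lit 6736776059) (nat_lit 227) (nat_lit 5) (nat_lit 244) (nat_lit 5) (nat_lit 228) (nat_lit 5) (nat_lit 329) (nat_lit 317) (nat_lit 254)) (XT.lf (nat_lit 0) (nat_lit 5824335697) (nat_lit 684) (nat_lit 4852497013) (nat_lit 76) (nat_lit 2677511542) (nat_lit 219) (nat_lit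 5) (nat_lit 228) (nat_lit 5) (nat_lit 220) (nat_lit 5) (nat_lit 330) (nat_lit 317) (nat_lit 253)))) (XT.nd (nat_lit 78) (nat_lit 1216) (nat_lit 0) (XT.lf (nat_lit 0) (nat_lit 7125400383) (nat_lit 608) (nat_lit 1650759797) (nat_lit 684) (nat_lit 4931294419) (nat_lit 211) (nat_lit 5) (nat_lit 219) (nat_lit 5) (nat_lit 220) (nat_lit 5) (nat_lit 331) (nat_lit 317) (nat_lit 252)) (XT.nd (nat_lit 78) (nat_lit 608) (nat_lit 0) (XT.lf (nat_lit 0) (nat_lit 5719495447) (nat_lit 608) (nat_lit 6293327659) (nat_lit 684) (nat_lit 2061301284) (nat_lit 203) (nat_lit 5) (nat_lit 211) (nat_lit 5) (nat_lit 212) (nat_lit 5) (nat_lit 332) (nat_lit 317) (nat_lit 251)) (XT.lf (nat_lit 0) (nat_lit 1050008192) (nat_lit 608) (nat_lit 10156449723) (nat_lit 76) (nat_lit 3248922982) (nat_lit 195) (nat_lit 5) (nat_lit 203) (nat_lit 5) (nat_lit 196) (nat_lit 5) (nat_lit 333) (nat_lit 317) (nat_lit 250))))) (XT.nd (nat_lit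 234) (nat_lit 1520) (nat_lit 0) (XT.nd (nat_lit 78) (nat_lit 456) (nat_lit 0) (XT.lf (nat_lit 0) (nat_lit 2833885510) (nat_lit 532) (nat_lit 1577794327) (nat_lit 608) (nat_lit 10439304094) (nat_lit 188) (nat_lit 5) (nat_lit 195) (nat_lit 5) (nat_lit 196) (nat_lit 5) (nat_lit 334) (nat_lit 317) (nat_lit 249)) (XT.nd (nat_lit 78) (nat_lit 0) (nat_lit 0) (XT.lf (nat_lit 0) (nat_lit 1322695597) (nat_lit 456) (nat_lit 6779981083) (nat_lit 532) (nat_lit 7158871091) (nat_lit 182) (nat_lit 5) (nat_lit 188) (nat_lit 5) (nat_lit 189) (nat_lit 5) (nat_lit 335) (nat_lit 317) (nat_lit 248)) (XT.lf (nat_lit 0) (nat_lit 12113174639) (nat_lit 532) (nat_lit 199916921) (nat_lit 76) (nat_lit 3375516754) (nat_lit 182) (nat_lit 5) (nat_lit 189) (nat_lit 5) (nat_lit 183) (nat_lit 5) (nat_lit 336) (nat_lit 317) (nat_lit 247)))) (XT.nd (nat_lit 78) (nat_lit 912) (nat_lit 0) (XT.lf (nat_lit 0) (nat_lit 356171317) (nat_lit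 608) (nat_lit 1737570667) (nat_lit 76) (nat_lit 14038062242) (nat_lit 174) (nat_lit 5) (nat_lit 182) (nat_lit 5) (nat_lit 175) (nat_lit 5) (nat_lit 337) (nat_lit 317) (nat_lit 246)) (XT.nd (nat_lit 78) (nat_lit 456) (nat_lit 0) (XT.lf (nat_lit 0) (nat_lit 4590829941) (nat_lit 532) (nat_lit 3369291824) (nat_lit 76) (nat_lit 8630578606) (nat_lit 168) (nat_lit 5) (nat_lit 175) (nat_lit 5) (nat_lit 169) (nat_lit 5) (nat_lit 338) (nat_lit 317) (nat_lit 245)) (XT.lf (nat_lit 0) (nat_lit 9186708329) (nat_lit 532) (nat_lit 5030082823) (nat_lit 76) (nat_lit 2851279866) (nat_lit 162) (nat_lit 5) (nat_lit 169) (nat_lit 5) (nat_lit 163) (nat_lit 5) (nat_lit 339) (nat_lit 317) (nat_lit 244)))))) (XT.nd (nat_lit 468) (nat_lit 1672) (nat_lit 0) (XT.nd (nat_lit 234) (nat_lit 1140) (nat_lit 0) (XT.nd (nat_lit 78) (nat_lit 912) (nat_lit 0) (XT.lf (nat_lit 0) (nat_lit 10808195211) (nat_lit 380) (nat_lit 3390961578)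 (nat_lit 456) (nat_lit 3364563742) (nat_lit 157) (nat_lit 5) (nat_lit 162) (nat_lit 5) (nat_lit 163) (nat_lit 5) (nat_lit 340) (nat_lit 317) (nat_lit 243)) (XT.nd (nat_lit 78) (nat_lit 380) (nat_lit 0) (XT.lf (nat_lit 0) (nat_lit 1542234096) (nat_lit 532) (nat_lit 8563461330) (nat_lit 76) (nat_lit 7972340774) (nat_lit 150) (nat_lit 5) (nat_lit 157) (nat_lit 5) (nat_lit 151) (nat_lit 5) (nat_lit 341) (nat_lit 317) (nat_lit 242)) (XT.lf (nat_lit 0) (nat_lit 6791332664) (nat_lit 456) (nat_lit 10450921089) (nat_lit 76) (nat_lit 1369830161) (nat_lit 145) (nat_lit 5) (nat_lit 151) (nat_lit 5) (nat_lit 146) (nat_lit 5) (nat_lit 342) (nat_lit 317) (nat_lit 241)))) (XT.nd (nat_lit 78) (nat_lit 760) (nat_lit 0) (XT.lf (nat_lit 0) (nat_lit 6720325659) (nat_lit 380) (nat_lit 5808625160) (nat_lit 456) (nat_lit 6637112675) (nat_lit 140) (nat_lit 5) (nat_lit 145) (nat_lit 5) (nat_lit 146) (nat_lit 5) (nat_lit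 343) (nat_lit 317) (nat_lit 240)) (XT.nd (nat_lit 78) (nat_lit 456) (nat_lit 0) (XT.lf (nat_lit 0) (nat_lit 5226990636) (nat_lit 304) (nat_lit 13516316935) (nat_lit 380) (nat_lit 998749629) (nat_lit 136) (nat_lit 5) (nat_lit 140) (nat_lit 5) (nat_lit 141) (nat_lit 5) (nat_lit 344) (nat_lit 317) (nat_lit 239)) (XT.lf (nat_lit 0) (nat_lit 3626127968) (nat_lit 380) (nat_lit 1394355884) (nat_lit 456) (nat_lit 15319107862) (nat_lit 130) (nat_lit 5) (nat_lit 135) (nat_lit 5) (nat_lit 136) (nat_lit 5) (nat_lit 345) (nat_lit 317) (nat_lit 238))))) (XT.nd (nat_lit 234) (nat_lit 988) (nat_lit 0) (XT.nd (nat_lit 78) (nat_lit 380) (nat_lit 0) (XT.lf (nat_lit 0) (nat_lit 1894148756) (nat_lit 304) (nat_lit 9677117760) (nat_lit 380) (nat_lit 9387912062) (nat_lit 126) (nat_lit 5) (nat_lit 130) (nat_lit 5) (nat_lit 131) (nat_lit 5) (nat_lit 346) (nat_lit 317) (nat_lit 237)) (XT.nd (nat_lit 78) (nat_lit 76) (nat_lit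 0) (XT.lf (nat_lit 0) (nat_lit 97580288) (nat_lit 304) (nat_lit 18542867692) (nat_lit 380) (nat_lit 2963580138) (nat_lit 122) (nat_lit 5) (nat_lit 126) (nat_lit 5) (nat_lit 127) (nat_lit 5) (nat_lit 347) (nat_lit 317) (nat_lit 236)) (XT.lf (nat_lit 0) (nat_lit 3978517741) (nat_lit 380) (nat_lit 1831039880) (nat_lit 76) (nat_lit 16462369835) (nat_lit 121) (nat_lit 5) (nat_lit 126) (nat_lit 5) (nat_lit 122) (nat_lit 5) (nat_lit 348) (nat_lit 317) (nat_lit 235)))) (XT.nd (nat_lit 78) (nat_lit 684) (nat_lit 0) (XT.lf (nat_lit 0) (nat_lit 11441336058) (nat_lit 380) (nat_lit 3905399212) (nat_lit 76) (nat_lit 7618567045) (nat_lit 117) (nat_lit 5) (nat_lit 122) (nat_lit 5) (nat_lit 118) (nat_lit 5) (nat_lit 349) (nat_lit 317) (nat_lit 234)) (XT.nd (nat_lit 78) (nat_lit 380) (nat_lit 0) (XT.lf (nat_lit 0) (nat_lit 17590879987) (nat_lit 304) (nat_lit 1909605865) (nat_lit 380) (nat_lit 4186172000) (nat_lit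 113) (nat_lit 5) (nat_lit 117) (nat_lit 5) (nat_lit 118) (nat_lit 5) (nat_lit 350) (nat_lit 317) (nat_lit 233)) (XT.lf (nat_lit 0) (nat_lit 3741113826) (nat_lit 380) (nat_lit 8511658860) (nat_lit 76) (nat_lit 12181563072) (nat_lit 108) (nat_lit 5) (nat_lit 113) (nat_lit 5) (nat_lit 109) (nat_lit 5) (nat_lit 351) (nat_lit 317) (nat_lit 232))))))) (XT.nd (nat_lit 936) (nat_lit 1900) (nat_lit 0) (XT.nd (nat_lit 468) (nat_lit 1140) (nat_lit 0) (XT.nd (nat_lit 234) (nat_lit 760) (nat_lit 0) (XT.nd (nat_lit 78) (nat_lit 608) (nat_lit 0) (XT.lf (nat_lit 0) (nat_lit 12193962816) (nat_lit 380) (nat_lit 11099030289) (nat_lit 76) (nat_lit 1918694511) (nat_lit 104) (nat_lit 5) (nat_lit 109) (nat_lit 5) (nat_lit 105) (nat_lit 5) (nat_lit 352) (nat_lit 317) (nat_lit 231)) (XT.nd (nat_lit 78) (nat_lit 380) (nat_lit 0) (XT.lf (nat_lit 0) (nat_lit 12099243512) (nat_lit 228) (nat_lit 9276986926) (nat_lit 304)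 (nat_lit 4642479762) (nat_lit 101) (nat_lit 5) (nat_lit 104) (nat_lit 5) (nat_lit 105) (nat_lit 5) (nat_lit 353) (nat_lit 317) (nat_lit 230)) (XT.lf (nat_lit 0) (nat_lit 4315009617) (nat_lit 380) (nat_lit 16966660766) (nat_lit 76) (nat_lit 5575887451) (nat_lit 96) (nat_lit 5) (nat_lit 101) (nat_lit 5) (nat_lit 97) (nat_lit 5) (nat_lit 354) (nat_lit 317) (nat_lit 229)))) (XT.nd (nat_lit 78) (nat_lit 532) (nat_lit 0) (XT.lf (nat_lit 0) (nat_lit 7419316719) (nat_lit 228) (nat_lit 6495016983) (nat_lit 304) (nat_lit 13813941630) (nat_lit 93) (nat_lit 5) (nat_lit 96) (nat_lit 5) (nat_lit 97) (nat_lit 5) (nat_lit 355) (nat_lit 317) (nat_lit 228)) (XT.nd (nat_lit 78) (nat_lit 304) (nat_lit 0) (XT.lf (nat_lit 0) (nat_lit 4713568538) (nat_lit 228) (nat_lit 19568553347) (nat_lit 304) (nat_lit 4351757265) (nat_lit 90) (nat_lit 5) (nat_lit 93) (nat_lit 5) (nat_lit 94) (nat_lit 5) (nat_lit 356) (nat_lit 317)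 (nat_lit 227)) (XT.lf (nat_lit 0) (nat_lit 1714066138) (nat_lit 228) (nat_lit 4034131299) (nat_lit 304) (nat_lit 23826752044) (nat_lit 86) (nat_lit 5) (nat_lit 89) (nat_lit 5) (nat_lit 90) (nat_lit 5) (nat_lit 357) (nat_lit 317) (nat_lit 226))))) (XT.nd (nat_lit 234) (nat_lit 684) (nat_lit 0) (XT.nd (nat_lit 78) (nat_lit 456) (nat_lit 0) (XT.lf (nat_lit 0) (nat_lit 16611656823) (nat_lit 304) (nat_lit 1620815169) (nat_lit 76) (nat_lit 12318858236) (nat_lit 86) (nat_lit 5) (nat_lit 90) (nat_lit 5) (nat_lit 87) (nat_lit 5) (nat_lit 358) (nat_lit 317) (nat_lit 225)) (XT.nd (nat_lit 78) (nat_lit 228) (nat_lit 0) (XT.lf (nat_lit 0) (nat_lit 26375914358) (nat_lit 228) (nat_lit 1918520075) (nat_lit 304) (nat_lit 3273815735) (nat_lit 83) (nat_lit 5) (nat_lit 86) (nat_lit 5) (nat_lit 87) (nat_lit 5) (nat_lit 359) (nat_lit 317) (nat_lit 224)) (XT.lf (nat_lit 0) (nat_lit 8145236218) (nat_lit 228) (nat_lit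 9251539522) (nat_lit 76) (nat_lit 15225722448) (nat_lit 80) (nat_lit 5) (nat_lit 83) (nat_lit 5) (nat_lit 81) (nat_lit 5) (nat_lit 360) (nat_lit 317) (nat_lit 223)))) (XT.nd (nat_lit 78) (nat_lit 456) (nat_lit 0) (XT.lf (nat_lit 0) (nat_lit 20053020466) (nat_lit 228) (nat_lit 264014630) (nat_lit 304) (nat_lit 13403970009) (nat_lit 77) (nat_lit 5) (nat_lit 80) (nat_lit 5) (nat_lit 81) (nat_lit 5) (nat_lit 361) (nat_lit 317) (nat_lit 222)) (XT.nd (nat_lit 78) (nat_lit 304) (nat_lit 0) (XT.lf (nat_lit 0) (nat_lit 16262567897) (nat_lit 152) (nat_lit 17240965421) (nat_lit 228) (nat_lit 1358724555) (nat_lit 75) (nat_lit 5) (nat_lit 77) (nat_lit 5) (nat_lit 78) (nat_lit 5) (nat_lit 362) (nat_lit 317) (nat_lit 221)) (XT.lf (nat_lit 0) (nat_lit 11319062590) (nat_lit 304) (nat_lit 24043507455) (nat_lit 76) (nat_lit 687234365) (nat_lit 71) (nat_lit 5) (nat_lit 75) (nat_lit 5) (nat_lit 72) (nat_lit 5) (nat_lit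 363) (nat_lit 317) (nat_lit 220)))))) (XT.nd (nat_lit 468) (nat_lit 912) (nat_lit 0) (XT.nd (nat_lit 234) (nat_lit 532) (nat_lit 0) (XT.nd (nat_lit 78) (nat_lit 304) (nat_lit 0) (XT.lf (nat_lit 0) (nat_lit 7163317813) (nat_lit 152) (nat_lit 17859830967) (nat_lit 228) (nat_lit 12260563941) (nat_lit 69) (nat_lit 5) (nat_lit 71) (nat_lit 5) (nat_lit 72) (nat_lit 5) (nat_lit 364) (nat_lit 317) (nat_lit 219)) (XT.nd (nat_lit 78) (nat_lit 0) (nat_lit 0) (XT.lf (nat_lit 0) (nat_lit 1076671747) (nat_lit 304) (nat_lit 36718898331) (nat_lit 76) (nat_lit 775715011) (nat_lit 65) (nat_lit 5) (nat_lit 69) (nat_lit 5) (nat_lit 66) (nat_lit 5) (nat_lit 365) (nat_lit 317) (nat_lit 218)) (XT.lf (nat_lit 0) (nat_lit 15307710255) (nat_lit 304) (nat_lit 4194023574) (nat_lit 76) (nat_lit 20403448182) (nat_lit 65) (nat_lit 5) (nat_lit 69) (nat_lit 5) (nat_lit 66) (nat_lit 5) (nat_lit 366) (nat_lit 317) (nat_lit 217))))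 (XT.nd (nat_lit 78) (nat_lit 380) (nat_lit 0) (XT.lf (nat_lit 0) (nat_lit 30527809892) (nat_lit 152) (nat_lit 1423508) (nat_lit 228) (nat_lit 10768175193) (nat_lit 63) (nat_lit 5) (nat_lit 65) (nat_lit 5) (nat_lit 66) (nat_lit 5) (nat_lit 367) (nat_lit 317) (nat_lit 216)) (XT.nd (nat_lit 78) (nat_lit 152) (nat_lit 0) (XT.lf (nat_lit 0) (nat_lit 4146397076) (nat_lit 228) (nat_lit 18212927721) (nat_lit 76) (nat_lit 20384831008) (nat_lit 60) (nat_lit 5) (nat_lit 63) (nat_lit 5) (nat_lit 61) (nat_lit 5) (nat_lit 368) (nat_lit 317) (nat_lit 215)) (XT.lf (nat_lit 0) (nat_lit 17775118027) (nat_lit 152) (nat_lit 2079935446) (nat_lit 228) (nat_lit 24396859161) (nat_lit 58) (nat_lit 5) (nat_lit 60) (nat_lit 5) (nat_lit 61) (nat_lit 5) (nat_lit 369) (nat_lit 317) (nat_lit 214))))) (XT.nd (nat_lit 234) (nat_lit 532) (nat_lit 0) (XT.nd (nat_lit 78) (nat_lit 228) (nat_lit 0) (XT.lf (nat_lit 0) (nat_lit 10100488797)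 (nat_lit 152) (nat_lit 26706263520) (nat_lit 228) (nat_lit 9014579042) (nat_lit 56) (nat_lit 5) (nat_lit 58) (nat_lit 5) (nat_lit 59) (nat_lit 5) (nat_lit 370) (nat_lit 317) (nat_lit 213)) (XT.nd (nat_lit 78) (nat_lit 0) (nat_lit 0) (XT.lf (nat_lit 0) (nat_lit 1512728586) (nat_lit 152) (nat_lit 5782383595) (nat_lit 228) (nat_lit 40163126043) (nat_lit 53) (nat_lit 5) (nat_lit 55) (nat_lit 5) (nat_lit 56) (nat_lit 5) (nat_lit 371) (nat_lit 317) (nat_lit 212)) (XT.lf (nat_lit 0) (nat_lit 24749637207) (nat_lit 228) (nat_lit 8084748685) (nat_lit 76) (nat_lit 16324455471) (nat_lit 53) (nat_lit 5) (nat_lit 56) (nat_lit 5) (nat_lit 54) (nat_lit 5) (nat_lit 372) (nat_lit 317) (nat_lit 211)))) (XT.nd (nat_lit 78) (nat_lit 380) (nat_lit 0) (XT.lf (nat_lit 0) (nat_lit 32217465658) (nat_lit 152) (nat_lit 11215184780) (nat_lit 228) (nat_lit 7501153329) (nat_lit 51) (nat_lit 5) (nat_lit 53) (nat_lit 5) (nat_lit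 54) (nat_lit 5) (nat_lit 373) (nat_lit 317) (nat_lit 210)) (XT.nd (nat_lit 78) (nat_lit 152) (nat_lit 0) (XT.lf (nat_lit 0) (nat_lit 10452094786) (nat_lit 228) (nat_lit 30678771417) (nat_lit 76) (nat_lit 11651697741) (nat_lit 48) (nat_lit 5) (nat_lit 51) (nat_lit 5) (nat_lit 49) (nat_lit 5) (nat_lit 374) (nat_lit 317) (nat_lit 209)) (XT.lf (nat_lit 0) (nat_lit 10633587368) (nat_lit 152) (nat_lit 18913964156) (nat_lit 228) (nat_lit 25161993827) (nat_lit 46) (nat_lit 5) (nat_lit 48) (nat_lit 5) (nat_lit 49) (nat_lit 5) (nat_lit 375) (nat_lit 317) (nat_lit 208))))))))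
noncomputable def xc80 : XT := (XT.nd (nat_lit 42900) (nat_lit 0) (nat_lit 7296) (XT.nd (nat_lit 858) (nat_lit 304) (nat_lit 0) (XT.nd (nat_lit 390) (nat_lit 760) (nat_lit 0) (XT.nd (nat_lit 156) (nat_lit 304) (nat_lit 0) (XT.nd (nat_lit 78) (nat_lit 152) (nat_lit 0) (XT.lf (nat_lit 0) (nat_lit 49947670221) (nat_lit 228) (nat_lit 2137104900) (nat_lit 76) (nat_lit 4637605681) (nat_lit 46) (nat_lit 5) (nat_lit 49) (nat_lit 5) (nat_lit 47) (nat_lit 4) (nat_lit 376) (nat_lit 317) (nat_lit 207)) (XT.lf (nat_lit 0) (nat_lit 12881899290) (nat_lit 152) (nat_lit 16426850284) (nat_lit 76) (nat_lit 29505660868) (nat_lit 44) (nat_lit 5) (nat_lit 46) (nat_lit 5) (nat_lit 45) (nat_lit 5) (nat_lit 377) (nat_lit 317) (nat_lit 206))) (XT.nd (nat_lit 78) (nat_lit 152) (nat_lit 0) (XT.lf (nat_lit 0) (nat_lit 28643615378) (nat_lit 152) (nat_lit 5025771700) (nat_lit 228) (nat_lit 27330998883) (nat_lit 42) (nat_lit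 5) (nat_lit 44) (nat_lit 5) (nat_lit 45) (nat_lit 5) (nat_lit 378) (nat_lit 317) (nat_lit 205)) (XT.nd (nat_lit 78) (nat_lit 76) (nat_lit 0) (XT.lf (nat_lit 0) (nat_lit 13057494393) (nat_lit 76) (nat_lit 42921373664) (nat_lit 152) (nat_lit 7302315017) (nat_lit 41) (nat_lit 5) (nat_lit 42) (nat_lit 5) (nat_lit 43) (nat_lit 4) (nat_lit 379) (nat_lit 317) (nat_lit 204)) (XT.lf (nat_lit 0) (nat_lit 13836795098) (nat_lit 152) (nat_lit 4452171098) (nat_lit 76) (nat_lit 47371790197) (nat_lit 40) (nat_lit 5) (nat_lit 42) (nat_lit 5) (nat_lit 41) (nat_lit 5) (nat_lit 380) (nat_lit 317) (nat_lit 203))))) (XT.nd (nat_lit 234) (nat_lit 304) (nat_lit 0) (XT.nd (nat_lit 78) (nat_lit 304) (nat_lit 0) (XT.lf (nat_lit 0) (nat_lit 36377813573) (nat_lit 228) (nat_lit 23839903635) (nat_lit 76) (nat_lit 7924544105) (nat_lit 38) (nat_lit 5) (nat_lit 41) (nat_lit 5) (nat_lit 39) (nat_lit 4) (nat_lit 381) (nat_lit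 317) (nat_lit 202)) (XT.nd (nat_lit 78) (nat_lit 228) (nat_lit 0) (XT.lf (nat_lit 0) (nat_lit 25128896336) (nat_lit 76) (nat_lit 35379891646) (nat_lit 152) (nat_lit 10225167508) (nat_lit 37) (nat_lit 5) (nat_lit 38) (nat_lit 5) (nat_lit 39) (nat_lit 4) (nat_lit 382) (nat_lit 317) (nat_lit 201)) (XT.lf (nat_lit 0) (nat_lit 3526445036) (nat_lit 152) (nat_lit 8895243794) (nat_lit 228) (nat_lit 61021801099) (nat_lit 34) (nat_lit 5) (nat_lit 36) (nat_lit 5) (nat_lit 37) (nat_lit 5) (nat_lit 383) (nat_lit 317) (nat_lit 200)))) (XT.nd (nat_lit 78) (nat_lit 304) (nat_lit 0) (XT.lf (nat_lit 0) (nat_lit 36638179558) (nat_lit 228) (nat_lit 20513523093) (nat_lit 76) (nat_lit 19114299371) (nat_lit 34) (nat_lit 5) (nat_lit 37) (nat_lit 5) (nat_lit 35) (nat_lit 4) (nat_lit 384) (nat_lit 317) (nat_lit 199)) (XT.nd (nat_lit 78) (nat_lit 228) (nat_lit 0) (XT.lf (nat_lit 0) (nat_lit 31876242523) (nat_lit 76) (nat_lit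 30576759012) (nat_lit 152) (nat_lit 16765013957) (nat_lit 33) (nat_lit 5) (nat_lit 34) (nat_lit 5) (nat_lit 35) (nat_lit 4) (nat_lit 385) (nat_lit 317) (nat_lit 198)) (XT.lf (nat_lit 0) (nat_lit 5013125732) (nat_lit 152) (nat_lit 2339450510) (nat_lit 228) (nat_lit 74955378023) (nat_lit 30) (nat_lit 5) (nat_lit 32) (nat_lit 5) (nat_lit 33) (nat_lit 5) (nat_lit 386) (nat_lit 317) (nat_lit 197)))))) (XT.nd (nat_lit 41574) (nat_lit 0) (nat_lit 17328) (XT.nd (nat_lit 234) (nat_lit 228) (nat_lit 0) (XT.nd (nat_lit 78) (nat_lit 76) (nat_lit 0) (XT.lf (nat_lit 0) (nat_lit 33078905041) (nat_lit 228) (nat_lit 25014854729) (nat_lit 76) (nat_lit 27431163799) (nat_lit 30) (nat_lit 5) (nat_lit 33) (nat_lit 5) (nat_lit 31) (nat_lit 4) (nat_lit 387) (nat_lit 317) (nat_lit 196)) (XT.nd (nat_lit 78) (nat_lit 0) (nat_lit 0) (XT.lf (nat_lit 0) (nat_lit 30434533537) (nat_lit 76) (nat_lit 29965258517) (nat_lit 152)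 (nat_lit 28493702845) (nat_lit 29) (nat_lit 5) (nat_lit 30) (nat_lit 5) (nat_lit 31) (nat_lit 4) (nat_lit 388) (nat_lit 317) (nat_lit 195)) (XT.lf (nat_lit 0) (nat_lit 89164695080) (nat_lit 76) (nat_lit 171846677) (nat_lit 152) (nat_lit 3086459267) (nat_lit 29) (nat_lit 5) (nat_lit 30) (nat_lit 5) (nat_lit 31) (nat_lit 4) (nat_lit 389) (nat_lit 317) (nat_lit 194)))) (XT.nd (nat_lit 78) (nat_lit 76) (nat_lit 0) (XT.lf (nat_lit 0) (nat_lit 23963871531) (nat_lit 152) (nat_lit 40867302212) (nat_lit 76) (nat_lit 31266014056) (nat_lit 27) (nat_lit 5) (nat_lit 29) (nat_lit 5) (nat_lit 28) (nat_lit 4) (nat_lit 390) (nat_lit 317) (nat_lit 193)) (XT.nd (nat_lit 41184) (nat_lit 0) (nat_lit 18316) (XT.lf (nat_lit 0) (nat_lit 17042183004) (nat_lit 76) (nat_lit 35453491344) (nat_lit 152) (nat_lit 47452709832) (nat_lit 26) (nat_lit 5) (nat_lit 27) (nat_lit 5) (nat_lit 28) (nat_lit 4) (nat_lit 391) (nat_lit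 317) (nat_lit 192)) (XT.lf (nat_lit 0) (nat_lit 3202398833) (nat_lit 1140) (nat_lit 963270552) (nat_lit 1140) (nat_lit 963270552) (nat_lit 267) (nat_lit 3) (nat_lit 282) (nat_lit 3) (nat_lit 282) (nat_lit 5) (nat_lit 318) (nat_lit 318) (nat_lit 264))))) (XT.nd (nat_lit 234) (nat_lit 988) (nat_lit 0) (XT.nd (nat_lit 78) (nat_lit 0) (nat_lit 76) (XT.lf (nat_lit 76) (nat_lit 6382910423) (nat_lit 0) (nat_lit 1310737351) (nat_lit 1140) (nat_lit 2786212140) (nat_lit 268) (nat_lit 5) (nat_lit 267) (nat_lit 3) (nat_lit 282) (nat_lit 5) (nat_lit 319) (nat_lit 318) (nat_lit 263)) (XT.nd (nat_lit 78) (nat_lit 0) (nat_lit 76) (XT.lf (nat_lit 76) (nat_lit 4425324894) (nat_lit 0) (nat_lit 4674088363) (nat_lit 1140) (nat_lit 1611990239) (nat_lit 269) (nat_lit 5) (nat_lit 268) (nat_lit 5) (nat_lit 283) (nat_lit 5) (nat_lit 320) (nat_lit 318) (nat_lit 262)) (XT.lf (nat_lit 76) (nat_lit 2474703349) (nat_lit 0)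 (nat_lit 8141699944) (nat_lit 1140) (nat_lit 336929764) (nat_lit 270) (nat_lit 5) (nat_lit 269) (nat_lit 5) (nat_lit 284) (nat_lit 5) (nat_lit 321) (nat_lit 318) (nat_lit 261)))) (XT.nd (nat_lit 78) (nat_lit 0) (nat_lit 76) (XT.lf (nat_lit 76) (nat_lit 512364299) (nat_lit 0) (nat_lit 524317005) (nat_lit 1216) (nat_lit 10168792539) (nat_lit 255) (nat_lit 5) (nat_lit 254) (nat_lit 5) (nat_lit 270) (nat_lit 5) (nat_lit 322) (nat_lit 318) (nat_lit 260)) (XT.nd (nat_lit 78) (nat_lit 0) (nat_lit 76) (XT.lf (nat_lit 0) (nat_lit 2571799181) (nat_lit 1140) (nat_lit 1454199508) (nat_lit 1216) (nat_lit 7441161549) (nat_lit 255) (nat_lit 5) (nat_lit 270) (nat_lit 5) (nat_lit 271) (nat_lit 5) (nat_lit 323) (nat_lit 318) (nat_lit 259)) (XT.lf (nat_lit 0) (nat_lit 4251925380) (nat_lit 1140) (nat_lit 3415070262) (nat_lit 1216) (nat_lit 4072918675) (nat_lit 256) (nat_lit 5) (nat_lit 271) (nat_lit 5) (nat_lit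 272) (nat_lit 5) (nat_lit 324) (nat_lit 318) (nat_lit 258))))))) (XT.nd (nat_lit 936) (nat_lit 4560) (nat_lit 0) (XT.nd (nat_lit 468) (nat_lit 3420) (nat_lit 0) (XT.nd (nat_lit 234) (nat_lit 2280) (nat_lit 0) (XT.nd (nat_lit 78) (nat_lit 0) (nat_lit 0) (XT.lf (nat_lit 0) (nat_lit 6086297638) (nat_lit 1140) (nat_lit 5382922067) (nat_lit 1216) (nat_lit 555008665) (nat_lit 257) (nat_lit 5) (nat_lit 272) (nat_lit 5) (nat_lit 273) (nat_lit 5) (nat_lit 325) (nat_lit 318) (nat_lit 257)) (XT.nd (nat_lit 78) (nat_lit 0) (nat_lit 76) (XT.lf (nat_lit 76) (nat_lit 4928607784) (nat_lit 0) (nat_lit 3191578686) (nat_lit 1216) (nat_lit 4199365776) (nat_lit 258) (nat_lit 5) (nat_lit 257) (nat_lit 5) (nat_lit 273) (nat_lit 5) (nat_lit 326) (nat_lit 318) (nat_lit 256)) (XT.lf (nat_lit 76) (nat_lit 3208923344) (nat_lit 0) (nat_lit 7136290980) (nat_lit 1216) (nat_lit 2281771380) (nat_lit 259) (nat_lit 5) (nat_lit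 258) (nat_lit 5) (nat_lit 274) (nat_lit 5) (nat_lit 327) (nat_lit 318) (nat_lit 255)))) (XT.nd (nat_lit 78) (nat_lit 1292) (nat_lit 0) (XT.lf (nat_lit 0) (nat_lit 1485865751) (nat_lit 1140) (nat_lit 11285821184) (nat_lit 1216) (nat_lit 175423550) (nat_lit 244) (nat_lit 5) (nat_lit 259) (nat_lit 5) (nat_lit 260) (nat_lit 5) (nat_lit 328) (nat_lit 318) (nat_lit 254)) (XT.nd (nat_lit 78) (nat_lit 1216) (nat_lit 0) (XT.lf (nat_lit 0) (nat_lit 2119742635) (nat_lit 1216) (nat_lit 281770251) (nat_lit 76) (nat_lit 10877467882) (nat_lit 243) (nat_lit 5) (nat_lit 259) (nat_lit 5) (nat_lit 244) (nat_lit 5) (nat_lit 329) (nat_lit 318) (nat_lit 253)) (XT.lf (nat_lit 0) (nat_lit 4661284067) (nat_lit 1292) (nat_lit 2049785162) (nat_lit 76) (nat_lit 6912288294) (nat_lit 227) (nat_lit 5) (nat_lit 244) (nat_lit 5) (nat_lit 228) (nat_lit 5) (nat_lit 330) (nat_lit 318) (nat_lit 252))))) (XT.nd (nat_lit 234) (nat_lit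 1596) (nat_lit 0) (XT.nd (nat_lit 78) (nat_lit 1216) (nat_lit 0) (XT.lf (nat_lit 0) (nat_lit 7438821425) (nat_lit 684) (nat_lit 3831024393) (nat_lit 76) (nat_lit 2711861078) (nat_lit 219) (nat_lit 5) (nat_lit 228) (nat_lit 5) (nat_lit 220) (nat_lit 5) (nat_lit 331) (nat_lit 318) (nat_lit 251)) (XT.nd (nat_lit 78) (nat_lit 608) (nat_lit 0) (XT.lf (nat_lit 0) (nat_lit 8709532772) (nat_lit 608) (nat_lit 1777494517) (nat_lit 684) (nat_lit 3867013027) (nat_lit 211) (nat_lit 5) (nat_lit 219) (nat_lit 5) (nat_lit 220) (nat_lit 5) (nat_lit 332) (nat_lit 318) (nat_lit 250)) (XT.lf (nat_lit 0) (nat_lit 7236224019) (nat_lit 608) (nat_lit 6600151244) (nat_lit 684) (nat_lit 904172552) (nat_lit 203) (nat_lit 5) (nat_lit 211) (nat_lit 5) (nat_lit 212) (nat_lit 5) (nat_lit 333) (nat_lit 318) (nat_lit 249)))) (XT.nd (nat_lit 78) (nat_lit 988) (nat_lit 0) (XT.lf (nat_lit 0) (nat_lit 2291302015) (nat_lit 608)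 (nat_lit 9408446947) (nat_lit 76) (nat_lit 3442186587) (nat_lit 195) (nat_lit 5) (nat_lit 203) (nat_lit 5) (nat_lit 196) (nat_lit 5) (nat_lit 334) (nat_lit 318) (nat_lit 248)) (XT.nd (nat_lit 78) (nat_lit 456) (nat_lit 0) (XT.lf (nat_lit 0) (nat_lit 4195407069) (nat_lit 532) (nat_lit 1580766689) (nat_lit 608) (nat_lit 9782517699) (nat_lit 188) (nat_lit 5) (nat_lit 195) (nat_lit 5) (nat_lit 196) (nat_lit 5) (nat_lit 335) (nat_lit 318) (nat_lit 247)) (XT.lf (nat_lit 0) (nat_lit 2606825653) (nat_lit 456) (nat_lit 7002826018) (nat_lit 532) (nat_lit 6381418851) (nat_lit 182) (nat_lit 5) (nat_lit 188) (nat_lit 5) (nat_lit 189) (nat_lit 5) (nat_lit 336) (nat_lit 318) (nat_lit 246)))))) (XT.nd (nat_lit 468) (nat_lit 2128) (nat_lit 0) (XT.nd (nat_lit 234) (nat_lit 1368) (nat_lit 0) (XT.nd (nat_lit 78) (nat_lit 532) (nat_lit 0) (XT.lf (nat_lit 0) (nat_lit 1000499504) (nat_lit 532) (nat_lit 12778387185)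 (nat_lit 608) (nat_lit 2661874818) (nat_lit 175) (nat_lit 5) (nat_lit 182) (nat_lit 5) (nat_lit 183) (nat_lit 5) (nat_lit 337) (nat_lit 318) (nat_lit 245)) (XT.nd (nat_lit 78) (nat_lit 456) (nat_lit 0) (XT.lf (nat_lit 0) (nat_lit 1395973770) (nat_lit 608) (nat_lit 646917407) (nat_lit 76) (nat_lit 14864403663) (nat_lit 174) (nat_lit 5) (nat_lit 182) (nat_lit 5) (nat_lit 175) (nat_lit 5) (nat_lit 338) (nat_lit 318) (nat_lit 244)) (XT.lf (nat_lit 0) (nat_lit 5806226432) (nat_lit 532) (nat_lit 2365562618) (nat_lit 76) (nat_lit 9218451852) (nat_lit 168) (nat_lit 5) (nat_lit 175) (nat_lit 5) (nat_lit 169) (nat_lit 5) (nat_lit 339) (nat_lit 318) (nat_lit 243)))) (XT.nd (nat_lit 78) (nat_lit 912) (nat_lit 0) (XT.lf (nat_lit 0) (nat_lit 10597712389) (nat_lit 532) (nat_lit 4115913614) (nat_lit 76) (nat_lit 3178899613) (nat_lit 162) (nat_lit 5) (nat_lit 169) (nat_lit 5) (nat_lit 163) (nat_lit 5) (nat_lit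 340) (nat_lit 318) (nat_lit 242)) (XT.nd (nat_lit 78) (nat_lit 532) (nat_lit 0) (XT.lf (nat_lit 0) (nat_lit 12480864529) (nat_lit 380) (nat_lit 3345485161) (nat_lit 456) (nat_lit 2587659918) (nat_lit 157) (nat_lit 5) (nat_lit 162) (nat_lit 5) (nat_lit 163) (nat_lit 5) (nat_lit 341) (nat_lit 318) (nat_lit 241)) (XT.lf (nat_lit 0) (nat_lit 2514815063) (nat_lit 532) (nat_lit 7848568377) (nat_lit 76) (nat_lit 8591339222) (nat_lit 150) (nat_lit 5) (nat_lit 157) (nat_lit 5) (nat_lit 151) (nat_lit 5) (nat_lit 342) (nat_lit 318) (nat_lit 240))))) (XT.nd (nat_lit 234) (nat_lit 1064) (nat_lit 0) (XT.nd (nat_lit 78) (nat_lit 684) (nat_lit 0) (XT.lf (nat_lit 0) (nat_lit 7996772440) (nat_lit 456) (nat_lit 9839299704) (nat_lit 76) (nat_lit 1680305228) (nat_lit 145) (nat_lit 5) (nat_lit 151) (nat_lit 5) (nat_lit 146) (nat_lit 5) (nat_lit 343) (nat_lit 318) (nat_lit 239)) (XT.nd (nat_lit 78) (nat_lit 304) (nat_lit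 0) (XT.lf (nat_lit 0) (nat_lit 8157998699) (nat_lit 380) (nat_lit 5832630548) (nat_lit 456) (nat_lit 6108361883) (nat_lit 140) (nat_lit 5) (nat_lit 145) (nat_lit 5) (nat_lit 146) (nat_lit 5) (nat_lit 344) (nat_lit 318) (nat_lit 238)) (XT.lf (nat_lit 0) (nat_lit 6580578673) (nat_lit 304) (nat_lit 13908290623) (nat_lit 380) (nat_lit 215735434) (nat_lit 136) (nat_lit 5) (nat_lit 140) (nat_lit 5) (nat_lit 141) (nat_lit 5) (nat_lit 345) (nat_lit 318) (nat_lit 237)))) (XT.nd (nat_lit 78) (nat_lit 608) (nat_lit 0) (XT.lf (nat_lit 0) (nat_lit 4884438204) (nat_lit 380) (nat_lit 1175230079) (nat_lit 456) (nat_lit 15272977636) (nat_lit 130) (nat_lit 5) (nat_lit 135) (nat_lit 5) (nat_lit 136) (nat_lit 5) (nat_lit 346) (nat_lit 318) (nat_lit 236)) (XT.nd (nat_lit 78) (nat_lit 304) (nat_lit 0) (XT.lf (nat_lit 0) (nat_lit 3055530545) (nat_lit 304) (nat_lit 9857825947) (nat_lit 380) (nat_lit 9070608003) (nat_lit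 126) (nat_lit 5) (nat_lit 130) (nat_lit 5) (nat_lit 131) (nat_lit 5) (nat_lit 347) (nat_lit 318) (nat_lit 235)) (XT.lf (nat_lit 0) (nat_lit 1158235899) (nat_lit 304) (nat_lit 19154326766) (nat_lit 380) (nat_lit 2349209602) (nat_lit 122) (nat_lit 5) (nat_lit 126) (nat_lit 5) (nat_lit 127) (nat_lit 5) (nat_lit 348) (nat_lit 318) (nat_lit 234))))))))
noncomputable def xc81 : XT := (XT.nd (nat_lit 1872) (nat_lit 1976) (nat_lit 0) (XT.nd (nat_lit 936) (nat_lit 2280) (nat_lit 0) (XT.nd (nat_lit 468) (nat_lit 1368) (nat_lit 0) (XT.nd (nat_lit 234) (nat_lit 912) (nat_lit 0) (XT.nd (nat_lit 78) (nat_lit 608) (nat_lit 0) (XT.lf (nat_lit 0) (nat_lit 4889509775) (nat_lit 380) (nat_lit 902683530) (nat_lit 76) (nat_lit 17571733229) (nat_lit 121) (nat_lit 5) (nat_lit 126) (nat_lit 5) (nat_lit 122) (nat_lit 5) (nat_lit 349) (nat_lit 318) (nat_lit 233)) (XT.nd (nat_lit 78) (nat_lit 304) (nat_lit 0) (XT.lf (nat_lit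 0) (nat_lit 12703996592) (nat_lit 380) (nat_lit 3092054298) (nat_lit 76) (nat_lit 8296574625) (nat_lit 117) (nat_lit 5) (nat_lit 122) (nat_lit 5) (nat_lit 118) (nat_lit 5) (nat_lit 350) (nat_lit 318) (nat_lit 232)) (XT.lf (nat_lit 0) (nat_lit 19450127119) (nat_lit 304) (nat_lit 1692508847) (nat_lit 380) (nat_lit 3708127572) (nat_lit 113) (nat_lit 5) (nat_lit 117) (nat_lit 5) (nat_lit 118) (nat_lit 5) (nat_lit 351) (nat_lit 318) (nat_lit 231)))) (XT.nd (nat_lit 78) (nat_lit 532) (nat_lit 0) (XT.lf (nat_lit 0) (nat_lit 4582307879) (nat_lit 380) (nat_lit 7955676835) (nat_lit 76) (nat_lit 13098246331) (nat_lit 108) (nat_lit 5) (nat_lit 113) (nat_lit 5) (nat_lit 109) (nat_lit 5) (nat_lit 352) (nat_lit 318) (nat_lit 230)) (XT.nd (nat_lit 78) (nat_lit 228) (nat_lit 0) (XT.lf (nat_lit 0) (nat_lit 13438903101) (nat_lit 380) (nat_lit 10684488920) (nat_lit 76) (nat_lit 2329634759) (nat_lit 104) (nat_lit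 5) (nat_lit 109) (nat_lit 5) (nat_lit 105) (nat_lit 5) (nat_lit 353) (nat_lit 318) (nat_lit 229)) (XT.lf (nat_lit 0) (nat_lit 13645908252) (nat_lit 228) (nat_lit 9413178448) (nat_lit 304) (nat_lit 4241958666) (nat_lit 101) (nat_lit 5) (nat_lit 104) (nat_lit 5) (nat_lit 105) (nat_lit 5) (nat_lit 354) (nat_lit 318) (nat_lit 228))))) (XT.nd (nat_lit 234) (nat_lit 532) (nat_lit 0) (XT.nd (nat_lit 78) (nat_lit 456) (nat_lit 0) (XT.lf (nat_lit 0) (nat_lit 5133576762) (nat_lit 380) (nat_lit 16873114403) (nat_lit 76) (nat_lit 6175494549) (nat_lit 96) (nat_lit 5) (nat_lit 101) (nat_lit 5) (nat_lit 97) (nat_lit 5) (nat_lit 355) (nat_lit 318) (nat_lit 227)) (XT.nd (nat_lit 78) (nat_lit 228) (nat_lit 0) (XT.lf (nat_lit 0) (nat_lit 8705163173) (nat_lit 228) (nat_lit 6487792715) (nat_lit 304) (nat_lit 13904088415) (nat_lit 93) (nat_lit 5) (nat_lit 96) (nat_lit 5) (nat_lit 97) (nat_lit 5) (nat_lit 356) (nat_lit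 318) (nat_lit 226)) (XT.lf (nat_lit 0) (nat_lit 5851942050) (nat_lit 228) (nat_lit 20211150470) (nat_lit 304) (nat_lit 3985324525) (nat_lit 90) (nat_lit 5) (nat_lit 93) (nat_lit 5) (nat_lit 94) (nat_lit 5) (nat_lit 357) (nat_lit 318) (nat_lit 225)))) (XT.nd (nat_lit 78) (nat_lit 228) (nat_lit 0) (XT.lf (nat_lit 0) (nat_lit 2687800203) (nat_lit 228) (nat_lit 3901699836) (nat_lit 304) (nat_lit 24447441323) (nat_lit 86) (nat_lit 5) (nat_lit 89) (nat_lit 5) (nat_lit 90) (nat_lit 5) (nat_lit 358) (nat_lit 318) (nat_lit 224)) (XT.nd (nat_lit 78) (nat_lit 228) (nat_lit 0) (XT.lf (nat_lit 0) (nat_lit 17972815540) (nat_lit 304) (nat_lit 843213630) (nat_lit 76) (nat_lit 13246818092) (nat_lit 86) (nat_lit 5) (nat_lit 90) (nat_lit 5) (nat_lit 87) (nat_lit 5) (nat_lit 359) (nat_lit 318) (nat_lit 223)) (XT.lf (nat_lit 0) (nat_lit 28528739565) (nat_lit 228) (nat_lit 1693744150) (nat_lit 304) (nat_lit 2908653229)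 (nat_lit 83) (nat_lit 5) (nat_lit 86) (nat_lit 5) (nat_lit 87) (nat_lit 5) (nat_lit 360) (nat_lit 318) (nat_lit 222)))))) (XT.nd (nat_lit 468) (nat_lit 912) (nat_lit 0) (XT.nd (nat_lit 234) (nat_lit 760) (nat_lit 0) (XT.nd (nat_lit 78) (nat_lit 380) (nat_lit 0) (XT.lf (nat_lit 0) (nat_lit 9057286296) (nat_lit 228) (nat_lit 8881745328) (nat_lit 76) (nat_lit 16299331407) (nat_lit 80) (nat_lit 5) (nat_lit 83) (nat_lit 5) (nat_lit 81) (nat_lit 5) (nat_lit 361) (nat_lit 318) (nat_lit 221)) (XT.nd (nat_lit 78) (nat_lit 152) (nat_lit 0) (XT.lf (nat_lit 0) (nat_lit 21821820653) (nat_lit 304) (nat_lit 13528517065) (nat_lit 76) (nat_lit 41938754) (nat_lit 77) (nat_lit 5) (nat_lit 81) (nat_lit 5) (nat_lit 78) (nat_lit 5) (nat_lit 362) (nat_lit 318) (nat_lit 220)) (XT.lf (nat_lit 0) (nat_lit 17872387408) (nat_lit 152) (nat_lit 17782169967) (nat_lit 228) (nat_lit 936432375) (nat_lit 75) (nat_lit 5) (nat_lit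 77) (nat_lit 5) (nat_lit 78) (nat_lit 5) (nat_lit 363) (nat_lit 318) (nat_lit 219)))) (XT.nd (nat_lit 78) (nat_lit 456) (nat_lit 0) (XT.lf (nat_lit 0) (nat_lit 12353374625) (nat_lit 304) (nat_lit 24451436756) (nat_lit 76) (nat_lit 1033334845) (nat_lit 71) (nat_lit 5) (nat_lit 75) (nat_lit 5) (nat_lit 72) (nat_lit 5) (nat_lit 364) (nat_lit 318) (nat_lit 218)) (XT.nd (nat_lit 78) (nat_lit 304) (nat_lit 0) (XT.lf (nat_lit 0) (nat_lit 8292962870) (nat_lit 152) (nat_lit 18434815378) (nat_lit 228) (nat_lit 12406422960) (nat_lit 69) (nat_lit 5) (nat_lit 71) (nat_lit 5) (nat_lit 72) (nat_lit 5) (nat_lit 365) (nat_lit 318) (nat_lit 217)) (XT.lf (nat_lit 0) (nat_lit 1577061455) (nat_lit 304) (nat_lit 37786169785) (nat_lit 76) (nat_lit 1123135440) (nat_lit 65) (nat_lit 5) (nat_lit 69) (nat_lit 5) (nat_lit 66) (nat_lit 5) (nat_lit 366) (nat_lit 318) (nat_lit 216))))) (XT.nd (nat_lit 234) (nat_lit 532) (nat_lit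 0) (XT.nd (nat_lit 78) (nat_lit 380) (nat_lit 0) (XT.lf (nat_lit 0) (nat_lit 16498387312) (nat_lit 304) (nat_lit 3671654788) (nat_lit 76) (nat_lit 21717558380) (nat_lit 65) (nat_lit 5) (nat_lit 69) (nat_lit 5) (nat_lit 66) (nat_lit 5) (nat_lit 367) (nat_lit 318) (nat_lit 215)) (XT.nd (nat_lit 78) (nat_lit 228) (nat_lit 0) (XT.lf (nat_lit 0) (nat_lit 32470431849) (nat_lit 228) (nat_lit 10587420901) (nat_lit 76) (nat_lit 291906183) (nat_lit 63) (nat_lit 5) (nat_lit 66) (nat_lit 5) (nat_lit 64) (nat_lit 5) (nat_lit 368) (nat_lit 318) (nat_lit 214)) (XT.lf (nat_lit 0) (nat_lit 4759497064) (nat_lit 228) (nat_lit 18415439905) (nat_lit 76) (nat_lit 21694181112) (nat_lit 60) (nat_lit 5) (nat_lit 63) (nat_lit 5) (nat_lit 61) (nat_lit 5) (nat_lit 369) (nat_lit 318) (nat_lit 213)))) (XT.nd (nat_lit 78) (nat_lit 380) (nat_lit 0) (XT.lf (nat_lit 0) (nat_lit 19351709605) (nat_lit 152) (nat_lit 1889165710)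 (nat_lit 228) (nat_lit 25211772200) (nat_lit 58) (nat_lit 5) (nat_lit 60) (nat_lit 5) (nat_lit 61) (nat_lit 5) (nat_lit 370) (nat_lit 318) (nat_lit 212)) (XT.nd (nat_lit 78) (nat_lit 228) (nat_lit 0) (XT.lf (nat_lit 0) (nat_lit 11282400752) (nat_lit 152) (nat_lit 27748245975) (nat_lit 228) (nat_lit 9070179091) (nat_lit 56) (nat_lit 5) (nat_lit 58) (nat_lit 5) (nat_lit 59) (nat_lit 5) (nat_lit 371) (nat_lit 318) (nat_lit 211)) (XT.lf (nat_lit 0) (nat_lit 2253400737) (nat_lit 152) (nat_lit 5781829798) (nat_lit 228) (nat_lit 41784598242) (nat_lit 53) (nat_lit 5) (nat_lit 55) (nat_lit 5) (nat_lit 56) (nat_lit 5) (nat_lit 372) (nat_lit 318) (nat_lit 210))))))) (XT.nd (nat_lit 936) (nat_lit 532) (nat_lit 0) (XT.nd (nat_lit 468) (nat_lit 760) (nat_lit 0) (XT.nd (nat_lit 234) (nat_lit 304) (nat_lit 0) (XT.nd (nat_lit 78) (nat_lit 380) (nat_lit 0) (XT.lf (nat_lit 0) (nat_lit 26347259314) (nat_lit 228)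 (nat_lit 7847488436) (nat_lit 76) (nat_lit 17411173877) (nat_lit 53) (nat_lit 5) (nat_lit 56) (nat_lit 5) (nat_lit 54) (nat_lit 5) (nat_lit 373) (nat_lit 318) (nat_lit 209)) (XT.nd (nat_lit 78) (nat_lit 228) (nat_lit 0) (XT.lf (nat_lit 0) (nat_lit 34451448222) (nat_lit 152) (nat_lit 11501815156) (nat_lit 228) (nat_lit 7516706310) (nat_lit 51) (nat_lit 5) (nat_lit 53) (nat_lit 5) (nat_lit 54) (nat_lit 5) (nat_lit 374) (nat_lit 318) (nat_lit 208)) (XT.lf (nat_lit 0) (nat_lit 11318888238) (nat_lit 228) (nat_lit 31592898228) (nat_lit 76) (nat_lit 12499529295) (nat_lit 48) (nat_lit 5) (nat_lit 51) (nat_lit 5) (nat_lit 49) (nat_lit 5) (nat_lit 375) (nat_lit 318) (nat_lit 207)))) (XT.nd (nat_lit 78) (nat_lit 152) (nat_lit 0) (XT.lf (nat_lit 0) (nat_lit 11767311717) (nat_lit 152) (nat_lit 19591203381) (nat_lit 228) (nat_lit 26076451635) (nat_lit 46) (nat_lit 5) (nat_lit 48) (nat_lit 5) (nat_lit 49)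 (nat_lit 5) (nat_lit 376) (nat_lit 318) (nat_lit 206)) (XT.nd (nat_lit 78) (nat_lit 152) (nat_lit 0) (XT.lf (nat_lit 0) (nat_lit 52765212389) (nat_lit 228) (nat_lit 1663464646) (nat_lit 76) (nat_lit 5120172043) (nat_lit 46) (nat_lit 5) (nat_lit 49) (nat_lit 5) (nat_lit 47) (nat_lit 4) (nat_lit 377) (nat_lit 318) (nat_lit 205)) (XT.lf (nat_lit 0) (nat_lit 13839442952) (nat_lit 152) (nat_lit 16678056304) (nat_lit 76) (nat_lit 31228185709) (nat_lit 44) (nat_lit 5) (nat_lit 46) (nat_lit 5) (nat_lit 45) (nat_lit 5) (nat_lit 378) (nat_lit 318) (nat_lit 204))))) (XT.nd (nat_lit 234) (nat_lit 456) (nat_lit 0) (XT.nd (nat_lit 78) (nat_lit 152) (nat_lit 0) (XT.lf (nat_lit 0) (nat_lit 30629589793) (nat_lit 152) (nat_lit 5027112612) (nat_lit 228) (nat_lit 28384546963) (nat_lit 42) (nat_lit 5) (nat_lit 44) (nat_lit 5) (nat_lit 45) (nat_lit 5) (nat_lit 379) (nat_lit 318) (nat_lit 203)) (XT.nd (nat_lit 78)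 (nat_lit 76) (nat_lit 0) (XT.lf (nat_lit 0) (nat_lit 14254848037) (nat_lit 76) (nat_lit 44819862643) (nat_lit 152) (nat_lit 7361585989) (nat_lit 41) (nat_lit 5) (nat_lit 42) (nat_lit 5) (nat_lit 43) (nat_lit 4) (nat_lit 380) (nat_lit 318) (nat_lit 202)) (XT.lf (nat_lit 0) (nat_lit 14814231659) (nat_lit 152) (nat_lit 4150508684) (nat_lit 76) (nat_lit 49970450290) (nat_lit 40) (nat_lit 5) (nat_lit 42) (nat_lit 5) (nat_lit 41) (nat_lit 5) (nat_lit 381) (nat_lit 318) (nat_lit 201)))) (XT.nd (nat_lit 78) (nat_lit 304) (nat_lit 0) (XT.lf (nat_lit 0) (nat_lit 38475829861) (nat_lit 228) (nat_lit 24516548727) (nat_lit 76) (nat_lit 8548588046) (nat_lit 38) (nat_lit 5) (nat_lit 41) (nat_lit 5) (nat_lit 39) (nat_lit 4) (nat_lit 382) (nat_lit 318) (nat_lit 200)) (XT.nd (nat_lit 78) (nat_lit 228) (nat_lit 0) (XT.lf (nat_lit 0) (nat_lit 26885918835) (nat_lit 76) (nat_lit 36918954318) (nat_lit 152) (nat_lit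 10457628379) (nat_lit 37) (nat_lit 5) (nat_lit 38) (nat_lit 5) (nat_lit 39) (nat_lit 4) (nat_lit 383) (nat_lit 318) (nat_lit 199)) (XT.lf (nat_lit 0) (nat_lit 4194310925) (nat_lit 152) (nat_lit 9113527519) (nat_lit 228) (nat_lit 63799844107) (nat_lit 34) (nat_lit 5) (nat_lit 36) (nat_lit 5) (nat_lit 37) (nat_lit 5) (nat_lit 384) (nat_lit 318) (nat_lit 198)))))) (XT.nd (nat_lit 468) (nat_lit 152) (nat_lit 0) (XT.nd (nat_lit 234) (nat_lit 76) (nat_lit 0) (XT.nd (nat_lit 78) (nat_lit 304) (nat_lit 0) (XT.lf (nat_lit 0) (nat_lit 38724604937) (nat_lit 228) (nat_lit 21065534045) (nat_lit 76) (nat_lit 20281499154) (nat_lit 34) (nat_lit 5) (nat_lit 37) (nat_lit 5) (nat_lit 35) (nat_lit 4) (nat_lit 385) (nat_lit 318) (nat_lit 197)) (XT.nd (nat_lit 78) (nat_lit 228) (nat_lit 0) (XT.lf (nat_lit 0) (nat_lit 33930142333) (nat_lit 76) (nat_lit 31892328494) (nat_lit 152) (nat_lit 17349013724) (nat_lit 33)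 (nat_lit 5) (nat_lit 34) (nat_lit 5) (nat_lit 35) (nat_lit 4) (nat_lit 386) (nat_lit 318) (nat_lit 196)) (XT.lf (nat_lit 0) (nat_lit 5715526110) (nat_lit 152) (nat_lit 2246440033) (nat_lit 228) (nat_lit 78454107910) (nat_lit 30) (nat_lit 5) (nat_lit 32) (nat_lit 5) (nat_lit 33) (nat_lit 5) (nat_lit 387) (nat_lit 318) (nat_lit 195)))) (XT.nd (nat_lit 78) (nat_lit 76) (nat_lit 0) (XT.lf (nat_lit 0) (nat_lit 34965021315) (nat_lit 228) (nat_lit 25830356006) (nat_lit 76) (nat_lit 28998803397) (nat_lit 30) (nat_lit 5) (nat_lit 33) (nat_lit 5) (nat_lit 31) (nat_lit 4) (nat_lit 388) (nat_lit 318) (nat_lit 194)) (XT.nd (nat_lit 78) (nat_lit 0) (nat_lit 0) (XT.lf (nat_lit 0) (nat_lit 32379025565) (nat_lit 76) (nat_lit 31265935231) (nat_lit 152) (nat_lit 29686430714) (nat_lit 29) (nat_lit 5) (nat_lit 30) (nat_lit 5) (nat_lit 31) (nat_lit 4) (nat_lit 389) (nat_lit 318) (nat_lit 193)) (XT.lf (nat_lit 0)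 (nat_lit 94017899554) (nat_lit 152) (nat_lit 3012206593) (nat_lit 0) (nat_lit 7587330) (nat_lit 29) (nat_lit 5) (nat_lit 31) (nat_lit 4) (nat_lit 29) (nat_lit 4) (nat_lit 390) (nat_lit 318) (nat_lit 192))))) (XT.nd (nat_lit 41418) (nat_lit 0) (nat_lit 17176) (XT.nd (nat_lit 41262) (nat_lit 0) (nat_lit 18240) (XT.lf (nat_lit 0) (nat_lit 25373931934) (nat_lit 152) (nat_lit 42510825160) (nat_lit 76) (nat_lit 33010914046) (nat_lit 27) (nat_lit 5) (nat_lit 29) (nat_lit 5) (nat_lit 28) (nat_lit 4) (nat_lit 391) (nat_lit 318) (nat_lit 191)) (XT.nd (nat_lit 78) (nat_lit 0) (nat_lit 0) (XT.lf (nat_lit 0) (nat_lit 4413227806) (nat_lit 1140) (nat_lit 470021124) (nat_lit 1140) (nat_lit 470021124) (nat_lit 267) (nat_lit 3) (nat_lit 282) (nat_lit 3) (nat_lit 282) (nat_lit 5) (nat_lit 319) (nat_lit 319) (nat_lit 262)) (XT.lf (nat_lit 76) (nat_lit 7753842868) (nat_lit 0) (nat_lit 2335948249) (nat_lit 1140)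 (nat_lit 852583469) (nat_lit 268) (nat_lit 5) (nat_lit 267) (nat_lit 3) (nat_lit 282) (nat_lit 5) (nat_lit 320) (nat_lit 319) (nat_lit 261)))) (XT.nd (nat_lit 78) (nat_lit 0) (nat_lit 76) (XT.lf (nat_lit 0) (nat_lit 277854219) (nat_lit 1140) (nat_lit 5454190693) (nat_lit 1216) (nat_lit 5456245401) (nat_lit 253) (nat_lit 5) (nat_lit 268) (nat_lit 5) (nat_lit 269) (nat_lit 5) (nat_lit 321) (nat_lit 319) (nat_lit 260)) (XT.nd (nat_lit 78) (nat_lit 0) (nat_lit 0) (XT.lf (nat_lit 0) (nat_lit 1501546878) (nat_lit 1140) (nat_lit 7737669503) (nat_lit 1216) (nat_lit 2205433712) (nat_lit 254) (nat_lit 5) (nat_lit 269) (nat_lit 5) (nat_lit 270) (nat_lit 5) (nat_lit 322) (nat_lit 319) (nat_lit 259)) (XT.lf (nat_lit 76) (nat_lit 1666179585) (nat_lit 0) (nat_lit 1193580401) (nat_lit 1216) (nat_lit 8851898735) (nat_lit 255) (nat_lit 5) (nat_lit 254) (nat_lit 5) (nat_lit 270) (nat_lit 5) (nat_lit 323) (nat_lit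 319) (nat_lit 258))))))))
noncomputable def xc82 : XT := (XT.nd (nat_lit 1872) (nat_lit 5472) (nat_lit 0) (XT.nd (nat_lit 936) (nat_lit 4940) (nat_lit 0) (XT.nd (nat_lit 468) (nat_lit 3648) (nat_lit 0) (XT.nd (nat_lit 234) (nat_lit 912) (nat_lit 0) (XT.nd (nat_lit 78) (nat_lit 0) (nat_lit 76) (XT.lf (nat_lit 0) (nat_lit 4381401760) (nat_lit 1140) (nat_lit 395035912) (nat_lit 1216) (nat_lit 7212744034) (nat_lit 255) (nat_lit 5) (nat_lit 270) (nat_lit 5) (nat_lit 271) (nat_lit 5) (nat_lit 324) (nat_lit 319) (nat_lit 257)) (XT.nd (nat_lit 78) (nat_lit 0) (nat_lit 76) (XT.lf (nat_lit 0) (nat_lit 6071131771) (nat_lit 1140) (nat_lit 2432263474) (nat_lit 1216) (nat_lit 3774453468) (nat_lit 256) (nat_lit 5) (nat_lit 271) (nat_lit 5) (nat_lit 272) (nat_lit 5) (nat_lit 325) (nat_lit 319) (nat_lit 256)) (XT.lf (nat_lit 0) (nat_lit 7927447300) (nat_lit 1140) (nat_lit 4480485283) (nat_lit 1216) (nat_lit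 170580242) (nat_lit 257) (nat_lit 5) (nat_lit 272) (nat_lit 5) (nat_lit 273) (nat_lit 5) (nat_lit 326) (nat_lit 319) (nat_lit 255)))) (XT.nd (nat_lit 78) (nat_lit 1064) (nat_lit 0) (XT.lf (nat_lit 76) (nat_lit 6313037873) (nat_lit 0) (nat_lit 3687749243) (nat_lit 1216) (nat_lit 2889722223) (nat_lit 258) (nat_lit 5) (nat_lit 257) (nat_lit 5) (nat_lit 273) (nat_lit 5) (nat_lit 327) (nat_lit 319) (nat_lit 254)) (XT.nd (nat_lit 78) (nat_lit 1140) (nat_lit 0) (XT.lf (nat_lit 76) (nat_lit 4521621473) (nat_lit 0) (nat_lit 7753220953) (nat_lit 1216) (nat_lit 940376036) (nat_lit 259) (nat_lit 5) (nat_lit 258) (nat_lit 5) (nat_lit 274) (nat_lit 5) (nat_lit 328) (nat_lit 319) (nat_lit 253)) (XT.lf (nat_lit 0) (nat_lit 1187415881) (nat_lit 1216) (nat_lit 10841088640) (nat_lit 76) (nat_lit 1524284790) (nat_lit 243) (nat_lit 5) (nat_lit 259) (nat_lit 5) (nat_lit 244) (nat_lit 5) (nat_lit 329) (nat_lit 319)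 (nat_lit 252))))) (XT.nd (nat_lit 234) (nat_lit 1824) (nat_lit 0) (XT.nd (nat_lit 78) (nat_lit 608) (nat_lit 0) (XT.lf (nat_lit 0) (nat_lit 855548193) (nat_lit 1216) (nat_lit 2681278298) (nat_lit 1292) (nat_lit 10366113913) (nat_lit 227) (nat_lit 5) (nat_lit 243) (nat_lit 5) (nat_lit 244) (nat_lit 5) (nat_lit 330) (nat_lit 319) (nat_lit 251)) (XT.nd (nat_lit 78) (nat_lit 608) (nat_lit 0) (XT.lf (nat_lit 0) (nat_lit 6144339684) (nat_lit 1292) (nat_lit 1010485978) (nat_lit 76) (nat_lit 7111574756) (nat_lit 227) (nat_lit 5) (nat_lit 244) (nat_lit 5) (nat_lit 228) (nat_lit 5) (nat_lit 331) (nat_lit 319) (nat_lit 250)) (XT.lf (nat_lit 0) (nat_lit 9011006436) (nat_lit 684) (nat_lit 2876001943) (nat_lit 76) (nat_lit 2757181078) (nat_lit 219) (nat_lit 5) (nat_lit 228) (nat_lit 5) (nat_lit 220) (nat_lit 5) (nat_lit 332) (nat_lit 319) (nat_lit 249)))) (XT.nd (nat_lit 78) (nat_lit 1216) (nat_lit 0) (XT.lf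 (nat_lit 0) (nat_lit 10258716776) (nat_lit 608) (nat_lit 1906456981) (nat_lit 684) (nat_lit 2871387613) (nat_lit 211) (nat_lit 5) (nat_lit 219) (nat_lit 5) (nat_lit 220) (nat_lit 5) (nat_lit 333) (nat_lit 319) (nat_lit 248)) (XT.nd (nat_lit 78) (nat_lit 532) (nat_lit 0) (XT.lf (nat_lit 0) (nat_lit 189872898) (nat_lit 684) (nat_lit 6731254915) (nat_lit 76) (nat_lit 8522574954) (nat_lit 202) (nat_lit 5) (nat_lit 211) (nat_lit 5) (nat_lit 203) (nat_lit 5) (nat_lit 334) (nat_lit 319) (nat_lit 247)) (XT.lf (nat_lit 0) (nat_lit 3484137785) (nat_lit 608) (nat_lit 8739798761) (nat_lit 76) (nat_lit 3642248257) (nat_lit 195) (nat_lit 5) (nat_lit 203) (nat_lit 5) (nat_lit 196) (nat_lit 5) (nat_lit 335) (nat_lit 319) (nat_lit 246)))))) (XT.nd (nat_lit 468) (nat_lit 2432) (nat_lit 0) (XT.nd (nat_lit 234) (nat_lit 988) (nat_lit 0) (XT.nd (nat_lit 78) (nat_lit 988) (nat_lit 0) (XT.lf (nat_lit 0) (nat_lit 5511596728)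 (nat_lit 532) (nat_lit 1590945745) (nat_lit 608) (nat_lit 9202481135) (nat_lit 188) (nat_lit 5) (nat_lit 195) (nat_lit 5) (nat_lit 196) (nat_lit 5) (nat_lit 336) (nat_lit 319) (nat_lit 245)) (XT.nd (nat_lit 78) (nat_lit 532) (nat_lit 0) (XT.lf (nat_lit 0) (nat_lit 3841924555) (nat_lit 456) (nat_lit 7247612109) (nat_lit 532) (nat_lit 5670652338) (nat_lit 182) (nat_lit 5) (nat_lit 188) (nat_lit 5) (nat_lit 189) (nat_lit 5) (nat_lit 337) (nat_lit 319) (nat_lit 244)) (XT.lf (nat_lit 0) (nat_lit 2152193366) (nat_lit 532) (nat_lit 13279003905) (nat_lit 608) (nat_lit 1802269921) (nat_lit 175) (nat_lit 5) (nat_lit 182) (nat_lit 5) (nat_lit 183) (nat_lit 5) (nat_lit 338) (nat_lit 319) (nat_lit 243)))) (XT.nd (nat_lit 78) (nat_lit 456) (nat_lit 0) (XT.lf (nat_lit 0) (nat_lit 396530508) (nat_lit 456) (nat_lit 2000032226) (nat_lit 532) (nat_lit 15327774246) (nat_lit 168) (nat_lit 5) (nat_lit 174) (nat_lit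 5) (nat_lit 175) (nat_lit 5) (nat_lit 339) (nat_lit 319) (nat_lit 242)) (XT.nd (nat_lit 78) (nat_lit 456) (nat_lit 0) (XT.lf (nat_lit 0) (nat_lit 6990737295) (nat_lit 532) (nat_lit 1420626420) (nat_lit 76) (nat_lit 9821183348) (nat_lit 168) (nat_lit 5) (nat_lit 175) (nat_lit 5) (nat_lit 169) (nat_lit 5) (nat_lit 340) (nat_lit 319) (nat_lit 241)) (XT.lf (nat_lit 0) (nat_lit 11990789522) (nat_lit 532) (nat_lit 3264409204) (nat_lit 76) (nat_lit 3505695618) (nat_lit 162) (nat_lit 5) (nat_lit 169) (nat_lit 5) (nat_lit 163) (nat_lit 5) (nat_lit 341) (nat_lit 319) (nat_lit 240))))) (XT.nd (nat_lit 234) (nat_lit 1140) (nat_lit 0) (XT.nd (nat_lit 78) (nat_lit 912) (nat_lit 0) (XT.lf (nat_lit 0) (nat_lit 14131900551) (nat_lit 380) (nat_lit 3317725861) (nat_lit 456) (nat_lit 1859780319) (nat_lit 157) (nat_lit 5) (nat_lit 162) (nat_lit 5) (nat_lit 163) (nat_lit 5) (nat_lit 342) (nat_lit 319) (nat_lit 239))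 (XT.nd (nat_lit 78) (nat_lit 380) (nat_lit 0) (XT.lf (nat_lit 0) (nat_lit 3452772835) (nat_lit 532) (nat_lit 7204202220) (nat_lit 76) (nat_lit 9220798617) (nat_lit 150) (nat_lit 5) (nat_lit 157) (nat_lit 5) (nat_lit 151) (nat_lit 5) (nat_lit 343) (nat_lit 319) (nat_lit 238)) (XT.lf (nat_lit 0) (nat_lit 9181983527) (nat_lit 456) (nat_lit 9302541389) (nat_lit 76) (nat_lit 1983806712) (nat_lit 145) (nat_lit 5) (nat_lit 151) (nat_lit 5) (nat_lit 146) (nat_lit 5) (nat_lit 344) (nat_lit 319) (nat_lit 237)))) (XT.nd (nat_lit 78) (nat_lit 760) (nat_lit 0) (XT.lf (nat_lit 0) (nat_lit 9565133788) (nat_lit 380) (nat_lit 5882605957) (nat_lit 456) (nat_lit 5633184580) (nat_lit 140) (nat_lit 5) (nat_lit 145) (nat_lit 5) (nat_lit 146) (nat_lit 5) (nat_lit 345) (nat_lit 319) (nat_lit 236)) (XT.nd (nat_lit 78) (nat_lit 380) (nat_lit 0) (XT.lf (nat_lit 0) (nat_lit 518667027) (nat_lit 380) (nat_lit 13822347401)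 (nat_lit 76) (nat_lit 7376395581) (nat_lit 135) (nat_lit 5) (nat_lit 140) (nat_lit 5) (nat_lit 136) (nat_lit 5) (nat_lit 346) (nat_lit 319) (nat_lit 235)) (XT.lf (nat_lit 0) (nat_lit 6105534344) (nat_lit 380) (nat_lit 972001923) (nat_lit 456) (nat_lit 15300040923) (nat_lit 130) (nat_lit 5) (nat_lit 135) (nat_lit 5) (nat_lit 136) (nat_lit 5) (nat_lit 347) (nat_lit 319) (nat_lit 234))))))) (XT.nd (nat_lit 936) (nat_lit 2128) (nat_lit 0) (XT.nd (nat_lit 468) (nat_lit 1672) (nat_lit 0) (XT.nd (nat_lit 234) (nat_lit 988) (nat_lit 0) (XT.nd (nat_lit 78) (nat_lit 380) (nat_lit 0) (XT.lf (nat_lit 0) (nat_lit 4175812152) (nat_lit 304) (nat_lit 10075753343) (nat_lit 380) (nat_lit 8810578620) (nat_lit 126) (nat_lit 5) (nat_lit 130) (nat_lit 5) (nat_lit 131) (nat_lit 5) (nat_lit 348) (nat_lit 319) (nat_lit 233)) (XT.nd (nat_lit 78) (nat_lit 76) (nat_lit 0) (XT.lf (nat_lit 0) (nat_lit 2173768190) (nat_lit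 304) (nat_lit 19825708128) (nat_lit 380) (nat_lit 1775015169) (nat_lit 122) (nat_lit 5) (nat_lit 126) (nat_lit 5) (nat_lit 127) (nat_lit 5) (nat_lit 349) (nat_lit 319) (nat_lit 232)) (XT.lf (nat_lit 0) (nat_lit 5779850250) (nat_lit 380) (nat_lit 22730774) (nat_lit 76) (nat_lit 18709952454) (nat_lit 121) (nat_lit 5) (nat_lit 126) (nat_lit 5) (nat_lit 122) (nat_lit 5) (nat_lit 350) (nat_lit 319) (nat_lit 231)))) (XT.nd (nat_lit 78) (nat_lit 684) (nat_lit 0) (XT.lf (nat_lit 0) (nat_lit 13965585292) (nat_lit 380) (nat_lit 2331813588) (nat_lit 76) (nat_lit 8980862974) (nat_lit 117) (nat_lit 5) (nat_lit 122) (nat_lit 5) (nat_lit 118) (nat_lit 5) (nat_lit 351) (nat_lit 319) (nat_lit 230)) (XT.nd (nat_lit 78) (nat_lit 380) (nat_lit 0) (XT.lf (nat_lit 0) (nat_lit 21311253096) (nat_lit 304) (nat_lit 1493617453) (nat_lit 380) (nat_lit 3270084491) (nat_lit 113) (nat_lit 5) (nat_lit 117) (nat_lit 5) (nat_lit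 118) (nat_lit 5) (nat_lit 352) (nat_lit 319) (nat_lit 229)) (XT.lf (nat_lit 0) (nat_lit 5404746050) (nat_lit 380) (nat_lit 7463152315) (nat_lit 76) (nat_lit 14032165546) (nat_lit 108) (nat_lit 5) (nat_lit 113) (nat_lit 5) (nat_lit 109) (nat_lit 5) (nat_lit 353) (nat_lit 319) (nat_lit 228))))) (XT.nd (nat_lit 234) (nat_lit 760) (nat_lit 0) (XT.nd (nat_lit 78) (nat_lit 608) (nat_lit 0) (XT.lf (nat_lit 0) (nat_lit 14687031608) (nat_lit 380) (nat_lit 10339354742) (nat_lit 76) (nat_lit 2731835792) (nat_lit 104) (nat_lit 5) (nat_lit 109) (nat_lit 5) (nat_lit 105) (nat_lit 5) (nat_lit 354) (nat_lit 319) (nat_lit 227)) (XT.nd (nat_lit 78) (nat_lit 380) (nat_lit 0) (XT.lf (nat_lit 0) (nat_lit 15182355650) (nat_lit 228) (nat_lit 9586642064) (nat_lit 304) (nat_lit 3880228859) (nat_lit 101) (nat_lit 5) (nat_lit 104) (nat_lit 5) (nat_lit 105) (nat_lit 5) (nat_lit 355) (nat_lit 319) (nat_lit 226)) (XT.lf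 (nat_lit 0) (nat_lit 5937028084) (nat_lit 380) (nat_lit 16862457741) (nat_lit 76) (nat_lit 6775255875) (nat_lit 96) (nat_lit 5) (nat_lit 101) (nat_lit 5) (nat_lit 97) (nat_lit 5) (nat_lit 356) (nat_lit 319) (nat_lit 225)))) (XT.nd (nat_lit 78) (nat_lit 532) (nat_lit 0) (XT.lf (nat_lit 0) (nat_lit 9970245021) (nat_lit 228) (nat_lit 6511071133) (nat_lit 304) (nat_lit 14054576014) (nat_lit 93) (nat_lit 5) (nat_lit 96) (nat_lit 5) (nat_lit 97) (nat_lit 5) (nat_lit 357) (nat_lit 319) (nat_lit 224)) (XT.nd (nat_lit 78) (nat_lit 304) (nat_lit 0) (XT.lf (nat_lit 0) (nat_lit 6963310205) (nat_lit 228) (nat_lit 20917099790) (nat_lit 304) (nat_lit 3654866849) (nat_lit 90) (nat_lit 5) (nat_lit 93) (nat_lit 5) (nat_lit 94) (nat_lit 5) (nat_lit 358) (nat_lit 319) (nat_lit 223)) (XT.lf (nat_lit 0) (nat_lit 3627660288) (nat_lit 228) (nat_lit 3793711786) (nat_lit 304) (nat_lit 25152218538) (nat_lit 86) (nat_lit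 5) (nat_lit 89) (nat_lit 5) (nat_lit 90) (nat_lit 5) (nat_lit 359) (nat_lit 319) (nat_lit 222)))))) (XT.nd (nat_lit 468) (nat_lit 988) (nat_lit 0) (XT.nd (nat_lit 234) (nat_lit 684) (nat_lit 0) (XT.nd (nat_lit 78) (nat_lit 456) (nat_lit 0) (XT.lf (nat_lit 0) (nat_lit 19352704276) (nat_lit 304) (nat_lit 106560437) (nat_lit 76) (nat_lit 14192167563) (nat_lit 86) (nat_lit 5) (nat_lit 90) (nat_lit 5) (nat_lit 87) (nat_lit 5) (nat_lit 360) (nat_lit 319) (nat_lit 221)) (XT.nd (nat_lit 78) (nat_lit 228) (nat_lit 0) (XT.lf (nat_lit 0) (nat_lit 30711665875) (nat_lit 228) (nat_lit 1487545254) (nat_lit 304) (nat_lit 2574400365) (nat_lit 83) (nat_lit 5) (nat_lit 86) (nat_lit 5) (nat_lit 87) (nat_lit 5) (nat_lit 361) (nat_lit 319) (nat_lit 220)) (XT.lf (nat_lit 0) (nat_lit 9968008450) (nat_lit 228) (nat_lit 8570847406) (nat_lit 76) (nat_lit 17397583997) (nat_lit 80) (nat_lit 5) (nat_lit 83) (nat_lit 5) (nat_lit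 81) (nat_lit 5) (nat_lit 362) (nat_lit 319) (nat_lit 219)))) (XT.nd (nat_lit 78) (nat_lit 456) (nat_lit 0) (XT.lf (nat_lit 0) (nat_lit 23358806076) (nat_lit 304) (nat_lit 13460995486) (nat_lit 76) (nat_lit 328611336) (nat_lit 77) (nat_lit 5) (nat_lit 81) (nat_lit 5) (nat_lit 78) (nat_lit 5) (nat_lit 363) (nat_lit 319) (nat_lit 218)) (XT.nd (nat_lit 78) (nat_lit 304) (nat_lit 0) (XT.lf (nat_lit 0) (nat_lit 19488629106) (nat_lit 152) (nat_lit 18380263749) (nat_lit 228) (nat_lit 538602376) (nat_lit 75) (nat_lit 5) (nat_lit 77) (nat_lit 5) (nat_lit 78) (nat_lit 5) (nat_lit 364) (nat_lit 319) (nat_lit 217)) (XT.lf (nat_lit 0) (nat_lit 13395858689) (nat_lit 304) (nat_lit 24953603995) (nat_lit 76) (nat_lit 1367757835) (nat_lit 71) (nat_lit 5) (nat_lit 75) (nat_lit 5) (nat_lit 72) (nat_lit 5) (nat_lit 365) (nat_lit 319) (nat_lit 216))))) (XT.nd (nat_lit 234) (nat_lit 532) (nat_lit 0) (XT.nd (nat_lit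 78) (nat_lit 304) (nat_lit 0) (XT.lf (nat_lit 0) (nat_lit 9407365361) (nat_lit 152) (nat_lit 19068114298) (nat_lit 228) (nat_lit 12603007892) (nat_lit 69) (nat_lit 5) (nat_lit 71) (nat_lit 5) (nat_lit 72) (nat_lit 5) (nat_lit 366) (nat_lit 319) (nat_lit 215)) (XT.nd (nat_lit 78) (nat_lit 0) (nat_lit 0) (XT.lf (nat_lit 0) (nat_lit 2060954093) (nat_lit 304) (nat_lit 38978268784) (nat_lit 76) (nat_lit 1459232963) (nat_lit 65) (nat_lit 5) (nat_lit 69) (nat_lit 5) (nat_lit 66) (nat_lit 5) (nat_lit 367) (nat_lit 319) (nat_lit 214)) (XT.lf (nat_lit 0) (nat_lit 17709058644) (nat_lit 304) (nat_lit 3191228489) (nat_lit 76) (nat_lit 23070046538) (nat_lit 65) (nat_lit 5) (nat_lit 69) (nat_lit 5) (nat_lit 66) (nat_lit 5) (nat_lit 368) (nat_lit 319) (nat_lit 213)))) (XT.nd (nat_lit 78) (nat_lit 380) (nat_lit 0) (XT.lf (nat_lit 0) (nat_lit 34470144957) (nat_lit 228) (nat_lit 10463147168) (nat_lit 76) (nat_lit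 572598274) (nat_lit 63) (nat_lit 5) (nat_lit 66) (nat_lit 5) (nat_lit 64) (nat_lit 5) (nat_lit 369) (nat_lit 319) (nat_lit 212)) (XT.nd (nat_lit 78) (nat_lit 152) (nat_lit 0) (XT.lf (nat_lit 0) (nat_lit 5365526460) (nat_lit 228) (nat_lit 18693913306) (nat_lit 76) (nat_lit 23042027178) (nat_lit 60) (nat_lit 5) (nat_lit 63) (nat_lit 5) (nat_lit 61) (nat_lit 5) (nat_lit 370) (nat_lit 319) (nat_lit 211)) (XT.lf (nat_lit 0) (nat_lit 20943182320) (nat_lit 152) (nat_lit 1716262082) (nat_lit 228) (nat_lit 26105077437) (nat_lit 58) (nat_lit 5) (nat_lit 60) (nat_lit 5) (nat_lit 61) (nat_lit 5) (nat_lit 371) (nat_lit 319) (nat_lit 210))))))))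
noncomputable def xc83 : XT := (XT.nd (nat_lit 43134) (nat_lit 0) (nat_lit 8056) (XT.nd (nat_lit 936) (nat_lit 684) (nat_lit 0) (XT.nd (nat_lit 468) (nat_lit 608) (nat_lit 0) (XT.nd (nat_lit 234) (nat_lit 532) (nat_lit 0) (XT.nd (nat_lit 78) (nat_lit 228) (nat_lit 0) (XT.lf (nat_lit 0) (nat_lit 12460477719) (nat_lit 152) (nat_lit 28869598663) (nat_lit 228) (nat_lit 9165294483) (nat_lit 56) (nat_lit 5) (nat_lit 58) (nat_lit 5) (nat_lit 59) (nat_lit 5) (nat_lit 372) (nat_lit 319) (nat_lit 209)) (XT.nd (nat_lit 78) (nat_lit 0) (nat_lit 0) (XT.lf (nat_lit 0) (nat_lit 2969277778) (nat_lit 152) (nat_lit 5808179358) (nat_lit 228) (nat_lit 43523094273) (nat_lit 53) (nat_lit 5) (nat_lit 55) (nat_lit 5) (nat_lit 56) (nat_lit 5) (nat_lit 373) (nat_lit 319) (nat_lit 208)) (XT.lf (nat_lit 0) (nat_lit 27991280099) (nat_lit 228) (nat_lit 7658005549) (nat_lit 76) (nat_lit 18527080083) (nat_lit 53) (nat_lit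 5) (nat_lit 56) (nat_lit 5) (nat_lit 54) (nat_lit 5) (nat_lit 374) (nat_lit 319) (nat_lit 207)))) (XT.nd (nat_lit 78) (nat_lit 380) (nat_lit 0) (XT.lf (nat_lit 0) (nat_lit 36739199119) (nat_lit 152) (nat_lit 11828262954) (nat_lit 228) (nat_lit 7566460279) (nat_lit 51) (nat_lit 5) (nat_lit 53) (nat_lit 5) (nat_lit 54) (nat_lit 5) (nat_lit 375) (nat_lit 319) (nat_lit 206)) (XT.nd (nat_lit 78) (nat_lit 152) (nat_lit 0) (XT.lf (nat_lit 0) (nat_lit 12197021958) (nat_lit 228) (nat_lit 32610355601) (nat_lit 76) (nat_lit 13365092305) (nat_lit 48) (nat_lit 5) (nat_lit 51) (nat_lit 5) (nat_lit 49) (nat_lit 5) (nat_lit 376) (nat_lit 319) (nat_lit 205)) (XT.lf (nat_lit 0) (nat_lit 12901749848) (nat_lit 152) (nat_lit 20327263339) (nat_lit 228) (nat_lit 27068580898) (nat_lit 46) (nat_lit 5) (nat_lit 48) (nat_lit 5) (nat_lit 49) (nat_lit 5) (nat_lit 377) (nat_lit 319) (nat_lit 204))))) (XT.nd (nat_lit 234)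 (nat_lit 304) (nat_lit 0) (XT.nd (nat_lit 78) (nat_lit 304) (nat_lit 0) (XT.lf (nat_lit 0) (nat_lit 55693866349) (nat_lit 228) (nat_lit 1220111349) (nat_lit 76) (nat_lit 5603560307) (nat_lit 46) (nat_lit 5) (nat_lit 49) (nat_lit 5) (nat_lit 47) (nat_lit 4) (nat_lit 378) (nat_lit 319) (nat_lit 203)) (XT.nd (nat_lit 78) (nat_lit 152) (nat_lit 0) (XT.lf (nat_lit 0) (nat_lit 14815722308) (nat_lit 152) (nat_lit 16994828513) (nat_lit 76) (nat_lit 33013850593) (nat_lit 44) (nat_lit 5) (nat_lit 46) (nat_lit 5) (nat_lit 45) (nat_lit 5) (nat_lit 379) (nat_lit 319) (nat_lit 202)) (XT.lf (nat_lit 0) (nat_lit 32663376444) (nat_lit 152) (nat_lit 5051758334) (nat_lit 228) (nat_lit 29519872393) (nat_lit 42) (nat_lit 5) (nat_lit 44) (nat_lit 5) (nat_lit 45) (nat_lit 5) (nat_lit 380) (nat_lit 319) (nat_lit 201)))) (XT.nd (nat_lit 78) (nat_lit 228) (nat_lit 0) (XT.lf (nat_lit 0) (nat_lit 15461448873) (nat_lit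 76) (nat_lit 46836293685) (nat_lit 152) (nat_lit 7452255058) (nat_lit 41) (nat_lit 5) (nat_lit 42) (nat_lit 5) (nat_lit 43) (nat_lit 4) (nat_lit 381) (nat_lit 319) (nat_lit 200)) (XT.nd (nat_lit 78) (nat_lit 152) (nat_lit 0) (XT.lf (nat_lit 0) (nat_lit 15813987963) (nat_lit 152) (nat_lit 3882504896) (nat_lit 76) (nat_lit 52677653605) (nat_lit 40) (nat_lit 5) (nat_lit 42) (nat_lit 5) (nat_lit 41) (nat_lit 5) (nat_lit 382) (nat_lit 319) (nat_lit 199)) (XT.lf (nat_lit 0) (nat_lit 40652796509) (nat_lit 228) (nat_lit 25274938441) (nat_lit 76) (nat_lit 9182653942) (nat_lit 38) (nat_lit 5) (nat_lit 41) (nat_lit 5) (nat_lit 39) (nat_lit 4) (nat_lit 383) (nat_lit 319) (nat_lit 198)))))) (XT.nd (nat_lit 468) (nat_lit 76) (nat_lit 0) (XT.nd (nat_lit 234) (nat_lit 304) (nat_lit 0) (XT.nd (nat_lit 78) (nat_lit 228) (nat_lit 0) (XT.lf (nat_lit 0) (nat_lit 28684253491) (nat_lit 76) (nat_lit 38556347013) (nat_lit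 152) (nat_lit 10727632243) (nat_lit 37) (nat_lit 5) (nat_lit 38) (nat_lit 5) (nat_lit 39) (nat_lit 4) (nat_lit 384) (nat_lit 319) (nat_lit 197)) (XT.nd (nat_lit 78) (nat_lit 0) (nat_lit 0) (XT.lf (nat_lit 0) (nat_lit 4849871040) (nat_lit 152) (nat_lit 9363781250) (nat_lit 228) (nat_lit 66742174591) (nat_lit 34) (nat_lit 5) (nat_lit 36) (nat_lit 5) (nat_lit 37) (nat_lit 5) (nat_lit 385) (nat_lit 319) (nat_lit 196)) (XT.lf (nat_lit 0) (nat_lit 40891689062) (nat_lit 228) (nat_lit 21689182446) (nat_lit 76) (nat_lit 21487397072) (nat_lit 34) (nat_lit 5) (nat_lit 37) (nat_lit 5) (nat_lit 35) (nat_lit 4) (nat_lit 386) (nat_lit 319) (nat_lit 195)))) (XT.nd (nat_lit 78) (nat_lit 228) (nat_lit 0) (XT.lf (nat_lit 0) (nat_lit 36043962543) (nat_lit 76) (nat_lit 33293504131) (nat_lit 152) (nat_lit 17985851320) (nat_lit 33) (nat_lit 5) (nat_lit 34) (nat_lit 5) (nat_lit 35) (nat_lit 4) (nat_lit 387) (nat_lit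 319) (nat_lit 194)) (XT.nd (nat_lit 78) (nat_lit 0) (nat_lit 0) (XT.lf (nat_lit 0) (nat_lit 6411047624) (nat_lit 152) (nat_lit 2168301260) (nat_lit 228) (nat_lit 82150927578) (nat_lit 30) (nat_lit 5) (nat_lit 32) (nat_lit 5) (nat_lit 33) (nat_lit 5) (nat_lit 388) (nat_lit 319) (nat_lit 193)) (XT.lf (nat_lit 0) (nat_lit 36923858342) (nat_lit 228) (nat_lit 26727096971) (nat_lit 76) (nat_lit 30626595184) (nat_lit 30) (nat_lit 5) (nat_lit 33) (nat_lit 5) (nat_lit 31) (nat_lit 4) (nat_lit 389) (nat_lit 319) (nat_lit 192))))) (XT.nd (nat_lit 41496) (nat_lit 0) (nat_lit 16948) (XT.nd (nat_lit 78) (nat_lit 0) (nat_lit 0) (XT.lf (nat_lit 0) (nat_lit 34381437479) (nat_lit 76) (nat_lit 32650015473) (nat_lit 152) (nat_lit 30960360165) (nat_lit 29) (nat_lit 5) (nat_lit 30) (nat_lit 5) (nat_lit 31) (nat_lit 4) (nat_lit 390) (nat_lit 319) (nat_lit 191)) (XT.nd (nat_lit 41340) (nat_lit 0) (nat_lit 18088) (XT.lf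 (nat_lit 0) (nat_lit 98914953441) (nat_lit 152) (nat_lit 2793401813) (nat_lit 0) (nat_lit 175318468) (nat_lit 29) (nat_lit 5) (nat_lit 31) (nat_lit 4) (nat_lit 29) (nat_lit 4) (nat_lit 391) (nat_lit 319) (nat_lit 190)) (XT.lf (nat_lit 0) (nat_lit 5586913260) (nat_lit 1140) (nat_lit 2444670) (nat_lit 1140) (nat_lit 2444670) (nat_lit 267) (nat_lit 3) (nat_lit 282) (nat_lit 3) (nat_lit 282) (nat_lit 5) (nat_lit 320) (nat_lit 320) (nat_lit 260)))) (XT.nd (nat_lit 78) (nat_lit 0) (nat_lit 76) (XT.lf (nat_lit 0) (nat_lit 965783405) (nat_lit 1140) (nat_lit 2347662373) (nat_lit 1216) (nat_lit 8120000833) (nat_lit 252) (nat_lit 5) (nat_lit 267) (nat_lit 3) (nat_lit 268) (nat_lit 5) (nat_lit 321) (nat_lit 320) (nat_lit 259)) (XT.nd (nat_lit 78) (nat_lit 0) (nat_lit 76) (XT.lf (nat_lit 0) (nat_lit 2049039853) (nat_lit 1140) (nat_lit 4702028000) (nat_lit 1216) (nat_lit 4942966713) (nat_lit 253) (nat_lit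 5) (nat_lit 268) (nat_lit 5) (nat_lit 269) (nat_lit 5) (nat_lit 322) (nat_lit 320) (nat_lit 258)) (XT.lf (nat_lit 0) (nat_lit 3253195362) (nat_lit 1140) (nat_lit 7071046423) (nat_lit 1216) (nat_lit 1641437512) (nat_lit 254) (nat_lit 5) (nat_lit 269) (nat_lit 5) (nat_lit 270) (nat_lit 5) (nat_lit 323) (nat_lit 320) (nat_lit 257))))))) (XT.nd (nat_lit 936) (nat_lit 5092) (nat_lit 0) (XT.nd (nat_lit 468) (nat_lit 3040) (nat_lit 0) (XT.nd (nat_lit 234) (nat_lit 912) (nat_lit 0) (XT.nd (nat_lit 78) (nat_lit 0) (nat_lit 76) (XT.lf (nat_lit 76) (nat_lit 2772796565) (nat_lit 0) (nat_lit 1836522502) (nat_lit 1216) (nat_lit 7638862442) (nat_lit 255) (nat_lit 5) (nat_lit 254) (nat_lit 5) (nat_lit 270) (nat_lit 5) (nat_lit 324) (nat_lit 320) (nat_lit 256)) (XT.nd (nat_lit 78) (nat_lit 0) (nat_lit 76) (XT.lf (nat_lit 76) (nat_lit 624032102) (nat_lit 0) (nat_lit 5507166324) (nat_lit 1216) (nat_lit 6410698648)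 (nat_lit 256) (nat_lit 5) (nat_lit 255) (nat_lit 5) (nat_lit 271) (nat_lit 5) (nat_lit 325) (nat_lit 320) (nat_lit 255)) (XT.lf (nat_lit 0) (nat_lit 7831931102) (nat_lit 1140) (nat_lit 1507563450) (nat_lit 1216) (nat_lit 3507746535) (nat_lit 256) (nat_lit 5) (nat_lit 271) (nat_lit 5) (nat_lit 272) (nat_lit 5) (nat_lit 326) (nat_lit 320) (nat_lit 254)))) (XT.nd (nat_lit 78) (nat_lit 1064) (nat_lit 0) (XT.lf (nat_lit 76) (nat_lit 9521058412) (nat_lit 0) (nat_lit 198625007) (nat_lit 1216) (nat_lit 3445133629) (nat_lit 257) (nat_lit 5) (nat_lit 256) (nat_lit 5) (nat_lit 272) (nat_lit 5) (nat_lit 327) (nat_lit 320) (nat_lit 253)) (XT.nd (nat_lit 78) (nat_lit 1140) (nat_lit 0) (XT.lf (nat_lit 76) (nat_lit 7660889040) (nat_lit 0) (nat_lit 4177435228) (nat_lit 1216) (nat_lit 1655875599) (nat_lit 258) (nat_lit 5) (nat_lit 257) (nat_lit 5) (nat_lit 273) (nat_lit 5) (nat_lit 328) (nat_lit 320) (nat_lit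 252)) (XT.lf (nat_lit 0) (nat_lit 326278395) (nat_lit 1216) (nat_lit 8047241191) (nat_lit 1292) (nat_lit 5463255874) (nat_lit 242) (nat_lit 5) (nat_lit 258) (nat_lit 5) (nat_lit 259) (nat_lit 5) (nat_lit 329) (nat_lit 320) (nat_lit 251))))) (XT.nd (nat_lit 234) (nat_lit 1900) (nat_lit 0) (XT.nd (nat_lit 78) (nat_lit 1216) (nat_lit 0) (XT.lf (nat_lit 0) (nat_lit 2487617792) (nat_lit 1216) (nat_lit 10302464852) (nat_lit 76) (nat_lit 1402495961) (nat_lit 243) (nat_lit 5) (nat_lit 259) (nat_lit 5) (nat_lit 244) (nat_lit 5) (nat_lit 330) (nat_lit 320) (nat_lit 250)) (XT.nd (nat_lit 78) (nat_lit 0) (nat_lit 0) (XT.lf (nat_lit 0) (nat_lit 1948026399) (nat_lit 1216) (nat_lit 2957475704) (nat_lit 1292) (nat_lit 9656234827) (nat_lit 227) (nat_lit 5) (nat_lit 243) (nat_lit 5) (nat_lit 244) (nat_lit 5) (nat_lit 331) (nat_lit 320) (nat_lit 249)) (XT.lf (nat_lit 0) (nat_lit 7585335729) (nat_lit 1292) (nat_lit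 25374502) (nat_lit 76) (nat_lit 7334429727) (nat_lit 227) (nat_lit 5) (nat_lit 244) (nat_lit 5) (nat_lit 228) (nat_lit 5) (nat_lit 332) (nat_lit 320) (nat_lit 248)))) (XT.nd (nat_lit 78) (nat_lit 1292) (nat_lit 0) (XT.lf (nat_lit 0) (nat_lit 10550213393) (nat_lit 684) (nat_lit 1979825923) (nat_lit 76) (nat_lit 2813159811) (nat_lit 219) (nat_lit 5) (nat_lit 228) (nat_lit 5) (nat_lit 220) (nat_lit 5) (nat_lit 333) (nat_lit 320) (nat_lit 247)) (XT.nd (nat_lit 78) (nat_lit 684) (nat_lit 0) (XT.lf (nat_lit 0) (nat_lit 11781818026) (nat_lit 608) (nat_lit 2038140589) (nat_lit 684) (nat_lit 1936520653) (nat_lit 211) (nat_lit 5) (nat_lit 219) (nat_lit 5) (nat_lit 220) (nat_lit 5) (nat_lit 334) (nat_lit 320) (nat_lit 246)) (XT.lf (nat_lit 0) (nat_lit 1215900087) (nat_lit 684) (nat_lit 6034566832) (nat_lit 76) (nat_lit 8934449359) (nat_lit 202) (nat_lit 5) (nat_lit 211) (nat_lit 5) (nat_lit 203) (nat_lit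 5) (nat_lit 335) (nat_lit 320) (nat_lit 245)))))) (XT.nd (nat_lit 468) (nat_lit 2508) (nat_lit 0) (XT.nd (nat_lit 234) (nat_lit 1064) (nat_lit 0) (XT.nd (nat_lit 78) (nat_lit 988) (nat_lit 0) (XT.lf (nat_lit 0) (nat_lit 4636367958) (nat_lit 608) (nat_lit 8143618147) (nat_lit 76) (nat_lit 3849714266) (nat_lit 195) (nat_lit 5) (nat_lit 203) (nat_lit 5) (nat_lit 196) (nat_lit 5) (nat_lit 336) (nat_lit 320) (nat_lit 244)) (XT.nd (nat_lit 78) (nat_lit 456) (nat_lit 0) (XT.lf (nat_lit 0) (nat_lit 6790731490) (nat_lit 532) (nat_lit 1608035636) (nat_lit 608) (nat_lit 8692843333) (nat_lit 188) (nat_lit 5) (nat_lit 195) (nat_lit 5) (nat_lit 196) (nat_lit 5) (nat_lit 337) (nat_lit 320) (nat_lit 243)) (XT.lf (nat_lit 0) (nat_lit 5036068511) (nat_lit 456) (nat_lit 7514432433) (nat_lit 532) (nat_lit 5020092025) (nat_lit 182) (nat_lit 5) (nat_lit 188) (nat_lit 5) (nat_lit 189) (nat_lit 5) (nat_lit 338) (nat_lit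 320) (nat_lit 242)))) (XT.nd (nat_lit 78) (nat_lit 532) (nat_lit 0) (XT.lf (nat_lit 0) (nat_lit 3259049190) (nat_lit 532) (nat_lit 13817509530) (nat_lit 608) (nat_lit 991976490) (nat_lit 175) (nat_lit 5) (nat_lit 182) (nat_lit 5) (nat_lit 183) (nat_lit 5) (nat_lit 339) (nat_lit 320) (nat_lit 241)) (XT.nd (nat_lit 78) (nat_lit 0) (nat_lit 0) (XT.lf (nat_lit 0) (nat_lit 1404395544) (nat_lit 456) (nat_lit 1962289858) (nat_lit 532) (nat_lit 15217997783) (nat_lit 168) (nat_lit 5) (nat_lit 174) (nat_lit 5) (nat_lit 175) (nat_lit 5) (nat_lit 340) (nat_lit 320) (nat_lit 240)) (XT.lf (nat_lit 0) (nat_lit 8151339503) (nat_lit 532) (nat_lit 527291003) (nat_lit 76) (nat_lit 10440867370) (nat_lit 168) (nat_lit 5) (nat_lit 175) (nat_lit 5) (nat_lit 169) (nat_lit 5) (nat_lit 341) (nat_lit 320) (nat_lit 239))))) (XT.nd (nat_lit 234) (nat_lit 1140) (nat_lit 0) (XT.nd (nat_lit 78) (nat_lit 912) (nat_lit 0) (XT.lf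 (nat_lit 0) (nat_lit 13373269146) (nat_lit 532) (nat_lit 2468627315) (nat_lit 76) (nat_lit 3833226226) (nat_lit 162) (nat_lit 5) (nat_lit 169) (nat_lit 5) (nat_lit 163) (nat_lit 5) (nat_lit 342) (nat_lit 320) (nat_lit 238)) (XT.nd (nat_lit 78) (nat_lit 532) (nat_lit 0) (XT.lf (nat_lit 0) (nat_lit 15770008318) (nat_lit 380) (nat_lit 3306710969) (nat_lit 456) (nat_lit 1175206891) (nat_lit 157) (nat_lit 5) (nat_lit 162) (nat_lit 5) (nat_lit 163) (nat_lit 5) (nat_lit 343) (nat_lit 320) (nat_lit 237)) (XT.lf (nat_lit 0) (nat_lit 4362116255) (nat_lit 532) (nat_lit 6624009088) (nat_lit 76) (nat_lit 9863146879) (nat_lit 150) (nat_lit 5) (nat_lit 157) (nat_lit 5) (nat_lit 151) (nat_lit 5) (nat_lit 344) (nat_lit 320) (nat_lit 236)))) (XT.nd (nat_lit 78) (nat_lit 760) (nat_lit 0) (XT.lf (nat_lit 0) (nat_lit 10353438680) (nat_lit 456) (nat_lit 8834586099) (nat_lit 76) (nat_lit 2282077521) (nat_lit 145)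 (nat_lit 5) (nat_lit 151) (nat_lit 5) (nat_lit 146) (nat_lit 5) (nat_lit 345) (nat_lit 320) (nat_lit 235)) (XT.nd (nat_lit 78) (nat_lit 380) (nat_lit 0) (XT.lf (nat_lit 0) (nat_lit 10949726218) (nat_lit 380) (nat_lit 5957547032) (nat_lit 456) (nat_lit 5206820773) (nat_lit 140) (nat_lit 5) (nat_lit 145) (nat_lit 5) (nat_lit 146) (nat_lit 5) (nat_lit 346) (nat_lit 320) (nat_lit 234)) (XT.lf (nat_lit 0) (nat_lit 1216499670) (nat_lit 380) (nat_lit 13601262967) (nat_lit 76) (nat_lit 7965118524) (nat_lit 135) (nat_lit 5) (nat_lit 140) (nat_lit 5) (nat_lit 136) (nat_lit 5) (nat_lit 347) (nat_lit 320) (nat_lit 233))))))))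
noncomputable def xc84 : XT := (XT.nd (nat_lit 1872) (nat_lit 2356) (nat_lit 0) (XT.nd (nat_lit 936) (nat_lit 2280) (nat_lit 0) (XT.nd (nat_lit 468) (nat_lit 1748) (nat_lit 0) (XT.nd (nat_lit 234) (nat_lit 684) (nat_lit 0) (XT.nd (nat_lit 78) (nat_lit 608) (nat_lit 0) (XT.lf (nat_lit 0) (nat_lit 7296864784) (nat_lit 380) (nat_lit 782969674) (nat_lit 456) (nat_lit 15396938121) (nat_lit 130) (nat_lit 5) (nat_lit 135) (nat_lit 5) (nat_lit 136) (nat_lit 5) (nat_lit 348) (nat_lit 320) (nat_lit 232)) (XT.nd (nat_lit 78) (nat_lit 304) (nat_lit 0) (XT.lf (nat_lit 0) (nat_lit 5262158388) (nat_lit 304) (nat_lit 10330140646) (nat_lit 380) (nat_lit 8603887792) (nat_lit 126) (nat_lit 5) (nat_lit 130) (nat_lit 5) (nat_lit 131) (nat_lit 5) (nat_lit 349) (nat_lit 320) (nat_lit 231)) (XT.lf (nat_lit 0) (nat_lit 3151046618) (nat_lit 304) (nat_lit 20557279271) (nat_lit 380) (nat_lit 1236414531) (nat_lit 122) (nat_lit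 5) (nat_lit 126) (nat_lit 5) (nat_lit 127) (nat_lit 5) (nat_lit 350) (nat_lit 320) (nat_lit 230)))) (XT.nd (nat_lit 78) (nat_lit 304) (nat_lit 0) (XT.lf (nat_lit 0) (nat_lit 831438158) (nat_lit 304) (nat_lit 5831215477) (nat_lit 380) (nat_lit 19057498600) (nat_lit 117) (nat_lit 5) (nat_lit 121) (nat_lit 5) (nat_lit 122) (nat_lit 5) (nat_lit 351) (nat_lit 320) (nat_lit 229)) (XT.nd (nat_lit 78) (nat_lit 304) (nat_lit 0) (XT.lf (nat_lit 0) (nat_lit 15232017728) (nat_lit 380) (nat_lit 1618614314) (nat_lit 76) (nat_lit 9674313938) (nat_lit 117) (nat_lit 5) (nat_lit 122) (nat_lit 5) (nat_lit 118) (nat_lit 5) (nat_lit 352) (nat_lit 320) (nat_lit 228)) (XT.lf (nat_lit 0) (nat_lit 23182819942) (nat_lit 304) (nat_lit 1311140198) (nat_lit 380) (nat_lit 2868101678) (nat_lit 113) (nat_lit 5) (nat_lit 117) (nat_lit 5) (nat_lit 118) (nat_lit 5) (nat_lit 353) (nat_lit 320) (nat_lit 227))))) (XT.nd (nat_lit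 234) (nat_lit 836) (nat_lit 0) (XT.nd (nat_lit 78) (nat_lit 532) (nat_lit 0) (XT.lf (nat_lit 0) (nat_lit 6213144602) (nat_lit 380) (nat_lit 7028774003) (nat_lit 76) (nat_lit 14986841305) (nat_lit 108) (nat_lit 5) (nat_lit 113) (nat_lit 5) (nat_lit 109) (nat_lit 5) (nat_lit 354) (nat_lit 320) (nat_lit 226)) (XT.nd (nat_lit 78) (nat_lit 228) (nat_lit 0) (XT.lf (nat_lit 0) (nat_lit 15943998472) (nat_lit 380) (nat_lit 10058718284) (nat_lit 76) (nat_lit 3127583405) (nat_lit 104) (nat_lit 5) (nat_lit 109) (nat_lit 5) (nat_lit 105) (nat_lit 5) (nat_lit 355) (nat_lit 320) (nat_lit 225)) (XT.lf (nat_lit 0) (nat_lit 16716214463) (nat_lit 228) (nat_lit 9796409264) (nat_lit 304) (nat_lit 3553761626) (nat_lit 101) (nat_lit 5) (nat_lit 104) (nat_lit 5) (nat_lit 105) (nat_lit 5) (nat_lit 356) (nat_lit 320) (nat_lit 224)))) (XT.nd (nat_lit 78) (nat_lit 456) (nat_lit 0) (XT.lf (nat_lit 0) (nat_lit 6729818249)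 (nat_lit 380) (nat_lit 16930694114) (nat_lit 76) (nat_lit 7377952092) (nat_lit 96) (nat_lit 5) (nat_lit 101) (nat_lit 5) (nat_lit 97) (nat_lit 5) (nat_lit 357) (nat_lit 320) (nat_lit 223)) (XT.nd (nat_lit 78) (nat_lit 228) (nat_lit 0) (XT.lf (nat_lit 0) (nat_lit 11221431820) (nat_lit 228) (nat_lit 6563507940) (nat_lit 304) (nat_lit 14263230599) (nat_lit 93) (nat_lit 5) (nat_lit 96) (nat_lit 5) (nat_lit 97) (nat_lit 5) (nat_lit 358) (nat_lit 320) (nat_lit 222)) (XT.lf (nat_lit 0) (nat_lit 8054125196) (nat_lit 228) (nat_lit 21686666160) (nat_lit 304) (nat_lit 3357134997) (nat_lit 90) (nat_lit 5) (nat_lit 93) (nat_lit 5) (nat_lit 94) (nat_lit 5) (nat_lit 359) (nat_lit 320) (nat_lit 221)))))) (XT.nd (nat_lit 468) (nat_lit 1140) (nat_lit 0) (XT.nd (nat_lit 234) (nat_lit 608) (nat_lit 0) (XT.nd (nat_lit 78) (nat_lit 228) (nat_lit 0) (XT.lf (nat_lit 0) (nat_lit 4539628404) (nat_lit 228) (nat_lit 3708501193)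 (nat_lit 304) (nat_lit 25940355677) (nat_lit 86) (nat_lit 5) (nat_lit 89) (nat_lit 5) (nat_lit 90) (nat_lit 5) (nat_lit 360) (nat_lit 320) (nat_lit 220)) (XT.nd (nat_lit 78) (nat_lit 0) (nat_lit 0) (XT.lf (nat_lit 0) (nat_lit 606350771) (nat_lit 228) (nat_lit 20156323419) (nat_lit 304) (nat_lit 14557950896) (nat_lit 83) (nat_lit 5) (nat_lit 86) (nat_lit 5) (nat_lit 87) (nat_lit 5) (nat_lit 361) (nat_lit 320) (nat_lit 219)) (XT.lf (nat_lit 0) (nat_lit 32933407293) (nat_lit 228) (nat_lit 1298080246) (nat_lit 304) (nat_lit 2268031471) (nat_lit 83) (nat_lit 5) (nat_lit 86) (nat_lit 5) (nat_lit 87) (nat_lit 5) (nat_lit 362) (nat_lit 320) (nat_lit 218)))) (XT.nd (nat_lit 78) (nat_lit 380) (nat_lit 0) (XT.lf (nat_lit 0) (nat_lit 10881699429) (nat_lit 228) (nat_lit 8314595955) (nat_lit 76) (nat_lit 18524411968) (nat_lit 80) (nat_lit 5) (nat_lit 83) (nat_lit 5) (nat_lit 81) (nat_lit 5) (nat_lit 363)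 (nat_lit 320) (nat_lit 217)) (XT.nd (nat_lit 78) (nat_lit 152) (nat_lit 0) (XT.lf (nat_lit 0) (nat_lit 24931185736) (nat_lit 304) (nat_lit 13459263010) (nat_lit 76) (nat_lit 603160400) (nat_lit 77) (nat_lit 5) (nat_lit 81) (nat_lit 5) (nat_lit 78) (nat_lit 5) (nat_lit 364) (nat_lit 320) (nat_lit 216)) (XT.lf (nat_lit 0) (nat_lit 21118500315) (nat_lit 152) (nat_lit 19035318010) (nat_lit 228) (nat_lit 162220370) (nat_lit 75) (nat_lit 5) (nat_lit 77) (nat_lit 5) (nat_lit 78) (nat_lit 5) (nat_lit 365) (nat_lit 320) (nat_lit 215))))) (XT.nd (nat_lit 234) (nat_lit 380) (nat_lit 0) (XT.nd (nat_lit 78) (nat_lit 456) (nat_lit 0) (XT.lf (nat_lit 0) (nat_lit 14450971653) (nat_lit 304) (nat_lit 25547855986) (nat_lit 76) (nat_lit 1692613978) (nat_lit 71) (nat_lit 5) (nat_lit 75) (nat_lit 5) (nat_lit 72) (nat_lit 5) (nat_lit 366) (nat_lit 320) (nat_lit 214)) (XT.nd (nat_lit 78) (nat_lit 304) (nat_lit 0) (XT.lf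 (nat_lit 0) (nat_lit 10512431449) (nat_lit 152) (nat_lit 19759894754) (nat_lit 228) (nat_lit 12848817048) (nat_lit 69) (nat_lit 5) (nat_lit 71) (nat_lit 5) (nat_lit 72) (nat_lit 5) (nat_lit 367) (nat_lit 320) (nat_lit 213)) (XT.lf (nat_lit 0) (nat_lit 2531384624) (nat_lit 304) (nat_lit 40294792663) (nat_lit 76) (nat_lit 1786109124) (nat_lit 65) (nat_lit 5) (nat_lit 69) (nat_lit 5) (nat_lit 66) (nat_lit 5) (nat_lit 368) (nat_lit 320) (nat_lit 212)))) (XT.nd (nat_lit 78) (nat_lit 380) (nat_lit 0) (XT.lf (nat_lit 0) (nat_lit 18944399982) (nat_lit 304) (nat_lit 2748514142) (nat_lit 76) (nat_lit 24465372211) (nat_lit 65) (nat_lit 5) (nat_lit 69) (nat_lit 5) (nat_lit 66) (nat_lit 5) (nat_lit 369) (nat_lit 320) (nat_lit 211)) (XT.nd (nat_lit 78) (nat_lit 228) (nat_lit 0) (XT.lf (nat_lit 0) (nat_lit 36534868999) (nat_lit 228) (nat_lit 10393429443) (nat_lit 76) (nat_lit 842585813) (nat_lit 63) (nat_lit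 5) (nat_lit 66) (nat_lit 5) (nat_lit 64) (nat_lit 5) (nat_lit 370) (nat_lit 320) (nat_lit 210)) (XT.lf (nat_lit 0) (nat_lit 5967639103) (nat_lit 228) (nat_lit 19046025211) (nat_lit 76) (nat_lit 24432801561) (nat_lit 60) (nat_lit 5) (nat_lit 63) (nat_lit 5) (nat_lit 61) (nat_lit 5) (nat_lit 371) (nat_lit 320) (nat_lit 209))))))) (XT.nd (nat_lit 936) (nat_lit 836) (nat_lit 0) (XT.nd (nat_lit 468) (nat_lit 608) (nat_lit 0) (XT.nd (nat_lit 234) (nat_lit 380) (nat_lit 0) (XT.nd (nat_lit 78) (nat_lit 380) (nat_lit 0) (XT.lf (nat_lit 0) (nat_lit 22556225549) (nat_lit 152) (nat_lit 1559570050) (nat_lit 228) (nat_lit 27077194463) (nat_lit 58) (nat_lit 5) (nat_lit 60) (nat_lit 5) (nat_lit 61) (nat_lit 5) (nat_lit 372) (nat_lit 320) (nat_lit 208)) (XT.nd (nat_lit 78) (nat_lit 228) (nat_lit 0) (XT.lf (nat_lit 0) (nat_lit 13640378639) (nat_lit 152) (nat_lit 30071754686) (nat_lit 228) (nat_lit 9298485680)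 (nat_lit 56) (nat_lit 5) (nat_lit 58) (nat_lit 5) (nat_lit 59) (nat_lit 5) (nat_lit 373) (nat_lit 320) (nat_lit 207)) (XT.lf (nat_lit 0) (nat_lit 3664868202) (nat_lit 152) (nat_lit 5860273650) (nat_lit 228) (nat_lit 45381123017) (nat_lit 53) (nat_lit 5) (nat_lit 55) (nat_lit 5) (nat_lit 56) (nat_lit 5) (nat_lit 374) (nat_lit 320) (nat_lit 206)))) (XT.nd (nat_lit 78) (nat_lit 380) (nat_lit 0) (XT.lf (nat_lit 0) (nat_lit 29687132376) (nat_lit 228) (nat_lit 7513144095) (nat_lit 76) (nat_lit 19675971514) (nat_lit 53) (nat_lit 5) (nat_lit 56) (nat_lit 5) (nat_lit 54) (nat_lit 5) (nat_lit 375) (nat_lit 320) (nat_lit 205)) (XT.nd (nat_lit 78) (nat_lit 228) (nat_lit 0) (XT.lf (nat_lit 0) (nat_lit 39088792622) (nat_lit 152) (nat_lit 12194149608) (nat_lit 228) (nat_lit 7649017899) (nat_lit 51) (nat_lit 5) (nat_lit 53) (nat_lit 5) (nat_lit 54) (nat_lit 5) (nat_lit 376) (nat_lit 320) (nat_lit 204)) (XT.lf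 (nat_lit 0) (nat_lit 13090037961) (nat_lit 228) (nat_lit 33730952712) (nat_lit 76) (nat_lit 14251566009) (nat_lit 48) (nat_lit 5) (nat_lit 51) (nat_lit 5) (nat_lit 49) (nat_lit 5) (nat_lit 377) (nat_lit 320) (nat_lit 203))))) (XT.nd (nat_lit 234) (nat_lit 304) (nat_lit 0) (XT.nd (nat_lit 78) (nat_lit 152) (nat_lit 0) (XT.lf (nat_lit 0) (nat_lit 14042141236) (nat_lit 152) (nat_lit 21122764636) (nat_lit 228) (nat_lit 28139294916) (nat_lit 46) (nat_lit 5) (nat_lit 48) (nat_lit 5) (nat_lit 49) (nat_lit 5) (nat_lit 378) (nat_lit 320) (nat_lit 202)) (XT.nd (nat_lit 78) (nat_lit 152) (nat_lit 0) (XT.lf (nat_lit 0) (nat_lit 58741954986) (nat_lit 228) (nat_lit 803541833) (nat_lit 76) (nat_lit 6089978378) (nat_lit 46) (nat_lit 5) (nat_lit 49) (nat_lit 5) (nat_lit 47) (nat_lit 4) (nat_lit 379) (nat_lit 320) (nat_lit 201)) (XT.lf (nat_lit 0) (nat_lit 15814383443) (nat_lit 152) (nat_lit 17375517234) (nat_lit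 76) (nat_lit 34867949561) (nat_lit 44) (nat_lit 5) (nat_lit 46) (nat_lit 5) (nat_lit 45) (nat_lit 5) (nat_lit 380) (nat_lit 320) (nat_lit 200)))) (XT.nd (nat_lit 78) (nat_lit 152) (nat_lit 0) (XT.lf (nat_lit 0) (nat_lit 34752152670) (nat_lit 152) (nat_lit 5098713681) (nat_lit 228) (nat_lit 30738358605) (nat_lit 42) (nat_lit 5) (nat_lit 44) (nat_lit 5) (nat_lit 45) (nat_lit 5) (nat_lit 381) (nat_lit 320) (nat_lit 199)) (XT.nd (nat_lit 78) (nat_lit 76) (nat_lit 0) (XT.lf (nat_lit 0) (nat_lit 16682465474) (nat_lit 76) (nat_lit 48974423933) (nat_lit 152) (nat_lit 7573248554) (nat_lit 41) (nat_lit 5) (nat_lit 42) (nat_lit 5) (nat_lit 43) (nat_lit 4) (nat_lit 382) (nat_lit 320) (nat_lit 198)) (XT.lf (nat_lit 0) (nat_lit 16839648560) (nat_lit 152) (nat_lit 3645311118) (nat_lit 76) (nat_lit 55500815923) (nat_lit 40) (nat_lit 5) (nat_lit 42) (nat_lit 5) (nat_lit 41) (nat_lit 5) (nat_lit 383) (nat_lit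 320) (nat_lit 197)))))) (XT.nd (nat_lit 468) (nat_lit 76) (nat_lit 0) (XT.nd (nat_lit 234) (nat_lit 304) (nat_lit 0) (XT.nd (nat_lit 78) (nat_lit 304) (nat_lit 0) (XT.lf (nat_lit 0) (nat_lit 42915073664) (nat_lit 228) (nat_lit 26114705570) (nat_lit 76) (nat_lit 9829212031) (nat_lit 38) (nat_lit 5) (nat_lit 41) (nat_lit 5) (nat_lit 39) (nat_lit 4) (nat_lit 384) (nat_lit 320) (nat_lit 196)) (XT.nd (nat_lit 78) (nat_lit 228) (nat_lit 0) (XT.lf (nat_lit 0) (nat_lit 30530292663) (nat_lit 76) (nat_lit 40294998812) (nat_lit 152) (nat_lit 11034646458) (nat_lit 37) (nat_lit 5) (nat_lit 38) (nat_lit 5) (nat_lit 39) (nat_lit 4) (nat_lit 385) (nat_lit 320) (nat_lit 195)) (XT.lf (nat_lit 0) (nat_lit 5496758758) (nat_lit 152) (nat_lit 9645645919) (nat_lit 228) (nat_lit 69854646840) (nat_lit 34) (nat_lit 5) (nat_lit 36) (nat_lit 5) (nat_lit 37) (nat_lit 5) (nat_lit 386) (nat_lit 320) (nat_lit 194)))) (XT.nd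 (nat_lit 78) (nat_lit 304) (nat_lit 0) (XT.lf (nat_lit 0) (nat_lit 43145664788) (nat_lit 228) (nat_lit 22383956034) (nat_lit 76) (nat_lit 22735756006) (nat_lit 34) (nat_lit 5) (nat_lit 37) (nat_lit 5) (nat_lit 35) (nat_lit 4) (nat_lit 387) (nat_lit 320) (nat_lit 193)) (XT.nd (nat_lit 78) (nat_lit 228) (nat_lit 0) (XT.lf (nat_lit 0) (nat_lit 38224675947) (nat_lit 76) (nat_lit 34782722841) (nat_lit 152) (nat_lit 18675971015) (nat_lit 33) (nat_lit 5) (nat_lit 34) (nat_lit 5) (nat_lit 35) (nat_lit 4) (nat_lit 388) (nat_lit 320) (nat_lit 192)) (XT.lf (nat_lit 0) (nat_lit 7103250987) (nat_lit 152) (nat_lit 2103962787) (nat_lit 228) (nat_lit 86053588943) (nat_lit 30) (nat_lit 5) (nat_lit 32) (nat_lit 5) (nat_lit 33) (nat_lit 5) (nat_lit 389) (nat_lit 320) (nat_lit 191))))) (XT.nd (nat_lit 41574) (nat_lit 0) (nat_lit 16948) (XT.nd (nat_lit 78) (nat_lit 76) (nat_lit 0) (XT.lf (nat_lit 0) (nat_lit 38961058934)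 (nat_lit 228) (nat_lit 27705377594) (nat_lit 76) (nat_lit 32319241603) (nat_lit 30) (nat_lit 5) (nat_lit 33) (nat_lit 5) (nat_lit 31) (nat_lit 4) (nat_lit 390) (nat_lit 320) (nat_lit 190)) (XT.nd (nat_lit 41418) (nat_lit 0) (nat_lit 16948) (XT.lf (nat_lit 0) (nat_lit 36448319453) (nat_lit 76) (nat_lit 34119961581) (nat_lit 152) (nat_lit 32317546350) (nat_lit 29) (nat_lit 5) (nat_lit 30) (nat_lit 5) (nat_lit 31) (nat_lit 4) (nat_lit 391) (nat_lit 320) (nat_lit 189)) (XT.lf (nat_lit 0) (nat_lit 438513160) (nat_lit 0) (nat_lit 438513160) (nat_lit 1140) (nat_lit 4967430355) (nat_lit 252) (nat_lit 5) (nat_lit 252) (nat_lit 3) (nat_lit 267) (nat_lit 3) (nat_lit 321) (nat_lit 321) (nat_lit 258)))) (XT.nd (nat_lit 78) (nat_lit 0) (nat_lit 76) (XT.lf (nat_lit 0) (nat_lit 2686206112) (nat_lit 1140) (nat_lit 1565552884) (nat_lit 1216) (nat_lit 7702289773) (nat_lit 252) (nat_lit 5) (nat_lit 267) (nat_lit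 3) (nat_lit 268) (nat_lit 5) (nat_lit 322) (nat_lit 321) (nat_lit 257)) (XT.nd (nat_lit 78) (nat_lit 0) (nat_lit 76) (XT.lf (nat_lit 0) (nat_lit 3745408329) (nat_lit 1140) (nat_lit 4007540078) (nat_lit 1216) (nat_lit 4477107378) (nat_lit 253) (nat_lit 5) (nat_lit 268) (nat_lit 5) (nat_lit 269) (nat_lit 5) (nat_lit 323) (nat_lit 321) (nat_lit 256)) (XT.lf (nat_lit 0) (nat_lit 4936554576) (nat_lit 1140) (nat_lit 6469037243) (nat_lit 1216) (nat_lit 1111928539) (nat_lit 254) (nat_lit 5) (nat_lit 269) (nat_lit 5) (nat_lit 270) (nat_lit 5) (nat_lit 324) (nat_lit 321) (nat_lit 255))))))))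
noncomputable def xc85 : XT := (XT.nd (nat_lit 1872) (nat_lit 5700) (nat_lit 0) (XT.nd (nat_lit 936) (nat_lit 5092) (nat_lit 0) (XT.nd (nat_lit 468) (nat_lit 3040) (nat_lit 0) (XT.nd (nat_lit 234) (nat_lit 912) (nat_lit 0) (XT.nd (nat_lit 78) (nat_lit 0) (nat_lit 76) (XT.lf (nat_lit 76) (nat_lit 3839606916) (nat_lit 0) (nat_lit 2457385435) (nat_lit 1216) (nat_lit 6519099234) (nat_lit 255) (nat_lit 5) (nat_lit 254) (nat_lit 5) (nat_lit 270) (nat_lit 5) (nat_lit 325) (nat_lit 321) (nat_lit 254)) (XT.nd (nat_lit 78) (nat_lit 0) (nat_lit 76) (XT.lf (nat_lit 76) (nat_lit 1604961506) (nat_lit 0) (nat_lit 6224899449) (nat_lit 1216) (nat_lit 5296622389) (nat_lit 256) (nat_lit 5) (nat_lit 255) (nat_lit 5) (nat_lit 271) (nat_lit 5) (nat_lit 326) (nat_lit 321) (nat_lit 253)) (XT.lf (nat_lit 0) (nat_lit 9545289780) (nat_lit 1140) (nat_lit 633904709) (nat_lit 1216) (nat_lit 3270045783) (nat_lit 256) (nat_lit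 5) (nat_lit 271) (nat_lit 5) (nat_lit 272) (nat_lit 5) (nat_lit 327) (nat_lit 321) (nat_lit 252)))) (XT.nd (nat_lit 78) (nat_lit 1064) (nat_lit 0) (XT.lf (nat_lit 76) (nat_lit 10918944294) (nat_lit 0) (nat_lit 554405589) (nat_lit 1216) (nat_lit 2311001354) (nat_lit 257) (nat_lit 5) (nat_lit 256) (nat_lit 5) (nat_lit 272) (nat_lit 5) (nat_lit 328) (nat_lit 321) (nat_lit 251)) (XT.nd (nat_lit 78) (nat_lit 1140) (nat_lit 0) (XT.lf (nat_lit 76) (nat_lit 8980168661) (nat_lit 0) (nat_lit 4663221750) (nat_lit 1216) (nat_lit 488480956) (nat_lit 258) (nat_lit 5) (nat_lit 257) (nat_lit 5) (nat_lit 273) (nat_lit 5) (nat_lit 329) (nat_lit 321) (nat_lit 250)) (XT.lf (nat_lit 0) (nat_lit 1516656355) (nat_lit 1216) (nat_lit 7477681069) (nat_lit 1292) (nat_lit 5498459423) (nat_lit 242) (nat_lit 5) (nat_lit 258) (nat_lit 5) (nat_lit 259) (nat_lit 5) (nat_lit 330) (nat_lit 321) (nat_lit 249))))) (XT.nd (nat_lit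 234) (nat_lit 1292) (nat_lit 0) (XT.nd (nat_lit 78) (nat_lit 1824) (nat_lit 0) (XT.lf (nat_lit 0) (nat_lit 3737469083) (nat_lit 1216) (nat_lit 9837381093) (nat_lit 76) (nat_lit 1293026139) (nat_lit 243) (nat_lit 5) (nat_lit 259) (nat_lit 5) (nat_lit 244) (nat_lit 5) (nat_lit 331) (nat_lit 321) (nat_lit 248)) (XT.nd (nat_lit 78) (nat_lit 608) (nat_lit 0) (XT.lf (nat_lit 0) (nat_lit 2997537284) (nat_lit 1216) (nat_lit 3234268756) (nat_lit 1292) (nat_lit 9025046768) (nat_lit 227) (nat_lit 5) (nat_lit 243) (nat_lit 5) (nat_lit 244) (nat_lit 5) (nat_lit 332) (nat_lit 321) (nat_lit 247)) (XT.lf (nat_lit 0) (nat_lit 930873646) (nat_lit 608) (nat_lit 8071048025) (nat_lit 684) (nat_lit 6658841325) (nat_lit 219) (nat_lit 5) (nat_lit 227) (nat_lit 5) (nat_lit 228) (nat_lit 5) (nat_lit 333) (nat_lit 321) (nat_lit 246)))) (XT.nd (nat_lit 78) (nat_lit 1292) (nat_lit 0) (XT.lf (nat_lit 0) (nat_lit 12065167722)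 (nat_lit 684) (nat_lit 1135528223) (nat_lit 76) (nat_lit 2879549937) (nat_lit 219) (nat_lit 5) (nat_lit 228) (nat_lit 5) (nat_lit 220) (nat_lit 5) (nat_lit 334) (nat_lit 321) (nat_lit 245)) (XT.nd (nat_lit 78) (nat_lit 684) (nat_lit 0) (XT.lf (nat_lit 0) (nat_lit 13287158733) (nat_lit 608) (nat_lit 2173027900) (nat_lit 684) (nat_lit 1055173134) (nat_lit 211) (nat_lit 5) (nat_lit 219) (nat_lit 5) (nat_lit 220) (nat_lit 5) (nat_lit 335) (nat_lit 321) (nat_lit 244)) (XT.lf (nat_lit 0) (nat_lit 2198720982) (nat_lit 684) (nat_lit 5399106212) (nat_lit 76) (nat_lit 9368242717) (nat_lit 202) (nat_lit 5) (nat_lit 211) (nat_lit 5) (nat_lit 203) (nat_lit 5) (nat_lit 336) (nat_lit 321) (nat_lit 243)))))) (XT.nd (nat_lit 468) (nat_lit 2052) (nat_lit 0) (XT.nd (nat_lit 234) (nat_lit 1520) (nat_lit 0) (XT.nd (nat_lit 78) (nat_lit 988) (nat_lit 0) (XT.lf (nat_lit 0) (nat_lit 5755282304) (nat_lit 608) (nat_lit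 7613682908) (nat_lit 76) (nat_lit 4065196440) (nat_lit 195) (nat_lit 5) (nat_lit 203) (nat_lit 5) (nat_lit 196) (nat_lit 5) (nat_lit 337) (nat_lit 321) (nat_lit 242)) (XT.nd (nat_lit 78) (nat_lit 456) (nat_lit 0) (XT.lf (nat_lit 0) (nat_lit 8040521965) (nat_lit 532) (nat_lit 1631786719) (nat_lit 608) (nat_lit 8247882907) (nat_lit 188) (nat_lit 5) (nat_lit 195) (nat_lit 5) (nat_lit 196) (nat_lit 5) (nat_lit 338) (nat_lit 321) (nat_lit 241)) (XT.lf (nat_lit 0) (nat_lit 6196758764) (nat_lit 456) (nat_lit 7803478063) (nat_lit 532) (nat_lit 4423846803) (nat_lit 182) (nat_lit 5) (nat_lit 188) (nat_lit 5) (nat_lit 189) (nat_lit 5) (nat_lit 339) (nat_lit 321) (nat_lit 240)))) (XT.nd (nat_lit 78) (nat_lit 988) (nat_lit 0) (XT.lf (nat_lit 0) (nat_lit 4328347369) (nat_lit 532) (nat_lit 14394603083) (nat_lit 608) (nat_lit 224879688) (nat_lit 175) (nat_lit 5) (nat_lit 182) (nat_lit 5) (nat_lit 183) (nat_lit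 5) (nat_lit 340) (nat_lit 321) (nat_lit 239)) (XT.nd (nat_lit 78) (nat_lit 456) (nat_lit 0) (XT.lf (nat_lit 0) (nat_lit 2370795376) (nat_lit 456) (nat_lit 1935466501) (nat_lit 532) (nat_lit 15184190031) (nat_lit 168) (nat_lit 5) (nat_lit 174) (nat_lit 5) (nat_lit 175) (nat_lit 5) (nat_lit 341) (nat_lit 321) (nat_lit 238)) (XT.lf (nat_lit 0) (nat_lit 327443099) (nat_lit 456) (nat_lit 8970271136) (nat_lit 532) (nat_lit 10755281758) (nat_lit 162) (nat_lit 5) (nat_lit 168) (nat_lit 5) (nat_lit 169) (nat_lit 5) (nat_lit 342) (nat_lit 321) (nat_lit 237))))) (XT.nd (nat_lit 234) (nat_lit 1140) (nat_lit 0) (XT.nd (nat_lit 78) (nat_lit 912) (nat_lit 0) (XT.lf (nat_lit 0) (nat_lit 14752082397) (nat_lit 532) (nat_lit 1722215280) (nat_lit 76) (nat_lit 4162978990) (nat_lit 162) (nat_lit 5) (nat_lit 169) (nat_lit 5) (nat_lit 163) (nat_lit 5) (nat_lit 343) (nat_lit 321) (nat_lit 236)) (XT.nd (nat_lit 78) (nat_lit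 532) (nat_lit 0) (XT.lf (nat_lit 0) (nat_lit 17403418249) (nat_lit 380) (nat_lit 3311591927) (nat_lit 456) (nat_lit 528695178) (nat_lit 157) (nat_lit 5) (nat_lit 162) (nat_lit 5) (nat_lit 163) (nat_lit 5) (nat_lit 344) (nat_lit 321) (nat_lit 235)) (XT.lf (nat_lit 0) (nat_lit 5248435019) (nat_lit 532) (nat_lit 6102236079) (nat_lit 76) (nat_lit 10520756223) (nat_lit 150) (nat_lit 5) (nat_lit 157) (nat_lit 5) (nat_lit 151) (nat_lit 5) (nat_lit 345) (nat_lit 321) (nat_lit 234)))) (XT.nd (nat_lit 78) (nat_lit 760) (nat_lit 0) (XT.lf (nat_lit 0) (nat_lit 11517238485) (nat_lit 456) (nat_lit 8429982198) (nat_lit 76) (nat_lit 2576753255) (nat_lit 145) (nat_lit 5) (nat_lit 151) (nat_lit 5) (nat_lit 146) (nat_lit 5) (nat_lit 346) (nat_lit 321) (nat_lit 233)) (XT.nd (nat_lit 78) (nat_lit 380) (nat_lit 0) (XT.lf (nat_lit 0) (nat_lit 12319285763) (nat_lit 380) (nat_lit 6056613297) (nat_lit 456) (nat_lit 4824964047)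 (nat_lit 140) (nat_lit 5) (nat_lit 145) (nat_lit 5) (nat_lit 146) (nat_lit 5) (nat_lit 347) (nat_lit 321) (nat_lit 232)) (XT.lf (nat_lit 0) (nat_lit 1886757119) (nat_lit 380) (nat_lit 13453932189) (nat_lit 76) (nat_lit 8562833102) (nat_lit 135) (nat_lit 5) (nat_lit 140) (nat_lit 5) (nat_lit 136) (nat_lit 5) (nat_lit 348) (nat_lit 321) (nat_lit 231))))))) (XT.nd (nat_lit 936) (nat_lit 2280) (nat_lit 0) (XT.nd (nat_lit 468) (nat_lit 1748) (nat_lit 0) (XT.nd (nat_lit 234) (nat_lit 684) (nat_lit 0) (XT.nd (nat_lit 78) (nat_lit 608) (nat_lit 0) (XT.lf (nat_lit 0) (nat_lit 8465384869) (nat_lit 380) (nat_lit 606578617) (nat_lit 456) (nat_lit 15560794236) (nat_lit 130) (nat_lit 5) (nat_lit 135) (nat_lit 5) (nat_lit 136) (nat_lit 5) (nat_lit 349) (nat_lit 321) (nat_lit 230)) (XT.nd (nat_lit 78) (nat_lit 304) (nat_lit 0) (XT.lf (nat_lit 0) (nat_lit 6321235131) (nat_lit 304) (nat_lit 10620434196) (nat_lit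 380) (nat_lit 8447034781) (nat_lit 126) (nat_lit 5) (nat_lit 130) (nat_lit 5) (nat_lit 131) (nat_lit 5) (nat_lit 350) (nat_lit 321) (nat_lit 229)) (XT.lf (nat_lit 0) (nat_lit 4096435701) (nat_lit 304) (nat_lit 21349574741) (nat_lit 380) (nat_lit 729209049) (nat_lit 122) (nat_lit 5) (nat_lit 126) (nat_lit 5) (nat_lit 127) (nat_lit 5) (nat_lit 351) (nat_lit 321) (nat_lit 228)))) (XT.nd (nat_lit 78) (nat_lit 304) (nat_lit 0) (XT.lf (nat_lit 0) (nat_lit 1649228186) (nat_lit 304) (nat_lit 5885374336) (nat_lit 380) (nat_lit 19455217246) (nat_lit 117) (nat_lit 5) (nat_lit 121) (nat_lit 5) (nat_lit 122) (nat_lit 5) (nat_lit 352) (nat_lit 321) (nat_lit 227)) (XT.nd (nat_lit 78) (nat_lit 304) (nat_lit 0) (XT.lf (nat_lit 0) (nat_lit 16508950289) (nat_lit 380) (nat_lit 946901081) (nat_lit 76) (nat_lit 10379714729) (nat_lit 117) (nat_lit 5) (nat_lit 122) (nat_lit 5) (nat_lit 118) (nat_lit 5) (nat_lit 353)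 (nat_lit 321) (nat_lit 226)) (XT.lf (nat_lit 0) (nat_lit 25073030500) (nat_lit 304) (nat_lit 1143447205) (nat_lit 380) (nat_lit 2498593349) (nat_lit 113) (nat_lit 5) (nat_lit 117) (nat_lit 5) (nat_lit 118) (nat_lit 5) (nat_lit 354) (nat_lit 321) (nat_lit 225))))) (XT.nd (nat_lit 234) (nat_lit 836) (nat_lit 0) (XT.nd (nat_lit 78) (nat_lit 532) (nat_lit 0) (XT.lf (nat_lit 0) (nat_lit 7011929949) (nat_lit 380) (nat_lit 6647753811) (nat_lit 76) (nat_lit 15965723036) (nat_lit 108) (nat_lit 5) (nat_lit 113) (nat_lit 5) (nat_lit 109) (nat_lit 5) (nat_lit 355) (nat_lit 321) (nat_lit 224)) (XT.nd (nat_lit 78) (nat_lit 228) (nat_lit 0) (XT.lf (nat_lit 0) (nat_lit 17215225865) (nat_lit 380) (nat_lit 9838203682) (nat_lit 76) (nat_lit 3519024546) (nat_lit 104) (nat_lit 5) (nat_lit 109) (nat_lit 5) (nat_lit 105) (nat_lit 5) (nat_lit 356) (nat_lit 321) (nat_lit 223)) (XT.lf (nat_lit 0) (nat_lit 18254738139)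 (nat_lit 228) (nat_lit 10041726413) (nat_lit 304) (nat_lit 3259360205) (nat_lit 101) (nat_lit 5) (nat_lit 104) (nat_lit 5) (nat_lit 105) (nat_lit 5) (nat_lit 357) (nat_lit 321) (nat_lit 222)))) (XT.nd (nat_lit 78) (nat_lit 456) (nat_lit 0) (XT.lf (nat_lit 0) (nat_lit 7516140237) (nat_lit 380) (nat_lit 17074383908) (nat_lit 76) (nat_lit 7986245092) (nat_lit 96) (nat_lit 5) (nat_lit 101) (nat_lit 5) (nat_lit 97) (nat_lit 5) (nat_lit 358) (nat_lit 321) (nat_lit 221)) (XT.nd (nat_lit 78) (nat_lit 228) (nat_lit 0) (XT.lf (nat_lit 0) (nat_lit 12465201413) (nat_lit 228) (nat_lit 6643958393) (nat_lit 304) (nat_lit 14528252252) (nat_lit 93) (nat_lit 5) (nat_lit 96) (nat_lit 5) (nat_lit 97) (nat_lit 5) (nat_lit 359) (nat_lit 321) (nat_lit 220)) (XT.lf (nat_lit 0) (nat_lit 9130436427) (nat_lit 228) (nat_lit 22520397546) (nat_lit 304) (nat_lit 3089186581) (nat_lit 90) (nat_lit 5) (nat_lit 93) (nat_lit 5)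 (nat_lit 94) (nat_lit 5) (nat_lit 360) (nat_lit 321) (nat_lit 219)))))) (XT.nd (nat_lit 468) (nat_lit 1064) (nat_lit 0) (XT.nd (nat_lit 234) (nat_lit 684) (nat_lit 0) (XT.nd (nat_lit 78) (nat_lit 228) (nat_lit 0) (XT.lf (nat_lit 0) (nat_lit 5429272049) (nat_lit 228) (nat_lit 3644587312) (nat_lit 304) (nat_lit 26811546895) (nat_lit 86) (nat_lit 5) (nat_lit 89) (nat_lit 5) (nat_lit 90) (nat_lit 5) (nat_lit 361) (nat_lit 321) (nat_lit 218)) (XT.nd (nat_lit 78) (nat_lit 0) (nat_lit 0) (XT.lf (nat_lit 0) (nat_lit 1290152237) (nat_lit 228) (nat_lit 20912861237) (nat_lit 304) (nat_lit 14871478048) (nat_lit 83) (nat_lit 5) (nat_lit 86) (nat_lit 5) (nat_lit 87) (nat_lit 5) (nat_lit 362) (nat_lit 321) (nat_lit 217)) (XT.lf (nat_lit 0) (nat_lit 35202443303) (nat_lit 228) (nat_lit 1123671541) (nat_lit 304) (nat_lit 1986794575) (nat_lit 83) (nat_lit 5) (nat_lit 86) (nat_lit 5) (nat_lit 87) (nat_lit 5) (nat_lit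 363) (nat_lit 321) (nat_lit 216)))) (XT.nd (nat_lit 78) (nat_lit 456) (nat_lit 0) (XT.lf (nat_lit 0) (nat_lit 11802465177) (nat_lit 228) (nat_lit 8109197570) (nat_lit 76) (nat_lit 19683692675) (nat_lit 80) (nat_lit 5) (nat_lit 83) (nat_lit 5) (nat_lit 81) (nat_lit 5) (nat_lit 364) (nat_lit 321) (nat_lit 215)) (XT.nd (nat_lit 78) (nat_lit 228) (nat_lit 0) (XT.lf (nat_lit 0) (nat_lit 26544583441) (nat_lit 304) (nat_lit 13520178767) (nat_lit 76) (nat_lit 867439506) (nat_lit 77) (nat_lit 5) (nat_lit 81) (nat_lit 5) (nat_lit 78) (nat_lit 5) (nat_lit 365) (nat_lit 321) (nat_lit 214)) (XT.lf (nat_lit 0) (nat_lit 191669988) (nat_lit 228) (nat_lit 19554059904) (nat_lit 76) (nat_lit 22575323028) (nat_lit 74) (nat_lit 5) (nat_lit 77) (nat_lit 5) (nat_lit 75) (nat_lit 5) (nat_lit 366) (nat_lit 321) (nat_lit 213))))) (XT.nd (nat_lit 234) (nat_lit 380) (nat_lit 0) (XT.nd (nat_lit 78) (nat_lit 456) (nat_lit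 0) (XT.lf (nat_lit 0) (nat_lit 15523016861) (nat_lit 304) (nat_lit 26232570138) (nat_lit 76) (nat_lit 2009868941) (nat_lit 71) (nat_lit 5) (nat_lit 75) (nat_lit 5) (nat_lit 72) (nat_lit 5) (nat_lit 367) (nat_lit 321) (nat_lit 212)) (XT.nd (nat_lit 78) (nat_lit 304) (nat_lit 0) (XT.lf (nat_lit 0) (nat_lit 11613742654) (nat_lit 152) (nat_lit 20510587669) (nat_lit 228) (nat_lit 13142649067) (nat_lit 69) (nat_lit 5) (nat_lit 71) (nat_lit 5) (nat_lit 72) (nat_lit 5) (nat_lit 368) (nat_lit 321) (nat_lit 211)) (XT.lf (nat_lit 0) (nat_lit 2991180908) (nat_lit 304) (nat_lit 41735936323) (nat_lit 76) (nat_lit 2105722529) (nat_lit 65) (nat_lit 5) (nat_lit 69) (nat_lit 5) (nat_lit 66) (nat_lit 5) (nat_lit 369) (nat_lit 321) (nat_lit 210)))) (XT.nd (nat_lit 78) (nat_lit 380) (nat_lit 0) (XT.lf (nat_lit 0) (nat_lit 20208979079) (nat_lit 304) (nat_lit 2339657970) (nat_lit 76) (nat_lit 25907981726) (nat_lit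 65) (nat_lit 5) (nat_lit 69) (nat_lit 5) (nat_lit 66) (nat_lit 5) (nat_lit 370) (nat_lit 321) (nat_lit 209)) (XT.nd (nat_lit 78) (nat_lit 228) (nat_lit 0) (XT.lf (nat_lit 0) (nat_lit 38671106139) (nat_lit 228) (nat_lit 10375345739) (nat_lit 76) (nat_lit 1103633584) (nat_lit 63) (nat_lit 5) (nat_lit 66) (nat_lit 5) (nat_lit 64) (nat_lit 5) (nat_lit 371) (nat_lit 321) (nat_lit 208)) (XT.lf (nat_lit 0) (nat_lit 6568820442) (nat_lit 228) (nat_lit 19469905828) (nat_lit 76) (nat_lit 25870925109) (nat_lit 60) (nat_lit 5) (nat_lit 63) (nat_lit 5) (nat_lit 61) (nat_lit 5) (nat_lit 372) (nat_lit 321) (nat_lit 207))))))))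
noncomputable def xc86 : XT := (XT.nd (nat_lit 43290) (nat_lit 0) (nat_lit 7600) (XT.nd (nat_lit 936) (nat_lit 760) (nat_lit 0) (XT.nd (nat_lit 468) (nat_lit 608) (nat_lit 0) (XT.nd (nat_lit 234) (nat_lit 380) (nat_lit 0) (XT.nd (nat_lit 78) (nat_lit 380) (nat_lit 0) (XT.lf (nat_lit 0) (nat_lit 24197310398) (nat_lit 152) (nat_lit 1417589246) (nat_lit 228) (nat_lit 28128889246) (nat_lit 58) (nat_lit 5) (nat_lit 60) (nat_lit 5) (nat_lit 61) (nat_lit 5) (nat_lit 373) (nat_lit 321) (nat_lit 206)) (XT.nd (nat_lit 78) (nat_lit 228) (nat_lit 0) (XT.lf (nat_lit 0) (nat_lit 14827501456) (nat_lit 152) (nat_lit 31356454519) (nat_lit 228) (nat_lit 9468558693) (nat_lit 56) (nat_lit 5) (nat_lit 58) (nat_lit 5) (nat_lit 59) (nat_lit 5) (nat_lit 374) (nat_lit 321) (nat_lit 205)) (XT.lf (nat_lit 0) (nat_lit 4344371507) (nat_lit 152) (nat_lit 5937128897) (nat_lit 228) (nat_lit 47361629536) (nat_lit 53) (nat_lit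 5) (nat_lit 55) (nat_lit 5) (nat_lit 56) (nat_lit 5) (nat_lit 375) (nat_lit 321) (nat_lit 204)))) (XT.nd (nat_lit 78) (nat_lit 380) (nat_lit 0) (XT.lf (nat_lit 0) (nat_lit 31440231191) (nat_lit 228) (nat_lit 7410105852) (nat_lit 76) (nat_lit 20861618096) (nat_lit 53) (nat_lit 5) (nat_lit 56) (nat_lit 5) (nat_lit 54) (nat_lit 5) (nat_lit 376) (nat_lit 321) (nat_lit 203)) (XT.nd (nat_lit 78) (nat_lit 228) (nat_lit 0) (XT.lf (nat_lit 0) (nat_lit 41508205993) (nat_lit 152) (nat_lit 12599297911) (nat_lit 228) (nat_lit 7763200862) (nat_lit 51) (nat_lit 5) (nat_lit 53) (nat_lit 5) (nat_lit 54) (nat_lit 5) (nat_lit 377) (nat_lit 321) (nat_lit 202)) (XT.lf (nat_lit 0) (nat_lit 14001378775) (nat_lit 228) (nat_lit 34954987269) (nat_lit 76) (nat_lit 15162075456) (nat_lit 48) (nat_lit 5) (nat_lit 51) (nat_lit 5) (nat_lit 49) (nat_lit 5) (nat_lit 378) (nat_lit 321) (nat_lit 201))))) (XT.nd (nat_lit 234) (nat_lit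 304) (nat_lit 0) (XT.nd (nat_lit 78) (nat_lit 152) (nat_lit 0) (XT.lf (nat_lit 0) (nat_lit 15193503532) (nat_lit 152) (nat_lit 21978574642) (nat_lit 228) (nat_lit 29289828797) (nat_lit 46) (nat_lit 5) (nat_lit 48) (nat_lit 5) (nat_lit 49) (nat_lit 5) (nat_lit 379) (nat_lit 321) (nat_lit 200)) (XT.nd (nat_lit 78) (nat_lit 152) (nat_lit 0) (XT.lf (nat_lit 0) (nat_lit 61917960054) (nat_lit 228) (nat_lit 410544245) (nat_lit 76) (nat_lit 6581543107) (nat_lit 46) (nat_lit 5) (nat_lit 49) (nat_lit 5) (nat_lit 47) (nat_lit 4) (nat_lit 380) (nat_lit 321) (nat_lit 199)) (XT.lf (nat_lit 0) (nat_lit 16839002859) (nat_lit 152) (nat_lit 17818848466) (nat_lit 76) (nat_lit 36795842675) (nat_lit 44) (nat_lit 5) (nat_lit 46) (nat_lit 5) (nat_lit 45) (nat_lit 5) (nat_lit 381) (nat_lit 321) (nat_lit 198)))) (XT.nd (nat_lit 78) (nat_lit 152) (nat_lit 0) (XT.lf (nat_lit 0) (nat_lit 36903009648) (nat_lit 152) (nat_lit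 5167134563) (nat_lit 228) (nat_lit 32041709725) (nat_lit 42) (nat_lit 5) (nat_lit 44) (nat_lit 5) (nat_lit 45) (nat_lit 5) (nat_lit 382) (nat_lit 321) (nat_lit 197)) (XT.nd (nat_lit 78) (nat_lit 76) (nat_lit 0) (XT.lf (nat_lit 0) (nat_lit 17922887304) (nat_lit 76) (nat_lit 51238397343) (nat_lit 152) (nat_lit 7723684899) (nat_lit 41) (nat_lit 5) (nat_lit 42) (nat_lit 5) (nat_lit 43) (nat_lit 4) (nat_lit 383) (nat_lit 321) (nat_lit 196)) (XT.lf (nat_lit 0) (nat_lit 17894747722) (nat_lit 152) (nat_lit 3436357605) (nat_lit 76) (nat_lit 58447538930) (nat_lit 40) (nat_lit 5) (nat_lit 42) (nat_lit 5) (nat_lit 41) (nat_lit 5) (nat_lit 384) (nat_lit 321) (nat_lit 195)))))) (XT.nd (nat_lit 468) (nat_lit 0) (nat_lit 0) (XT.nd (nat_lit 234) (nat_lit 304) (nat_lit 0) (XT.nd (nat_lit 78) (nat_lit 304) (nat_lit 0) (XT.lf (nat_lit 0) (nat_lit 45269115174) (nat_lit 228) (nat_lit 27035878677) (nat_lit 76) (nat_lit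 10490672988) (nat_lit 38) (nat_lit 5) (nat_lit 41) (nat_lit 5) (nat_lit 39) (nat_lit 4) (nat_lit 385) (nat_lit 321) (nat_lit 194)) (XT.nd (nat_lit 78) (nat_lit 228) (nat_lit 0) (XT.lf (nat_lit 0) (nat_lit 32430346070) (nat_lit 76) (nat_lit 42138170021) (nat_lit 152) (nat_lit 11378335791) (nat_lit 37) (nat_lit 5) (nat_lit 38) (nat_lit 5) (nat_lit 39) (nat_lit 4) (nat_lit 386) (nat_lit 321) (nat_lit 193)) (XT.lf (nat_lit 0) (nat_lit 6138394126) (nat_lit 152) (nat_lit 9958926497) (nat_lit 228) (nat_lit 73143627271) (nat_lit 34) (nat_lit 5) (nat_lit 36) (nat_lit 5) (nat_lit 37) (nat_lit 5) (nat_lit 387) (nat_lit 321) (nat_lit 192)))) (XT.nd (nat_lit 78) (nat_lit 304) (nat_lit 0) (XT.lf (nat_lit 0) (nat_lit 45492872084) (nat_lit 228) (nat_lit 23149697568) (nat_lit 76) (nat_lit 24030357031) (nat_lit 34) (nat_lit 5) (nat_lit 37) (nat_lit 5) (nat_lit 35) (nat_lit 4) (nat_lit 388) (nat_lit 321) (nat_lit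 191)) (XT.nd (nat_lit 78) (nat_lit 228) (nat_lit 0) (XT.lf (nat_lit 0) (nat_lit 40479234258) (nat_lit 76) (nat_lit 36362714769) (nat_lit 152) (nat_lit 19420043606) (nat_lit 33) (nat_lit 5) (nat_lit 34) (nat_lit 5) (nat_lit 35) (nat_lit 4) (nat_lit 389) (nat_lit 321) (nat_lit 190)) (XT.lf (nat_lit 0) (nat_lit 7795511933) (nat_lit 152) (nat_lit 2052468376) (nat_lit 228) (nat_lit 90170431643) (nat_lit 30) (nat_lit 5) (nat_lit 32) (nat_lit 5) (nat_lit 33) (nat_lit 5) (nat_lit 390) (nat_lit 321) (nat_lit 189))))) (XT.nd (nat_lit 41652) (nat_lit 0) (nat_lit 16948) (XT.nd (nat_lit 41496) (nat_lit 0) (nat_lit 16872) (XT.lf (nat_lit 0) (nat_lit 41082361472) (nat_lit 228) (nat_lit 28765862594) (nat_lit 76) (nat_lit 34081522649) (nat_lit 30) (nat_lit 5) (nat_lit 33) (nat_lit 5) (nat_lit 31) (nat_lit 4) (nat_lit 391) (nat_lit 321) (nat_lit 188)) (XT.nd (nat_lit 78) (nat_lit 0) (nat_lit 0) (XT.lf (nat_lit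 0) (nat_lit 860488612) (nat_lit 0) (nat_lit 860488612) (nat_lit 1140) (nat_lit 4391267789) (nat_lit 252) (nat_lit 5) (nat_lit 252) (nat_lit 3) (nat_lit 267) (nat_lit 3) (nat_lit 322) (nat_lit 322) (nat_lit 256)) (XT.lf (nat_lit 0) (nat_lit 4337190829) (nat_lit 1140) (nat_lit 827964217) (nat_lit 1216) (nat_lit 7340274010) (nat_lit 252) (nat_lit 5) (nat_lit 267) (nat_lit 3) (nat_lit 268) (nat_lit 5) (nat_lit 323) (nat_lit 322) (nat_lit 255)))) (XT.nd (nat_lit 78) (nat_lit 0) (nat_lit 76) (XT.lf (nat_lit 0) (nat_lit 5378407982) (nat_lit 1140) (nat_lit 3364752164) (nat_lit 1216) (nat_lit 4054243770) (nat_lit 253) (nat_lit 5) (nat_lit 268) (nat_lit 5) (nat_lit 269) (nat_lit 5) (nat_lit 324) (nat_lit 322) (nat_lit 254)) (XT.nd (nat_lit 78) (nat_lit 0) (nat_lit 0) (XT.lf (nat_lit 0) (nat_lit 6562701531) (nat_lit 1140) (nat_lit 5925766655) (nat_lit 1216) (nat_lit 612803108) (nat_lit 254) (nat_lit 5)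 (nat_lit 269) (nat_lit 5) (nat_lit 270) (nat_lit 5) (nat_lit 325) (nat_lit 322) (nat_lit 253)) (XT.lf (nat_lit 76) (nat_lit 4873465287) (nat_lit 0) (nat_lit 3060106686) (nat_lit 1216) (nat_lit 5482962286) (nat_lit 255) (nat_lit 5) (nat_lit 254) (nat_lit 5) (nat_lit 270) (nat_lit 5) (nat_lit 326) (nat_lit 322) (nat_lit 252))))))) (XT.nd (nat_lit 936) (nat_lit 4940) (nat_lit 0) (XT.nd (nat_lit 468) (nat_lit 3496) (nat_lit 0) (XT.nd (nat_lit 234) (nat_lit 1064) (nat_lit 0) (XT.nd (nat_lit 78) (nat_lit 0) (nat_lit 76) (XT.lf (nat_lit 76) (nat_lit 2546640691) (nat_lit 0) (nat_lit 6937391413) (nat_lit 1216) (nat_lit 4260218869) (nat_lit 256) (nat_lit 5) (nat_lit 255) (nat_lit 5) (nat_lit 271) (nat_lit 5) (nat_lit 327) (nat_lit 322) (nat_lit 251)) (XT.nd (nat_lit 78) (nat_lit 0) (nat_lit 0) (XT.lf (nat_lit 76) (nat_lit 199089465) (nat_lit 0) (nat_lit 11024255784) (nat_lit 1216) (nat_lit 2861689312)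 (nat_lit 257) (nat_lit 5) (nat_lit 256) (nat_lit 5) (nat_lit 272) (nat_lit 5) (nat_lit 328) (nat_lit 322) (nat_lit 250)) (XT.lf (nat_lit 76) (nat_lit 12301021179) (nat_lit 0) (nat_lit 895821407) (nat_lit 1216) (nat_lit 1241618128) (nat_lit 257) (nat_lit 5) (nat_lit 256) (nat_lit 5) (nat_lit 272) (nat_lit 5) (nat_lit 329) (nat_lit 322) (nat_lit 249)))) (XT.nd (nat_lit 78) (nat_lit 0) (nat_lit 76) (XT.lf (nat_lit 0) (nat_lit 608933772) (nat_lit 1216) (nat_lit 4532469879) (nat_lit 1292) (nat_lit 9663287181) (nat_lit 241) (nat_lit 5) (nat_lit 257) (nat_lit 5) (nat_lit 258) (nat_lit 5) (nat_lit 330) (nat_lit 322) (nat_lit 248)) (XT.nd (nat_lit 78) (nat_lit 0) (nat_lit 76) (XT.lf (nat_lit 0) (nat_lit 2657399867) (nat_lit 1216) (nat_lit 6970003054) (nat_lit 1292) (nat_lit 5557546344) (nat_lit 242) (nat_lit 5) (nat_lit 258) (nat_lit 5) (nat_lit 259) (nat_lit 5) (nat_lit 331) (nat_lit 322) (nat_lit 247))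 (XT.lf (nat_lit 0) (nat_lit 4945177368) (nat_lit 1216) (nat_lit 9440173501) (nat_lit 76) (nat_lit 1194779831) (nat_lit 243) (nat_lit 5) (nat_lit 259) (nat_lit 5) (nat_lit 244) (nat_lit 5) (nat_lit 332) (nat_lit 322) (nat_lit 246))))) (XT.nd (nat_lit 234) (nat_lit 1824) (nat_lit 0) (XT.nd (nat_lit 78) (nat_lit 608) (nat_lit 0) (XT.lf (nat_lit 0) (nat_lit 4011005591) (nat_lit 1216) (nat_lit 3512915769) (nat_lit 1292) (nat_lit 8465868447) (nat_lit 227) (nat_lit 5) (nat_lit 243) (nat_lit 5) (nat_lit 244) (nat_lit 5) (nat_lit 333) (nat_lit 322) (nat_lit 245)) (XT.nd (nat_lit 78) (nat_lit 0) (nat_lit 0) (XT.lf (nat_lit 0) (nat_lit 1846394314) (nat_lit 608) (nat_lit 8546739418) (nat_lit 684) (nat_lit 6021967373) (nat_lit 219) (nat_lit 5) (nat_lit 227) (nat_lit 5) (nat_lit 228) (nat_lit 5) (nat_lit 334) (nat_lit 322) (nat_lit 244)) (XT.lf (nat_lit 0) (nat_lit 13564066616) (nat_lit 684) (nat_lit 336713709)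 (nat_lit 76) (nat_lit 2956164292) (nat_lit 219) (nat_lit 5) (nat_lit 228) (nat_lit 5) (nat_lit 220) (nat_lit 5) (nat_lit 335) (nat_lit 322) (nat_lit 243)))) (XT.nd (nat_lit 78) (nat_lit 1216) (nat_lit 0) (XT.lf (nat_lit 0) (nat_lit 14782582253) (nat_lit 608) (nat_lit 2311593382) (nat_lit 684) (nat_lit 220699545) (nat_lit 211) (nat_lit 5) (nat_lit 219) (nat_lit 5) (nat_lit 220) (nat_lit 5) (nat_lit 336) (nat_lit 322) (nat_lit 242)) (XT.nd (nat_lit 78) (nat_lit 532) (nat_lit 0) (XT.lf (nat_lit 0) (nat_lit 3144961693) (nat_lit 684) (nat_lit 4819003509) (nat_lit 76) (nat_lit 9824927770) (nat_lit 202) (nat_lit 5) (nat_lit 211) (nat_lit 5) (nat_lit 203) (nat_lit 5) (nat_lit 337) (nat_lit 322) (nat_lit 241)) (XT.lf (nat_lit 0) (nat_lit 6847668594) (nat_lit 608) (nat_lit 7144375083) (nat_lit 76) (nat_lit 4289314728) (nat_lit 195) (nat_lit 5) (nat_lit 203) (nat_lit 5) (nat_lit 196) (nat_lit 5) (nat_lit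 338) (nat_lit 322) (nat_lit 240)))))) (XT.nd (nat_lit 468) (nat_lit 2432) (nat_lit 0) (XT.nd (nat_lit 234) (nat_lit 912) (nat_lit 0) (XT.nd (nat_lit 78) (nat_lit 1064) (nat_lit 0) (XT.lf (nat_lit 0) (nat_lit 9268175183) (nat_lit 532) (nat_lit 1661992201) (nat_lit 608) (nat_lit 7862451571) (nat_lit 188) (nat_lit 5) (nat_lit 195) (nat_lit 5) (nat_lit 196) (nat_lit 5) (nat_lit 339) (nat_lit 322) (nat_lit 239)) (XT.nd (nat_lit 78) (nat_lit 608) (nat_lit 0) (XT.lf (nat_lit 0) (nat_lit 7330983848) (nat_lit 456) (nat_lit 8115034287) (nat_lit 532) (nat_lit 3876558578) (nat_lit 182) (nat_lit 5) (nat_lit 188) (nat_lit 5) (nat_lit 189) (nat_lit 5) (nat_lit 340) (nat_lit 322) (nat_lit 238)) (XT.lf (nat_lit 0) (nat_lit 494795925) (nat_lit 608) (nat_lit 14511337284) (nat_lit 76) (nat_lit 4867054629) (nat_lit 174) (nat_lit 5) (nat_lit 182) (nat_lit 5) (nat_lit 175) (nat_lit 5) (nat_lit 341) (nat_lit 322) (nat_lit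 237)))) (XT.nd (nat_lit 78) (nat_lit 456) (nat_lit 0) (XT.lf (nat_lit 0) (nat_lit 3302196872) (nat_lit 456) (nat_lit 1918917513) (nat_lit 532) (nat_lit 15222576275) (nat_lit 168) (nat_lit 5) (nat_lit 174) (nat_lit 5) (nat_lit 175) (nat_lit 5) (nat_lit 342) (nat_lit 322) (nat_lit 236)) (XT.nd (nat_lit 78) (nat_lit 0) (nat_lit 0) (XT.lf (nat_lit 0) (nat_lit 1152992111) (nat_lit 456) (nat_lit 9284651604) (nat_lit 532) (nat_lit 10597467279) (nat_lit 162) (nat_lit 5) (nat_lit 168) (nat_lit 5) (nat_lit 169) (nat_lit 5) (nat_lit 343) (nat_lit 322) (nat_lit 235)) (XT.lf (nat_lit 0) (nat_lit 16133813315) (nat_lit 532) (nat_lit 1019352437) (nat_lit 76) (nat_lit 4496380957) (nat_lit 162) (nat_lit 5) (nat_lit 169) (nat_lit 5) (nat_lit 163) (nat_lit 5) (nat_lit 344) (nat_lit 322) (nat_lit 234))))) (XT.nd (nat_lit 234) (nat_lit 1140) (nat_lit 0) (XT.nd (nat_lit 78) (nat_lit 836) (nat_lit 0) (XT.lf (nat_lit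 0) (nat_lit 82922293) (nat_lit 456) (nat_lit 3247874834) (nat_lit 76) (nat_lit 18956187351) (nat_lit 156) (nat_lit 5) (nat_lit 162) (nat_lit 5) (nat_lit 157) (nat_lit 5) (nat_lit 345) (nat_lit 322) (nat_lit 233)) (XT.nd (nat_lit 78) (nat_lit 380) (nat_lit 0) (XT.lf (nat_lit 0) (nat_lit 6116945615) (nat_lit 532) (nat_lit 5633675808) (nat_lit 76) (nat_lit 11195956847) (nat_lit 150) (nat_lit 5) (nat_lit 157) (nat_lit 5) (nat_lit 151) (nat_lit 5) (nat_lit 346) (nat_lit 322) (nat_lit 232)) (XT.lf (nat_lit 0) (nat_lit 12679157434) (nat_lit 456) (nat_lit 8083832142) (nat_lit 76) (nat_lit 2869374916) (nat_lit 145) (nat_lit 5) (nat_lit 151) (nat_lit 5) (nat_lit 146) (nat_lit 5) (nat_lit 347) (nat_lit 322) (nat_lit 231)))) (XT.nd (nat_lit 78) (nat_lit 760) (nat_lit 0) (XT.lf (nat_lit 0) (nat_lit 13680894708) (nat_lit 380) (nat_lit 6179116445) (nat_lit 456) (nat_lit 4483719945) (nat_lit 140) (nat_lit 5)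 (nat_lit 145) (nat_lit 5) (nat_lit 146) (nat_lit 5) (nat_lit 348) (nat_lit 322) (nat_lit 230)) (XT.nd (nat_lit 78) (nat_lit 380) (nat_lit 0) (XT.lf (nat_lit 0) (nat_lit 2533868185) (nat_lit 380) (nat_lit 13376158116) (nat_lit 76) (nat_lit 9171889634) (nat_lit 135) (nat_lit 5) (nat_lit 140) (nat_lit 5) (nat_lit 136) (nat_lit 5) (nat_lit 349) (nat_lit 322) (nat_lit 229)) (XT.lf (nat_lit 0) (nat_lit 9617612703) (nat_lit 380) (nat_lit 441406830) (nat_lit 456) (nat_lit 15789182436) (nat_lit 130) (nat_lit 5) (nat_lit 135) (nat_lit 5) (nat_lit 136) (nat_lit 5) (nat_lit 350) (nat_lit 322) (nat_lit 228))))))))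
noncomputable def xc87 : XT := (XT.nd (nat_lit 1872) (nat_lit 2128) (nat_lit 0) (XT.nd (nat_lit 936) (nat_lit 2128) (nat_lit 0) (XT.nd (nat_lit 468) (nat_lit 1672) (nat_lit 0) (XT.nd (nat_lit 234) (nat_lit 684) (nat_lit 0) (XT.nd (nat_lit 78) (nat_lit 684) (nat_lit 0) (XT.lf (nat_lit 0) (nat_lit 7359264075) (nat_lit 304) (nat_lit 10946273609) (nat_lit 380) (nat_lit 8336917223) (nat_lit 126) (nat_lit 5) (nat_lit 130) (nat_lit 5) (nat_lit 131) (nat_lit 5) (nat_lit 351) (nat_lit 322) (nat_lit 227)) (XT.nd (nat_lit 78) (nat_lit 380) (nat_lit 0) (XT.lf (nat_lit 0) (nat_lit 5015848644) (nat_lit 304) (nat_lit 22203385910) (nat_lit 380) (nat_lit 249545956) (nat_lit 122) (nat_lit 5) (nat_lit 126) (nat_lit 5) (nat_lit 127) (nat_lit 5) (nat_lit 352) (nat_lit 322) (nat_lit 226)) (XT.lf (nat_lit 0) (nat_lit 2435742313) (nat_lit 304) (nat_lit 5964312518) (nat_lit 380) (nat_lit 19924434993) (nat_lit 117) (nat_lit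 5) (nat_lit 121) (nat_lit 5) (nat_lit 122) (nat_lit 5) (nat_lit 353) (nat_lit 322) (nat_lit 225)))) (XT.nd (nat_lit 78) (nat_lit 684) (nat_lit 0) (XT.lf (nat_lit 0) (nat_lit 17801818823) (nat_lit 380) (nat_lit 311575886) (nat_lit 76) (nat_lit 11099775380) (nat_lit 117) (nat_lit 5) (nat_lit 122) (nat_lit 5) (nat_lit 118) (nat_lit 5) (nat_lit 354) (nat_lit 322) (nat_lit 224)) (XT.nd (nat_lit 78) (nat_lit 380) (nat_lit 0) (XT.lf (nat_lit 0) (nat_lit 26989783668) (nat_lit 304) (nat_lit 989054937) (nat_lit 380) (nat_lit 2158295432) (nat_lit 113) (nat_lit 5) (nat_lit 117) (nat_lit 5) (nat_lit 118) (nat_lit 5) (nat_lit 355) (nat_lit 322) (nat_lit 223)) (XT.lf (nat_lit 0) (nat_lit 7805273038) (nat_lit 380) (nat_lit 6315779695) (nat_lit 76) (nat_lit 16972208431) (nat_lit 108) (nat_lit 5) (nat_lit 113) (nat_lit 5) (nat_lit 109) (nat_lit 5) (nat_lit 356) (nat_lit 322) (nat_lit 222))))) (XT.nd (nat_lit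 234) (nat_lit 760) (nat_lit 0) (XT.nd (nat_lit 78) (nat_lit 608) (nat_lit 0) (XT.lf (nat_lit 0) (nat_lit 18505944046) (nat_lit 380) (nat_lit 9673922921) (nat_lit 76) (nat_lit 3908183910) (nat_lit 104) (nat_lit 5) (nat_lit 109) (nat_lit 5) (nat_lit 105) (nat_lit 5) (nat_lit 357) (nat_lit 322) (nat_lit 221)) (XT.nd (nat_lit 78) (nat_lit 380) (nat_lit 0) (XT.lf (nat_lit 0) (nat_lit 19804856409) (nat_lit 228) (nat_lit 10322041021) (nat_lit 304) (nat_lit 2994129121) (nat_lit 101) (nat_lit 5) (nat_lit 104) (nat_lit 5) (nat_lit 105) (nat_lit 5) (nat_lit 358) (nat_lit 322) (nat_lit 220)) (XT.lf (nat_lit 0) (nat_lit 8299957295) (nat_lit 380) (nat_lit 17290602051) (nat_lit 76) (nat_lit 8602696027) (nat_lit 96) (nat_lit 5) (nat_lit 101) (nat_lit 5) (nat_lit 97) (nat_lit 5) (nat_lit 359) (nat_lit 322) (nat_lit 219)))) (XT.nd (nat_lit 78) (nat_lit 532) (nat_lit 0) (XT.lf (nat_lit 0) (nat_lit 13707688697)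 (nat_lit 228) (nat_lit 6751462486) (nat_lit 304) (nat_lit 14848188785) (nat_lit 93) (nat_lit 5) (nat_lit 96) (nat_lit 5) (nat_lit 97) (nat_lit 5) (nat_lit 360) (nat_lit 322) (nat_lit 218)) (XT.nd (nat_lit 78) (nat_lit 304) (nat_lit 0) (XT.lf (nat_lit 0) (nat_lit 10197937814) (nat_lit 228) (nat_lit 23419114092) (nat_lit 304) (nat_lit 2848357779) (nat_lit 90) (nat_lit 5) (nat_lit 93) (nat_lit 5) (nat_lit 94) (nat_lit 5) (nat_lit 361) (nat_lit 322) (nat_lit 217)) (XT.lf (nat_lit 0) (nat_lit 6301789823) (nat_lit 228) (nat_lit 3600658908) (nat_lit 304) (nat_lit 27765886993) (nat_lit 86) (nat_lit 5) (nat_lit 89) (nat_lit 5) (nat_lit 90) (nat_lit 5) (nat_lit 362) (nat_lit 322) (nat_lit 216)))))) (XT.nd (nat_lit 468) (nat_lit 988) (nat_lit 0) (XT.nd (nat_lit 234) (nat_lit 684) (nat_lit 0) (XT.nd (nat_lit 78) (nat_lit 228) (nat_lit 0) (XT.lf (nat_lit 0) (nat_lit 1947389035) (nat_lit 228) (nat_lit 21730587425)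 (nat_lit 304) (nat_lit 15239205789) (nat_lit 83) (nat_lit 5) (nat_lit 86) (nat_lit 5) (nat_lit 87) (nat_lit 5) (nat_lit 363) (nat_lit 322) (nat_lit 215)) (XT.nd (nat_lit 78) (nat_lit 228) (nat_lit 0) (XT.lf (nat_lit 0) (nat_lit 37527069454) (nat_lit 228) (nat_lit 962791429) (nat_lit 304) (nat_lit 1728185579) (nat_lit 83) (nat_lit 5) (nat_lit 86) (nat_lit 5) (nat_lit 87) (nat_lit 5) (nat_lit 364) (nat_lit 322) (nat_lit 214)) (XT.lf (nat_lit 0) (nat_lit 12734249005) (nat_lit 228) (nat_lit 7951275876) (nat_lit 76) (nat_lit 20879269699) (nat_lit 80) (nat_lit 5) (nat_lit 83) (nat_lit 5) (nat_lit 81) (nat_lit 5) (nat_lit 365) (nat_lit 322) (nat_lit 213)))) (XT.nd (nat_lit 78) (nat_lit 456) (nat_lit 0) (XT.lf (nat_lit 0) (nat_lit 28204545872) (nat_lit 304) (nat_lit 13641042678) (nat_lit 76) (nat_lit 1123166208) (nat_lit 77) (nat_lit 5) (nat_lit 81) (nat_lit 5) (nat_lit 78) (nat_lit 5) (nat_lit 366)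 (nat_lit 322) (nat_lit 212)) (XT.nd (nat_lit 78) (nat_lit 228) (nat_lit 0) (XT.lf (nat_lit 0) (nat_lit 526584643) (nat_lit 228) (nat_lit 19985986875) (nat_lit 76) (nat_lit 23914704725) (nat_lit 74) (nat_lit 5) (nat_lit 77) (nat_lit 5) (nat_lit 75) (nat_lit 5) (nat_lit 367) (nat_lit 322) (nat_lit 211)) (XT.lf (nat_lit 0) (nat_lit 16616171446) (nat_lit 304) (nat_lit 27006621641) (nat_lit 76) (nat_lit 2321359453) (nat_lit 71) (nat_lit 5) (nat_lit 75) (nat_lit 5) (nat_lit 72) (nat_lit 5) (nat_lit 368) (nat_lit 322) (nat_lit 210))))) (XT.nd (nat_lit 234) (nat_lit 532) (nat_lit 0) (XT.nd (nat_lit 78) (nat_lit 304) (nat_lit 0) (XT.lf (nat_lit 0) (nat_lit 12716597254) (nat_lit 152) (nat_lit 21320877304) (nat_lit 228) (nat_lit 13483583032) (nat_lit 69) (nat_lit 5) (nat_lit 71) (nat_lit 5) (nat_lit 72) (nat_lit 5) (nat_lit 369) (nat_lit 322) (nat_lit 209)) (XT.nd (nat_lit 78) (nat_lit 0) (nat_lit 0) (XT.lf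 (nat_lit 0) (nat_lit 3442986713) (nat_lit 304) (nat_lit 43302464683) (nat_lit 76) (nat_lit 2419904754) (nat_lit 65) (nat_lit 5) (nat_lit 69) (nat_lit 5) (nat_lit 66) (nat_lit 5) (nat_lit 370) (nat_lit 322) (nat_lit 208)) (XT.lf (nat_lit 0) (nat_lit 21507282090) (nat_lit 304) (nat_lit 1961147101) (nat_lit 76) (nat_lit 27402329477) (nat_lit 65) (nat_lit 5) (nat_lit 69) (nat_lit 5) (nat_lit 66) (nat_lit 5) (nat_lit 371) (nat_lit 322) (nat_lit 207)))) (XT.nd (nat_lit 78) (nat_lit 380) (nat_lit 0) (XT.lf (nat_lit 0) (nat_lit 40885381347) (nat_lit 228) (nat_lit 10406353228) (nat_lit 76) (nat_lit 1357380779) (nat_lit 63) (nat_lit 5) (nat_lit 66) (nat_lit 5) (nat_lit 64) (nat_lit 5) (nat_lit 372) (nat_lit 322) (nat_lit 206)) (XT.nd (nat_lit 78) (nat_lit 152) (nat_lit 0) (XT.lf (nat_lit 0) (nat_lit 7171909431) (nat_lit 228) (nat_lit 19964108019) (nat_lit 76) (nat_lit 27360828252) (nat_lit 60) (nat_lit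 5) (nat_lit 63) (nat_lit 5) (nat_lit 61) (nat_lit 5) (nat_lit 373) (nat_lit 322) (nat_lit 205)) (XT.lf (nat_lit 0) (nat_lit 25872730179) (nat_lit 152) (nat_lit 1288959132) (nat_lit 228) (nat_lit 29261261201) (nat_lit 58) (nat_lit 5) (nat_lit 60) (nat_lit 5) (nat_lit 61) (nat_lit 5) (nat_lit 374) (nat_lit 322) (nat_lit 204))))))) (XT.nd (nat_lit 936) (nat_lit 608) (nat_lit 0) (XT.nd (nat_lit 468) (nat_lit 608) (nat_lit 0) (XT.nd (nat_lit 234) (nat_lit 532) (nat_lit 0) (XT.nd (nat_lit 78) (nat_lit 228) (nat_lit 0) (XT.lf (nat_lit 0) (nat_lit 16027020643) (nat_lit 152) (nat_lit 32725739467) (nat_lit 228) (nat_lit 9674547833) (nat_lit 56) (nat_lit 5) (nat_lit 58) (nat_lit 5) (nat_lit 59) (nat_lit 5) (nat_lit 375) (nat_lit 322) (nat_lit 203)) (XT.nd (nat_lit 78) (nat_lit 0) (nat_lit 0) (XT.lf (nat_lit 0) (nat_lit 5011712436) (nat_lit 152) (nat_lit 6037923269) (nat_lit 228) (nat_lit 49467987991) (nat_lit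 53) (nat_lit 5) (nat_lit 55) (nat_lit 5) (nat_lit 56) (nat_lit 5) (nat_lit 376) (nat_lit 322) (nat_lit 202)) (XT.lf (nat_lit 0) (nat_lit 33255999845) (nat_lit 228) (nat_lit 7346420261) (nat_lit 76) (nat_lit 22087781092) (nat_lit 53) (nat_lit 5) (nat_lit 56) (nat_lit 5) (nat_lit 54) (nat_lit 5) (nat_lit 377) (nat_lit 322) (nat_lit 201)))) (XT.nd (nat_lit 78) (nat_lit 380) (nat_lit 0) (XT.lf (nat_lit 0) (nat_lit 44005361180) (nat_lit 152) (nat_lit 13043721602) (nat_lit 228) (nat_lit 7908033984) (nat_lit 51) (nat_lit 5) (nat_lit 53) (nat_lit 5) (nat_lit 54) (nat_lit 5) (nat_lit 378) (nat_lit 322) (nat_lit 200)) (XT.nd (nat_lit 78) (nat_lit 152) (nat_lit 0) (XT.lf (nat_lit 0) (nat_lit 14934408182) (nat_lit 228) (nat_lit 36283223636) (nat_lit 76) (nat_lit 16099708613) (nat_lit 48) (nat_lit 5) (nat_lit 51) (nat_lit 5) (nat_lit 49) (nat_lit 5) (nat_lit 379) (nat_lit 322) (nat_lit 199)) (XT.lf (nat_lit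 0) (nat_lit 16360666449) (nat_lit 152) (nat_lit 22895799768) (nat_lit 228) (nat_lit 30521729884) (nat_lit 46) (nat_lit 5) (nat_lit 48) (nat_lit 5) (nat_lit 49) (nat_lit 5) (nat_lit 380) (nat_lit 322) (nat_lit 198))))) (XT.nd (nat_lit 234) (nat_lit 304) (nat_lit 0) (XT.nd (nat_lit 78) (nat_lit 304) (nat_lit 0) (XT.lf (nat_lit 0) (nat_lit 65230554038) (nat_lit 228) (nat_lit 38169254) (nat_lit 76) (nat_lit 7080294467) (nat_lit 46) (nat_lit 5) (nat_lit 49) (nat_lit 5) (nat_lit 47) (nat_lit 4) (nat_lit 381) (nat_lit 322) (nat_lit 197)) (XT.nd (nat_lit 78) (nat_lit 152) (nat_lit 0) (XT.lf (nat_lit 0) (nat_lit 17893107419) (nat_lit 152) (nat_lit 18323900068) (nat_lit 76) (nat_lit 38802977789) (nat_lit 44) (nat_lit 5) (nat_lit 46) (nat_lit 5) (nat_lit 45) (nat_lit 5) (nat_lit 382) (nat_lit 322) (nat_lit 196)) (XT.lf (nat_lit 0) (nat_lit 39122989469) (nat_lit 152) (nat_lit 5256316867) (nat_lit 228) (nat_lit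 33431943229) (nat_lit 42) (nat_lit 5) (nat_lit 44) (nat_lit 5) (nat_lit 45) (nat_lit 5) (nat_lit 383) (nat_lit 322) (nat_lit 195)))) (XT.nd (nat_lit 78) (nat_lit 228) (nat_lit 0) (XT.lf (nat_lit 0) (nat_lit 19187556437) (nat_lit 76) (nat_lit 53632745520) (nat_lit 152) (nat_lit 7902861358) (nat_lit 41) (nat_lit 5) (nat_lit 42) (nat_lit 5) (nat_lit 43) (nat_lit 4) (nat_lit 384) (nat_lit 322) (nat_lit 194)) (XT.nd (nat_lit 78) (nat_lit 152) (nat_lit 0) (XT.lf (nat_lit 0) (nat_lit 18982788268) (nat_lit 152) (nat_lit 3253328258) (nat_lit 76) (nat_lit 61525636703) (nat_lit 40) (nat_lit 5) (nat_lit 42) (nat_lit 5) (nat_lit 41) (nat_lit 5) (nat_lit 385) (nat_lit 322) (nat_lit 193)) (XT.lf (nat_lit 0) (nat_lit 47721494132) (nat_lit 228) (nat_lit 28038863386) (nat_lit 76) (nat_lit 11169401971) (nat_lit 38) (nat_lit 5) (nat_lit 41) (nat_lit 5) (nat_lit 39) (nat_lit 4) (nat_lit 386) (nat_lit 322) (nat_lit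 192)))))) (XT.nd (nat_lit 41964) (nat_lit 0) (nat_lit 16872) (XT.nd (nat_lit 234) (nat_lit 304) (nat_lit 0) (XT.nd (nat_lit 78) (nat_lit 228) (nat_lit 0) (XT.lf (nat_lit 0) (nat_lit 34390674053) (nat_lit 76) (nat_lit 44089451555) (nat_lit 152) (nat_lit 11758551455) (nat_lit 37) (nat_lit 5) (nat_lit 38) (nat_lit 5) (nat_lit 39) (nat_lit 4) (nat_lit 387) (nat_lit 322) (nat_lit 191)) (XT.nd (nat_lit 78) (nat_lit 0) (nat_lit 0) (XT.lf (nat_lit 0) (nat_lit 6778009913) (nat_lit 152) (nat_lit 10303583282) (nat_lit 228) (nat_lit 76615999646) (nat_lit 34) (nat_lit 5) (nat_lit 36) (nat_lit 5) (nat_lit 37) (nat_lit 5) (nat_lit 388) (nat_lit 322) (nat_lit 190)) (XT.lf (nat_lit 0) (nat_lit 47939782407) (nat_lit 228) (nat_lit 23986587193) (nat_lit 76) (nat_lit 25375016129) (nat_lit 34) (nat_lit 5) (nat_lit 37) (nat_lit 5) (nat_lit 35) (nat_lit 4) (nat_lit 389) (nat_lit 322) (nat_lit 189)))) (XT.nd (nat_lit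 78) (nat_lit 228) (nat_lit 0) (XT.lf (nat_lit 0) (nat_lit 42814601426) (nat_lit 76) (nat_lit 38036502013) (nat_lit 152) (nat_lit 20218958748) (nat_lit 33) (nat_lit 5) (nat_lit 34) (nat_lit 5) (nat_lit 35) (nat_lit 4) (nat_lit 390) (nat_lit 322) (nat_lit 188)) (XT.nd (nat_lit 41574) (nat_lit 0) (nat_lit 16872) (XT.lf (nat_lit 0) (nat_lit 8491045713) (nat_lit 152) (nat_lit 2012967033) (nat_lit 228) (nat_lit 94510393817) (nat_lit 30) (nat_lit 5) (nat_lit 32) (nat_lit 5) (nat_lit 33) (nat_lit 5) (nat_lit 391) (nat_lit 322) (nat_lit 187)) (XT.lf (nat_lit 0) (nat_lit 1266369999) (nat_lit 0) (nat_lit 1266369999) (nat_lit 1140) (nat_lit 3862954458) (nat_lit 252) (nat_lit 5) (nat_lit 252) (nat_lit 3) (nat_lit 267) (nat_lit 3) (nat_lit 323) (nat_lit 323) (nat_lit 254))))) (XT.nd (nat_lit 234) (nat_lit 0) (nat_lit 152) (XT.nd (nat_lit 78) (nat_lit 0) (nat_lit 76) (XT.lf (nat_lit 0) (nat_lit 5929718770)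 (nat_lit 1140) (nat_lit 129347633) (nat_lit 1216) (nat_lit 7029618548) (nat_lit 252) (nat_lit 5) (nat_lit 267) (nat_lit 3) (nat_lit 268) (nat_lit 5) (nat_lit 324) (nat_lit 323) (nat_lit 253)) (XT.nd (nat_lit 78) (nat_lit 0) (nat_lit 76) (XT.lf (nat_lit 0) (nat_lit 6958647417) (nat_lit 1140) (nat_lit 2768214337) (nat_lit 1216) (nat_lit 3670362783) (nat_lit 253) (nat_lit 5) (nat_lit 268) (nat_lit 5) (nat_lit 269) (nat_lit 5) (nat_lit 325) (nat_lit 323) (nat_lit 252)) (XT.lf (nat_lit 0) (nat_lit 8141919806) (nat_lit 1140) (nat_lit 5435912176) (nat_lit 1216) (nat_lit 140294185) (nat_lit 254) (nat_lit 5) (nat_lit 269) (nat_lit 5) (nat_lit 270) (nat_lit 5) (nat_lit 326) (nat_lit 323) (nat_lit 251)))) (XT.nd (nat_lit 78) (nat_lit 0) (nat_lit 76) (XT.lf (nat_lit 76) (nat_lit 5880746737) (nat_lit 0) (nat_lit 3648351912) (nat_lit 1216) (nat_lit 4521652885) (nat_lit 255) (nat_lit 5) (nat_lit 254) (nat_lit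 5) (nat_lit 270) (nat_lit 5) (nat_lit 327) (nat_lit 323) (nat_lit 250)) (XT.nd (nat_lit 78) (nat_lit 0) (nat_lit 76) (XT.lf (nat_lit 76) (nat_lit 3455316137) (nat_lit 0) (nat_lit 7648203833) (nat_lit 1216) (nat_lit 3292971635) (nat_lit 256) (nat_lit 5) (nat_lit 255) (nat_lit 5) (nat_lit 271) (nat_lit 5) (nat_lit 328) (nat_lit 323) (nat_lit 249)) (XT.lf (nat_lit 76) (nat_lit 1005357910) (nat_lit 0) (nat_lit 11874226229) (nat_lit 1216) (nat_lit 1876265879) (nat_lit 257) (nat_lit 5) (nat_lit 256) (nat_lit 5) (nat_lit 272) (nat_lit 5) (nat_lit 329) (nat_lit 323) (nat_lit 248))))))))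
noncomputable def xc88 : XT := (XT.nd (nat_lit 1794) (nat_lit 5320) (nat_lit 0) (XT.nd (nat_lit 858) (nat_lit 4712) (nat_lit 0) (XT.nd (nat_lit 390) (nat_lit 2964) (nat_lit 0) (XT.nd (nat_lit 156) (nat_lit 1064) (nat_lit 0) (XT.nd (nat_lit 78) (nat_lit 1140) (nat_lit 0) (XT.lf (nat_lit 76) (nat_lit 13674466497) (nat_lit 0) (nat_lit 1225143578) (nat_lit 1216) (nat_lit 228929607) (nat_lit 257) (nat_lit 5) (nat_lit 256) (nat_lit 5) (nat_lit 272) (nat_lit 5) (nat_lit 330) (nat_lit 323) (nat_lit 247)) (XT.lf (nat_lit 0) (nat_lit 1647843184) (nat_lit 1216) (nat_lit 3968265612) (nat_lit 1292) (nat_lit 9898048310) (nat_lit 241) (nat_lit 5) (nat_lit 257) (nat_lit 5) (nat_lit 258) (nat_lit 5) (nat_lit 331) (nat_lit 323) (nat_lit 246))) (XT.nd (nat_lit 78) (nat_lit 1140) (nat_lit 0) (XT.lf (nat_lit 0) (nat_lit 3756175252) (nat_lit 1216) (nat_lit 6518900422) (nat_lit 1292) (nat_lit 5639654001) (nat_lit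 242) (nat_lit 5) (nat_lit 258) (nat_lit 5) (nat_lit 259) (nat_lit 5) (nat_lit 332) (nat_lit 323) (nat_lit 245)) (XT.nd (nat_lit 78) (nat_lit 1216) (nat_lit 0) (XT.lf (nat_lit 0) (nat_lit 6118363521) (nat_lit 1216) (nat_lit 9105763449) (nat_lit 76) (nat_lit 1106765884) (nat_lit 243) (nat_lit 5) (nat_lit 259) (nat_lit 5) (nat_lit 244) (nat_lit 5) (nat_lit 333) (nat_lit 323) (nat_lit 244)) (XT.lf (nat_lit 0) (nat_lit 4994858767) (nat_lit 1216) (nat_lit 3794623757) (nat_lit 1292) (nat_lit 7972671476) (nat_lit 227) (nat_lit 5) (nat_lit 243) (nat_lit 5) (nat_lit 244) (nat_lit 5) (nat_lit 334) (nat_lit 323) (nat_lit 243))))) (XT.nd (nat_lit 234) (nat_lit 1672) (nat_lit 0) (XT.nd (nat_lit 78) (nat_lit 684) (nat_lit 0) (XT.lf (nat_lit 0) (nat_lit 2726901772) (nat_lit 608) (nat_lit 9039508580) (nat_lit 684) (nat_lit 5443414023) (nat_lit 219) (nat_lit 5) (nat_lit 227) (nat_lit 5) (nat_lit 228) (nat_lit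 5) (nat_lit 335) (nat_lit 323) (nat_lit 242)) (XT.nd (nat_lit 78) (nat_lit 76) (nat_lit 0) (XT.lf (nat_lit 0) (nat_lit 430905310) (nat_lit 608) (nat_lit 14627879104) (nat_lit 684) (nat_lit 2616108966) (nat_lit 211) (nat_lit 5) (nat_lit 219) (nat_lit 5) (nat_lit 220) (nat_lit 5) (nat_lit 336) (nat_lit 323) (nat_lit 241)) (XT.lf (nat_lit 0) (nat_lit 561829765) (nat_lit 684) (nat_lit 1886802865) (nat_lit 76) (nat_lit 15708009204) (nat_lit 210) (nat_lit 5) (nat_lit 219) (nat_lit 5) (nat_lit 211) (nat_lit 5) (nat_lit 337) (nat_lit 323) (nat_lit 240)))) (XT.nd (nat_lit 78) (nat_lit 1064) (nat_lit 0) (XT.lf (nat_lit 0) (nat_lit 4060762760) (nat_lit 684) (nat_lit 4288926007) (nat_lit 76) (nat_lit 10305537348) (nat_lit 202) (nat_lit 5) (nat_lit 211) (nat_lit 5) (nat_lit 203) (nat_lit 5) (nat_lit 338) (nat_lit 323) (nat_lit 239)) (XT.nd (nat_lit 78) (nat_lit 532) (nat_lit 0) (XT.lf (nat_lit 0) (nat_lit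 7919868056) (nat_lit 608) (nat_lit 6730626065) (nat_lit 76) (nat_lit 4522699709) (nat_lit 195) (nat_lit 5) (nat_lit 203) (nat_lit 5) (nat_lit 196) (nat_lit 5) (nat_lit 339) (nat_lit 323) (nat_lit 238)) (XT.lf (nat_lit 0) (nat_lit 10480452079) (nat_lit 532) (nat_lit 1698485141) (nat_lit 608) (nat_lit 7531922920) (nat_lit 188) (nat_lit 5) (nat_lit 195) (nat_lit 5) (nat_lit 196) (nat_lit 5) (nat_lit 340) (nat_lit 323) (nat_lit 237)))))) (XT.nd (nat_lit 468) (nat_lit 2280) (nat_lit 0) (XT.nd (nat_lit 234) (nat_lit 912) (nat_lit 0) (XT.nd (nat_lit 78) (nat_lit 1064) (nat_lit 0) (XT.lf (nat_lit 0) (nat_lit 8445276482) (nat_lit 456) (nat_lit 8449477448) (nat_lit 532) (nat_lit 3373351981) (nat_lit 182) (nat_lit 5) (nat_lit 188) (nat_lit 5) (nat_lit 189) (nat_lit 5) (nat_lit 341) (nat_lit 323) (nat_lit 236)) (XT.nd (nat_lit 78) (nat_lit 456) (nat_lit 0) (XT.lf (nat_lit 0) (nat_lit 1178322093) (nat_lit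 608) (nat_lit 14477856655) (nat_lit 76) (nat_lit 5190621404) (nat_lit 174) (nat_lit 5) (nat_lit 182) (nat_lit 5) (nat_lit 175) (nat_lit 5) (nat_lit 342) (nat_lit 323) (nat_lit 235)) (XT.lf (nat_lit 0) (nat_lit 4204596265) (nat_lit 456) (nat_lit 1912076711) (nat_lit 532) (nat_lit 15329897145) (nat_lit 168) (nat_lit 5) (nat_lit 174) (nat_lit 5) (nat_lit 175) (nat_lit 5) (nat_lit 343) (nat_lit 323) (nat_lit 234)))) (XT.nd (nat_lit 78) (nat_lit 456) (nat_lit 0) (XT.lf (nat_lit 0) (nat_lit 1944588980) (nat_lit 456) (nat_lit 9627221519) (nat_lit 532) (nat_lit 10496430378) (nat_lit 162) (nat_lit 5) (nat_lit 168) (nat_lit 5) (nat_lit 169) (nat_lit 5) (nat_lit 344) (nat_lit 323) (nat_lit 233)) (XT.nd (nat_lit 78) (nat_lit 456) (nat_lit 0) (XT.lf (nat_lit 0) (nat_lit 17524745974) (nat_lit 532) (nat_lit 354697740) (nat_lit 76) (nat_lit 4834808185) (nat_lit 162) (nat_lit 5) (nat_lit 169) (nat_lit 5) (nat_lit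 163) (nat_lit 5) (nat_lit 345) (nat_lit 323) (nat_lit 232)) (XT.lf (nat_lit 0) (nat_lit 655975117) (nat_lit 456) (nat_lit 2703610637) (nat_lit 76) (nat_lit 20024454316) (nat_lit 156) (nat_lit 5) (nat_lit 162) (nat_lit 5) (nat_lit 157) (nat_lit 5) (nat_lit 346) (nat_lit 323) (nat_lit 231))))) (XT.nd (nat_lit 234) (nat_lit 1064) (nat_lit 0) (XT.nd (nat_lit 78) (nat_lit 760) (nat_lit 0) (XT.lf (nat_lit 0) (nat_lit 6972533344) (nat_lit 532) (nat_lit 5213616219) (nat_lit 76) (nat_lit 11891049757) (nat_lit 150) (nat_lit 5) (nat_lit 157) (nat_lit 5) (nat_lit 151) (nat_lit 5) (nat_lit 347) (nat_lit 323) (nat_lit 230)) (XT.nd (nat_lit 78) (nat_lit 380) (nat_lit 0) (XT.lf (nat_lit 0) (nat_lit 13844686304) (nat_lit 456) (nat_lit 7791743327) (nat_lit 76) (nat_lit 3161400576) (nat_lit 145) (nat_lit 5) (nat_lit 151) (nat_lit 5) (nat_lit 146) (nat_lit 5) (nat_lit 348) (nat_lit 323) (nat_lit 229)) (XT.lf (nat_lit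 0) (nat_lit 15041261128) (nat_lit 380) (nat_lit 6324509895) (nat_lit 456) (nat_lit 4179568251) (nat_lit 140) (nat_lit 5) (nat_lit 145) (nat_lit 5) (nat_lit 146) (nat_lit 5) (nat_lit 349) (nat_lit 323) (nat_lit 228)))) (XT.nd (nat_lit 78) (nat_lit 684) (nat_lit 0) (XT.lf (nat_lit 0) (nat_lit 3161943191) (nat_lit 380) (nat_lit 13364266991) (nat_lit 76) (nat_lit 9794579242) (nat_lit 135) (nat_lit 5) (nat_lit 140) (nat_lit 5) (nat_lit 136) (nat_lit 5) (nat_lit 350) (nat_lit 323) (nat_lit 227)) (XT.nd (nat_lit 78) (nat_lit 304) (nat_lit 0) (XT.lf (nat_lit 0) (nat_lit 10759680269) (nat_lit 380) (nat_lit 286152257) (nat_lit 456) (nat_lit 16080091433) (nat_lit 130) (nat_lit 5) (nat_lit 135) (nat_lit 5) (nat_lit 136) (nat_lit 5) (nat_lit 351) (nat_lit 323) (nat_lit 226)) (XT.lf (nat_lit 0) (nat_lit 8382072800) (nat_lit 304) (nat_lit 11307480898) (nat_lit 380) (nat_lit 8270797736) (nat_lit 126) (nat_lit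 5) (nat_lit 130) (nat_lit 5) (nat_lit 131) (nat_lit 5) (nat_lit 352) (nat_lit 323) (nat_lit 225))))))) (XT.nd (nat_lit 936) (nat_lit 2052) (nat_lit 0) (XT.nd (nat_lit 468) (nat_lit 1596) (nat_lit 0) (XT.nd (nat_lit 234) (nat_lit 684) (nat_lit 0) (XT.nd (nat_lit 78) (nat_lit 608) (nat_lit 0) (XT.lf (nat_lit 0) (nat_lit 202093950) (nat_lit 380) (nat_lit 22915617720) (nat_lit 76) (nat_lit 5710661618) (nat_lit 121) (nat_lit 5) (nat_lit 126) (nat_lit 5) (nat_lit 122) (nat_lit 5) (nat_lit 353) (nat_lit 323) (nat_lit 224)) (XT.nd (nat_lit 78) (nat_lit 304) (nat_lit 0) (XT.lf (nat_lit 0) (nat_lit 3196125997) (nat_lit 304) (nat_lit 6067217001) (nat_lit 380) (nat_lit 20463928294) (nat_lit 117) (nat_lit 5) (nat_lit 121) (nat_lit 5) (nat_lit 122) (nat_lit 5) (nat_lit 354) (nat_lit 323) (nat_lit 223)) (XT.lf (nat_lit 0) (nat_lit 297859673) (nat_lit 304) (nat_lit 18820877943) (nat_lit 380) (nat_lit 11542148560)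 (nat_lit 113) (nat_lit 5) (nat_lit 117) (nat_lit 5) (nat_lit 118) (nat_lit 5) (nat_lit 355) (nat_lit 323) (nat_lit 222)))) (XT.nd (nat_lit 78) (nat_lit 684) (nat_lit 0) (XT.lf (nat_lit 0) (nat_lit 28940725589) (nat_lit 304) (nat_lit 846612329) (nat_lit 380) (nat_lit 1844235069) (nat_lit 113) (nat_lit 5) (nat_lit 117) (nat_lit 5) (nat_lit 118) (nat_lit 5) (nat_lit 356) (nat_lit 323) (nat_lit 221)) (XT.nd (nat_lit 78) (nat_lit 304) (nat_lit 0) (XT.lf (nat_lit 0) (nat_lit 8597120900) (nat_lit 380) (nat_lit 6028972937) (nat_lit 76) (nat_lit 18009661704) (nat_lit 108) (nat_lit 5) (nat_lit 113) (nat_lit 5) (nat_lit 109) (nat_lit 5) (nat_lit 357) (nat_lit 323) (nat_lit 220)) (XT.lf (nat_lit 0) (nat_lit 19821224820) (nat_lit 380) (nat_lit 9562434537) (nat_lit 76) (nat_lit 4296979171) (nat_lit 104) (nat_lit 5) (nat_lit 109) (nat_lit 5) (nat_lit 105) (nat_lit 5) (nat_lit 358) (nat_lit 323) (nat_lit 219)))))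 (XT.nd (nat_lit 234) (nat_lit 760) (nat_lit 0) (XT.nd (nat_lit 78) (nat_lit 608) (nat_lit 0) (XT.lf (nat_lit 0) (nat_lit 21373222915) (nat_lit 228) (nat_lit 10636989591) (nat_lit 304) (nat_lit 2755446375) (nat_lit 101) (nat_lit 5) (nat_lit 104) (nat_lit 5) (nat_lit 105) (nat_lit 5) (nat_lit 359) (nat_lit 323) (nat_lit 218)) (XT.nd (nat_lit 78) (nat_lit 228) (nat_lit 0) (XT.lf (nat_lit 0) (nat_lit 9085032299) (nat_lit 380) (nat_lit 17576899906) (nat_lit 76) (nat_lit 9229782012) (nat_lit 96) (nat_lit 5) (nat_lit 101) (nat_lit 5) (nat_lit 97) (nat_lit 5) (nat_lit 360) (nat_lit 323) (nat_lit 217)) (XT.lf (nat_lit 0) (nat_lit 14954730469) (nat_lit 228) (nat_lit 6885231686) (nat_lit 304) (nat_lit 15221912438) (nat_lit 93) (nat_lit 5) (nat_lit 96) (nat_lit 5) (nat_lit 97) (nat_lit 5) (nat_lit 361) (nat_lit 323) (nat_lit 216)))) (XT.nd (nat_lit 78) (nat_lit 532) (nat_lit 0) (XT.lf (nat_lit 0) (nat_lit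 11262011181) (nat_lit 228) (nat_lit 24383898974) (nat_lit 304) (nat_lit 2632237679) (nat_lit 90) (nat_lit 5) (nat_lit 93) (nat_lit 5) (nat_lit 94) (nat_lit 5) (nat_lit 362) (nat_lit 323) (nat_lit 215)) (XT.nd (nat_lit 78) (nat_lit 228) (nat_lit 0) (XT.lf (nat_lit 0) (nat_lit 7162053166) (nat_lit 228) (nat_lit 3575560090) (nat_lit 304) (nat_lit 28803852774) (nat_lit 86) (nat_lit 5) (nat_lit 89) (nat_lit 5) (nat_lit 90) (nat_lit 5) (nat_lit 363) (nat_lit 323) (nat_lit 214)) (XT.lf (nat_lit 0) (nat_lit 2582381331) (nat_lit 228) (nat_lit 22610389473) (nat_lit 304) (nat_lit 15660262531) (nat_lit 83) (nat_lit 5) (nat_lit 86) (nat_lit 5) (nat_lit 87) (nat_lit 5) (nat_lit 364) (nat_lit 323) (nat_lit 213)))))) (XT.nd (nat_lit 468) (nat_lit 988) (nat_lit 0) (XT.nd (nat_lit 234) (nat_lit 608) (nat_lit 0) (XT.nd (nat_lit 78) (nat_lit 456) (nat_lit 0) (XT.lf (nat_lit 0) (nat_lit 39915444684) (nat_lit 228)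 (nat_lit 814047836) (nat_lit 304) (nat_lit 1489924813) (nat_lit 83) (nat_lit 5) (nat_lit 86) (nat_lit 5) (nat_lit 87) (nat_lit 5) (nat_lit 365) (nat_lit 323) (nat_lit 212)) (XT.nd (nat_lit 78) (nat_lit 228) (nat_lit 0) (XT.lf (nat_lit 0) (nat_lit 13680857663) (nat_lit 228) (nat_lit 7837835977) (nat_lit 76) (nat_lit 22114972313) (nat_lit 80) (nat_lit 5) (nat_lit 83) (nat_lit 5) (nat_lit 81) (nat_lit 5) (nat_lit 366) (nat_lit 323) (nat_lit 211)) (XT.lf (nat_lit 0) (nat_lit 29916572040) (nat_lit 304) (nat_lit 13819561907) (nat_lit 76) (nat_lit 1371936516) (nat_lit 77) (nat_lit 5) (nat_lit 81) (nat_lit 5) (nat_lit 78) (nat_lit 5) (nat_lit 367) (nat_lit 323) (nat_lit 210)))) (XT.nd (nat_lit 78) (nat_lit 380) (nat_lit 0) (XT.lf (nat_lit 0) (nat_lit 847998823) (nat_lit 228) (nat_lit 20490251277) (nat_lit 76) (nat_lit 25301474469) (nat_lit 74) (nat_lit 5) (nat_lit 77) (nat_lit 5) (nat_lit 75) (nat_lit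 5) (nat_lit 368) (nat_lit 323) (nat_lit 209)) (XT.nd (nat_lit 78) (nat_lit 152) (nat_lit 0) (XT.lf (nat_lit 0) (nat_lit 17734511758) (nat_lit 304) (nat_lit 27869354533) (nat_lit 76) (nat_lit 2628807983) (nat_lit 71) (nat_lit 5) (nat_lit 75) (nat_lit 5) (nat_lit 72) (nat_lit 5) (nat_lit 369) (nat_lit 323) (nat_lit 208)) (XT.lf (nat_lit 0) (nat_lit 13826048402) (nat_lit 152) (nat_lit 22191692373) (nat_lit 228) (nat_lit 13870960833) (nat_lit 69) (nat_lit 5) (nat_lit 71) (nat_lit 5) (nat_lit 72) (nat_lit 5) (nat_lit 370) (nat_lit 323) (nat_lit 207))))) (XT.nd (nat_lit 234) (nat_lit 532) (nat_lit 0) (XT.nd (nat_lit 78) (nat_lit 152) (nat_lit 0) (XT.lf (nat_lit 0) (nat_lit 3889282770) (nat_lit 304) (nat_lit 44995689091) (nat_lit 76) (nat_lit 2730374912) (nat_lit 65) (nat_lit 5) (nat_lit 69) (nat_lit 5) (nat_lit 66) (nat_lit 5) (nat_lit 371) (nat_lit 323) (nat_lit 206)) (XT.nd (nat_lit 78) (nat_lit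 152) (nat_lit 0) (XT.lf (nat_lit 0) (nat_lit 22843738309) (nat_lit 304) (nat_lit 1609777002) (nat_lit 76) (nat_lit 28952898255) (nat_lit 65) (nat_lit 5) (nat_lit 69) (nat_lit 5) (nat_lit 66) (nat_lit 5) (nat_lit 372) (nat_lit 323) (nat_lit 205)) (XT.lf (nat_lit 0) (nat_lit 43184271640) (nat_lit 228) (nat_lit 10484258374) (nat_lit 76) (nat_lit 1605354593) (nat_lit 63) (nat_lit 5) (nat_lit 66) (nat_lit 5) (nat_lit 64) (nat_lit 5) (nat_lit 373) (nat_lit 323) (nat_lit 204)))) (XT.nd (nat_lit 78) (nat_lit 304) (nat_lit 0) (XT.lf (nat_lit 0) (nat_lit 7779618705) (nat_lit 228) (nat_lit 20527580448) (nat_lit 76) (nat_lit 28906971151) (nat_lit 60) (nat_lit 5) (nat_lit 63) (nat_lit 5) (nat_lit 61) (nat_lit 5) (nat_lit 374) (nat_lit 323) (nat_lit 203)) (XT.nd (nat_lit 78) (nat_lit 152) (nat_lit 0) (XT.lf (nat_lit 0) (nat_lit 27588638126) (nat_lit 152) (nat_lit 1172446022) (nat_lit 228) (nat_lit 30475732417)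 (nat_lit 58) (nat_lit 5) (nat_lit 60) (nat_lit 5) (nat_lit 61) (nat_lit 5) (nat_lit 375) (nat_lit 323) (nat_lit 202)) (XT.lf (nat_lit 0) (nat_lit 17243921891) (nat_lit 152) (nat_lit 34181946823) (nat_lit 228) (nat_lit 9915700354) (nat_lit 56) (nat_lit 5) (nat_lit 58) (nat_lit 5) (nat_lit 59) (nat_lit 5) (nat_lit 376) (nat_lit 323) (nat_lit 201))))))))
noncomputable def xc89 : XT := (XT.nd (nat_lit 43524) (nat_lit 0) (nat_lit 6004) (XT.nd (nat_lit 936) (nat_lit 228) (nat_lit 0) (XT.nd (nat_lit 468) (nat_lit 608) (nat_lit 0) (XT.nd (nat_lit 234) (nat_lit 456) (nat_lit 0) (XT.nd (nat_lit 78) (nat_lit 152) (nat_lit 0) (XT.lf (nat_lit 0) (nat_lit 5670572302) (nat_lit 152) (nat_lit 6161985352) (nat_lit 228) (nat_lit 51703996894) (nat_lit 53) (nat_lit 5) (nat_lit 55) (nat_lit 5) (nat_lit 56) (nat_lit 5) (nat_lit 377) (nat_lit 323) (nat_lit 200)) (XT.nd (nat_lit 78) (nat_lit 152) (nat_lit 0) (XT.lf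 (nat_lit 0) (nat_lit 35139894708) (nat_lit 228) (nat_lit 7319917345) (nat_lit 76) (nat_lit 23358231000) (nat_lit 53) (nat_lit 5) (nat_lit 56) (nat_lit 5) (nat_lit 54) (nat_lit 5) (nat_lit 378) (nat_lit 323) (nat_lit 199)) (XT.lf (nat_lit 0) (nat_lit 46588164285) (nat_lit 152) (nat_lit 13527616340) (nat_lit 228) (nat_lit 8082730992) (nat_lit 51) (nat_lit 5) (nat_lit 53) (nat_lit 5) (nat_lit 54) (nat_lit 5) (nat_lit 379) (nat_lit 323) (nat_lit 198)))) (XT.nd (nat_lit 78) (nat_lit 228) (nat_lit 0) (XT.lf (nat_lit 0) (nat_lit 15892430603) (nat_lit 228) (nat_lit 37716874164) (nat_lit 76) (nat_lit 17067532488) (nat_lit 48) (nat_lit 5) (nat_lit 51) (nat_lit 5) (nat_lit 49) (nat_lit 5) (nat_lit 380) (nat_lit 323) (nat_lit 197)) (XT.nd (nat_lit 78) (nat_lit 76) (nat_lit 0) (XT.lf (nat_lit 0) (nat_lit 17548303165) (nat_lit 152) (nat_lit 23875779228) (nat_lit 228) (nat_lit 31836850072) (nat_lit 46) (nat_lit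 5) (nat_lit 48) (nat_lit 5) (nat_lit 49) (nat_lit 5) (nat_lit 381) (nat_lit 323) (nat_lit 196)) (XT.lf (nat_lit 0) (nat_lit 322591076) (nat_lit 76) (nat_lit 68369141249) (nat_lit 152) (nat_lit 7268718562) (nat_lit 45) (nat_lit 5) (nat_lit 46) (nat_lit 5) (nat_lit 47) (nat_lit 4) (nat_lit 382) (nat_lit 323) (nat_lit 195))))) (XT.nd (nat_lit 234) (nat_lit 304) (nat_lit 0) (XT.nd (nat_lit 78) (nat_lit 228) (nat_lit 0) (XT.lf (nat_lit 0) (nat_lit 18980193100) (nat_lit 152) (nat_lit 18890080721) (nat_lit 76) (nat_lit 40894911695) (nat_lit 44) (nat_lit 5) (nat_lit 46) (nat_lit 5) (nat_lit 45) (nat_lit 5) (nat_lit 383) (nat_lit 323) (nat_lit 194)) (XT.nd (nat_lit 78) (nat_lit 76) (nat_lit 0) (XT.lf (nat_lit 0) (nat_lit 41419120201) (nat_lit 152) (nat_lit 5365686521) (nat_lit 228) (nat_lit 34911384398) (nat_lit 42) (nat_lit 5) (nat_lit 44) (nat_lit 5) (nat_lit 45) (nat_lit 5) (nat_lit 384) (nat_lit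 323) (nat_lit 193)) (XT.lf (nat_lit 0) (nat_lit 20481197086) (nat_lit 76) (nat_lit 56162390334) (nat_lit 152) (nat_lit 8110242263) (nat_lit 41) (nat_lit 5) (nat_lit 42) (nat_lit 5) (nat_lit 43) (nat_lit 4) (nat_lit 385) (nat_lit 323) (nat_lit 192)))) (XT.nd (nat_lit 78) (nat_lit 228) (nat_lit 0) (XT.lf (nat_lit 0) (nat_lit 20107259345) (nat_lit 152) (nat_lit 3094137775) (nat_lit 76) (nat_lit 64743161918) (nat_lit 40) (nat_lit 5) (nat_lit 42) (nat_lit 5) (nat_lit 41) (nat_lit 5) (nat_lit 386) (nat_lit 323) (nat_lit 191)) (XT.nd (nat_lit 78) (nat_lit 76) (nat_lit 0) (XT.lf (nat_lit 0) (nat_lit 50278927749) (nat_lit 228) (nat_lit 29124426305) (nat_lit 76) (nat_lit 11867731782) (nat_lit 38) (nat_lit 5) (nat_lit 41) (nat_lit 5) (nat_lit 39) (nat_lit 4) (nat_lit 387) (nat_lit 323) (nat_lit 190)) (XT.lf (nat_lit 0) (nat_lit 36417519029) (nat_lit 76) (nat_lit 46152765886) (nat_lit 152) (nat_lit 12175321545)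 (nat_lit 37) (nat_lit 5) (nat_lit 38) (nat_lit 5) (nat_lit 39) (nat_lit 4) (nat_lit 388) (nat_lit 323) (nat_lit 189)))))) (XT.nd (nat_lit 42120) (nat_lit 0) (nat_lit 15656) (XT.nd (nat_lit 41886) (nat_lit 0) (nat_lit 16568) (XT.nd (nat_lit 78) (nat_lit 0) (nat_lit 0) (XT.lf (nat_lit 0) (nat_lit 7418675562) (nat_lit 152) (nat_lit 10679724315) (nat_lit 228) (nat_lit 80279172427) (nat_lit 34) (nat_lit 5) (nat_lit 36) (nat_lit 5) (nat_lit 37) (nat_lit 5) (nat_lit 389) (nat_lit 323) (nat_lit 188)) (XT.nd (nat_lit 41730) (nat_lit 0) (nat_lit 16568) (XT.lf (nat_lit 0) (nat_lit 50493022519) (nat_lit 228) (nat_lit 24895127207) (nat_lit 76) (nat_lit 26773600265) (nat_lit 34) (nat_lit 5) (nat_lit 37) (nat_lit 5) (nat_lit 35) (nat_lit 4) (nat_lit 390) (nat_lit 323) (nat_lit 187)) (XT.lf (nat_lit 0) (nat_lit 1658810455) (nat_lit 0) (nat_lit 1658810455) (nat_lit 1140) (nat_lit 3377755949) (nat_lit 252) (nat_lit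 5) (nat_lit 252) (nat_lit 3) (nat_lit 267) (nat_lit 3) (nat_lit 324) (nat_lit 324) (nat_lit 252)))) (XT.nd (nat_lit 78) (nat_lit 0) (nat_lit 76) (XT.lf (nat_lit 76) (nat_lit 546055731) (nat_lit 0) (nat_lit 6933169789) (nat_lit 1216) (nat_lit 6225626859) (nat_lit 253) (nat_lit 5) (nat_lit 252) (nat_lit 5) (nat_lit 268) (nat_lit 5) (nat_lit 325) (nat_lit 324) (nat_lit 251)) (XT.nd (nat_lit 78) (nat_lit 0) (nat_lit 0) (XT.lf (nat_lit 0) (nat_lit 8495984809) (nat_lit 1140) (nat_lit 2212951189) (nat_lit 1216) (nat_lit 3321823620) (nat_lit 253) (nat_lit 5) (nat_lit 268) (nat_lit 5) (nat_lit 269) (nat_lit 5) (nat_lit 326) (nat_lit 324) (nat_lit 250)) (XT.lf (nat_lit 76) (nat_lit 9371602065) (nat_lit 0) (nat_lit 315213093) (nat_lit 1216) (nat_lit 4682470008) (nat_lit 254) (nat_lit 5) (nat_lit 253) (nat_lit 5) (nat_lit 269) (nat_lit 5) (nat_lit 327) (nat_lit 324) (nat_lit 249))))) (XT.nd (nat_lit 234)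 (nat_lit 1064) (nat_lit 0) (XT.nd (nat_lit 78) (nat_lit 0) (nat_lit 76) (XT.lf (nat_lit 76) (nat_lit 6867399209) (nat_lit 0) (nat_lit 4225544919) (nat_lit 1216) (nat_lit 3627139144) (nat_lit 255) (nat_lit 5) (nat_lit 254) (nat_lit 5) (nat_lit 270) (nat_lit 5) (nat_lit 328) (nat_lit 324) (nat_lit 248)) (XT.nd (nat_lit 78) (nat_lit 0) (nat_lit 76) (XT.lf (nat_lit 76) (nat_lit 4336783450) (nat_lit 0) (nat_lit 8360720917) (nat_lit 1216) (nat_lit 2387091258) (nat_lit 256) (nat_lit 5) (nat_lit 255) (nat_lit 5) (nat_lit 271) (nat_lit 5) (nat_lit 329) (nat_lit 324) (nat_lit 247)) (XT.lf (nat_lit 76) (nat_lit 1777906052) (nat_lit 0) (nat_lit 12738919541) (nat_lit 1216) (nat_lit 946489242) (nat_lit 257) (nat_lit 5) (nat_lit 256) (nat_lit 5) (nat_lit 272) (nat_lit 5) (nat_lit 330) (nat_lit 324) (nat_lit 246)))) (XT.nd (nat_lit 78) (nat_lit 0) (nat_lit 76) (XT.lf (nat_lit 0) (nat_lit 720139282) (nat_lit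 1216) (nat_lit 817067576) (nat_lit 1292) (nat_lit 14318664494) (nat_lit 240) (nat_lit 5) (nat_lit 256) (nat_lit 5) (nat_lit 257) (nat_lit 5) (nat_lit 331) (nat_lit 324) (nat_lit 245)) (XT.nd (nat_lit 78) (nat_lit 0) (nat_lit 76) (XT.lf (nat_lit 0) (nat_lit 2644940762) (nat_lit 1216) (nat_lit 3449374801) (nat_lit 1292) (nat_lit 10167641674) (nat_lit 241) (nat_lit 5) (nat_lit 257) (nat_lit 5) (nat_lit 258) (nat_lit 5) (nat_lit 332) (nat_lit 324) (nat_lit 244)) (XT.lf (nat_lit 0) (nat_lit 4820088678) (nat_lit 1216) (nat_lit 6119582147) (nat_lit 1292) (nat_lit 5744067849) (nat_lit 242) (nat_lit 5) (nat_lit 258) (nat_lit 5) (nat_lit 259) (nat_lit 5) (nat_lit 333) (nat_lit 324) (nat_lit 243))))))) (XT.nd (nat_lit 936) (nat_lit 3724) (nat_lit 0) (XT.nd (nat_lit 468) (nat_lit 3040) (nat_lit 0) (XT.nd (nat_lit 234) (nat_lit 1292) (nat_lit 0) (XT.nd (nat_lit 78) (nat_lit 1824) (nat_lit 0) (XT.lf (nat_lit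 0) (nat_lit 7264125038) (nat_lit 1216) (nat_lit 8829606065) (nat_lit 76) (nat_lit 1028087908) (nat_lit 243) (nat_lit 5) (nat_lit 259) (nat_lit 5) (nat_lit 244) (nat_lit 5) (nat_lit 334) (nat_lit 324) (nat_lit 242)) (XT.nd (nat_lit 78) (nat_lit 608) (nat_lit 0) (XT.lf (nat_lit 0) (nat_lit 5955080522) (nat_lit 1216) (nat_lit 4080556487) (nat_lit 1292) (nat_lit 7540021246) (nat_lit 227) (nat_lit 5) (nat_lit 243) (nat_lit 5) (nat_lit 244) (nat_lit 5) (nat_lit 335) (nat_lit 324) (nat_lit 241)) (XT.lf (nat_lit 0) (nat_lit 3578156378) (nat_lit 608) (nat_lit 9550832935) (nat_lit 684) (nat_lit 4917714686) (nat_lit 219) (nat_lit 5) (nat_lit 227) (nat_lit 5) (nat_lit 228) (nat_lit 5) (nat_lit 336) (nat_lit 324) (nat_lit 240)))) (XT.nd (nat_lit 78) (nat_lit 684) (nat_lit 0) (XT.lf (nat_lit 0) (nat_lit 1170356273) (nat_lit 608) (nat_lit 15385113972) (nat_lit 684) (nat_lit 1980489841) (nat_lit 211) (nat_lit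 5) (nat_lit 219) (nat_lit 5) (nat_lit 220) (nat_lit 5) (nat_lit 337) (nat_lit 324) (nat_lit 239)) (XT.nd (nat_lit 78) (nat_lit 608) (nat_lit 0) (XT.lf (nat_lit 0) (nat_lit 1305605890) (nat_lit 684) (nat_lit 1282841753) (nat_lit 76) (nat_lit 16454217728) (nat_lit 210) (nat_lit 5) (nat_lit 219) (nat_lit 5) (nat_lit 211) (nat_lit 5) (nat_lit 338) (nat_lit 324) (nat_lit 238)) (XT.lf (nat_lit 0) (nat_lit 4951830814) (nat_lit 684) (nat_lit 3804027475) (nat_lit 76) (nat_lit 10811166314) (nat_lit 202) (nat_lit 5) (nat_lit 211) (nat_lit 5) (nat_lit 203) (nat_lit 5) (nat_lit 339) (nat_lit 324) (nat_lit 237))))) (XT.nd (nat_lit 234) (nat_lit 1520) (nat_lit 0) (XT.nd (nat_lit 78) (nat_lit 988) (nat_lit 0) (XT.lf (nat_lit 0) (nat_lit 8977826114) (nat_lit 608) (nat_lit 6367866871) (nat_lit 76) (nat_lit 4765995007) (nat_lit 195) (nat_lit 5) (nat_lit 203) (nat_lit 5) (nat_lit 196) (nat_lit 5) (nat_lit 340)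 (nat_lit 324) (nat_lit 236)) (XT.nd (nat_lit 78) (nat_lit 456) (nat_lit 0) (XT.lf (nat_lit 0) (nat_lit 11683720159) (nat_lit 532) (nat_lit 1741135774) (nat_lit 608) (nat_lit 7252146068) (nat_lit 188) (nat_lit 5) (nat_lit 195) (nat_lit 5) (nat_lit 196) (nat_lit 5) (nat_lit 341) (nat_lit 324) (nat_lit 235)) (XT.lf (nat_lit 0) (nat_lit 9545765651) (nat_lit 456) (nat_lit 8807272361) (nat_lit 532) (nat_lit 2909788717) (nat_lit 182) (nat_lit 5) (nat_lit 188) (nat_lit 5) (nat_lit 189) (nat_lit 5) (nat_lit 342) (nat_lit 324) (nat_lit 234)))) (XT.nd (nat_lit 78) (nat_lit 912) (nat_lit 0) (XT.lf (nat_lit 0) (nat_lit 1834776858) (nat_lit 608) (nat_lit 14513271036) (nat_lit 76) (nat_lit 5522908976) (nat_lit 174) (nat_lit 5) (nat_lit 182) (nat_lit 5) (nat_lit 175) (nat_lit 5) (nat_lit 343) (nat_lit 324) (nat_lit 233)) (XT.nd (nat_lit 78) (nat_lit 456) (nat_lit 0) (XT.lf (nat_lit 0) (nat_lit 5083569433) (nat_lit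 456) (nat_lit 1914449999) (nat_lit 532) (nat_lit 15503368925) (nat_lit 168) (nat_lit 5) (nat_lit 174) (nat_lit 5) (nat_lit 175) (nat_lit 5) (nat_lit 344) (nat_lit 324) (nat_lit 232)) (XT.lf (nat_lit 0) (nat_lit 2707530231) (nat_lit 456) (nat_lit 9998230971) (nat_lit 532) (nat_lit 10448997688) (nat_lit 162) (nat_lit 5) (nat_lit 168) (nat_lit 5) (nat_lit 169) (nat_lit 5) (nat_lit 345) (nat_lit 324) (nat_lit 231)))))) (XT.nd (nat_lit 468) (nat_lit 1672) (nat_lit 0) (XT.nd (nat_lit 234) (nat_lit 1140) (nat_lit 0) (XT.nd (nat_lit 78) (nat_lit 532) (nat_lit 0) (XT.lf (nat_lit 0) (nat_lit 282163945) (nat_lit 380) (nat_lit 18651456370) (nat_lit 456) (nat_lit 4900142950) (nat_lit 157) (nat_lit 5) (nat_lit 162) (nat_lit 5) (nat_lit 163) (nat_lit 5) (nat_lit 346) (nat_lit 324) (nat_lit 230)) (XT.nd (nat_lit 78) (nat_lit 456) (nat_lit 0) (XT.lf (nat_lit 0) (nat_lit 1204789028) (nat_lit 456) (nat_lit 2197831586)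 (nat_lit 76) (nat_lit 21134935624) (nat_lit 156) (nat_lit 5) (nat_lit 162) (nat_lit 5) (nat_lit 157) (nat_lit 5) (nat_lit 347) (nat_lit 324) (nat_lit 229)) (XT.lf (nat_lit 0) (nat_lit 7819790804) (nat_lit 532) (nat_lit 4837795099) (nat_lit 76) (nat_lit 12608318860) (nat_lit 150) (nat_lit 5) (nat_lit 157) (nat_lit 5) (nat_lit 151) (nat_lit 5) (nat_lit 348) (nat_lit 324) (nat_lit 228)))) (XT.nd (nat_lit 78) (nat_lit 760) (nat_lit 0) (XT.lf (nat_lit 0) (nat_lit 15019071185) (nat_lit 456) (nat_lit 7549783624) (nat_lit 76) (nat_lit 3454216105) (nat_lit 145) (nat_lit 5) (nat_lit 151) (nat_lit 5) (nat_lit 146) (nat_lit 5) (nat_lit 349) (nat_lit 324) (nat_lit 227)) (XT.nd (nat_lit 78) (nat_lit 380) (nat_lit 0) (XT.lf (nat_lit 0) (nat_lit 16406767889) (nat_lit 380) (nat_lit 6492379496) (nat_lit 456) (nat_lit 3909328804) (nat_lit 140) (nat_lit 5) (nat_lit 145) (nat_lit 5) (nat_lit 146) (nat_lit 5) (nat_lit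 350) (nat_lit 324) (nat_lit 226)) (XT.lf (nat_lit 0) (nat_lit 3774808239) (nat_lit 380) (nat_lit 13415066253) (nat_lit 76) (nat_lit 10433147321) (nat_lit 135) (nat_lit 5) (nat_lit 140) (nat_lit 5) (nat_lit 136) (nat_lit 5) (nat_lit 351) (nat_lit 324) (nat_lit 225))))) (XT.nd (nat_lit 234) (nat_lit 608) (nat_lit 0) (XT.nd (nat_lit 78) (nat_lit 684) (nat_lit 0) (XT.lf (nat_lit 0) (nat_lit 11897380318) (nat_lit 380) (nat_lit 139620945) (nat_lit 456) (nat_lit 16431896346) (nat_lit 130) (nat_lit 5) (nat_lit 135) (nat_lit 5) (nat_lit 136) (nat_lit 5) (nat_lit 352) (nat_lit 324) (nat_lit 224)) (XT.nd (nat_lit 78) (nat_lit 380) (nat_lit 0) (XT.lf (nat_lit 0) (nat_lit 9395140632) (nat_lit 304) (nat_lit 11704050959) (nat_lit 380) (nat_lit 8246273814) (nat_lit 126) (nat_lit 5) (nat_lit 130) (nat_lit 5) (nat_lit 131) (nat_lit 5) (nat_lit 353) (nat_lit 324) (nat_lit 223)) (XT.lf (nat_lit 0) (nat_lit 628528976)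 (nat_lit 380) (nat_lit 23465079320) (nat_lit 76) (nat_lit 6163556164) (nat_lit 121) (nat_lit 5) (nat_lit 126) (nat_lit 5) (nat_lit 122) (nat_lit 5) (nat_lit 354) (nat_lit 324) (nat_lit 222)))) (XT.nd (nat_lit 78) (nat_lit 304) (nat_lit 0) (XT.lf (nat_lit 0) (nat_lit 3935158210) (nat_lit 304) (nat_lit 6193424887) (nat_lit 380) (nat_lit 21072858542) (nat_lit 117) (nat_lit 5) (nat_lit 121) (nat_lit 5) (nat_lit 122) (nat_lit 5) (nat_lit 355) (nat_lit 324) (nat_lit 221)) (XT.nd (nat_lit 78) (nat_lit 0) (nat_lit 0) (XT.lf (nat_lit 0) (nat_lit 885564788) (nat_lit 304) (nat_lit 19579164360) (nat_lit 380) (nat_lit 11717374908) (nat_lit 113) (nat_lit 5) (nat_lit 117) (nat_lit 5) (nat_lit 118) (nat_lit 5) (nat_lit 356) (nat_lit 324) (nat_lit 220)) (XT.lf (nat_lit 0) (nat_lit 30933297232) (nat_lit 304) (nat_lit 714888202) (nat_lit 380) (nat_lit 1553702937) (nat_lit 113) (nat_lit 5) (nat_lit 117) (nat_lit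 5) (nat_lit 118) (nat_lit 5) (nat_lit 357) (nat_lit 324) (nat_lit 219))))))))
noncomputable def xc90 : XT := (XT.nd (nat_lit 1872) (nat_lit 1064) (nat_lit 0) (XT.nd (nat_lit 936) (nat_lit 1976) (nat_lit 0) (XT.nd (nat_lit 468) (nat_lit 1216) (nat_lit 0) (XT.nd (nat_lit 234) (nat_lit 836) (nat_lit 0) (XT.nd (nat_lit 78) (nat_lit 532) (nat_lit 0) (XT.lf (nat_lit 0) (nat_lit 9391225662) (nat_lit 380) (nat_lit 5783849481) (nat_lit 76) (nat_lit 19081430822) (nat_lit 108) (nat_lit 5) (nat_lit 113) (nat_lit 5) (nat_lit 109) (nat_lit 5) (nat_lit 358) (nat_lit 324) (nat_lit 218)) (XT.nd (nat_lit 78) (nat_lit 228) (nat_lit 0) (XT.lf (nat_lit 0) (nat_lit 21166012657) (nat_lit 380) (nat_lit 9500706350) (nat_lit 76) (nat_lit 4687234991) (nat_lit 104) (nat_lit 5) (nat_lit 109) (nat_lit 5) (nat_lit 105) (nat_lit 5) (nat_lit 359) (nat_lit 324) (nat_lit 217)) (XT.lf (nat_lit 0) (nat_lit 22966259285) (nat_lit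 228) (nat_lit 10986386933) (nat_lit 304) (nat_lit 2540938239) (nat_lit 101) (nat_lit 5) (nat_lit 104) (nat_lit 5) (nat_lit 105) (nat_lit 5) (nat_lit 360) (nat_lit 324) (nat_lit 216)))) (XT.nd (nat_lit 78) (nat_lit 456) (nat_lit 0) (XT.lf (nat_lit 0) (nat_lit 9874954788) (nat_lit 380) (nat_lit 17931271207) (nat_lit 76) (nat_lit 9869911643) (nat_lit 96) (nat_lit 5) (nat_lit 101) (nat_lit 5) (nat_lit 97) (nat_lit 5) (nat_lit 361) (nat_lit 324) (nat_lit 215)) (XT.nd (nat_lit 78) (nat_lit 228) (nat_lit 0) (XT.lf (nat_lit 0) (nat_lit 16211906753) (nat_lit 228) (nat_lit 7044637103) (nat_lit 304) (nat_lit 15648599183) (nat_lit 93) (nat_lit 5) (nat_lit 96) (nat_lit 5) (nat_lit 97) (nat_lit 5) (nat_lit 362) (nat_lit 324) (nat_lit 214)) (XT.lf (nat_lit 0) (nat_lit 12327766141) (nat_lit 228) (nat_lit 25416090910) (nat_lit 304) (nat_lit 2438645039) (nat_lit 90) (nat_lit 5) (nat_lit 93) (nat_lit 5) (nat_lit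 94) (nat_lit 5) (nat_lit 363) (nat_lit 324) (nat_lit 213))))) (XT.nd (nat_lit 234) (nat_lit 684) (nat_lit 0) (XT.nd (nat_lit 78) (nat_lit 228) (nat_lit 0) (XT.lf (nat_lit 0) (nat_lit 8014644579) (nat_lit 228) (nat_lit 3568277538) (nat_lit 304) (nat_lit 29926287073) (nat_lit 86) (nat_lit 5) (nat_lit 89) (nat_lit 5) (nat_lit 90) (nat_lit 5) (nat_lit 364) (nat_lit 324) (nat_lit 212)) (XT.nd (nat_lit 78) (nat_lit 0) (nat_lit 0) (XT.lf (nat_lit 0) (nat_lit 3199140166) (nat_lit 228) (nat_lit 23553401171) (nat_lit 304) (nat_lit 16134066091) (nat_lit 83) (nat_lit 5) (nat_lit 86) (nat_lit 5) (nat_lit 87) (nat_lit 5) (nat_lit 365) (nat_lit 324) (nat_lit 211)) (XT.lf (nat_lit 0) (nat_lit 42375635745) (nat_lit 228) (nat_lit 676171393) (nat_lit 304) (nat_lit 1269935752) (nat_lit 83) (nat_lit 5) (nat_lit 86) (nat_lit 5) (nat_lit 87) (nat_lit 5) (nat_lit 366) (nat_lit 324) (nat_lit 210)))) (XT.nd (nat_lit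 78) (nat_lit 456) (nat_lit 0) (XT.lf (nat_lit 0) (nat_lit 14645985541) (nat_lit 228) (nat_lit 7766232362) (nat_lit 76) (nat_lit 23394633970) (nat_lit 80) (nat_lit 5) (nat_lit 83) (nat_lit 5) (nat_lit 81) (nat_lit 5) (nat_lit 367) (nat_lit 324) (nat_lit 209)) (XT.nd (nat_lit 78) (nat_lit 228) (nat_lit 0) (XT.lf (nat_lit 0) (nat_lit 31686141118) (nat_lit 304) (nat_lit 14053820814) (nat_lit 76) (nat_lit 1615238101) (nat_lit 77) (nat_lit 5) (nat_lit 81) (nat_lit 5) (nat_lit 78) (nat_lit 5) (nat_lit 368) (nat_lit 324) (nat_lit 208)) (XT.lf (nat_lit 0) (nat_lit 1158049511) (nat_lit 228) (nat_lit 21065752555) (nat_lit 76) (nat_lit 26739822123) (nat_lit 74) (nat_lit 5) (nat_lit 77) (nat_lit 5) (nat_lit 75) (nat_lit 5) (nat_lit 369) (nat_lit 324) (nat_lit 207)))))) (XT.nd (nat_lit 468) (nat_lit 912) (nat_lit 0) (XT.nd (nat_lit 234) (nat_lit 380) (nat_lit 0) (XT.nd (nat_lit 78) (nat_lit 456) (nat_lit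 0) (XT.lf (nat_lit 0) (nat_lit 18882037109) (nat_lit 304) (nat_lit 28820556328) (nat_lit 76) (nat_lit 2933836190) (nat_lit 71) (nat_lit 5) (nat_lit 75) (nat_lit 5) (nat_lit 72) (nat_lit 5) (nat_lit 370) (nat_lit 324) (nat_lit 206)) (XT.nd (nat_lit 78) (nat_lit 304) (nat_lit 0) (XT.lf (nat_lit 0) (nat_lit 14946939289) (nat_lit 152) (nat_lit 23124198718) (nat_lit 228) (nat_lit 14304371596) (nat_lit 69) (nat_lit 5) (nat_lit 71) (nat_lit 5) (nat_lit 72) (nat_lit 5) (nat_lit 371) (nat_lit 324) (nat_lit 205)) (XT.lf (nat_lit 0) (nat_lit 4332406065) (nat_lit 304) (nat_lit 46817447399) (nat_lit 76) (nat_lit 3038752994) (nat_lit 65) (nat_lit 5) (nat_lit 69) (nat_lit 5) (nat_lit 66) (nat_lit 5) (nat_lit 372) (nat_lit 324) (nat_lit 204)))) (XT.nd (nat_lit 78) (nat_lit 380) (nat_lit 0) (XT.lf (nat_lit 0) (nat_lit 24222743470) (nat_lit 304) (nat_lit 1282621903) (nat_lit 76) (nat_lit 30564218727) (nat_lit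 65) (nat_lit 5) (nat_lit 69) (nat_lit 5) (nat_lit 66) (nat_lit 5) (nat_lit 373) (nat_lit 324) (nat_lit 203)) (XT.nd (nat_lit 78) (nat_lit 228) (nat_lit 0) (XT.lf (nat_lit 0) (nat_lit 45574434179) (nat_lit 228) (nat_lit 10607190100) (nat_lit 76) (nat_lit 1848982664) (nat_lit 63) (nat_lit 5) (nat_lit 66) (nat_lit 5) (nat_lit 64) (nat_lit 5) (nat_lit 374) (nat_lit 324) (nat_lit 202)) (XT.lf (nat_lit 0) (nat_lit 8394553202) (nat_lit 228) (nat_lit 21159643851) (nat_lit 76) (nat_lit 30513863006) (nat_lit 60) (nat_lit 5) (nat_lit 63) (nat_lit 5) (nat_lit 61) (nat_lit 5) (nat_lit 375) (nat_lit 324) (nat_lit 201))))) (XT.nd (nat_lit 234) (nat_lit 380) (nat_lit 0) (XT.nd (nat_lit 78) (nat_lit 380) (nat_lit 0) (XT.lf (nat_lit 0) (nat_lit 29351082674) (nat_lit 152) (nat_lit 1066931302) (nat_lit 228) (nat_lit 31774038908) (nat_lit 58) (nat_lit 5) (nat_lit 60) (nat_lit 5) (nat_lit 61) (nat_lit 5) (nat_lit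 376) (nat_lit 324) (nat_lit 200)) (XT.nd (nat_lit 78) (nat_lit 228) (nat_lit 0) (XT.lf (nat_lit 0) (nat_lit 18483034282) (nat_lit 152) (nat_lit 35727706643) (nat_lit 228) (nat_lit 10191462814) (nat_lit 56) (nat_lit 5) (nat_lit 58) (nat_lit 5) (nat_lit 59) (nat_lit 5) (nat_lit 377) (nat_lit 324) (nat_lit 199)) (XT.lf (nat_lit 0) (nat_lit 6324417691) (nat_lit 152) (nat_lit 6308783867) (nat_lit 228) (nat_lit 54073876561) (nat_lit 53) (nat_lit 5) (nat_lit 55) (nat_lit 5) (nat_lit 56) (nat_lit 5) (nat_lit 378) (nat_lit 324) (nat_lit 198)))) (XT.nd (nat_lit 78) (nat_lit 380) (nat_lit 0) (XT.lf (nat_lit 0) (nat_lit 37097429008) (nat_lit 228) (nat_lit 7328703298) (nat_lit 76) (nat_lit 24676764640) (nat_lit 53) (nat_lit 5) (nat_lit 56) (nat_lit 5) (nat_lit 54) (nat_lit 5) (nat_lit 379) (nat_lit 324) (nat_lit 197)) (XT.nd (nat_lit 78) (nat_lit 228) (nat_lit 0) (XT.lf (nat_lit 0) (nat_lit 49264543063)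 (nat_lit 152) (nat_lit 14051351948) (nat_lit 228) (nat_lit 8286681881) (nat_lit 51) (nat_lit 5) (nat_lit 53) (nat_lit 5) (nat_lit 54) (nat_lit 5) (nat_lit 380) (nat_lit 324) (nat_lit 196)) (XT.lf (nat_lit 0) (nat_lit 16878709287) (nat_lit 228) (nat_lit 39257583491) (nat_lit 76) (nat_lit 18068608381) (nat_lit 48) (nat_lit 5) (nat_lit 51) (nat_lit 5) (nat_lit 49) (nat_lit 5) (nat_lit 381) (nat_lit 324) (nat_lit 195))))))) (XT.nd (nat_lit 42666) (nat_lit 0) (nat_lit 13376) (XT.nd (nat_lit 468) (nat_lit 456) (nat_lit 0) (XT.nd (nat_lit 234) (nat_lit 304) (nat_lit 0) (XT.nd (nat_lit 78) (nat_lit 152) (nat_lit 0) (XT.lf (nat_lit 0) (nat_lit 18760959496) (nat_lit 152) (nat_lit 24920080183) (nat_lit 228) (nat_lit 33237339916) (nat_lit 46) (nat_lit 5) (nat_lit 48) (nat_lit 5) (nat_lit 49) (nat_lit 5) (nat_lit 382) (nat_lit 324) (nat_lit 194)) (XT.nd (nat_lit 78) (nat_lit 76) (nat_lit 0) (XT.lf (nat_lit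 0) (nat_lit 668395387) (nat_lit 76) (nat_lit 71639368910) (nat_lit 152) (nat_lit 7445240157) (nat_lit 45) (nat_lit 5) (nat_lit 46) (nat_lit 5) (nat_lit 47) (nat_lit 4) (nat_lit 383) (nat_lit 324) (nat_lit 193)) (XT.lf (nat_lit 0) (nat_lit 20103742718) (nat_lit 152) (nat_lit 19517111424) (nat_lit 76) (nat_lit 43077330764) (nat_lit 44) (nat_lit 5) (nat_lit 46) (nat_lit 5) (nat_lit 45) (nat_lit 5) (nat_lit 384) (nat_lit 324) (nat_lit 192)))) (XT.nd (nat_lit 78) (nat_lit 152) (nat_lit 0) (XT.lf (nat_lit 0) (nat_lit 43798449235) (nat_lit 152) (nat_lit 5494790630) (nat_lit 228) (nat_lit 36482662468) (nat_lit 42) (nat_lit 5) (nat_lit 44) (nat_lit 5) (nat_lit 45) (nat_lit 5) (nat_lit 385) (nat_lit 324) (nat_lit 191)) (XT.nd (nat_lit 78) (nat_lit 76) (nat_lit 0) (XT.lf (nat_lit 0) (nat_lit 21808443179) (nat_lit 76) (nat_lit 58832648208) (nat_lit 152) (nat_lit 8345448559) (nat_lit 41) (nat_lit 5) (nat_lit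 42) (nat_lit 5) (nat_lit 43) (nat_lit 4) (nat_lit 386) (nat_lit 324) (nat_lit 190)) (XT.lf (nat_lit 0) (nat_lit 21271653300) (nat_lit 152) (nat_lit 2956910971) (nat_lit 76) (nat_lit 68108431923) (nat_lit 40) (nat_lit 5) (nat_lit 42) (nat_lit 5) (nat_lit 41) (nat_lit 5) (nat_lit 387) (nat_lit 324) (nat_lit 189))))) (XT.nd (nat_lit 41964) (nat_lit 0) (nat_lit 16568) (XT.nd (nat_lit 78) (nat_lit 304) (nat_lit 0) (XT.lf (nat_lit 0) (nat_lit 52948301720) (nat_lit 228) (nat_lit 30293681407) (nat_lit 76) (nat_lit 12587975254) (nat_lit 38) (nat_lit 5) (nat_lit 41) (nat_lit 5) (nat_lit 39) (nat_lit 4) (nat_lit 388) (nat_lit 324) (nat_lit 188)) (XT.nd (nat_lit 78) (nat_lit 228) (nat_lit 0) (XT.lf (nat_lit 0) (nat_lit 38517135365) (nat_lit 76) (nat_lit 48332369489) (nat_lit 152) (nat_lit 12628842740) (nat_lit 37) (nat_lit 5) (nat_lit 38) (nat_lit 5) (nat_lit 39) (nat_lit 4) (nat_lit 389) (nat_lit 324)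 (nat_lit 187)) (XT.lf (nat_lit 0) (nat_lit 8063319230) (nat_lit 152) (nat_lit 11087598846) (nat_lit 228) (nat_lit 84141088236) (nat_lit 34) (nat_lit 5) (nat_lit 36) (nat_lit 5) (nat_lit 37) (nat_lit 5) (nat_lit 390) (nat_lit 324) (nat_lit 186)))) (XT.nd (nat_lit 78) (nat_lit 0) (nat_lit 0) (XT.lf (nat_lit 0) (nat_lit 2040274294) (nat_lit 0) (nat_lit 2040274294) (nat_lit 1140) (nat_lit 2931363718) (nat_lit 252) (nat_lit 5) (nat_lit 252) (nat_lit 3) (nat_lit 267) (nat_lit 3) (nat_lit 325) (nat_lit 325) (nat_lit 250)) (XT.nd (nat_lit 78) (nat_lit 0) (nat_lit 76) (XT.lf (nat_lit 76) (nat_lit 1194287073) (nat_lit 0) (nat_lit 7796634265) (nat_lit 1216) (nat_lit 5364428295) (nat_lit 253) (nat_lit 5) (nat_lit 252) (nat_lit 5) (nat_lit 268) (nat_lit 5) (nat_lit 326) (nat_lit 325) (nat_lit 249)) (XT.lf (nat_lit 0) (nat_lit 9999609465) (nat_lit 1140) (nat_lit 1694416104) (nat_lit 1216) (nat_lit 3005323143)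 (nat_lit 253) (nat_lit 5) (nat_lit 268) (nat_lit 5) (nat_lit 269) (nat_lit 5) (nat_lit 327) (nat_lit 325) (nat_lit 248)))))) (XT.nd (nat_lit 468) (nat_lit 2280) (nat_lit 0) (XT.nd (nat_lit 234) (nat_lit 988) (nat_lit 0) (XT.nd (nat_lit 78) (nat_lit 0) (nat_lit 76) (XT.lf (nat_lit 76) (nat_lit 10451329418) (nat_lit 0) (nat_lit 753153996) (nat_lit 1216) (nat_lit 3851709878) (nat_lit 254) (nat_lit 5) (nat_lit 253) (nat_lit 5) (nat_lit 269) (nat_lit 5) (nat_lit 328) (nat_lit 325) (nat_lit 247)) (XT.nd (nat_lit 78) (nat_lit 0) (nat_lit 76) (XT.lf (nat_lit 76) (nat_lit 7838991514) (nat_lit 0) (nat_lit 4794895100) (nat_lit 1216) (nat_lit 2792082147) (nat_lit 255) (nat_lit 5) (nat_lit 254) (nat_lit 5) (nat_lit 270) (nat_lit 5) (nat_lit 329) (nat_lit 325) (nat_lit 246)) (XT.lf (nat_lit 76) (nat_lit 5196435780) (nat_lit 0) (nat_lit 9078173646) (nat_lit 1216) (nat_lit 1535444498) (nat_lit 256) (nat_lit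 5) (nat_lit 255) (nat_lit 5) (nat_lit 271) (nat_lit 5) (nat_lit 330) (nat_lit 325) (nat_lit 245)))) (XT.nd (nat_lit 78) (nat_lit 1216) (nat_lit 0) (XT.lf (nat_lit 76) (nat_lit 2521930830) (nat_lit 0) (nat_lit 13621654181) (nat_lit 1216) (nat_lit 65387462) (nat_lit 257) (nat_lit 5) (nat_lit 256) (nat_lit 5) (nat_lit 272) (nat_lit 5) (nat_lit 331) (nat_lit 325) (nat_lit 244)) (XT.nd (nat_lit 78) (nat_lit 0) (nat_lit 76) (XT.lf (nat_lit 0) (nat_lit 1623107485) (nat_lit 1216) (nat_lit 216289547) (nat_lit 1292) (nat_lit 14782814704) (nat_lit 240) (nat_lit 5) (nat_lit 256) (nat_lit 5) (nat_lit 257) (nat_lit 5) (nat_lit 332) (nat_lit 325) (nat_lit 243)) (XT.lf (nat_lit 0) (nat_lit 3606852579) (nat_lit 1216) (nat_lit 2971227585) (nat_lit 1292) (nat_lit 10471661806) (nat_lit 241) (nat_lit 5) (nat_lit 257) (nat_lit 5) (nat_lit 258) (nat_lit 5) (nat_lit 333) (nat_lit 325) (nat_lit 242))))) (XT.nd (nat_lit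 234) (nat_lit 1292) (nat_lit 0) (XT.nd (nat_lit 78) (nat_lit 1140) (nat_lit 0) (XT.lf (nat_lit 0) (nat_lit 5855745868) (nat_lit 1216) (nat_lit 5767726065) (nat_lit 1292) (nat_lit 5870211058) (nat_lit 242) (nat_lit 5) (nat_lit 258) (nat_lit 5) (nat_lit 259) (nat_lit 5) (nat_lit 334) (nat_lit 325) (nat_lit 241)) (XT.nd (nat_lit 78) (nat_lit 1216) (nat_lit 0) (XT.lf (nat_lit 0) (nat_lit 8389093958) (nat_lit 1216) (nat_lit 8607643686) (nat_lit 76) (nat_lit 957935595) (nat_lit 243) (nat_lit 5) (nat_lit 259) (nat_lit 5) (nat_lit 244) (nat_lit 5) (nat_lit 335) (nat_lit 325) (nat_lit 240)) (XT.lf (nat_lit 0) (nat_lit 6897259779) (nat_lit 1216) (nat_lit 4371841945) (nat_lit 1292) (nat_lit 7163023394) (nat_lit 227) (nat_lit 5) (nat_lit 243) (nat_lit 5) (nat_lit 244) (nat_lit 5) (nat_lit 336) (nat_lit 325) (nat_lit 239)))) (XT.nd (nat_lit 78) (nat_lit 684) (nat_lit 0) (XT.lf (nat_lit 0) (nat_lit 4405508203)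 (nat_lit 608) (nat_lit 10082205808) (nat_lit 684) (nat_lit 4439908775) (nat_lit 219) (nat_lit 5) (nat_lit 227) (nat_lit 5) (nat_lit 228) (nat_lit 5) (nat_lit 337) (nat_lit 325) (nat_lit 238)) (XT.nd (nat_lit 78) (nat_lit 76) (nat_lit 0) (XT.lf (nat_lit 0) (nat_lit 1880035718) (nat_lit 608) (nat_lit 16177808141) (nat_lit 684) (nat_lit 1384344652) (nat_lit 211) (nat_lit 5) (nat_lit 219) (nat_lit 5) (nat_lit 220) (nat_lit 5) (nat_lit 338) (nat_lit 325) (nat_lit 237)) (XT.lf (nat_lit 0) (nat_lit 2020033248) (nat_lit 684) (nat_lit 713604017) (nat_lit 76) (nat_lit 17241380372) (nat_lit 210) (nat_lit 5) (nat_lit 219) (nat_lit 5) (nat_lit 211) (nat_lit 5) (nat_lit 339) (nat_lit 325) (nat_lit 236))))))))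
noncomputable def xc91 : XT := (XT.nd (nat_lit 1872) (nat_lit 3952) (nat_lit 0) (XT.nd (nat_lit 936) (nat_lit 3572) (nat_lit 0) (XT.nd (nat_lit 468) (nat_lit 2128) (nat_lit 0) (XT.nd (nat_lit 234) (nat_lit 1520) (nat_lit 0) (XT.nd (nat_lit 78) (nat_lit 1064) (nat_lit 0) (XT.lf (nat_lit 0) (nat_lit 5823485770) (nat_lit 684) (nat_lit 3359902471) (nat_lit 76) (nat_lit 11342973700) (nat_lit 202) (nat_lit 5) (nat_lit 211) (nat_lit 5) (nat_lit 203) (nat_lit 5) (nat_lit 340) (nat_lit 325) (nat_lit 235)) (XT.nd (nat_lit 78) (nat_lit 532) (nat_lit 0) (XT.lf (nat_lit 0) (nat_lit 10027138876) (nat_lit 608) (nat_lit 6051983119) (nat_lit 76) (nat_lit 5019859667) (nat_lit 195) (nat_lit 5) (nat_lit 203) (nat_lit 5) (nat_lit 196) (nat_lit 5) (nat_lit 341) (nat_lit 325) (nat_lit 234)) (XT.lf (nat_lit 0) (nat_lit 12884001836) (nat_lit 532) (nat_lit 1789849140) (nat_lit 608) (nat_lit 7019403713) (nat_lit 188)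 (nat_lit 5) (nat_lit 195) (nat_lit 5) (nat_lit 196) (nat_lit 5) (nat_lit 342) (nat_lit 325) (nat_lit 233)))) (XT.nd (nat_lit 78) (nat_lit 1064) (nat_lit 0) (XT.lf (nat_lit 0) (nat_lit 10638224314) (nat_lit 456) (nat_lit 9188970256) (nat_lit 532) (nat_lit 2481826123) (nat_lit 182) (nat_lit 5) (nat_lit 188) (nat_lit 5) (nat_lit 189) (nat_lit 5) (nat_lit 343) (nat_lit 325) (nat_lit 232)) (XT.nd (nat_lit 78) (nat_lit 456) (nat_lit 0) (XT.lf (nat_lit 0) (nat_lit 2468500879) (nat_lit 608) (nat_lit 14614464337) (nat_lit 76) (nat_lit 5865046717) (nat_lit 174) (nat_lit 5) (nat_lit 182) (nat_lit 5) (nat_lit 175) (nat_lit 5) (nat_lit 344) (nat_lit 325) (nat_lit 231)) (XT.lf (nat_lit 0) (nat_lit 5944317842) (nat_lit 456) (nat_lit 1925609645) (nat_lit 532) (nat_lit 15740647958) (nat_lit 168) (nat_lit 5) (nat_lit 174) (nat_lit 5) (nat_lit 175) (nat_lit 5) (nat_lit 345) (nat_lit 325) (nat_lit 230))))) (XT.nd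 (nat_lit 234) (nat_lit 1216) (nat_lit 0) (XT.nd (nat_lit 78) (nat_lit 456) (nat_lit 0) (XT.lf (nat_lit 0) (nat_lit 3446726972) (nat_lit 456) (nat_lit 10398050343) (nat_lit 532) (nat_lit 10452396136) (nat_lit 162) (nat_lit 5) (nat_lit 168) (nat_lit 5) (nat_lit 169) (nat_lit 5) (nat_lit 346) (nat_lit 325) (nat_lit 229)) (XT.nd (nat_lit 78) (nat_lit 76) (nat_lit 0) (XT.lf (nat_lit 0) (nat_lit 896733560) (nat_lit 380) (nat_lit 19469997106) (nat_lit 456) (nat_lit 4643926413) (nat_lit 157) (nat_lit 5) (nat_lit 162) (nat_lit 5) (nat_lit 163) (nat_lit 5) (nat_lit 347) (nat_lit 325) (nat_lit 228)) (XT.lf (nat_lit 0) (nat_lit 1733069436) (nat_lit 456) (nat_lit 1726353930) (nat_lit 76) (nat_lit 22290783169) (nat_lit 156) (nat_lit 5) (nat_lit 162) (nat_lit 5) (nat_lit 157) (nat_lit 5) (nat_lit 348) (nat_lit 325) (nat_lit 227)))) (XT.nd (nat_lit 78) (nat_lit 760) (nat_lit 0) (XT.lf (nat_lit 0) (nat_lit 8663053172)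 (nat_lit 532) (nat_lit 4502358839) (nat_lit 76) (nat_lit 13350042390) (nat_lit 150) (nat_lit 5) (nat_lit 157) (nat_lit 5) (nat_lit 151) (nat_lit 5) (nat_lit 349) (nat_lit 325) (nat_lit 226)) (XT.nd (nat_lit 78) (nat_lit 380) (nat_lit 0) (XT.lf (nat_lit 0) (nat_lit 16207349520) (nat_lit 456) (nat_lit 7354441179) (nat_lit 76) (nat_lit 3749145052) (nat_lit 145) (nat_lit 5) (nat_lit 151) (nat_lit 5) (nat_lit 146) (nat_lit 5) (nat_lit 350) (nat_lit 325) (nat_lit 225)) (XT.lf (nat_lit 0) (nat_lit 17783517807) (nat_lit 380) (nat_lit 6682435301) (nat_lit 456) (nat_lit 3670130518) (nat_lit 140) (nat_lit 5) (nat_lit 145) (nat_lit 5) (nat_lit 146) (nat_lit 5) (nat_lit 351) (nat_lit 325) (nat_lit 224)))))) (XT.nd (nat_lit 468) (nat_lit 1520) (nat_lit 0) (XT.nd (nat_lit 234) (nat_lit 988) (nat_lit 0) (XT.nd (nat_lit 78) (nat_lit 684) (nat_lit 0) (XT.lf (nat_lit 0) (nat_lit 4376036532) (nat_lit 380) (nat_lit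 13525806788) (nat_lit 76) (nat_lit 11089806153) (nat_lit 135) (nat_lit 5) (nat_lit 140) (nat_lit 5) (nat_lit 136) (nat_lit 5) (nat_lit 352) (nat_lit 325) (nat_lit 223)) (XT.nd (nat_lit 78) (nat_lit 304) (nat_lit 0) (XT.lf (nat_lit 0) (nat_lit 13036209458) (nat_lit 380) (nat_lit 716347) (nat_lit 456) (nat_lit 16843332742) (nat_lit 130) (nat_lit 5) (nat_lit 135) (nat_lit 5) (nat_lit 136) (nat_lit 5) (nat_lit 353) (nat_lit 325) (nat_lit 222)) (XT.lf (nat_lit 0) (nat_lit 10403640694) (nat_lit 304) (nat_lit 12136143318) (nat_lit 380) (nat_lit 8261250717) (nat_lit 126) (nat_lit 5) (nat_lit 130) (nat_lit 5) (nat_lit 131) (nat_lit 5) (nat_lit 354) (nat_lit 325) (nat_lit 221)))) (XT.nd (nat_lit 78) (nat_lit 608) (nat_lit 0) (XT.lf (nat_lit 0) (nat_lit 1037579306) (nat_lit 380) (nat_lit 24097454116) (nat_lit 76) (nat_lit 6623535756) (nat_lit 121) (nat_lit 5) (nat_lit 126) (nat_lit 5) (nat_lit 122) (nat_lit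 5) (nat_lit 355) (nat_lit 325) (nat_lit 220)) (XT.nd (nat_lit 78) (nat_lit 304) (nat_lit 0) (XT.lf (nat_lit 0) (nat_lit 4657291098) (nat_lit 304) (nat_lit 6342413171) (nat_lit 380) (nat_lit 21750749844) (nat_lit 117) (nat_lit 5) (nat_lit 121) (nat_lit 5) (nat_lit 122) (nat_lit 5) (nat_lit 356) (nat_lit 325) (nat_lit 219)) (XT.lf (nat_lit 0) (nat_lit 1449400516) (nat_lit 304) (nat_lit 20392356156) (nat_lit 380) (nat_lit 11938725667) (nat_lit 113) (nat_lit 5) (nat_lit 117) (nat_lit 5) (nat_lit 118) (nat_lit 5) (nat_lit 357) (nat_lit 325) (nat_lit 218))))) (XT.nd (nat_lit 234) (nat_lit 836) (nat_lit 0) (XT.nd (nat_lit 78) (nat_lit 684) (nat_lit 0) (XT.lf (nat_lit 0) (nat_lit 32974778749) (nat_lit 304) (nat_lit 592759829) (nat_lit 380) (nat_lit 1284228097) (nat_lit 113) (nat_lit 5) (nat_lit 117) (nat_lit 5) (nat_lit 118) (nat_lit 5) (nat_lit 358) (nat_lit 325) (nat_lit 217)) (XT.nd (nat_lit 78)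 (nat_lit 304) (nat_lit 0) (XT.lf (nat_lit 0) (nat_lit 10191171268) (nat_lit 380) (nat_lit 5577284946) (nat_lit 76) (nat_lit 20190863844) (nat_lit 108) (nat_lit 5) (nat_lit 113) (nat_lit 5) (nat_lit 109) (nat_lit 5) (nat_lit 359) (nat_lit 325) (nat_lit 216)) (XT.lf (nat_lit 0) (nat_lit 22545153739) (nat_lit 380) (nat_lit 9486081881) (nat_lit 76) (nat_lit 5080695935) (nat_lit 104) (nat_lit 5) (nat_lit 109) (nat_lit 5) (nat_lit 105) (nat_lit 5) (nat_lit 360) (nat_lit 325) (nat_lit 215)))) (XT.nd (nat_lit 78) (nat_lit 608) (nat_lit 0) (XT.lf (nat_lit 0) (nat_lit 24590196036) (nat_lit 228) (nat_lit 11370216813) (nat_lit 304) (nat_lit 2348456393) (nat_lit 101) (nat_lit 5) (nat_lit 104) (nat_lit 5) (nat_lit 105) (nat_lit 5) (nat_lit 361) (nat_lit 325) (nat_lit 214)) (XT.nd (nat_lit 78) (nat_lit 228) (nat_lit 0) (XT.lf (nat_lit 0) (nat_lit 10673165906) (nat_lit 380) (nat_lit 18352121666) (nat_lit 76)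 (nat_lit 10525439451) (nat_lit 96) (nat_lit 5) (nat_lit 101) (nat_lit 5) (nat_lit 97) (nat_lit 5) (nat_lit 362) (nat_lit 325) (nat_lit 213)) (XT.lf (nat_lit 0) (nat_lit 17484578971) (nat_lit 228) (nat_lit 7229198966) (nat_lit 304) (nat_lit 16127710434) (nat_lit 93) (nat_lit 5) (nat_lit 96) (nat_lit 5) (nat_lit 97) (nat_lit 5) (nat_lit 363) (nat_lit 325) (nat_lit 212))))))) (XT.nd (nat_lit 936) (nat_lit 1672) (nat_lit 0) (XT.nd (nat_lit 468) (nat_lit 1064) (nat_lit 0) (XT.nd (nat_lit 234) (nat_lit 456) (nat_lit 0) (XT.nd (nat_lit 78) (nat_lit 532) (nat_lit 0) (XT.lf (nat_lit 0) (nat_lit 13400076807) (nat_lit 228) (nat_lit 26517278210) (nat_lit 304) (nat_lit 2265607201) (nat_lit 90) (nat_lit 5) (nat_lit 93) (nat_lit 5) (nat_lit 94) (nat_lit 5) (nat_lit 364) (nat_lit 325) (nat_lit 211)) (XT.nd (nat_lit 78) (nat_lit 228) (nat_lit 0) (XT.lf (nat_lit 0) (nat_lit 8863892685) (nat_lit 228) (nat_lit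 3577929005) (nat_lit 304) (nat_lit 31134385246) (nat_lit 86) (nat_lit 5) (nat_lit 89) (nat_lit 5) (nat_lit 90) (nat_lit 5) (nat_lit 365) (nat_lit 325) (nat_lit 210)) (XT.lf (nat_lit 0) (nat_lit 3801400819) (nat_lit 228) (nat_lit 24560996150) (nat_lit 304) (nat_lit 16660307203) (nat_lit 83) (nat_lit 5) (nat_lit 86) (nat_lit 5) (nat_lit 87) (nat_lit 5) (nat_lit 366) (nat_lit 325) (nat_lit 209)))) (XT.nd (nat_lit 78) (nat_lit 456) (nat_lit 0) (XT.lf (nat_lit 0) (nat_lit 44915659099) (nat_lit 228) (nat_lit 548003696) (nat_lit 304) (nat_lit 1066325690) (nat_lit 83) (nat_lit 5) (nat_lit 86) (nat_lit 5) (nat_lit 87) (nat_lit 5) (nat_lit 367) (nat_lit 325) (nat_lit 208)) (XT.nd (nat_lit 78) (nat_lit 228) (nat_lit 0) (XT.lf (nat_lit 0) (nat_lit 15633237195) (nat_lit 228) (nat_lit 7734139977) (nat_lit 76) (nat_lit 24722109925) (nat_lit 80) (nat_lit 5) (nat_lit 83) (nat_lit 5) (nat_lit 81) (nat_lit 5)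 (nat_lit 368) (nat_lit 325) (nat_lit 207)) (XT.lf (nat_lit 0) (nat_lit 33518738854) (nat_lit 304) (nat_lit 14342254087) (nat_lit 76) (nat_lit 1854462372) (nat_lit 77) (nat_lit 5) (nat_lit 81) (nat_lit 5) (nat_lit 78) (nat_lit 5) (nat_lit 369) (nat_lit 325) (nat_lit 206))))) (XT.nd (nat_lit 234) (nat_lit 456) (nat_lit 0) (XT.nd (nat_lit 78) (nat_lit 380) (nat_lit 0) (XT.lf (nat_lit 0) (nat_lit 1458719104) (nat_lit 228) (nat_lit 21711773711) (nat_lit 76) (nat_lit 28233977791) (nat_lit 74) (nat_lit 5) (nat_lit 77) (nat_lit 5) (nat_lit 75) (nat_lit 5) (nat_lit 370) (nat_lit 325) (nat_lit 205)) (XT.nd (nat_lit 78) (nat_lit 152) (nat_lit 0) (XT.lf (nat_lit 0) (nat_lit 20062692037) (nat_lit 304) (nat_lit 29860435908) (nat_lit 76) (nat_lit 3237977258) (nat_lit 71) (nat_lit 5) (nat_lit 75) (nat_lit 5) (nat_lit 72) (nat_lit 5) (nat_lit 371) (nat_lit 325) (nat_lit 204)) (XT.lf (nat_lit 0) (nat_lit 16083935657)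 (nat_lit 152) (nat_lit 24119793440) (nat_lit 228) (nat_lit 14783637995) (nat_lit 69) (nat_lit 5) (nat_lit 71) (nat_lit 5) (nat_lit 72) (nat_lit 5) (nat_lit 372) (nat_lit 325) (nat_lit 203)))) (XT.nd (nat_lit 78) (nat_lit 152) (nat_lit 0) (XT.lf (nat_lit 0) (nat_lit 4774567555) (nat_lit 304) (nat_lit 48770087437) (nat_lit 76) (nat_lit 3346572129) (nat_lit 65) (nat_lit 5) (nat_lit 69) (nat_lit 5) (nat_lit 66) (nat_lit 5) (nat_lit 373) (nat_lit 325) (nat_lit 202)) (XT.nd (nat_lit 78) (nat_lit 152) (nat_lit 0) (XT.lf (nat_lit 0) (nat_lit 25648681773) (nat_lit 304) (nat_lit 977007920) (nat_lit 76) (nat_lit 32240888221) (nat_lit 65) (nat_lit 5) (nat_lit 69) (nat_lit 5) (nat_lit 66) (nat_lit 5) (nat_lit 374) (nat_lit 325) (nat_lit 201)) (XT.lf (nat_lit 0) (nat_lit 48062633400) (nat_lit 228) (nat_lit 10773575735) (nat_lit 76) (nat_lit 2089604442) (nat_lit 63) (nat_lit 5) (nat_lit 66) (nat_lit 5) (nat_lit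 64) (nat_lit 5) (nat_lit 375) (nat_lit 325) (nat_lit 200)))))) (XT.nd (nat_lit 468) (nat_lit 760) (nat_lit 0) (XT.nd (nat_lit 234) (nat_lit 380) (nat_lit 0) (XT.nd (nat_lit 78) (nat_lit 304) (nat_lit 0) (XT.lf (nat_lit 0) (nat_lit 9019227404) (nat_lit 228) (nat_lit 21859970152) (nat_lit 76) (nat_lit 32186080690) (nat_lit 60) (nat_lit 5) (nat_lit 63) (nat_lit 5) (nat_lit 61) (nat_lit 5) (nat_lit 376) (nat_lit 325) (nat_lit 199)) (XT.nd (nat_lit 78) (nat_lit 152) (nat_lit 0) (XT.lf (nat_lit 0) (nat_lit 31166040565) (nat_lit 152) (nat_lit 971400750) (nat_lit 228) (nat_lit 33158223728) (nat_lit 58) (nat_lit 5) (nat_lit 60) (nat_lit 5) (nat_lit 61) (nat_lit 5) (nat_lit 377) (nat_lit 325) (nat_lit 198)) (XT.lf (nat_lit 0) (nat_lit 19749060188) (nat_lit 152) (nat_lit 37365940028) (nat_lit 228) (nat_lit 10501469008) (nat_lit 56) (nat_lit 5) (nat_lit 58) (nat_lit 5) (nat_lit 59) (nat_lit 5) (nat_lit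 378) (nat_lit 325) (nat_lit 197)))) (XT.nd (nat_lit 78) (nat_lit 152) (nat_lit 0) (XT.lf (nat_lit 0) (nat_lit 6976526807) (nat_lit 152) (nat_lit 6477918523) (nat_lit 228) (nat_lit 56582268640) (nat_lit 53) (nat_lit 5) (nat_lit 55) (nat_lit 5) (nat_lit 56) (nat_lit 5) (nat_lit 379) (nat_lit 325) (nat_lit 196)) (XT.nd (nat_lit 78) (nat_lit 152) (nat_lit 0) (XT.lf (nat_lit 0) (nat_lit 39134195755) (nat_lit 228) (nat_lit 7371138541) (nat_lit 76) (nat_lit 26047221548) (nat_lit 53) (nat_lit 5) (nat_lit 56) (nat_lit 5) (nat_lit 54) (nat_lit 5) (nat_lit 380) (nat_lit 325) (nat_lit 195)) (XT.lf (nat_lit 0) (nat_lit 52042482745) (nat_lit 152) (nat_lit 14615465842) (nat_lit 228) (nat_lit 8519441680) (nat_lit 51) (nat_lit 5) (nat_lit 53) (nat_lit 5) (nat_lit 54) (nat_lit 5) (nat_lit 381) (nat_lit 325) (nat_lit 194))))) (XT.nd (nat_lit 234) (nat_lit 304) (nat_lit 0) (XT.nd (nat_lit 78) (nat_lit 228) (nat_lit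 0) (XT.lf (nat_lit 0) (nat_lit 17896483440) (nat_lit 228) (nat_lit 40907415609) (nat_lit 76) (nat_lit 19106006391) (nat_lit 48) (nat_lit 5) (nat_lit 51) (nat_lit 5) (nat_lit 49) (nat_lit 5) (nat_lit 382) (nat_lit 325) (nat_lit 193)) (XT.nd (nat_lit 78) (nat_lit 76) (nat_lit 0) (XT.lf (nat_lit 0) (nat_lit 20003081096) (nat_lit 152) (nat_lit 26030494163) (nat_lit 228) (nat_lit 34725644409) (nat_lit 46) (nat_lit 5) (nat_lit 48) (nat_lit 5) (nat_lit 49) (nat_lit 5) (nat_lit 383) (nat_lit 325) (nat_lit 192)) (XT.lf (nat_lit 0) (nat_lit 1000839879) (nat_lit 76) (nat_lit 75086888919) (nat_lit 152) (nat_lit 7647965354) (nat_lit 45) (nat_lit 5) (nat_lit 46) (nat_lit 5) (nat_lit 47) (nat_lit 4) (nat_lit 384) (nat_lit 325) (nat_lit 191)))) (XT.nd (nat_lit 78) (nat_lit 228) (nat_lit 0) (XT.lf (nat_lit 0) (nat_lit 21267242746) (nat_lit 152) (nat_lit 20205009323) (nat_lit 76) (nat_lit 45356071211) (nat_lit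 44) (nat_lit 5) (nat_lit 46) (nat_lit 5) (nat_lit 45) (nat_lit 5) (nat_lit 385) (nat_lit 325) (nat_lit 190)) (XT.nd (nat_lit 78) (nat_lit 76) (nat_lit 0) (XT.lf (nat_lit 0) (nat_lit 46268075120) (nat_lit 152) (nat_lit 5643289602) (nat_lit 228) (nat_lit 38148708381) (nat_lit 42) (nat_lit 5) (nat_lit 44) (nat_lit 5) (nat_lit 45) (nat_lit 5) (nat_lit 386) (nat_lit 325) (nat_lit 189)) (XT.lf (nat_lit 0) (nat_lit 23173864193) (nat_lit 76) (nat_lit 61649236043) (nat_lit 152) (nat_lit 8608248590) (nat_lit 41) (nat_lit 5) (nat_lit 42) (nat_lit 5) (nat_lit 43) (nat_lit 4) (nat_lit 387) (nat_lit 325) (nat_lit 188))))))))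
noncomputable def xc92 : XT := (XT.nd (nat_lit 43680) (nat_lit 0) (nat_lit 3040) (XT.nd (nat_lit 42744) (nat_lit 0) (nat_lit 9956) (XT.nd (nat_lit 42276) (nat_lit 0) (nat_lit 15428) (XT.nd (nat_lit 42042) (nat_lit 0) (nat_lit 16340) (XT.nd (nat_lit 78) (nat_lit 228) (nat_lit 0) (XT.lf (nat_lit 0) (nat_lit 22479481759) (nat_lit 152) (nat_lit 2839964055) (nat_lit 76) (nat_lit 71630054797) (nat_lit 40) (nat_lit 5) (nat_lit 42) (nat_lit 5) (nat_lit 41) (nat_lit 5) (nat_lit 388) (nat_lit 325) (nat_lit 187)) (XT.nd (nat_lit 78) (nat_lit 76) (nat_lit 0) (XT.lf (nat_lit 0) (nat_lit 55736694206) (nat_lit 228) (nat_lit 31548078663) (nat_lit 76) (nat_lit 13332436949) (nat_lit 38) (nat_lit 5) (nat_lit 41) (nat_lit 5) (nat_lit 39) (nat_lit 4) (nat_lit 389) (nat_lit 325) (nat_lit 186)) (XT.lf (nat_lit 0) (nat_lit 40695817878) (nat_lit 76) (nat_lit 50632856724) (nat_lit 152) (nat_lit 13119473192) (nat_lit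 37) (nat_lit 5) (nat_lit 38) (nat_lit 5) (nat_lit 39) (nat_lit 4) (nat_lit 390) (nat_lit 325) (nat_lit 185)))) (XT.nd (nat_lit 78) (nat_lit 0) (nat_lit 0) (XT.lf (nat_lit 0) (nat_lit 2413057456) (nat_lit 0) (nat_lit 2413057456) (nat_lit 1140) (nat_lit 2519854780) (nat_lit 252) (nat_lit 5) (nat_lit 252) (nat_lit 3) (nat_lit 267) (nat_lit 3) (nat_lit 326) (nat_lit 326) (nat_lit 248)) (XT.nd (nat_lit 78) (nat_lit 0) (nat_lit 76) (XT.lf (nat_lit 76) (nat_lit 1817201930) (nat_lit 0) (nat_lit 8655224243) (nat_lit 1216) (nat_lit 4569175871) (nat_lit 253) (nat_lit 5) (nat_lit 252) (nat_lit 5) (nat_lit 268) (nat_lit 5) (nat_lit 327) (nat_lit 326) (nat_lit 247)) (XT.lf (nat_lit 0) (nat_lit 11478116393) (nat_lit 1140) (nat_lit 1208449704) (nat_lit 1216) (nat_lit 2717864441) (nat_lit 253) (nat_lit 5) (nat_lit 268) (nat_lit 5) (nat_lit 269) (nat_lit 5) (nat_lit 328) (nat_lit 326) (nat_lit 246))))) (XT.nd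 (nat_lit 234) (nat_lit 988) (nat_lit 0) (XT.nd (nat_lit 78) (nat_lit 0) (nat_lit 76) (XT.lf (nat_lit 76) (nat_lit 11528224460) (nat_lit 0) (nat_lit 1173741627) (nat_lit 1216) (nat_lit 3078414528) (nat_lit 254) (nat_lit 5) (nat_lit 253) (nat_lit 5) (nat_lit 269) (nat_lit 5) (nat_lit 329) (nat_lit 326) (nat_lit 245)) (XT.nd (nat_lit 78) (nat_lit 0) (nat_lit 76) (XT.lf (nat_lit 76) (nat_lit 8800757275) (nat_lit 0) (nat_lit 5359422563) (nat_lit 1216) (nat_lit 2009768835) (nat_lit 255) (nat_lit 5) (nat_lit 254) (nat_lit 5) (nat_lit 270) (nat_lit 5) (nat_lit 330) (nat_lit 326) (nat_lit 244)) (XT.lf (nat_lit 76) (nat_lit 6039308052) (nat_lit 0) (nat_lit 9803662086) (nat_lit 1216) (nat_lit 731489899) (nat_lit 256) (nat_lit 5) (nat_lit 255) (nat_lit 5) (nat_lit 271) (nat_lit 5) (nat_lit 331) (nat_lit 326) (nat_lit 243)))) (XT.nd (nat_lit 78) (nat_lit 0) (nat_lit 0) (XT.lf (nat_lit 0) (nat_lit 758360277)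 (nat_lit 1216) (nat_lit 13759656223) (nat_lit 1292) (nat_lit 2476230888) (nat_lit 240) (nat_lit 5) (nat_lit 256) (nat_lit 5) (nat_lit 257) (nat_lit 5) (nat_lit 332) (nat_lit 326) (nat_lit 242)) (XT.nd (nat_lit 78) (nat_lit 0) (nat_lit 76) (XT.lf (nat_lit 76) (nat_lit 361937275) (nat_lit 0) (nat_lit 2132164147) (nat_lit 1292) (nat_lit 14935122710) (nat_lit 241) (nat_lit 5) (nat_lit 240) (nat_lit 5) (nat_lit 257) (nat_lit 5) (nat_lit 333) (nat_lit 326) (nat_lit 241)) (XT.lf (nat_lit 0) (nat_lit 4539725619) (nat_lit 1216) (nat_lit 2529661113) (nat_lit 1292) (nat_lit 10809882582) (nat_lit 241) (nat_lit 5) (nat_lit 257) (nat_lit 5) (nat_lit 258) (nat_lit 5) (nat_lit 334) (nat_lit 326) (nat_lit 240)))))) (XT.nd (nat_lit 468) (nat_lit 3192) (nat_lit 0) (XT.nd (nat_lit 234) (nat_lit 1292) (nat_lit 0) (XT.nd (nat_lit 78) (nat_lit 1140) (nat_lit 0) (XT.lf (nat_lit 0) (nat_lit 6869306637) (nat_lit 1216)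 (nat_lit 5459436460) (nat_lit 1292) (nat_lit 6017635276) (nat_lit 242) (nat_lit 5) (nat_lit 258) (nat_lit 5) (nat_lit 259) (nat_lit 5) (nat_lit 335) (nat_lit 326) (nat_lit 239)) (XT.nd (nat_lit 78) (nat_lit 1216) (nat_lit 0) (XT.lf (nat_lit 0) (nat_lit 9499489852) (nat_lit 1216) (nat_lit 8436263800) (nat_lit 76) (nat_lit 895576857) (nat_lit 243) (nat_lit 5) (nat_lit 259) (nat_lit 5) (nat_lit 244) (nat_lit 5) (nat_lit 336) (nat_lit 326) (nat_lit 238)) (XT.lf (nat_lit 0) (nat_lit 7826635449) (nat_lit 1216) (nat_lit 4669579289) (nat_lit 1292) (nat_lit 6837275321) (nat_lit 227) (nat_lit 5) (nat_lit 243) (nat_lit 5) (nat_lit 244) (nat_lit 5) (nat_lit 337) (nat_lit 326) (nat_lit 237)))) (XT.nd (nat_lit 78) (nat_lit 684) (nat_lit 0) (XT.lf (nat_lit 0) (nat_lit 5213941442) (nat_lit 608) (nat_lit 10635142607) (nat_lit 684) (nat_lit 4005494558) (nat_lit 219) (nat_lit 5) (nat_lit 227) (nat_lit 5) (nat_lit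 228) (nat_lit 5) (nat_lit 338) (nat_lit 326) (nat_lit 236)) (XT.nd (nat_lit 78) (nat_lit 76) (nat_lit 0) (XT.lf (nat_lit 0) (nat_lit 2564660298) (nat_lit 608) (nat_lit 17007957931) (nat_lit 684) (nat_lit 823022492) (nat_lit 211) (nat_lit 5) (nat_lit 219) (nat_lit 5) (nat_lit 220) (nat_lit 5) (nat_lit 339) (nat_lit 326) (nat_lit 235)) (XT.lf (nat_lit 0) (nat_lit 2709830433) (nat_lit 684) (nat_lit 174790047) (nat_lit 76) (nat_lit 18071206088) (nat_lit 210) (nat_lit 5) (nat_lit 219) (nat_lit 5) (nat_lit 211) (nat_lit 5) (nat_lit 340) (nat_lit 326) (nat_lit 234))))) (XT.nd (nat_lit 234) (nat_lit 1520) (nat_lit 0) (XT.nd (nat_lit 78) (nat_lit 1064) (nat_lit 0) (XT.lf (nat_lit 0) (nat_lit 6680703973) (nat_lit 684) (nat_lit 2952544870) (nat_lit 76) (nat_lit 11902185033) (nat_lit 202) (nat_lit 5) (nat_lit 211) (nat_lit 5) (nat_lit 203) (nat_lit 5) (nat_lit 341) (nat_lit 326) (nat_lit 233)) (XT.nd (nat_lit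 78) (nat_lit 532) (nat_lit 0) (XT.lf (nat_lit 0) (nat_lit 11073095779) (nat_lit 608) (nat_lit 5779274253) (nat_lit 76) (nat_lit 5284970481) (nat_lit 195) (nat_lit 5) (nat_lit 203) (nat_lit 5) (nat_lit 196) (nat_lit 5) (nat_lit 342) (nat_lit 326) (nat_lit 232)) (XT.lf (nat_lit 0) (nat_lit 14087018861) (nat_lit 532) (nat_lit 1844562982) (nat_lit 608) (nat_lit 6830374210) (nat_lit 188) (nat_lit 5) (nat_lit 195) (nat_lit 5) (nat_lit 196) (nat_lit 5) (nat_lit 343) (nat_lit 326) (nat_lit 231)))) (XT.nd (nat_lit 78) (nat_lit 1064) (nat_lit 0) (XT.lf (nat_lit 0) (nat_lit 11728113200) (nat_lit 456) (nat_lit 9595207228) (nat_lit 532) (nat_lit 2085779534) (nat_lit 182) (nat_lit 5) (nat_lit 188) (nat_lit 5) (nat_lit 189) (nat_lit 5) (nat_lit 344) (nat_lit 326) (nat_lit 230)) (XT.nd (nat_lit 78) (nat_lit 456) (nat_lit 0) (XT.lf (nat_lit 0) (nat_lit 3083522457) (nat_lit 608) (nat_lit 14778774628) (nat_lit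 76) (nat_lit 6218156007) (nat_lit 174) (nat_lit 5) (nat_lit 182) (nat_lit 5) (nat_lit 175) (nat_lit 5) (nat_lit 345) (nat_lit 326) (nat_lit 229)) (XT.lf (nat_lit 0) (nat_lit 6791710547) (nat_lit 456) (nat_lit 1945189125) (nat_lit 532) (nat_lit 16039798802) (nat_lit 168) (nat_lit 5) (nat_lit 174) (nat_lit 5) (nat_lit 175) (nat_lit 5) (nat_lit 346) (nat_lit 326) (nat_lit 228))))))) (XT.nd (nat_lit 936) (nat_lit 2736) (nat_lit 0) (XT.nd (nat_lit 468) (nat_lit 2052) (nat_lit 0) (XT.nd (nat_lit 234) (nat_lit 1216) (nat_lit 0) (XT.nd (nat_lit 78) (nat_lit 456) (nat_lit 0) (XT.lf (nat_lit 0) (nat_lit 4166746068) (nat_lit 456) (nat_lit 10827166306) (nat_lit 532) (nat_lit 10504220990) (nat_lit 162) (nat_lit 5) (nat_lit 168) (nat_lit 5) (nat_lit 169) (nat_lit 5) (nat_lit 347) (nat_lit 326) (nat_lit 227)) (XT.nd (nat_lit 78) (nat_lit 76) (nat_lit 0) (XT.lf (nat_lit 0) (nat_lit 1486206445) (nat_lit 380)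 (nat_lit 20340066502) (nat_lit 456) (nat_lit 4421498076) (nat_lit 157) (nat_lit 5) (nat_lit 162) (nat_lit 5) (nat_lit 163) (nat_lit 5) (nat_lit 348) (nat_lit 326) (nat_lit 226)) (XT.lf (nat_lit 0) (nat_lit 2244249853) (nat_lit 456) (nat_lit 1285352592) (nat_lit 76) (nat_lit 23495209642) (nat_lit 156) (nat_lit 5) (nat_lit 162) (nat_lit 5) (nat_lit 157) (nat_lit 5) (nat_lit 349) (nat_lit 326) (nat_lit 225)))) (XT.nd (nat_lit 78) (nat_lit 760) (nat_lit 0) (XT.lf (nat_lit 0) (nat_lit 9506430617) (nat_lit 532) (nat_lit 4203825067) (nat_lit 76) (nat_lit 14118503772) (nat_lit 150) (nat_lit 5) (nat_lit 157) (nat_lit 5) (nat_lit 151) (nat_lit 5) (nat_lit 350) (nat_lit 326) (nat_lit 224)) (XT.nd (nat_lit 78) (nat_lit 380) (nat_lit 0) (XT.lf (nat_lit 0) (nat_lit 17414383459) (nat_lit 456) (nat_lit 7202588066) (nat_lit 76) (nat_lit 4047457761) (nat_lit 145) (nat_lit 5) (nat_lit 151) (nat_lit 5) (nat_lit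 146) (nat_lit 5) (nat_lit 351) (nat_lit 326) (nat_lit 223)) (XT.lf (nat_lit 0) (nat_lit 19177375351) (nat_lit 380) (nat_lit 6894504306) (nat_lit 456) (nat_lit 3459383325) (nat_lit 140) (nat_lit 5) (nat_lit 145) (nat_lit 5) (nat_lit 146) (nat_lit 5) (nat_lit 352) (nat_lit 326) (nat_lit 222))))) (XT.nd (nat_lit 234) (nat_lit 988) (nat_lit 0) (XT.nd (nat_lit 78) (nat_lit 684) (nat_lit 0) (XT.lf (nat_lit 0) (nat_lit 4968977025) (nat_lit 380) (nat_lit 13694149030) (nat_lit 76) (nat_lit 11766746771) (nat_lit 135) (nat_lit 5) (nat_lit 140) (nat_lit 5) (nat_lit 136) (nat_lit 5) (nat_lit 353) (nat_lit 326) (nat_lit 221)) (XT.nd (nat_lit 78) (nat_lit 304) (nat_lit 0) (XT.lf (nat_lit 0) (nat_lit 14051102117) (nat_lit 456) (nat_lit 17183167920) (nat_lit 76) (nat_lit 129003003) (nat_lit 130) (nat_lit 5) (nat_lit 136) (nat_lit 5) (nat_lit 131) (nat_lit 5) (nat_lit 354) (nat_lit 326) (nat_lit 220)) (XT.lf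 (nat_lit 0) (nat_lit 11412478540) (nat_lit 304) (nat_lit 12604075029) (nat_lit 380) (nat_lit 8313917073) (nat_lit 126) (nat_lit 5) (nat_lit 130) (nat_lit 5) (nat_lit 131) (nat_lit 5) (nat_lit 355) (nat_lit 326) (nat_lit 219)))) (XT.nd (nat_lit 78) (nat_lit 608) (nat_lit 0) (XT.lf (nat_lit 0) (nat_lit 1431974263) (nat_lit 380) (nat_lit 24811733470) (nat_lit 76) (nat_lit 7092401235) (nat_lit 121) (nat_lit 5) (nat_lit 126) (nat_lit 5) (nat_lit 122) (nat_lit 5) (nat_lit 356) (nat_lit 326) (nat_lit 218)) (XT.nd (nat_lit 78) (nat_lit 304) (nat_lit 0) (XT.lf (nat_lit 0) (nat_lit 5366686244) (nat_lit 304) (nat_lit 6513789648) (nat_lit 380) (nat_lit 22497469535) (nat_lit 117) (nat_lit 5) (nat_lit 121) (nat_lit 5) (nat_lit 122) (nat_lit 5) (nat_lit 357) (nat_lit 326) (nat_lit 217)) (XT.lf (nat_lit 0) (nat_lit 1993124499) (nat_lit 304) (nat_lit 21261618932) (nat_lit 380) (nat_lit 12205033391) (nat_lit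 113) (nat_lit 5) (nat_lit 117) (nat_lit 5) (nat_lit 118) (nat_lit 5) (nat_lit 358) (nat_lit 326) (nat_lit 216)))))) (XT.nd (nat_lit 468) (nat_lit 1216) (nat_lit 0) (XT.nd (nat_lit 234) (nat_lit 836) (nat_lit 0) (XT.nd (nat_lit 78) (nat_lit 684) (nat_lit 0) (XT.lf (nat_lit 0) (nat_lit 35072330979) (nat_lit 304) (nat_lit 479202553) (nat_lit 380) (nat_lit 1033555159) (nat_lit 113) (nat_lit 5) (nat_lit 117) (nat_lit 5) (nat_lit 118) (nat_lit 5) (nat_lit 359) (nat_lit 326) (nat_lit 215)) (XT.nd (nat_lit 78) (nat_lit 304) (nat_lit 0) (XT.lf (nat_lit 0) (nat_lit 11000398152) (nat_lit 380) (nat_lit 5406482972) (nat_lit 76) (nat_lit 21341324479) (nat_lit 108) (nat_lit 5) (nat_lit 113) (nat_lit 5) (nat_lit 109) (nat_lit 5) (nat_lit 360) (nat_lit 326) (nat_lit 214)) (XT.lf (nat_lit 0) (nat_lit 23963423172) (nat_lit 380) (nat_lit 9516250115) (nat_lit 76) (nat_lit 5479038391) (nat_lit 104) (nat_lit 5) (nat_lit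 109) (nat_lit 5) (nat_lit 105) (nat_lit 5) (nat_lit 361) (nat_lit 326) (nat_lit 213)))) (XT.nd (nat_lit 78) (nat_lit 608) (nat_lit 0) (XT.lf (nat_lit 0) (nat_lit 26251110633) (nat_lit 228) (nat_lit 11788623829) (nat_lit 304) (nat_lit 2176057211) (nat_lit 101) (nat_lit 5) (nat_lit 104) (nat_lit 5) (nat_lit 105) (nat_lit 5) (nat_lit 362) (nat_lit 326) (nat_lit 212)) (XT.nd (nat_lit 78) (nat_lit 228) (nat_lit 0) (XT.lf (nat_lit 0) (nat_lit 11482981460) (nat_lit 380) (nat_lit 18838241943) (nat_lit 76) (nat_lit 11198679430) (nat_lit 96) (nat_lit 5) (nat_lit 101) (nat_lit 5) (nat_lit 97) (nat_lit 5) (nat_lit 363) (nat_lit 326) (nat_lit 211)) (XT.lf (nat_lit 0) (nat_lit 18777925272) (nat_lit 228) (nat_lit 7438577288) (nat_lit 304) (nat_lit 16658976945) (nat_lit 93) (nat_lit 5) (nat_lit 96) (nat_lit 5) (nat_lit 97) (nat_lit 5) (nat_lit 364) (nat_lit 326) (nat_lit 210))))) (XT.nd (nat_lit 234) (nat_lit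 456) (nat_lit 0) (XT.nd (nat_lit 78) (nat_lit 532) (nat_lit 0) (XT.lf (nat_lit 0) (nat_lit 14483615667) (nat_lit 228) (nat_lit 27689294279) (nat_lit 304) (nat_lit 2111340994) (nat_lit 90) (nat_lit 5) (nat_lit 93) (nat_lit 5) (nat_lit 94) (nat_lit 5) (nat_lit 365) (nat_lit 326) (nat_lit 209)) (XT.nd (nat_lit 78) (nat_lit 228) (nat_lit 0) (XT.lf (nat_lit 0) (nat_lit 9713904441) (nat_lit 228) (nat_lit 3603752975) (nat_lit 304) (nat_lit 32429683936) (nat_lit 86) (nat_lit 5) (nat_lit 89) (nat_lit 5) (nat_lit 90) (nat_lit 5) (nat_lit 366) (nat_lit 326) (nat_lit 208)) (XT.lf (nat_lit 0) (nat_lit 4392653304) (nat_lit 228) (nat_lit 25634782846) (nat_lit 304) (nat_lit 17238935088) (nat_lit 83) (nat_lit 5) (nat_lit 86) (nat_lit 5) (nat_lit 87) (nat_lit 5) (nat_lit 367) (nat_lit 326) (nat_lit 207)))) (XT.nd (nat_lit 78) (nat_lit 456) (nat_lit 0) (XT.lf (nat_lit 0) (nat_lit 47543520572) (nat_lit 228) (nat_lit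 428486632) (nat_lit 304) (nat_lit 877368188) (nat_lit 83) (nat_lit 5) (nat_lit 86) (nat_lit 5) (nat_lit 87) (nat_lit 5) (nat_lit 368) (nat_lit 326) (nat_lit 206)) (XT.nd (nat_lit 78) (nat_lit 228) (nat_lit 0) (XT.lf (nat_lit 0) (nat_lit 16646148376) (nat_lit 228) (nat_lit 7739528153) (nat_lit 76) (nat_lit 26101294111) (nat_lit 80) (nat_lit 5) (nat_lit 83) (nat_lit 5) (nat_lit 81) (nat_lit 5) (nat_lit 369) (nat_lit 326) (nat_lit 205)) (XT.lf (nat_lit 0) (nat_lit 35419882764) (nat_lit 304) (nat_lit 14683622785) (nat_lit 76) (nat_lit 2090915529) (nat_lit 77) (nat_lit 5) (nat_lit 81) (nat_lit 5) (nat_lit 78) (nat_lit 5) (nat_lit 370) (nat_lit 326) (nat_lit 204))))))))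
noncomputable def xc93 : XT := (XT.nd (nat_lit 43758) (nat_lit 0) (nat_lit 7372) (XT.nd (nat_lit 936) (nat_lit 988) (nat_lit 0) (XT.nd (nat_lit 468) (nat_lit 912) (nat_lit 0) (XT.nd (nat_lit 234) (nat_lit 456) (nat_lit 0) (XT.nd (nat_lit 78) (nat_lit 380) (nat_lit 0) (XT.lf (nat_lit 0) (nat_lit 1751851990) (nat_lit 228) (nat_lit 22427959701) (nat_lit 76) (nat_lit 29788229572) (nat_lit 74) (nat_lit 5) (nat_lit 77) (nat_lit 5) (nat_lit 75) (nat_lit 5) (nat_lit 371) (nat_lit 326) (nat_lit 203)) (XT.nd (nat_lit 78) (nat_lit 152) (nat_lit 0) (XT.lf (nat_lit 0) (nat_lit 21280387250) (nat_lit 304) (nat_lit 30989604426) (nat_lit 76) (nat_lit 3542687240) (nat_lit 71) (nat_lit 5) (nat_lit 75) (nat_lit 5) (nat_lit 72) (nat_lit 5) (nat_lit 372) (nat_lit 326) (nat_lit 202)) (XT.lf (nat_lit 0) (nat_lit 17241555936) (nat_lit 152) (nat_lit 25180100378) (nat_lit 228) (nat_lit 15308804312) (nat_lit 69) (nat_lit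 5) (nat_lit 71) (nat_lit 5) (nat_lit 72) (nat_lit 5) (nat_lit 373) (nat_lit 326) (nat_lit 201)))) (XT.nd (nat_lit 78) (nat_lit 152) (nat_lit 0) (XT.lf (nat_lit 0) (nat_lit 5217868436) (nat_lit 304) (nat_lit 50856453638) (nat_lit 76) (nat_lit 3655289838) (nat_lit 65) (nat_lit 5) (nat_lit 69) (nat_lit 5) (nat_lit 66) (nat_lit 5) (nat_lit 374) (nat_lit 326) (nat_lit 200)) (XT.nd (nat_lit 78) (nat_lit 152) (nat_lit 0) (XT.lf (nat_lit 0) (nat_lit 27125946818) (nat_lit 304) (nat_lit 690488630) (nat_lit 76) (nat_lit 33987588920) (nat_lit 65) (nat_lit 5) (nat_lit 69) (nat_lit 5) (nat_lit 66) (nat_lit 5) (nat_lit 375) (nat_lit 326) (nat_lit 199)) (XT.lf (nat_lit 0) (nat_lit 50655767348) (nat_lit 228) (nat_lit 10982119491) (nat_lit 76) (nat_lit 2328481621) (nat_lit 63) (nat_lit 5) (nat_lit 66) (nat_lit 5) (nat_lit 64) (nat_lit 5) (nat_lit 376) (nat_lit 326) (nat_lit 198))))) (XT.nd (nat_lit 234) (nat_lit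 380) (nat_lit 0) (XT.nd (nat_lit 78) (nat_lit 304) (nat_lit 0) (XT.lf (nat_lit 0) (nat_lit 9656081329) (nat_lit 228) (nat_lit 22628564223) (nat_lit 76) (nat_lit 33928286795) (nat_lit 60) (nat_lit 5) (nat_lit 63) (nat_lit 5) (nat_lit 61) (nat_lit 5) (nat_lit 377) (nat_lit 326) (nat_lit 197)) (XT.nd (nat_lit 78) (nat_lit 152) (nat_lit 0) (XT.lf (nat_lit 0) (nat_lit 33039448042) (nat_lit 152) (nat_lit 884934853) (nat_lit 228) (nat_lit 34630631853) (nat_lit 58) (nat_lit 5) (nat_lit 60) (nat_lit 5) (nat_lit 61) (nat_lit 5) (nat_lit 378) (nat_lit 326) (nat_lit 196)) (XT.lf (nat_lit 0) (nat_lit 21046603167) (nat_lit 152) (nat_lit 39099858846) (nat_lit 228) (nat_lit 10845529355) (nat_lit 56) (nat_lit 5) (nat_lit 58) (nat_lit 5) (nat_lit 59) (nat_lit 5) (nat_lit 379) (nat_lit 326) (nat_lit 195)))) (XT.nd (nat_lit 78) (nat_lit 152) (nat_lit 0) (XT.lf (nat_lit 0) (nat_lit 7630013674) (nat_lit 152) (nat_lit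 6669111920) (nat_lit 228) (nat_lit 59234237629) (nat_lit 53) (nat_lit 5) (nat_lit 55) (nat_lit 5) (nat_lit 56) (nat_lit 5) (nat_lit 380) (nat_lit 326) (nat_lit 194)) (XT.nd (nat_lit 78) (nat_lit 152) (nat_lit 0) (XT.lf (nat_lit 0) (nat_lit 41255889939) (nat_lit 228) (nat_lit 7445817989) (nat_lit 76) (nat_lit 27473499791) (nat_lit 53) (nat_lit 5) (nat_lit 56) (nat_lit 5) (nat_lit 54) (nat_lit 5) (nat_lit 381) (nat_lit 326) (nat_lit 193)) (XT.lf (nat_lit 0) (nat_lit 54930060423) (nat_lit 152) (nat_lit 15220657544) (nat_lit 228) (nat_lit 8780720525) (nat_lit 51) (nat_lit 5) (nat_lit 53) (nat_lit 5) (nat_lit 54) (nat_lit 5) (nat_lit 382) (nat_lit 326) (nat_lit 192)))))) (XT.nd (nat_lit 468) (nat_lit 228) (nat_lit 0) (XT.nd (nat_lit 234) (nat_lit 304) (nat_lit 0) (XT.nd (nat_lit 78) (nat_lit 228) (nat_lit 0) (XT.lf (nat_lit 0) (nat_lit 18948984426) (nat_lit 228) (nat_lit 42668843481) (nat_lit 76)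 (nat_lit 20182819264) (nat_lit 48) (nat_lit 5) (nat_lit 51) (nat_lit 5) (nat_lit 49) (nat_lit 5) (nat_lit 383) (nat_lit 326) (nat_lit 191)) (XT.nd (nat_lit 78) (nat_lit 76) (nat_lit 0) (XT.lf (nat_lit 0) (nat_lit 21279038894) (nat_lit 152) (nat_lit 27209034718) (nat_lit 228) (nat_lit 36304500324) (nat_lit 46) (nat_lit 5) (nat_lit 48) (nat_lit 5) (nat_lit 49) (nat_lit 5) (nat_lit 384) (nat_lit 326) (nat_lit 190)) (XT.lf (nat_lit 0) (nat_lit 1322106112) (nat_lit 76) (nat_lit 78719284670) (nat_lit 152) (nat_lit 7876588737) (nat_lit 45) (nat_lit 5) (nat_lit 46) (nat_lit 5) (nat_lit 47) (nat_lit 4) (nat_lit 385) (nat_lit 326) (nat_lit 189)))) (XT.nd (nat_lit 78) (nat_lit 228) (nat_lit 0) (XT.lf (nat_lit 0) (nat_lit 22474199343) (nat_lit 152) (nat_lit 20954073693) (nat_lit 76) (nat_lit 47737139087) (nat_lit 44) (nat_lit 5) (nat_lit 46) (nat_lit 5) (nat_lit 45) (nat_lit 5) (nat_lit 386) (nat_lit 326)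 (nat_lit 188)) (XT.nd (nat_lit 78) (nat_lit 76) (nat_lit 0) (XT.lf (nat_lit 0) (nat_lit 48835178126) (nat_lit 152) (nat_lit 5810950173) (nat_lit 228) (nat_lit 39912754039) (nat_lit 42) (nat_lit 5) (nat_lit 44) (nat_lit 5) (nat_lit 45) (nat_lit 5) (nat_lit 387) (nat_lit 326) (nat_lit 187)) (XT.lf (nat_lit 0) (nat_lit 24581989471) (nat_lit 76) (nat_lit 64618278730) (nat_lit 152) (nat_lit 8898550003) (nat_lit 41) (nat_lit 5) (nat_lit 42) (nat_lit 5) (nat_lit 43) (nat_lit 4) (nat_lit 388) (nat_lit 326) (nat_lit 186))))) (XT.nd (nat_lit 42120) (nat_lit 0) (nat_lit 16264) (XT.nd (nat_lit 78) (nat_lit 152) (nat_lit 0) (XT.lf (nat_lit 0) (nat_lit 23734291035) (nat_lit 152) (nat_lit 2741787687) (nat_lit 76) (nat_lit 75316955522) (nat_lit 40) (nat_lit 5) (nat_lit 42) (nat_lit 5) (nat_lit 41) (nat_lit 5) (nat_lit 389) (nat_lit 326) (nat_lit 185)) (XT.nd (nat_lit 41964) (nat_lit 0) (nat_lit 16264) (XT.lf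 (nat_lit 0) (nat_lit 58651399574) (nat_lit 228) (nat_lit 32889394782) (nat_lit 76) (nat_lit 14103424267) (nat_lit 38) (nat_lit 5) (nat_lit 41) (nat_lit 5) (nat_lit 39) (nat_lit 4) (nat_lit 390) (nat_lit 326) (nat_lit 184)) (XT.lf (nat_lit 0) (nat_lit 2779306200) (nat_lit 0) (nat_lit 2779306200) (nat_lit 1140) (nat_lit 2139655117) (nat_lit 252) (nat_lit 5) (nat_lit 252) (nat_lit 3) (nat_lit 267) (nat_lit 3) (nat_lit 327) (nat_lit 327) (nat_lit 246)))) (XT.nd (nat_lit 78) (nat_lit 0) (nat_lit 76) (XT.lf (nat_lit 76) (nat_lit 2418901486) (nat_lit 0) (nat_lit 9513163019) (nat_lit 1216) (nat_lit 3833032543) (nat_lit 253) (nat_lit 5) (nat_lit 252) (nat_lit 5) (nat_lit 268) (nat_lit 5) (nat_lit 328) (nat_lit 327) (nat_lit 245)) (XT.nd (nat_lit 78) (nat_lit 0) (nat_lit 0) (XT.lf (nat_lit 0) (nat_lit 12939574552) (nat_lit 1140) (nat_lit 751242072) (nat_lit 1216) (nat_lit 2456728312) (nat_lit 253) (nat_lit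 5) (nat_lit 268) (nat_lit 5) (nat_lit 269) (nat_lit 5) (nat_lit 329) (nat_lit 327) (nat_lit 244)) (XT.lf (nat_lit 76) (nat_lit 12607428038) (nat_lit 0) (nat_lit 1579757443) (nat_lit 1216) (nat_lit 2356252856) (nat_lit 254) (nat_lit 5) (nat_lit 253) (nat_lit 5) (nat_lit 269) (nat_lit 5) (nat_lit 330) (nat_lit 327) (nat_lit 243))))))) (XT.nd (nat_lit 936) (nat_lit 5092) (nat_lit 0) (XT.nd (nat_lit 468) (nat_lit 2812) (nat_lit 0) (XT.nd (nat_lit 234) (nat_lit 0) (nat_lit 76) (XT.nd (nat_lit 78) (nat_lit 1140) (nat_lit 0) (XT.lf (nat_lit 76) (nat_lit 9757635216) (nat_lit 0) (nat_lit 5921981181) (nat_lit 1216) (nat_lit 1274051000) (nat_lit 255) (nat_lit 5) (nat_lit 254) (nat_lit 5) (nat_lit 270) (nat_lit 5) (nat_lit 331) (nat_lit 327) (nat_lit 242)) (XT.nd (nat_lit 78) (nat_lit 0) (nat_lit 76) (XT.lf (nat_lit 0) (nat_lit 30180152) (nat_lit 1216) (nat_lit 10509691124) (nat_lit 1292) (nat_lit 6839632517)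 (nat_lit 239) (nat_lit 5) (nat_lit 255) (nat_lit 5) (nat_lit 256) (nat_lit 5) (nat_lit 332) (nat_lit 327) (nat_lit 241)) (XT.lf (nat_lit 0) (nat_lit 1545192005) (nat_lit 1216) (nat_lit 13893373701) (nat_lit 1292) (nat_lit 2382542798) (nat_lit 240) (nat_lit 5) (nat_lit 256) (nat_lit 5) (nat_lit 257) (nat_lit 5) (nat_lit 333) (nat_lit 327) (nat_lit 240)))) (XT.nd (nat_lit 78) (nat_lit 0) (nat_lit 76) (XT.lf (nat_lit 76) (nat_lit 918411568) (nat_lit 0) (nat_lit 2418821296) (nat_lit 1292) (nat_lit 14941534120) (nat_lit 241) (nat_lit 5) (nat_lit 240) (nat_lit 5) (nat_lit 257) (nat_lit 5) (nat_lit 334) (nat_lit 327) (nat_lit 239)) (XT.nd (nat_lit 78) (nat_lit 0) (nat_lit 76) (XT.lf (nat_lit 0) (nat_lit 5449279167) (nat_lit 1216) (nat_lit 2120880811) (nat_lit 1292) (nat_lit 11182247628) (nat_lit 241) (nat_lit 5) (nat_lit 257) (nat_lit 5) (nat_lit 258) (nat_lit 5) (nat_lit 335) (nat_lit 327) (nat_lit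 238)) (XT.lf (nat_lit 0) (nat_lit 7866534757) (nat_lit 1216) (nat_lit 5191205645) (nat_lit 1292) (nat_lit 6186012428) (nat_lit 242) (nat_lit 5) (nat_lit 258) (nat_lit 5) (nat_lit 259) (nat_lit 5) (nat_lit 336) (nat_lit 327) (nat_lit 237))))) (XT.nd (nat_lit 234) (nat_lit 1292) (nat_lit 0) (XT.nd (nat_lit 78) (nat_lit 1824) (nat_lit 0) (XT.lf (nat_lit 0) (nat_lit 10601168377) (nat_lit 1216) (nat_lit 8312261054) (nat_lit 76) (nat_lit 840350696) (nat_lit 243) (nat_lit 5) (nat_lit 259) (nat_lit 5) (nat_lit 244) (nat_lit 5) (nat_lit 337) (nat_lit 327) (nat_lit 236)) (XT.nd (nat_lit 78) (nat_lit 608) (nat_lit 0) (XT.lf (nat_lit 0) (nat_lit 8748137454) (nat_lit 1216) (nat_lit 4974845325) (nat_lit 1292) (nat_lit 6558822314) (nat_lit 227) (nat_lit 5) (nat_lit 243) (nat_lit 5) (nat_lit 244) (nat_lit 5) (nat_lit 338) (nat_lit 327) (nat_lit 235)) (XT.lf (nat_lit 0) (nat_lit 6008115003) (nat_lit 608) (nat_lit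 11211186820) (nat_lit 684) (nat_lit 3610386379) (nat_lit 219) (nat_lit 5) (nat_lit 227) (nat_lit 5) (nat_lit 228) (nat_lit 5) (nat_lit 339) (nat_lit 327) (nat_lit 234)))) (XT.nd (nat_lit 78) (nat_lit 684) (nat_lit 0) (XT.lf (nat_lit 0) (nat_lit 3228605598) (nat_lit 608) (nat_lit 17877638715) (nat_lit 684) (nat_lit 292255800) (nat_lit 211) (nat_lit 5) (nat_lit 219) (nat_lit 5) (nat_lit 220) (nat_lit 5) (nat_lit 340) (nat_lit 327) (nat_lit 233)) (XT.nd (nat_lit 78) (nat_lit 0) (nat_lit 0) (XT.lf (nat_lit 0) (nat_lit 344271576) (nat_lit 608) (nat_lit 3038414622) (nat_lit 684) (nat_lit 18604558538) (nat_lit 202) (nat_lit 5) (nat_lit 210) (nat_lit 5) (nat_lit 211) (nat_lit 5) (nat_lit 341) (nat_lit 327) (nat_lit 232)) (XT.lf (nat_lit 0) (nat_lit 7528157688) (nat_lit 684) (nat_lit 2578310233) (nat_lit 76) (nat_lit 12490094873) (nat_lit 202) (nat_lit 5) (nat_lit 211) (nat_lit 5) (nat_lit 203) (nat_lit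 5) (nat_lit 342) (nat_lit 327) (nat_lit 231)))))) (XT.nd (nat_lit 468) (nat_lit 2052) (nat_lit 0) (XT.nd (nat_lit 234) (nat_lit 1520) (nat_lit 0) (XT.nd (nat_lit 78) (nat_lit 988) (nat_lit 0) (XT.lf (nat_lit 0) (nat_lit 12120718786) (nat_lit 608) (nat_lit 5546416630) (nat_lit 76) (nat_lit 5562024295) (nat_lit 195) (nat_lit 5) (nat_lit 203) (nat_lit 5) (nat_lit 196) (nat_lit 5) (nat_lit 343) (nat_lit 327) (nat_lit 230)) (XT.nd (nat_lit 78) (nat_lit 456) (nat_lit 0) (XT.lf (nat_lit 0) (nat_lit 15298233236) (nat_lit 532) (nat_lit 1905245903) (nat_lit 608) (nat_lit 6682097283) (nat_lit 188) (nat_lit 5) (nat_lit 195) (nat_lit 5) (nat_lit 196) (nat_lit 5) (nat_lit 344) (nat_lit 327) (nat_lit 229)) (XT.lf (nat_lit 0) (nat_lit 12820621054) (nat_lit 456) (nat_lit 10026703154) (nat_lit 532) (nat_lit 1718288106) (nat_lit 182) (nat_lit 5) (nat_lit 188) (nat_lit 5) (nat_lit 189) (nat_lit 5) (nat_lit 345)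 (nat_lit 327) (nat_lit 228)))) (XT.nd (nat_lit 78) (nat_lit 912) (nat_lit 0) (XT.lf (nat_lit 0) (nat_lit 3683591128) (nat_lit 608) (nat_lit 15003960139) (nat_lit 76) (nat_lit 6583355830) (nat_lit 174) (nat_lit 5) (nat_lit 182) (nat_lit 5) (nat_lit 175) (nat_lit 5) (nat_lit 346) (nat_lit 327) (nat_lit 227)) (XT.nd (nat_lit 78) (nat_lit 456) (nat_lit 0) (XT.lf (nat_lit 0) (nat_lit 7630322662) (nat_lit 456) (nat_lit 1972878512) (nat_lit 532) (nat_lit 16399265790) (nat_lit 168) (nat_lit 5) (nat_lit 174) (nat_lit 5) (nat_lit 175) (nat_lit 5) (nat_lit 347) (nat_lit 327) (nat_lit 226)) (XT.lf (nat_lit 0) (nat_lit 4871847769) (nat_lit 456) (nat_lit 11286178540) (nat_lit 532) (nat_lit 10602407138) (nat_lit 162) (nat_lit 5) (nat_lit 168) (nat_lit 5) (nat_lit 169) (nat_lit 5) (nat_lit 348) (nat_lit 327) (nat_lit 225))))) (XT.nd (nat_lit 234) (nat_lit 1140) (nat_lit 0) (XT.nd (nat_lit 78) (nat_lit 532)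 (nat_lit 0) (XT.lf (nat_lit 0) (nat_lit 2054517861) (nat_lit 380) (nat_lit 21263255352) (nat_lit 456) (nat_lit 4230215014) (nat_lit 157) (nat_lit 5) (nat_lit 162) (nat_lit 5) (nat_lit 163) (nat_lit 5) (nat_lit 349) (nat_lit 327) (nat_lit 224)) (XT.nd (nat_lit 78) (nat_lit 456) (nat_lit 0) (XT.lf (nat_lit 0) (nat_lit 2741520800) (nat_lit 456) (nat_lit 871326313) (nat_lit 76) (nat_lit 24751500567) (nat_lit 156) (nat_lit 5) (nat_lit 162) (nat_lit 5) (nat_lit 157) (nat_lit 5) (nat_lit 350) (nat_lit 327) (nat_lit 223)) (XT.lf (nat_lit 0) (nat_lit 10353838123) (nat_lit 532) (nat_lit 3939048779) (nat_lit 76) (nat_lit 14916001988) (nat_lit 150) (nat_lit 5) (nat_lit 157) (nat_lit 5) (nat_lit 151) (nat_lit 5) (nat_lit 351) (nat_lit 327) (nat_lit 222)))) (XT.nd (nat_lit 78) (nat_lit 760) (nat_lit 0) (XT.lf (nat_lit 0) (nat_lit 18644890807) (nat_lit 456) (nat_lit 7091447472) (nat_lit 76) (nat_lit 4350379816)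 (nat_lit 145) (nat_lit 5) (nat_lit 151) (nat_lit 5) (nat_lit 146) (nat_lit 5) (nat_lit 352) (nat_lit 327) (nat_lit 221)) (XT.nd (nat_lit 78) (nat_lit 380) (nat_lit 0) (XT.lf (nat_lit 0) (nat_lit 20594005256) (nat_lit 380) (nat_lit 7128524069) (nat_lit 456) (nat_lit 3274752746) (nat_lit 140) (nat_lit 5) (nat_lit 145) (nat_lit 5) (nat_lit 146) (nat_lit 5) (nat_lit 353) (nat_lit 327) (nat_lit 220)) (XT.lf (nat_lit 0) (nat_lit 5556780677) (nat_lit 380) (nat_lit 13918132583) (nat_lit 76) (nat_lit 12466150150) (nat_lit 135) (nat_lit 5) (nat_lit 140) (nat_lit 5) (nat_lit 136) (nat_lit 5) (nat_lit 354) (nat_lit 327) (nat_lit 219))))))))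
noncomputable def xc94 : XT := (XT.nd (nat_lit 1872) (nat_lit 1520) (nat_lit 0) (XT.nd (nat_lit 936) (nat_lit 2280) (nat_lit 0) (XT.nd (nat_lit 468) (nat_lit 1748) (nat_lit 0) (XT.nd (nat_lit 234) (nat_lit 608) (nat_lit 0) (XT.nd (nat_lit 78) (nat_lit 684) (nat_lit 0) (XT.lf (nat_lit 0) (nat_lit 15082307792) (nat_lit 456) (nat_lit 17586021196) (nat_lit 76) (nat_lit 253131603) (nat_lit 130) (nat_lit 5) (nat_lit 136) (nat_lit 5) (nat_lit 131) (nat_lit 5) (nat_lit 355) (nat_lit 327) (nat_lit 218)) (XT.nd (nat_lit 78) (nat_lit 380) (nat_lit 0) (XT.lf (nat_lit 0) (nat_lit 12426327691) (nat_lit 304) (nat_lit 13108314649) (nat_lit 380) (nat_lit 8402722968) (nat_lit 126) (nat_lit 5) (nat_lit 130) (nat_lit 5) (nat_lit 131) (nat_lit 5) (nat_lit 356) (nat_lit 327) (nat_lit 217)) (XT.lf (nat_lit 0) (nat_lit 1814245077) (nat_lit 380) (nat_lit 25607337512) (nat_lit 76) (nat_lit 7571909000) (nat_lit 121) (nat_lit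 5) (nat_lit 126) (nat_lit 5) (nat_lit 122) (nat_lit 5) (nat_lit 357) (nat_lit 327) (nat_lit 216)))) (XT.nd (nat_lit 78) (nat_lit 304) (nat_lit 0) (XT.lf (nat_lit 0) (nat_lit 6067247851) (nat_lit 304) (nat_lit 6707284861) (nat_lit 380) (nat_lit 23313211220) (nat_lit 117) (nat_lit 5) (nat_lit 121) (nat_lit 5) (nat_lit 122) (nat_lit 5) (nat_lit 358) (nat_lit 327) (nat_lit 215)) (XT.nd (nat_lit 78) (nat_lit 0) (nat_lit 0) (XT.lf (nat_lit 0) (nat_lit 2520221955) (nat_lit 304) (nat_lit 22188323433) (nat_lit 380) (nat_lit 12515395211) (nat_lit 113) (nat_lit 5) (nat_lit 117) (nat_lit 5) (nat_lit 118) (nat_lit 5) (nat_lit 359) (nat_lit 327) (nat_lit 214)) (XT.lf (nat_lit 0) (nat_lit 37233034415) (nat_lit 304) (nat_lit 373280351) (nat_lit 380) (nat_lit 799623537) (nat_lit 113) (nat_lit 5) (nat_lit 117) (nat_lit 5) (nat_lit 118) (nat_lit 5) (nat_lit 360) (nat_lit 327) (nat_lit 213))))) (XT.nd (nat_lit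 234) (nat_lit 836) (nat_lit 0) (XT.nd (nat_lit 78) (nat_lit 532) (nat_lit 0) (XT.lf (nat_lit 0) (nat_lit 11822226060) (nat_lit 380) (nat_lit 5268946603) (nat_lit 76) (nat_lit 22536206978) (nat_lit 108) (nat_lit 5) (nat_lit 113) (nat_lit 5) (nat_lit 109) (nat_lit 5) (nat_lit 361) (nat_lit 327) (nat_lit 212)) (XT.nd (nat_lit 78) (nat_lit 228) (nat_lit 0) (XT.lf (nat_lit 0) (nat_lit 25425550562) (nat_lit 380) (nat_lit 9589218303) (nat_lit 76) (nat_lit 5883881612) (nat_lit 104) (nat_lit 5) (nat_lit 109) (nat_lit 5) (nat_lit 105) (nat_lit 5) (nat_lit 362) (nat_lit 327) (nat_lit 211)) (XT.lf (nat_lit 0) (nat_lit 27954963031) (nat_lit 228) (nat_lit 12241906427) (nat_lit 304) (nat_lit 2021982972) (nat_lit 101) (nat_lit 5) (nat_lit 104) (nat_lit 5) (nat_lit 105) (nat_lit 5) (nat_lit 363) (nat_lit 327) (nat_lit 210)))) (XT.nd (nat_lit 78) (nat_lit 456) (nat_lit 0) (XT.lf (nat_lit 0) (nat_lit 12307613308)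 (nat_lit 380) (nat_lit 19388783695) (nat_lit 76) (nat_lit 11891917715) (nat_lit 96) (nat_lit 5) (nat_lit 101) (nat_lit 5) (nat_lit 97) (nat_lit 5) (nat_lit 364) (nat_lit 327) (nat_lit 209)) (XT.nd (nat_lit 78) (nat_lit 228) (nat_lit 0) (XT.lf (nat_lit 0) (nat_lit 20096973329) (nat_lit 228) (nat_lit 7672563634) (nat_lit 304) (nat_lit 17242384740) (nat_lit 93) (nat_lit 5) (nat_lit 96) (nat_lit 5) (nat_lit 97) (nat_lit 5) (nat_lit 365) (nat_lit 327) (nat_lit 208)) (XT.lf (nat_lit 0) (nat_lit 15582884903) (nat_lit 228) (nat_lit 28934214465) (nat_lit 304) (nat_lit 1974235420) (nat_lit 90) (nat_lit 5) (nat_lit 93) (nat_lit 5) (nat_lit 94) (nat_lit 5) (nat_lit 366) (nat_lit 327) (nat_lit 207)))))) (XT.nd (nat_lit 468) (nat_lit 1064) (nat_lit 0) (XT.nd (nat_lit 234) (nat_lit 684) (nat_lit 0) (XT.nd (nat_lit 78) (nat_lit 228) (nat_lit 0) (XT.lf (nat_lit 0) (nat_lit 10568594785) (nat_lit 228) (nat_lit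 3645099371) (nat_lit 304) (nat_lit 33814051968) (nat_lit 86) (nat_lit 5) (nat_lit 89) (nat_lit 5) (nat_lit 90) (nat_lit 5) (nat_lit 367) (nat_lit 327) (nat_lit 206)) (XT.nd (nat_lit 78) (nat_lit 0) (nat_lit 0) (XT.lf (nat_lit 0) (nat_lit 4976170273) (nat_lit 228) (nat_lit 26776600799) (nat_lit 304) (nat_lit 17870144902) (nat_lit 83) (nat_lit 5) (nat_lit 86) (nat_lit 5) (nat_lit 87) (nat_lit 5) (nat_lit 368) (nat_lit 327) (nat_lit 205)) (XT.lf (nat_lit 0) (nat_lit 50267253080) (nat_lit 228) (nat_lit 316652688) (nat_lit 304) (nat_lit 701487131) (nat_lit 83) (nat_lit 5) (nat_lit 86) (nat_lit 5) (nat_lit 87) (nat_lit 5) (nat_lit 369) (nat_lit 327) (nat_lit 204)))) (XT.nd (nat_lit 78) (nat_lit 456) (nat_lit 0) (XT.lf (nat_lit 0) (nat_lit 17688205747) (nat_lit 228) (nat_lit 7780637147) (nat_lit 76) (nat_lit 27536135406) (nat_lit 80) (nat_lit 5) (nat_lit 83) (nat_lit 5) (nat_lit 81) (nat_lit 5) (nat_lit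 370) (nat_lit 327) (nat_lit 203)) (XT.nd (nat_lit 78) (nat_lit 228) (nat_lit 0) (XT.lf (nat_lit 0) (nat_lit 37395146260) (nat_lit 304) (nat_lit 15076993034) (nat_lit 76) (nat_lit 2325828686) (nat_lit 77) (nat_lit 5) (nat_lit 81) (nat_lit 5) (nat_lit 78) (nat_lit 5) (nat_lit 371) (nat_lit 327) (nat_lit 202)) (XT.lf (nat_lit 0) (nat_lit 2039169698) (nat_lit 228) (nat_lit 23214298551) (nat_lit 76) (nat_lit 31406940725) (nat_lit 74) (nat_lit 5) (nat_lit 77) (nat_lit 5) (nat_lit 75) (nat_lit 5) (nat_lit 372) (nat_lit 327) (nat_lit 201))))) (XT.nd (nat_lit 234) (nat_lit 380) (nat_lit 0) (XT.nd (nat_lit 78) (nat_lit 456) (nat_lit 0) (XT.lf (nat_lit 0) (nat_lit 22539019411) (nat_lit 304) (nat_lit 32209059000) (nat_lit 76) (nat_lit 3849355496) (nat_lit 71) (nat_lit 5) (nat_lit 75) (nat_lit 5) (nat_lit 72) (nat_lit 5) (nat_lit 373) (nat_lit 327) (nat_lit 200)) (XT.nd (nat_lit 78) (nat_lit 304) (nat_lit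 0) (XT.lf (nat_lit 0) (nat_lit 18424199261) (nat_lit 152) (nat_lit 26306966863) (nat_lit 228) (nat_lit 15880126085) (nat_lit 69) (nat_lit 5) (nat_lit 71) (nat_lit 5) (nat_lit 72) (nat_lit 5) (nat_lit 374) (nat_lit 327) (nat_lit 199)) (XT.lf (nat_lit 0) (nat_lit 5664315150) (nat_lit 304) (nat_lit 53079876620) (nat_lit 76) (nat_lit 3966298413) (nat_lit 65) (nat_lit 5) (nat_lit 69) (nat_lit 5) (nat_lit 66) (nat_lit 5) (nat_lit 375) (nat_lit 327) (nat_lit 198)))) (XT.nd (nat_lit 78) (nat_lit 380) (nat_lit 0) (XT.lf (nat_lit 0) (nat_lit 28658961579) (nat_lit 304) (nat_lit 420822871) (nat_lit 76) (nat_lit 35809105588) (nat_lit 65) (nat_lit 5) (nat_lit 69) (nat_lit 5) (nat_lit 66) (nat_lit 5) (nat_lit 376) (nat_lit 327) (nat_lit 197)) (XT.nd (nat_lit 78) (nat_lit 228) (nat_lit 0) (XT.lf (nat_lit 0) (nat_lit 53360893383) (nat_lit 228) (nat_lit 11231783261) (nat_lit 76) (nat_lit 2566807703) (nat_lit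 63) (nat_lit 5) (nat_lit 66) (nat_lit 5) (nat_lit 64) (nat_lit 5) (nat_lit 377) (nat_lit 327) (nat_lit 196)) (XT.lf (nat_lit 0) (nat_lit 10307495422) (nat_lit 228) (nat_lit 23465748047) (nat_lit 76) (nat_lit 35745247231) (nat_lit 60) (nat_lit 5) (nat_lit 63) (nat_lit 5) (nat_lit 61) (nat_lit 5) (nat_lit 378) (nat_lit 327) (nat_lit 195))))))) (XT.nd (nat_lit 42900) (nat_lit 0) (nat_lit 14212) (XT.nd (nat_lit 468) (nat_lit 608) (nat_lit 0) (XT.nd (nat_lit 234) (nat_lit 380) (nat_lit 0) (XT.nd (nat_lit 78) (nat_lit 380) (nat_lit 0) (XT.lf (nat_lit 0) (nat_lit 34977230374) (nat_lit 152) (nat_lit 806700023) (nat_lit 228) (nat_lit 36193906701) (nat_lit 58) (nat_lit 5) (nat_lit 60) (nat_lit 5) (nat_lit 61) (nat_lit 5) (nat_lit 379) (nat_lit 327) (nat_lit 194)) (XT.nd (nat_lit 78) (nat_lit 228) (nat_lit 0) (XT.lf (nat_lit 0) (nat_lit 22380194069) (nat_lit 152) (nat_lit 40932966815) (nat_lit 228) (nat_lit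 11223621602) (nat_lit 56) (nat_lit 5) (nat_lit 58) (nat_lit 5) (nat_lit 59) (nat_lit 5) (nat_lit 380) (nat_lit 327) (nat_lit 193)) (XT.lf (nat_lit 0) (nat_lit 8287850436) (nat_lit 152) (nat_lit 6882202411) (nat_lit 228) (nat_lit 62035274278) (nat_lit 53) (nat_lit 5) (nat_lit 55) (nat_lit 5) (nat_lit 56) (nat_lit 5) (nat_lit 381) (nat_lit 327) (nat_lit 192)))) (XT.nd (nat_lit 78) (nat_lit 380) (nat_lit 0) (XT.lf (nat_lit 0) (nat_lit 43468330147) (nat_lit 228) (nat_lit 7551553351) (nat_lit 76) (nat_lit 28959571303) (nat_lit 53) (nat_lit 5) (nat_lit 56) (nat_lit 5) (nat_lit 54) (nat_lit 5) (nat_lit 382) (nat_lit 327) (nat_lit 191)) (XT.nd (nat_lit 78) (nat_lit 228) (nat_lit 0) (XT.lf (nat_lit 0) (nat_lit 57935478221) (nat_lit 152) (nat_lit 15867784217) (nat_lit 228) (nat_lit 9070374929) (nat_lit 51) (nat_lit 5) (nat_lit 53) (nat_lit 5) (nat_lit 54) (nat_lit 5) (nat_lit 383) (nat_lit 327) (nat_lit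 190)) (XT.lf (nat_lit 0) (nat_lit 20039451167) (nat_lit 228) (nat_lit 44544741066) (nat_lit 76) (nat_lit 21302175696) (nat_lit 48) (nat_lit 5) (nat_lit 51) (nat_lit 5) (nat_lit 49) (nat_lit 5) (nat_lit 384) (nat_lit 327) (nat_lit 189))))) (XT.nd (nat_lit 234) (nat_lit 304) (nat_lit 0) (XT.nd (nat_lit 78) (nat_lit 152) (nat_lit 0) (XT.lf (nat_lit 0) (nat_lit 22593152963) (nat_lit 152) (nat_lit 28457936202) (nat_lit 228) (nat_lit 37976935039) (nat_lit 46) (nat_lit 5) (nat_lit 48) (nat_lit 5) (nat_lit 49) (nat_lit 5) (nat_lit 385) (nat_lit 327) (nat_lit 188)) (XT.nd (nat_lit 78) (nat_lit 76) (nat_lit 0) (XT.lf (nat_lit 0) (nat_lit 1634219797) (nat_lit 76) (nat_lit 82544637841) (nat_lit 152) (nat_lit 8130939820) (nat_lit 45) (nat_lit 5) (nat_lit 46) (nat_lit 5) (nat_lit 47) (nat_lit 4) (nat_lit 386) (nat_lit 327) (nat_lit 187)) (XT.lf (nat_lit 0) (nat_lit 23728153718) (nat_lit 152) (nat_lit 21764873888)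 (nat_lit 76) (nat_lit 50226730115) (nat_lit 44) (nat_lit 5) (nat_lit 46) (nat_lit 5) (nat_lit 45) (nat_lit 5) (nat_lit 387) (nat_lit 327) (nat_lit 186)))) (XT.nd (nat_lit 78) (nat_lit 152) (nat_lit 0) (XT.lf (nat_lit 0) (nat_lit 51507049731) (nat_lit 152) (nat_lit 5997639261) (nat_lit 228) (nat_lit 41778333002) (nat_lit 42) (nat_lit 5) (nat_lit 44) (nat_lit 5) (nat_lit 45) (nat_lit 5) (nat_lit 388) (nat_lit 327) (nat_lit 185)) (XT.nd (nat_lit 78) (nat_lit 76) (nat_lit 0) (XT.lf (nat_lit 0) (nat_lit 26037331184) (nat_lit 76) (nat_lit 67746318186) (nat_lit 152) (nat_lit 9216392680) (nat_lit 41) (nat_lit 5) (nat_lit 42) (nat_lit 5) (nat_lit 43) (nat_lit 4) (nat_lit 389) (nat_lit 327) (nat_lit 184)) (XT.lf (nat_lit 0) (nat_lit 25039676958) (nat_lit 152) (nat_lit 2661031655) (nat_lit 76) (nat_lit 79178402377) (nat_lit 40) (nat_lit 5) (nat_lit 42) (nat_lit 5) (nat_lit 41) (nat_lit 5) (nat_lit 390)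 (nat_lit 327) (nat_lit 183)))))) (XT.nd (nat_lit 468) (nat_lit 912) (nat_lit 0) (XT.nd (nat_lit 234) (nat_lit 988) (nat_lit 0) (XT.nd (nat_lit 78) (nat_lit 0) (nat_lit 0) (XT.lf (nat_lit 0) (nat_lit 3141034205) (nat_lit 0) (nat_lit 3141034205) (nat_lit 1140) (nat_lit 1787506442) (nat_lit 252) (nat_lit 5) (nat_lit 252) (nat_lit 3) (nat_lit 267) (nat_lit 3) (nat_lit 328) (nat_lit 328) (nat_lit 244)) (XT.nd (nat_lit 78) (nat_lit 0) (nat_lit 76) (XT.lf (nat_lit 76) (nat_lit 3003193009) (nat_lit 0) (nat_lit 10374469754) (nat_lit 1216) (nat_lit 3149761611) (nat_lit 253) (nat_lit 5) (nat_lit 252) (nat_lit 5) (nat_lit 268) (nat_lit 5) (nat_lit 329) (nat_lit 328) (nat_lit 243)) (XT.lf (nat_lit 0) (nat_lit 14391589415) (nat_lit 1140) (nat_lit 319298399) (nat_lit 1216) (nat_lit 2219447403) (nat_lit 253) (nat_lit 5) (nat_lit 268) (nat_lit 5) (nat_lit 269) (nat_lit 5) (nat_lit 330) (nat_lit 328) (nat_lit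 242)))) (XT.nd (nat_lit 78) (nat_lit 1064) (nat_lit 0) (XT.lf (nat_lit 76) (nat_lit 13693846927) (nat_lit 0) (nat_lit 1973782717) (nat_lit 1216) (nat_lit 1679432938) (nat_lit 254) (nat_lit 5) (nat_lit 253) (nat_lit 5) (nat_lit 269) (nat_lit 5) (nat_lit 331) (nat_lit 328) (nat_lit 241)) (XT.nd (nat_lit 78) (nat_lit 1140) (nat_lit 0) (XT.lf (nat_lit 76) (nat_lit 10714306163) (nat_lit 0) (nat_lit 6485279778) (nat_lit 1216) (nat_lit 579289808) (nat_lit 255) (nat_lit 5) (nat_lit 254) (nat_lit 5) (nat_lit 270) (nat_lit 5) (nat_lit 332) (nat_lit 328) (nat_lit 240)) (XT.lf (nat_lit 0) (nat_lit 742126207) (nat_lit 1216) (nat_lit 10540993951) (nat_lit 1292) (nat_lit 6943680150) (nat_lit 239) (nat_lit 5) (nat_lit 255) (nat_lit 5) (nat_lit 256) (nat_lit 5) (nat_lit 333) (nat_lit 328) (nat_lit 239))))) (XT.nd (nat_lit 234) (nat_lit 988) (nat_lit 0) (XT.nd (nat_lit 78) (nat_lit 0) (nat_lit 0) (XT.lf (nat_lit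 0) (nat_lit 2301738422) (nat_lit 1216) (nat_lit 14085307389) (nat_lit 1292) (nat_lit 2304391358) (nat_lit 240) (nat_lit 5) (nat_lit 256) (nat_lit 5) (nat_lit 257) (nat_lit 5) (nat_lit 334) (nat_lit 328) (nat_lit 238)) (XT.nd (nat_lit 78) (nat_lit 0) (nat_lit 76) (XT.lf (nat_lit 76) (nat_lit 1452656346) (nat_lit 0) (nat_lit 2703072057) (nat_lit 1292) (nat_lit 15017096336) (nat_lit 241) (nat_lit 5) (nat_lit 240) (nat_lit 5) (nat_lit 257) (nat_lit 5) (nat_lit 335) (nat_lit 328) (nat_lit 237)) (XT.lf (nat_lit 0) (nat_lit 6340851757) (nat_lit 1216) (nat_lit 1741425208) (nat_lit 1292) (nat_lit 11588861975) (nat_lit 241) (nat_lit 5) (nat_lit 257) (nat_lit 5) (nat_lit 258) (nat_lit 5) (nat_lit 336) (nat_lit 328) (nat_lit 236)))) (XT.nd (nat_lit 78) (nat_lit 1140) (nat_lit 0) (XT.lf (nat_lit 0) (nat_lit 8852843617) (nat_lit 1216) (nat_lit 4959879180) (nat_lit 1292) (nat_lit 6375127461) (nat_lit 242)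 (nat_lit 5) (nat_lit 258) (nat_lit 5) (nat_lit 259) (nat_lit 5) (nat_lit 337) (nat_lit 328) (nat_lit 235)) (XT.nd (nat_lit 78) (nat_lit 1216) (nat_lit 0) (XT.lf (nat_lit 0) (nat_lit 11699665827) (nat_lit 1216) (nat_lit 8232802962) (nat_lit 76) (nat_lit 791660743) (nat_lit 243) (nat_lit 5) (nat_lit 259) (nat_lit 5) (nat_lit 244) (nat_lit 5) (nat_lit 338) (nat_lit 328) (nat_lit 234)) (XT.lf (nat_lit 0) (nat_lit 9666424356) (nat_lit 1216) (nat_lit 5288700581) (nat_lit 1292) (nat_lit 6324117831) (nat_lit 227) (nat_lit 5) (nat_lit 243) (nat_lit 5) (nat_lit 244) (nat_lit 5) (nat_lit 339) (nat_lit 328) (nat_lit 233))))))))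
noncomputable def xc95 : XT := (XT.nd (nat_lit 1872) (nat_lit 4484) (nat_lit 0) (XT.nd (nat_lit 936) (nat_lit 3952) (nat_lit 0) (XT.nd (nat_lit 468) (nat_lit 2432) (nat_lit 0) (XT.nd (nat_lit 234) (nat_lit 1064) (nat_lit 0) (XT.nd (nat_lit 78) (nat_lit 1292) (nat_lit 0) (XT.lf (nat_lit 0) (nat_lit 6792399654) (nat_lit 608) (nat_lit 11811915851) (nat_lit 684) (nat_lit 3250875850) (nat_lit 219) (nat_lit 5) (nat_lit 227) (nat_lit 5) (nat_lit 228) (nat_lit 5) (nat_lit 340) (nat_lit 328) (nat_lit 232)) (XT.nd (nat_lit 78) (nat_lit 608) (nat_lit 0) (XT.lf (nat_lit 0) (nat_lit 207743231) (nat_lit 684) (nat_lit 18579169767) (nat_lit 76) (nat_lit 3666101681) (nat_lit 210) (nat_lit 5) (nat_lit 219) (nat_lit 5) (nat_lit 211) (nat_lit 5) (nat_lit 341) (nat_lit 328) (nat_lit 231)) (XT.lf (nat_lit 0) (nat_lit 843529350) (nat_lit 608) (nat_lit 3197328396) (nat_lit 684) (nat_lit 19030849328) (nat_lit 202) (nat_lit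 5) (nat_lit 210) (nat_lit 5) (nat_lit 211) (nat_lit 5) (nat_lit 342) (nat_lit 328) (nat_lit 230)))) (XT.nd (nat_lit 78) (nat_lit 1064) (nat_lit 0) (XT.lf (nat_lit 0) (nat_lit 8370251301) (nat_lit 684) (nat_lit 2233881634) (nat_lit 76) (nat_lit 13108069538) (nat_lit 202) (nat_lit 5) (nat_lit 211) (nat_lit 5) (nat_lit 203) (nat_lit 5) (nat_lit 343) (nat_lit 328) (nat_lit 229)) (XT.nd (nat_lit 78) (nat_lit 532) (nat_lit 0) (XT.lf (nat_lit 0) (nat_lit 13174798460) (nat_lit 608) (nat_lit 5350430127) (nat_lit 76) (nat_lit 5851740285) (nat_lit 195) (nat_lit 5) (nat_lit 203) (nat_lit 5) (nat_lit 196) (nat_lit 5) (nat_lit 344) (nat_lit 328) (nat_lit 228)) (XT.lf (nat_lit 0) (nat_lit 16522884972) (nat_lit 532) (nat_lit 1971895745) (nat_lit 608) (nat_lit 6571943066) (nat_lit 188) (nat_lit 5) (nat_lit 195) (nat_lit 5) (nat_lit 196) (nat_lit 5) (nat_lit 345) (nat_lit 328) (nat_lit 227))))) (XT.nd (nat_lit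 234) (nat_lit 912) (nat_lit 0) (XT.nd (nat_lit 78) (nat_lit 1064) (nat_lit 0) (XT.lf (nat_lit 0) (nat_lit 13920701717) (nat_lit 456) (nat_lit 10484261046) (nat_lit 532) (nat_lit 1376283778) (nat_lit 182) (nat_lit 5) (nat_lit 188) (nat_lit 5) (nat_lit 189) (nat_lit 5) (nat_lit 346) (nat_lit 328) (nat_lit 226)) (XT.nd (nat_lit 78) (nat_lit 456) (nat_lit 0) (XT.lf (nat_lit 0) (nat_lit 4272208369) (nat_lit 608) (nat_lit 15288168829) (nat_lit 76) (nat_lit 6961768086) (nat_lit 174) (nat_lit 5) (nat_lit 182) (nat_lit 5) (nat_lit 175) (nat_lit 5) (nat_lit 347) (nat_lit 328) (nat_lit 225)) (XT.lf (nat_lit 0) (nat_lit 8464470621) (nat_lit 456) (nat_lit 2008420333) (nat_lit 532) (nat_lit 16817847718) (nat_lit 168) (nat_lit 5) (nat_lit 174) (nat_lit 5) (nat_lit 175) (nat_lit 5) (nat_lit 348) (nat_lit 328) (nat_lit 224)))) (XT.nd (nat_lit 78) (nat_lit 456) (nat_lit 0) (XT.lf (nat_lit 0) (nat_lit 5566020109)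 (nat_lit 456) (nat_lit 11775797144) (nat_lit 532) (nat_lit 10745203321) (nat_lit 162) (nat_lit 5) (nat_lit 168) (nat_lit 5) (nat_lit 169) (nat_lit 5) (nat_lit 349) (nat_lit 328) (nat_lit 223)) (XT.nd (nat_lit 78) (nat_lit 76) (nat_lit 0) (XT.lf (nat_lit 0) (nat_lit 2605317309) (nat_lit 380) (nat_lit 22241325625) (nat_lit 456) (nat_lit 4067704935) (nat_lit 157) (nat_lit 5) (nat_lit 162) (nat_lit 5) (nat_lit 163) (nat_lit 5) (nat_lit 350) (nat_lit 328) (nat_lit 222)) (XT.lf (nat_lit 0) (nat_lit 3227856208) (nat_lit 456) (nat_lit 481065954) (nat_lit 76) (nat_lit 26063026112) (nat_lit 156) (nat_lit 5) (nat_lit 162) (nat_lit 5) (nat_lit 157) (nat_lit 5) (nat_lit 351) (nat_lit 328) (nat_lit 221)))))) (XT.nd (nat_lit 468) (nat_lit 1672) (nat_lit 0) (XT.nd (nat_lit 234) (nat_lit 1064) (nat_lit 0) (XT.nd (nat_lit 78) (nat_lit 760) (nat_lit 0) (XT.lf (nat_lit 0) (nat_lit 11209022976) (nat_lit 532) (nat_lit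 3705191657) (nat_lit 76) (nat_lit 15744861523) (nat_lit 150) (nat_lit 5) (nat_lit 157) (nat_lit 5) (nat_lit 151) (nat_lit 5) (nat_lit 352) (nat_lit 328) (nat_lit 220)) (XT.nd (nat_lit 78) (nat_lit 380) (nat_lit 0) (XT.lf (nat_lit 0) (nat_lit 19903473828) (nat_lit 456) (nat_lit 7018564066) (nat_lit 76) (nat_lit 4659099866) (nat_lit 145) (nat_lit 5) (nat_lit 151) (nat_lit 5) (nat_lit 146) (nat_lit 5) (nat_lit 353) (nat_lit 328) (nat_lit 219)) (XT.lf (nat_lit 0) (nat_lit 22038908364) (nat_lit 380) (nat_lit 7384537164) (nat_lit 456) (nat_lit 3114136872) (nat_lit 140) (nat_lit 5) (nat_lit 145) (nat_lit 5) (nat_lit 146) (nat_lit 5) (nat_lit 354) (nat_lit 328) (nat_lit 218)))) (XT.nd (nat_lit 78) (nat_lit 684) (nat_lit 0) (XT.lf (nat_lit 0) (nat_lit 6142424518) (nat_lit 380) (nat_lit 14196149056) (nat_lit 76) (nat_lit 13190197830) (nat_lit 135) (nat_lit 5) (nat_lit 140) (nat_lit 5) (nat_lit 136) (nat_lit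 5) (nat_lit 355) (nat_lit 328) (nat_lit 217)) (XT.nd (nat_lit 78) (nat_lit 304) (nat_lit 0) (XT.lf (nat_lit 0) (nat_lit 16134518935) (nat_lit 456) (nat_lit 18051440061) (nat_lit 76) (nat_lit 372526006) (nat_lit 130) (nat_lit 5) (nat_lit 136) (nat_lit 5) (nat_lit 131) (nat_lit 5) (nat_lit 356) (nat_lit 328) (nat_lit 216)) (XT.lf (nat_lit 0) (nat_lit 13449662421) (nat_lit 304) (nat_lit 13649477201) (nat_lit 380) (nat_lit 8526360288) (nat_lit 126) (nat_lit 5) (nat_lit 130) (nat_lit 5) (nat_lit 131) (nat_lit 5) (nat_lit 357) (nat_lit 328) (nat_lit 215))))) (XT.nd (nat_lit 234) (nat_lit 684) (nat_lit 0) (XT.nd (nat_lit 78) (nat_lit 608) (nat_lit 0) (XT.lf (nat_lit 0) (nat_lit 2186746085) (nat_lit 380) (nat_lit 26484092023) (nat_lit 76) (nat_lit 8063781277) (nat_lit 121) (nat_lit 5) (nat_lit 126) (nat_lit 5) (nat_lit 122) (nat_lit 5) (nat_lit 358) (nat_lit 328) (nat_lit 214)) (XT.nd (nat_lit 78) (nat_lit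 304) (nat_lit 0) (XT.lf (nat_lit 0) (nat_lit 6762653140) (nat_lit 304) (nat_lit 6922745005) (nat_lit 380) (nat_lit 24198480133) (nat_lit 117) (nat_lit 5) (nat_lit 121) (nat_lit 5) (nat_lit 122) (nat_lit 5) (nat_lit 359) (nat_lit 328) (nat_lit 213)) (XT.lf (nat_lit 0) (nat_lit 3033934850) (nat_lit 304) (nat_lit 23174042148) (nat_lit 380) (nat_lit 12869156038) (nat_lit 113) (nat_lit 5) (nat_lit 117) (nat_lit 5) (nat_lit 118) (nat_lit 5) (nat_lit 360) (nat_lit 328) (nat_lit 212)))) (XT.nd (nat_lit 78) (nat_lit 684) (nat_lit 0) (XT.lf (nat_lit 0) (nat_lit 39463925943) (nat_lit 304) (nat_lit 274137267) (nat_lit 380) (nat_lit 580548586) (nat_lit 113) (nat_lit 5) (nat_lit 117) (nat_lit 5) (nat_lit 118) (nat_lit 5) (nat_lit 361) (nat_lit 328) (nat_lit 211)) (XT.nd (nat_lit 78) (nat_lit 304) (nat_lit 0) (XT.lf (nat_lit 0) (nat_lit 12659875232) (nat_lit 380) (nat_lit 5162452420) (nat_lit 76) (nat_lit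 23778950456) (nat_lit 108) (nat_lit 5) (nat_lit 113) (nat_lit 5) (nat_lit 109) (nat_lit 5) (nat_lit 362) (nat_lit 328) (nat_lit 210)) (XT.lf (nat_lit 0) (nat_lit 26936244174) (nat_lit 380) (nat_lit 9703287547) (nat_lit 76) (nat_lit 6296797961) (nat_lit 104) (nat_lit 5) (nat_lit 109) (nat_lit 5) (nat_lit 105) (nat_lit 5) (nat_lit 363) (nat_lit 328) (nat_lit 209))))))) (XT.nd (nat_lit 936) (nat_lit 1824) (nat_lit 0) (XT.nd (nat_lit 468) (nat_lit 1064) (nat_lit 0) (XT.nd (nat_lit 234) (nat_lit 760) (nat_lit 0) (XT.nd (nat_lit 78) (nat_lit 608) (nat_lit 0) (XT.lf (nat_lit 0) (nat_lit 29707628975) (nat_lit 228) (nat_lit 12730510960) (nat_lit 304) (nat_lit 1884644842) (nat_lit 101) (nat_lit 5) (nat_lit 104) (nat_lit 5) (nat_lit 105) (nat_lit 5) (nat_lit 364) (nat_lit 328) (nat_lit 208)) (XT.nd (nat_lit 78) (nat_lit 228) (nat_lit 0) (XT.lf (nat_lit 0) (nat_lit 13150189234) (nat_lit 380) (nat_lit 20003238439)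 (nat_lit 76) (nat_lit 12607424543) (nat_lit 96) (nat_lit 5) (nat_lit 101) (nat_lit 5) (nat_lit 97) (nat_lit 5) (nat_lit 365) (nat_lit 328) (nat_lit 207)) (XT.lf (nat_lit 0) (nat_lit 21446630878) (nat_lit 228) (nat_lit 7931073886) (nat_lit 304) (nat_lit 17878162887) (nat_lit 93) (nat_lit 5) (nat_lit 96) (nat_lit 5) (nat_lit 97) (nat_lit 5) (nat_lit 366) (nat_lit 328) (nat_lit 206)))) (XT.nd (nat_lit 78) (nat_lit 532) (nat_lit 0) (XT.lf (nat_lit 0) (nat_lit 16702245432) (nat_lit 228) (nat_lit 30254354189) (nat_lit 304) (nat_lit 1852835969) (nat_lit 90) (nat_lit 5) (nat_lit 93) (nat_lit 5) (nat_lit 94) (nat_lit 5) (nat_lit 367) (nat_lit 328) (nat_lit 205)) (XT.nd (nat_lit 78) (nat_lit 228) (nat_lit 0) (XT.lf (nat_lit 0) (nat_lit 11431713977) (nat_lit 228) (nat_lit 3701421232) (nat_lit 304) (nat_lit 35289683215) (nat_lit 86) (nat_lit 5) (nat_lit 89) (nat_lit 5) (nat_lit 90) (nat_lit 5) (nat_lit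 368) (nat_lit 328) (nat_lit 204)) (XT.lf (nat_lit 0) (nat_lit 5555032576) (nat_lit 228) (nat_lit 27988518195) (nat_lit 304) (nat_lit 18554366942) (nat_lit 83) (nat_lit 5) (nat_lit 86) (nat_lit 5) (nat_lit 87) (nat_lit 5) (nat_lit 369) (nat_lit 328) (nat_lit 203))))) (XT.nd (nat_lit 234) (nat_lit 608) (nat_lit 0) (XT.nd (nat_lit 78) (nat_lit 456) (nat_lit 0) (XT.lf (nat_lit 0) (nat_lit 53094952676) (nat_lit 228) (nat_lit 211616139) (nat_lit 304) (nat_lit 537242244) (nat_lit 83) (nat_lit 5) (nat_lit 86) (nat_lit 5) (nat_lit 87) (nat_lit 5) (nat_lit 370) (nat_lit 328) (nat_lit 202)) (XT.nd (nat_lit 78) (nat_lit 228) (nat_lit 0) (XT.lf (nat_lit 0) (nat_lit 18762865423) (nat_lit 228) (nat_lit 7855957064) (nat_lit 76) (nat_lit 29030653369) (nat_lit 80) (nat_lit 5) (nat_lit 83) (nat_lit 5) (nat_lit 81) (nat_lit 5) (nat_lit 371) (nat_lit 328) (nat_lit 201)) (XT.lf (nat_lit 0) (nat_lit 39450181902) (nat_lit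 304) (nat_lit 15521717162) (nat_lit 76) (nat_lit 2560367179) (nat_lit 77) (nat_lit 5) (nat_lit 81) (nat_lit 5) (nat_lit 78) (nat_lit 5) (nat_lit 372) (nat_lit 328) (nat_lit 200)))) (XT.nd (nat_lit 78) (nat_lit 380) (nat_lit 0) (XT.lf (nat_lit 0) (nat_lit 2322284743) (nat_lit 228) (nat_lit 24071104967) (nat_lit 76) (nat_lit 33094566377) (nat_lit 74) (nat_lit 5) (nat_lit 77) (nat_lit 5) (nat_lit 75) (nat_lit 5) (nat_lit 373) (nat_lit 328) (nat_lit 199)) (XT.nd (nat_lit 78) (nat_lit 152) (nat_lit 0) (XT.lf (nat_lit 0) (nat_lit 23842489927) (nat_lit 304) (nat_lit 33520168959) (nat_lit 76) (nat_lit 4159314332) (nat_lit 71) (nat_lit 5) (nat_lit 75) (nat_lit 5) (nat_lit 72) (nat_lit 5) (nat_lit 374) (nat_lit 328) (nat_lit 198)) (XT.lf (nat_lit 0) (nat_lit 19636171609) (nat_lit 152) (nat_lit 27502461660) (nat_lit 228) (nat_lit 16498061239) (nat_lit 69) (nat_lit 5) (nat_lit 71) (nat_lit 5) (nat_lit 72)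 (nat_lit 5) (nat_lit 375) (nat_lit 328) (nat_lit 197)))))) (XT.nd (nat_lit 468) (nat_lit 836) (nat_lit 0) (XT.nd (nat_lit 234) (nat_lit 532) (nat_lit 0) (XT.nd (nat_lit 78) (nat_lit 152) (nat_lit 0) (XT.lf (nat_lit 0) (nat_lit 6115833213) (nat_lit 304) (nat_lit 55444165507) (nat_lit 76) (nat_lit 4280934498) (nat_lit 65) (nat_lit 5) (nat_lit 69) (nat_lit 5) (nat_lit 66) (nat_lit 5) (nat_lit 376) (nat_lit 328) (nat_lit 196)) (XT.nd (nat_lit 78) (nat_lit 152) (nat_lit 0) (XT.lf (nat_lit 0) (nat_lit 30252197568) (nat_lit 304) (nat_lit 165954544) (nat_lit 76) (nat_lit 37710342929) (nat_lit 65) (nat_lit 5) (nat_lit 69) (nat_lit 5) (nat_lit 66) (nat_lit 5) (nat_lit 377) (nat_lit 328) (nat_lit 195)) (XT.lf (nat_lit 0) (nat_lit 56185253397) (nat_lit 228) (nat_lit 11521769518) (nat_lit 76) (nat_lit 2805716797) (nat_lit 63) (nat_lit 5) (nat_lit 66) (nat_lit 5) (nat_lit 64) (nat_lit 5) (nat_lit 378) (nat_lit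 328) (nat_lit 194)))) (XT.nd (nat_lit 78) (nat_lit 304) (nat_lit 0) (XT.lf (nat_lit 0) (nat_lit 10975804458) (nat_lit 228) (nat_lit 24372147116) (nat_lit 76) (nat_lit 37641848456) (nat_lit 60) (nat_lit 5) (nat_lit 63) (nat_lit 5) (nat_lit 61) (nat_lit 5) (nat_lit 379) (nat_lit 328) (nat_lit 193)) (XT.nd (nat_lit 78) (nat_lit 152) (nat_lit 0) (XT.lf (nat_lit 0) (nat_lit 36985329925) (nat_lit 152) (nat_lit 735940627) (nat_lit 228) (nat_lit 37850988208) (nat_lit 58) (nat_lit 5) (nat_lit 60) (nat_lit 5) (nat_lit 61) (nat_lit 5) (nat_lit 380) (nat_lit 328) (nat_lit 192)) (XT.lf (nat_lit 0) (nat_lit 23754315558) (nat_lit 152) (nat_lit 42869061892) (nat_lit 228) (nat_lit 11635882754) (nat_lit 56) (nat_lit 5) (nat_lit 58) (nat_lit 5) (nat_lit 59) (nat_lit 5) (nat_lit 381) (nat_lit 328) (nat_lit 191))))) (XT.nd (nat_lit 234) (nat_lit 456) (nat_lit 0) (XT.nd (nat_lit 78) (nat_lit 152) (nat_lit 0) (XT.lf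 (nat_lit 0) (nat_lit 8952887928) (nat_lit 152) (nat_lit 7117137833) (nat_lit 228) (nat_lit 64991300820) (nat_lit 53) (nat_lit 5) (nat_lit 55) (nat_lit 5) (nat_lit 56) (nat_lit 5) (nat_lit 382) (nat_lit 328) (nat_lit 190)) (XT.nd (nat_lit 78) (nat_lit 152) (nat_lit 0) (XT.lf (nat_lit 0) (nat_lit 45777479726) (nat_lit 228) (nat_lit 7687357288) (nat_lit 76) (nat_lit 30509496827) (nat_lit 53) (nat_lit 5) (nat_lit 56) (nat_lit 5) (nat_lit 54) (nat_lit 5) (nat_lit 383) (nat_lit 328) (nat_lit 189)) (XT.lf (nat_lit 0) (nat_lit 61067095467) (nat_lit 152) (nat_lit 16557857142) (nat_lit 228) (nat_lit 9388400141) (nat_lit 51) (nat_lit 5) (nat_lit 53) (nat_lit 5) (nat_lit 54) (nat_lit 5) (nat_lit 384) (nat_lit 328) (nat_lit 188)))) (XT.nd (nat_lit 78) (nat_lit 228) (nat_lit 0) (XT.lf (nat_lit 0) (nat_lit 21171144831) (nat_lit 228) (nat_lit 46538377586) (nat_lit 76) (nat_lit 22467253160) (nat_lit 48) (nat_lit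 5) (nat_lit 51) (nat_lit 5) (nat_lit 49) (nat_lit 5) (nat_lit 385) (nat_lit 328) (nat_lit 187)) (XT.nd (nat_lit 78) (nat_lit 76) (nat_lit 0) (XT.lf (nat_lit 0) (nat_lit 23949715033) (nat_lit 152) (nat_lit 29779653645) (nat_lit 228) (nat_lit 39746266780) (nat_lit 46) (nat_lit 5) (nat_lit 48) (nat_lit 5) (nat_lit 49) (nat_lit 5) (nat_lit 386) (nat_lit 328) (nat_lit 186)) (XT.lf (nat_lit 0) (nat_lit 1939067639) (nat_lit 76) (nat_lit 86571542240) (nat_lit 152) (nat_lit 8410975833) (nat_lit 45) (nat_lit 5) (nat_lit 46) (nat_lit 5) (nat_lit 47) (nat_lit 4) (nat_lit 387) (nat_lit 328) (nat_lit 185))))))))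
noncomputable def xc96 : XT := (XT.nd (nat_lit 43836) (nat_lit 0) (nat_lit 2964) (XT.nd (nat_lit 42900) (nat_lit 0) (nat_lit 10108) (XT.nd (nat_lit 42432) (nat_lit 0) (nat_lit 14972) (XT.nd (nat_lit 156) (nat_lit 76) (nat_lit 0) (XT.nd (nat_lit 78) (nat_lit 152) (nat_lit 0) (XT.lf (nat_lit 0) (nat_lit 25032696922) (nat_lit 152) (nat_lit 22638239134) (nat_lit 76) (nat_lit 52831249454) (nat_lit 44) (nat_lit 5) (nat_lit 46) (nat_lit 5) (nat_lit 45) (nat_lit 5) (nat_lit 388) (nat_lit 328) (nat_lit 184)) (XT.lf (nat_lit 0) (nat_lit 54291121218) (nat_lit 152) (nat_lit 6203318574) (nat_lit 228) (nat_lit 43749282541) (nat_lit 42) (nat_lit 5) (nat_lit 44) (nat_lit 5) (nat_lit 45) (nat_lit 5) (nat_lit 389) (nat_lit 328) (nat_lit 183))) (XT.nd (nat_lit 42120) (nat_lit 0) (nat_lit 16036) (XT.lf (nat_lit 0) (nat_lit 27544406123) (nat_lit 76) (nat_lit 71040323908) (nat_lit 152) (nat_lit 9561942633) (nat_lit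 41) (nat_lit 5) (nat_lit 42) (nat_lit 5) (nat_lit 43) (nat_lit 4) (nat_lit 390) (nat_lit 328) (nat_lit 182)) (XT.nd (nat_lit 78) (nat_lit 0) (nat_lit 0) (XT.lf (nat_lit 0) (nat_lit 3500138246) (nat_lit 0) (nat_lit 3500138246) (nat_lit 1140) (nat_lit 1460436022) (nat_lit 252) (nat_lit 5) (nat_lit 252) (nat_lit 3) (nat_lit 267) (nat_lit 3) (nat_lit 329) (nat_lit 329) (nat_lit 242)) (XT.lf (nat_lit 76) (nat_lit 3573621547) (nat_lit 0) (nat_lit 11242987876) (nat_lit 1216) (nat_lit 2513669139) (nat_lit 253) (nat_lit 5) (nat_lit 252) (nat_lit 5) (nat_lit 268) (nat_lit 5) (nat_lit 330) (nat_lit 329) (nat_lit 241))))) (XT.nd (nat_lit 234) (nat_lit 0) (nat_lit 76) (XT.nd (nat_lit 78) (nat_lit 1140) (nat_lit 0) (XT.lf (nat_lit 76) (nat_lit 92395223) (nat_lit 0) (nat_lit 15749853328) (nat_lit 1216) (nat_lit 1912275680) (nat_lit 254) (nat_lit 5) (nat_lit 253) (nat_lit 5) (nat_lit 269) (nat_lit 5) (nat_lit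 331) (nat_lit 329) (nat_lit 240)) (XT.nd (nat_lit 78) (nat_lit 1140) (nat_lit 0) (XT.lf (nat_lit 76) (nat_lit 14792187788) (nat_lit 0) (nat_lit 2358220063) (nat_lit 1216) (nat_lit 1042649428) (nat_lit 254) (nat_lit 5) (nat_lit 253) (nat_lit 5) (nat_lit 269) (nat_lit 5) (nat_lit 332) (nat_lit 329) (nat_lit 239)) (XT.lf (nat_lit 0) (nat_lit 78139543) (nat_lit 1216) (nat_lit 6972973024) (nat_lit 1292) (nat_lit 11596298482) (nat_lit 238) (nat_lit 5) (nat_lit 254) (nat_lit 5) (nat_lit 255) (nat_lit 5) (nat_lit 333) (nat_lit 329) (nat_lit 238)))) (XT.nd (nat_lit 78) (nat_lit 0) (nat_lit 76) (XT.lf (nat_lit 0) (nat_lit 1423619862) (nat_lit 1216) (nat_lit 10619806252) (nat_lit 1292) (nat_lit 7075051012) (nat_lit 239) (nat_lit 5) (nat_lit 255) (nat_lit 5) (nat_lit 256) (nat_lit 5) (nat_lit 334) (nat_lit 329) (nat_lit 237)) (XT.nd (nat_lit 78) (nat_lit 0) (nat_lit 0) (XT.lf (nat_lit 0) (nat_lit 3032958510)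 (nat_lit 1216) (nat_lit 14333577296) (nat_lit 1292) (nat_lit 2240673438) (nat_lit 240) (nat_lit 5) (nat_lit 256) (nat_lit 5) (nat_lit 257) (nat_lit 5) (nat_lit 335) (nat_lit 329) (nat_lit 236)) (XT.lf (nat_lit 76) (nat_lit 1968213607) (nat_lit 0) (nat_lit 2986352370) (nat_lit 1292) (nat_lit 15158867715) (nat_lit 241) (nat_lit 5) (nat_lit 240) (nat_lit 5) (nat_lit 257) (nat_lit 5) (nat_lit 336) (nat_lit 329) (nat_lit 235)))))) (XT.nd (nat_lit 468) (nat_lit 2736) (nat_lit 0) (XT.nd (nat_lit 234) (nat_lit 2356) (nat_lit 0) (XT.nd (nat_lit 78) (nat_lit 0) (nat_lit 76) (XT.lf (nat_lit 0) (nat_lit 7219444124) (nat_lit 1216) (nat_lit 1388133980) (nat_lit 1292) (nat_lit 12029984860) (nat_lit 241) (nat_lit 5) (nat_lit 257) (nat_lit 5) (nat_lit 258) (nat_lit 5) (nat_lit 337) (nat_lit 329) (nat_lit 234)) (XT.nd (nat_lit 78) (nat_lit 0) (nat_lit 76) (XT.lf (nat_lit 0) (nat_lit 9833338062) (nat_lit 1216)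 (nat_lit 4762624390) (nat_lit 1292) (nat_lit 6584871962) (nat_lit 242) (nat_lit 5) (nat_lit 258) (nat_lit 5) (nat_lit 259) (nat_lit 5) (nat_lit 338) (nat_lit 329) (nat_lit 233)) (XT.lf (nat_lit 0) (nat_lit 12800240077) (nat_lit 1216) (nat_lit 8195398989) (nat_lit 76) (nat_lit 748969416) (nat_lit 243) (nat_lit 5) (nat_lit 259) (nat_lit 5) (nat_lit 244) (nat_lit 5) (nat_lit 339) (nat_lit 329) (nat_lit 232)))) (XT.nd (nat_lit 78) (nat_lit 1292) (nat_lit 0) (XT.lf (nat_lit 0) (nat_lit 10585917936) (nat_lit 1216) (nat_lit 5612195011) (nat_lit 1292) (nat_lit 6129987578) (nat_lit 227) (nat_lit 5) (nat_lit 243) (nat_lit 5) (nat_lit 244) (nat_lit 5) (nat_lit 340) (nat_lit 329) (nat_lit 231)) (XT.nd (nat_lit 78) (nat_lit 684) (nat_lit 0) (XT.lf (nat_lit 0) (nat_lit 7570912064) (nat_lit 608) (nat_lit 12438946736) (nat_lit 684) (nat_lit 2923596651) (nat_lit 219) (nat_lit 5) (nat_lit 227) (nat_lit 5) (nat_lit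 228) (nat_lit 5) (nat_lit 341) (nat_lit 329) (nat_lit 230)) (XT.lf (nat_lit 0) (nat_lit 679467091) (nat_lit 684) (nat_lit 19057997040) (nat_lit 76) (nat_lit 3824143294) (nat_lit 210) (nat_lit 5) (nat_lit 219) (nat_lit 5) (nat_lit 211) (nat_lit 5) (nat_lit 342) (nat_lit 329) (nat_lit 229))))) (XT.nd (nat_lit 234) (nat_lit 1596) (nat_lit 0) (XT.nd (nat_lit 78) (nat_lit 532) (nat_lit 0) (XT.lf (nat_lit 0) (nat_lit 1322934112) (nat_lit 608) (nat_lit 3363537711) (nat_lit 684) (nat_lit 19525305957) (nat_lit 202) (nat_lit 5) (nat_lit 210) (nat_lit 5) (nat_lit 211) (nat_lit 5) (nat_lit 343) (nat_lit 329) (nat_lit 228)) (XT.nd (nat_lit 78) (nat_lit 532) (nat_lit 0) (XT.lf (nat_lit 0) (nat_lit 9211154550) (nat_lit 684) (nat_lit 1916238655) (nat_lit 76) (nat_lit 13757550041) (nat_lit 202) (nat_lit 5) (nat_lit 211) (nat_lit 5) (nat_lit 203) (nat_lit 5) (nat_lit 344) (nat_lit 329) (nat_lit 227)) (XT.lf (nat_lit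 0) (nat_lit 14239927258) (nat_lit 608) (nat_lit 5188647930) (nat_lit 76) (nat_lit 6154862242) (nat_lit 195) (nat_lit 5) (nat_lit 203) (nat_lit 5) (nat_lit 196) (nat_lit 5) (nat_lit 345) (nat_lit 329) (nat_lit 226)))) (XT.nd (nat_lit 78) (nat_lit 1064) (nat_lit 0) (XT.lf (nat_lit 0) (nat_lit 17766027021) (nat_lit 532) (nat_lit 2044538194) (nat_lit 608) (nat_lit 6497584137) (nat_lit 188) (nat_lit 5) (nat_lit 195) (nat_lit 5) (nat_lit 196) (nat_lit 5) (nat_lit 346) (nat_lit 329) (nat_lit 225)) (XT.nd (nat_lit 78) (nat_lit 608) (nat_lit 0) (XT.lf (nat_lit 0) (nat_lit 15033108331) (nat_lit 456) (nat_lit 10968766828) (nat_lit 532) (nat_lit 1056963061) (nat_lit 182) (nat_lit 5) (nat_lit 188) (nat_lit 5) (nat_lit 189) (nat_lit 5) (nat_lit 347) (nat_lit 329) (nat_lit 224)) (XT.lf (nat_lit 0) (nat_lit 4852655690) (nat_lit 608) (nat_lit 15629911225) (nat_lit 76) (nat_lit 7354522671) (nat_lit 174) (nat_lit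 5) (nat_lit 182) (nat_lit 5) (nat_lit 175) (nat_lit 5) (nat_lit 348) (nat_lit 329) (nat_lit 223))))))) (XT.nd (nat_lit 936) (nat_lit 2812) (nat_lit 0) (XT.nd (nat_lit 468) (nat_lit 2128) (nat_lit 0) (XT.nd (nat_lit 234) (nat_lit 912) (nat_lit 0) (XT.nd (nat_lit 78) (nat_lit 836) (nat_lit 0) (XT.lf (nat_lit 0) (nat_lit 9298244561) (nat_lit 456) (nat_lit 2051605881) (nat_lit 532) (nat_lit 17294675377) (nat_lit 168) (nat_lit 5) (nat_lit 174) (nat_lit 5) (nat_lit 175) (nat_lit 5) (nat_lit 349) (nat_lit 329) (nat_lit 222)) (XT.nd (nat_lit 78) (nat_lit 380) (nat_lit 0) (XT.lf (nat_lit 0) (nat_lit 6253010413) (nat_lit 456) (nat_lit 12296840677) (nat_lit 532) (nat_lit 10931149045) (nat_lit 162) (nat_lit 5) (nat_lit 168) (nat_lit 5) (nat_lit 169) (nat_lit 5) (nat_lit 350) (nat_lit 329) (nat_lit 221)) (XT.lf (nat_lit 0) (nat_lit 3141999098) (nat_lit 380) (nat_lit 23276210504) (nat_lit 456) (nat_lit 3931842263)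 (nat_lit 157) (nat_lit 5) (nat_lit 162) (nat_lit 5) (nat_lit 163) (nat_lit 5) (nat_lit 351) (nat_lit 329) (nat_lit 220)))) (XT.nd (nat_lit 78) (nat_lit 836) (nat_lit 0) (XT.lf (nat_lit 0) (nat_lit 3706037562) (nat_lit 456) (nat_lit 111625669) (nat_lit 76) (nat_lit 27433252715) (nat_lit 156) (nat_lit 5) (nat_lit 162) (nat_lit 5) (nat_lit 157) (nat_lit 5) (nat_lit 352) (nat_lit 329) (nat_lit 219)) (XT.nd (nat_lit 78) (nat_lit 380) (nat_lit 0) (XT.lf (nat_lit 0) (nat_lit 12075590177) (nat_lit 532) (nat_lit 3499694269) (nat_lit 76) (nat_lit 16607441955) (nat_lit 150) (nat_lit 5) (nat_lit 157) (nat_lit 5) (nat_lit 151) (nat_lit 5) (nat_lit 353) (nat_lit 329) (nat_lit 218)) (XT.lf (nat_lit 0) (nat_lit 21194646142) (nat_lit 456) (nat_lit 6981777277) (nat_lit 76) (nat_lit 4974776908) (nat_lit 145) (nat_lit 5) (nat_lit 151) (nat_lit 5) (nat_lit 146) (nat_lit 5) (nat_lit 354) (nat_lit 329) (nat_lit 217)))))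 (XT.nd (nat_lit 234) (nat_lit 988) (nat_lit 0) (XT.nd (nat_lit 78) (nat_lit 760) (nat_lit 0) (XT.lf (nat_lit 0) (nat_lit 23517455003) (nat_lit 380) (nat_lit 7662686372) (nat_lit 456) (nat_lit 2975645520) (nat_lit 140) (nat_lit 5) (nat_lit 145) (nat_lit 5) (nat_lit 146) (nat_lit 5) (nat_lit 355) (nat_lit 329) (nat_lit 216)) (XT.nd (nat_lit 78) (nat_lit 380) (nat_lit 0) (XT.lf (nat_lit 0) (nat_lit 6728733778) (nat_lit 380) (nat_lit 14526917817) (nat_lit 76) (nat_lit 13941082028) (nat_lit 135) (nat_lit 5) (nat_lit 140) (nat_lit 5) (nat_lit 136) (nat_lit 5) (nat_lit 356) (nat_lit 329) (nat_lit 215)) (XT.lf (nat_lit 0) (nat_lit 17211626518) (nat_lit 456) (nat_lit 18578608714) (nat_lit 76) (nat_lit 487966659) (nat_lit 130) (nat_lit 5) (nat_lit 136) (nat_lit 5) (nat_lit 131) (nat_lit 5) (nat_lit 357) (nat_lit 329) (nat_lit 214)))) (XT.nd (nat_lit 78) (nat_lit 684) (nat_lit 0) (XT.lf (nat_lit 0) (nat_lit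 14486788031) (nat_lit 304) (nat_lit 14228320059) (nat_lit 380) (nat_lit 8683745124) (nat_lit 126) (nat_lit 5) (nat_lit 130) (nat_lit 5) (nat_lit 131) (nat_lit 5) (nat_lit 358) (nat_lit 329) (nat_lit 213)) (XT.nd (nat_lit 78) (nat_lit 304) (nat_lit 0) (XT.lf (nat_lit 0) (nat_lit 2551674096) (nat_lit 380) (nat_lit 27442208311) (nat_lit 76) (nat_lit 8569715763) (nat_lit 121) (nat_lit 5) (nat_lit 126) (nat_lit 5) (nat_lit 122) (nat_lit 5) (nat_lit 359) (nat_lit 329) (nat_lit 212)) (XT.lf (nat_lit 0) (nat_lit 7456380262) (nat_lit 304) (nat_lit 7160125702) (nat_lit 380) (nat_lit 25154080650) (nat_lit 117) (nat_lit 5) (nat_lit 121) (nat_lit 5) (nat_lit 122) (nat_lit 5) (nat_lit 360) (nat_lit 329) (nat_lit 211)))))) (XT.nd (nat_lit 468) (nat_lit 1216) (nat_lit 0) (XT.nd (nat_lit 234) (nat_lit 912) (nat_lit 0) (XT.nd (nat_lit 78) (nat_lit 380) (nat_lit 0) (XT.lf (nat_lit 0) (nat_lit 3537288552) (nat_lit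 304) (nat_lit 24220547016) (nat_lit 380) (nat_lit 13265893718) (nat_lit 113) (nat_lit 5) (nat_lit 117) (nat_lit 5) (nat_lit 118) (nat_lit 5) (nat_lit 361) (nat_lit 329) (nat_lit 210)) (XT.nd (nat_lit 78) (nat_lit 380) (nat_lit 0) (XT.lf (nat_lit 0) (nat_lit 41772033630) (nat_lit 304) (nat_lit 180989617) (nat_lit 380) (nat_lit 374604471) (nat_lit 113) (nat_lit 5) (nat_lit 117) (nat_lit 5) (nat_lit 118) (nat_lit 5) (nat_lit 362) (nat_lit 329) (nat_lit 209)) (XT.lf (nat_lit 0) (nat_lit 13516486109) (nat_lit 380) (nat_lit 5085027183) (nat_lit 76) (nat_lit 25073052745) (nat_lit 108) (nat_lit 5) (nat_lit 113) (nat_lit 5) (nat_lit 109) (nat_lit 5) (nat_lit 363) (nat_lit 329) (nat_lit 208)))) (XT.nd (nat_lit 78) (nat_lit 608) (nat_lit 0) (XT.lf (nat_lit 0) (nat_lit 28500213828) (nat_lit 380) (nat_lit 9857030907) (nat_lit 76) (nat_lit 6719322456) (nat_lit 104) (nat_lit 5) (nat_lit 109) (nat_lit 5) (nat_lit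 105) (nat_lit 5) (nat_lit 364) (nat_lit 329) (nat_lit 207)) (XT.nd (nat_lit 78) (nat_lit 380) (nat_lit 0) (XT.lf (nat_lit 0) (nat_lit 31514931324) (nat_lit 228) (nat_lit 13255026723) (nat_lit 304) (nat_lit 1762607443) (nat_lit 101) (nat_lit 5) (nat_lit 104) (nat_lit 5) (nat_lit 105) (nat_lit 5) (nat_lit 365) (nat_lit 329) (nat_lit 206)) (XT.lf (nat_lit 0) (nat_lit 14013771494) (nat_lit 380) (nat_lit 20681419009) (nat_lit 76) (nat_lit 13347465559) (nat_lit 96) (nat_lit 5) (nat_lit 101) (nat_lit 5) (nat_lit 97) (nat_lit 5) (nat_lit 366) (nat_lit 329) (nat_lit 205))))) (XT.nd (nat_lit 234) (nat_lit 456) (nat_lit 0) (XT.nd (nat_lit 78) (nat_lit 532) (nat_lit 0) (XT.lf (nat_lit 0) (nat_lit 22831714243) (nat_lit 228) (nat_lit 8214141929) (nat_lit 304) (nat_lit 18566772990) (nat_lit 93) (nat_lit 5) (nat_lit 96) (nat_lit 5) (nat_lit 97) (nat_lit 5) (nat_lit 367) (nat_lit 329) (nat_lit 204)) (XT.nd (nat_lit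 78) (nat_lit 304) (nat_lit 0) (XT.lf (nat_lit 0) (nat_lit 17845943903) (nat_lit 228) (nat_lit 31652268270) (nat_lit 304) (nat_lit 1745830399) (nat_lit 90) (nat_lit 5) (nat_lit 93) (nat_lit 5) (nat_lit 94) (nat_lit 5) (nat_lit 368) (nat_lit 329) (nat_lit 203)) (XT.lf (nat_lit 0) (nat_lit 12306872876) (nat_lit 228) (nat_lit 3772267251) (nat_lit 304) (nat_lit 36859091320) (nat_lit 86) (nat_lit 5) (nat_lit 89) (nat_lit 5) (nat_lit 90) (nat_lit 5) (nat_lit 369) (nat_lit 329) (nat_lit 202)))) (XT.nd (nat_lit 78) (nat_lit 228) (nat_lit 0) (XT.lf (nat_lit 0) (nat_lit 6132152722) (nat_lit 228) (nat_lit 29272830596) (nat_lit 304) (nat_lit 19292257437) (nat_lit 83) (nat_lit 5) (nat_lit 86) (nat_lit 5) (nat_lit 87) (nat_lit 5) (nat_lit 370) (nat_lit 329) (nat_lit 201)) (XT.nd (nat_lit 78) (nat_lit 228) (nat_lit 0) (XT.lf (nat_lit 0) (nat_lit 56034813183) (nat_lit 228) (nat_lit 112565032) (nat_lit 304) (nat_lit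 383315926) (nat_lit 83) (nat_lit 5) (nat_lit 86) (nat_lit 5) (nat_lit 87) (nat_lit 5) (nat_lit 371) (nat_lit 329) (nat_lit 200)) (XT.lf (nat_lit 0) (nat_lit 19873570498) (nat_lit 228) (nat_lit 7964208940) (nat_lit 76) (nat_lit 30588953559) (nat_lit 80) (nat_lit 5) (nat_lit 83) (nat_lit 5) (nat_lit 81) (nat_lit 5) (nat_lit 372) (nat_lit 329) (nat_lit 199))))))))
noncomputable def xc97 : XT := (XT.nd (nat_lit 44070) (nat_lit 0) (nat_lit 5852) (XT.nd (nat_lit 936) (nat_lit 684) (nat_lit 0) (XT.nd (nat_lit 468) (nat_lit 760) (nat_lit 0) (XT.nd (nat_lit 234) (nat_lit 608) (nat_lit 0) (XT.nd (nat_lit 78) (nat_lit 456) (nat_lit 0) (XT.lf (nat_lit 0) (nat_lit 41590743903) (nat_lit 304) (nat_lit 16017417058) (nat_lit 76) (nat_lit 2795639105) (nat_lit 77) (nat_lit 5) (nat_lit 81) (nat_lit 5) (nat_lit 78) (nat_lit 5) (nat_lit 373) (nat_lit 329) (nat_lit 198)) (XT.nd (nat_lit 78) (nat_lit 228) (nat_lit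 0) (XT.lf (nat_lit 0) (nat_lit 2602713321) (nat_lit 228) (nat_lit 24999006236) (nat_lit 76) (nat_lit 34855669859) (nat_lit 74) (nat_lit 5) (nat_lit 77) (nat_lit 5) (nat_lit 75) (nat_lit 5) (nat_lit 374) (nat_lit 329) (nat_lit 197)) (XT.lf (nat_lit 0) (nat_lit 25194722854) (nat_lit 304) (nat_lit 34924664490) (nat_lit 76) (nat_lit 4473847905) (nat_lit 71) (nat_lit 5) (nat_lit 75) (nat_lit 5) (nat_lit 72) (nat_lit 5) (nat_lit 375) (nat_lit 329) (nat_lit 196)))) (XT.nd (nat_lit 78) (nat_lit 456) (nat_lit 0) (XT.lf (nat_lit 0) (nat_lit 20881710243) (nat_lit 152) (nat_lit 28768874044) (nat_lit 228) (nat_lit 17163262578) (nat_lit 69) (nat_lit 5) (nat_lit 71) (nat_lit 5) (nat_lit 72) (nat_lit 5) (nat_lit 376) (nat_lit 329) (nat_lit 195)) (XT.nd (nat_lit 78) (nat_lit 152) (nat_lit 0) (XT.lf (nat_lit 0) (nat_lit 6574280026) (nat_lit 304) (nat_lit 57953602858) (nat_lit 76) (nat_lit 4600487948) (nat_lit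 65) (nat_lit 5) (nat_lit 69) (nat_lit 5) (nat_lit 66) (nat_lit 5) (nat_lit 377) (nat_lit 329) (nat_lit 194)) (XT.lf (nat_lit 0) (nat_lit 77518415) (nat_lit 152) (nat_lit 31833420045) (nat_lit 228) (nat_lit 39619569410) (nat_lit 63) (nat_lit 5) (nat_lit 65) (nat_lit 5) (nat_lit 66) (nat_lit 5) (nat_lit 378) (nat_lit 329) (nat_lit 193))))) (XT.nd (nat_lit 234) (nat_lit 380) (nat_lit 0) (XT.nd (nat_lit 78) (nat_lit 380) (nat_lit 0) (XT.lf (nat_lit 0) (nat_lit 59136298693) (nat_lit 228) (nat_lit 11851506151) (nat_lit 76) (nat_lit 3046291716) (nat_lit 63) (nat_lit 5) (nat_lit 66) (nat_lit 5) (nat_lit 64) (nat_lit 5) (nat_lit 379) (nat_lit 329) (nat_lit 192)) (XT.nd (nat_lit 78) (nat_lit 152) (nat_lit 0) (XT.lf (nat_lit 0) (nat_lit 11663310567) (nat_lit 228) (nat_lit 25348678887) (nat_lit 76) (nat_lit 39623114450) (nat_lit 60) (nat_lit 5) (nat_lit 63) (nat_lit 5) (nat_lit 61) (nat_lit 5) (nat_lit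 380) (nat_lit 329) (nat_lit 191)) (XT.lf (nat_lit 0) (nat_lit 39069732959) (nat_lit 152) (nat_lit 671971765) (nat_lit 228) (nat_lit 39605112378) (nat_lit 58) (nat_lit 5) (nat_lit 60) (nat_lit 5) (nat_lit 61) (nat_lit 5) (nat_lit 381) (nat_lit 329) (nat_lit 190)))) (XT.nd (nat_lit 78) (nat_lit 228) (nat_lit 0) (XT.lf (nat_lit 0) (nat_lit 25173425245) (nat_lit 152) (nat_lit 44912239918) (nat_lit 228) (nat_lit 12082602128) (nat_lit 56) (nat_lit 5) (nat_lit 58) (nat_lit 5) (nat_lit 59) (nat_lit 5) (nat_lit 382) (nat_lit 329) (nat_lit 189)) (XT.nd (nat_lit 78) (nat_lit 0) (nat_lit 0) (XT.lf (nat_lit 0) (nat_lit 9627874700) (nat_lit 152) (nat_lit 7373970054) (nat_lit 228) (nat_lit 68108677950) (nat_lit 53) (nat_lit 5) (nat_lit 55) (nat_lit 5) (nat_lit 56) (nat_lit 5) (nat_lit 383) (nat_lit 329) (nat_lit 188)) (XT.lf (nat_lit 0) (nat_lit 48189467609) (nat_lit 228) (nat_lit 7852429252) (nat_lit 76)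 (nat_lit 32127440566) (nat_lit 53) (nat_lit 5) (nat_lit 56) (nat_lit 5) (nat_lit 54) (nat_lit 5) (nat_lit 384) (nat_lit 329) (nat_lit 187)))))) (XT.nd (nat_lit 42666) (nat_lit 0) (nat_lit 14744) (XT.nd (nat_lit 234) (nat_lit 152) (nat_lit 0) (XT.nd (nat_lit 78) (nat_lit 380) (nat_lit 0) (XT.lf (nat_lit 0) (nat_lit 64333460068) (nat_lit 152) (nat_lit 17292039083) (nat_lit 228) (nat_lit 9734923518) (nat_lit 51) (nat_lit 5) (nat_lit 53) (nat_lit 5) (nat_lit 54) (nat_lit 5) (nat_lit 385) (nat_lit 329) (nat_lit 186)) (XT.nd (nat_lit 78) (nat_lit 152) (nat_lit 0) (XT.lf (nat_lit 0) (nat_lit 22347362939) (nat_lit 228) (nat_lit 48653413894) (nat_lit 76) (nat_lit 23681290357) (nat_lit 48) (nat_lit 5) (nat_lit 51) (nat_lit 5) (nat_lit 49) (nat_lit 5) (nat_lit 386) (nat_lit 329) (nat_lit 185)) (XT.lf (nat_lit 0) (nat_lit 25353009783) (nat_lit 152) (nat_lit 31176863659) (nat_lit 228) (nat_lit 41616106185)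 (nat_lit 46) (nat_lit 5) (nat_lit 48) (nat_lit 5) (nat_lit 49) (nat_lit 5) (nat_lit 387) (nat_lit 329) (nat_lit 184)))) (XT.nd (nat_lit 78) (nat_lit 76) (nat_lit 0) (XT.lf (nat_lit 0) (nat_lit 2238412723) (nat_lit 76) (nat_lit 90809119358) (nat_lit 152) (nat_lit 8716775438) (nat_lit 45) (nat_lit 5) (nat_lit 46) (nat_lit 5) (nat_lit 47) (nat_lit 4) (nat_lit 388) (nat_lit 329) (nat_lit 183)) (XT.nd (nat_lit 42276) (nat_lit 0) (nat_lit 15808) (XT.lf (nat_lit 0) (nat_lit 26391484165) (nat_lit 152) (nat_lit 23575250004) (nat_lit 76) (nat_lit 55557331503) (nat_lit 44) (nat_lit 5) (nat_lit 46) (nat_lit 5) (nat_lit 45) (nat_lit 5) (nat_lit 389) (nat_lit 329) (nat_lit 182)) (XT.lf (nat_lit 0) (nat_lit 3858412578) (nat_lit 0) (nat_lit 3858412578) (nat_lit 1140) (nat_lit 1155729259) (nat_lit 252) (nat_lit 5) (nat_lit 252) (nat_lit 3) (nat_lit 267) (nat_lit 3) (nat_lit 330) (nat_lit 330) (nat_lit 240)))))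 (XT.nd (nat_lit 234) (nat_lit 1064) (nat_lit 0) (XT.nd (nat_lit 78) (nat_lit 0) (nat_lit 76) (XT.lf (nat_lit 76) (nat_lit 4133498894) (nat_lit 0) (nat_lit 12122411315) (nat_lit 1216) (nat_lit 1919551642) (nat_lit 253) (nat_lit 5) (nat_lit 252) (nat_lit 5) (nat_lit 268) (nat_lit 5) (nat_lit 331) (nat_lit 330) (nat_lit 239)) (XT.nd (nat_lit 78) (nat_lit 0) (nat_lit 0) (XT.lf (nat_lit 76) (nat_lit 490965950) (nat_lit 0) (nat_lit 16809487147) (nat_lit 1216) (nat_lit 1321455981) (nat_lit 254) (nat_lit 5) (nat_lit 253) (nat_lit 5) (nat_lit 269) (nat_lit 5) (nat_lit 332) (nat_lit 330) (nat_lit 238)) (XT.lf (nat_lit 76) (nat_lit 15906988574) (nat_lit 0) (nat_lit 2735313116) (nat_lit 1216) (nat_lit 441035725) (nat_lit 254) (nat_lit 5) (nat_lit 253) (nat_lit 5) (nat_lit 269) (nat_lit 5) (nat_lit 333) (nat_lit 330) (nat_lit 237)))) (XT.nd (nat_lit 78) (nat_lit 0) (nat_lit 76) (XT.lf (nat_lit 0) (nat_lit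 693860226) (nat_lit 1216) (nat_lit 6923455572) (nat_lit 1292) (nat_lit 11943795605) (nat_lit 238) (nat_lit 5) (nat_lit 254) (nat_lit 5) (nat_lit 255) (nat_lit 5) (nat_lit 334) (nat_lit 330) (nat_lit 236)) (XT.nd (nat_lit 78) (nat_lit 0) (nat_lit 76) (XT.lf (nat_lit 0) (nat_lit 2079279172) (nat_lit 1216) (nat_lit 10744232033) (nat_lit 1292) (nat_lit 7233054678) (nat_lit 239) (nat_lit 5) (nat_lit 255) (nat_lit 5) (nat_lit 256) (nat_lit 5) (nat_lit 335) (nat_lit 330) (nat_lit 235)) (XT.lf (nat_lit 0) (nat_lit 3743457381) (nat_lit 1216) (nat_lit 14636654835) (nat_lit 1292) (nat_lit 2190405534) (nat_lit 240) (nat_lit 5) (nat_lit 256) (nat_lit 5) (nat_lit 257) (nat_lit 5) (nat_lit 336) (nat_lit 330) (nat_lit 234))))))) (XT.nd (nat_lit 936) (nat_lit 4636) (nat_lit 0) (XT.nd (nat_lit 468) (nat_lit 2812) (nat_lit 0) (XT.nd (nat_lit 234) (nat_lit 1596) (nat_lit 0) (XT.nd (nat_lit 78) (nat_lit 0) (nat_lit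 76) (XT.lf (nat_lit 76) (nat_lit 2468369814) (nat_lit 0) (nat_lit 3270025280) (nat_lit 1292) (nat_lit 15364354468) (nat_lit 241) (nat_lit 5) (nat_lit 240) (nat_lit 5) (nat_lit 257) (nat_lit 5) (nat_lit 337) (nat_lit 330) (nat_lit 233)) (XT.nd (nat_lit 78) (nat_lit 0) (nat_lit 76) (XT.lf (nat_lit 0) (nat_lit 8089758534) (nat_lit 1216) (nat_lit 1058118921) (nat_lit 1292) (nat_lit 12506023593) (nat_lit 241) (nat_lit 5) (nat_lit 257) (nat_lit 5) (nat_lit 258) (nat_lit 5) (nat_lit 338) (nat_lit 330) (nat_lit 232)) (XT.lf (nat_lit 0) (nat_lit 10812852824) (nat_lit 1216) (nat_lit 4596901868) (nat_lit 1292) (nat_lit 6815238579) (nat_lit 242) (nat_lit 5) (nat_lit 258) (nat_lit 5) (nat_lit 259) (nat_lit 5) (nat_lit 339) (nat_lit 330) (nat_lit 231)))) (XT.nd (nat_lit 78) (nat_lit 1824) (nat_lit 0) (XT.lf (nat_lit 0) (nat_lit 13907908279) (nat_lit 1216) (nat_lit 8197872683) (nat_lit 76) (nat_lit 711792612)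 (nat_lit 243) (nat_lit 5) (nat_lit 259) (nat_lit 5) (nat_lit 244) (nat_lit 5) (nat_lit 340) (nat_lit 330) (nat_lit 230)) (XT.nd (nat_lit 78) (nat_lit 608) (nat_lit 0) (XT.lf (nat_lit 0) (nat_lit 11510835023) (nat_lit 1216) (nat_lit 5946373380) (nat_lit 1292) (nat_lit 5973597030) (nat_lit 227) (nat_lit 5) (nat_lit 243) (nat_lit 5) (nat_lit 244) (nat_lit 5) (nat_lit 341) (nat_lit 330) (nat_lit 229)) (XT.lf (nat_lit 0) (nat_lit 8347546037) (nat_lit 608) (nat_lit 13093941776) (nat_lit 684) (nat_lit 2625492591) (nat_lit 219) (nat_lit 5) (nat_lit 227) (nat_lit 5) (nat_lit 228) (nat_lit 5) (nat_lit 342) (nat_lit 330) (nat_lit 228))))) (XT.nd (nat_lit 234) (nat_lit 1520) (nat_lit 0) (XT.nd (nat_lit 78) (nat_lit 608) (nat_lit 0) (XT.lf (nat_lit 0) (nat_lit 1131886430) (nat_lit 684) (nat_lit 19602614610) (nat_lit 76) (nat_lit 3992435745) (nat_lit 210) (nat_lit 5) (nat_lit 219) (nat_lit 5) (nat_lit 211)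 (nat_lit 5) (nat_lit 343) (nat_lit 330) (nat_lit 227)) (XT.nd (nat_lit 78) (nat_lit 0) (nat_lit 0) (XT.lf (nat_lit 0) (nat_lit 1785659769) (nat_lit 608) (nat_lit 3537467790) (nat_lit 684) (nat_lit 20086980926) (nat_lit 202) (nat_lit 5) (nat_lit 210) (nat_lit 5) (nat_lit 211) (nat_lit 5) (nat_lit 344) (nat_lit 330) (nat_lit 226)) (XT.lf (nat_lit 0) (nat_lit 10054833080) (nat_lit 684) (nat_lit 1622629217) (nat_lit 76) (nat_lit 14440055231) (nat_lit 202) (nat_lit 5) (nat_lit 211) (nat_lit 5) (nat_lit 203) (nat_lit 5) (nat_lit 345) (nat_lit 330) (nat_lit 225)))) (XT.nd (nat_lit 78) (nat_lit 988) (nat_lit 0) (XT.lf (nat_lit 0) (nat_lit 15320530310) (nat_lit 608) (nat_lit 5058689211) (nat_lit 76) (nat_lit 6472160858) (nat_lit 195) (nat_lit 5) (nat_lit 203) (nat_lit 5) (nat_lit 196) (nat_lit 5) (nat_lit 346) (nat_lit 330) (nat_lit 224)) (XT.nd (nat_lit 78) (nat_lit 456) (nat_lit 0) (XT.lf (nat_lit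 0) (nat_lit 19032557669) (nat_lit 532) (nat_lit 2123225569) (nat_lit 608) (nat_lit 6456970299) (nat_lit 188) (nat_lit 5) (nat_lit 195) (nat_lit 5) (nat_lit 196) (nat_lit 5) (nat_lit 347) (nat_lit 330) (nat_lit 223)) (XT.lf (nat_lit 0) (nat_lit 16162424997) (nat_lit 456) (nat_lit 11481189505) (nat_lit 532) (nat_lit 757761413) (nat_lit 182) (nat_lit 5) (nat_lit 188) (nat_lit 5) (nat_lit 189) (nat_lit 5) (nat_lit 348) (nat_lit 330) (nat_lit 222)))))) (XT.nd (nat_lit 468) (nat_lit 2204) (nat_lit 0) (XT.nd (nat_lit 234) (nat_lit 912) (nat_lit 0) (XT.nd (nat_lit 78) (nat_lit 912) (nat_lit 0) (XT.lf (nat_lit 0) (nat_lit 5428020359) (nat_lit 608) (nat_lit 16028036223) (nat_lit 76) (nat_lit 7762762347) (nat_lit 174) (nat_lit 5) (nat_lit 182) (nat_lit 5) (nat_lit 175) (nat_lit 5) (nat_lit 349) (nat_lit 330) (nat_lit 221)) (XT.nd (nat_lit 78) (nat_lit 456) (nat_lit 0) (XT.lf (nat_lit 0) (nat_lit 10135538112)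 (nat_lit 456) (nat_lit 2102271918) (nat_lit 532) (nat_lit 17829191706) (nat_lit 168) (nat_lit 5) (nat_lit 174) (nat_lit 5) (nat_lit 175) (nat_lit 5) (nat_lit 350) (nat_lit 330) (nat_lit 220)) (XT.lf (nat_lit 0) (nat_lit 6936354176) (nat_lit 456) (nat_lit 12850234797) (nat_lit 532) (nat_lit 11159053941) (nat_lit 162) (nat_lit 5) (nat_lit 168) (nat_lit 5) (nat_lit 169) (nat_lit 5) (nat_lit 351) (nat_lit 330) (nat_lit 219)))) (XT.nd (nat_lit 78) (nat_lit 532) (nat_lit 0) (XT.lf (nat_lit 0) (nat_lit 3667730275) (nat_lit 380) (nat_lit 24370015223) (nat_lit 456) (nat_lit 3820726513) (nat_lit 157) (nat_lit 5) (nat_lit 162) (nat_lit 5) (nat_lit 163) (nat_lit 5) (nat_lit 352) (nat_lit 330) (nat_lit 218)) (XT.nd (nat_lit 78) (nat_lit 0) (nat_lit 0) (XT.lf (nat_lit 0) (nat_lit 244473892) (nat_lit 456) (nat_lit 3936552127) (nat_lit 532) (nat_lit 28623630763) (nat_lit 150) (nat_lit 5) (nat_lit 156) (nat_lit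 5) (nat_lit 157) (nat_lit 5) (nat_lit 353) (nat_lit 330) (nat_lit 217)) (XT.lf (nat_lit 0) (nat_lit 12957025969) (nat_lit 532) (nat_lit 3320250890) (nat_lit 76) (nat_lit 17506147256) (nat_lit 150) (nat_lit 5) (nat_lit 157) (nat_lit 5) (nat_lit 151) (nat_lit 5) (nat_lit 354) (nat_lit 330) (nat_lit 216))))) (XT.nd (nat_lit 234) (nat_lit 1064) (nat_lit 0) (XT.nd (nat_lit 78) (nat_lit 760) (nat_lit 0) (XT.lf (nat_lit 0) (nat_lit 22522857925) (nat_lit 456) (nat_lit 6979197213) (nat_lit 76) (nat_lit 5298547090) (nat_lit 145) (nat_lit 5) (nat_lit 151) (nat_lit 5) (nat_lit 146) (nat_lit 5) (nat_lit 355) (nat_lit 330) (nat_lit 215)) (XT.nd (nat_lit 78) (nat_lit 380) (nat_lit 0) (XT.lf (nat_lit 0) (nat_lit 25034916161) (nat_lit 380) (nat_lit 7963210578) (nat_lit 456) (nat_lit 2857581360) (nat_lit 140) (nat_lit 5) (nat_lit 145) (nat_lit 5) (nat_lit 146) (nat_lit 5) (nat_lit 356) (nat_lit 330) (nat_lit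 214)) (XT.lf (nat_lit 0) (nat_lit 7318402244) (nat_lit 380) (nat_lit 14909464442) (nat_lit 76) (nat_lit 14721015319) (nat_lit 135) (nat_lit 5) (nat_lit 140) (nat_lit 5) (nat_lit 136) (nat_lit 5) (nat_lit 357) (nat_lit 330) (nat_lit 213)))) (XT.nd (nat_lit 78) (nat_lit 684) (nat_lit 0) (XT.lf (nat_lit 0) (nat_lit 18317451958) (nat_lit 456) (nat_lit 19167037243) (nat_lit 76) (nat_lit 600178463) (nat_lit 130) (nat_lit 5) (nat_lit 136) (nat_lit 5) (nat_lit 131) (nat_lit 5) (nat_lit 358) (nat_lit 330) (nat_lit 212)) (XT.nd (nat_lit 78) (nat_lit 380) (nat_lit 0) (XT.lf (nat_lit 0) (nat_lit 15541868919) (nat_lit 304) (nat_lit 14845739688) (nat_lit 380) (nat_lit 8874002060) (nat_lit 126) (nat_lit 5) (nat_lit 130) (nat_lit 5) (nat_lit 131) (nat_lit 5) (nat_lit 359) (nat_lit 330) (nat_lit 211)) (XT.lf (nat_lit 0) (nat_lit 2911086106) (nat_lit 380) (nat_lit 28482265836) (nat_lit 76) (nat_lit 9091394678)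 (nat_lit 121) (nat_lit 5) (nat_lit 126) (nat_lit 5) (nat_lit 122) (nat_lit 5) (nat_lit 360) (nat_lit 330) (nat_lit 210))))))))
noncomputable def xc98 : XT := (XT.nd (nat_lit 1872) (nat_lit 608) (nat_lit 0) (XT.nd (nat_lit 936) (nat_lit 2280) (nat_lit 0) (XT.nd (nat_lit 468) (nat_lit 1368) (nat_lit 0) (XT.nd (nat_lit 234) (nat_lit 912) (nat_lit 0) (XT.nd (nat_lit 78) (nat_lit 304) (nat_lit 0) (XT.lf (nat_lit 0) (nat_lit 8151733937) (nat_lit 304) (nat_lit 7419486588) (nat_lit 380) (nat_lit 26181105780) (nat_lit 117) (nat_lit 5) (nat_lit 121) (nat_lit 5) (nat_lit 122) (nat_lit 5) (nat_lit 361) (nat_lit 330) (nat_lit 209)) (XT.nd (nat_lit 78) (nat_lit 0) (nat_lit 0) (XT.lf (nat_lit 0) (nat_lit 4033116208) (nat_lit 304) (nat_lit 25329808164) (nat_lit 380) (nat_lit 13705405981) (nat_lit 113) (nat_lit 5) (nat_lit 117) (nat_lit 5) (nat_lit 118) (nat_lit 5) (nat_lit 362) (nat_lit 330) (nat_lit 208))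 (XT.lf (nat_lit 0) (nat_lit 44164409814) (nat_lit 304) (nat_lit 93118904) (nat_lit 380) (nat_lit 180208578) (nat_lit 113) (nat_lit 5) (nat_lit 117) (nat_lit 5) (nat_lit 118) (nat_lit 5) (nat_lit 363) (nat_lit 330) (nat_lit 207)))) (XT.nd (nat_lit 78) (nat_lit 532) (nat_lit 0) (XT.lf (nat_lit 0) (nat_lit 14395137729) (nat_lit 380) (nat_lit 5034926744) (nat_lit 76) (nat_lit 26422083854) (nat_lit 108) (nat_lit 5) (nat_lit 113) (nat_lit 5) (nat_lit 109) (nat_lit 5) (nat_lit 364) (nat_lit 330) (nat_lit 206)) (XT.nd (nat_lit 78) (nat_lit 228) (nat_lit 0) (XT.lf (nat_lit 0) (nat_lit 30122192724) (nat_lit 380) (nat_lit 10049273820) (nat_lit 76) (nat_lit 7152961683) (nat_lit 104) (nat_lit 5) (nat_lit 109) (nat_lit 5) (nat_lit 105) (nat_lit 5) (nat_lit 365) (nat_lit 330) (nat_lit 205)) (XT.lf (nat_lit 0) (nat_lit 33382669637) (nat_lit 228) (nat_lit 13816181882) (nat_lit 304) (nat_lit 1654574877) (nat_lit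 101) (nat_lit 5) (nat_lit 104) (nat_lit 5) (nat_lit 105) (nat_lit 5) (nat_lit 366) (nat_lit 330) (nat_lit 204))))) (XT.nd (nat_lit 234) (nat_lit 532) (nat_lit 0) (XT.nd (nat_lit 78) (nat_lit 456) (nat_lit 0) (XT.lf (nat_lit 0) (nat_lit 14901374172) (nat_lit 380) (nat_lit 21423443382) (nat_lit 76) (nat_lit 14114312568) (nat_lit 96) (nat_lit 5) (nat_lit 101) (nat_lit 5) (nat_lit 97) (nat_lit 5) (nat_lit 367) (nat_lit 330) (nat_lit 203)) (XT.nd (nat_lit 78) (nat_lit 228) (nat_lit 0) (XT.lf (nat_lit 0) (nat_lit 24256975076) (nat_lit 228) (nat_lit 8521914195) (nat_lit 304) (nat_lit 19308900264) (nat_lit 93) (nat_lit 5) (nat_lit 96) (nat_lit 5) (nat_lit 97) (nat_lit 5) (nat_lit 368) (nat_lit 330) (nat_lit 202)) (XT.lf (nat_lit 0) (nat_lit 19018137876) (nat_lit 228) (nat_lit 33130751408) (nat_lit 304) (nat_lit 1652035872) (nat_lit 90) (nat_lit 5) (nat_lit 93) (nat_lit 5) (nat_lit 94) (nat_lit 5) (nat_lit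 369) (nat_lit 330) (nat_lit 201)))) (XT.nd (nat_lit 78) (nat_lit 228) (nat_lit 0) (XT.lf (nat_lit 0) (nat_lit 13197566361) (nat_lit 228) (nat_lit 3857275134) (nat_lit 304) (nat_lit 38525106153) (nat_lit 86) (nat_lit 5) (nat_lit 89) (nat_lit 5) (nat_lit 90) (nat_lit 5) (nat_lit 370) (nat_lit 330) (nat_lit 200)) (XT.nd (nat_lit 78) (nat_lit 0) (nat_lit 0) (XT.lf (nat_lit 0) (nat_lit 6710296427) (nat_lit 228) (nat_lit 30632060780) (nat_lit 304) (nat_lit 20084690852) (nat_lit 83) (nat_lit 5) (nat_lit 86) (nat_lit 5) (nat_lit 87) (nat_lit 5) (nat_lit 371) (nat_lit 330) (nat_lit 199)) (XT.lf (nat_lit 0) (nat_lit 59095159623) (nat_lit 228) (nat_lit 18753907) (nat_lit 304) (nat_lit 238501287) (nat_lit 83) (nat_lit 5) (nat_lit 86) (nat_lit 5) (nat_lit 87) (nat_lit 5) (nat_lit 372) (nat_lit 330) (nat_lit 198)))))) (XT.nd (nat_lit 468) (nat_lit 912) (nat_lit 0) (XT.nd (nat_lit 234) (nat_lit 684) (nat_lit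 0) (XT.nd (nat_lit 78) (nat_lit 456) (nat_lit 0) (XT.lf (nat_lit 0) (nat_lit 21023767666) (nat_lit 228) (nat_lit 8104327798) (nat_lit 76) (nat_lit 32215242526) (nat_lit 80) (nat_lit 5) (nat_lit 83) (nat_lit 5) (nat_lit 81) (nat_lit 5) (nat_lit 373) (nat_lit 330) (nat_lit 197)) (XT.nd (nat_lit 78) (nat_lit 228) (nat_lit 0) (XT.lf (nat_lit 0) (nat_lit 43822710038) (nat_lit 304) (nat_lit 16563969577) (nat_lit 76) (nat_lit 3032703207) (nat_lit 77) (nat_lit 5) (nat_lit 81) (nat_lit 5) (nat_lit 78) (nat_lit 5) (nat_lit 374) (nat_lit 330) (nat_lit 196)) (XT.lf (nat_lit 0) (nat_lit 2881886938) (nat_lit 228) (nat_lit 25998930263) (nat_lit 76) (nat_lit 36694938759) (nat_lit 74) (nat_lit 5) (nat_lit 77) (nat_lit 5) (nat_lit 75) (nat_lit 5) (nat_lit 375) (nat_lit 330) (nat_lit 195)))) (XT.nd (nat_lit 78) (nat_lit 456) (nat_lit 0) (XT.lf (nat_lit 0) (nat_lit 26599682064) (nat_lit 304) (nat_lit 36424627495)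 (nat_lit 76) (nat_lit 4794200486) (nat_lit 71) (nat_lit 5) (nat_lit 75) (nat_lit 5) (nat_lit 72) (nat_lit 5) (nat_lit 376) (nat_lit 330) (nat_lit 194)) (XT.nd (nat_lit 78) (nat_lit 304) (nat_lit 0) (XT.lf (nat_lit 0) (nat_lit 22165006688) (nat_lit 152) (nat_lit 30108713937) (nat_lit 228) (nat_lit 17876571536) (nat_lit 69) (nat_lit 5) (nat_lit 71) (nat_lit 5) (nat_lit 72) (nat_lit 5) (nat_lit 377) (nat_lit 330) (nat_lit 193)) (XT.lf (nat_lit 0) (nat_lit 7041456750) (nat_lit 304) (nat_lit 60612942027) (nat_lit 76) (nat_lit 4926210055) (nat_lit 65) (nat_lit 5) (nat_lit 69) (nat_lit 5) (nat_lit 66) (nat_lit 5) (nat_lit 378) (nat_lit 330) (nat_lit 192))))) (XT.nd (nat_lit 234) (nat_lit 532) (nat_lit 0) (XT.nd (nat_lit 78) (nat_lit 228) (nat_lit 0) (XT.lf (nat_lit 0) (nat_lit 312903313) (nat_lit 152) (nat_lit 33327676736) (nat_lit 228) (nat_lit 41462404984) (nat_lit 63) (nat_lit 5) (nat_lit 65) (nat_lit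 5) (nat_lit 66) (nat_lit 5) (nat_lit 379) (nat_lit 330) (nat_lit 191)) (XT.nd (nat_lit 78) (nat_lit 228) (nat_lit 0) (XT.lf (nat_lit 0) (nat_lit 62221714649) (nat_lit 228) (nat_lit 12220633076) (nat_lit 76) (nat_lit 3289571452) (nat_lit 63) (nat_lit 5) (nat_lit 66) (nat_lit 5) (nat_lit 64) (nat_lit 5) (nat_lit 380) (nat_lit 330) (nat_lit 190)) (XT.lf (nat_lit 0) (nat_lit 12372295494) (nat_lit 228) (nat_lit 26396543139) (nat_lit 76) (nat_lit 41694223525) (nat_lit 60) (nat_lit 5) (nat_lit 63) (nat_lit 5) (nat_lit 61) (nat_lit 5) (nat_lit 381) (nat_lit 330) (nat_lit 189)))) (XT.nd (nat_lit 78) (nat_lit 380) (nat_lit 0) (XT.lf (nat_lit 0) (nat_lit 41236495378) (nat_lit 152) (nat_lit 614172718) (nat_lit 228) (nat_lit 41459812223) (nat_lit 58) (nat_lit 5) (nat_lit 60) (nat_lit 5) (nat_lit 61) (nat_lit 5) (nat_lit 382) (nat_lit 330) (nat_lit 188)) (XT.nd (nat_lit 78) (nat_lit 228) (nat_lit 0) (XT.lf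 (nat_lit 0) (nat_lit 26641977605) (nat_lit 152) (nat_lit 47066899470) (nat_lit 228) (nat_lit 12564215441) (nat_lit 56) (nat_lit 5) (nat_lit 58) (nat_lit 5) (nat_lit 59) (nat_lit 5) (nat_lit 383) (nat_lit 330) (nat_lit 187)) (XT.lf (nat_lit 0) (nat_lit 10315474671) (nat_lit 152) (nat_lit 7652850262) (nat_lit 228) (nat_lit 71394213516) (nat_lit 53) (nat_lit 5) (nat_lit 55) (nat_lit 5) (nat_lit 56) (nat_lit 5) (nat_lit 384) (nat_lit 330) (nat_lit 186))))))) (XT.nd (nat_lit 43212) (nat_lit 0) (nat_lit 10412) (XT.nd (nat_lit 42744) (nat_lit 0) (nat_lit 14592) (XT.nd (nat_lit 234) (nat_lit 228) (nat_lit 0) (XT.nd (nat_lit 78) (nat_lit 380) (nat_lit 0) (XT.lf (nat_lit 0) (nat_lit 50710608923) (nat_lit 228) (nat_lit 8046142869) (nat_lit 76) (nat_lit 33817684610) (nat_lit 53) (nat_lit 5) (nat_lit 56) (nat_lit 5) (nat_lit 54) (nat_lit 5) (nat_lit 385) (nat_lit 330) (nat_lit 185)) (XT.nd (nat_lit 78) (nat_lit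 228) (nat_lit 0) (XT.lf (nat_lit 0) (nat_lit 67743339264) (nat_lit 152) (nat_lit 18071642473) (nat_lit 228) (nat_lit 10110198827) (nat_lit 51) (nat_lit 5) (nat_lit 53) (nat_lit 5) (nat_lit 54) (nat_lit 5) (nat_lit 386) (nat_lit 330) (nat_lit 184)) (XT.lf (nat_lit 0) (nat_lit 23571452961) (nat_lit 228) (nat_lit 50893900852) (nat_lit 76) (nat_lit 24947599354) (nat_lit 48) (nat_lit 5) (nat_lit 51) (nat_lit 5) (nat_lit 49) (nat_lit 5) (nat_lit 387) (nat_lit 330) (nat_lit 183)))) (XT.nd (nat_lit 78) (nat_lit 76) (nat_lit 0) (XT.lf (nat_lit 0) (nat_lit 26807335102) (nat_lit 152) (nat_lit 32652466326) (nat_lit 228) (nat_lit 43590359174) (nat_lit 46) (nat_lit 5) (nat_lit 48) (nat_lit 5) (nat_lit 49) (nat_lit 5) (nat_lit 388) (nat_lit 330) (nat_lit 182)) (XT.nd (nat_lit 42354) (nat_lit 0) (nat_lit 15732) (XT.lf (nat_lit 0) (nat_lit 2533908600) (nat_lit 76) (nat_lit 95267035649) (nat_lit 152) (nat_lit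 9048533315) (nat_lit 45) (nat_lit 5) (nat_lit 46) (nat_lit 5) (nat_lit 47) (nat_lit 4) (nat_lit 389) (nat_lit 330) (nat_lit 181)) (XT.lf (nat_lit 0) (nat_lit 4217562160) (nat_lit 0) (nat_lit 4217562160) (nat_lit 1140) (nat_lit 870904779) (nat_lit 252) (nat_lit 5) (nat_lit 252) (nat_lit 3) (nat_lit 267) (nat_lit 3) (nat_lit 331) (nat_lit 331) (nat_lit 238))))) (XT.nd (nat_lit 234) (nat_lit 0) (nat_lit 76) (XT.nd (nat_lit 78) (nat_lit 1140) (nat_lit 0) (XT.lf (nat_lit 76) (nat_lit 4685930092) (nat_lit 0) (nat_lit 13016308792) (nat_lit 1216) (nat_lit 1362648539) (nat_lit 253) (nat_lit 5) (nat_lit 252) (nat_lit 5) (nat_lit 268) (nat_lit 5) (nat_lit 332) (nat_lit 331) (nat_lit 237)) (XT.nd (nat_lit 78) (nat_lit 1216) (nat_lit 0) (XT.lf (nat_lit 76) (nat_lit 872839387) (nat_lit 0) (nat_lit 17896801552) (nat_lit 1216) (nat_lit 764913376) (nat_lit 254) (nat_lit 5) (nat_lit 253) (nat_lit 5) (nat_lit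 269) (nat_lit 5) (nat_lit 333) (nat_lit 331) (nat_lit 236)) (XT.lf (nat_lit 0) (nat_lit 127345122) (nat_lit 1216) (nat_lit 2978533473) (nat_lit 1292) (nat_lit 16914016601) (nat_lit 237) (nat_lit 5) (nat_lit 253) (nat_lit 5) (nat_lit 254) (nat_lit 5) (nat_lit 334) (nat_lit 331) (nat_lit 235)))) (XT.nd (nat_lit 78) (nat_lit 0) (nat_lit 76) (XT.lf (nat_lit 0) (nat_lit 1283486304) (nat_lit 1216) (nat_lit 6908479957) (nat_lit 1292) (nat_lit 12330266291) (nat_lit 238) (nat_lit 5) (nat_lit 254) (nat_lit 5) (nat_lit 255) (nat_lit 5) (nat_lit 335) (nat_lit 331) (nat_lit 234)) (XT.nd (nat_lit 78) (nat_lit 0) (nat_lit 76) (XT.lf (nat_lit 0) (nat_lit 2713382193) (nat_lit 1216) (nat_lit 10912677619) (nat_lit 1292) (nat_lit 7417157403) (nat_lit 239) (nat_lit 5) (nat_lit 255) (nat_lit 5) (nat_lit 256) (nat_lit 5) (nat_lit 336) (nat_lit 331) (nat_lit 233)) (XT.lf (nat_lit 0) (nat_lit 4437524531) (nat_lit 1216)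 (nat_lit 14993338982) (nat_lit 1292) (nat_lit 2152713497) (nat_lit 240) (nat_lit 5) (nat_lit 256) (nat_lit 5) (nat_lit 257) (nat_lit 5) (nat_lit 337) (nat_lit 331) (nat_lit 232)))))) (XT.nd (nat_lit 468) (nat_lit 2812) (nat_lit 0) (XT.nd (nat_lit 234) (nat_lit 1596) (nat_lit 0) (XT.nd (nat_lit 78) (nat_lit 0) (nat_lit 76) (XT.lf (nat_lit 76) (nat_lit 2956183341) (nat_lit 0) (nat_lit 3555390754) (nat_lit 1292) (nat_lit 15631477740) (nat_lit 241) (nat_lit 5) (nat_lit 240) (nat_lit 5) (nat_lit 257) (nat_lit 5) (nat_lit 338) (nat_lit 331) (nat_lit 231)) (XT.nd (nat_lit 78) (nat_lit 0) (nat_lit 76) (XT.lf (nat_lit 0) (nat_lit 8956234854) (nat_lit 1216) (nat_lit 748737557) (nat_lit 1292) (nat_lit 13017528391) (nat_lit 241) (nat_lit 5) (nat_lit 257) (nat_lit 5) (nat_lit 258) (nat_lit 5) (nat_lit 339) (nat_lit 331) (nat_lit 230)) (XT.lf (nat_lit 0) (nat_lit 11795987855) (nat_lit 1216) (nat_lit 4460439713)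 (nat_lit 1292) (nat_lit 7066316171) (nat_lit 242) (nat_lit 5) (nat_lit 258) (nat_lit 5) (nat_lit 259) (nat_lit 5) (nat_lit 340) (nat_lit 331) (nat_lit 229)))) (XT.nd (nat_lit 78) (nat_lit 1824) (nat_lit 0) (XT.lf (nat_lit 0) (nat_lit 15027481650) (nat_lit 1216) (nat_lit 8238336607) (nat_lit 76) (nat_lit 679694919) (nat_lit 243) (nat_lit 5) (nat_lit 259) (nat_lit 5) (nat_lit 244) (nat_lit 5) (nat_lit 341) (nat_lit 331) (nat_lit 228)) (XT.nd (nat_lit 78) (nat_lit 608) (nat_lit 0) (XT.lf (nat_lit 0) (nat_lit 12445216856) (nat_lit 1216) (nat_lit 6292280365) (nat_lit 1292) (nat_lit 5852422072) (nat_lit 227) (nat_lit 5) (nat_lit 243) (nat_lit 5) (nat_lit 244) (nat_lit 5) (nat_lit 342) (nat_lit 331) (nat_lit 227)) (XT.lf (nat_lit 0) (nat_lit 9126001225) (nat_lit 608) (nat_lit 13778614106) (nat_lit 684) (nat_lit 2353788633) (nat_lit 219) (nat_lit 5) (nat_lit 227) (nat_lit 5) (nat_lit 228) (nat_lit 5)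 (nat_lit 343) (nat_lit 331) (nat_lit 226))))) (XT.nd (nat_lit 234) (nat_lit 1520) (nat_lit 0) (XT.nd (nat_lit 78) (nat_lit 608) (nat_lit 0) (XT.lf (nat_lit 0) (nat_lit 1568023595) (nat_lit 684) (nat_lit 20212421276) (nat_lit 76) (nat_lit 4171273211) (nat_lit 210) (nat_lit 5) (nat_lit 219) (nat_lit 5) (nat_lit 211) (nat_lit 5) (nat_lit 344) (nat_lit 331) (nat_lit 225)) (XT.nd (nat_lit 78) (nat_lit 0) (nat_lit 0) (XT.lf (nat_lit 0) (nat_lit 2234651558) (nat_lit 608) (nat_lit 3719559495) (nat_lit 684) (nat_lit 20715284322) (nat_lit 202) (nat_lit 5) (nat_lit 210) (nat_lit 5) (nat_lit 211) (nat_lit 5) (nat_lit 345) (nat_lit 331) (nat_lit 224)) (XT.lf (nat_lit 0) (nat_lit 10905076595) (nat_lit 684) (nat_lit 1350544015) (nat_lit 76) (nat_lit 15157185147) (nat_lit 202) (nat_lit 5) (nat_lit 211) (nat_lit 5) (nat_lit 203) (nat_lit 5) (nat_lit 346) (nat_lit 331) (nat_lit 223)))) (XT.nd (nat_lit 78) (nat_lit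 988) (nat_lit 0) (XT.lf (nat_lit 0) (nat_lit 16420893959) (nat_lit 608) (nat_lit 4958434452) (nat_lit 76) (nat_lit 6804436025) (nat_lit 195) (nat_lit 5) (nat_lit 203) (nat_lit 5) (nat_lit 196) (nat_lit 5) (nat_lit 347) (nat_lit 331) (nat_lit 222)) (XT.nd (nat_lit 78) (nat_lit 456) (nat_lit 0) (XT.lf (nat_lit 0) (nat_lit 20327250674) (nat_lit 532) (nat_lit 2208035795) (nat_lit 608) (nat_lit 6448305847) (nat_lit 188) (nat_lit 5) (nat_lit 195) (nat_lit 5) (nat_lit 196) (nat_lit 5) (nat_lit 348) (nat_lit 331) (nat_lit 221)) (XT.lf (nat_lit 0) (nat_lit 17313096133) (nat_lit 456) (nat_lit 12022581710) (nat_lit 532) (nat_lit 476329936) (nat_lit 182) (nat_lit 5) (nat_lit 188) (nat_lit 5) (nat_lit 189) (nat_lit 5) (nat_lit 349) (nat_lit 331) (nat_lit 220))))))))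
noncomputable def xc99 : XT := (XT.nd (nat_lit 1872) (nat_lit 2812) (nat_lit 0) (XT.nd (nat_lit 936) (nat_lit 2888) (nat_lit 0) (XT.nd (nat_lit 468) (nat_lit 2204) (nat_lit 0) (XT.nd (nat_lit 234) (nat_lit 912) (nat_lit 0) (XT.nd (nat_lit 78) (nat_lit 912) (nat_lit 0) (XT.lf (nat_lit 0) (nat_lit 6001219005) (nat_lit 608) (nat_lit 16481709631) (nat_lit 76) (nat_lit 8187647442) (nat_lit 174) (nat_lit 5) (nat_lit 182) (nat_lit 5) (nat_lit 175) (nat_lit 5) (nat_lit 350) (nat_lit 331) (nat_lit 219)) (XT.nd (nat_lit 78) (nat_lit 456) (nat_lit 0) (XT.lf (nat_lit 0) (nat_lit 10980075855) (nat_lit 456) (nat_lit 2160297753) (nat_lit 532) (nat_lit 18421134339) (nat_lit 168) (nat_lit 5) (nat_lit 174) (nat_lit 5) (nat_lit 175) (nat_lit 5) (nat_lit 351) (nat_lit 331) (nat_lit 218)) (XT.lf (nat_lit 0) (nat_lit 7619401582) (nat_lit 456) (nat_lit 13437011468) (nat_lit 532) (nat_lit 11427979376) (nat_lit 162)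 (nat_lit 5) (nat_lit 168) (nat_lit 5) (nat_lit 169) (nat_lit 5) (nat_lit 352) (nat_lit 331) (nat_lit 217)))) (XT.nd (nat_lit 78) (nat_lit 532) (nat_lit 0) (XT.lf (nat_lit 0) (nat_lit 4185476174) (nat_lit 380) (nat_lit 25525018655) (nat_lit 456) (nat_lit 3732662736) (nat_lit 157) (nat_lit 5) (nat_lit 162) (nat_lit 5) (nat_lit 163) (nat_lit 5) (nat_lit 353) (nat_lit 331) (nat_lit 216)) (XT.nd (nat_lit 78) (nat_lit 0) (nat_lit 0) (XT.lf (nat_lit 0) (nat_lit 586868555) (nat_lit 456) (nat_lit 4067005288) (nat_lit 532) (nat_lit 29782998151) (nat_lit 150) (nat_lit 5) (nat_lit 156) (nat_lit 5) (nat_lit 157) (nat_lit 5) (nat_lit 354) (nat_lit 331) (nat_lit 215)) (XT.lf (nat_lit 0) (nat_lit 13856719701) (nat_lit 532) (nat_lit 3164786707) (nat_lit 76) (nat_lit 18443434848) (nat_lit 150) (nat_lit 5) (nat_lit 157) (nat_lit 5) (nat_lit 151) (nat_lit 5) (nat_lit 355) (nat_lit 331) (nat_lit 214))))) (XT.nd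 (nat_lit 234) (nat_lit 1064) (nat_lit 0) (XT.nd (nat_lit 78) (nat_lit 760) (nat_lit 0) (XT.lf (nat_lit 0) (nat_lit 23892519620) (nat_lit 456) (nat_lit 7009182989) (nat_lit 76) (nat_lit 5631530079) (nat_lit 145) (nat_lit 5) (nat_lit 151) (nat_lit 5) (nat_lit 146) (nat_lit 5) (nat_lit 356) (nat_lit 331) (nat_lit 213)) (XT.nd (nat_lit 78) (nat_lit 380) (nat_lit 0) (XT.lf (nat_lit 0) (nat_lit 26596492725) (nat_lit 380) (nat_lit 8286441299) (nat_lit 456) (nat_lit 2758422845) (nat_lit 140) (nat_lit 5) (nat_lit 145) (nat_lit 5) (nat_lit 146) (nat_lit 5) (nat_lit 357) (nat_lit 331) (nat_lit 212)) (XT.lf (nat_lit 0) (nat_lit 7914011042) (nat_lit 380) (nat_lit 15343101595) (nat_lit 76) (nat_lit 15532239954) (nat_lit 135) (nat_lit 5) (nat_lit 140) (nat_lit 5) (nat_lit 136) (nat_lit 5) (nat_lit 358) (nat_lit 331) (nat_lit 211)))) (XT.nd (nat_lit 78) (nat_lit 684) (nat_lit 0) (XT.lf (nat_lit 0) (nat_lit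 19455768197) (nat_lit 456) (nat_lit 19816543840) (nat_lit 76) (nat_lit 709836793) (nat_lit 130) (nat_lit 5) (nat_lit 136) (nat_lit 5) (nat_lit 131) (nat_lit 5) (nat_lit 359) (nat_lit 331) (nat_lit 210)) (XT.nd (nat_lit 78) (nat_lit 380) (nat_lit 0) (XT.lf (nat_lit 0) (nat_lit 16618954644) (nat_lit 304) (nat_lit 15502769190) (nat_lit 380) (nat_lit 9096450172) (nat_lit 126) (nat_lit 5) (nat_lit 130) (nat_lit 5) (nat_lit 131) (nat_lit 5) (nat_lit 360) (nat_lit 331) (nat_lit 209)) (XT.lf (nat_lit 0) (nat_lit 3266915518) (nat_lit 380) (nat_lit 29605197367) (nat_lit 76) (nat_lit 9630493325) (nat_lit 121) (nat_lit 5) (nat_lit 126) (nat_lit 5) (nat_lit 122) (nat_lit 5) (nat_lit 361) (nat_lit 331) (nat_lit 208)))))) (XT.nd (nat_lit 468) (nat_lit 1368) (nat_lit 0) (XT.nd (nat_lit 234) (nat_lit 836) (nat_lit 0) (XT.nd (nat_lit 78) (nat_lit 380) (nat_lit 0) (XT.lf (nat_lit 0) (nat_lit 8851869080) (nat_lit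 304) (nat_lit 7700986633) (nat_lit 380) (nat_lit 27280928504) (nat_lit 117) (nat_lit 5) (nat_lit 121) (nat_lit 5) (nat_lit 122) (nat_lit 5) (nat_lit 362) (nat_lit 331) (nat_lit 207)) (XT.nd (nat_lit 78) (nat_lit 76) (nat_lit 0) (XT.lf (nat_lit 0) (nat_lit 4524081068) (nat_lit 304) (nat_lit 26503993625) (nat_lit 380) (nat_lit 14187699026) (nat_lit 113) (nat_lit 5) (nat_lit 117) (nat_lit 5) (nat_lit 118) (nat_lit 5) (nat_lit 363) (nat_lit 331) (nat_lit 206)) (XT.lf (nat_lit 0) (nat_lit 4012801) (nat_lit 380) (nat_lit 5812053) (nat_lit 76) (nat_lit 46644109411) (nat_lit 112) (nat_lit 5) (nat_lit 117) (nat_lit 5) (nat_lit 113) (nat_lit 5) (nat_lit 364) (nat_lit 331) (nat_lit 205)))) (XT.nd (nat_lit 78) (nat_lit 532) (nat_lit 0) (XT.lf (nat_lit 0) (nat_lit 15298864969) (nat_lit 380) (nat_lit 5010617028) (nat_lit 76) (nat_lit 27829699133) (nat_lit 108) (nat_lit 5) (nat_lit 113) (nat_lit 5) (nat_lit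 109) (nat_lit 5) (nat_lit 365) (nat_lit 331) (nat_lit 204)) (XT.nd (nat_lit 78) (nat_lit 228) (nat_lit 0) (XT.lf (nat_lit 0) (nat_lit 31806958327) (nat_lit 380) (nat_lit 10279076620) (nat_lit 76) (nat_lit 7599202152) (nat_lit 104) (nat_lit 5) (nat_lit 109) (nat_lit 5) (nat_lit 105) (nat_lit 5) (nat_lit 366) (nat_lit 331) (nat_lit 203)) (XT.lf (nat_lit 0) (nat_lit 35316648240) (nat_lit 228) (nat_lit 14414840248) (nat_lit 304) (nat_lit 1559378052) (nat_lit 101) (nat_lit 5) (nat_lit 104) (nat_lit 5) (nat_lit 105) (nat_lit 5) (nat_lit 367) (nat_lit 331) (nat_lit 202))))) (XT.nd (nat_lit 234) (nat_lit 532) (nat_lit 0) (XT.nd (nat_lit 78) (nat_lit 456) (nat_lit 0) (XT.lf (nat_lit 0) (nat_lit 15815979482) (nat_lit 380) (nat_lit 22229720696) (nat_lit 76) (nat_lit 14910253803) (nat_lit 96) (nat_lit 5) (nat_lit 101) (nat_lit 5) (nat_lit 97) (nat_lit 5) (nat_lit 368) (nat_lit 331) (nat_lit 201)) (XT.nd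 (nat_lit 78) (nat_lit 228) (nat_lit 0) (XT.lf (nat_lit 0) (nat_lit 25727125528) (nat_lit 228) (nat_lit 8854644978) (nat_lit 304) (nat_lit 20105446070) (nat_lit 93) (nat_lit 5) (nat_lit 96) (nat_lit 5) (nat_lit 97) (nat_lit 5) (nat_lit 369) (nat_lit 331) (nat_lit 200)) (XT.lf (nat_lit 0) (nat_lit 20222919400) (nat_lit 228) (nat_lit 34692839750) (nat_lit 304) (nat_lit 1570387282) (nat_lit 90) (nat_lit 5) (nat_lit 93) (nat_lit 5) (nat_lit 94) (nat_lit 5) (nat_lit 370) (nat_lit 331) (nat_lit 199)))) (XT.nd (nat_lit 78) (nat_lit 228) (nat_lit 0) (XT.lf (nat_lit 0) (nat_lit 14107195102) (nat_lit 228) (nat_lit 3956165666) (nat_lit 304) (nat_lit 40290871906) (nat_lit 86) (nat_lit 5) (nat_lit 89) (nat_lit 5) (nat_lit 90) (nat_lit 5) (nat_lit 371) (nat_lit 331) (nat_lit 198)) (XT.nd (nat_lit 78) (nat_lit 0) (nat_lit 0) (XT.lf (nat_lit 0) (nat_lit 7292102468) (nat_lit 228) (nat_lit 32068959651) (nat_lit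 304) (nat_lit 20932753552) (nat_lit 83) (nat_lit 5) (nat_lit 86) (nat_lit 5) (nat_lit 87) (nat_lit 5) (nat_lit 372) (nat_lit 331) (nat_lit 197)) (XT.lf (nat_lit 0) (nat_lit 62214655543) (nat_lit 304) (nat_lit 31866136) (nat_lit 76) (nat_lit 69127078) (nat_lit 83) (nat_lit 5) (nat_lit 87) (nat_lit 5) (nat_lit 84) (nat_lit 5) (nat_lit 373) (nat_lit 331) (nat_lit 196))))))) (XT.nd (nat_lit 936) (nat_lit 532) (nat_lit 0) (XT.nd (nat_lit 468) (nat_lit 912) (nat_lit 0) (XT.nd (nat_lit 234) (nat_lit 684) (nat_lit 0) (XT.nd (nat_lit 78) (nat_lit 456) (nat_lit 0) (XT.lf (nat_lit 0) (nat_lit 22216923073) (nat_lit 228) (nat_lit 8275447508) (nat_lit 76) (nat_lit 33913842557) (nat_lit 80) (nat_lit 5) (nat_lit 83) (nat_lit 5) (nat_lit 81) (nat_lit 5) (nat_lit 374) (nat_lit 331) (nat_lit 195)) (XT.nd (nat_lit 78) (nat_lit 228) (nat_lit 0) (XT.lf (nat_lit 0) (nat_lit 46152103082) (nat_lit 304) (nat_lit 17161493830)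 (nat_lit 76) (nat_lit 3272576142) (nat_lit 77) (nat_lit 5) (nat_lit 81) (nat_lit 5) (nat_lit 78) (nat_lit 5) (nat_lit 375) (nat_lit 331) (nat_lit 194)) (XT.lf (nat_lit 0) (nat_lit 3161163100) (nat_lit 228) (nat_lit 27072095565) (nat_lit 76) (nat_lit 38617200806) (nat_lit 74) (nat_lit 5) (nat_lit 77) (nat_lit 5) (nat_lit 75) (nat_lit 5) (nat_lit 376) (nat_lit 331) (nat_lit 193)))) (XT.nd (nat_lit 78) (nat_lit 456) (nat_lit 0) (XT.lf (nat_lit 0) (nat_lit 28061387770) (nat_lit 304) (nat_lit 38022484521) (nat_lit 76) (nat_lit 5121584149) (nat_lit 71) (nat_lit 5) (nat_lit 75) (nat_lit 5) (nat_lit 72) (nat_lit 5) (nat_lit 377) (nat_lit 331) (nat_lit 192)) (XT.nd (nat_lit 78) (nat_lit 304) (nat_lit 0) (XT.lf (nat_lit 0) (nat_lit 23490228391) (nat_lit 152) (nat_lit 31524713073) (nat_lit 228) (nat_lit 18639013110) (nat_lit 69) (nat_lit 5) (nat_lit 71) (nat_lit 5) (nat_lit 72) (nat_lit 5) (nat_lit 378)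 (nat_lit 331) (nat_lit 191)) (XT.lf (nat_lit 0) (nat_lit 7519119359) (nat_lit 304) (nat_lit 63427406838) (nat_lit 76) (nat_lit 5259321202) (nat_lit 65) (nat_lit 5) (nat_lit 69) (nat_lit 5) (nat_lit 66) (nat_lit 5) (nat_lit 379) (nat_lit 331) (nat_lit 190))))) (XT.nd (nat_lit 234) (nat_lit 532) (nat_lit 0) (XT.nd (nat_lit 78) (nat_lit 228) (nat_lit 0) (XT.lf (nat_lit 0) (nat_lit 538533947) (nat_lit 152) (nat_lit 34905702920) (nat_lit 228) (nat_lit 43410225554) (nat_lit 63) (nat_lit 5) (nat_lit 65) (nat_lit 5) (nat_lit 66) (nat_lit 5) (nat_lit 380) (nat_lit 331) (nat_lit 189)) (XT.nd (nat_lit 78) (nat_lit 228) (nat_lit 0) (XT.lf (nat_lit 0) (nat_lit 65449445298) (nat_lit 228) (nat_lit 12628990459) (nat_lit 76) (nat_lit 3536558097) (nat_lit 63) (nat_lit 5) (nat_lit 66) (nat_lit 5) (nat_lit 64) (nat_lit 5) (nat_lit 381) (nat_lit 331) (nat_lit 188)) (XT.lf (nat_lit 0) (nat_lit 13105032172) (nat_lit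 228) (nat_lit 27517214113) (nat_lit 76) (nat_lit 43860525045) (nat_lit 60) (nat_lit 5) (nat_lit 63) (nat_lit 5) (nat_lit 61) (nat_lit 5) (nat_lit 382) (nat_lit 331) (nat_lit 187)))) (XT.nd (nat_lit 78) (nat_lit 380) (nat_lit 0) (XT.lf (nat_lit 0) (nat_lit 43491767558) (nat_lit 152) (nat_lit 561981005) (nat_lit 228) (nat_lit 43418920047) (nat_lit 58) (nat_lit 5) (nat_lit 60) (nat_lit 5) (nat_lit 61) (nat_lit 5) (nat_lit 383) (nat_lit 331) (nat_lit 186)) (XT.nd (nat_lit 78) (nat_lit 228) (nat_lit 0) (XT.lf (nat_lit 0) (nat_lit 28164444827) (nat_lit 152) (nat_lit 49337747896) (nat_lit 228) (nat_lit 13081299870) (nat_lit 56) (nat_lit 5) (nat_lit 58) (nat_lit 5) (nat_lit 59) (nat_lit 5) (nat_lit 384) (nat_lit 331) (nat_lit 185)) (XT.lf (nat_lit 0) (nat_lit 11018283540) (nat_lit 152) (nat_lit 7954024934) (nat_lit 228) (nat_lit 74855172870) (nat_lit 53) (nat_lit 5) (nat_lit 55) (nat_lit 5) (nat_lit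 56) (nat_lit 5) (nat_lit 385) (nat_lit 331) (nat_lit 184)))))) (XT.nd (nat_lit 42822) (nat_lit 0) (nat_lit 14516) (XT.nd (nat_lit 234) (nat_lit 152) (nat_lit 0) (XT.nd (nat_lit 78) (nat_lit 380) (nat_lit 0) (XT.lf (nat_lit 0) (nat_lit 53347425477) (nat_lit 228) (nat_lit 8268034732) (nat_lit 76) (nat_lit 35584643231) (nat_lit 53) (nat_lit 5) (nat_lit 56) (nat_lit 5) (nat_lit 54) (nat_lit 5) (nat_lit 386) (nat_lit 331) (nat_lit 183)) (XT.nd (nat_lit 78) (nat_lit 228) (nat_lit 0) (XT.lf (nat_lit 0) (nat_lit 71305749939) (nat_lit 152) (nat_lit 18898128394) (nat_lit 228) (nat_lit 10514601407) (nat_lit 51) (nat_lit 5) (nat_lit 53) (nat_lit 5) (nat_lit 54) (nat_lit 5) (nat_lit 387) (nat_lit 331) (nat_lit 182)) (XT.lf (nat_lit 0) (nat_lit 24846825495) (nat_lit 228) (nat_lit 53264279580) (nat_lit 76) (nat_lit 26269577489) (nat_lit 48) (nat_lit 5) (nat_lit 51) (nat_lit 5) (nat_lit 49) (nat_lit 5) (nat_lit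 388) (nat_lit 331) (nat_lit 181)))) (XT.nd (nat_lit 42432) (nat_lit 0) (nat_lit 15656) (XT.lf (nat_lit 0) (nat_lit 28317021430) (nat_lit 152) (nat_lit 34209588041) (nat_lit 228) (nat_lit 45673231037) (nat_lit 46) (nat_lit 5) (nat_lit 48) (nat_lit 5) (nat_lit 49) (nat_lit 5) (nat_lit 389) (nat_lit 331) (nat_lit 180)) (XT.nd (nat_lit 78) (nat_lit 0) (nat_lit 0) (XT.lf (nat_lit 0) (nat_lit 4579214828) (nat_lit 0) (nat_lit 4579214828) (nat_lit 1140) (nat_lit 603691793) (nat_lit 252) (nat_lit 5) (nat_lit 252) (nat_lit 3) (nat_lit 267) (nat_lit 3) (nat_lit 332) (nat_lit 332) (nat_lit 236)) (XT.lf (nat_lit 76) (nat_lit 5233837711) (nat_lit 0) (nat_lit 13928146373) (nat_lit 1216) (nat_lit 838598940) (nat_lit 253) (nat_lit 5) (nat_lit 252) (nat_lit 5) (nat_lit 268) (nat_lit 5) (nat_lit 333) (nat_lit 332) (nat_lit 235))))) (XT.nd (nat_lit 234) (nat_lit 0) (nat_lit 152) (XT.nd (nat_lit 78) (nat_lit 1216)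 (nat_lit 0) (XT.lf (nat_lit 76) (nat_lit 1240585791) (nat_lit 0) (nat_lit 19015532830) (nat_lit 1216) (nat_lit 238428519) (nat_lit 254) (nat_lit 5) (nat_lit 253) (nat_lit 5) (nat_lit 269) (nat_lit 5) (nat_lit 334) (nat_lit 332) (nat_lit 234)) (XT.nd (nat_lit 78) (nat_lit 0) (nat_lit 76) (XT.lf (nat_lit 0) (nat_lit 661055805) (nat_lit 1216) (nat_lit 2808021299) (nat_lit 1292) (nat_lit 17535719759) (nat_lit 237) (nat_lit 5) (nat_lit 253) (nat_lit 5) (nat_lit 254) (nat_lit 5) (nat_lit 335) (nat_lit 332) (nat_lit 233)) (XT.lf (nat_lit 0) (nat_lit 1851001269) (nat_lit 1216) (nat_lit 6926331716) (nat_lit 1292) (nat_lit 12755651176) (nat_lit 238) (nat_lit 5) (nat_lit 254) (nat_lit 5) (nat_lit 255) (nat_lit 5) (nat_lit 336) (nat_lit 332) (nat_lit 232)))) (XT.nd (nat_lit 78) (nat_lit 0) (nat_lit 76) (XT.lf (nat_lit 0) (nat_lit 3329903061) (nat_lit 1216) (nat_lit 11123829853) (nat_lit 1292) (nat_lit 7626972181)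 (nat_lit 239) (nat_lit 5) (nat_lit 255) (nat_lit 5) (nat_lit 256) (nat_lit 5) (nat_lit 337) (nat_lit 332) (nat_lit 231)) (XT.nd (nat_lit 78) (nat_lit 0) (nat_lit 0) (XT.lf (nat_lit 0) (nat_lit 5119168813) (nat_lit 1216) (nat_lit 15402735096) (nat_lit 1292) (nat_lit 2126823264) (nat_lit 240) (nat_lit 5) (nat_lit 256) (nat_lit 5) (nat_lit 257) (nat_lit 5) (nat_lit 338) (nat_lit 332) (nat_lit 230)) (XT.lf (nat_lit 76) (nat_lit 3434509548) (nat_lit 0) (nat_lit 3843694723) (nat_lit 1292) (nat_lit 15958544188) (nat_lit 241) (nat_lit 5) (nat_lit 240) (nat_lit 5) (nat_lit 257) (nat_lit 5) (nat_lit 339) (nat_lit 332) (nat_lit 229))))))))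
noncomputable def xc100 : XT := (XT.nd (nat_lit 1794) (nat_lit 5168) (nat_lit 0) (XT.nd (nat_lit 858) (nat_lit 4636) (nat_lit 0) (XT.nd (nat_lit 390) (nat_lit 2812) (nat_lit 0) (XT.nd (nat_lit 156) (nat_lit 1672) (nat_lit 0) (XT.nd (nat_lit 78) (nat_lit 0) (nat_lit 76) (XT.lf (nat_lit 0) (nat_lit 9823083688) (nat_lit 1216) (nat_lit 457569166) (nat_lit 1292) (nat_lit 13565188138) (nat_lit 241) (nat_lit 5) (nat_lit 257) (nat_lit 5) (nat_lit 258) (nat_lit 5) (nat_lit 340) (nat_lit 332) (nat_lit 228)) (XT.lf (nat_lit 0) (nat_lit 12787140888) (nat_lit 1216) (nat_lit 4351210226) (nat_lit 1292) (nat_lit 7338285642) (nat_lit 242) (nat_lit 5) (nat_lit 258) (nat_lit 5) (nat_lit 259) (nat_lit 5) (nat_lit 341) (nat_lit 332) (nat_lit 227))) (XT.nd (nat_lit 78) (nat_lit 1824) (nat_lit 0) (XT.lf (nat_lit 0) (nat_lit 16163597644) (nat_lit 1216) (nat_lit 8315169800) (nat_lit 76) (nat_lit 652285267) (nat_lit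 243) (nat_lit 5) (nat_lit 259) (nat_lit 5) (nat_lit 244) (nat_lit 5) (nat_lit 342) (nat_lit 332) (nat_lit 226)) (XT.nd (nat_lit 78) (nat_lit 608) (nat_lit 0) (XT.lf (nat_lit 0) (nat_lit 13392956231) (nat_lit 1216) (nat_lit 6650965418) (nat_lit 1292) (nat_lit 5764222487) (nat_lit 227) (nat_lit 5) (nat_lit 243) (nat_lit 5) (nat_lit 244) (nat_lit 5) (nat_lit 343) (nat_lit 332) (nat_lit 225)) (XT.lf (nat_lit 0) (nat_lit 9909809573) (nat_lit 608) (nat_lit 14494733238) (nat_lit 684) (nat_lit 2105964607) (nat_lit 219) (nat_lit 5) (nat_lit 227) (nat_lit 5) (nat_lit 228) (nat_lit 5) (nat_lit 344) (nat_lit 332) (nat_lit 224))))) (XT.nd (nat_lit 234) (nat_lit 1520) (nat_lit 0) (XT.nd (nat_lit 78) (nat_lit 608) (nat_lit 0) (XT.lf (nat_lit 0) (nat_lit 1990681322) (nat_lit 684) (nat_lit 20887147496) (nat_lit 76) (nat_lit 4360984880) (nat_lit 210) (nat_lit 5) (nat_lit 219) (nat_lit 5) (nat_lit 211) (nat_lit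 5) (nat_lit 345) (nat_lit 332) (nat_lit 223)) (XT.nd (nat_lit 78) (nat_lit 0) (nat_lit 0) (XT.lf (nat_lit 0) (nat_lit 2672650621) (nat_lit 608) (nat_lit 3910270636) (nat_lit 684) (nat_lit 21409964048) (nat_lit 202) (nat_lit 5) (nat_lit 210) (nat_lit 5) (nat_lit 211) (nat_lit 5) (nat_lit 346) (nat_lit 332) (nat_lit 222)) (XT.lf (nat_lit 0) (nat_lit 11765524856) (nat_lit 684) (nat_lit 1097693290) (nat_lit 76) (nat_lit 15910624590) (nat_lit 202) (nat_lit 5) (nat_lit 211) (nat_lit 5) (nat_lit 203) (nat_lit 5) (nat_lit 347) (nat_lit 332) (nat_lit 221)))) (XT.nd (nat_lit 78) (nat_lit 988) (nat_lit 0) (XT.lf (nat_lit 0) (nat_lit 17545192293) (nat_lit 608) (nat_lit 4886003140) (nat_lit 76) (nat_lit 7152519163) (nat_lit 195) (nat_lit 5) (nat_lit 203) (nat_lit 5) (nat_lit 196) (nat_lit 5) (nat_lit 348) (nat_lit 332) (nat_lit 220)) (XT.nd (nat_lit 78) (nat_lit 456) (nat_lit 0) (XT.lf (nat_lit 0) (nat_lit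 21654783386) (nat_lit 532) (nat_lit 2299071550) (nat_lit 608) (nat_lit 6470029107) (nat_lit 188) (nat_lit 5) (nat_lit 195) (nat_lit 5) (nat_lit 196) (nat_lit 5) (nat_lit 349) (nat_lit 332) (nat_lit 219)) (XT.lf (nat_lit 0) (nat_lit 18489453785) (nat_lit 456) (nat_lit 12594080619) (nat_lit 532) (nat_lit 210514189) (nat_lit 182) (nat_lit 5) (nat_lit 188) (nat_lit 5) (nat_lit 189) (nat_lit 5) (nat_lit 350) (nat_lit 332) (nat_lit 218)))))) (XT.nd (nat_lit 468) (nat_lit 2204) (nat_lit 0) (XT.nd (nat_lit 234) (nat_lit 912) (nat_lit 0) (XT.nd (nat_lit 78) (nat_lit 912) (nat_lit 0) (XT.lf (nat_lit 0) (nat_lit 6575019300) (nat_lit 608) (nat_lit 16990395202) (nat_lit 76) (nat_lit 8630360406) (nat_lit 174) (nat_lit 5) (nat_lit 182) (nat_lit 5) (nat_lit 175) (nat_lit 5) (nat_lit 351) (nat_lit 332) (nat_lit 217)) (XT.nd (nat_lit 78) (nat_lit 456) (nat_lit 0) (XT.lf (nat_lit 0) (nat_lit 11835438684) (nat_lit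 456) (nat_lit 2225602652) (nat_lit 532) (nat_lit 19070520352) (nat_lit 168) (nat_lit 5) (nat_lit 174) (nat_lit 5) (nat_lit 175) (nat_lit 5) (nat_lit 352) (nat_lit 332) (nat_lit 216)) (XT.lf (nat_lit 0) (nat_lit 8305341908) (nat_lit 456) (nat_lit 14058308691) (nat_lit 532) (nat_lit 11737222098) (nat_lit 162) (nat_lit 5) (nat_lit 168) (nat_lit 5) (nat_lit 169) (nat_lit 5) (nat_lit 353) (nat_lit 332) (nat_lit 215)))) (XT.nd (nat_lit 78) (nat_lit 532) (nat_lit 0) (XT.lf (nat_lit 0) (nat_lit 4698023802) (nat_lit 380) (nat_lit 26743675638) (nat_lit 456) (nat_lit 3666143853) (nat_lit 157) (nat_lit 5) (nat_lit 162) (nat_lit 5) (nat_lit 163) (nat_lit 5) (nat_lit 354) (nat_lit 332) (nat_lit 214)) (XT.nd (nat_lit 78) (nat_lit 0) (nat_lit 0) (XT.lf (nat_lit 0) (nat_lit 915686785) (nat_lit 456) (nat_lit 4210151974) (nat_lit 532) (nat_lit 31025604612) (nat_lit 150) (nat_lit 5) (nat_lit 156) (nat_lit 5) (nat_lit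 157) (nat_lit 5) (nat_lit 355) (nat_lit 332) (nat_lit 213)) (XT.lf (nat_lit 0) (nat_lit 14777984197) (nat_lit 532) (nat_lit 3031437174) (nat_lit 76) (nat_lit 19421824486) (nat_lit 150) (nat_lit 5) (nat_lit 157) (nat_lit 5) (nat_lit 151) (nat_lit 5) (nat_lit 356) (nat_lit 332) (nat_lit 212))))) (XT.nd (nat_lit 234) (nat_lit 1064) (nat_lit 0) (XT.nd (nat_lit 78) (nat_lit 760) (nat_lit 0) (XT.lf (nat_lit 0) (nat_lit 25308024330) (nat_lit 456) (nat_lit 7070323242) (nat_lit 76) (nat_lit 5974835049) (nat_lit 145) (nat_lit 5) (nat_lit 151) (nat_lit 5) (nat_lit 146) (nat_lit 5) (nat_lit 357) (nat_lit 332) (nat_lit 211)) (XT.nd (nat_lit 78) (nat_lit 380) (nat_lit 0) (XT.lf (nat_lit 0) (nat_lit 28207342991) (nat_lit 380) (nat_lit 8632799820) (nat_lit 456) (nat_lit 2676808764) (nat_lit 140) (nat_lit 5) (nat_lit 145) (nat_lit 5) (nat_lit 146) (nat_lit 5) (nat_lit 358) (nat_lit 332) (nat_lit 210)) (XT.lf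 (nat_lit 0) (nat_lit 8518046004) (nat_lit 380) (nat_lit 15827412167) (nat_lit 76) (nat_lit 16377036866) (nat_lit 135) (nat_lit 5) (nat_lit 140) (nat_lit 5) (nat_lit 136) (nat_lit 5) (nat_lit 359) (nat_lit 332) (nat_lit 209)))) (XT.nd (nat_lit 78) (nat_lit 684) (nat_lit 0) (XT.lf (nat_lit 0) (nat_lit 20630319547) (nat_lit 456) (nat_lit 20527239271) (nat_lit 76) (nat_lit 817572993) (nat_lit 130) (nat_lit 5) (nat_lit 136) (nat_lit 5) (nat_lit 131) (nat_lit 5) (nat_lit 360) (nat_lit 332) (nat_lit 208)) (XT.nd (nat_lit 78) (nat_lit 380) (nat_lit 0) (XT.lf (nat_lit 0) (nat_lit 17722004216) (nat_lit 304) (nat_lit 16200576599) (nat_lit 380) (nat_lit 9350590603) (nat_lit 126) (nat_lit 5) (nat_lit 130) (nat_lit 5) (nat_lit 131) (nat_lit 5) (nat_lit 361) (nat_lit 332) (nat_lit 207)) (XT.lf (nat_lit 0) (nat_lit 3620987015) (nat_lit 380) (nat_lit 30812276500) (nat_lit 76) (nat_lit 10188688207) (nat_lit 121)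 (nat_lit 5) (nat_lit 126) (nat_lit 5) (nat_lit 122) (nat_lit 5) (nat_lit 362) (nat_lit 332) (nat_lit 206))))))) (XT.nd (nat_lit 936) (nat_lit 2052) (nat_lit 0) (XT.nd (nat_lit 468) (nat_lit 1596) (nat_lit 0) (XT.nd (nat_lit 234) (nat_lit 532) (nat_lit 0) (XT.nd (nat_lit 78) (nat_lit 684) (nat_lit 0) (XT.lf (nat_lit 0) (nat_lit 9559812598) (nat_lit 304) (nat_lit 8004880151) (nat_lit 380) (nat_lit 28455194825) (nat_lit 117) (nat_lit 5) (nat_lit 121) (nat_lit 5) (nat_lit 122) (nat_lit 5) (nat_lit 363) (nat_lit 332) (nat_lit 205)) (XT.nd (nat_lit 78) (nat_lit 380) (nat_lit 0) (XT.lf (nat_lit 0) (nat_lit 5012696959) (nat_lit 304) (nat_lit 27745469999) (nat_lit 380) (nat_lit 14712977624) (nat_lit 113) (nat_lit 5) (nat_lit 117) (nat_lit 5) (nat_lit 118) (nat_lit 5) (nat_lit 364) (nat_lit 332) (nat_lit 204)) (XT.lf (nat_lit 0) (nat_lit 179263715) (nat_lit 380) (nat_lit 48729846602) (nat_lit 76) (nat_lit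 72216294) (nat_lit 108) (nat_lit 5) (nat_lit 113) (nat_lit 5) (nat_lit 109) (nat_lit 5) (nat_lit 365) (nat_lit 332) (nat_lit 203)))) (XT.nd (nat_lit 78) (nat_lit 532) (nat_lit 0) (XT.lf (nat_lit 0) (nat_lit 16230674752) (nat_lit 380) (nat_lit 5010756901) (nat_lit 76) (nat_lit 29299652195) (nat_lit 108) (nat_lit 5) (nat_lit 113) (nat_lit 5) (nat_lit 109) (nat_lit 5) (nat_lit 366) (nat_lit 332) (nat_lit 202)) (XT.nd (nat_lit 78) (nat_lit 228) (nat_lit 0) (XT.lf (nat_lit 0) (nat_lit 33559352473) (nat_lit 380) (nat_lit 10545718985) (nat_lit 76) (nat_lit 8059518164) (nat_lit 104) (nat_lit 5) (nat_lit 109) (nat_lit 5) (nat_lit 105) (nat_lit 5) (nat_lit 367) (nat_lit 332) (nat_lit 201)) (XT.lf (nat_lit 0) (nat_lit 37322702984) (nat_lit 228) (nat_lit 15051998835) (nat_lit 304) (nat_lit 1475963219) (nat_lit 101) (nat_lit 5) (nat_lit 104) (nat_lit 5) (nat_lit 105) (nat_lit 5) (nat_lit 368) (nat_lit 332)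 (nat_lit 200))))) (XT.nd (nat_lit 234) (nat_lit 760) (nat_lit 0) (XT.nd (nat_lit 78) (nat_lit 456) (nat_lit 0) (XT.lf (nat_lit 0) (nat_lit 16760553152) (nat_lit 380) (nat_lit 23100939289) (nat_lit 76) (nat_lit 15737603778) (nat_lit 96) (nat_lit 5) (nat_lit 101) (nat_lit 5) (nat_lit 97) (nat_lit 5) (nat_lit 369) (nat_lit 332) (nat_lit 199)) (XT.nd (nat_lit 78) (nat_lit 228) (nat_lit 0) (XT.lf (nat_lit 0) (nat_lit 27246862028) (nat_lit 228) (nat_lit 9212692487) (nat_lit 304) (nat_lit 20957521814) (nat_lit 93) (nat_lit 5) (nat_lit 96) (nat_lit 5) (nat_lit 97) (nat_lit 5) (nat_lit 370) (nat_lit 332) (nat_lit 198)) (XT.lf (nat_lit 0) (nat_lit 21464337142) (nat_lit 228) (nat_lit 36341813502) (nat_lit 304) (nat_lit 1499926706) (nat_lit 90) (nat_lit 5) (nat_lit 93) (nat_lit 5) (nat_lit 94) (nat_lit 5) (nat_lit 371) (nat_lit 332) (nat_lit 197)))) (XT.nd (nat_lit 78) (nat_lit 456) (nat_lit 0) (XT.lf (nat_lit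 0) (nat_lit 15039085853) (nat_lit 228) (nat_lit 4068737465) (nat_lit 304) (nat_lit 42159846745) (nat_lit 86) (nat_lit 5) (nat_lit 89) (nat_lit 5) (nat_lit 90) (nat_lit 5) (nat_lit 372) (nat_lit 332) (nat_lit 196)) (XT.nd (nat_lit 78) (nat_lit 228) (nat_lit 0) (XT.lf (nat_lit 0) (nat_lit 7880100988) (nat_lit 228) (nat_lit 33586508161) (nat_lit 304) (nat_lit 21837738764) (nat_lit 83) (nat_lit 5) (nat_lit 86) (nat_lit 5) (nat_lit 87) (nat_lit 5) (nat_lit 373) (nat_lit 332) (nat_lit 195)) (XT.lf (nat_lit 0) (nat_lit 30901809) (nat_lit 228) (nat_lit 65241594574) (nat_lit 76) (nat_lit 154887949) (nat_lit 80) (nat_lit 5) (nat_lit 83) (nat_lit 5) (nat_lit 81) (nat_lit 5) (nat_lit 374) (nat_lit 332) (nat_lit 194)))))) (XT.nd (nat_lit 468) (nat_lit 912) (nat_lit 0) (XT.nd (nat_lit 234) (nat_lit 684) (nat_lit 0) (XT.nd (nat_lit 78) (nat_lit 456) (nat_lit 0) (XT.lf (nat_lit 0) (nat_lit 23456537502) (nat_lit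 228) (nat_lit 8476887294) (nat_lit 76) (nat_lit 35689206253) (nat_lit 80) (nat_lit 5) (nat_lit 83) (nat_lit 5) (nat_lit 81) (nat_lit 5) (nat_lit 375) (nat_lit 332) (nat_lit 193)) (XT.nd (nat_lit 78) (nat_lit 228) (nat_lit 0) (XT.lf (nat_lit 0) (nat_lit 48585111902) (nat_lit 304) (nat_lit 17810340199) (nat_lit 76) (nat_lit 3516239213) (nat_lit 77) (nat_lit 5) (nat_lit 81) (nat_lit 5) (nat_lit 78) (nat_lit 5) (nat_lit 376) (nat_lit 332) (nat_lit 192)) (XT.lf (nat_lit 0) (nat_lit 3441835145) (nat_lit 228) (nat_lit 28220003100) (nat_lit 76) (nat_lit 40627439631) (nat_lit 74) (nat_lit 5) (nat_lit 77) (nat_lit 5) (nat_lit 75) (nat_lit 5) (nat_lit 377) (nat_lit 332) (nat_lit 191)))) (XT.nd (nat_lit 78) (nat_lit 456) (nat_lit 0) (XT.lf (nat_lit 0) (nat_lit 29583932535) (nat_lit 304) (nat_lit 39721001628) (nat_lit 76) (nat_lit 5457185932) (nat_lit 71) (nat_lit 5) (nat_lit 75) (nat_lit 5) (nat_lit 72)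 (nat_lit 5) (nat_lit 378) (nat_lit 332) (nat_lit 190)) (XT.nd (nat_lit 78) (nat_lit 304) (nat_lit 0) (XT.lf (nat_lit 0) (nat_lit 24861539237) (nat_lit 152) (nat_lit 33019827129) (nat_lit 228) (nat_lit 19451791881) (nat_lit 69) (nat_lit 5) (nat_lit 71) (nat_lit 5) (nat_lit 72) (nat_lit 5) (nat_lit 379) (nat_lit 332) (nat_lit 189)) (XT.lf (nat_lit 0) (nat_lit 8008988953) (nat_lit 304) (nat_lit 66402693471) (nat_lit 76) (nat_lit 5601018004) (nat_lit 65) (nat_lit 5) (nat_lit 69) (nat_lit 5) (nat_lit 66) (nat_lit 5) (nat_lit 380) (nat_lit 332) (nat_lit 188))))) (XT.nd (nat_lit 234) (nat_lit 532) (nat_lit 0) (XT.nd (nat_lit 78) (nat_lit 228) (nat_lit 0) (XT.lf (nat_lit 0) (nat_lit 755923653) (nat_lit 152) (nat_lit 36570845070) (nat_lit 228) (nat_lit 45467086329) (nat_lit 63) (nat_lit 5) (nat_lit 65) (nat_lit 5) (nat_lit 66) (nat_lit 5) (nat_lit 381) (nat_lit 332) (nat_lit 187)) (XT.nd (nat_lit 78)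 (nat_lit 228) (nat_lit 0) (XT.lf (nat_lit 0) (nat_lit 68827717941) (nat_lit 228) (nat_lit 13076608444) (nat_lit 76) (nat_lit 3788223257) (nat_lit 63) (nat_lit 5) (nat_lit 66) (nat_lit 5) (nat_lit 64) (nat_lit 5) (nat_lit 382) (nat_lit 332) (nat_lit 186)) (XT.lf (nat_lit 0) (nat_lit 13863795710) (nat_lit 228) (nat_lit 28712434290) (nat_lit 76) (nat_lit 46127556143) (nat_lit 60) (nat_lit 5) (nat_lit 63) (nat_lit 5) (nat_lit 61) (nat_lit 5) (nat_lit 383) (nat_lit 332) (nat_lit 185)))) (XT.nd (nat_lit 78) (nat_lit 380) (nat_lit 0) (XT.lf (nat_lit 0) (nat_lit 45841818440) (nat_lit 152) (nat_lit 514886994) (nat_lit 228) (nat_lit 45486571003) (nat_lit 58) (nat_lit 5) (nat_lit 60) (nat_lit 5) (nat_lit 61) (nat_lit 5) (nat_lit 384) (nat_lit 332) (nat_lit 184)) (XT.nd (nat_lit 78) (nat_lit 228) (nat_lit 0) (XT.lf (nat_lit 0) (nat_lit 29745336767) (nat_lit 152) (nat_lit 51729808490) (nat_lit 228) (nat_lit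 13634569994) (nat_lit 56) (nat_lit 5) (nat_lit 58) (nat_lit 5) (nat_lit 59) (nat_lit 5) (nat_lit 385) (nat_lit 332) (nat_lit 183)) (XT.lf (nat_lit 0) (nat_lit 11738844098) (nat_lit 152) (nat_lit 8277832448) (nat_lit 228) (nat_lit 78499290859) (nat_lit 53) (nat_lit 5) (nat_lit 55) (nat_lit 5) (nat_lit 56) (nat_lit 5) (nat_lit 386) (nat_lit 332) (nat_lit 182))))))))
noncomputable def xc101 : XT := (XT.nd (nat_lit 44304) (nat_lit 0) (nat_lit 2204) (XT.nd (nat_lit 43368) (nat_lit 0) (nat_lit 9120) (XT.nd (nat_lit 42900) (nat_lit 0) (nat_lit 14364) (XT.nd (nat_lit 42666) (nat_lit 0) (nat_lit 14364) (XT.nd (nat_lit 78) (nat_lit 380) (nat_lit 0) (XT.lf (nat_lit 0) (nat_lit 56106666236) (nat_lit 228) (nat_lit 8517794492) (nat_lit 76) (nat_lit 37432877107) (nat_lit 53) (nat_lit 5) (nat_lit 56) (nat_lit 5) (nat_lit 54) (nat_lit 5) (nat_lit 387) (nat_lit 332) (nat_lit 181)) (XT.nd (nat_lit 78) (nat_lit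 228) (nat_lit 0) (XT.lf (nat_lit 0) (nat_lit 75029988649) (nat_lit 152) (nat_lit 19773106285) (nat_lit 228) (nat_lit 10948624120) (nat_lit 51) (nat_lit 5) (nat_lit 53) (nat_lit 5) (nat_lit 54) (nat_lit 5) (nat_lit 388) (nat_lit 332) (nat_lit 180)) (XT.lf (nat_lit 0) (nat_lit 26176967120) (nat_lit 228) (nat_lit 55769383522) (nat_lit 76) (nat_lit 27650719100) (nat_lit 48) (nat_lit 5) (nat_lit 51) (nat_lit 5) (nat_lit 49) (nat_lit 5) (nat_lit 389) (nat_lit 332) (nat_lit 179)))) (XT.nd (nat_lit 78) (nat_lit 1140) (nat_lit 0) (XT.lf (nat_lit 0) (nat_lit 4944932540) (nat_lit 0) (nat_lit 4944932540) (nat_lit 1140) (nat_lit 352009513) (nat_lit 252) (nat_lit 5) (nat_lit 252) (nat_lit 3) (nat_lit 267) (nat_lit 3) (nat_lit 333) (nat_lit 333) (nat_lit 234)) (XT.nd (nat_lit 78) (nat_lit 1140) (nat_lit 0) (XT.lf (nat_lit 76) (nat_lit 5779984122) (nat_lit 0) (nat_lit 14861308469) (nat_lit 1216) (nat_lit 343402332)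 (nat_lit 253) (nat_lit 5) (nat_lit 252) (nat_lit 5) (nat_lit 268) (nat_lit 5) (nat_lit 334) (nat_lit 333) (nat_lit 233)) (XT.lf (nat_lit 0) (nat_lit 256767119) (nat_lit 1216) (nat_lit 19910025426) (nat_lit 1292) (nat_lit 1337227394) (nat_lit 237) (nat_lit 5) (nat_lit 253) (nat_lit 5) (nat_lit 254) (nat_lit 5) (nat_lit 335) (nat_lit 333) (nat_lit 232))))) (XT.nd (nat_lit 234) (nat_lit 0) (nat_lit 228) (XT.nd (nat_lit 78) (nat_lit 0) (nat_lit 76) (XT.lf (nat_lit 0) (nat_lit 1172424630) (nat_lit 1216) (nat_lit 2658681912) (nat_lit 1292) (nat_lit 18209333256) (nat_lit 237) (nat_lit 5) (nat_lit 253) (nat_lit 5) (nat_lit 254) (nat_lit 5) (nat_lit 336) (nat_lit 333) (nat_lit 231)) (XT.nd (nat_lit 78) (nat_lit 0) (nat_lit 76) (XT.lf (nat_lit 0) (nat_lit 2400096139) (nat_lit 1216) (nat_lit 6975530625) (nat_lit 1292) (nat_lit 13220074615) (nat_lit 238) (nat_lit 5) (nat_lit 254) (nat_lit 5) (nat_lit 255)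 (nat_lit 5) (nat_lit 337) (nat_lit 333) (nat_lit 230)) (XT.lf (nat_lit 0) (nat_lit 3932544933) (nat_lit 1216) (nat_lit 11376636633) (nat_lit 1292) (nat_lit 7862249959) (nat_lit 239) (nat_lit 5) (nat_lit 255) (nat_lit 5) (nat_lit 256) (nat_lit 5) (nat_lit 338) (nat_lit 333) (nat_lit 229)))) (XT.nd (nat_lit 78) (nat_lit 0) (nat_lit 0) (XT.lf (nat_lit 0) (nat_lit 5792150433) (nat_lit 1216) (nat_lit 15864236173) (nat_lit 1292) (nat_lit 2112052492) (nat_lit 240) (nat_lit 5) (nat_lit 256) (nat_lit 5) (nat_lit 257) (nat_lit 5) (nat_lit 339) (nat_lit 333) (nat_lit 228)) (XT.nd (nat_lit 78) (nat_lit 0) (nat_lit 76) (XT.lf (nat_lit 76) (nat_lit 3906023723) (nat_lit 0) (nat_lit 4136137447) (nat_lit 1292) (nat_lit 16344219751) (nat_lit 241) (nat_lit 5) (nat_lit 240) (nat_lit 5) (nat_lit 257) (nat_lit 5) (nat_lit 340) (nat_lit 333) (nat_lit 227)) (XT.lf (nat_lit 0) (nat_lit 10694316866) (nat_lit 1216) (nat_lit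 182392959) (nat_lit 1292) (nat_lit 14149826980) (nat_lit 241) (nat_lit 5) (nat_lit 257) (nat_lit 5) (nat_lit 258) (nat_lit 5) (nat_lit 341) (nat_lit 333) (nat_lit 226)))))) (XT.nd (nat_lit 468) (nat_lit 2584) (nat_lit 0) (XT.nd (nat_lit 234) (nat_lit 1900) (nat_lit 0) (XT.nd (nat_lit 78) (nat_lit 1140) (nat_lit 0) (XT.lf (nat_lit 0) (nat_lit 13790537516) (nat_lit 1216) (nat_lit 4267408858) (nat_lit 1292) (nat_lit 7631416398) (nat_lit 242) (nat_lit 5) (nat_lit 258) (nat_lit 5) (nat_lit 259) (nat_lit 5) (nat_lit 342) (nat_lit 333) (nat_lit 225)) (XT.nd (nat_lit 78) (nat_lit 1216) (nat_lit 0) (XT.lf (nat_lit 0) (nat_lit 17320749782) (nat_lit 1216) (nat_lit 8426997553) (nat_lit 76) (nat_lit 629213002) (nat_lit 243) (nat_lit 5) (nat_lit 259) (nat_lit 5) (nat_lit 244) (nat_lit 5) (nat_lit 343) (nat_lit 333) (nat_lit 224)) (XT.lf (nat_lit 0) (nat_lit 14357822665) (nat_lit 1216) (nat_lit 7023487416)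 (nat_lit 1292) (nat_lit 5707018021) (nat_lit 227) (nat_lit 5) (nat_lit 243) (nat_lit 5) (nat_lit 244) (nat_lit 5) (nat_lit 344) (nat_lit 333) (nat_lit 223)))) (XT.nd (nat_lit 78) (nat_lit 1292) (nat_lit 0) (XT.lf (nat_lit 0) (nat_lit 10702359723) (nat_lit 608) (nat_lit 15244130605) (nat_lit 684) (nat_lit 1879731357) (nat_lit 219) (nat_lit 5) (nat_lit 227) (nat_lit 5) (nat_lit 228) (nat_lit 5) (nat_lit 345) (nat_lit 333) (nat_lit 222)) (XT.nd (nat_lit 78) (nat_lit 608) (nat_lit 0) (XT.lf (nat_lit 0) (nat_lit 2402466225) (nat_lit 684) (nat_lit 21626838346) (nat_lit 76) (nat_lit 4561934812) (nat_lit 210) (nat_lit 5) (nat_lit 219) (nat_lit 5) (nat_lit 211) (nat_lit 5) (nat_lit 346) (nat_lit 333) (nat_lit 221)) (XT.lf (nat_lit 0) (nat_lit 3102216472) (nat_lit 608) (nat_lit 4110077289) (nat_lit 684) (nat_lit 22171088564) (nat_lit 202) (nat_lit 5) (nat_lit 210) (nat_lit 5) (nat_lit 211) (nat_lit 5)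 (nat_lit 347) (nat_lit 333) (nat_lit 220))))) (XT.nd (nat_lit 234) (nat_lit 1520) (nat_lit 0) (XT.nd (nat_lit 78) (nat_lit 1064) (nat_lit 0) (XT.lf (nat_lit 0) (nat_lit 12639691740) (nat_lit 684) (nat_lit 861985732) (nat_lit 76) (nat_lit 16702146917) (nat_lit 202) (nat_lit 5) (nat_lit 211) (nat_lit 5) (nat_lit 203) (nat_lit 5) (nat_lit 348) (nat_lit 333) (nat_lit 219)) (XT.nd (nat_lit 78) (nat_lit 532) (nat_lit 0) (XT.lf (nat_lit 0) (nat_lit 18697511894) (nat_lit 608) (nat_lit 4839733652) (nat_lit 76) (nat_lit 7517275585) (nat_lit 195) (nat_lit 5) (nat_lit 203) (nat_lit 5) (nat_lit 196) (nat_lit 5) (nat_lit 349) (nat_lit 333) (nat_lit 218)) (XT.lf (nat_lit 0) (nat_lit 23019763080) (nat_lit 532) (nat_lit 2396459564) (nat_lit 608) (nat_lit 6520794024) (nat_lit 188) (nat_lit 5) (nat_lit 195) (nat_lit 5) (nat_lit 196) (nat_lit 5) (nat_lit 350) (nat_lit 333) (nat_lit 217)))) (XT.nd (nat_lit 78) (nat_lit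 988) (nat_lit 0) (XT.lf (nat_lit 0) (nat_lit 40852046) (nat_lit 532) (nat_lit 13155644634) (nat_lit 76) (nat_lit 19654478541) (nat_lit 181) (nat_lit 5) (nat_lit 188) (nat_lit 5) (nat_lit 182) (nat_lit 5) (nat_lit 351) (nat_lit 333) (nat_lit 216)) (XT.nd (nat_lit 78) (nat_lit 456) (nat_lit 0) (XT.lf (nat_lit 0) (nat_lit 7152059920) (nat_lit 608) (nat_lit 17553837945) (nat_lit 76) (nat_lit 9092110256) (nat_lit 174) (nat_lit 5) (nat_lit 182) (nat_lit 5) (nat_lit 175) (nat_lit 5) (nat_lit 352) (nat_lit 333) (nat_lit 215)) (XT.lf (nat_lit 0) (nat_lit 12705087295) (nat_lit 456) (nat_lit 2298143567) (nat_lit 532) (nat_lit 19777633031) (nat_lit 168) (nat_lit 5) (nat_lit 174) (nat_lit 5) (nat_lit 175) (nat_lit 5) (nat_lit 353) (nat_lit 333) (nat_lit 214))))))) (XT.nd (nat_lit 936) (nat_lit 2736) (nat_lit 0) (XT.nd (nat_lit 468) (nat_lit 2052) (nat_lit 0) (XT.nd (nat_lit 234) (nat_lit 760) (nat_lit 0)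 (XT.nd (nat_lit 78) (nat_lit 912) (nat_lit 0) (XT.lf (nat_lit 0) (nat_lit 8997226008) (nat_lit 456) (nat_lit 14715370746) (nat_lit 532) (nat_lit 12086299760) (nat_lit 162) (nat_lit 5) (nat_lit 168) (nat_lit 5) (nat_lit 169) (nat_lit 5) (nat_lit 354) (nat_lit 333) (nat_lit 213)) (XT.nd (nat_lit 78) (nat_lit 532) (nat_lit 0) (XT.lf (nat_lit 0) (nat_lit 5208003286) (nat_lit 380) (nat_lit 28028620009) (nat_lit 456) (nat_lit 3619834701) (nat_lit 157) (nat_lit 5) (nat_lit 162) (nat_lit 5) (nat_lit 163) (nat_lit 5) (nat_lit 355) (nat_lit 333) (nat_lit 212)) (XT.lf (nat_lit 0) (nat_lit 1233103597) (nat_lit 456) (nat_lit 4366053152) (nat_lit 532) (nat_lit 32353262669) (nat_lit 150) (nat_lit 5) (nat_lit 156) (nat_lit 5) (nat_lit 157) (nat_lit 5) (nat_lit 356) (nat_lit 333) (nat_lit 211)))) (XT.nd (nat_lit 78) (nat_lit 760) (nat_lit 0) (XT.lf (nat_lit 0) (nat_lit 15724074801) (nat_lit 532) (nat_lit 2918529334)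 (nat_lit 76) (nat_lit 20443906999) (nat_lit 150) (nat_lit 5) (nat_lit 157) (nat_lit 5) (nat_lit 151) (nat_lit 5) (nat_lit 357) (nat_lit 333) (nat_lit 210)) (XT.nd (nat_lit 78) (nat_lit 380) (nat_lit 0) (XT.lf (nat_lit 0) (nat_lit 26773769066) (nat_lit 456) (nat_lit 7161418635) (nat_lit 76) (nat_lit 6329566340) (nat_lit 145) (nat_lit 5) (nat_lit 151) (nat_lit 5) (nat_lit 146) (nat_lit 5) (nat_lit 358) (nat_lit 333) (nat_lit 209)) (XT.lf (nat_lit 0) (nat_lit 29872608670) (nat_lit 380) (nat_lit 9002794873) (nat_lit 456) (nat_lit 2611524283) (nat_lit 140) (nat_lit 5) (nat_lit 145) (nat_lit 5) (nat_lit 146) (nat_lit 5) (nat_lit 359) (nat_lit 333) (nat_lit 208))))) (XT.nd (nat_lit 234) (nat_lit 988) (nat_lit 0) (XT.nd (nat_lit 78) (nat_lit 684) (nat_lit 0) (XT.lf (nat_lit 0) (nat_lit 9132913755) (nat_lit 380) (nat_lit 16362234470) (nat_lit 76) (nat_lit 17257734436) (nat_lit 135) (nat_lit 5) (nat_lit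 140) (nat_lit 5) (nat_lit 136) (nat_lit 5) (nat_lit 360) (nat_lit 333) (nat_lit 207)) (XT.nd (nat_lit 78) (nat_lit 304) (nat_lit 0) (XT.lf (nat_lit 0) (nat_lit 21844840458) (nat_lit 456) (nat_lit 21299513470) (nat_lit 76) (nat_lit 923979406) (nat_lit 130) (nat_lit 5) (nat_lit 136) (nat_lit 5) (nat_lit 131) (nat_lit 5) (nat_lit 361) (nat_lit 333) (nat_lit 206)) (XT.lf (nat_lit 0) (nat_lit 18854908817) (nat_lit 304) (nat_lit 16940463888) (nat_lit 380) (nat_lit 9636095573) (nat_lit 126) (nat_lit 5) (nat_lit 130) (nat_lit 5) (nat_lit 131) (nat_lit 5) (nat_lit 362) (nat_lit 333) (nat_lit 205)))) (XT.nd (nat_lit 78) (nat_lit 608) (nat_lit 0) (XT.lf (nat_lit 0) (nat_lit 3975030216) (nat_lit 380) (nat_lit 32105107345) (nat_lit 76) (nat_lit 10767664763) (nat_lit 121) (nat_lit 5) (nat_lit 126) (nat_lit 5) (nat_lit 122) (nat_lit 5) (nat_lit 363) (nat_lit 333) (nat_lit 204)) (XT.nd (nat_lit 78) (nat_lit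 304) (nat_lit 0) (XT.lf (nat_lit 0) (nat_lit 10278483559) (nat_lit 304) (nat_lit 8331513443) (nat_lit 380) (nat_lit 29705818417) (nat_lit 117) (nat_lit 5) (nat_lit 121) (nat_lit 5) (nat_lit 122) (nat_lit 5) (nat_lit 364) (nat_lit 333) (nat_lit 203)) (XT.lf (nat_lit 0) (nat_lit 5501347079) (nat_lit 304) (nat_lit 29056803991) (nat_lit 380) (nat_lit 15281636616) (nat_lit 113) (nat_lit 5) (nat_lit 117) (nat_lit 5) (nat_lit 118) (nat_lit 5) (nat_lit 365) (nat_lit 333) (nat_lit 202)))))) (XT.nd (nat_lit 468) (nat_lit 1216) (nat_lit 0) (XT.nd (nat_lit 234) (nat_lit 836) (nat_lit 0) (XT.nd (nat_lit 78) (nat_lit 304) (nat_lit 0) (XT.lf (nat_lit 0) (nat_lit 347147409) (nat_lit 380) (nat_lit 50927871334) (nat_lit 76) (nat_lit 150558638) (nat_lit 108) (nat_lit 5) (nat_lit 113) (nat_lit 5) (nat_lit 109) (nat_lit 5) (nat_lit 366) (nat_lit 333) (nat_lit 201)) (XT.nd (nat_lit 78) (nat_lit 304) (nat_lit 0) (XT.lf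 (nat_lit 0) (nat_lit 17193561354) (nat_lit 380) (nat_lit 5034182749) (nat_lit 76) (nat_lit 30835807689) (nat_lit 108) (nat_lit 5) (nat_lit 113) (nat_lit 5) (nat_lit 109) (nat_lit 5) (nat_lit 367) (nat_lit 333) (nat_lit 200)) (XT.lf (nat_lit 0) (nat_lit 35384300803) (nat_lit 380) (nat_lit 10848686145) (nat_lit 76) (nat_lit 8535379247) (nat_lit 104) (nat_lit 5) (nat_lit 109) (nat_lit 5) (nat_lit 105) (nat_lit 5) (nat_lit 368) (nat_lit 333) (nat_lit 199)))) (XT.nd (nat_lit 78) (nat_lit 608) (nat_lit 0) (XT.lf (nat_lit 0) (nat_lit 39406726870) (nat_lit 228) (nat_lit 15728786145) (nat_lit 304) (nat_lit 1403381575) (nat_lit 101) (nat_lit 5) (nat_lit 104) (nat_lit 5) (nat_lit 105) (nat_lit 5) (nat_lit 369) (nat_lit 333) (nat_lit 198)) (XT.nd (nat_lit 78) (nat_lit 228) (nat_lit 0) (XT.lf (nat_lit 0) (nat_lit 17738058991) (nat_lit 380) (nat_lit 24038056600) (nat_lit 76) (nat_lit 16598712797) (nat_lit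 96) (nat_lit 5) (nat_lit 101) (nat_lit 5) (nat_lit 97) (nat_lit 5) (nat_lit 370) (nat_lit 333) (nat_lit 197)) (XT.lf (nat_lit 0) (nat_lit 28820887873) (nat_lit 228) (nat_lit 9596515556) (nat_lit 304) (nat_lit 21866444110) (nat_lit 93) (nat_lit 5) (nat_lit 96) (nat_lit 5) (nat_lit 97) (nat_lit 5) (nat_lit 371) (nat_lit 333) (nat_lit 196))))) (XT.nd (nat_lit 234) (nat_lit 456) (nat_lit 0) (XT.nd (nat_lit 78) (nat_lit 532) (nat_lit 0) (XT.lf (nat_lit 0) (nat_lit 22746417285) (nat_lit 228) (nat_lit 38081200563) (nat_lit 304) (nat_lit 1439793845) (nat_lit 90) (nat_lit 5) (nat_lit 93) (nat_lit 5) (nat_lit 94) (nat_lit 5) (nat_lit 372) (nat_lit 333) (nat_lit 195)) (XT.nd (nat_lit 78) (nat_lit 228) (nat_lit 0) (XT.lf (nat_lit 0) (nat_lit 15996510437) (nat_lit 228) (nat_lit 4194862334) (nat_lit 304) (nat_lit 44135803930) (nat_lit 86) (nat_lit 5) (nat_lit 89) (nat_lit 5) (nat_lit 90) (nat_lit 5) (nat_lit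 373) (nat_lit 333) (nat_lit 194)) (XT.lf (nat_lit 0) (nat_lit 8476730434) (nat_lit 228) (nat_lit 35187920215) (nat_lit 304) (nat_lit 22801142741) (nat_lit 83) (nat_lit 5) (nat_lit 86) (nat_lit 5) (nat_lit 87) (nat_lit 5) (nat_lit 374) (nat_lit 333) (nat_lit 193)))) (XT.nd (nat_lit 78) (nat_lit 228) (nat_lit 0) (XT.lf (nat_lit 0) (nat_lit 155083352) (nat_lit 228) (nat_lit 68301452789) (nat_lit 76) (nat_lit 238510030) (nat_lit 80) (nat_lit 5) (nat_lit 83) (nat_lit 5) (nat_lit 81) (nat_lit 5) (nat_lit 375) (nat_lit 333) (nat_lit 192)) (XT.nd (nat_lit 78) (nat_lit 228) (nat_lit 0) (XT.lf (nat_lit 0) (nat_lit 24746160998) (nat_lit 228) (nat_lit 8708139741) (nat_lit 76) (nat_lit 37545931027) (nat_lit 80) (nat_lit 5) (nat_lit 83) (nat_lit 5) (nat_lit 81) (nat_lit 5) (nat_lit 376) (nat_lit 333) (nat_lit 191)) (XT.lf (nat_lit 0) (nat_lit 51128112318) (nat_lit 304) (nat_lit 18511080953) (nat_lit 76) (nat_lit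 3764644609) (nat_lit 77) (nat_lit 5) (nat_lit 81) (nat_lit 5) (nat_lit 78) (nat_lit 5) (nat_lit 377) (nat_lit 333) (nat_lit 190))))))))
noncomputable def xc102 : XT := (XT.nd (nat_lit 44382) (nat_lit 0) (nat_lit 4028) (XT.nd (nat_lit 43446) (nat_lit 0) (nat_lit 13376) (XT.nd (nat_lit 468) (nat_lit 912) (nat_lit 0) (XT.nd (nat_lit 234) (nat_lit 456) (nat_lit 0) (XT.nd (nat_lit 78) (nat_lit 380) (nat_lit 0) (XT.lf (nat_lit 0) (nat_lit 3725141316) (nat_lit 228) (nat_lit 29444429791) (nat_lit 76) (nat_lit 42730810509) (nat_lit 74) (nat_lit 5) (nat_lit 77) (nat_lit 5) (nat_lit 75) (nat_lit 5) (nat_lit 378) (nat_lit 333) (nat_lit 189)) (XT.nd (nat_lit 78) (nat_lit 152) (nat_lit 0) (XT.lf (nat_lit 0) (nat_lit 31171496850) (nat_lit 304) (nat_lit 41523281080) (nat_lit 76) (nat_lit 5802174548) (nat_lit 71) (nat_lit 5) (nat_lit 75) (nat_lit 5) (nat_lit 72) (nat_lit 5) (nat_lit 379) (nat_lit 333) (nat_lit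 188)) (XT.lf (nat_lit 0) (nat_lit 26283119080) (nat_lit 152) (nat_lit 34597238806) (nat_lit 228) (nat_lit 20316289062) (nat_lit 69) (nat_lit 5) (nat_lit 71) (nat_lit 5) (nat_lit 72) (nat_lit 5) (nat_lit 380) (nat_lit 333) (nat_lit 187)))) (XT.nd (nat_lit 78) (nat_lit 152) (nat_lit 0) (XT.lf (nat_lit 0) (nat_lit 8512761416) (nat_lit 304) (nat_lit 69544974440) (nat_lit 76) (nat_lit 5952480009) (nat_lit 65) (nat_lit 5) (nat_lit 69) (nat_lit 5) (nat_lit 66) (nat_lit 5) (nat_lit 381) (nat_lit 333) (nat_lit 186)) (XT.nd (nat_lit 78) (nat_lit 0) (nat_lit 0) (XT.lf (nat_lit 0) (nat_lit 966475400) (nat_lit 152) (nat_lit 38326695264) (nat_lit 228) (nat_lit 47637356289) (nat_lit 63) (nat_lit 5) (nat_lit 65) (nat_lit 5) (nat_lit 66) (nat_lit 5) (nat_lit 382) (nat_lit 333) (nat_lit 185)) (XT.lf (nat_lit 0) (nat_lit 72365067900) (nat_lit 228) (nat_lit 13563698242) (nat_lit 76) (nat_lit 4045514015) (nat_lit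 63) (nat_lit 5) (nat_lit 66) (nat_lit 5) (nat_lit 64) (nat_lit 5) (nat_lit 383) (nat_lit 333) (nat_lit 184))))) (XT.nd (nat_lit 234) (nat_lit 380) (nat_lit 0) (XT.nd (nat_lit 78) (nat_lit 304) (nat_lit 0) (XT.lf (nat_lit 0) (nat_lit 14650873868) (nat_lit 228) (nat_lit 29984209720) (nat_lit 76) (nat_lit 48501058527) (nat_lit 60) (nat_lit 5) (nat_lit 63) (nat_lit 5) (nat_lit 61) (nat_lit 5) (nat_lit 384) (nat_lit 333) (nat_lit 183)) (XT.nd (nat_lit 78) (nat_lit 152) (nat_lit 0) (XT.lf (nat_lit 0) (nat_lit 48293059026) (nat_lit 152) (nat_lit 472429021) (nat_lit 228) (nat_lit 47667207902) (nat_lit 58) (nat_lit 5) (nat_lit 60) (nat_lit 5) (nat_lit 61) (nat_lit 5) (nat_lit 385) (nat_lit 333) (nat_lit 182)) (XT.lf (nat_lit 0) (nat_lit 31389220111) (nat_lit 152) (nat_lit 54248428800) (nat_lit 228) (nat_lit 14224874576) (nat_lit 56) (nat_lit 5) (nat_lit 58) (nat_lit 5) (nat_lit 59) (nat_lit 5) (nat_lit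 386) (nat_lit 333) (nat_lit 181)))) (XT.nd (nat_lit 78) (nat_lit 152) (nat_lit 0) (XT.lf (nat_lit 0) (nat_lit 12479660572) (nat_lit 152) (nat_lit 8624700276) (nat_lit 228) (nat_lit 82334785421) (nat_lit 53) (nat_lit 5) (nat_lit 55) (nat_lit 5) (nat_lit 56) (nat_lit 5) (nat_lit 387) (nat_lit 333) (nat_lit 180)) (XT.nd (nat_lit 78) (nat_lit 152) (nat_lit 0) (XT.lf (nat_lit 0) (nat_lit 58995327879) (nat_lit 228) (nat_lit 8795256119) (nat_lit 76) (nat_lit 39367107552) (nat_lit 53) (nat_lit 5) (nat_lit 56) (nat_lit 5) (nat_lit 54) (nat_lit 5) (nat_lit 388) (nat_lit 333) (nat_lit 179)) (XT.lf (nat_lit 0) (nat_lit 78925661517) (nat_lit 152) (nat_lit 20698334363) (nat_lit 228) (nat_lit 11412874049) (nat_lit 51) (nat_lit 5) (nat_lit 53) (nat_lit 5) (nat_lit 54) (nat_lit 5) (nat_lit 389) (nat_lit 333) (nat_lit 178)))))) (XT.nd (nat_lit 468) (nat_lit 684) (nat_lit 0) (XT.nd (nat_lit 234) (nat_lit 0) (nat_lit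 76) (XT.nd (nat_lit 78) (nat_lit 1216) (nat_lit 0) (XT.lf (nat_lit 0) (nat_lit 5316221771) (nat_lit 0) (nat_lit 5316221771) (nat_lit 1140) (nat_lit 113948428) (nat_lit 252) (nat_lit 5) (nat_lit 252) (nat_lit 3) (nat_lit 267) (nat_lit 3) (nat_lit 334) (nat_lit 334) (nat_lit 232)) (XT.nd (nat_lit 78) (nat_lit 0) (nat_lit 76) (XT.lf (nat_lit 0) (nat_lit 124146412) (nat_lit 1216) (nat_lit 15693717406) (nat_lit 1292) (nat_lit 6201591920) (nat_lit 236) (nat_lit 5) (nat_lit 252) (nat_lit 5) (nat_lit 253) (nat_lit 5) (nat_lit 335) (nat_lit 334) (nat_lit 231)) (XT.lf (nat_lit 0) (nat_lit 725144554) (nat_lit 1216) (nat_lit 20629583410) (nat_lit 1292) (nat_lit 1210591153) (nat_lit 237) (nat_lit 5) (nat_lit 253) (nat_lit 5) (nat_lit 254) (nat_lit 5) (nat_lit 336) (nat_lit 334) (nat_lit 230)))) (XT.nd (nat_lit 78) (nat_lit 0) (nat_lit 76) (XT.lf (nat_lit 0) (nat_lit 1664892604) (nat_lit 1216) (nat_lit 2528812877)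 (nat_lit 1292) (nat_lit 18935516480) (nat_lit 237) (nat_lit 5) (nat_lit 253) (nat_lit 5) (nat_lit 254) (nat_lit 5) (nat_lit 337) (nat_lit 334) (nat_lit 229)) (XT.nd (nat_lit 78) (nat_lit 0) (nat_lit 76) (XT.lf (nat_lit 0) (nat_lit 2934200544) (nat_lit 1216) (nat_lit 7054812665) (nat_lit 1292) (nat_lit 13723836513) (nat_lit 238) (nat_lit 5) (nat_lit 254) (nat_lit 5) (nat_lit 255) (nat_lit 5) (nat_lit 338) (nat_lit 334) (nat_lit 228)) (XT.lf (nat_lit 0) (nat_lit 4524770111) (nat_lit 1216) (nat_lit 11670289586) (nat_lit 1292) (nat_lit 8122871906) (nat_lit 239) (nat_lit 5) (nat_lit 255) (nat_lit 5) (nat_lit 256) (nat_lit 5) (nat_lit 339) (nat_lit 334) (nat_lit 227))))) (XT.nd (nat_lit 234) (nat_lit 988) (nat_lit 0) (XT.nd (nat_lit 78) (nat_lit 0) (nat_lit 0) (XT.lf (nat_lit 0) (nat_lit 6460010272) (nat_lit 1216) (nat_lit 16377506324) (nat_lit 1292) (nat_lit 2107803021) (nat_lit 240) (nat_lit 5)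 (nat_lit 256) (nat_lit 5) (nat_lit 257) (nat_lit 5) (nat_lit 340) (nat_lit 334) (nat_lit 226)) (XT.nd (nat_lit 78) (nat_lit 0) (nat_lit 76) (XT.lf (nat_lit 76) (nat_lit 4373242095) (nat_lit 0) (nat_lit 4433881269) (nat_lit 1292) (nat_lit 16787506344) (nat_lit 241) (nat_lit 5) (nat_lit 240) (nat_lit 5) (nat_lit 257) (nat_lit 5) (nat_lit 341) (nat_lit 334) (nat_lit 225)) (XT.lf (nat_lit 76) (nat_lit 80400667) (nat_lit 0) (nat_lit 11494147755) (nat_lit 1292) (nat_lit 14692773910) (nat_lit 242) (nat_lit 5) (nat_lit 241) (nat_lit 5) (nat_lit 258) (nat_lit 5) (nat_lit 342) (nat_lit 334) (nat_lit 224)))) (XT.nd (nat_lit 78) (nat_lit 1140) (nat_lit 0) (XT.lf (nat_lit 0) (nat_lit 14810259025) (nat_lit 1216) (nat_lit 4207435192) (nat_lit 1292) (nat_lit 7946063385) (nat_lit 242) (nat_lit 5) (nat_lit 258) (nat_lit 5) (nat_lit 259) (nat_lit 5) (nat_lit 343) (nat_lit 334) (nat_lit 223)) (XT.nd (nat_lit 78)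 (nat_lit 1216) (nat_lit 0) (XT.lf (nat_lit 0) (nat_lit 18503315394) (nat_lit 1216) (nat_lit 8572673293) (nat_lit 76) (nat_lit 610164329) (nat_lit 243) (nat_lit 5) (nat_lit 259) (nat_lit 5) (nat_lit 244) (nat_lit 5) (nat_lit 344) (nat_lit 334) (nat_lit 222)) (XT.lf (nat_lit 0) (nat_lit 15343485793) (nat_lit 1216) (nat_lit 7410919136) (nat_lit 1292) (nat_lit 5679066799) (nat_lit 227) (nat_lit 5) (nat_lit 243) (nat_lit 5) (nat_lit 244) (nat_lit 5) (nat_lit 345) (nat_lit 334) (nat_lit 221))))))) (XT.nd (nat_lit 936) (nat_lit 3496) (nat_lit 0) (XT.nd (nat_lit 468) (nat_lit 2888) (nat_lit 0) (XT.nd (nat_lit 234) (nat_lit 1064) (nat_lit 0) (XT.nd (nat_lit 78) (nat_lit 1292) (nat_lit 0) (XT.lf (nat_lit 0) (nat_lit 11506919587) (nat_lit 608) (nat_lit 16028705121) (nat_lit 684) (nat_lit 1673009098) (nat_lit 219) (nat_lit 5) (nat_lit 227) (nat_lit 5) (nat_lit 228) (nat_lit 5) (nat_lit 346) (nat_lit 334)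 (nat_lit 220)) (XT.nd (nat_lit 78) (nat_lit 608) (nat_lit 0) (XT.lf (nat_lit 0) (nat_lit 2805810250) (nat_lit 684) (nat_lit 22431838745) (nat_lit 76) (nat_lit 4774521973) (nat_lit 210) (nat_lit 5) (nat_lit 219) (nat_lit 5) (nat_lit 211) (nat_lit 5) (nat_lit 347) (nat_lit 334) (nat_lit 219)) (XT.lf (nat_lit 0) (nat_lit 3525747540) (nat_lit 608) (nat_lit 4319475141) (nat_lit 684) (nat_lit 22999031938) (nat_lit 202) (nat_lit 5) (nat_lit 210) (nat_lit 5) (nat_lit 211) (nat_lit 5) (nat_lit 348) (nat_lit 334) (nat_lit 218)))) (XT.nd (nat_lit 78) (nat_lit 1064) (nat_lit 0) (XT.lf (nat_lit 0) (nat_lit 13530987566) (nat_lit 684) (nat_lit 641509307) (nat_lit 76) (nat_lit 17533618071) (nat_lit 202) (nat_lit 5) (nat_lit 211) (nat_lit 5) (nat_lit 203) (nat_lit 5) (nat_lit 349) (nat_lit 334) (nat_lit 217)) (XT.nd (nat_lit 78) (nat_lit 532) (nat_lit 0) (XT.lf (nat_lit 0) (nat_lit 19881875005) (nat_lit 608)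 (nat_lit 4818165101) (nat_lit 76) (nat_lit 7899606906) (nat_lit 195) (nat_lit 5) (nat_lit 203) (nat_lit 5) (nat_lit 196) (nat_lit 5) (nat_lit 350) (nat_lit 334) (nat_lit 216)) (XT.lf (nat_lit 0) (nat_lit 24426751710) (nat_lit 532) (nat_lit 2500350058) (nat_lit 608) (nat_lit 6599453646) (nat_lit 188) (nat_lit 5) (nat_lit 195) (nat_lit 5) (nat_lit 196) (nat_lit 5) (nat_lit 351) (nat_lit 334) (nat_lit 215))))) (XT.nd (nat_lit 234) (nat_lit 1368) (nat_lit 0) (XT.nd (nat_lit 78) (nat_lit 988) (nat_lit 0) (XT.lf (nat_lit 0) (nat_lit 276526088) (nat_lit 532) (nat_lit 13553059387) (nat_lit 76) (nat_lit 20656827809) (nat_lit 181) (nat_lit 5) (nat_lit 188) (nat_lit 5) (nat_lit 182) (nat_lit 5) (nat_lit 352) (nat_lit 334) (nat_lit 214)) (XT.nd (nat_lit 78) (nat_lit 456) (nat_lit 0) (XT.lf (nat_lit 0) (nat_lit 7734868953) (nat_lit 608) (nat_lit 18172049554) (nat_lit 76) (nat_lit 9574136930) (nat_lit 174)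 (nat_lit 5) (nat_lit 182) (nat_lit 5) (nat_lit 175) (nat_lit 5) (nat_lit 353) (nat_lit 334) (nat_lit 213)) (XT.lf (nat_lit 0) (nat_lit 13592383998) (nat_lit 456) (nat_lit 2377913133) (nat_lit 532) (nat_lit 20543010522) (nat_lit 168) (nat_lit 5) (nat_lit 174) (nat_lit 5) (nat_lit 175) (nat_lit 5) (nat_lit 354) (nat_lit 334) (nat_lit 212)))) (XT.nd (nat_lit 78) (nat_lit 912) (nat_lit 0) (XT.lf (nat_lit 0) (nat_lit 9697987085) (nat_lit 456) (nat_lit 15409548917) (nat_lit 532) (nat_lit 12474938155) (nat_lit 162) (nat_lit 5) (nat_lit 168) (nat_lit 5) (nat_lit 169) (nat_lit 5) (nat_lit 355) (nat_lit 334) (nat_lit 211)) (XT.nd (nat_lit 78) (nat_lit 532) (nat_lit 0) (XT.lf (nat_lit 0) (nat_lit 5717907572) (nat_lit 380) (nat_lit 29382668324) (nat_lit 456) (nat_lit 3592557642) (nat_lit 157) (nat_lit 5) (nat_lit 162) (nat_lit 5) (nat_lit 163) (nat_lit 5) (nat_lit 356) (nat_lit 334) (nat_lit 210)) (XT.lf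 (nat_lit 0) (nat_lit 1541137438) (nat_lit 456) (nat_lit 4534826177) (nat_lit 532) (nat_lit 33768093898) (nat_lit 150) (nat_lit 5) (nat_lit 156) (nat_lit 5) (nat_lit 157) (nat_lit 5) (nat_lit 357) (nat_lit 334) (nat_lit 209)))))) (XT.nd (nat_lit 468) (nat_lit 1672) (nat_lit 0) (XT.nd (nat_lit 234) (nat_lit 1064) (nat_lit 0) (XT.nd (nat_lit 78) (nat_lit 760) (nat_lit 0) (XT.lf (nat_lit 0) (nat_lit 16698207242) (nat_lit 532) (nat_lit 2824564917) (nat_lit 76) (nat_lit 21512352950) (nat_lit 150) (nat_lit 5) (nat_lit 157) (nat_lit 5) (nat_lit 151) (nat_lit 5) (nat_lit 358) (nat_lit 334) (nat_lit 208)) (XT.nd (nat_lit 78) (nat_lit 380) (nat_lit 0) (XT.lf (nat_lit 0) (nat_lit 28294174996) (nat_lit 456) (nat_lit 7281466194) (nat_lit 76) (nat_lit 6696828819) (nat_lit 145) (nat_lit 5) (nat_lit 151) (nat_lit 5) (nat_lit 146) (nat_lit 5) (nat_lit 359) (nat_lit 334) (nat_lit 207)) (XT.lf (nat_lit 0) (nat_lit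 31597439584) (nat_lit 380) (nat_lit 9397020841) (nat_lit 456) (nat_lit 2561488326) (nat_lit 140) (nat_lit 5) (nat_lit 145) (nat_lit 5) (nat_lit 146) (nat_lit 5) (nat_lit 360) (nat_lit 334) (nat_lit 206)))) (XT.nd (nat_lit 78) (nat_lit 684) (nat_lit 0) (XT.lf (nat_lit 0) (nat_lit 9760956677) (nat_lit 380) (nat_lit 16947649317) (nat_lit 76) (nat_lit 18176717056) (nat_lit 135) (nat_lit 5) (nat_lit 140) (nat_lit 5) (nat_lit 136) (nat_lit 5) (nat_lit 361) (nat_lit 334) (nat_lit 205)) (XT.nd (nat_lit 78) (nat_lit 304) (nat_lit 0) (XT.lf (nat_lit 0) (nat_lit 23103073351) (nat_lit 456) (nat_lit 22134024051) (nat_lit 76) (nat_lit 1029613991) (nat_lit 130) (nat_lit 5) (nat_lit 136) (nat_lit 5) (nat_lit 131) (nat_lit 5) (nat_lit 362) (nat_lit 334) (nat_lit 204)) (XT.lf (nat_lit 0) (nat_lit 20021513115) (nat_lit 304) (nat_lit 17723866636) (nat_lit 380) (nat_lit 9952798709) (nat_lit 126) (nat_lit 5) (nat_lit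 130) (nat_lit 5) (nat_lit 131) (nat_lit 5) (nat_lit 363) (nat_lit 334) (nat_lit 203))))) (XT.nd (nat_lit 234) (nat_lit 684) (nat_lit 0) (XT.nd (nat_lit 78) (nat_lit 608) (nat_lit 0) (XT.lf (nat_lit 0) (nat_lit 4330692249) (nat_lit 380) (nat_lit 33485616245) (nat_lit 76) (nat_lit 11369124777) (nat_lit 121) (nat_lit 5) (nat_lit 126) (nat_lit 5) (nat_lit 122) (nat_lit 5) (nat_lit 364) (nat_lit 334) (nat_lit 202)) (XT.nd (nat_lit 78) (nat_lit 304) (nat_lit 0) (XT.lf (nat_lit 0) (nat_lit 11010711891) (nat_lit 304) (nat_lit 8681322026) (nat_lit 380) (nat_lit 31034976777) (nat_lit 117) (nat_lit 5) (nat_lit 121) (nat_lit 5) (nat_lit 122) (nat_lit 5) (nat_lit 365) (nat_lit 334) (nat_lit 201)) (XT.lf (nat_lit 0) (nat_lit 5992301300) (nat_lit 304) (nat_lit 30440764818) (nat_lit 380) (nat_lit 15894253694) (nat_lit 113) (nat_lit 5) (nat_lit 117) (nat_lit 5) (nat_lit 118) (nat_lit 5) (nat_lit 366) (nat_lit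 334) (nat_lit 200)))) (XT.nd (nat_lit 78) (nat_lit 304) (nat_lit 0) (XT.lf (nat_lit 0) (nat_lit 508650365) (nat_lit 380) (nat_lit 53257967760) (nat_lit 76) (nat_lit 225870269) (nat_lit 108) (nat_lit 5) (nat_lit 113) (nat_lit 5) (nat_lit 109) (nat_lit 5) (nat_lit 367) (nat_lit 334) (nat_lit 199)) (XT.nd (nat_lit 78) (nat_lit 304) (nat_lit 0) (XT.lf (nat_lit 0) (nat_lit 18190520933) (nat_lit 380) (nat_lit 5079894609) (nat_lit 76) (nat_lit 32442153978) (nat_lit 108) (nat_lit 5) (nat_lit 113) (nat_lit 5) (nat_lit 109) (nat_lit 5) (nat_lit 368) (nat_lit 334) (nat_lit 198)) (XT.lf (nat_lit 0) (nat_lit 37286831677) (nat_lit 380) (nat_lit 11187656697) (nat_lit 76) (nat_lit 9028257210) (nat_lit 104) (nat_lit 5) (nat_lit 109) (nat_lit 5) (nat_lit 105) (nat_lit 5) (nat_lit 369) (nat_lit 334) (nat_lit 197))))))))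
noncomputable def xc103 : XT := (XT.nd (nat_lit 44460) (nat_lit 0) (nat_lit 6232) (XT.nd (nat_lit 936) (nat_lit 1216) (nat_lit 0) (XT.nd (nat_lit 468) (nat_lit 1064) (nat_lit 0) (XT.nd (nat_lit 234) (nat_lit 760) (nat_lit 0) (XT.nd (nat_lit 78) (nat_lit 608) (nat_lit 0) (XT.lf (nat_lit 0) (nat_lit 41574694721) (nat_lit 228) (nat_lit 16446461161) (nat_lit 304) (nat_lit 1340779855) (nat_lit 101) (nat_lit 5) (nat_lit 104) (nat_lit 5) (nat_lit 105) (nat_lit 5) (nat_lit 370) (nat_lit 334) (nat_lit 196)) (XT.nd (nat_lit 78) (nat_lit 228) (nat_lit 0) (XT.lf (nat_lit 0) (nat_lit 18751472763) (nat_lit 380) (nat_lit 25042290811) (nat_lit 76) (nat_lit 17495976174) (nat_lit 96) (nat_lit 5) (nat_lit 101) (nat_lit 5) (nat_lit 97) (nat_lit 5) (nat_lit 371) (nat_lit 334) (nat_lit 195)) (XT.lf (nat_lit 0) (nat_lit 30453934754) (nat_lit 228) (nat_lit 10006670989) (nat_lit 304) (nat_lit 22833731127) (nat_lit 93)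 (nat_lit 5) (nat_lit 96) (nat_lit 5) (nat_lit 97) (nat_lit 5) (nat_lit 372) (nat_lit 334) (nat_lit 194)))) (XT.nd (nat_lit 78) (nat_lit 532) (nat_lit 0) (XT.lf (nat_lit 0) (nat_lit 24073183306) (nat_lit 228) (nat_lit 39914781122) (nat_lit 304) (nat_lit 1389217372) (nat_lit 90) (nat_lit 5) (nat_lit 93) (nat_lit 5) (nat_lit 94) (nat_lit 5) (nat_lit 373) (nat_lit 334) (nat_lit 193)) (XT.nd (nat_lit 78) (nat_lit 228) (nat_lit 0) (XT.lf (nat_lit 0) (nat_lit 16982703570) (nat_lit 228) (nat_lit 4334481183) (nat_lit 304) (nat_lit 46222834350) (nat_lit 86) (nat_lit 5) (nat_lit 89) (nat_lit 5) (nat_lit 90) (nat_lit 5) (nat_lit 374) (nat_lit 334) (nat_lit 192)) (XT.lf (nat_lit 0) (nat_lit 9084353255) (nat_lit 228) (nat_lit 36876646517) (nat_lit 304) (nat_lit 23824662044) (nat_lit 83) (nat_lit 5) (nat_lit 86) (nat_lit 5) (nat_lit 87) (nat_lit 5) (nat_lit 375) (nat_lit 334) (nat_lit 191))))) (XT.nd (nat_lit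 234) (nat_lit 608) (nat_lit 0) (XT.nd (nat_lit 78) (nat_lit 228) (nat_lit 0) (XT.lf (nat_lit 0) (nat_lit 274072397) (nat_lit 228) (nat_lit 71533104555) (nat_lit 76) (nat_lit 319258828) (nat_lit 80) (nat_lit 5) (nat_lit 83) (nat_lit 5) (nat_lit 81) (nat_lit 5) (nat_lit 376) (nat_lit 334) (nat_lit 190)) (XT.nd (nat_lit 78) (nat_lit 228) (nat_lit 0) (XT.lf (nat_lit 0) (nat_lit 26089407027) (nat_lit 228) (nat_lit 8968860182) (nat_lit 76) (nat_lit 39488773575) (nat_lit 80) (nat_lit 5) (nat_lit 83) (nat_lit 5) (nat_lit 81) (nat_lit 5) (nat_lit 377) (nat_lit 334) (nat_lit 189)) (XT.lf (nat_lit 0) (nat_lit 53787687841) (nat_lit 304) (nat_lit 19264502342) (nat_lit 76) (nat_lit 4018721226) (nat_lit 77) (nat_lit 5) (nat_lit 81) (nat_lit 5) (nat_lit 78) (nat_lit 5) (nat_lit 378) (nat_lit 334) (nat_lit 188)))) (XT.nd (nat_lit 78) (nat_lit 380) (nat_lit 0) (XT.lf (nat_lit 0) (nat_lit 4012273134) (nat_lit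 228) (nat_lit 30747423650) (nat_lit 76) (nat_lit 44932656156) (nat_lit 74) (nat_lit 5) (nat_lit 77) (nat_lit 5) (nat_lit 75) (nat_lit 5) (nat_lit 379) (nat_lit 334) (nat_lit 187)) (XT.nd (nat_lit 78) (nat_lit 152) (nat_lit 0) (XT.lf (nat_lit 0) (nat_lit 32828364380) (nat_lit 304) (nat_lit 43432759756) (nat_lit 76) (nat_lit 6157706694) (nat_lit 71) (nat_lit 5) (nat_lit 75) (nat_lit 5) (nat_lit 72) (nat_lit 5) (nat_lit 380) (nat_lit 334) (nat_lit 186)) (XT.lf (nat_lit 0) (nat_lit 27759182410) (nat_lit 152) (nat_lit 36260361807) (nat_lit 228) (nat_lit 21234060511) (nat_lit 69) (nat_lit 5) (nat_lit 71) (nat_lit 5) (nat_lit 72) (nat_lit 5) (nat_lit 381) (nat_lit 334) (nat_lit 185)))))) (XT.nd (nat_lit 468) (nat_lit 228) (nat_lit 0) (XT.nd (nat_lit 234) (nat_lit 532) (nat_lit 0) (XT.nd (nat_lit 78) (nat_lit 152) (nat_lit 0) (XT.lf (nat_lit 0) (nat_lit 9032116508) (nat_lit 304) (nat_lit 72860904609)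 (nat_lit 76) (nat_lit 6314875986) (nat_lit 65) (nat_lit 5) (nat_lit 69) (nat_lit 5) (nat_lit 66) (nat_lit 5) (nat_lit 382) (nat_lit 334) (nat_lit 184)) (XT.nd (nat_lit 78) (nat_lit 0) (nat_lit 0) (XT.lf (nat_lit 0) (nat_lit 1171493559) (nat_lit 152) (nat_lit 40177096186) (nat_lit 228) (nat_lit 49925723554) (nat_lit 63) (nat_lit 5) (nat_lit 65) (nat_lit 5) (nat_lit 66) (nat_lit 5) (nat_lit 383) (nat_lit 334) (nat_lit 183)) (XT.lf (nat_lit 0) (nat_lit 76070363528) (nat_lit 228) (nat_lit 14090644493) (nat_lit 76) (nat_lit 4309358511) (nat_lit 63) (nat_lit 5) (nat_lit 66) (nat_lit 5) (nat_lit 64) (nat_lit 5) (nat_lit 384) (nat_lit 334) (nat_lit 182)))) (XT.nd (nat_lit 78) (nat_lit 304) (nat_lit 0) (XT.lf (nat_lit 0) (nat_lit 15468577083) (nat_lit 228) (nat_lit 31334806796) (nat_lit 76) (nat_lit 50986995423) (nat_lit 60) (nat_lit 5) (nat_lit 63) (nat_lit 5) (nat_lit 61) (nat_lit 5) (nat_lit 385)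 (nat_lit 334) (nat_lit 181)) (XT.nd (nat_lit 78) (nat_lit 152) (nat_lit 0) (XT.lf (nat_lit 0) (nat_lit 50852065414) (nat_lit 152) (nat_lit 434188955) (nat_lit 228) (nat_lit 49965587207) (nat_lit 58) (nat_lit 5) (nat_lit 60) (nat_lit 5) (nat_lit 61) (nat_lit 5) (nat_lit 386) (nat_lit 334) (nat_lit 180)) (XT.lf (nat_lit 0) (nat_lit 33100736905) (nat_lit 152) (nat_lit 56899290046) (nat_lit 228) (nat_lit 14853194117) (nat_lit 56) (nat_lit 5) (nat_lit 58) (nat_lit 5) (nat_lit 59) (nat_lit 5) (nat_lit 387) (nat_lit 334) (nat_lit 179))))) (XT.nd (nat_lit 42822) (nat_lit 0) (nat_lit 13908) (XT.nd (nat_lit 78) (nat_lit 0) (nat_lit 0) (XT.lf (nat_lit 0) (nat_lit 13243212098) (nat_lit 152) (nat_lit 8995142732) (nat_lit 228) (nat_lit 86370372781) (nat_lit 53) (nat_lit 5) (nat_lit 55) (nat_lit 5) (nat_lit 56) (nat_lit 5) (nat_lit 388) (nat_lit 334) (nat_lit 178)) (XT.nd (nat_lit 42666) (nat_lit 0) (nat_lit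 13832) (XT.lf (nat_lit 0) (nat_lit 62020675526) (nat_lit 228) (nat_lit 9100390265) (nat_lit 76) (nat_lit 41392230811) (nat_lit 53) (nat_lit 5) (nat_lit 56) (nat_lit 5) (nat_lit 54) (nat_lit 5) (nat_lit 389) (nat_lit 334) (nat_lit 177)) (XT.lf (nat_lit 0) (nat_lit 110056384) (nat_lit 1292) (nat_lit 5583375420) (nat_lit 1292) (nat_lit 5583375420) (nat_lit 235) (nat_lit 3) (nat_lit 252) (nat_lit 3) (nat_lit 252) (nat_lit 5) (nat_lit 335) (nat_lit 335) (nat_lit 230)))) (XT.nd (nat_lit 78) (nat_lit 0) (nat_lit 76) (XT.lf (nat_lit 0) (nat_lit 563626109) (nat_lit 1216) (nat_lit 16235534440) (nat_lit 1292) (nat_lit 6308045381) (nat_lit 236) (nat_lit 5) (nat_lit 252) (nat_lit 5) (nat_lit 253) (nat_lit 5) (nat_lit 336) (nat_lit 335) (nat_lit 229)) (XT.nd (nat_lit 78) (nat_lit 0) (nat_lit 0) (XT.lf (nat_lit 0) (nat_lit 1174589156) (nat_lit 1216) (nat_lit 21410773884) (nat_lit 1292) (nat_lit 1095612673)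 (nat_lit 237) (nat_lit 5) (nat_lit 253) (nat_lit 5) (nat_lit 254) (nat_lit 5) (nat_lit 337) (nat_lit 335) (nat_lit 228)) (XT.lf (nat_lit 0) (nat_lit 2141649019) (nat_lit 1216) (nat_lit 2416883335) (nat_lit 1292) (nat_lit 19715141792) (nat_lit 237) (nat_lit 5) (nat_lit 253) (nat_lit 5) (nat_lit 254) (nat_lit 5) (nat_lit 338) (nat_lit 335) (nat_lit 227))))))) (XT.nd (nat_lit 936) (nat_lit 5092) (nat_lit 0) (XT.nd (nat_lit 468) (nat_lit 2736) (nat_lit 0) (XT.nd (nat_lit 234) (nat_lit 0) (nat_lit 152) (XT.nd (nat_lit 78) (nat_lit 0) (nat_lit 76) (XT.lf (nat_lit 0) (nat_lit 3456511114) (nat_lit 1216) (nat_lit 7163113850) (nat_lit 1292) (nat_lit 14267405362) (nat_lit 238) (nat_lit 5) (nat_lit 254) (nat_lit 5) (nat_lit 255) (nat_lit 5) (nat_lit 339) (nat_lit 335) (nat_lit 226)) (XT.nd (nat_lit 78) (nat_lit 0) (nat_lit 76) (XT.lf (nat_lit 0) (nat_lit 5109827602) (nat_lit 1216) (nat_lit 12004208711)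 (nat_lit 1292) (nat_lit 8408842667) (nat_lit 239) (nat_lit 5) (nat_lit 255) (nat_lit 5) (nat_lit 256) (nat_lit 5) (nat_lit 340) (nat_lit 335) (nat_lit 225)) (XT.lf (nat_lit 0) (nat_lit 7126096787) (nat_lit 1216) (nat_lit 16942466305) (nat_lit 1292) (nat_lit 2113554084) (nat_lit 240) (nat_lit 5) (nat_lit 256) (nat_lit 5) (nat_lit 257) (nat_lit 5) (nat_lit 341) (nat_lit 335) (nat_lit 224)))) (XT.nd (nat_lit 78) (nat_lit 0) (nat_lit 76) (XT.lf (nat_lit 76) (nat_lit 4838541104) (nat_lit 0) (nat_lit 4738057827) (nat_lit 1292) (nat_lit 17287721212) (nat_lit 241) (nat_lit 5) (nat_lit 240) (nat_lit 5) (nat_lit 257) (nat_lit 5) (nat_lit 342) (nat_lit 335) (nat_lit 223)) (XT.nd (nat_lit 78) (nat_lit 0) (nat_lit 76) (XT.lf (nat_lit 76) (nat_lit 334511178) (nat_lit 0) (nat_lit 12133860617) (nat_lit 1292) (nat_lit 15102704281) (nat_lit 242) (nat_lit 5) (nat_lit 241) (nat_lit 5) (nat_lit 258) (nat_lit 5)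 (nat_lit 343) (nat_lit 335) (nat_lit 222)) (XT.lf (nat_lit 0) (nat_lit 15850268243) (nat_lit 1216) (nat_lit 4169875787) (nat_lit 1292) (nat_lit 8282664665) (nat_lit 242) (nat_lit 5) (nat_lit 258) (nat_lit 5) (nat_lit 259) (nat_lit 5) (nat_lit 344) (nat_lit 335) (nat_lit 221))))) (XT.nd (nat_lit 234) (nat_lit 1292) (nat_lit 0) (XT.nd (nat_lit 78) (nat_lit 1824) (nat_lit 0) (XT.lf (nat_lit 0) (nat_lit 19715581502) (nat_lit 1216) (nat_lit 8751262388) (nat_lit 76) (nat_lit 594859101) (nat_lit 243) (nat_lit 5) (nat_lit 259) (nat_lit 5) (nat_lit 244) (nat_lit 5) (nat_lit 345) (nat_lit 335) (nat_lit 220)) (XT.nd (nat_lit 78) (nat_lit 608) (nat_lit 0) (XT.lf (nat_lit 0) (nat_lit 16353537174) (nat_lit 1216) (nat_lit 7814351578) (nat_lit 1292) (nat_lit 5678845878) (nat_lit 227) (nat_lit 5) (nat_lit 243) (nat_lit 5) (nat_lit 244) (nat_lit 5) (nat_lit 346) (nat_lit 335) (nat_lit 219)) (XT.lf (nat_lit 0)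 (nat_lit 12326657293) (nat_lit 608) (nat_lit 16850428800) (nat_lit 684) (nat_lit 1483907783) (nat_lit 219) (nat_lit 5) (nat_lit 227) (nat_lit 5) (nat_lit 228) (nat_lit 5) (nat_lit 347) (nat_lit 335) (nat_lit 218)))) (XT.nd (nat_lit 78) (nat_lit 608) (nat_lit 0) (XT.lf (nat_lit 0) (nat_lit 3202990298) (nat_lit 684) (nat_lit 23302780778) (nat_lit 76) (nat_lit 4999180425) (nat_lit 210) (nat_lit 5) (nat_lit 219) (nat_lit 5) (nat_lit 211) (nat_lit 5) (nat_lit 348) (nat_lit 335) (nat_lit 217)) (XT.nd (nat_lit 78) (nat_lit 0) (nat_lit 0) (XT.lf (nat_lit 0) (nat_lit 3945499992) (nat_lit 608) (nat_lit 4538980860) (nat_lit 684) (nat_lit 23894461037) (nat_lit 202) (nat_lit 5) (nat_lit 210) (nat_lit 5) (nat_lit 211) (nat_lit 5) (nat_lit 349) (nat_lit 335) (nat_lit 216)) (XT.lf (nat_lit 0) (nat_lit 14442739882) (nat_lit 684) (nat_lit 434513831) (nat_lit 76) (nat_lit 18407000841) (nat_lit 202) (nat_lit 5)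 (nat_lit 211) (nat_lit 5) (nat_lit 203) (nat_lit 5) (nat_lit 350) (nat_lit 335) (nat_lit 215)))))) (XT.nd (nat_lit 468) (nat_lit 2052) (nat_lit 0) (XT.nd (nat_lit 234) (nat_lit 1444) (nat_lit 0) (XT.nd (nat_lit 78) (nat_lit 1064) (nat_lit 0) (XT.lf (nat_lit 0) (nat_lit 21102261288) (nat_lit 608) (nat_lit 4820020990) (nat_lit 76) (nat_lit 8300453502) (nat_lit 195) (nat_lit 5) (nat_lit 203) (nat_lit 5) (nat_lit 196) (nat_lit 5) (nat_lit 351) (nat_lit 335) (nat_lit 214)) (XT.nd (nat_lit 78) (nat_lit 532) (nat_lit 0) (XT.lf (nat_lit 0) (nat_lit 25880289274) (nat_lit 532) (nat_lit 2610916328) (nat_lit 608) (nat_lit 6705045303) (nat_lit 188) (nat_lit 5) (nat_lit 195) (nat_lit 5) (nat_lit 196) (nat_lit 5) (nat_lit 352) (nat_lit 335) (nat_lit 213)) (XT.lf (nat_lit 0) (nat_lit 502262995) (nat_lit 532) (nat_lit 13994551379) (nat_lit 76) (nat_lit 21707469962) (nat_lit 181) (nat_lit 5) (nat_lit 188) (nat_lit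 5) (nat_lit 182) (nat_lit 5) (nat_lit 353) (nat_lit 335) (nat_lit 212)))) (XT.nd (nat_lit 78) (nat_lit 912) (nat_lit 0) (XT.lf (nat_lit 0) (nat_lit 8325880914) (nat_lit 608) (nat_lit 18845295762) (nat_lit 76) (nat_lit 10077715577) (nat_lit 174) (nat_lit 5) (nat_lit 182) (nat_lit 5) (nat_lit 175) (nat_lit 5) (nat_lit 354) (nat_lit 335) (nat_lit 211)) (XT.nd (nat_lit 78) (nat_lit 456) (nat_lit 0) (XT.lf (nat_lit 0) (nat_lit 14500613027) (nat_lit 456) (nat_lit 2464937939) (nat_lit 532) (nat_lit 21367436185) (nat_lit 168) (nat_lit 5) (nat_lit 174) (nat_lit 5) (nat_lit 175) (nat_lit 5) (nat_lit 355) (nat_lit 335) (nat_lit 210)) (XT.lf (nat_lit 0) (nat_lit 10410459934) (nat_lit 456) (nat_lit 16142302674) (nat_lit 532) (nat_lit 12903060036) (nat_lit 162) (nat_lit 5) (nat_lit 168) (nat_lit 5) (nat_lit 169) (nat_lit 5) (nat_lit 356) (nat_lit 335) (nat_lit 209))))) (XT.nd (nat_lit 234) (nat_lit 1140)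 (nat_lit 0) (XT.nd (nat_lit 78) (nat_lit 532) (nat_lit 0) (XT.lf (nat_lit 0) (nat_lit 6230110544) (nat_lit 380) (nat_lit 30808824248) (nat_lit 456) (nat_lit 3583279589) (nat_lit 157) (nat_lit 5) (nat_lit 162) (nat_lit 5) (nat_lit 163) (nat_lit 5) (nat_lit 357) (nat_lit 335) (nat_lit 208)) (XT.nd (nat_lit 78) (nat_lit 0) (nat_lit 0) (XT.lf (nat_lit 0) (nat_lit 1841667017) (nat_lit 456) (nat_lit 4716642648) (nat_lit 532) (nat_lit 35272524077) (nat_lit 150) (nat_lit 5) (nat_lit 156) (nat_lit 5) (nat_lit 157) (nat_lit 5) (nat_lit 358) (nat_lit 335) (nat_lit 207)) (XT.lf (nat_lit 0) (nat_lit 17703574476) (nat_lit 532) (nat_lit 2748205059) (nat_lit 76) (nat_lit 22629921256) (nat_lit 150) (nat_lit 5) (nat_lit 157) (nat_lit 5) (nat_lit 151) (nat_lit 5) (nat_lit 359) (nat_lit 335) (nat_lit 206)))) (XT.nd (nat_lit 78) (nat_lit 760) (nat_lit 0) (XT.lf (nat_lit 0) (nat_lit 29873706854) (nat_lit 456) (nat_lit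 7429645288) (nat_lit 76) (nat_lit 7077732992) (nat_lit 145) (nat_lit 5) (nat_lit 151) (nat_lit 5) (nat_lit 146) (nat_lit 5) (nat_lit 360) (nat_lit 335) (nat_lit 205)) (XT.nd (nat_lit 78) (nat_lit 380) (nat_lit 0) (XT.lf (nat_lit 0) (nat_lit 33387017215) (nat_lit 380) (nat_lit 9816156439) (nat_lit 456) (nat_lit 2525742178) (nat_lit 140) (nat_lit 5) (nat_lit 145) (nat_lit 5) (nat_lit 146) (nat_lit 5) (nat_lit 361) (nat_lit 335) (nat_lit 204)) (XT.lf (nat_lit 0) (nat_lit 10404466855) (nat_lit 380) (nat_lit 17583968857) (nat_lit 76) (nat_lit 19136433542) (nat_lit 135) (nat_lit 5) (nat_lit 140) (nat_lit 5) (nat_lit 136) (nat_lit 5) (nat_lit 362) (nat_lit 335) (nat_lit 203))))))))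
noncomputable def xc104 : XT := (XT.nd (nat_lit 1794) (nat_lit 532) (nat_lit 0) (XT.nd (nat_lit 858) (nat_lit 2280) (nat_lit 0) (XT.nd (nat_lit 390) (nat_lit 1520) (nat_lit 0) (XT.nd (nat_lit 156) (nat_lit 988) (nat_lit 0) (XT.nd (nat_lit 78) (nat_lit 304) (nat_lit 0) (XT.lf (nat_lit 0) (nat_lit 24408785631) (nat_lit 456) (nat_lit 23031686621) (nat_lit 76) (nat_lit 1135004544) (nat_lit 130) (nat_lit 5) (nat_lit 136) (nat_lit 5) (nat_lit 131) (nat_lit 5) (nat_lit 363) (nat_lit 335) (nat_lit 202)) (XT.lf (nat_lit 0) (nat_lit 21225635353) (nat_lit 304) (nat_lit 18552354348) (nat_lit 380) (nat_lit 10300686588) (nat_lit 126) (nat_lit 5) (nat_lit 130) (nat_lit 5) (nat_lit 131) (nat_lit 5) (nat_lit 364) (nat_lit 335) (nat_lit 201))) (XT.nd (nat_lit 78) (nat_lit 608) (nat_lit 0) (XT.lf (nat_lit 0) (nat_lit 4689549331) (nat_lit 380) (nat_lit 34956045387) (nat_lit 76) (nat_lit 11994793512) (nat_lit 121)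 (nat_lit 5) (nat_lit 126) (nat_lit 5) (nat_lit 122) (nat_lit 5) (nat_lit 365) (nat_lit 335) (nat_lit 200)) (XT.nd (nat_lit 78) (nat_lit 304) (nat_lit 0) (XT.lf (nat_lit 0) (nat_lit 11759255790) (nat_lit 304) (nat_lit 9054828409) (nat_lit 380) (nat_lit 32445108780) (nat_lit 117) (nat_lit 5) (nat_lit 121) (nat_lit 5) (nat_lit 122) (nat_lit 5) (nat_lit 366) (nat_lit 335) (nat_lit 199)) (XT.lf (nat_lit 0) (nat_lit 6487732119) (nat_lit 304) (nat_lit 31900327438) (nat_lit 380) (nat_lit 16551583383) (nat_lit 113) (nat_lit 5) (nat_lit 117) (nat_lit 5) (nat_lit 118) (nat_lit 5) (nat_lit 367) (nat_lit 335) (nat_lit 198))))) (XT.nd (nat_lit 234) (nat_lit 836) (nat_lit 0) (XT.nd (nat_lit 78) (nat_lit 304) (nat_lit 0) (XT.lf (nat_lit 0) (nat_lit 664827179) (nat_lit 380) (nat_lit 55724678265) (nat_lit 76) (nat_lit 298645596) (nat_lit 108) (nat_lit 5) (nat_lit 113) (nat_lit 5) (nat_lit 109) (nat_lit 5) (nat_lit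 368) (nat_lit 335) (nat_lit 197)) (XT.nd (nat_lit 78) (nat_lit 304) (nat_lit 0) (XT.lf (nat_lit 0) (nat_lit 19224565356) (nat_lit 380) (nat_lit 5147043737) (nat_lit 76) (nat_lit 34122815785) (nat_lit 108) (nat_lit 5) (nat_lit 113) (nat_lit 5) (nat_lit 109) (nat_lit 5) (nat_lit 369) (nat_lit 335) (nat_lit 196)) (XT.lf (nat_lit 0) (nat_lit 39272094652) (nat_lit 380) (nat_lit 11562491908) (nat_lit 76) (nat_lit 9539632884) (nat_lit 104) (nat_lit 5) (nat_lit 109) (nat_lit 5) (nat_lit 105) (nat_lit 5) (nat_lit 370) (nat_lit 335) (nat_lit 195)))) (XT.nd (nat_lit 78) (nat_lit 608) (nat_lit 0) (XT.lf (nat_lit 0) (nat_lit 43832687060) (nat_lit 228) (nat_lit 17206412979) (nat_lit 304) (nat_lit 1287391820) (nat_lit 101) (nat_lit 5) (nat_lit 104) (nat_lit 5) (nat_lit 105) (nat_lit 5) (nat_lit 371) (nat_lit 335) (nat_lit 194)) (XT.nd (nat_lit 78) (nat_lit 228) (nat_lit 0) (XT.lf (nat_lit 0) (nat_lit 19803795446)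 (nat_lit 380) (nat_lit 26115114087) (nat_lit 76) (nat_lit 18431843224) (nat_lit 96) (nat_lit 5) (nat_lit 101) (nat_lit 5) (nat_lit 97) (nat_lit 5) (nat_lit 372) (nat_lit 335) (nat_lit 193)) (XT.lf (nat_lit 0) (nat_lit 32150783409) (nat_lit 228) (nat_lit 10443811481) (nat_lit 304) (nat_lit 23861100052) (nat_lit 93) (nat_lit 5) (nat_lit 96) (nat_lit 5) (nat_lit 97) (nat_lit 5) (nat_lit 373) (nat_lit 335) (nat_lit 192)))))) (XT.nd (nat_lit 468) (nat_lit 1064) (nat_lit 0) (XT.nd (nat_lit 234) (nat_lit 456) (nat_lit 0) (XT.nd (nat_lit 78) (nat_lit 532) (nat_lit 0) (XT.lf (nat_lit 0) (nat_lit 25448674814) (nat_lit 228) (nat_lit 41846593223) (nat_lit 304) (nat_lit 1347507116) (nat_lit 90) (nat_lit 5) (nat_lit 93) (nat_lit 5) (nat_lit 94) (nat_lit 5) (nat_lit 374) (nat_lit 335) (nat_lit 191)) (XT.nd (nat_lit 78) (nat_lit 228) (nat_lit 0) (XT.lf (nat_lit 0) (nat_lit 18000879666) (nat_lit 228) (nat_lit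 4487600465) (nat_lit 304) (nat_lit 48425350420) (nat_lit 86) (nat_lit 5) (nat_lit 89) (nat_lit 5) (nat_lit 90) (nat_lit 5) (nat_lit 375) (nat_lit 335) (nat_lit 190)) (XT.lf (nat_lit 0) (nat_lit 9705270510) (nat_lit 228) (nat_lit 38656379334) (nat_lit 304) (nat_lit 24910191896) (nat_lit 83) (nat_lit 5) (nat_lit 86) (nat_lit 5) (nat_lit 87) (nat_lit 5) (nat_lit 376) (nat_lit 335) (nat_lit 189)))) (XT.nd (nat_lit 78) (nat_lit 228) (nat_lit 0) (XT.lf (nat_lit 0) (nat_lit 388669330) (nat_lit 228) (nat_lit 74943391643) (nat_lit 76) (nat_lit 397646528) (nat_lit 80) (nat_lit 5) (nat_lit 83) (nat_lit 5) (nat_lit 81) (nat_lit 5) (nat_lit 377) (nat_lit 335) (nat_lit 188)) (XT.nd (nat_lit 78) (nat_lit 228) (nat_lit 0) (XT.lf (nat_lit 0) (nat_lit 27489966247) (nat_lit 228) (nat_lit 9258857344) (nat_lit 76) (nat_lit 41522664404) (nat_lit 80) (nat_lit 5) (nat_lit 83) (nat_lit 5) (nat_lit 81) (nat_lit 5) (nat_lit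 378) (nat_lit 335) (nat_lit 187)) (XT.lf (nat_lit 0) (nat_lit 56570650379) (nat_lit 304) (nat_lit 20071598064) (nat_lit 76) (nat_lit 4279380087) (nat_lit 77) (nat_lit 5) (nat_lit 81) (nat_lit 5) (nat_lit 78) (nat_lit 5) (nat_lit 379) (nat_lit 335) (nat_lit 186))))) (XT.nd (nat_lit 234) (nat_lit 456) (nat_lit 0) (XT.nd (nat_lit 78) (nat_lit 380) (nat_lit 0) (XT.lf (nat_lit 0) (nat_lit 4304383163) (nat_lit 228) (nat_lit 32131300382) (nat_lit 76) (nat_lit 47238522635) (nat_lit 74) (nat_lit 5) (nat_lit 77) (nat_lit 5) (nat_lit 75) (nat_lit 5) (nat_lit 380) (nat_lit 335) (nat_lit 185)) (XT.nd (nat_lit 78) (nat_lit 152) (nat_lit 0) (XT.lf (nat_lit 0) (nat_lit 34558936965) (nat_lit 304) (nat_lit 45453209192) (nat_lit 76) (nat_lit 6524932998) (nat_lit 71) (nat_lit 5) (nat_lit 75) (nat_lit 5) (nat_lit 72) (nat_lit 5) (nat_lit 381) (nat_lit 335) (nat_lit 184)) (XT.lf (nat_lit 0) (nat_lit 29293996292)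 (nat_lit 152) (nat_lit 38012845713) (nat_lit 228) (nat_lit 22206835641) (nat_lit 69) (nat_lit 5) (nat_lit 71) (nat_lit 5) (nat_lit 72) (nat_lit 5) (nat_lit 382) (nat_lit 335) (nat_lit 183)))) (XT.nd (nat_lit 78) (nat_lit 152) (nat_lit 0) (XT.lf (nat_lit 0) (nat_lit 9568726434) (nat_lit 304) (nat_lit 76357629156) (nat_lit 76) (nat_lit 6689369878) (nat_lit 65) (nat_lit 5) (nat_lit 69) (nat_lit 5) (nat_lit 66) (nat_lit 5) (nat_lit 383) (nat_lit 335) (nat_lit 182)) (XT.nd (nat_lit 78) (nat_lit 0) (nat_lit 0) (XT.lf (nat_lit 0) (nat_lit 1372194667) (nat_lit 152) (nat_lit 42126147059) (nat_lit 228) (nat_lit 52337201977) (nat_lit 63) (nat_lit 5) (nat_lit 65) (nat_lit 5) (nat_lit 66) (nat_lit 5) (nat_lit 384) (nat_lit 335) (nat_lit 181)) (XT.lf (nat_lit 0) (nat_lit 79952831576) (nat_lit 228) (nat_lit 14657998794) (nat_lit 76) (nat_lit 4580671148) (nat_lit 63) (nat_lit 5) (nat_lit 66) (nat_lit 5) (nat_lit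 64) (nat_lit 5) (nat_lit 385) (nat_lit 335) (nat_lit 180))))))) (XT.nd (nat_lit 43680) (nat_lit 0) (nat_lit 8512) (XT.nd (nat_lit 43212) (nat_lit 0) (nat_lit 13756) (XT.nd (nat_lit 42978) (nat_lit 0) (nat_lit 13604) (XT.nd (nat_lit 78) (nat_lit 304) (nat_lit 0) (XT.lf (nat_lit 0) (nat_lit 16319248133) (nat_lit 228) (nat_lit 32766750391) (nat_lit 76) (nat_lit 53591568750) (nat_lit 60) (nat_lit 5) (nat_lit 63) (nat_lit 5) (nat_lit 61) (nat_lit 5) (nat_lit 386) (nat_lit 335) (nat_lit 179)) (XT.nd (nat_lit 78) (nat_lit 152) (nat_lit 0) (XT.lf (nat_lit 0) (nat_lit 53525601507) (nat_lit 152) (nat_lit 399788183) (nat_lit 228) (nat_lit 52386786214) (nat_lit 58) (nat_lit 5) (nat_lit 60) (nat_lit 5) (nat_lit 61) (nat_lit 5) (nat_lit 387) (nat_lit 335) (nat_lit 178)) (XT.lf (nat_lit 0) (nat_lit 34884622537) (nat_lit 152) (nat_lit 59688417638) (nat_lit 228) (nat_lit 15520639140) (nat_lit 56) (nat_lit 5)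 (nat_lit 58) (nat_lit 5) (nat_lit 59) (nat_lit 5) (nat_lit 388) (nat_lit 335) (nat_lit 177)))) (XT.nd (nat_lit 78) (nat_lit 0) (nat_lit 76) (XT.lf (nat_lit 0) (nat_lit 321788239) (nat_lit 1292) (nat_lit 5756282803) (nat_lit 1292) (nat_lit 5756282803) (nat_lit 235) (nat_lit 3) (nat_lit 252) (nat_lit 3) (nat_lit 252) (nat_lit 5) (nat_lit 336) (nat_lit 336) (nat_lit 228)) (XT.nd (nat_lit 78) (nat_lit 0) (nat_lit 76) (XT.lf (nat_lit 0) (nat_lit 984798232) (nat_lit 1216) (nat_lit 16827021968) (nat_lit 1292) (nat_lit 6438752742) (nat_lit 236) (nat_lit 5) (nat_lit 252) (nat_lit 5) (nat_lit 253) (nat_lit 5) (nat_lit 337) (nat_lit 336) (nat_lit 227)) (XT.lf (nat_lit 0) (nat_lit 1608091742) (nat_lit 1216) (nat_lit 22254293353) (nat_lit 1292) (nat_lit 991202344) (nat_lit 237) (nat_lit 5) (nat_lit 253) (nat_lit 5) (nat_lit 254) (nat_lit 5) (nat_lit 338) (nat_lit 336) (nat_lit 226))))) (XT.nd (nat_lit 234)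 (nat_lit 0) (nat_lit 228) (XT.nd (nat_lit 78) (nat_lit 0) (nat_lit 76) (XT.lf (nat_lit 0) (nat_lit 2605658259) (nat_lit 1216) (nat_lit 2321518715) (nat_lit 1292) (nat_lit 20549288441) (nat_lit 237) (nat_lit 5) (nat_lit 253) (nat_lit 5) (nat_lit 254) (nat_lit 5) (nat_lit 339) (nat_lit 336) (nat_lit 225)) (XT.nd (nat_lit 78) (nat_lit 0) (nat_lit 76) (XT.lf (nat_lit 0) (nat_lit 3970017434) (nat_lit 1216) (nat_lit 7299555757) (nat_lit 1292) (nat_lit 14851412386) (nat_lit 238) (nat_lit 5) (nat_lit 254) (nat_lit 5) (nat_lit 255) (nat_lit 5) (nat_lit 340) (nat_lit 336) (nat_lit 224)) (XT.lf (nat_lit 0) (nat_lit 5690778379) (nat_lit 1216) (nat_lit 12378028802) (nat_lit 1292) (nat_lit 8720284496) (nat_lit 239) (nat_lit 5) (nat_lit 255) (nat_lit 5) (nat_lit 256) (nat_lit 5) (nat_lit 341) (nat_lit 336) (nat_lit 223)))) (XT.nd (nat_lit 78) (nat_lit 0) (nat_lit 0) (XT.lf (nat_lit 0) (nat_lit 7793590744)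 (nat_lit 1216) (nat_lit 17559280925) (nat_lit 1292) (nat_lit 2128856198) (nat_lit 240) (nat_lit 5) (nat_lit 256) (nat_lit 5) (nat_lit 257) (nat_lit 5) (nat_lit 342) (nat_lit 336) (nat_lit 222)) (XT.nd (nat_lit 78) (nat_lit 0) (nat_lit 76) (XT.lf (nat_lit 76) (nat_lit 5304175101) (nat_lit 0) (nat_lit 5049774772) (nat_lit 1292) (nat_lit 17844478748) (nat_lit 241) (nat_lit 5) (nat_lit 240) (nat_lit 5) (nat_lit 257) (nat_lit 5) (nat_lit 343) (nat_lit 336) (nat_lit 221)) (XT.lf (nat_lit 76) (nat_lit 578076172) (nat_lit 0) (nat_lit 12799515530) (nat_lit 1292) (nat_lit 15563319472) (nat_lit 242) (nat_lit 5) (nat_lit 241) (nat_lit 5) (nat_lit 258) (nat_lit 5) (nat_lit 344) (nat_lit 336) (nat_lit 220)))))) (XT.nd (nat_lit 468) (nat_lit 2584) (nat_lit 0) (XT.nd (nat_lit 234) (nat_lit 1900) (nat_lit 0) (XT.nd (nat_lit 78) (nat_lit 1140) (nat_lit 0) (XT.lf (nat_lit 0) (nat_lit 16914433597) (nat_lit 1216)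 (nat_lit 4153488702) (nat_lit 1292) (nat_lit 8641739496) (nat_lit 242) (nat_lit 5) (nat_lit 258) (nat_lit 5) (nat_lit 259) (nat_lit 5) (nat_lit 345) (nat_lit 336) (nat_lit 219)) (XT.nd (nat_lit 78) (nat_lit 1216) (nat_lit 0) (XT.lf (nat_lit 0) (nat_lit 20961769047) (nat_lit 1216) (nat_lit 8962027712) (nat_lit 76) (nat_lit 583047911) (nat_lit 243) (nat_lit 5) (nat_lit 259) (nat_lit 5) (nat_lit 244) (nat_lit 5) (nat_lit 346) (nat_lit 336) (nat_lit 218)) (XT.lf (nat_lit 0) (nat_lit 17391510715) (nat_lit 1216) (nat_lit 8234898167) (nat_lit 1292) (nat_lit 5705033740) (nat_lit 227) (nat_lit 5) (nat_lit 243) (nat_lit 5) (nat_lit 244) (nat_lit 5) (nat_lit 347) (nat_lit 336) (nat_lit 217)))) (XT.nd (nat_lit 78) (nat_lit 1292) (nat_lit 0) (XT.lf (nat_lit 0) (nat_lit 13164660657) (nat_lit 608) (nat_lit 17711352438) (nat_lit 684) (nat_lit 1310709277) (nat_lit 219) (nat_lit 5) (nat_lit 227) (nat_lit 5) (nat_lit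 228) (nat_lit 5) (nat_lit 348) (nat_lit 336) (nat_lit 216)) (XT.nd (nat_lit 78) (nat_lit 608) (nat_lit 0) (XT.lf (nat_lit 0) (nat_lit 3596146195) (nat_lit 684) (nat_lit 24240572965) (nat_lit 76) (nat_lit 5236379676) (nat_lit 210) (nat_lit 5) (nat_lit 219) (nat_lit 5) (nat_lit 211) (nat_lit 5) (nat_lit 349) (nat_lit 336) (nat_lit 215)) (XT.lf (nat_lit 0) (nat_lit 4363604991) (nat_lit 608) (nat_lit 4769133496) (nat_lit 684) (nat_lit 24858324680) (nat_lit 202) (nat_lit 5) (nat_lit 210) (nat_lit 5) (nat_lit 211) (nat_lit 5) (nat_lit 350) (nat_lit 336) (nat_lit 214))))) (XT.nd (nat_lit 234) (nat_lit 1520) (nat_lit 0) (XT.nd (nat_lit 78) (nat_lit 1064) (nat_lit 0) (XT.lf (nat_lit 0) (nat_lit 15378212875) (nat_lit 684) (nat_lit 239395132) (nat_lit 76) (nat_lit 19324359379) (nat_lit 202) (nat_lit 5) (nat_lit 211) (nat_lit 5) (nat_lit 203) (nat_lit 5) (nat_lit 351) (nat_lit 336) (nat_lit 213)) (XT.nd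 (nat_lit 78) (nat_lit 532) (nat_lit 0) (XT.lf (nat_lit 0) (nat_lit 22362628349) (nat_lit 608) (nat_lit 4844194496) (nat_lit 76) (nat_lit 8720797039) (nat_lit 195) (nat_lit 5) (nat_lit 203) (nat_lit 5) (nat_lit 196) (nat_lit 5) (nat_lit 352) (nat_lit 336) (nat_lit 212)) (XT.lf (nat_lit 0) (nat_lit 27384915963) (nat_lit 532) (nat_lit 2728354450) (nat_lit 608) (nat_lit 6836777365) (nat_lit 188) (nat_lit 5) (nat_lit 195) (nat_lit 5) (nat_lit 196) (nat_lit 5) (nat_lit 353) (nat_lit 336) (nat_lit 211)))) (XT.nd (nat_lit 78) (nat_lit 988) (nat_lit 0) (XT.lf (nat_lit 0) (nat_lit 719585308) (nat_lit 532) (nat_lit 14480073979) (nat_lit 76) (nat_lit 22808989277) (nat_lit 181) (nat_lit 5) (nat_lit 188) (nat_lit 5) (nat_lit 182) (nat_lit 5) (nat_lit 354) (nat_lit 336) (nat_lit 210)) (XT.nd (nat_lit 78) (nat_lit 456) (nat_lit 0) (XT.lf (nat_lit 0) (nat_lit 8927452523) (nat_lit 608) (nat_lit 19574085476) (nat_lit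 76) (nat_lit 10604160812) (nat_lit 174) (nat_lit 5) (nat_lit 182) (nat_lit 5) (nat_lit 175) (nat_lit 5) (nat_lit 355) (nat_lit 336) (nat_lit 209)) (XT.lf (nat_lit 0) (nat_lit 15432999533) (nat_lit 456) (nat_lit 2559277035) (nat_lit 532) (nat_lit 22251930568) (nat_lit 168) (nat_lit 5) (nat_lit 174) (nat_lit 5) (nat_lit 175) (nat_lit 5) (nat_lit 356) (nat_lit 336) (nat_lit 208))))))))
noncomputable def xc105 : XT := (XT.nd (nat_lit 1872) (nat_lit 1444) (nat_lit 0) (XT.nd (nat_lit 936) (nat_lit 2736) (nat_lit 0) (XT.nd (nat_lit 468) (nat_lit 2052) (nat_lit 0) (XT.nd (nat_lit 234) (nat_lit 760) (nat_lit 0) (XT.nd (nat_lit 78) (nat_lit 912) (nat_lit 0) (XT.lf (nat_lit 0) (nat_lit 11137398798) (nat_lit 456) (nat_lit 16915201311) (nat_lit 532) (nat_lit 13370775371) (nat_lit 162) (nat_lit 5) (nat_lit 168) (nat_lit 5) (nat_lit 169) (nat_lit 5) (nat_lit 357) (nat_lit 336) (nat_lit 207)) (XT.nd (nat_lit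 78) (nat_lit 532) (nat_lit 0) (XT.lf (nat_lit 0) (nat_lit 6746883729) (nat_lit 380) (nat_lit 32310283608) (nat_lit 456) (nat_lit 3591100316) (nat_lit 157) (nat_lit 5) (nat_lit 162) (nat_lit 5) (nat_lit 163) (nat_lit 5) (nat_lit 358) (nat_lit 336) (nat_lit 206)) (XT.lf (nat_lit 0) (nat_lit 2136446702) (nat_lit 456) (nat_lit 4911726629) (nat_lit 532) (nat_lit 36869279972) (nat_lit 150) (nat_lit 5) (nat_lit 156) (nat_lit 5) (nat_lit 157) (nat_lit 5) (nat_lit 359) (nat_lit 336) (nat_lit 205)))) (XT.nd (nat_lit 78) (nat_lit 760) (nat_lit 0) (XT.lf (nat_lit 0) (nat_lit 18743362608) (nat_lit 532) (nat_lit 2688256489) (nat_lit 76) (nat_lit 23799467804) (nat_lit 150) (nat_lit 5) (nat_lit 157) (nat_lit 5) (nat_lit 151) (nat_lit 5) (nat_lit 360) (nat_lit 336) (nat_lit 204)) (XT.nd (nat_lit 78) (nat_lit 380) (nat_lit 0) (XT.lf (nat_lit 0) (nat_lit 31516891615) (nat_lit 456) (nat_lit 7605305135) (nat_lit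 76) (nat_lit 7473399898) (nat_lit 145) (nat_lit 5) (nat_lit 151) (nat_lit 5) (nat_lit 146) (nat_lit 5) (nat_lit 361) (nat_lit 336) (nat_lit 203)) (XT.lf (nat_lit 0) (nat_lit 35246577283) (nat_lit 380) (nat_lit 10260963859) (nat_lit 456) (nat_lit 2503439207) (nat_lit 140) (nat_lit 5) (nat_lit 145) (nat_lit 5) (nat_lit 146) (nat_lit 5) (nat_lit 362) (nat_lit 336) (nat_lit 202))))) (XT.nd (nat_lit 234) (nat_lit 988) (nat_lit 0) (XT.nd (nat_lit 78) (nat_lit 684) (nat_lit 0) (XT.lf (nat_lit 0) (nat_lit 11065699126) (nat_lit 380) (nat_lit 18271727004) (nat_lit 76) (nat_lit 20139405453) (nat_lit 135) (nat_lit 5) (nat_lit 140) (nat_lit 5) (nat_lit 136) (nat_lit 5) (nat_lit 363) (nat_lit 336) (nat_lit 201)) (XT.nd (nat_lit 78) (nat_lit 304) (nat_lit 0) (XT.lf (nat_lit 0) (nat_lit 25765786012) (nat_lit 456) (nat_lit 23993666750) (nat_lit 76) (nat_lit 1240652598) (nat_lit 130) (nat_lit 5) (nat_lit 136)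 (nat_lit 5) (nat_lit 131) (nat_lit 5) (nat_lit 364) (nat_lit 336) (nat_lit 200)) (XT.lf (nat_lit 0) (nat_lit 22471086356) (nat_lit 304) (nat_lit 19427631367) (nat_lit 380) (nat_lit 10679891388) (nat_lit 126) (nat_lit 5) (nat_lit 130) (nat_lit 5) (nat_lit 131) (nat_lit 5) (nat_lit 365) (nat_lit 336) (nat_lit 199)))) (XT.nd (nat_lit 78) (nat_lit 608) (nat_lit 0) (XT.lf (nat_lit 0) (nat_lit 5053117472) (nat_lit 380) (nat_lit 36518948181) (nat_lit 76) (nat_lit 12646426607) (nat_lit 121) (nat_lit 5) (nat_lit 126) (nat_lit 5) (nat_lit 122) (nat_lit 5) (nat_lit 366) (nat_lit 336) (nat_lit 198)) (XT.nd (nat_lit 78) (nat_lit 304) (nat_lit 0) (XT.lf (nat_lit 0) (nat_lit 12526817947) (nat_lit 304) (nat_lit 9452640380) (nat_lit 380) (nat_lit 33938913574) (nat_lit 117) (nat_lit 5) (nat_lit 121) (nat_lit 5) (nat_lit 122) (nat_lit 5) (nat_lit 367) (nat_lit 336) (nat_lit 197)) (XT.lf (nat_lit 0) (nat_lit 6989729385)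 (nat_lit 304) (nat_lit 33438676580) (nat_lit 380) (nat_lit 17254552126) (nat_lit 113) (nat_lit 5) (nat_lit 117) (nat_lit 5) (nat_lit 118) (nat_lit 5) (nat_lit 368) (nat_lit 336) (nat_lit 196)))))) (XT.nd (nat_lit 468) (nat_lit 1216) (nat_lit 0) (XT.nd (nat_lit 234) (nat_lit 836) (nat_lit 0) (XT.nd (nat_lit 78) (nat_lit 304) (nat_lit 0) (XT.lf (nat_lit 0) (nat_lit 816657468) (nat_lit 380) (nat_lit 58332963985) (nat_lit 76) (nat_lit 369343693) (nat_lit 108) (nat_lit 5) (nat_lit 113) (nat_lit 5) (nat_lit 109) (nat_lit 5) (nat_lit 369) (nat_lit 336) (nat_lit 195)) (XT.nd (nat_lit 78) (nat_lit 304) (nat_lit 0) (XT.lf (nat_lit 0) (nat_lit 20298735462) (nat_lit 380) (nat_lit 5234921454) (nat_lit 76) (nat_lit 35882066877) (nat_lit 108) (nat_lit 5) (nat_lit 113) (nat_lit 5) (nat_lit 109) (nat_lit 5) (nat_lit 370) (nat_lit 336) (nat_lit 194)) (XT.lf (nat_lit 0) (nat_lit 41345378651) (nat_lit 380) (nat_lit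 11973226369) (nat_lit 76) (nat_lit 10071002567) (nat_lit 104) (nat_lit 5) (nat_lit 109) (nat_lit 5) (nat_lit 105) (nat_lit 5) (nat_lit 371) (nat_lit 336) (nat_lit 193)))) (XT.nd (nat_lit 78) (nat_lit 608) (nat_lit 0) (XT.lf (nat_lit 0) (nat_lit 46186913343) (nat_lit 228) (nat_lit 18010161075) (nat_lit 304) (nat_lit 1242530546) (nat_lit 101) (nat_lit 5) (nat_lit 104) (nat_lit 5) (nat_lit 105) (nat_lit 5) (nat_lit 372) (nat_lit 336) (nat_lit 192)) (XT.nd (nat_lit 78) (nat_lit 228) (nat_lit 0) (XT.lf (nat_lit 0) (nat_lit 20898065985) (nat_lit 380) (nat_lit 27258247329) (nat_lit 76) (nat_lit 19408826081) (nat_lit 96) (nat_lit 5) (nat_lit 101) (nat_lit 5) (nat_lit 97) (nat_lit 5) (nat_lit 373) (nat_lit 336) (nat_lit 191)) (XT.lf (nat_lit 0) (nat_lit 33916283501) (nat_lit 228) (nat_lit 10908684090) (nat_lit 304) (nat_lit 24950465593) (nat_lit 93) (nat_lit 5) (nat_lit 96) (nat_lit 5) (nat_lit 97) (nat_lit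 5) (nat_lit 374) (nat_lit 336) (nat_lit 190))))) (XT.nd (nat_lit 234) (nat_lit 456) (nat_lit 0) (XT.nd (nat_lit 78) (nat_lit 532) (nat_lit 0) (XT.lf (nat_lit 0) (nat_lit 26876965554) (nat_lit 228) (nat_lit 43880939250) (nat_lit 304) (nat_lit 1314046984) (nat_lit 90) (nat_lit 5) (nat_lit 93) (nat_lit 5) (nat_lit 94) (nat_lit 5) (nat_lit 375) (nat_lit 336) (nat_lit 189)) (XT.nd (nat_lit 78) (nat_lit 228) (nat_lit 0) (XT.lf (nat_lit 0) (nat_lit 19054248744) (nat_lit 228) (nat_lit 4654289081) (nat_lit 304) (nat_lit 50748091277) (nat_lit 86) (nat_lit 5) (nat_lit 89) (nat_lit 5) (nat_lit 90) (nat_lit 5) (nat_lit 376) (nat_lit 336) (nat_lit 188)) (XT.lf (nat_lit 0) (nat_lit 10341735479) (nat_lit 228) (nat_lit 40531058156) (nat_lit 304) (nat_lit 26059825526) (nat_lit 83) (nat_lit 5) (nat_lit 86) (nat_lit 5) (nat_lit 87) (nat_lit 5) (nat_lit 377) (nat_lit 336) (nat_lit 187)))) (XT.nd (nat_lit 78) (nat_lit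 228) (nat_lit 0) (XT.lf (nat_lit 0) (nat_lit 499616005) (nat_lit 228) (nat_lit 78539660418) (nat_lit 76) (nat_lit 474149951) (nat_lit 80) (nat_lit 5) (nat_lit 83) (nat_lit 5) (nat_lit 81) (nat_lit 5) (nat_lit 378) (nat_lit 336) (nat_lit 186)) (XT.nd (nat_lit 78) (nat_lit 228) (nat_lit 0) (XT.lf (nat_lit 0) (nat_lit 28951619997) (nat_lit 228) (nat_lit 9578085156) (nat_lit 76) (nat_lit 43652722478) (nat_lit 80) (nat_lit 5) (nat_lit 83) (nat_lit 5) (nat_lit 81) (nat_lit 5) (nat_lit 379) (nat_lit 336) (nat_lit 185)) (XT.lf (nat_lit 0) (nat_lit 59484061035) (nat_lit 304) (nat_lit 20933564003) (nat_lit 76) (nat_lit 4547519431) (nat_lit 77) (nat_lit 5) (nat_lit 81) (nat_lit 5) (nat_lit 78) (nat_lit 5) (nat_lit 380) (nat_lit 336) (nat_lit 184))))))) (XT.nd (nat_lit 43758) (nat_lit 0) (nat_lit 10944) (XT.nd (nat_lit 468) (nat_lit 380) (nat_lit 0) (XT.nd (nat_lit 234) (nat_lit 456) (nat_lit 0) (XT.nd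 (nat_lit 78) (nat_lit 380) (nat_lit 0) (XT.lf (nat_lit 0) (nat_lit 4602592229) (nat_lit 228) (nat_lit 33598641410) (nat_lit 76) (nat_lit 49654175452) (nat_lit 74) (nat_lit 5) (nat_lit 77) (nat_lit 5) (nat_lit 75) (nat_lit 5) (nat_lit 381) (nat_lit 336) (nat_lit 183)) (XT.nd (nat_lit 78) (nat_lit 152) (nat_lit 0) (XT.lf (nat_lit 0) (nat_lit 36367749450) (nat_lit 304) (nat_lit 47588737178) (nat_lit 76) (nat_lit 6905003657) (nat_lit 71) (nat_lit 5) (nat_lit 75) (nat_lit 5) (nat_lit 72) (nat_lit 5) (nat_lit 382) (nat_lit 336) (nat_lit 182)) (XT.lf (nat_lit 0) (nat_lit 30891897705) (nat_lit 152) (nat_lit 39858581708) (nat_lit 228) (nat_lit 23236517201) (nat_lit 69) (nat_lit 5) (nat_lit 71) (nat_lit 5) (nat_lit 72) (nat_lit 5) (nat_lit 383) (nat_lit 336) (nat_lit 181)))) (XT.nd (nat_lit 78) (nat_lit 152) (nat_lit 0) (XT.lf (nat_lit 0) (nat_lit 10124263981) (nat_lit 304) (nat_lit 80042793441) (nat_lit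 76) (nat_lit 7077126437) (nat_lit 65) (nat_lit 5) (nat_lit 69) (nat_lit 5) (nat_lit 66) (nat_lit 5) (nat_lit 384) (nat_lit 336) (nat_lit 180)) (XT.nd (nat_lit 78) (nat_lit 0) (nat_lit 0) (XT.lf (nat_lit 0) (nat_lit 1569717262) (nat_lit 152) (nat_lit 44178210477) (nat_lit 228) (nat_lit 54877138942) (nat_lit 63) (nat_lit 5) (nat_lit 65) (nat_lit 5) (nat_lit 66) (nat_lit 5) (nat_lit 385) (nat_lit 336) (nat_lit 179)) (XT.lf (nat_lit 0) (nat_lit 84022083015) (nat_lit 228) (nat_lit 15266474313) (nat_lit 76) (nat_lit 4860357505) (nat_lit 63) (nat_lit 5) (nat_lit 66) (nat_lit 5) (nat_lit 64) (nat_lit 5) (nat_lit 386) (nat_lit 336) (nat_lit 178))))) (XT.nd (nat_lit 43056) (nat_lit 0) (nat_lit 13528) (XT.nd (nat_lit 78) (nat_lit 152) (nat_lit 0) (XT.lf (nat_lit 0) (nat_lit 17205271488) (nat_lit 228) (nat_lit 34282823291) (nat_lit 76) (nat_lit 56321236580) (nat_lit 60) (nat_lit 5) (nat_lit 63) (nat_lit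 5) (nat_lit 61) (nat_lit 5) (nat_lit 387) (nat_lit 336) (nat_lit 177)) (XT.nd (nat_lit 42900) (nat_lit 0) (nat_lit 13452) (XT.lf (nat_lit 0) (nat_lit 56320641512) (nat_lit 152) (nat_lit 368883969) (nat_lit 228) (nat_lit 54936211372) (nat_lit 58) (nat_lit 5) (nat_lit 60) (nat_lit 5) (nat_lit 61) (nat_lit 5) (nat_lit 388) (nat_lit 336) (nat_lit 176)) (XT.lf (nat_lit 0) (nat_lit 524933466) (nat_lit 1292) (nat_lit 5947714731) (nat_lit 1292) (nat_lit 5947714731) (nat_lit 235) (nat_lit 3) (nat_lit 252) (nat_lit 3) (nat_lit 252) (nat_lit 5) (nat_lit 337) (nat_lit 337) (nat_lit 226)))) (XT.nd (nat_lit 78) (nat_lit 0) (nat_lit 76) (XT.lf (nat_lit 0) (nat_lit 1390492400) (nat_lit 1216) (nat_lit 17468564274) (nat_lit 1292) (nat_lit 6593166654) (nat_lit 236) (nat_lit 5) (nat_lit 252) (nat_lit 5) (nat_lit 253) (nat_lit 5) (nat_lit 338) (nat_lit 337) (nat_lit 225)) (XT.nd (nat_lit 78) (nat_lit 0) (nat_lit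 0) (XT.lf (nat_lit 0) (nat_lit 2028426605) (nat_lit 1216) (nat_lit 23161094891) (nat_lit 1292) (nat_lit 896371565) (nat_lit 237) (nat_lit 5) (nat_lit 253) (nat_lit 5) (nat_lit 254) (nat_lit 5) (nat_lit 339) (nat_lit 337) (nat_lit 224)) (XT.lf (nat_lit 0) (nat_lit 3059684291) (nat_lit 1216) (nat_lit 2241486909) (nat_lit 1292) (nat_lit 21439237724) (nat_lit 237) (nat_lit 5) (nat_lit 253) (nat_lit 5) (nat_lit 254) (nat_lit 5) (nat_lit 340) (nat_lit 337) (nat_lit 223)))))) (XT.nd (nat_lit 468) (nat_lit 2736) (nat_lit 0) (XT.nd (nat_lit 234) (nat_lit 0) (nat_lit 152) (XT.nd (nat_lit 78) (nat_lit 0) (nat_lit 76) (XT.lf (nat_lit 0) (nat_lit 4477525801) (nat_lit 1216) (nat_lit 7463432606) (nat_lit 1292) (nat_lit 15476646729) (nat_lit 238) (nat_lit 5) (nat_lit 254) (nat_lit 5) (nat_lit 255) (nat_lit 5) (nat_lit 341) (nat_lit 337) (nat_lit 222)) (XT.nd (nat_lit 78) (nat_lit 0) (nat_lit 76) (XT.lf (nat_lit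 0) (nat_lit 6270518565) (nat_lit 1216) (nat_lit 12791587526) (nat_lit 1292) (nat_lit 9057432233) (nat_lit 239) (nat_lit 5) (nat_lit 255) (nat_lit 5) (nat_lit 256) (nat_lit 5) (nat_lit 342) (nat_lit 337) (nat_lit 221)) (XT.lf (nat_lit 0) (nat_lit 8465527984) (nat_lit 1216) (nat_lit 18228348197) (nat_lit 1292) (nat_lit 2153325683) (nat_lit 240) (nat_lit 5) (nat_lit 256) (nat_lit 5) (nat_lit 257) (nat_lit 5) (nat_lit 343) (nat_lit 337) (nat_lit 220)))) (XT.nd (nat_lit 78) (nat_lit 0) (nat_lit 76) (XT.lf (nat_lit 76) (nat_lit 5772292647) (nat_lit 0) (nat_lit 5370122063) (nat_lit 1292) (nat_lit 18457674545) (nat_lit 241) (nat_lit 5) (nat_lit 240) (nat_lit 5) (nat_lit 257) (nat_lit 5) (nat_lit 344) (nat_lit 337) (nat_lit 219)) (XT.nd (nat_lit 78) (nat_lit 0) (nat_lit 76) (XT.lf (nat_lit 76) (nat_lit 812730035) (nat_lit 0) (nat_lit 13492971471) (nat_lit 1292) (nat_lit 16074347103) (nat_lit 242) (nat_lit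 5) (nat_lit 241) (nat_lit 5) (nat_lit 258) (nat_lit 5) (nat_lit 345) (nat_lit 337) (nat_lit 218)) (XT.lf (nat_lit 0) (nat_lit 18006551597) (nat_lit 1216) (nat_lit 4157189555) (nat_lit 1292) (nat_lit 9023886876) (nat_lit 242) (nat_lit 5) (nat_lit 258) (nat_lit 5) (nat_lit 259) (nat_lit 5) (nat_lit 346) (nat_lit 337) (nat_lit 217))))) (XT.nd (nat_lit 234) (nat_lit 1292) (nat_lit 0) (XT.nd (nat_lit 78) (nat_lit 1824) (nat_lit 0) (XT.lf (nat_lit 0) (nat_lit 22246055658) (nat_lit 1216) (nat_lit 9204416811) (nat_lit 76) (nat_lit 574509472) (nat_lit 243) (nat_lit 5) (nat_lit 259) (nat_lit 5) (nat_lit 244) (nat_lit 5) (nat_lit 347) (nat_lit 337) (nat_lit 216)) (XT.nd (nat_lit 78) (nat_lit 608) (nat_lit 0) (XT.lf (nat_lit 0) (nat_lit 18460901836) (nat_lit 1216) (nat_lit 8673698868) (nat_lit 1292) (nat_lit 5756494560) (nat_lit 227) (nat_lit 5) (nat_lit 243) (nat_lit 5) (nat_lit 244) (nat_lit 5) (nat_lit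 348) (nat_lit 337) (nat_lit 215)) (XT.lf (nat_lit 0) (nat_lit 14023955368) (nat_lit 608) (nat_lit 18613611396) (nat_lit 684) (nat_lit 1151851185) (nat_lit 219) (nat_lit 5) (nat_lit 227) (nat_lit 5) (nat_lit 228) (nat_lit 5) (nat_lit 349) (nat_lit 337) (nat_lit 214)))) (XT.nd (nat_lit 78) (nat_lit 608) (nat_lit 0) (XT.lf (nat_lit 0) (nat_lit 3987297162) (nat_lit 684) (nat_lit 25246391318) (nat_lit 76) (nat_lit 5486625173) (nat_lit 210) (nat_lit 5) (nat_lit 219) (nat_lit 5) (nat_lit 211) (nat_lit 5) (nat_lit 350) (nat_lit 337) (nat_lit 213)) (XT.nd (nat_lit 78) (nat_lit 0) (nat_lit 0) (XT.lf (nat_lit 0) (nat_lit 4782084560) (nat_lit 608) (nat_lit 5010495925) (nat_lit 684) (nat_lit 25891844625) (nat_lit 202) (nat_lit 5) (nat_lit 210) (nat_lit 5) (nat_lit 211) (nat_lit 5) (nat_lit 351) (nat_lit 337) (nat_lit 212)) (XT.lf (nat_lit 0) (nat_lit 16340625558) (nat_lit 684) (nat_lit 54680635) (nat_lit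 76) (nat_lit 20287863965) (nat_lit 202) (nat_lit 5) (nat_lit 211) (nat_lit 5) (nat_lit 203) (nat_lit 5) (nat_lit 352) (nat_lit 337) (nat_lit 211))))))))
noncomputable def xc106 : XT := (XT.nd (nat_lit 1872) (nat_lit 2280) (nat_lit 0) (XT.nd (nat_lit 936) (nat_lit 3420) (nat_lit 0) (XT.nd (nat_lit 468) (nat_lit 2052) (nat_lit 0) (XT.nd (nat_lit 234) (nat_lit 1444) (nat_lit 0) (XT.nd (nat_lit 78) (nat_lit 1064) (nat_lit 0) (XT.lf (nat_lit 0) (nat_lit 23666931193) (nat_lit 608) (nat_lit 4889735248) (nat_lit 76) (nat_lit 9161663070) (nat_lit 195) (nat_lit 5) (nat_lit 203) (nat_lit 5) (nat_lit 196) (nat_lit 5) (nat_lit 353) (nat_lit 337) (nat_lit 210)) (XT.nd (nat_lit 78) (nat_lit 532) (nat_lit 0) (XT.lf (nat_lit 0) (nat_lit 28945193258) (nat_lit 532) (nat_lit 2852883108) (nat_lit 608) (nat_lit 6994017409) (nat_lit 188) (nat_lit 5) (nat_lit 195) (nat_lit 5) (nat_lit 196) (nat_lit 5) (nat_lit 354)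 (nat_lit 337) (nat_lit 209)) (XT.lf (nat_lit 0) (nat_lit 929903950) (nat_lit 532) (nat_lit 15009787457) (nat_lit 76) (nat_lit 23964083472) (nat_lit 181) (nat_lit 5) (nat_lit 188) (nat_lit 5) (nat_lit 182) (nat_lit 5) (nat_lit 355) (nat_lit 337) (nat_lit 208)))) (XT.nd (nat_lit 78) (nat_lit 912) (nat_lit 0) (XT.lf (nat_lit 0) (nat_lit 9541877361) (nat_lit 608) (nat_lit 20359161564) (nat_lit 76) (nat_lit 11154830945) (nat_lit 174) (nat_lit 5) (nat_lit 182) (nat_lit 5) (nat_lit 175) (nat_lit 5) (nat_lit 356) (nat_lit 337) (nat_lit 207)) (XT.nd (nat_lit 78) (nat_lit 456) (nat_lit 0) (XT.lf (nat_lit 0) (nat_lit 16392727382) (nat_lit 456) (nat_lit 2661020659) (nat_lit 532) (nat_lit 23197744850) (nat_lit 168) (nat_lit 5) (nat_lit 174) (nat_lit 5) (nat_lit 175) (nat_lit 5) (nat_lit 357) (nat_lit 337) (nat_lit 206)) (XT.lf (nat_lit 0) (nat_lit 11881494015) (nat_lit 456) (nat_lit 17729926004) (nat_lit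 532) (nat_lit 13878372945) (nat_lit 162) (nat_lit 5) (nat_lit 168) (nat_lit 5) (nat_lit 169) (nat_lit 5) (nat_lit 358) (nat_lit 337) (nat_lit 205))))) (XT.nd (nat_lit 234) (nat_lit 1140) (nat_lit 0) (XT.nd (nat_lit 78) (nat_lit 532) (nat_lit 0) (XT.lf (nat_lit 0) (nat_lit 7270411733) (nat_lit 380) (nat_lit 33890440100) (nat_lit 456) (nat_lit 3615241952) (nat_lit 157) (nat_lit 5) (nat_lit 162) (nat_lit 5) (nat_lit 163) (nat_lit 5) (nat_lit 359) (nat_lit 337) (nat_lit 204)) (XT.nd (nat_lit 78) (nat_lit 0) (nat_lit 0) (XT.lf (nat_lit 0) (nat_lit 2427120587) (nat_lit 456) (nat_lit 5120353186) (nat_lit 532) (nat_lit 38561387681) (nat_lit 150) (nat_lit 5) (nat_lit 156) (nat_lit 5) (nat_lit 157) (nat_lit 5) (nat_lit 360) (nat_lit 337) (nat_lit 203)) (XT.lf (nat_lit 0) (nat_lit 19820766029) (nat_lit 532) (nat_lit 2643659042) (nat_lit 76) (nat_lit 25023954105) (nat_lit 150) (nat_lit 5) (nat_lit 157)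 (nat_lit 5) (nat_lit 151) (nat_lit 5) (nat_lit 361) (nat_lit 337) (nat_lit 202)))) (XT.nd (nat_lit 78) (nat_lit 760) (nat_lit 0) (XT.lf (nat_lit 0) (nat_lit 33228336575) (nat_lit 456) (nat_lit 7807953686) (nat_lit 76) (nat_lit 7884965816) (nat_lit 145) (nat_lit 5) (nat_lit 151) (nat_lit 5) (nat_lit 146) (nat_lit 5) (nat_lit 362) (nat_lit 337) (nat_lit 201)) (XT.nd (nat_lit 78) (nat_lit 380) (nat_lit 0) (XT.lf (nat_lit 0) (nat_lit 37181431506) (nat_lit 380) (nat_lit 10732288332) (nat_lit 456) (nat_lit 2493835584) (nat_lit 140) (nat_lit 5) (nat_lit 145) (nat_lit 5) (nat_lit 146) (nat_lit 5) (nat_lit 363) (nat_lit 337) (nat_lit 200)) (XT.lf (nat_lit 0) (nat_lit 11746883338) (nat_lit 380) (nat_lit 19011671363) (nat_lit 76) (nat_lit 21188235348) (nat_lit 135) (nat_lit 5) (nat_lit 140) (nat_lit 5) (nat_lit 136) (nat_lit 5) (nat_lit 364) (nat_lit 337) (nat_lit 199)))))) (XT.nd (nat_lit 468) (nat_lit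 1368) (nat_lit 0) (XT.nd (nat_lit 234) (nat_lit 988) (nat_lit 0) (XT.nd (nat_lit 78) (nat_lit 684) (nat_lit 0) (XT.lf (nat_lit 0) (nat_lit 27177940255) (nat_lit 456) (nat_lit 25021373487) (nat_lit 76) (nat_lit 1347036998) (nat_lit 130) (nat_lit 5) (nat_lit 136) (nat_lit 5) (nat_lit 131) (nat_lit 5) (nat_lit 365) (nat_lit 337) (nat_lit 198)) (XT.nd (nat_lit 78) (nat_lit 380) (nat_lit 0) (XT.lf (nat_lit 0) (nat_lit 23761687600) (nat_lit 304) (nat_lit 20351538379) (nat_lit 380) (nat_lit 11090684570) (nat_lit 126) (nat_lit 5) (nat_lit 130) (nat_lit 5) (nat_lit 131) (nat_lit 5) (nat_lit 366) (nat_lit 337) (nat_lit 197)) (XT.lf (nat_lit 0) (nat_lit 5422862393) (nat_lit 380) (nat_lit 38177186316) (nat_lit 76) (nat_lit 13325816799) (nat_lit 121) (nat_lit 5) (nat_lit 126) (nat_lit 5) (nat_lit 122) (nat_lit 5) (nat_lit 367) (nat_lit 337) (nat_lit 196)))) (XT.nd (nat_lit 78) (nat_lit 684) (nat_lit 0) (XT.lf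 (nat_lit 0) (nat_lit 13316060766) (nat_lit 304) (nat_lit 9875449769) (nat_lit 380) (nat_lit 35519350732) (nat_lit 117) (nat_lit 5) (nat_lit 121) (nat_lit 5) (nat_lit 122) (nat_lit 5) (nat_lit 368) (nat_lit 337) (nat_lit 195)) (XT.nd (nat_lit 78) (nat_lit 380) (nat_lit 0) (XT.lf (nat_lit 0) (nat_lit 7500313959) (nat_lit 304) (nat_lit 35059211561) (nat_lit 380) (nat_lit 18004254402) (nat_lit 113) (nat_lit 5) (nat_lit 117) (nat_lit 5) (nat_lit 118) (nat_lit 5) (nat_lit 369) (nat_lit 337) (nat_lit 194)) (XT.lf (nat_lit 0) (nat_lit 965053997) (nat_lit 380) (nat_lit 61088207927) (nat_lit 76) (nat_lit 438392118) (nat_lit 108) (nat_lit 5) (nat_lit 113) (nat_lit 5) (nat_lit 109) (nat_lit 5) (nat_lit 370) (nat_lit 337) (nat_lit 193))))) (XT.nd (nat_lit 234) (nat_lit 836) (nat_lit 0) (XT.nd (nat_lit 78) (nat_lit 532) (nat_lit 0) (XT.lf (nat_lit 0) (nat_lit 21416113812) (nat_lit 380) (nat_lit 5342949187)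 (nat_lit 76) (nat_lit 37724342830) (nat_lit 108) (nat_lit 5) (nat_lit 113) (nat_lit 5) (nat_lit 109) (nat_lit 5) (nat_lit 371) (nat_lit 337) (nat_lit 192)) (XT.nd (nat_lit 78) (nat_lit 228) (nat_lit 0) (XT.lf (nat_lit 0) (nat_lit 43512129911) (nat_lit 380) (nat_lit 12420059901) (nat_lit 76) (nat_lit 10623884251) (nat_lit 104) (nat_lit 5) (nat_lit 109) (nat_lit 5) (nat_lit 105) (nat_lit 5) (nat_lit 372) (nat_lit 337) (nat_lit 191)) (XT.lf (nat_lit 0) (nat_lit 48643734684) (nat_lit 228) (nat_lit 18859356156) (nat_lit 304) (nat_lit 1205581459) (nat_lit 101) (nat_lit 5) (nat_lit 104) (nat_lit 5) (nat_lit 105) (nat_lit 5) (nat_lit 373) (nat_lit 337) (nat_lit 190)))) (XT.nd (nat_lit 78) (nat_lit 456) (nat_lit 0) (XT.lf (nat_lit 0) (nat_lit 22037373608) (nat_lit 380) (nat_lit 28473656328) (nat_lit 76) (nat_lit 20429508379) (nat_lit 96) (nat_lit 5) (nat_lit 101) (nat_lit 5) (nat_lit 97) (nat_lit 5)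 (nat_lit 374) (nat_lit 337) (nat_lit 189)) (XT.nd (nat_lit 78) (nat_lit 228) (nat_lit 0) (XT.lf (nat_lit 0) (nat_lit 35755372889) (nat_lit 228) (nat_lit 11402129210) (nat_lit 304) (nat_lit 26103939474) (nat_lit 93) (nat_lit 5) (nat_lit 96) (nat_lit 5) (nat_lit 97) (nat_lit 5) (nat_lit 375) (nat_lit 337) (nat_lit 188)) (XT.lf (nat_lit 0) (nat_lit 28362180725) (nat_lit 228) (nat_lit 46022393348) (nat_lit 304) (nat_lit 1288288574) (nat_lit 90) (nat_lit 5) (nat_lit 93) (nat_lit 5) (nat_lit 94) (nat_lit 5) (nat_lit 376) (nat_lit 337) (nat_lit 187))))))) (XT.nd (nat_lit 43836) (nat_lit 0) (nat_lit 12692) (XT.nd (nat_lit 468) (nat_lit 1064) (nat_lit 0) (XT.nd (nat_lit 234) (nat_lit 456) (nat_lit 0) (XT.nd (nat_lit 78) (nat_lit 456) (nat_lit 0) (XT.lf (nat_lit 0) (nat_lit 20146031561) (nat_lit 228) (nat_lit 4834675727) (nat_lit 304) (nat_lit 53196129252) (nat_lit 86) (nat_lit 5) (nat_lit 89) (nat_lit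 5) (nat_lit 90) (nat_lit 5) (nat_lit 377) (nat_lit 337) (nat_lit 186)) (XT.nd (nat_lit 78) (nat_lit 228) (nat_lit 0) (XT.lf (nat_lit 0) (nat_lit 10995966420) (nat_lit 228) (nat_lit 42504876239) (nat_lit 304) (nat_lit 27275854477) (nat_lit 83) (nat_lit 5) (nat_lit 86) (nat_lit 5) (nat_lit 87) (nat_lit 5) (nat_lit 378) (nat_lit 337) (nat_lit 185)) (XT.lf (nat_lit 0) (nat_lit 607601984) (nat_lit 228) (nat_lit 82329771959) (nat_lit 76) (nat_lit 549214452) (nat_lit 80) (nat_lit 5) (nat_lit 83) (nat_lit 5) (nat_lit 81) (nat_lit 5) (nat_lit 379) (nat_lit 337) (nat_lit 184)))) (XT.nd (nat_lit 78) (nat_lit 456) (nat_lit 0) (XT.lf (nat_lit 0) (nat_lit 30478253548) (nat_lit 228) (nat_lit 9926635624) (nat_lit 76) (nat_lit 45884270034) (nat_lit 80) (nat_lit 5) (nat_lit 83) (nat_lit 5) (nat_lit 81) (nat_lit 5) (nat_lit 380) (nat_lit 337) (nat_lit 183)) (XT.nd (nat_lit 78) (nat_lit 228) (nat_lit 0) (XT.lf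 (nat_lit 0) (nat_lit 62535251060) (nat_lit 304) (nat_lit 21851794163) (nat_lit 76) (nat_lit 4824029497) (nat_lit 77) (nat_lit 5) (nat_lit 81) (nat_lit 5) (nat_lit 78) (nat_lit 5) (nat_lit 381) (nat_lit 337) (nat_lit 182)) (XT.lf (nat_lit 0) (nat_lit 4907996134) (nat_lit 228) (nat_lit 35152293217) (nat_lit 76) (nat_lit 52185615912) (nat_lit 74) (nat_lit 5) (nat_lit 77) (nat_lit 5) (nat_lit 75) (nat_lit 5) (nat_lit 382) (nat_lit 337) (nat_lit 181))))) (XT.nd (nat_lit 234) (nat_lit 380) (nat_lit 0) (XT.nd (nat_lit 78) (nat_lit 456) (nat_lit 0) (XT.lf (nat_lit 0) (nat_lit 38259484440) (nat_lit 304) (nat_lit 49843790841) (nat_lit 76) (nat_lit 7299073803) (nat_lit 71) (nat_lit 5) (nat_lit 75) (nat_lit 5) (nat_lit 72) (nat_lit 5) (nat_lit 383) (nat_lit 337) (nat_lit 180)) (XT.nd (nat_lit 78) (nat_lit 304) (nat_lit 0) (XT.lf (nat_lit 0) (nat_lit 32557310367) (nat_lit 152) (nat_lit 41801709170) (nat_lit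 228) (nat_lit 24325181862) (nat_lit 69) (nat_lit 5) (nat_lit 71) (nat_lit 5) (nat_lit 72) (nat_lit 5) (nat_lit 384) (nat_lit 337) (nat_lit 179)) (XT.lf (nat_lit 0) (nat_lit 10700410265) (nat_lit 304) (nat_lit 83924554725) (nat_lit 76) (nat_lit 7479316606) (nat_lit 65) (nat_lit 5) (nat_lit 69) (nat_lit 5) (nat_lit 66) (nat_lit 5) (nat_lit 385) (nat_lit 337) (nat_lit 178)))) (XT.nd (nat_lit 78) (nat_lit 228) (nat_lit 0) (XT.lf (nat_lit 0) (nat_lit 1765130891) (nat_lit 152) (nat_lit 46337920154) (nat_lit 228) (nat_lit 57551224339) (nat_lit 63) (nat_lit 5) (nat_lit 65) (nat_lit 5) (nat_lit 66) (nat_lit 5) (nat_lit 386) (nat_lit 337) (nat_lit 177)) (XT.nd (nat_lit 78) (nat_lit 228) (nat_lit 0) (XT.lf (nat_lit 0) (nat_lit 88288139420) (nat_lit 228) (nat_lit 15916941411) (nat_lit 76) (nat_lit 5149318962) (nat_lit 63) (nat_lit 5) (nat_lit 66) (nat_lit 5) (nat_lit 64) (nat_lit 5) (nat_lit 387) (nat_lit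 337) (nat_lit 176)) (XT.lf (nat_lit 0) (nat_lit 18129082409) (nat_lit 228) (nat_lit 35886066840) (nat_lit 76) (nat_lit 59182730965) (nat_lit 60) (nat_lit 5) (nat_lit 63) (nat_lit 5) (nat_lit 61) (nat_lit 5) (nat_lit 388) (nat_lit 337) (nat_lit 175)))))) (XT.nd (nat_lit 468) (nat_lit 608) (nat_lit 0) (XT.nd (nat_lit 234) (nat_lit 0) (nat_lit 152) (XT.nd (nat_lit 78) (nat_lit 0) (nat_lit 76) (XT.lf (nat_lit 0) (nat_lit 720845278) (nat_lit 1292) (nat_lit 6157678961) (nat_lit 1292) (nat_lit 6157678961) (nat_lit 235) (nat_lit 3) (nat_lit 252) (nat_lit 3) (nat_lit 252) (nat_lit 5) (nat_lit 338) (nat_lit 338) (nat_lit 224)) (XT.nd (nat_lit 78) (nat_lit 0) (nat_lit 76) (XT.lf (nat_lit 0) (nat_lit 1783331537) (nat_lit 1216) (nat_lit 18160760022) (nat_lit 1292) (nat_lit 6770876029) (nat_lit 236) (nat_lit 5) (nat_lit 252) (nat_lit 5) (nat_lit 253) (nat_lit 5) (nat_lit 339) (nat_lit 338) (nat_lit 223))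 (XT.lf (nat_lit 0) (nat_lit 2438174715) (nat_lit 1216) (nat_lit 24132380357) (nat_lit 1292) (nat_lit 810223344) (nat_lit 237) (nat_lit 5) (nat_lit 253) (nat_lit 5) (nat_lit 254) (nat_lit 5) (nat_lit 340) (nat_lit 338) (nat_lit 222)))) (XT.nd (nat_lit 78) (nat_lit 0) (nat_lit 76) (XT.lf (nat_lit 0) (nat_lit 3506313058) (nat_lit 1216) (nat_lit 2175685751) (nat_lit 1292) (nat_lit 22386469325) (nat_lit 237) (nat_lit 5) (nat_lit 253) (nat_lit 5) (nat_lit 254) (nat_lit 5) (nat_lit 341) (nat_lit 338) (nat_lit 221)) (XT.nd (nat_lit 78) (nat_lit 0) (nat_lit 76) (XT.lf (nat_lit 0) (nat_lit 4981680999) (nat_lit 1216) (nat_lit 7654199757) (nat_lit 1292) (nat_lit 16144051604) (nat_lit 238) (nat_lit 5) (nat_lit 254) (nat_lit 5) (nat_lit 255) (nat_lit 5) (nat_lit 342) (nat_lit 338) (nat_lit 220)) (XT.lf (nat_lit 0) (nat_lit 6851800744) (nat_lit 1216) (nat_lit 13244915006) (nat_lit 1292) (nat_lit 9420629025)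 (nat_lit 239) (nat_lit 5) (nat_lit 255) (nat_lit 5) (nat_lit 256) (nat_lit 5) (nat_lit 343) (nat_lit 338) (nat_lit 219))))) (XT.nd (nat_lit 234) (nat_lit 988) (nat_lit 0) (XT.nd (nat_lit 78) (nat_lit 0) (nat_lit 0) (XT.lf (nat_lit 0) (nat_lit 9144820440) (nat_lit 1216) (nat_lit 18950290073) (nat_lit 1292) (nat_lit 2186639745) (nat_lit 240) (nat_lit 5) (nat_lit 256) (nat_lit 5) (nat_lit 257) (nat_lit 5) (nat_lit 344) (nat_lit 338) (nat_lit 218)) (XT.nd (nat_lit 78) (nat_lit 0) (nat_lit 76) (XT.lf (nat_lit 76) (nat_lit 6244951534) (nat_lit 0) (nat_lit 5700177873) (nat_lit 1292) (nat_lit 19127471523) (nat_lit 241) (nat_lit 5) (nat_lit 240) (nat_lit 5) (nat_lit 257) (nat_lit 5) (nat_lit 345) (nat_lit 338) (nat_lit 217)) (XT.lf (nat_lit 76) (nat_lit 1039987901) (nat_lit 0) (nat_lit 14216128131) (nat_lit 1292) (nat_lit 16635762107) (nat_lit 242) (nat_lit 5) (nat_lit 241) (nat_lit 5) (nat_lit 258)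 (nat_lit 5) (nat_lit 346) (nat_lit 338) (nat_lit 216)))) (XT.nd (nat_lit 78) (nat_lit 1140) (nat_lit 0) (XT.lf (nat_lit 0) (nat_lit 19130367902) (nat_lit 1216) (nat_lit 4180038980) (nat_lit 1292) (nat_lit 9429784535) (nat_lit 242) (nat_lit 5) (nat_lit 258) (nat_lit 5) (nat_lit 259) (nat_lit 5) (nat_lit 347) (nat_lit 338) (nat_lit 215)) (XT.nd (nat_lit 78) (nat_lit 1216) (nat_lit 0) (XT.lf (nat_lit 0) (nat_lit 23572597133) (nat_lit 1216) (nat_lit 9478050545) (nat_lit 76) (nat_lit 569048248) (nat_lit 243) (nat_lit 5) (nat_lit 259) (nat_lit 5) (nat_lit 244) (nat_lit 5) (nat_lit 348) (nat_lit 338) (nat_lit 214)) (XT.lf (nat_lit 0) (nat_lit 19565185553) (nat_lit 1216) (nat_lit 9131924213) (nat_lit 1292) (nat_lit 5832264079) (nat_lit 227) (nat_lit 5) (nat_lit 243) (nat_lit 5) (nat_lit 244) (nat_lit 5) (nat_lit 349) (nat_lit 338) (nat_lit 213))))))))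
noncomputable def xc107 : XT := (XT.nd (nat_lit 1872) (nat_lit 3116) (nat_lit 0) (XT.nd (nat_lit 936) (nat_lit 3496) (nat_lit 0) (XT.nd (nat_lit 468) (nat_lit 2888) (nat_lit 0) (XT.nd (nat_lit 234) (nat_lit 1064) (nat_lit 0) (XT.nd (nat_lit 78) (nat_lit 1292) (nat_lit 0) (XT.lf (nat_lit 0) (nat_lit 14907522005) (nat_lit 608) (nat_lit 19559431499) (nat_lit 684) (nat_lit 1005912174) (nat_lit 219) (nat_lit 5) (nat_lit 227) (nat_lit 5) (nat_lit 228) (nat_lit 5) (nat_lit 350) (nat_lit 338) (nat_lit 212)) (XT.nd (nat_lit 78) (nat_lit 608) (nat_lit 0) (XT.lf (nat_lit 0) (nat_lit 4378356947) (nat_lit 684) (nat_lit 26321672066) (nat_lit 76) (nat_lit 5750458937) (nat_lit 210) (nat_lit 5) (nat_lit 219) (nat_lit 5) (nat_lit 211) (nat_lit 5) (nat_lit 351) (nat_lit 338) (nat_lit 211)) (XT.lf (nat_lit 0) (nat_lit 5202866175) (nat_lit 608) (nat_lit 5263656325) (nat_lit 684) (nat_lit 26996508250) (nat_lit 202)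 (nat_lit 5) (nat_lit 210) (nat_lit 5) (nat_lit 211) (nat_lit 5) (nat_lit 352) (nat_lit 338) (nat_lit 210)))) (XT.nd (nat_lit 78) (nat_lit 532) (nat_lit 0) (XT.lf (nat_lit 0) (nat_lit 123391563) (nat_lit 532) (nat_lit 17210963440) (nat_lit 608) (nat_lit 21177590596) (nat_lit 195) (nat_lit 5) (nat_lit 202) (nat_lit 5) (nat_lit 203) (nat_lit 5) (nat_lit 353) (nat_lit 338) (nat_lit 209)) (XT.nd (nat_lit 78) (nat_lit 532) (nat_lit 0) (XT.lf (nat_lit 0) (nat_lit 25019140724) (nat_lit 608) (nat_lit 4955837454) (nat_lit 76) (nat_lit 9624123710) (nat_lit 195) (nat_lit 5) (nat_lit 203) (nat_lit 5) (nat_lit 196) (nat_lit 5) (nat_lit 354) (nat_lit 338) (nat_lit 208)) (XT.lf (nat_lit 0) (nat_lit 30565724119) (nat_lit 532) (nat_lit 2984743531) (nat_lit 608) (nat_lit 7176281704) (nat_lit 188) (nat_lit 5) (nat_lit 195) (nat_lit 5) (nat_lit 196) (nat_lit 5) (nat_lit 355) (nat_lit 338) (nat_lit 207))))) (XT.nd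 (nat_lit 234) (nat_lit 1368) (nat_lit 0) (XT.nd (nat_lit 78) (nat_lit 988) (nat_lit 0) (XT.lf (nat_lit 0) (nat_lit 1134530102) (nat_lit 532) (nat_lit 15584049872) (nat_lit 76) (nat_lit 25175570849) (nat_lit 181) (nat_lit 5) (nat_lit 188) (nat_lit 5) (nat_lit 182) (nat_lit 5) (nat_lit 356) (nat_lit 338) (nat_lit 206)) (XT.nd (nat_lit 78) (nat_lit 456) (nat_lit 0) (XT.lf (nat_lit 0) (nat_lit 10171399539) (nat_lit 608) (nat_lit 21201493169) (nat_lit 76) (nat_lit 11731132213) (nat_lit 174) (nat_lit 5) (nat_lit 182) (nat_lit 5) (nat_lit 175) (nat_lit 5) (nat_lit 357) (nat_lit 338) (nat_lit 205)) (XT.lf (nat_lit 0) (nat_lit 17382955926) (nat_lit 456) (nat_lit 2770289173) (nat_lit 532) (nat_lit 24206355679) (nat_lit 168) (nat_lit 5) (nat_lit 174) (nat_lit 5) (nat_lit 175) (nat_lit 5) (nat_lit 358) (nat_lit 338) (nat_lit 204)))) (XT.nd (nat_lit 78) (nat_lit 912) (nat_lit 0) (XT.lf (nat_lit 0) (nat_lit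 12645387560) (nat_lit 456) (nat_lit 18588272307) (nat_lit 532) (nat_lit 14426313185) (nat_lit 162) (nat_lit 5) (nat_lit 168) (nat_lit 5) (nat_lit 169) (nat_lit 5) (nat_lit 359) (nat_lit 338) (nat_lit 203)) (XT.nd (nat_lit 78) (nat_lit 532) (nat_lit 0) (XT.lf (nat_lit 0) (nat_lit 7802806530) (nat_lit 380) (nat_lit 35552891638) (nat_lit 456) (nat_lit 3655039532) (nat_lit 157) (nat_lit 5) (nat_lit 162) (nat_lit 5) (nat_lit 163) (nat_lit 5) (nat_lit 360) (nat_lit 338) (nat_lit 202)) (XT.lf (nat_lit 0) (nat_lit 2715235392) (nat_lit 456) (nat_lit 5342847240) (nat_lit 532) (nat_lit 40352172448) (nat_lit 150) (nat_lit 5) (nat_lit 156) (nat_lit 5) (nat_lit 157) (nat_lit 5) (nat_lit 361) (nat_lit 338) (nat_lit 201)))))) (XT.nd (nat_lit 468) (nat_lit 1672) (nat_lit 0) (XT.nd (nat_lit 234) (nat_lit 1064) (nat_lit 0) (XT.nd (nat_lit 78) (nat_lit 760) (nat_lit 0) (XT.lf (nat_lit 0) (nat_lit 20939001873) (nat_lit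 532) (nat_lit 2613474402) (nat_lit 76) (nat_lit 26306456038) (nat_lit 150) (nat_lit 5) (nat_lit 157) (nat_lit 5) (nat_lit 151) (nat_lit 5) (nat_lit 362) (nat_lit 338) (nat_lit 200)) (XT.nd (nat_lit 78) (nat_lit 380) (nat_lit 0) (XT.lf (nat_lit 0) (nat_lit 35012746946) (nat_lit 456) (nat_lit 8037247783) (nat_lit 76) (nat_lit 8313586827) (nat_lit 145) (nat_lit 5) (nat_lit 151) (nat_lit 5) (nat_lit 146) (nat_lit 5) (nat_lit 363) (nat_lit 338) (nat_lit 199)) (XT.lf (nat_lit 0) (nat_lit 39196988667) (nat_lit 380) (nat_lit 11231058104) (nat_lit 456) (nat_lit 2496281936) (nat_lit 140) (nat_lit 5) (nat_lit 145) (nat_lit 5) (nat_lit 146) (nat_lit 5) (nat_lit 364) (nat_lit 338) (nat_lit 198)))) (XT.nd (nat_lit 78) (nat_lit 684) (nat_lit 0) (XT.lf (nat_lit 0) (nat_lit 12450235899) (nat_lit 380) (nat_lit 19804756526) (nat_lit 76) (nat_lit 22285615027) (nat_lit 135) (nat_lit 5) (nat_lit 140) (nat_lit 5)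 (nat_lit 136) (nat_lit 5) (nat_lit 365) (nat_lit 338) (nat_lit 197)) (XT.nd (nat_lit 78) (nat_lit 304) (nat_lit 0) (XT.lf (nat_lit 0) (nat_lit 28649186423) (nat_lit 456) (nat_lit 26116454315) (nat_lit 76) (nat_lit 1454617211) (nat_lit 130) (nat_lit 5) (nat_lit 136) (nat_lit 5) (nat_lit 131) (nat_lit 5) (nat_lit 366) (nat_lit 338) (nat_lit 196)) (XT.lf (nat_lit 0) (nat_lit 25101288466) (nat_lit 304) (nat_lit 21326054476) (nat_lit 380) (nat_lit 11533471508) (nat_lit 126) (nat_lit 5) (nat_lit 130) (nat_lit 5) (nat_lit 131) (nat_lit 5) (nat_lit 367) (nat_lit 338) (nat_lit 195))))) (XT.nd (nat_lit 234) (nat_lit 684) (nat_lit 0) (XT.nd (nat_lit 78) (nat_lit 608) (nat_lit 0) (XT.lf (nat_lit 0) (nat_lit 5800208731) (nat_lit 380) (nat_lit 39933928377) (nat_lit 76) (nat_lit 14034800484) (nat_lit 121) (nat_lit 5) (nat_lit 126) (nat_lit 5) (nat_lit 122) (nat_lit 5) (nat_lit 368) (nat_lit 338) (nat_lit 194))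 (XT.nd (nat_lit 78) (nat_lit 304) (nat_lit 0) (XT.lf (nat_lit 0) (nat_lit 14129620649) (nat_lit 304) (nat_lit 10324031664) (nat_lit 380) (nat_lit 37189641605) (nat_lit 117) (nat_lit 5) (nat_lit 121) (nat_lit 5) (nat_lit 122) (nat_lit 5) (nat_lit 369) (nat_lit 338) (nat_lit 193)) (XT.lf (nat_lit 0) (nat_lit 8021450387) (nat_lit 304) (nat_lit 36765551869) (nat_lit 380) (nat_lit 18801949815) (nat_lit 113) (nat_lit 5) (nat_lit 117) (nat_lit 5) (nat_lit 118) (nat_lit 5) (nat_lit 370) (nat_lit 338) (nat_lit 192)))) (XT.nd (nat_lit 78) (nat_lit 304) (nat_lit 0) (XT.lf (nat_lit 0) (nat_lit 1110870104) (nat_lit 380) (nat_lit 63996219905) (nat_lit 76) (nat_lit 506190400) (nat_lit 108) (nat_lit 5) (nat_lit 113) (nat_lit 5) (nat_lit 109) (nat_lit 5) (nat_lit 371) (nat_lit 338) (nat_lit 191)) (XT.nd (nat_lit 78) (nat_lit 304) (nat_lit 0) (XT.lf (nat_lit 0) (nat_lit 22579837033) (nat_lit 380) (nat_lit 5470669581)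 (nat_lit 76) (nat_lit 39654253949) (nat_lit 108) (nat_lit 5) (nat_lit 113) (nat_lit 5) (nat_lit 109) (nat_lit 5) (nat_lit 372) (nat_lit 338) (nat_lit 190)) (XT.lf (nat_lit 0) (nat_lit 45777969811) (nat_lit 380) (nat_lit 12903350618) (nat_lit 76) (nat_lit 11199823638) (nat_lit 104) (nat_lit 5) (nat_lit 109) (nat_lit 5) (nat_lit 105) (nat_lit 5) (nat_lit 373) (nat_lit 338) (nat_lit 189))))))) (XT.nd (nat_lit 936) (nat_lit 456) (nat_lit 0) (XT.nd (nat_lit 468) (nat_lit 1064) (nat_lit 0) (XT.nd (nat_lit 234) (nat_lit 760) (nat_lit 0) (XT.nd (nat_lit 78) (nat_lit 608) (nat_lit 0) (XT.lf (nat_lit 0) (nat_lit 51209686202) (nat_lit 228) (nat_lit 19755781584) (nat_lit 304) (nat_lit 1175996030) (nat_lit 101) (nat_lit 5) (nat_lit 104) (nat_lit 5) (nat_lit 105) (nat_lit 5) (nat_lit 374) (nat_lit 338) (nat_lit 188)) (XT.nd (nat_lit 78) (nat_lit 228) (nat_lit 0) (XT.lf (nat_lit 0) (nat_lit 23224869792) (nat_lit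 380) (nat_lit 29763549243) (nat_lit 76) (nat_lit 21496553861) (nat_lit 96) (nat_lit 5) (nat_lit 101) (nat_lit 5) (nat_lit 97) (nat_lit 5) (nat_lit 375) (nat_lit 338) (nat_lit 187)) (XT.lf (nat_lit 0) (nat_lit 37673096375) (nat_lit 228) (nat_lit 11925080039) (nat_lit 304) (nat_lit 27323830871) (nat_lit 93) (nat_lit 5) (nat_lit 96) (nat_lit 5) (nat_lit 97) (nat_lit 5) (nat_lit 376) (nat_lit 338) (nat_lit 186)))) (XT.nd (nat_lit 78) (nat_lit 532) (nat_lit 0) (XT.lf (nat_lit 0) (nat_lit 29908513701) (nat_lit 228) (nat_lit 48275809737) (nat_lit 304) (nat_lit 1269745398) (nat_lit 90) (nat_lit 5) (nat_lit 93) (nat_lit 5) (nat_lit 94) (nat_lit 5) (nat_lit 377) (nat_lit 338) (nat_lit 185)) (XT.nd (nat_lit 78) (nat_lit 228) (nat_lit 0) (XT.lf (nat_lit 0) (nat_lit 21279474074) (nat_lit 228) (nat_lit 5028946649) (nat_lit 304) (nat_lit 55774877584) (nat_lit 86) (nat_lit 5) (nat_lit 89) (nat_lit 5) (nat_lit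 90) (nat_lit 5) (nat_lit 378) (nat_lit 338) (nat_lit 184)) (XT.lf (nat_lit 0) (nat_lit 11670158543) (nat_lit 228) (nat_lit 44582288011) (nat_lit 304) (nat_lit 28560769808) (nat_lit 83) (nat_lit 5) (nat_lit 86) (nat_lit 5) (nat_lit 87) (nat_lit 5) (nat_lit 379) (nat_lit 338) (nat_lit 183))))) (XT.nd (nat_lit 234) (nat_lit 608) (nat_lit 0) (XT.nd (nat_lit 78) (nat_lit 228) (nat_lit 0) (XT.lf (nat_lit 0) (nat_lit 713270227) (nat_lit 228) (nat_lit 86322114090) (nat_lit 76) (nat_lit 623257490) (nat_lit 80) (nat_lit 5) (nat_lit 83) (nat_lit 5) (nat_lit 81) (nat_lit 5) (nat_lit 380) (nat_lit 338) (nat_lit 182)) (XT.nd (nat_lit 78) (nat_lit 228) (nat_lit 0) (XT.lf (nat_lit 0) (nat_lit 32073869219) (nat_lit 228) (nat_lit 10304732674) (nat_lit 76) (nat_lit 48222847646) (nat_lit 80) (nat_lit 5) (nat_lit 83) (nat_lit 5) (nat_lit 81) (nat_lit 5) (nat_lit 381) (nat_lit 338) (nat_lit 181)) (XT.lf (nat_lit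 0) (nat_lit 65731843066) (nat_lit 304) (nat_lit 22827877712) (nat_lit 76) (nat_lit 5109797045) (nat_lit 77) (nat_lit 5) (nat_lit 81) (nat_lit 5) (nat_lit 78) (nat_lit 5) (nat_lit 382) (nat_lit 338) (nat_lit 180)))) (XT.nd (nat_lit 78) (nat_lit 380) (nat_lit 0) (XT.lf (nat_lit 0) (nat_lit 5221671943) (nat_lit 228) (nat_lit 36795367956) (nat_lit 76) (nat_lit 54839097785) (nat_lit 74) (nat_lit 5) (nat_lit 77) (nat_lit 5) (nat_lit 75) (nat_lit 5) (nat_lit 383) (nat_lit 338) (nat_lit 179)) (XT.nd (nat_lit 78) (nat_lit 152) (nat_lit 0) (XT.lf (nat_lit 0) (nat_lit 40238987022) (nat_lit 304) (nat_lit 52223161158) (nat_lit 76) (nat_lit 7708308638) (nat_lit 71) (nat_lit 5) (nat_lit 75) (nat_lit 5) (nat_lit 72) (nat_lit 5) (nat_lit 384) (nat_lit 338) (nat_lit 178)) (XT.lf (nat_lit 0) (nat_lit 34294761170) (nat_lit 152) (nat_lit 43846623087) (nat_lit 228) (nat_lit 25475081590) (nat_lit 69) (nat_lit 5) (nat_lit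 71) (nat_lit 5) (nat_lit 72) (nat_lit 5) (nat_lit 385) (nat_lit 338) (nat_lit 177)))))) (XT.nd (nat_lit 43446) (nat_lit 0) (nat_lit 13224) (XT.nd (nat_lit 43212) (nat_lit 0) (nat_lit 13072) (XT.nd (nat_lit 78) (nat_lit 152) (nat_lit 0) (XT.lf (nat_lit 0) (nat_lit 11298862147) (nat_lit 304) (nat_lit 88011595715) (nat_lit 76) (nat_lit 7897122659) (nat_lit 65) (nat_lit 5) (nat_lit 69) (nat_lit 5) (nat_lit 66) (nat_lit 5) (nat_lit 386) (nat_lit 338) (nat_lit 176)) (XT.nd (nat_lit 78) (nat_lit 0) (nat_lit 0) (XT.lf (nat_lit 0) (nat_lit 1959444366) (nat_lit 152) (nat_lit 48610189543) (nat_lit 228) (nat_lit 60365500704) (nat_lit 63) (nat_lit 5) (nat_lit 65) (nat_lit 5) (nat_lit 66) (nat_lit 5) (nat_lit 387) (nat_lit 338) (nat_lit 175)) (XT.lf (nat_lit 0) (nat_lit 92761460001) (nat_lit 228) (nat_lit 16610424202) (nat_lit 76) (nat_lit 5448457094) (nat_lit 63) (nat_lit 5) (nat_lit 66) (nat_lit 5) (nat_lit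 64) (nat_lit 5) (nat_lit 388) (nat_lit 338) (nat_lit 174)))) (XT.nd (nat_lit 78) (nat_lit 0) (nat_lit 76) (XT.lf (nat_lit 0) (nat_lit 910778824) (nat_lit 1292) (nat_lit 6386269025) (nat_lit 1292) (nat_lit 6386269025) (nat_lit 235) (nat_lit 3) (nat_lit 252) (nat_lit 3) (nat_lit 252) (nat_lit 5) (nat_lit 339) (nat_lit 339) (nat_lit 222)) (XT.nd (nat_lit 78) (nat_lit 0) (nat_lit 76) (XT.lf (nat_lit 0) (nat_lit 2165753913) (nat_lit 1216) (nat_lit 18904414835) (nat_lit 1292) (nat_lit 6971597647) (nat_lit 236) (nat_lit 5) (nat_lit 252) (nat_lit 5) (nat_lit 253) (nat_lit 5) (nat_lit 340) (nat_lit 339) (nat_lit 221)) (XT.lf (nat_lit 0) (nat_lit 2839744929) (nat_lit 1216) (nat_lit 25169594134) (nat_lit 1292) (nat_lit 731943763) (nat_lit 237) (nat_lit 5) (nat_lit 253) (nat_lit 5) (nat_lit 254) (nat_lit 5) (nat_lit 341) (nat_lit 339) (nat_lit 220))))) (XT.nd (nat_lit 234) (nat_lit 0) (nat_lit 228) (XT.nd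 (nat_lit 78) (nat_lit 0) (nat_lit 76) (XT.lf (nat_lit 0) (nat_lit 3947972976) (nat_lit 1216) (nat_lit 2123131713) (nat_lit 1292) (nat_lit 23392658746) (nat_lit 237) (nat_lit 5) (nat_lit 253) (nat_lit 5) (nat_lit 254) (nat_lit 5) (nat_lit 342) (nat_lit 339) (nat_lit 219)) (XT.nd (nat_lit 78) (nat_lit 0) (nat_lit 76) (XT.lf (nat_lit 0) (nat_lit 5484986281) (nat_lit 1216) (nat_lit 7871463505) (nat_lit 1292) (nat_lit 16854721339) (nat_lit 238) (nat_lit 5) (nat_lit 254) (nat_lit 5) (nat_lit 255) (nat_lit 5) (nat_lit 343) (nat_lit 339) (nat_lit 218)) (XT.lf (nat_lit 0) (nat_lit 7437253595) (nat_lit 1216) (nat_lit 13738224796) (nat_lit 1292) (nat_lit 9810322771) (nat_lit 239) (nat_lit 5) (nat_lit 255) (nat_lit 5) (nat_lit 256) (nat_lit 5) (nat_lit 344) (nat_lit 339) (nat_lit 217)))) (XT.nd (nat_lit 78) (nat_lit 0) (nat_lit 0) (XT.lf (nat_lit 0) (nat_lit 9834275573) (nat_lit 1216) (nat_lit 19725944683)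 (nat_lit 1292) (nat_lit 2228532075) (nat_lit 240) (nat_lit 5) (nat_lit 256) (nat_lit 5) (nat_lit 257) (nat_lit 5) (nat_lit 345) (nat_lit 339) (nat_lit 216)) (XT.nd (nat_lit 78) (nat_lit 0) (nat_lit 76) (XT.lf (nat_lit 76) (nat_lit 6724132676) (nat_lit 0) (nat_lit 6041014166) (nat_lit 1292) (nat_lit 19854287957) (nat_lit 241) (nat_lit 5) (nat_lit 240) (nat_lit 5) (nat_lit 257) (nat_lit 5) (nat_lit 346) (nat_lit 339) (nat_lit 215)) (XT.lf (nat_lit 76) (nat_lit 1261258376) (nat_lit 0) (nat_lit 14970932802) (nat_lit 1292) (nat_lit 17247774837) (nat_lit 242) (nat_lit 5) (nat_lit 241) (nat_lit 5) (nat_lit 258) (nat_lit 5) (nat_lit 347) (nat_lit 339) (nat_lit 214))))))))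
noncomputable def xc108 : XT := (XT.nd (nat_lit 1872) (nat_lit 3800) (nat_lit 0) (XT.nd (nat_lit 936) (nat_lit 4180) (nat_lit 0) (XT.nd (nat_lit 468) (nat_lit 2584) (nat_lit 0) (XT.nd (nat_lit 234) (nat_lit 1900) (nat_lit 0) (XT.nd (nat_lit 78) (nat_lit 1140) (nat_lit 0) (XT.lf (nat_lit 0) (nat_lit 20289597159) (nat_lit 1216) (nat_lit 4221231358) (nat_lit 1292) (nat_lit 9860188334) (nat_lit 242) (nat_lit 5) (nat_lit 258) (nat_lit 5) (nat_lit 259) (nat_lit 5) (nat_lit 348) (nat_lit 339) (nat_lit 213)) (XT.nd (nat_lit 78) (nat_lit 1216) (nat_lit 0) (XT.lf (nat_lit 0) (nat_lit 24945547800) (nat_lit 1216) (nat_lit 9782713065) (nat_lit 76) (nat_lit 566492318) (nat_lit 243) (nat_lit 5) (nat_lit 259) (nat_lit 5) (nat_lit 244) (nat_lit 5) (nat_lit 349) (nat_lit 339) (nat_lit 212)) (XT.lf (nat_lit 0) (nat_lit 20707833607) (nat_lit 1216) (nat_lit 9610779291) (nat_lit 1292) (nat_lit 5931536957) (nat_lit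 227) (nat_lit 5) (nat_lit 243) (nat_lit 5) (nat_lit 244) (nat_lit 5) (nat_lit 350) (nat_lit 339) (nat_lit 211)))) (XT.nd (nat_lit 78) (nat_lit 1292) (nat_lit 0) (XT.lf (nat_lit 0) (nat_lit 15818312046) (nat_lit 608) (nat_lit 20551135077) (nat_lit 684) (nat_lit 871598649) (nat_lit 219) (nat_lit 5) (nat_lit 227) (nat_lit 5) (nat_lit 228) (nat_lit 5) (nat_lit 351) (nat_lit 339) (nat_lit 210)) (XT.nd (nat_lit 78) (nat_lit 608) (nat_lit 0) (XT.lf (nat_lit 0) (nat_lit 4771147744) (nat_lit 684) (nat_lit 27468105948) (nat_lit 76) (nat_lit 6028460347) (nat_lit 210) (nat_lit 5) (nat_lit 219) (nat_lit 5) (nat_lit 211) (nat_lit 5) (nat_lit 352) (nat_lit 339) (nat_lit 209)) (XT.lf (nat_lit 0) (nat_lit 5627796230) (nat_lit 608) (nat_lit 5529229712) (nat_lit 684) (nat_lit 28174062817) (nat_lit 202) (nat_lit 5) (nat_lit 210) (nat_lit 5) (nat_lit 211) (nat_lit 5) (nat_lit 353) (nat_lit 339) (nat_lit 208)))))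 (XT.nd (nat_lit 234) (nat_lit 1520) (nat_lit 0) (XT.nd (nat_lit 78) (nat_lit 532) (nat_lit 0) (XT.lf (nat_lit 0) (nat_lit 294594153) (nat_lit 532) (nat_lit 18067259606) (nat_lit 608) (nat_lit 22070791206) (nat_lit 195) (nat_lit 5) (nat_lit 202) (nat_lit 5) (nat_lit 203) (nat_lit 5) (nat_lit 354) (nat_lit 339) (nat_lit 207)) (XT.nd (nat_lit 78) (nat_lit 532) (nat_lit 0) (XT.lf (nat_lit 0) (nat_lit 26423261453) (nat_lit 608) (nat_lit 5041829275) (nat_lit 76) (nat_lit 10109300405) (nat_lit 195) (nat_lit 5) (nat_lit 203) (nat_lit 5) (nat_lit 196) (nat_lit 5) (nat_lit 355) (nat_lit 339) (nat_lit 206)) (XT.lf (nat_lit 0) (nat_lit 32251172410) (nat_lit 532) (nat_lit 3124199544) (nat_lit 608) (nat_lit 7383225879) (nat_lit 188) (nat_lit 5) (nat_lit 195) (nat_lit 5) (nat_lit 196) (nat_lit 5) (nat_lit 356) (nat_lit 339) (nat_lit 205)))) (XT.nd (nat_lit 78) (nat_lit 988) (nat_lit 0) (XT.lf (nat_lit 0) (nat_lit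 1334686044) (nat_lit 532) (nat_lit 16203409320) (nat_lit 76) (nat_lit 26446397648) (nat_lit 181) (nat_lit 5) (nat_lit 188) (nat_lit 5) (nat_lit 182) (nat_lit 5) (nat_lit 357) (nat_lit 339) (nat_lit 204)) (XT.nd (nat_lit 78) (nat_lit 456) (nat_lit 0) (XT.lf (nat_lit 0) (nat_lit 10818226487) (nat_lit 608) (nat_lit 22102269440) (nat_lit 76) (nat_lit 12334523038) (nat_lit 174) (nat_lit 5) (nat_lit 182) (nat_lit 5) (nat_lit 175) (nat_lit 5) (nat_lit 358) (nat_lit 339) (nat_lit 203)) (XT.lf (nat_lit 0) (nat_lit 18406835854) (nat_lit 456) (nat_lit 2887232185) (nat_lit 532) (nat_lit 25279461296) (nat_lit 168) (nat_lit 5) (nat_lit 174) (nat_lit 5) (nat_lit 175) (nat_lit 5) (nat_lit 359) (nat_lit 339) (nat_lit 202)))))) (XT.nd (nat_lit 468) (nat_lit 2052) (nat_lit 0) (XT.nd (nat_lit 234) (nat_lit 760) (nat_lit 0) (XT.nd (nat_lit 78) (nat_lit 912) (nat_lit 0) (XT.lf (nat_lit 0) (nat_lit 13431687637) (nat_lit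 456) (nat_lit 19492153045) (nat_lit 532) (nat_lit 15015222126) (nat_lit 162) (nat_lit 5) (nat_lit 168) (nat_lit 5) (nat_lit 169) (nat_lit 5) (nat_lit 360) (nat_lit 339) (nat_lit 201)) (XT.nd (nat_lit 78) (nat_lit 532) (nat_lit 0) (XT.lf (nat_lit 0) (nat_lit 8346120743) (nat_lit 380) (nat_lit 37301447362) (nat_lit 456) (nat_lit 3709932536) (nat_lit 157) (nat_lit 5) (nat_lit 162) (nat_lit 5) (nat_lit 163) (nat_lit 5) (nat_lit 361) (nat_lit 339) (nat_lit 200)) (XT.lf (nat_lit 0) (nat_lit 3002252287) (nat_lit 456) (nat_lit 5579582703) (nat_lit 532) (nat_lit 42245259877) (nat_lit 150) (nat_lit 5) (nat_lit 156) (nat_lit 5) (nat_lit 157) (nat_lit 5) (nat_lit 362) (nat_lit 339) (nat_lit 199)))) (XT.nd (nat_lit 78) (nat_lit 760) (nat_lit 0) (XT.lf (nat_lit 0) (nat_lit 22101323887) (nat_lit 532) (nat_lit 2596875929) (nat_lit 76) (nat_lit 27650172697) (nat_lit 150) (nat_lit 5) (nat_lit 157) (nat_lit 5)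 (nat_lit 151) (nat_lit 5) (nat_lit 363) (nat_lit 339) (nat_lit 198)) (XT.nd (nat_lit 78) (nat_lit 380) (nat_lit 0) (XT.lf (nat_lit 0) (nat_lit 36874943061) (nat_lit 456) (nat_lit 8292984469) (nat_lit 76) (nat_lit 8760443238) (nat_lit 145) (nat_lit 5) (nat_lit 151) (nat_lit 5) (nat_lit 146) (nat_lit 5) (nat_lit 364) (nat_lit 339) (nat_lit 197)) (XT.lf (nat_lit 0) (nat_lit 41298775139) (nat_lit 380) (nat_lit 11758284801) (nat_lit 456) (nat_lit 2510215827) (nat_lit 140) (nat_lit 5) (nat_lit 145) (nat_lit 5) (nat_lit 146) (nat_lit 5) (nat_lit 365) (nat_lit 339) (nat_lit 196))))) (XT.nd (nat_lit 234) (nat_lit 988) (nat_lit 0) (XT.nd (nat_lit 78) (nat_lit 684) (nat_lit 0) (XT.lf (nat_lit 0) (nat_lit 13177970728) (nat_lit 380) (nat_lit 20652138656) (nat_lit 76) (nat_lit 23434333793) (nat_lit 135) (nat_lit 5) (nat_lit 140) (nat_lit 5) (nat_lit 136) (nat_lit 5) (nat_lit 366) (nat_lit 339) (nat_lit 195))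 (XT.nd (nat_lit 78) (nat_lit 304) (nat_lit 0) (XT.lf (nat_lit 0) (nat_lit 30183549739) (nat_lit 456) (nat_lit 27280791456) (nat_lit 76) (nat_lit 1563836382) (nat_lit 130) (nat_lit 5) (nat_lit 136) (nat_lit 5) (nat_lit 131) (nat_lit 5) (nat_lit 367) (nat_lit 339) (nat_lit 194)) (XT.lf (nat_lit 0) (nat_lit 26493782808) (nat_lit 304) (nat_lit 22353299765) (nat_lit 380) (nat_lit 12008786997) (nat_lit 126) (nat_lit 5) (nat_lit 130) (nat_lit 5) (nat_lit 131) (nat_lit 5) (nat_lit 368) (nat_lit 339) (nat_lit 193)))) (XT.nd (nat_lit 78) (nat_lit 608) (nat_lit 0) (XT.lf (nat_lit 0) (nat_lit 6186548617) (nat_lit 380) (nat_lit 41792649961) (nat_lit 76) (nat_lit 14775264177) (nat_lit 121) (nat_lit 5) (nat_lit 126) (nat_lit 5) (nat_lit 122) (nat_lit 5) (nat_lit 369) (nat_lit 339) (nat_lit 192)) (XT.nd (nat_lit 78) (nat_lit 304) (nat_lit 0) (XT.lf (nat_lit 0) (nat_lit 14970121496) (nat_lit 304) (nat_lit 10799244046)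 (nat_lit 380) (nat_lit 38953271837) (nat_lit 117) (nat_lit 5) (nat_lit 121) (nat_lit 5) (nat_lit 122) (nat_lit 5) (nat_lit 370) (nat_lit 339) (nat_lit 191)) (XT.lf (nat_lit 0) (nat_lit 8555058715) (nat_lit 304) (nat_lit 38561543502) (nat_lit 380) (nat_lit 19649061087) (nat_lit 113) (nat_lit 5) (nat_lit 117) (nat_lit 5) (nat_lit 118) (nat_lit 5) (nat_lit 371) (nat_lit 339) (nat_lit 190))))))) (XT.nd (nat_lit 936) (nat_lit 1064) (nat_lit 0) (XT.nd (nat_lit 468) (nat_lit 1216) (nat_lit 0) (XT.nd (nat_lit 234) (nat_lit 836) (nat_lit 0) (XT.nd (nat_lit 78) (nat_lit 304) (nat_lit 0) (XT.lf (nat_lit 0) (nat_lit 1254906495) (nat_lit 380) (nat_lit 67063243219) (nat_lit 76) (nat_lit 573113232) (nat_lit 108) (nat_lit 5) (nat_lit 113) (nat_lit 5) (nat_lit 109) (nat_lit 5) (nat_lit 372) (nat_lit 339) (nat_lit 189)) (XT.nd (nat_lit 78) (nat_lit 304) (nat_lit 0) (XT.lf (nat_lit 0) (nat_lit 23793107823) (nat_lit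 380) (nat_lit 5617738601) (nat_lit 76) (nat_lit 41676598372) (nat_lit 108) (nat_lit 5) (nat_lit 113) (nat_lit 5) (nat_lit 109) (nat_lit 5) (nat_lit 373) (nat_lit 339) (nat_lit 188)) (XT.lf (nat_lit 0) (nat_lit 48148712659) (nat_lit 380) (nat_lit 13423609053) (nat_lit 76) (nat_lit 11800400012) (nat_lit 104) (nat_lit 5) (nat_lit 109) (nat_lit 5) (nat_lit 105) (nat_lit 5) (nat_lit 374) (nat_lit 339) (nat_lit 187)))) (XT.nd (nat_lit 78) (nat_lit 608) (nat_lit 0) (XT.lf (nat_lit 0) (nat_lit 53891499113) (nat_lit 228) (nat_lit 20701355353) (nat_lit 304) (nat_lit 1153286078) (nat_lit 101) (nat_lit 5) (nat_lit 104) (nat_lit 5) (nat_lit 105) (nat_lit 5) (nat_lit 375) (nat_lit 339) (nat_lit 186)) (XT.nd (nat_lit 78) (nat_lit 228) (nat_lit 0) (XT.lf (nat_lit 0) (nat_lit 24463779952) (nat_lit 380) (nat_lit 31130375320) (nat_lit 76) (nat_lit 22612714944) (nat_lit 96) (nat_lit 5) (nat_lit 101) (nat_lit 5)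 (nat_lit 97) (nat_lit 5) (nat_lit 376) (nat_lit 339) (nat_lit 185)) (XT.lf (nat_lit 0) (nat_lit 39674624066) (nat_lit 228) (nat_lit 12478562492) (nat_lit 304) (nat_lit 28612647742) (nat_lit 93) (nat_lit 5) (nat_lit 96) (nat_lit 5) (nat_lit 97) (nat_lit 5) (nat_lit 377) (nat_lit 339) (nat_lit 184))))) (XT.nd (nat_lit 234) (nat_lit 456) (nat_lit 0) (XT.nd (nat_lit 78) (nat_lit 532) (nat_lit 0) (XT.lf (nat_lit 0) (nat_lit 31520242278) (nat_lit 228) (nat_lit 50646331943) (nat_lit 304) (nat_lit 1257987675) (nat_lit 90) (nat_lit 5) (nat_lit 93) (nat_lit 5) (nat_lit 94) (nat_lit 5) (nat_lit 378) (nat_lit 339) (nat_lit 183)) (XT.nd (nat_lit 78) (nat_lit 228) (nat_lit 0) (XT.lf (nat_lit 0) (nat_lit 22457861325) (nat_lit 228) (nat_lit 5237343765) (nat_lit 304) (nat_lit 58490099350) (nat_lit 86) (nat_lit 5) (nat_lit 89) (nat_lit 5) (nat_lit 90) (nat_lit 5) (nat_lit 379) (nat_lit 339) (nat_lit 182)) (XT.lf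 (nat_lit 0) (nat_lit 12366495316) (nat_lit 228) (nat_lit 46768017340) (nat_lit 304) (nat_lit 29917264177) (nat_lit 83) (nat_lit 5) (nat_lit 86) (nat_lit 5) (nat_lit 87) (nat_lit 5) (nat_lit 380) (nat_lit 339) (nat_lit 181)))) (XT.nd (nat_lit 78) (nat_lit 228) (nat_lit 0) (XT.lf (nat_lit 0) (nat_lit 817222303) (nat_lit 228) (nat_lit 90525615289) (nat_lit 76) (nat_lit 696671898) (nat_lit 80) (nat_lit 5) (nat_lit 83) (nat_lit 5) (nat_lit 81) (nat_lit 5) (nat_lit 381) (nat_lit 339) (nat_lit 180)) (XT.nd (nat_lit 78) (nat_lit 228) (nat_lit 0) (XT.lf (nat_lit 0) (nat_lit 33742599409) (nat_lit 228) (nat_lit 10712726922) (nat_lit 76) (nat_lit 50674229584) (nat_lit 80) (nat_lit 5) (nat_lit 83) (nat_lit 5) (nat_lit 81) (nat_lit 5) (nat_lit 382) (nat_lit 339) (nat_lit 179)) (XT.lf (nat_lit 0) (nat_lit 69081772592) (nat_lit 304) (nat_lit 23863597077) (nat_lit 76) (nat_lit 5405709638) (nat_lit 77) (nat_lit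 5) (nat_lit 81) (nat_lit 5) (nat_lit 78) (nat_lit 5) (nat_lit 383) (nat_lit 339) (nat_lit 178)))))) (XT.nd (nat_lit 43524) (nat_lit 0) (nat_lit 13148) (XT.nd (nat_lit 234) (nat_lit 456) (nat_lit 0) (XT.nd (nat_lit 78) (nat_lit 380) (nat_lit 0) (XT.lf (nat_lit 0) (nat_lit 5544683887) (nat_lit 228) (nat_lit 38531245268) (nat_lit 76) (nat_lit 57621144354) (nat_lit 74) (nat_lit 5) (nat_lit 77) (nat_lit 5) (nat_lit 75) (nat_lit 5) (nat_lit 384) (nat_lit 339) (nat_lit 177)) (XT.nd (nat_lit 78) (nat_lit 152) (nat_lit 0) (XT.lf (nat_lit 0) (nat_lit 42311279557) (nat_lit 304) (nat_lit 54731988853) (nat_lit 76) (nat_lit 8133888374) (nat_lit 71) (nat_lit 5) (nat_lit 75) (nat_lit 5) (nat_lit 72) (nat_lit 5) (nat_lit 385) (nat_lit 339) (nat_lit 176)) (XT.lf (nat_lit 0) (nat_lit 36108896312) (nat_lit 152) (nat_lit 45997982322) (nat_lit 228) (nat_lit 26688645770) (nat_lit 69) (nat_lit 5) (nat_lit 71) (nat_lit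 5) (nat_lit 72) (nat_lit 5) (nat_lit 386) (nat_lit 339) (nat_lit 175)))) (XT.nd (nat_lit 78) (nat_lit 152) (nat_lit 0) (XT.lf (nat_lit 0) (nat_lit 11921339376) (nat_lit 304) (nat_lit 92313139903) (nat_lit 76) (nat_lit 8331743167) (nat_lit 65) (nat_lit 5) (nat_lit 69) (nat_lit 5) (nat_lit 66) (nat_lit 5) (nat_lit 387) (nat_lit 339) (nat_lit 174)) (XT.nd (nat_lit 43134) (nat_lit 0) (nat_lit 13072) (XT.lf (nat_lit 0) (nat_lit 2153613347) (nat_lit 152) (nat_lit 51000221362) (nat_lit 228) (nat_lit 63326374512) (nat_lit 63) (nat_lit 5) (nat_lit 65) (nat_lit 5) (nat_lit 66) (nat_lit 5) (nat_lit 388) (nat_lit 339) (nat_lit 173)) (XT.lf (nat_lit 0) (nat_lit 1095901695) (nat_lit 1292) (nat_lit 6633660586) (nat_lit 1292) (nat_lit 6633660586) (nat_lit 235) (nat_lit 3) (nat_lit 252) (nat_lit 3) (nat_lit 252) (nat_lit 5) (nat_lit 340) (nat_lit 340) (nat_lit 220))))) (XT.nd (nat_lit 234) (nat_lit 0) (nat_lit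 152) (XT.nd (nat_lit 78) (nat_lit 0) (nat_lit 76) (XT.lf (nat_lit 0) (nat_lit 2540033263) (nat_lit 1216) (nat_lit 19700535179) (nat_lit 1292) (nat_lit 7195168746) (nat_lit 236) (nat_lit 5) (nat_lit 252) (nat_lit 5) (nat_lit 253) (nat_lit 5) (nat_lit 341) (nat_lit 340) (nat_lit 219)) (XT.nd (nat_lit 78) (nat_lit 0) (nat_lit 0) (XT.lf (nat_lit 0) (nat_lit 3235393381) (nat_lit 1216) (nat_lit 26274418293) (nat_lit 1292) (nat_lit 660794241) (nat_lit 237) (nat_lit 5) (nat_lit 253) (nat_lit 5) (nat_lit 254) (nat_lit 5) (nat_lit 342) (nat_lit 340) (nat_lit 218)) (XT.lf (nat_lit 0) (nat_lit 4386953725) (nat_lit 1216) (nat_lit 2082949682) (nat_lit 1292) (nat_lit 24459675769) (nat_lit 237) (nat_lit 5) (nat_lit 253) (nat_lit 5) (nat_lit 254) (nat_lit 5) (nat_lit 343) (nat_lit 340) (nat_lit 217)))) (XT.nd (nat_lit 78) (nat_lit 0) (nat_lit 76) (XT.lf (nat_lit 0) (nat_lit 5989821746) (nat_lit 1216) (nat_lit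 8114972063) (nat_lit 1292) (nat_lit 17609899270) (nat_lit 238) (nat_lit 5) (nat_lit 254) (nat_lit 5) (nat_lit 255) (nat_lit 5) (nat_lit 344) (nat_lit 340) (nat_lit 216)) (XT.nd (nat_lit 78) (nat_lit 0) (nat_lit 76) (XT.lf (nat_lit 0) (nat_lit 8029400005) (nat_lit 1216) (nat_lit 14271906139) (nat_lit 1292) (nat_lit 10227063214) (nat_lit 239) (nat_lit 5) (nat_lit 255) (nat_lit 5) (nat_lit 256) (nat_lit 5) (nat_lit 345) (nat_lit 340) (nat_lit 215)) (XT.lf (nat_lit 0) (nat_lit 10536614395) (nat_lit 1216) (nat_lit 20556359928) (nat_lit 1292) (nat_lit 2278788922) (nat_lit 240) (nat_lit 5) (nat_lit 256) (nat_lit 5) (nat_lit 257) (nat_lit 5) (nat_lit 346) (nat_lit 340) (nat_lit 214))))))))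
noncomputable def xc109 : XT := (XT.nd (nat_lit 1872) (nat_lit 3952) (nat_lit 0) (XT.nd (nat_lit 936) (nat_lit 4560) (nat_lit 0) (XT.nd (nat_lit 468) (nat_lit 2888) (nat_lit 0) (XT.nd (nat_lit 234) (nat_lit 1596) (nat_lit 0) (XT.nd (nat_lit 78) (nat_lit 0) (nat_lit 76) (XT.lf (nat_lit 76) (nat_lit 7211752973) (nat_lit 0) (nat_lit 6393701971) (nat_lit 1292) (nat_lit 20638787260) (nat_lit 241) (nat_lit 5) (nat_lit 240) (nat_lit 5) (nat_lit 257) (nat_lit 5) (nat_lit 347) (nat_lit 340) (nat_lit 213)) (XT.nd (nat_lit 78) (nat_lit 0) (nat_lit 76) (XT.lf (nat_lit 76) (nat_lit 1477855153) (nat_lit 0) (nat_lit 15759387164) (nat_lit 1292) (nat_lit 17910820835) (nat_lit 242) (nat_lit 5) (nat_lit 241) (nat_lit 5) (nat_lit 258) (nat_lit 5) (nat_lit 348) (nat_lit 340) (nat_lit 212)) (XT.lf (nat_lit 0) (nat_lit 21487941744) (nat_lit 1216) (nat_lit 4280084698) (nat_lit 1292) (nat_lit 10315932056) (nat_lit 242)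 (nat_lit 5) (nat_lit 258) (nat_lit 5) (nat_lit 259) (nat_lit 5) (nat_lit 349) (nat_lit 340) (nat_lit 211)))) (XT.nd (nat_lit 78) (nat_lit 1824) (nat_lit 0) (XT.lf (nat_lit 0) (nat_lit 26369079892) (nat_lit 1216) (nat_lit 10118343043) (nat_lit 76) (nat_lit 566691452) (nat_lit 243) (nat_lit 5) (nat_lit 259) (nat_lit 5) (nat_lit 244) (nat_lit 5) (nat_lit 350) (nat_lit 340) (nat_lit 210)) (XT.nd (nat_lit 78) (nat_lit 608) (nat_lit 0) (XT.lf (nat_lit 0) (nat_lit 21892330753) (nat_lit 1216) (nat_lit 10111507704) (nat_lit 1292) (nat_lit 6053655460) (nat_lit 227) (nat_lit 5) (nat_lit 243) (nat_lit 5) (nat_lit 244) (nat_lit 5) (nat_lit 351) (nat_lit 340) (nat_lit 209)) (XT.lf (nat_lit 0) (nat_lit 16759262968) (nat_lit 608) (nat_lit 21591147163) (nat_lit 684) (nat_lit 747732655) (nat_lit 219) (nat_lit 5) (nat_lit 227) (nat_lit 5) (nat_lit 228) (nat_lit 5) (nat_lit 352) (nat_lit 340) (nat_lit 208)))))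 (XT.nd (nat_lit 234) (nat_lit 1064) (nat_lit 0) (XT.nd (nat_lit 78) (nat_lit 1140) (nat_lit 0) (XT.lf (nat_lit 0) (nat_lit 5167413022) (nat_lit 684) (nat_lit 28687633948) (nat_lit 76) (nat_lit 6321247050) (nat_lit 210) (nat_lit 5) (nat_lit 219) (nat_lit 5) (nat_lit 211) (nat_lit 5) (nat_lit 353) (nat_lit 340) (nat_lit 207)) (XT.nd (nat_lit 78) (nat_lit 532) (nat_lit 0) (XT.lf (nat_lit 0) (nat_lit 6058652478) (nat_lit 608) (nat_lit 5807859516) (nat_lit 684) (nat_lit 29426511223) (nat_lit 202) (nat_lit 5) (nat_lit 210) (nat_lit 5) (nat_lit 211) (nat_lit 5) (nat_lit 354) (nat_lit 340) (nat_lit 206)) (XT.lf (nat_lit 0) (nat_lit 459013667) (nat_lit 532) (nat_lit 18966765891) (nat_lit 608) (nat_lit 23024055103) (nat_lit 195) (nat_lit 5) (nat_lit 202) (nat_lit 5) (nat_lit 203) (nat_lit 5) (nat_lit 355) (nat_lit 340) (nat_lit 205)))) (XT.nd (nat_lit 78) (nat_lit 1064) (nat_lit 0) (XT.lf (nat_lit 0)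 (nat_lit 27883348510) (nat_lit 608) (nat_lit 5147163323) (nat_lit 76) (nat_lit 10618366794) (nat_lit 195) (nat_lit 5) (nat_lit 203) (nat_lit 5) (nat_lit 196) (nat_lit 5) (nat_lit 356) (nat_lit 340) (nat_lit 204)) (XT.nd (nat_lit 78) (nat_lit 532) (nat_lit 0) (XT.lf (nat_lit 0) (nat_lit 34006281675) (nat_lit 532) (nat_lit 3271537718) (nat_lit 608) (nat_lit 7614636689) (nat_lit 188) (nat_lit 5) (nat_lit 195) (nat_lit 5) (nat_lit 196) (nat_lit 5) (nat_lit 357) (nat_lit 340) (nat_lit 203)) (XT.lf (nat_lit 0) (nat_lit 1531515074) (nat_lit 532) (nat_lit 16868597431) (nat_lit 76) (nat_lit 27779645654) (nat_lit 181) (nat_lit 5) (nat_lit 188) (nat_lit 5) (nat_lit 182) (nat_lit 5) (nat_lit 358) (nat_lit 340) (nat_lit 202)))))) (XT.nd (nat_lit 468) (nat_lit 2204) (nat_lit 0) (XT.nd (nat_lit 234) (nat_lit 912) (nat_lit 0) (XT.nd (nat_lit 78) (nat_lit 912) (nat_lit 0) (XT.lf (nat_lit 0) (nat_lit 11484540959)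 (nat_lit 608) (nat_lit 23062894579) (nat_lit 76) (nat_lit 12966518318) (nat_lit 174) (nat_lit 5) (nat_lit 182) (nat_lit 5) (nat_lit 175) (nat_lit 5) (nat_lit 359) (nat_lit 340) (nat_lit 201)) (XT.nd (nat_lit 78) (nat_lit 456) (nat_lit 0) (XT.lf (nat_lit 0) (nat_lit 19467524251) (nat_lit 456) (nat_lit 3012027857) (nat_lit 532) (nat_lit 26418978881) (nat_lit 168) (nat_lit 5) (nat_lit 174) (nat_lit 5) (nat_lit 175) (nat_lit 5) (nat_lit 360) (nat_lit 340) (nat_lit 200)) (XT.lf (nat_lit 0) (nat_lit 14242982403) (nat_lit 456) (nat_lit 20443601625) (nat_lit 532) (nat_lit 15645886435) (nat_lit 162) (nat_lit 5) (nat_lit 168) (nat_lit 5) (nat_lit 169) (nat_lit 5) (nat_lit 361) (nat_lit 340) (nat_lit 199)))) (XT.nd (nat_lit 78) (nat_lit 532) (nat_lit 0) (XT.lf (nat_lit 0) (nat_lit 8902360011) (nat_lit 380) (nat_lit 39140135278) (nat_lit 456) (nat_lit 3779457306) (nat_lit 157) (nat_lit 5) (nat_lit 162)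 (nat_lit 5) (nat_lit 163) (nat_lit 5) (nat_lit 362) (nat_lit 340) (nat_lit 198)) (XT.nd (nat_lit 78) (nat_lit 0) (nat_lit 0) (XT.lf (nat_lit 0) (nat_lit 3289557758) (nat_lit 456) (nat_lit 5830981886) (nat_lit 532) (nat_lit 44244578477) (nat_lit 150) (nat_lit 5) (nat_lit 156) (nat_lit 5) (nat_lit 157) (nat_lit 5) (nat_lit 363) (nat_lit 340) (nat_lit 197)) (XT.lf (nat_lit 0) (nat_lit 23311035814) (nat_lit 532) (nat_lit 2593139505) (nat_lit 76) (nat_lit 29058435397) (nat_lit 150) (nat_lit 5) (nat_lit 157) (nat_lit 5) (nat_lit 151) (nat_lit 5) (nat_lit 364) (nat_lit 340) (nat_lit 196))))) (XT.nd (nat_lit 234) (nat_lit 1064) (nat_lit 0) (XT.nd (nat_lit 78) (nat_lit 760) (nat_lit 0) (XT.lf (nat_lit 0) (nat_lit 38819877304) (nat_lit 456) (nat_lit 8575093372) (nat_lit 76) (nat_lit 9226743922) (nat_lit 145) (nat_lit 5) (nat_lit 151) (nat_lit 5) (nat_lit 146) (nat_lit 5) (nat_lit 365) (nat_lit 340) (nat_lit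 195)) (XT.nd (nat_lit 78) (nat_lit 380) (nat_lit 0) (XT.lf (nat_lit 0) (nat_lit 43492454975) (nat_lit 380) (nat_lit 12315064158) (nat_lit 456) (nat_lit 2535155003) (nat_lit 140) (nat_lit 5) (nat_lit 145) (nat_lit 5) (nat_lit 146) (nat_lit 5) (nat_lit 366) (nat_lit 340) (nat_lit 194)) (XT.lf (nat_lit 0) (nat_lit 13932309658) (nat_lit 380) (nat_lit 21555171261) (nat_lit 76) (nat_lit 24637286778) (nat_lit 135) (nat_lit 5) (nat_lit 140) (nat_lit 5) (nat_lit 136) (nat_lit 5) (nat_lit 367) (nat_lit 340) (nat_lit 193)))) (XT.nd (nat_lit 78) (nat_lit 684) (nat_lit 0) (XT.lf (nat_lit 0) (nat_lit 31785157153) (nat_lit 456) (nat_lit 28516499442) (nat_lit 76) (nat_lit 1675124175) (nat_lit 130) (nat_lit 5) (nat_lit 136) (nat_lit 5) (nat_lit 131) (nat_lit 5) (nat_lit 368) (nat_lit 340) (nat_lit 192)) (XT.nd (nat_lit 78) (nat_lit 380) (nat_lit 0) (XT.lf (nat_lit 0) (nat_lit 27943124936) (nat_lit 304) (nat_lit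 23435538508) (nat_lit 380) (nat_lit 12517291575) (nat_lit 126) (nat_lit 5) (nat_lit 130) (nat_lit 5) (nat_lit 131) (nat_lit 5) (nat_lit 369) (nat_lit 340) (nat_lit 191)) (XT.lf (nat_lit 0) (nat_lit 6583249698) (nat_lit 380) (nat_lit 43757135217) (nat_lit 76) (nat_lit 15549150896) (nat_lit 121) (nat_lit 5) (nat_lit 126) (nat_lit 5) (nat_lit 122) (nat_lit 5) (nat_lit 370) (nat_lit 340) (nat_lit 190))))))) (XT.nd (nat_lit 936) (nat_lit 836) (nat_lit 0) (XT.nd (nat_lit 468) (nat_lit 1596) (nat_lit 0) (XT.nd (nat_lit 234) (nat_lit 532) (nat_lit 0) (XT.nd (nat_lit 78) (nat_lit 684) (nat_lit 0) (XT.lf (nat_lit 0) (nat_lit 15840187492) (nat_lit 304) (nat_lit 11302027835) (nat_lit 380) (nat_lit 40813994976) (nat_lit 117) (nat_lit 5) (nat_lit 121) (nat_lit 5) (nat_lit 122) (nat_lit 5) (nat_lit 371) (nat_lit 340) (nat_lit 189)) (XT.nd (nat_lit 78) (nat_lit 380) (nat_lit 0) (XT.lf (nat_lit 0) (nat_lit 9103025537)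 (nat_lit 304) (nat_lit 40451266066) (nat_lit 380) (nat_lit 20547172900) (nat_lit 113) (nat_lit 5) (nat_lit 117) (nat_lit 5) (nat_lit 118) (nat_lit 5) (nat_lit 372) (nat_lit 340) (nat_lit 188)) (XT.lf (nat_lit 0) (nat_lit 1397917475) (nat_lit 380) (nat_lit 70295963038) (nat_lit 76) (nat_lit 639513394) (nat_lit 108) (nat_lit 5) (nat_lit 113) (nat_lit 5) (nat_lit 109) (nat_lit 5) (nat_lit 373) (nat_lit 340) (nat_lit 187)))) (XT.nd (nat_lit 78) (nat_lit 532) (nat_lit 0) (XT.lf (nat_lit 0) (nat_lit 25059206696) (nat_lit 380) (nat_lit 5783918539) (nat_lit 76) (nat_lit 43796375433) (nat_lit 108) (nat_lit 5) (nat_lit 113) (nat_lit 5) (nat_lit 109) (nat_lit 5) (nat_lit 374) (nat_lit 340) (nat_lit 186)) (XT.nd (nat_lit 78) (nat_lit 228) (nat_lit 0) (XT.lf (nat_lit 0) (nat_lit 50630383536) (nat_lit 380) (nat_lit 13981493274) (nat_lit 76) (nat_lit 12427231978) (nat_lit 104) (nat_lit 5) (nat_lit 109) (nat_lit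 5) (nat_lit 105) (nat_lit 5) (nat_lit 375) (nat_lit 340) (nat_lit 185)) (XT.lf (nat_lit 0) (nat_lit 56696122687) (nat_lit 228) (nat_lit 21698132591) (nat_lit 304) (nat_lit 1137018634) (nat_lit 101) (nat_lit 5) (nat_lit 104) (nat_lit 5) (nat_lit 105) (nat_lit 5) (nat_lit 376) (nat_lit 340) (nat_lit 184))))) (XT.nd (nat_lit 234) (nat_lit 760) (nat_lit 0) (XT.nd (nat_lit 78) (nat_lit 456) (nat_lit 0) (XT.lf (nat_lit 0) (nat_lit 25757414910) (nat_lit 380) (nat_lit 32576824802) (nat_lit 76) (nat_lit 23780841294) (nat_lit 96) (nat_lit 5) (nat_lit 101) (nat_lit 5) (nat_lit 97) (nat_lit 5) (nat_lit 377) (nat_lit 340) (nat_lit 183)) (XT.nd (nat_lit 78) (nat_lit 228) (nat_lit 0) (XT.lf (nat_lit 0) (nat_lit 41765269439) (nat_lit 228) (nat_lit 13063695562) (nat_lit 304) (nat_lit 29973099021) (nat_lit 93) (nat_lit 5) (nat_lit 96) (nat_lit 5) (nat_lit 97) (nat_lit 5) (nat_lit 378) (nat_lit 340) (nat_lit 182))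 (XT.lf (nat_lit 0) (nat_lit 33201744545) (nat_lit 228) (nat_lit 53139402935) (nat_lit 304) (nat_lit 1252637632) (nat_lit 90) (nat_lit 5) (nat_lit 93) (nat_lit 5) (nat_lit 94) (nat_lit 5) (nat_lit 379) (nat_lit 340) (nat_lit 181)))) (XT.nd (nat_lit 78) (nat_lit 456) (nat_lit 0) (XT.lf (nat_lit 0) (nat_lit 23684530850) (nat_lit 228) (nat_lit 5460163137) (nat_lit 304) (nat_lit 61347917593) (nat_lit 86) (nat_lit 5) (nat_lit 89) (nat_lit 5) (nat_lit 90) (nat_lit 5) (nat_lit 380) (nat_lit 340) (nat_lit 180)) (XT.nd (nat_lit 78) (nat_lit 228) (nat_lit 0) (XT.lf (nat_lit 0) (nat_lit 13087159171) (nat_lit 228) (nat_lit 49067066669) (nat_lit 304) (nat_lit 31348234760) (nat_lit 83) (nat_lit 5) (nat_lit 86) (nat_lit 5) (nat_lit 87) (nat_lit 5) (nat_lit 381) (nat_lit 340) (nat_lit 179)) (XT.lf (nat_lit 0) (nat_lit 920023161) (nat_lit 228) (nat_lit 94949760447) (nat_lit 76) (nat_lit 769828880) (nat_lit 80)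 (nat_lit 5) (nat_lit 83) (nat_lit 5) (nat_lit 81) (nat_lit 5) (nat_lit 382) (nat_lit 340) (nat_lit 178)))))) (XT.nd (nat_lit 43680) (nat_lit 0) (nat_lit 12692) (XT.nd (nat_lit 234) (nat_lit 380) (nat_lit 0) (XT.nd (nat_lit 78) (nat_lit 456) (nat_lit 0) (XT.lf (nat_lit 0) (nat_lit 35488719610) (nat_lit 228) (nat_lit 11151091262) (nat_lit 76) (nat_lit 53244439527) (nat_lit 80) (nat_lit 5) (nat_lit 83) (nat_lit 5) (nat_lit 81) (nat_lit 5) (nat_lit 383) (nat_lit 340) (nat_lit 177)) (XT.nd (nat_lit 78) (nat_lit 228) (nat_lit 0) (XT.lf (nat_lit 0) (nat_lit 72593310086) (nat_lit 304) (nat_lit 24960927026) (nat_lit 76) (nat_lit 5712659738) (nat_lit 77) (nat_lit 5) (nat_lit 81) (nat_lit 5) (nat_lit 78) (nat_lit 5) (nat_lit 384) (nat_lit 340) (nat_lit 176)) (XT.lf (nat_lit 0) (nat_lit 5878088917) (nat_lit 228) (nat_lit 40363575254) (nat_lit 76) (nat_lit 60538565907) (nat_lit 74) (nat_lit 5) (nat_lit 77)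 (nat_lit 5) (nat_lit 75) (nat_lit 5) (nat_lit 385) (nat_lit 340) (nat_lit 175)))) (XT.nd (nat_lit 78) (nat_lit 152) (nat_lit 0) (XT.lf (nat_lit 0) (nat_lit 44481576582) (nat_lit 304) (nat_lit 57375771640) (nat_lit 76) (nat_lit 8577013000) (nat_lit 71) (nat_lit 5) (nat_lit 75) (nat_lit 5) (nat_lit 72) (nat_lit 5) (nat_lit 386) (nat_lit 340) (nat_lit 174)) (XT.nd (nat_lit 43290) (nat_lit 0) (nat_lit 12616) (XT.lf (nat_lit 0) (nat_lit 38004497213) (nat_lit 152) (nat_lit 48260718700) (nat_lit 228) (nat_lit 27968484045) (nat_lit 69) (nat_lit 5) (nat_lit 71) (nat_lit 5) (nat_lit 72) (nat_lit 5) (nat_lit 387) (nat_lit 340) (nat_lit 173)) (XT.lf (nat_lit 0) (nat_lit 1277303518) (nat_lit 1292) (nat_lit 6900108341) (nat_lit 1292) (nat_lit 6900108341) (nat_lit 235) (nat_lit 3) (nat_lit 252) (nat_lit 3) (nat_lit 252) (nat_lit 5) (nat_lit 341) (nat_lit 341) (nat_lit 218))))) (XT.nd (nat_lit 234) (nat_lit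 0) (nat_lit 152) (XT.nd (nat_lit 78) (nat_lit 0) (nat_lit 76) (XT.lf (nat_lit 0) (nat_lit 2908297197) (nat_lit 1216) (nat_lit 20550323482) (nat_lit 1292) (nat_lit 7441540532) (nat_lit 236) (nat_lit 5) (nat_lit 252) (nat_lit 5) (nat_lit 253) (nat_lit 5) (nat_lit 342) (nat_lit 341) (nat_lit 217)) (XT.nd (nat_lit 78) (nat_lit 0) (nat_lit 0) (XT.lf (nat_lit 0) (nat_lit 3627241241) (nat_lit 1216) (nat_lit 27448769097) (nat_lit 1292) (nat_lit 596104511) (nat_lit 237) (nat_lit 5) (nat_lit 253) (nat_lit 5) (nat_lit 254) (nat_lit 5) (nat_lit 343) (nat_lit 341) (nat_lit 216)) (XT.lf (nat_lit 0) (nat_lit 4825423498) (nat_lit 1216) (nat_lit 2054363727) (nat_lit 1292) (nat_lit 25589583898) (nat_lit 237) (nat_lit 5) (nat_lit 253) (nat_lit 5) (nat_lit 254) (nat_lit 5) (nat_lit 344) (nat_lit 341) (nat_lit 215)))) (XT.nd (nat_lit 78) (nat_lit 0) (nat_lit 76) (XT.lf (nat_lit 0) (nat_lit 6498461270) (nat_lit 1216)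 (nat_lit 8384607635) (nat_lit 1292) (nat_lit 18410976423) (nat_lit 238) (nat_lit 5) (nat_lit 254) (nat_lit 5) (nat_lit 255) (nat_lit 5) (nat_lit 345) (nat_lit 341) (nat_lit 214)) (XT.nd (nat_lit 78) (nat_lit 0) (nat_lit 76) (XT.lf (nat_lit 0) (nat_lit 8630673842) (nat_lit 1216) (nat_lit 14846517414) (nat_lit 1292) (nat_lit 10671499644) (nat_lit 239) (nat_lit 5) (nat_lit 255) (nat_lit 5) (nat_lit 256) (nat_lit 5) (nat_lit 346) (nat_lit 341) (nat_lit 213)) (XT.lf (nat_lit 0) (nat_lit 11254488238) (nat_lit 1216) (nat_lit 21442788364) (nat_lit 1292) (nat_lit 2337245595) (nat_lit 240) (nat_lit 5) (nat_lit 256) (nat_lit 5) (nat_lit 257) (nat_lit 5) (nat_lit 347) (nat_lit 341) (nat_lit 212))))))))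
noncomputable def xc110 : XT := (XT.nd (nat_lit 1872) (nat_lit 3800) (nat_lit 0) (XT.nd (nat_lit 936) (nat_lit 4560) (nat_lit 0) (XT.nd (nat_lit 468) (nat_lit 2888) (nat_lit 0) (XT.nd (nat_lit 234) (nat_lit 1596) (nat_lit 0) (XT.nd (nat_lit 78) (nat_lit 0) (nat_lit 76) (XT.lf (nat_lit 76) (nat_lit 7709677279) (nat_lit 0) (nat_lit 6759316408) (nat_lit 1292) (nat_lit 21481869395) (nat_lit 241) (nat_lit 5) (nat_lit 240) (nat_lit 5) (nat_lit 257) (nat_lit 5) (nat_lit 348) (nat_lit 341) (nat_lit 211)) (XT.nd (nat_lit 78) (nat_lit 0) (nat_lit 76) (XT.lf (nat_lit 76) (nat_lit 1691007646) (nat_lit 0) (nat_lit 16583554003) (nat_lit 1292) (nat_lit 18625552131) (nat_lit 242) (nat_lit 5) (nat_lit 241) (nat_lit 5) (nat_lit 258) (nat_lit 5) (nat_lit 349) (nat_lit 341) (nat_lit 210)) (XT.lf (nat_lit 0) (nat_lit 22729109559) (nat_lit 1216) (nat_lit 4356031584) (nat_lit 1292) (nat_lit 10797927576) (nat_lit 242)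 (nat_lit 5) (nat_lit 258) (nat_lit 5) (nat_lit 259) (nat_lit 5) (nat_lit 350) (nat_lit 341) (nat_lit 209)))) (XT.nd (nat_lit 78) (nat_lit 1824) (nat_lit 0) (XT.lf (nat_lit 0) (nat_lit 27847402098) (nat_lit 1216) (nat_lit 10485026023) (nat_lit 76) (nat_lit 569515385) (nat_lit 243) (nat_lit 5) (nat_lit 259) (nat_lit 5) (nat_lit 244) (nat_lit 5) (nat_lit 351) (nat_lit 341) (nat_lit 208)) (XT.nd (nat_lit 78) (nat_lit 608) (nat_lit 0) (XT.lf (nat_lit 0) (nat_lit 23122190343) (nat_lit 1216) (nat_lit 10635395514) (nat_lit 1292) (nat_lit 6198099371) (nat_lit 227) (nat_lit 5) (nat_lit 243) (nat_lit 5) (nat_lit 244) (nat_lit 5) (nat_lit 352) (nat_lit 341) (nat_lit 207)) (XT.lf (nat_lit 0) (nat_lit 17733312574) (nat_lit 608) (nat_lit 22682001874) (nat_lit 684) (nat_lit 633240896) (nat_lit 219) (nat_lit 5) (nat_lit 227) (nat_lit 5) (nat_lit 228) (nat_lit 5) (nat_lit 353) (nat_lit 341) (nat_lit 206)))))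 (XT.nd (nat_lit 234) (nat_lit 1064) (nat_lit 0) (XT.nd (nat_lit 78) (nat_lit 1140) (nat_lit 0) (XT.lf (nat_lit 0) (nat_lit 5568829379) (nat_lit 684) (nat_lit 29982444400) (nat_lit 76) (nat_lit 6629476011) (nat_lit 210) (nat_lit 5) (nat_lit 219) (nat_lit 5) (nat_lit 211) (nat_lit 5) (nat_lit 354) (nat_lit 341) (nat_lit 205)) (XT.nd (nat_lit 78) (nat_lit 532) (nat_lit 0) (XT.lf (nat_lit 0) (nat_lit 6497155565) (nat_lit 608) (nat_lit 6100219220) (nat_lit 684) (nat_lit 30756109134) (nat_lit 202) (nat_lit 5) (nat_lit 210) (nat_lit 5) (nat_lit 211) (nat_lit 5) (nat_lit 355) (nat_lit 341) (nat_lit 204)) (XT.lf (nat_lit 0) (nat_lit 617737417) (nat_lit 532) (nat_lit 19911606049) (nat_lit 608) (nat_lit 24038953400) (nat_lit 195) (nat_lit 5) (nat_lit 202) (nat_lit 5) (nat_lit 203) (nat_lit 5) (nat_lit 356) (nat_lit 341) (nat_lit 203)))) (XT.nd (nat_lit 78) (nat_lit 1064) (nat_lit 0) (XT.lf (nat_lit 0)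 (nat_lit 29403524085) (nat_lit 608) (nat_lit 5271408187) (nat_lit 76) (nat_lit 11152551682) (nat_lit 195) (nat_lit 5) (nat_lit 203) (nat_lit 5) (nat_lit 196) (nat_lit 5) (nat_lit 357) (nat_lit 341) (nat_lit 202)) (XT.nd (nat_lit 78) (nat_lit 532) (nat_lit 0) (XT.lf (nat_lit 0) (nat_lit 35835893395) (nat_lit 532) (nat_lit 3427067616) (nat_lit 608) (nat_lit 7870424773) (nat_lit 188) (nat_lit 5) (nat_lit 195) (nat_lit 5) (nat_lit 196) (nat_lit 5) (nat_lit 358) (nat_lit 341) (nat_lit 201)) (XT.lf (nat_lit 0) (nat_lit 1726090580) (nat_lit 532) (nat_lit 17580524033) (nat_lit 76) (nat_lit 29178540068) (nat_lit 181) (nat_lit 5) (nat_lit 188) (nat_lit 5) (nat_lit 182) (nat_lit 5) (nat_lit 359) (nat_lit 341) (nat_lit 200)))))) (XT.nd (nat_lit 468) (nat_lit 2204) (nat_lit 0) (XT.nd (nat_lit 234) (nat_lit 912) (nat_lit 0) (XT.nd (nat_lit 78) (nat_lit 912) (nat_lit 0) (XT.lf (nat_lit 0) (nat_lit 12172512359)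 (nat_lit 608) (nat_lit 24084984130) (nat_lit 76) (nat_lit 13628693783) (nat_lit 174) (nat_lit 5) (nat_lit 182) (nat_lit 5) (nat_lit 175) (nat_lit 5) (nat_lit 360) (nat_lit 341) (nat_lit 199)) (XT.nd (nat_lit 78) (nat_lit 456) (nat_lit 0) (XT.lf (nat_lit 0) (nat_lit 20568198971) (nat_lit 456) (nat_lit 3144882368) (nat_lit 532) (nat_lit 27627043035) (nat_lit 168) (nat_lit 5) (nat_lit 174) (nat_lit 5) (nat_lit 175) (nat_lit 5) (nat_lit 361) (nat_lit 341) (nat_lit 198)) (XT.lf (nat_lit 0) (nat_lit 15081852960) (nat_lit 456) (nat_lit 21444775745) (nat_lit 532) (nat_lit 16319249421) (nat_lit 162) (nat_lit 5) (nat_lit 168) (nat_lit 5) (nat_lit 169) (nat_lit 5) (nat_lit 362) (nat_lit 341) (nat_lit 197)))) (XT.nd (nat_lit 78) (nat_lit 532) (nat_lit 0) (XT.lf (nat_lit 0) (nat_lit 9473494548) (nat_lit 380) (nat_lit 41073210566) (nat_lit 456) (nat_lit 3863240278) (nat_lit 157) (nat_lit 5) (nat_lit 162)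 (nat_lit 5) (nat_lit 163) (nat_lit 5) (nat_lit 363) (nat_lit 341) (nat_lit 196)) (XT.nd (nat_lit 78) (nat_lit 0) (nat_lit 0) (XT.lf (nat_lit 0) (nat_lit 3578473612) (nat_lit 456) (nat_lit 6097515150) (nat_lit 532) (nat_lit 46354363506) (nat_lit 150) (nat_lit 5) (nat_lit 156) (nat_lit 5) (nat_lit 157) (nat_lit 5) (nat_lit 364) (nat_lit 341) (nat_lit 195)) (XT.lf (nat_lit 0) (nat_lit 24571504370) (nat_lit 532) (nat_lit 2601635283) (nat_lit 76) (nat_lit 30534716864) (nat_lit 150) (nat_lit 5) (nat_lit 157) (nat_lit 5) (nat_lit 151) (nat_lit 5) (nat_lit 365) (nat_lit 341) (nat_lit 194))))) (XT.nd (nat_lit 234) (nat_lit 1064) (nat_lit 0) (XT.nd (nat_lit 78) (nat_lit 760) (nat_lit 0) (XT.lf (nat_lit 0) (nat_lit 40852650844) (nat_lit 456) (nat_lit 8883630063) (nat_lit 76) (nat_lit 9713730571) (nat_lit 145) (nat_lit 5) (nat_lit 151) (nat_lit 5) (nat_lit 146) (nat_lit 5) (nat_lit 366) (nat_lit 341) (nat_lit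 193)) (XT.nd (nat_lit 78) (nat_lit 380) (nat_lit 0) (XT.lf (nat_lit 0) (nat_lit 45783849677) (nat_lit 380) (nat_lit 12902577110) (nat_lit 456) (nat_lit 2570691334) (nat_lit 140) (nat_lit 5) (nat_lit 145) (nat_lit 5) (nat_lit 146) (nat_lit 5) (nat_lit 367) (nat_lit 341) (nat_lit 192)) (XT.lf (nat_lit 0) (nat_lit 14715492391) (nat_lit 380) (nat_lit 22515402089) (nat_lit 76) (nat_lit 25897483357) (nat_lit 135) (nat_lit 5) (nat_lit 140) (nat_lit 5) (nat_lit 136) (nat_lit 5) (nat_lit 368) (nat_lit 341) (nat_lit 191)))) (XT.nd (nat_lit 78) (nat_lit 684) (nat_lit 0) (XT.lf (nat_lit 0) (nat_lit 33458251680) (nat_lit 456) (nat_lit 29825923881) (nat_lit 76) (nat_lit 1788899408) (nat_lit 130) (nat_lit 5) (nat_lit 136) (nat_lit 5) (nat_lit 131) (nat_lit 5) (nat_lit 369) (nat_lit 341) (nat_lit 190)) (XT.nd (nat_lit 78) (nat_lit 380) (nat_lit 0) (XT.lf (nat_lit 0) (nat_lit 29453345118) (nat_lit 304) (nat_lit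 24575182785) (nat_lit 380) (nat_lit 13059768605) (nat_lit 126) (nat_lit 5) (nat_lit 130) (nat_lit 5) (nat_lit 131) (nat_lit 5) (nat_lit 370) (nat_lit 341) (nat_lit 189)) (XT.lf (nat_lit 0) (nat_lit 6991662659) (nat_lit 380) (nat_lit 45831479739) (nat_lit 76) (nat_lit 16358466499) (nat_lit 121) (nat_lit 5) (nat_lit 126) (nat_lit 5) (nat_lit 122) (nat_lit 5) (nat_lit 371) (nat_lit 341) (nat_lit 188))))))) (XT.nd (nat_lit 936) (nat_lit 684) (nat_lit 0) (XT.nd (nat_lit 468) (nat_lit 1596) (nat_lit 0) (XT.nd (nat_lit 234) (nat_lit 532) (nat_lit 0) (XT.nd (nat_lit 78) (nat_lit 684) (nat_lit 0) (XT.lf (nat_lit 0) (nat_lit 16742455300) (nat_lit 304) (nat_lit 11833407310) (nat_lit 380) (nat_lit 42775837172) (nat_lit 117) (nat_lit 5) (nat_lit 121) (nat_lit 5) (nat_lit 122) (nat_lit 5) (nat_lit 372) (nat_lit 341) (nat_lit 187)) (XT.nd (nat_lit 78) (nat_lit 380) (nat_lit 0) (XT.lf (nat_lit 0) (nat_lit 9667214353)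 (nat_lit 304) (nat_lit 42439040605) (nat_lit 380) (nat_lit 21498031553) (nat_lit 113) (nat_lit 5) (nat_lit 117) (nat_lit 5) (nat_lit 118) (nat_lit 5) (nat_lit 373) (nat_lit 341) (nat_lit 186)) (XT.lf (nat_lit 0) (nat_lit 1540616665) (nat_lit 380) (nat_lit 73701516436) (nat_lit 76) (nat_lit 705724438) (nat_lit 108) (nat_lit 5) (nat_lit 113) (nat_lit 5) (nat_lit 109) (nat_lit 5) (nat_lit 374) (nat_lit 341) (nat_lit 185)))) (XT.nd (nat_lit 78) (nat_lit 532) (nat_lit 0) (XT.lf (nat_lit 0) (nat_lit 26381503522) (nat_lit 380) (nat_lit 5969071843) (nat_lit 76) (nat_lit 46018799323) (nat_lit 108) (nat_lit 5) (nat_lit 113) (nat_lit 5) (nat_lit 109) (nat_lit 5) (nat_lit 375) (nat_lit 341) (nat_lit 184)) (XT.nd (nat_lit 78) (nat_lit 228) (nat_lit 0) (XT.lf (nat_lit 0) (nat_lit 53229236268) (nat_lit 380) (nat_lit 14577804915) (nat_lit 76) (nat_lit 13081983115) (nat_lit 104) (nat_lit 5) (nat_lit 109) (nat_lit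 5) (nat_lit 105) (nat_lit 5) (nat_lit 376) (nat_lit 341) (nat_lit 183)) (XT.lf (nat_lit 0) (nat_lit 59630746162) (nat_lit 228) (nat_lit 22748308580) (nat_lit 304) (nat_lit 1126811290) (nat_lit 101) (nat_lit 5) (nat_lit 104) (nat_lit 5) (nat_lit 105) (nat_lit 5) (nat_lit 377) (nat_lit 341) (nat_lit 182))))) (XT.nd (nat_lit 234) (nat_lit 760) (nat_lit 0) (XT.nd (nat_lit 78) (nat_lit 456) (nat_lit 0) (XT.lf (nat_lit 0) (nat_lit 27109182217) (nat_lit 380) (nat_lit 34105829957) (nat_lit 76) (nat_lit 25003888441) (nat_lit 96) (nat_lit 5) (nat_lit 101) (nat_lit 5) (nat_lit 97) (nat_lit 5) (nat_lit 378) (nat_lit 341) (nat_lit 181)) (XT.nd (nat_lit 78) (nat_lit 228) (nat_lit 0) (XT.lf (nat_lit 0) (nat_lit 43950507215) (nat_lit 228) (nat_lit 13681692081) (nat_lit 304) (nat_lit 31408097637) (nat_lit 93) (nat_lit 5) (nat_lit 96) (nat_lit 5) (nat_lit 97) (nat_lit 5) (nat_lit 379) (nat_lit 341) (nat_lit 180))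 (XT.lf (nat_lit 0) (nat_lit 34957514450) (nat_lit 228) (nat_lit 55760776161) (nat_lit 304) (nat_lit 1253365271) (nat_lit 90) (nat_lit 5) (nat_lit 93) (nat_lit 5) (nat_lit 94) (nat_lit 5) (nat_lit 380) (nat_lit 341) (nat_lit 179)))) (XT.nd (nat_lit 78) (nat_lit 456) (nat_lit 0) (XT.lf (nat_lit 0) (nat_lit 24962885700) (nat_lit 228) (nat_lit 5697753774) (nat_lit 304) (nat_lit 64354826647) (nat_lit 86) (nat_lit 5) (nat_lit 89) (nat_lit 5) (nat_lit 90) (nat_lit 5) (nat_lit 381) (nat_lit 341) (nat_lit 178)) (XT.nd (nat_lit 78) (nat_lit 228) (nat_lit 0) (XT.lf (nat_lit 0) (nat_lit 13834341700) (nat_lit 228) (nat_lit 51484726998) (nat_lit 304) (nat_lit 32856786973) (nat_lit 83) (nat_lit 5) (nat_lit 86) (nat_lit 5) (nat_lit 87) (nat_lit 5) (nat_lit 382) (nat_lit 341) (nat_lit 177)) (XT.lf (nat_lit 0) (nat_lit 1022205491) (nat_lit 228) (nat_lit 99604608464) (nat_lit 76) (nat_lit 843080765) (nat_lit 80)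 (nat_lit 5) (nat_lit 83) (nat_lit 5) (nat_lit 81) (nat_lit 5) (nat_lit 383) (nat_lit 341) (nat_lit 176)))))) (XT.nd (nat_lit 43758) (nat_lit 0) (nat_lit 12616) (XT.nd (nat_lit 234) (nat_lit 228) (nat_lit 0) (XT.nd (nat_lit 78) (nat_lit 456) (nat_lit 0) (XT.lf (nat_lit 0) (nat_lit 37316661468) (nat_lit 228) (nat_lit 11620417249) (nat_lit 76) (nat_lit 55939766686) (nat_lit 80) (nat_lit 5) (nat_lit 83) (nat_lit 5) (nat_lit 81) (nat_lit 5) (nat_lit 384) (nat_lit 341) (nat_lit 175)) (XT.nd (nat_lit 78) (nat_lit 228) (nat_lit 0) (XT.lf (nat_lit 0) (nat_lit 76275083404) (nat_lit 304) (nat_lit 26122034687) (nat_lit 76) (nat_lit 6031548615) (nat_lit 77) (nat_lit 5) (nat_lit 81) (nat_lit 5) (nat_lit 78) (nat_lit 5) (nat_lit 385) (nat_lit 341) (nat_lit 174)) (XT.lf (nat_lit 0) (nat_lit 6222941967) (nat_lit 228) (nat_lit 42296282564) (nat_lit 76) (nat_lit 63598477727) (nat_lit 74) (nat_lit 5) (nat_lit 77)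 (nat_lit 5) (nat_lit 75) (nat_lit 5) (nat_lit 386) (nat_lit 341) (nat_lit 173)))) (XT.nd (nat_lit 43368) (nat_lit 0) (nat_lit 12464) (XT.lf (nat_lit 0) (nat_lit 46755299897) (nat_lit 304) (nat_lit 60160372779) (nat_lit 76) (nat_lit 9038906923) (nat_lit 71) (nat_lit 5) (nat_lit 75) (nat_lit 5) (nat_lit 72) (nat_lit 5) (nat_lit 387) (nat_lit 341) (nat_lit 172)) (XT.nd (nat_lit 78) (nat_lit 0) (nat_lit 76) (XT.lf (nat_lit 0) (nat_lit 1456004739) (nat_lit 1292) (nat_lit 7185943441) (nat_lit 1292) (nat_lit 7185943441) (nat_lit 235) (nat_lit 3) (nat_lit 252) (nat_lit 3) (nat_lit 252) (nat_lit 5) (nat_lit 342) (nat_lit 342) (nat_lit 216)) (XT.lf (nat_lit 0) (nat_lit 3272544049) (nat_lit 1216) (nat_lit 21455174390) (nat_lit 1292) (nat_lit 7710772523) (nat_lit 236) (nat_lit 5) (nat_lit 252) (nat_lit 5) (nat_lit 253) (nat_lit 5) (nat_lit 343) (nat_lit 342) (nat_lit 215))))) (XT.nd (nat_lit 234) (nat_lit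 0) (nat_lit 152) (XT.nd (nat_lit 78) (nat_lit 0) (nat_lit 0) (XT.lf (nat_lit 0) (nat_lit 4017291004) (nat_lit 1216) (nat_lit 28694794752) (nat_lit 1292) (nat_lit 537266252) (nat_lit 237) (nat_lit 5) (nat_lit 253) (nat_lit 5) (nat_lit 254) (nat_lit 5) (nat_lit 344) (nat_lit 342) (nat_lit 214)) (XT.nd (nat_lit 78) (nat_lit 0) (nat_lit 76) (XT.lf (nat_lit 0) (nat_lit 5265444864) (nat_lit 1216) (nat_lit 2036688771) (nat_lit 1292) (nat_lit 26784640726) (nat_lit 237) (nat_lit 5) (nat_lit 253) (nat_lit 5) (nat_lit 254) (nat_lit 5) (nat_lit 345) (nat_lit 342) (nat_lit 213)) (XT.lf (nat_lit 0) (nat_lit 7013088131) (nat_lit 1216) (nat_lit 8680379485) (nat_lit 1292) (nat_lit 19259490949) (nat_lit 238) (nat_lit 5) (nat_lit 254) (nat_lit 5) (nat_lit 255) (nat_lit 5) (nat_lit 346) (nat_lit 342) (nat_lit 212)))) (XT.nd (nat_lit 78) (nat_lit 0) (nat_lit 76) (XT.lf (nat_lit 0) (nat_lit 9243435505) (nat_lit 1216)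 (nat_lit 15462780669) (nat_lit 1292) (nat_lit 11144379178) (nat_lit 239) (nat_lit 5) (nat_lit 255) (nat_lit 5) (nat_lit 256) (nat_lit 5) (nat_lit 347) (nat_lit 342) (nat_lit 211)) (XT.nd (nat_lit 78) (nat_lit 0) (nat_lit 0) (XT.lf (nat_lit 0) (nat_lit 11990494395) (nat_lit 1216) (nat_lit 22386683283) (nat_lit 1292) (nat_lit 2403783364) (nat_lit 240) (nat_lit 5) (nat_lit 256) (nat_lit 5) (nat_lit 257) (nat_lit 5) (nat_lit 348) (nat_lit 342) (nat_lit 210)) (XT.lf (nat_lit 76) (nat_lit 8219729539) (nat_lit 0) (nat_lit 7138941494) (nat_lit 1292) (nat_lit 22384663791) (nat_lit 241) (nat_lit 5) (nat_lit 240) (nat_lit 5) (nat_lit 257) (nat_lit 5) (nat_lit 349) (nat_lit 342) (nat_lit 209))))))))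
noncomputable def xc111 : XT := (XT.nd (nat_lit 1872) (nat_lit 3268) (nat_lit 0) (XT.nd (nat_lit 936) (nat_lit 4332) (nat_lit 0) (XT.nd (nat_lit 468) (nat_lit 2736) (nat_lit 0) (XT.nd (nat_lit 234) (nat_lit 2356) (nat_lit 0) (XT.nd (nat_lit 78) (nat_lit 0) (nat_lit 76) (XT.lf (nat_lit 76) (nat_lit 1901870714) (nat_lit 0) (nat_lit 17445563886) (nat_lit 1292) (nat_lit 19392829969) (nat_lit 242) (nat_lit 5) (nat_lit 241) (nat_lit 5) (nat_lit 258) (nat_lit 5) (nat_lit 350) (nat_lit 342) (nat_lit 208)) (XT.nd (nat_lit 78) (nat_lit 0) (nat_lit 76) (XT.lf (nat_lit 0) (nat_lit 24016831003) (nat_lit 1216) (nat_lit 4448611078) (nat_lit 1292) (nat_lit 11307165376) (nat_lit 242) (nat_lit 5) (nat_lit 258) (nat_lit 5) (nat_lit 259) (nat_lit 5) (nat_lit 351) (nat_lit 342) (nat_lit 207)) (XT.lf (nat_lit 0) (nat_lit 29384777383) (nat_lit 1216) (nat_lit 10882987825) (nat_lit 76) (nat_lit 574852251) (nat_lit 243)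 (nat_lit 5) (nat_lit 259) (nat_lit 5) (nat_lit 244) (nat_lit 5) (nat_lit 352) (nat_lit 342) (nat_lit 206)))) (XT.nd (nat_lit 78) (nat_lit 1292) (nat_lit 0) (XT.lf (nat_lit 0) (nat_lit 24400969296) (nat_lit 1216) (nat_lit 11183775199) (nat_lit 1292) (nat_lit 6364477027) (nat_lit 227) (nat_lit 5) (nat_lit 243) (nat_lit 5) (nat_lit 244) (nat_lit 5) (nat_lit 353) (nat_lit 342) (nat_lit 205)) (XT.nd (nat_lit 78) (nat_lit 684) (nat_lit 0) (XT.lf (nat_lit 0) (nat_lit 18743412632) (nat_lit 608) (nat_lit 23826349000) (nat_lit 684) (nat_lit 527144763) (nat_lit 219) (nat_lit 5) (nat_lit 227) (nat_lit 5) (nat_lit 228) (nat_lit 5) (nat_lit 354) (nat_lit 342) (nat_lit 204)) (XT.lf (nat_lit 0) (nat_lit 5977017521) (nat_lit 684) (nat_lit 31354971386) (nat_lit 76) (nat_lit 6953844694) (nat_lit 210) (nat_lit 5) (nat_lit 219) (nat_lit 5) (nat_lit 211) (nat_lit 5) (nat_lit 355) (nat_lit 342) (nat_lit 203))))) (XT.nd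 (nat_lit 234) (nat_lit 1596) (nat_lit 0) (XT.nd (nat_lit 78) (nat_lit 532) (nat_lit 0) (XT.lf (nat_lit 0) (nat_lit 6944979750) (nat_lit 608) (nat_lit 6407014061) (nat_lit 684) (nat_lit 32165363434) (nat_lit 202) (nat_lit 5) (nat_lit 210) (nat_lit 5) (nat_lit 211) (nat_lit 5) (nat_lit 356) (nat_lit 342) (nat_lit 202)) (XT.nd (nat_lit 78) (nat_lit 0) (nat_lit 0) (XT.lf (nat_lit 0) (nat_lit 771774462) (nat_lit 532) (nat_lit 20904013438) (nat_lit 608) (nat_lit 25117268910) (nat_lit 195) (nat_lit 5) (nat_lit 202) (nat_lit 5) (nat_lit 203) (nat_lit 5) (nat_lit 357) (nat_lit 342) (nat_lit 201)) (XT.lf (nat_lit 0) (nat_lit 30987993395) (nat_lit 608) (nat_lit 5414240907) (nat_lit 76) (nat_lit 11713142121) (nat_lit 195) (nat_lit 5) (nat_lit 203) (nat_lit 5) (nat_lit 196) (nat_lit 5) (nat_lit 358) (nat_lit 342) (nat_lit 200)))) (XT.nd (nat_lit 78) (nat_lit 1064) (nat_lit 0) (XT.lf (nat_lit 0) (nat_lit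 37744964833) (nat_lit 532) (nat_lit 3591122143) (nat_lit 608) (nat_lit 8150618346) (nat_lit 188) (nat_lit 5) (nat_lit 195) (nat_lit 5) (nat_lit 196) (nat_lit 5) (nat_lit 359) (nat_lit 342) (nat_lit 199)) (XT.nd (nat_lit 78) (nat_lit 532) (nat_lit 0) (XT.lf (nat_lit 0) (nat_lit 1919424364) (nat_lit 532) (nat_lit 18340272893) (nat_lit 76) (nat_lit 30646457666) (nat_lit 181) (nat_lit 5) (nat_lit 188) (nat_lit 5) (nat_lit 182) (nat_lit 5) (nat_lit 360) (nat_lit 342) (nat_lit 198)) (XT.lf (nat_lit 0) (nat_lit 12884307457) (nat_lit 608) (nat_lit 25170362427) (nat_lit 76) (nat_lit 14322690422) (nat_lit 174) (nat_lit 5) (nat_lit 182) (nat_lit 5) (nat_lit 175) (nat_lit 5) (nat_lit 361) (nat_lit 342) (nat_lit 197)))))) (XT.nd (nat_lit 468) (nat_lit 2128) (nat_lit 0) (XT.nd (nat_lit 234) (nat_lit 912) (nat_lit 0) (XT.nd (nat_lit 78) (nat_lit 836) (nat_lit 0) (XT.lf (nat_lit 0) (nat_lit 21712072418) (nat_lit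 456) (nat_lit 3286029541) (nat_lit 532) (nat_lit 28906005356) (nat_lit 168) (nat_lit 5) (nat_lit 174) (nat_lit 5) (nat_lit 175) (nat_lit 5) (nat_lit 362) (nat_lit 342) (nat_lit 196)) (XT.nd (nat_lit 78) (nat_lit 380) (nat_lit 0) (XT.lf (nat_lit 0) (nat_lit 15950885687) (nat_lit 456) (nat_lit 22497961507) (nat_lit 532) (nat_lit 17036407960) (nat_lit 162) (nat_lit 5) (nat_lit 168) (nat_lit 5) (nat_lit 169) (nat_lit 5) (nat_lit 363) (nat_lit 342) (nat_lit 195)) (XT.lf (nat_lit 0) (nat_lit 10061469988) (nat_lit 380) (nat_lit 43105164540) (nat_lit 456) (nat_lit 3960991957) (nat_lit 157) (nat_lit 5) (nat_lit 162) (nat_lit 5) (nat_lit 163) (nat_lit 5) (nat_lit 364) (nat_lit 342) (nat_lit 194)))) (XT.nd (nat_lit 78) (nat_lit 380) (nat_lit 0) (XT.lf (nat_lit 0) (nat_lit 3870266196) (nat_lit 456) (nat_lit 6379700811) (nat_lit 532) (nat_lit 48579162049) (nat_lit 150) (nat_lit 5) (nat_lit 156) (nat_lit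 5) (nat_lit 157) (nat_lit 5) (nat_lit 365) (nat_lit 342) (nat_lit 193)) (XT.nd (nat_lit 78) (nat_lit 380) (nat_lit 0) (XT.lf (nat_lit 0) (nat_lit 25886171892) (nat_lit 532) (nat_lit 2621820269) (nat_lit 76) (nat_lit 32082640640) (nat_lit 150) (nat_lit 5) (nat_lit 157) (nat_lit 5) (nat_lit 151) (nat_lit 5) (nat_lit 366) (nat_lit 342) (nat_lit 192)) (XT.lf (nat_lit 0) (nat_lit 42978530256) (nat_lit 456) (nat_lit 9218770317) (nat_lit 76) (nat_lit 10222681909) (nat_lit 145) (nat_lit 5) (nat_lit 151) (nat_lit 5) (nat_lit 146) (nat_lit 5) (nat_lit 367) (nat_lit 342) (nat_lit 191))))) (XT.nd (nat_lit 234) (nat_lit 988) (nat_lit 0) (XT.nd (nat_lit 78) (nat_lit 760) (nat_lit 0) (XT.lf (nat_lit 0) (nat_lit 48178957765) (nat_lit 380) (nat_lit 13522091220) (nat_lit 456) (nat_lit 2616485384) (nat_lit 140) (nat_lit 5) (nat_lit 145) (nat_lit 5) (nat_lit 146) (nat_lit 5) (nat_lit 368) (nat_lit 342) (nat_lit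 190)) (XT.nd (nat_lit 78) (nat_lit 380) (nat_lit 0) (XT.lf (nat_lit 0) (nat_lit 15529786058) (nat_lit 380) (nat_lit 23534571073) (nat_lit 76) (nat_lit 27218055702) (nat_lit 135) (nat_lit 5) (nat_lit 140) (nat_lit 5) (nat_lit 136) (nat_lit 5) (nat_lit 369) (nat_lit 342) (nat_lit 189)) (XT.lf (nat_lit 0) (nat_lit 35207206594) (nat_lit 456) (nat_lit 31211641361) (nat_lit 76) (nat_lit 1905572518) (nat_lit 130) (nat_lit 5) (nat_lit 136) (nat_lit 5) (nat_lit 131) (nat_lit 5) (nat_lit 370) (nat_lit 342) (nat_lit 188)))) (XT.nd (nat_lit 78) (nat_lit 684) (nat_lit 0) (XT.lf (nat_lit 0) (nat_lit 31028564696) (nat_lit 304) (nat_lit 25774796665) (nat_lit 380) (nat_lit 13637122071) (nat_lit 126) (nat_lit 5) (nat_lit 130) (nat_lit 5) (nat_lit 131) (nat_lit 5) (nat_lit 371) (nat_lit 342) (nat_lit 187)) (XT.nd (nat_lit 78) (nat_lit 304) (nat_lit 0) (XT.lf (nat_lit 0) (nat_lit 7413128310) (nat_lit 380) (nat_lit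 48020094780) (nat_lit 76) (nat_lit 17205286022) (nat_lit 121) (nat_lit 5) (nat_lit 126) (nat_lit 5) (nat_lit 122) (nat_lit 5) (nat_lit 372) (nat_lit 342) (nat_lit 186)) (XT.lf (nat_lit 0) (nat_lit 17679585713) (nat_lit 304) (nat_lit 12394490903) (nat_lit 380) (nat_lit 44843102905) (nat_lit 117) (nat_lit 5) (nat_lit 121) (nat_lit 5) (nat_lit 122) (nat_lit 5) (nat_lit 373) (nat_lit 342) (nat_lit 185))))))) (XT.nd (nat_lit 936) (nat_lit 456) (nat_lit 0) (XT.nd (nat_lit 468) (nat_lit 1216) (nat_lit 0) (XT.nd (nat_lit 234) (nat_lit 912) (nat_lit 0) (XT.nd (nat_lit 78) (nat_lit 380) (nat_lit 0) (XT.lf (nat_lit 0) (nat_lit 10249475332) (nat_lit 304) (nat_lit 44529438202) (nat_lit 380) (nat_lit 22503545382) (nat_lit 113) (nat_lit 5) (nat_lit 117) (nat_lit 5) (nat_lit 118) (nat_lit 5) (nat_lit 374) (nat_lit 342) (nat_lit 184)) (XT.nd (nat_lit 78) (nat_lit 0) (nat_lit 0) (XT.lf (nat_lit 0) (nat_lit 1683682252)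 (nat_lit 380) (nat_lit 77287504045) (nat_lit 76) (nat_lit 772063153) (nat_lit 108) (nat_lit 5) (nat_lit 113) (nat_lit 5) (nat_lit 109) (nat_lit 5) (nat_lit 375) (nat_lit 342) (nat_lit 183)) (XT.lf (nat_lit 0) (nat_lit 27763468940) (nat_lit 380) (nat_lit 6173155709) (nat_lit 76) (nat_lit 48349313093) (nat_lit 108) (nat_lit 5) (nat_lit 113) (nat_lit 5) (nat_lit 109) (nat_lit 5) (nat_lit 376) (nat_lit 342) (nat_lit 182)))) (XT.nd (nat_lit 78) (nat_lit 608) (nat_lit 0) (XT.lf (nat_lit 0) (nat_lit 55951771601) (nat_lit 380) (nat_lit 15213486070) (nat_lit 76) (nat_lit 13766367566) (nat_lit 104) (nat_lit 5) (nat_lit 109) (nat_lit 5) (nat_lit 105) (nat_lit 5) (nat_lit 377) (nat_lit 342) (nat_lit 181)) (XT.nd (nat_lit 78) (nat_lit 380) (nat_lit 0) (XT.lf (nat_lit 0) (nat_lit 62702820741) (nat_lit 228) (nat_lit 23854222295) (nat_lit 304) (nat_lit 1122328022) (nat_lit 101) (nat_lit 5) (nat_lit 104) (nat_lit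 5) (nat_lit 105) (nat_lit 5) (nat_lit 378) (nat_lit 342) (nat_lit 180)) (XT.lf (nat_lit 0) (nat_lit 28522597394) (nat_lit 380) (nat_lit 35720567183) (nat_lit 76) (nat_lit 26284926475) (nat_lit 96) (nat_lit 5) (nat_lit 101) (nat_lit 5) (nat_lit 97) (nat_lit 5) (nat_lit 379) (nat_lit 342) (nat_lit 179))))) (XT.nd (nat_lit 234) (nat_lit 456) (nat_lit 0) (XT.nd (nat_lit 78) (nat_lit 532) (nat_lit 0) (XT.lf (nat_lit 0) (nat_lit 46235991127) (nat_lit 228) (nat_lit 14333859897) (nat_lit 304) (nat_lit 32920764347) (nat_lit 93) (nat_lit 5) (nat_lit 96) (nat_lit 5) (nat_lit 97) (nat_lit 5) (nat_lit 380) (nat_lit 342) (nat_lit 178)) (XT.nd (nat_lit 78) (nat_lit 304) (nat_lit 0) (XT.lf (nat_lit 0) (nat_lit 36792177181) (nat_lit 228) (nat_lit 58516527512) (nat_lit 304) (nat_lit 1259884562) (nat_lit 90) (nat_lit 5) (nat_lit 93) (nat_lit 5) (nat_lit 94) (nat_lit 5) (nat_lit 381) (nat_lit 342) (nat_lit 177))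 (XT.lf (nat_lit 0) (nat_lit 26296407135) (nat_lit 228) (nat_lit 5950516728) (nat_lit 304) (nat_lit 67517704646) (nat_lit 86) (nat_lit 5) (nat_lit 89) (nat_lit 5) (nat_lit 90) (nat_lit 5) (nat_lit 382) (nat_lit 342) (nat_lit 176)))) (XT.nd (nat_lit 78) (nat_lit 228) (nat_lit 0) (XT.lf (nat_lit 0) (nat_lit 14610253406) (nat_lit 228) (nat_lit 54026588740) (nat_lit 304) (nat_lit 34446238997) (nat_lit 83) (nat_lit 5) (nat_lit 86) (nat_lit 5) (nat_lit 87) (nat_lit 5) (nat_lit 383) (nat_lit 342) (nat_lit 175)) (XT.nd (nat_lit 78) (nat_lit 0) (nat_lit 0) (XT.lf (nat_lit 0) (nat_lit 1124273744) (nat_lit 228) (nat_lit 104500811672) (nat_lit 76) (nat_lit 916763549) (nat_lit 80) (nat_lit 5) (nat_lit 83) (nat_lit 5) (nat_lit 81) (nat_lit 5) (nat_lit 384) (nat_lit 342) (nat_lit 174)) (XT.lf (nat_lit 0) (nat_lit 39231025950) (nat_lit 228) (nat_lit 12121412191) (nat_lit 76) (nat_lit 58766782396) (nat_lit 80)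 (nat_lit 5) (nat_lit 83) (nat_lit 5) (nat_lit 81) (nat_lit 5) (nat_lit 385) (nat_lit 342) (nat_lit 173)))))) (XT.nd (nat_lit 43836) (nat_lit 0) (nat_lit 12464) (XT.nd (nat_lit 43602) (nat_lit 0) (nat_lit 12312) (XT.nd (nat_lit 78) (nat_lit 228) (nat_lit 0) (XT.lf (nat_lit 0) (nat_lit 80136100897) (nat_lit 304) (nat_lit 27349280468) (nat_lit 76) (nat_lit 6363290118) (nat_lit 77) (nat_lit 5) (nat_lit 81) (nat_lit 5) (nat_lit 78) (nat_lit 5) (nat_lit 386) (nat_lit 342) (nat_lit 172)) (XT.nd (nat_lit 43446) (nat_lit 0) (nat_lit 12236) (XT.lf (nat_lit 0) (nat_lit 6580300952) (nat_lit 228) (nat_lit 44333571564) (nat_lit 76) (nat_lit 66808318642) (nat_lit 74) (nat_lit 5) (nat_lit 77) (nat_lit 5) (nat_lit 75) (nat_lit 5) (nat_lit 387) (nat_lit 342) (nat_lit 171)) (XT.lf (nat_lit 0) (nat_lit 1632964653) (nat_lit 1292) (nat_lit 7491571392) (nat_lit 1292) (nat_lit 7491571392) (nat_lit 235) (nat_lit 3)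 (nat_lit 252) (nat_lit 3) (nat_lit 252) (nat_lit 5) (nat_lit 343) (nat_lit 343) (nat_lit 214)))) (XT.nd (nat_lit 78) (nat_lit 0) (nat_lit 76) (XT.lf (nat_lit 0) (nat_lit 3634658319) (nat_lit 1216) (nat_lit 22416672098) (nat_lit 1292) (nat_lit 8003027671) (nat_lit 236) (nat_lit 5) (nat_lit 252) (nat_lit 5) (nat_lit 253) (nat_lit 5) (nat_lit 344) (nat_lit 343) (nat_lit 213)) (XT.nd (nat_lit 78) (nat_lit 0) (nat_lit 0) (XT.lf (nat_lit 0) (nat_lit 4407441451) (nat_lit 1216) (nat_lit 30014874354) (nat_lit 1292) (nat_lit 483727311) (nat_lit 237) (nat_lit 5) (nat_lit 253) (nat_lit 5) (nat_lit 254) (nat_lit 5) (nat_lit 345) (nat_lit 343) (nat_lit 212)) (XT.lf (nat_lit 0) (nat_lit 5708989390) (nat_lit 1216) (nat_lit 2029323081) (nat_lit 1292) (nat_lit 28047299187) (nat_lit 237) (nat_lit 5) (nat_lit 253) (nat_lit 5) (nat_lit 254) (nat_lit 5) (nat_lit 346) (nat_lit 343) (nat_lit 211))))) (XT.nd (nat_lit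 234) (nat_lit 0) (nat_lit 152) (XT.nd (nat_lit 78) (nat_lit 0) (nat_lit 76) (XT.lf (nat_lit 0) (nat_lit 7535809473) (nat_lit 1216) (nat_lit 9002417932) (nat_lit 1292) (nat_lit 20157128268) (nat_lit 238) (nat_lit 5) (nat_lit 254) (nat_lit 5) (nat_lit 255) (nat_lit 5) (nat_lit 347) (nat_lit 343) (nat_lit 210)) (XT.nd (nat_lit 78) (nat_lit 0) (nat_lit 76) (XT.lf (nat_lit 0) (nat_lit 9869986392) (nat_lit 1216) (nat_lit 16121577195) (nat_lit 1292) (nat_lit 11646545577) (nat_lit 239) (nat_lit 5) (nat_lit 255) (nat_lit 5) (nat_lit 256) (nat_lit 5) (nat_lit 348) (nat_lit 343) (nat_lit 209)) (XT.lf (nat_lit 0) (nat_lit 12747190765) (nat_lit 1216) (nat_lit 23389695907) (nat_lit 1292) (nat_lit 2478326718) (nat_lit 240) (nat_lit 5) (nat_lit 256) (nat_lit 5) (nat_lit 257) (nat_lit 5) (nat_lit 349) (nat_lit 343) (nat_lit 208)))) (XT.nd (nat_lit 78) (nat_lit 0) (nat_lit 76) (XT.lf (nat_lit 76) (nat_lit 8743703223)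 (nat_lit 0) (nat_lit 7533674749) (nat_lit 1292) (nat_lit 23348523671) (nat_lit 241) (nat_lit 5) (nat_lit 240) (nat_lit 5) (nat_lit 257) (nat_lit 5) (nat_lit 350) (nat_lit 343) (nat_lit 207)) (XT.nd (nat_lit 78) (nat_lit 0) (nat_lit 76) (XT.lf (nat_lit 76) (nat_lit 2111533579) (nat_lit 0) (nat_lit 18347621837) (nat_lit 1292) (nat_lit 20213718842) (nat_lit 242) (nat_lit 5) (nat_lit 241) (nat_lit 5) (nat_lit 258) (nat_lit 5) (nat_lit 351) (nat_lit 343) (nat_lit 206)) (XT.lf (nat_lit 0) (nat_lit 25354875244) (nat_lit 1216) (nat_lit 4557461508) (nat_lit 1292) (nat_lit 11844715410) (nat_lit 242) (nat_lit 5) (nat_lit 258) (nat_lit 5) (nat_lit 259) (nat_lit 5) (nat_lit 352) (nat_lit 343) (nat_lit 205))))))))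
noncomputable def xc112 : XT := (XT.nd (nat_lit 1794) (nat_lit 2736) (nat_lit 0) (XT.nd (nat_lit 858) (nat_lit 4180) (nat_lit 0) (XT.nd (nat_lit 390) (nat_lit 2584) (nat_lit 0) (XT.nd (nat_lit 156) (nat_lit 1900) (nat_lit 0) (XT.nd (nat_lit 78) (nat_lit 1216) (nat_lit 0) (XT.lf (nat_lit 0) (nat_lit 30985540225) (nat_lit 1216) (nat_lit 11312588918) (nat_lit 76) (nat_lit 582607197) (nat_lit 243) (nat_lit 5) (nat_lit 259) (nat_lit 5) (nat_lit 244) (nat_lit 5) (nat_lit 353) (nat_lit 343) (nat_lit 204)) (XT.lf (nat_lit 0) (nat_lit 25732282555) (nat_lit 1216) (nat_lit 11758029637) (nat_lit 1292) (nat_lit 6552517375) (nat_lit 227) (nat_lit 5) (nat_lit 243) (nat_lit 5) (nat_lit 244) (nat_lit 5) (nat_lit 354) (nat_lit 343) (nat_lit 203))) (XT.nd (nat_lit 78) (nat_lit 1292) (nat_lit 0) (XT.lf (nat_lit 0) (nat_lit 19792541929) (nat_lit 608) (nat_lit 25026960810) (nat_lit 684) (nat_lit 428551272) (nat_lit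 219) (nat_lit 5) (nat_lit 227) (nat_lit 5) (nat_lit 228) (nat_lit 5) (nat_lit 355) (nat_lit 343) (nat_lit 202)) (XT.nd (nat_lit 78) (nat_lit 608) (nat_lit 0) (XT.lf (nat_lit 0) (nat_lit 6393552453) (nat_lit 684) (nat_lit 32807894346) (nat_lit 76) (nat_lit 7295092378) (nat_lit 210) (nat_lit 5) (nat_lit 219) (nat_lit 5) (nat_lit 211) (nat_lit 5) (nat_lit 356) (nat_lit 343) (nat_lit 201)) (XT.lf (nat_lit 0) (nat_lit 7403762894) (nat_lit 608) (nat_lit 6728982797) (nat_lit 684) (nat_lit 33657031917) (nat_lit 202) (nat_lit 5) (nat_lit 210) (nat_lit 5) (nat_lit 211) (nat_lit 5) (nat_lit 357) (nat_lit 343) (nat_lit 200))))) (XT.nd (nat_lit 234) (nat_lit 1520) (nat_lit 0) (XT.nd (nat_lit 78) (nat_lit 532) (nat_lit 0) (XT.lf (nat_lit 0) (nat_lit 922064024) (nat_lit 532) (nat_lit 21946336185) (nat_lit 608) (nat_lit 26260994341) (nat_lit 195) (nat_lit 5) (nat_lit 202) (nat_lit 5) (nat_lit 203) (nat_lit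 5) (nat_lit 358) (nat_lit 343) (nat_lit 199)) (XT.nd (nat_lit 78) (nat_lit 532) (nat_lit 0) (XT.lf (nat_lit 0) (nat_lit 32641060281) (nat_lit 608) (nat_lit 5575440309) (nat_lit 76) (nat_lit 12301486624) (nat_lit 195) (nat_lit 5) (nat_lit 203) (nat_lit 5) (nat_lit 196) (nat_lit 5) (nat_lit 359) (nat_lit 343) (nat_lit 198)) (XT.lf (nat_lit 0) (nat_lit 39738586560) (nat_lit 532) (nat_lit 3764057974) (nat_lit 608) (nat_lit 8455357731) (nat_lit 188) (nat_lit 5) (nat_lit 195) (nat_lit 5) (nat_lit 196) (nat_lit 5) (nat_lit 360) (nat_lit 343) (nat_lit 197)))) (XT.nd (nat_lit 78) (nat_lit 988) (nat_lit 0) (XT.lf (nat_lit 0) (nat_lit 2112474270) (nat_lit 532) (nat_lit 19149098473) (nat_lit 76) (nat_lit 32186935284) (nat_lit 181) (nat_lit 5) (nat_lit 188) (nat_lit 5) (nat_lit 182) (nat_lit 5) (nat_lit 361) (nat_lit 343) (nat_lit 196)) (XT.nd (nat_lit 78) (nat_lit 456) (nat_lit 0) (XT.lf (nat_lit 0) (nat_lit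 13622100589) (nat_lit 608) (nat_lit 26321061130) (nat_lit 76) (nat_lit 15050219002) (nat_lit 174) (nat_lit 5) (nat_lit 182) (nat_lit 5) (nat_lit 175) (nat_lit 5) (nat_lit 362) (nat_lit 343) (nat_lit 195)) (XT.lf (nat_lit 0) (nat_lit 22902404836) (nat_lit 456) (nat_lit 3435730614) (nat_lit 532) (nat_lit 30258435028) (nat_lit 168) (nat_lit 5) (nat_lit 174) (nat_lit 5) (nat_lit 175) (nat_lit 5) (nat_lit 363) (nat_lit 343) (nat_lit 194)))))) (XT.nd (nat_lit 468) (nat_lit 2052) (nat_lit 0) (XT.nd (nat_lit 234) (nat_lit 760) (nat_lit 0) (XT.nd (nat_lit 78) (nat_lit 912) (nat_lit 0) (XT.lf (nat_lit 0) (nat_lit 16852684011) (nat_lit 456) (nat_lit 23605577926) (nat_lit 532) (nat_lit 17798610279) (nat_lit 162) (nat_lit 5) (nat_lit 168) (nat_lit 5) (nat_lit 169) (nat_lit 5) (nat_lit 364) (nat_lit 343) (nat_lit 193)) (XT.nd (nat_lit 78) (nat_lit 532) (nat_lit 0) (XT.lf (nat_lit 0) (nat_lit 10668217603)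 (nat_lit 380) (nat_lit 45240734283) (nat_lit 456) (nat_lit 4072501570) (nat_lit 157) (nat_lit 5) (nat_lit 162) (nat_lit 5) (nat_lit 163) (nat_lit 5) (nat_lit 365) (nat_lit 343) (nat_lit 192)) (XT.lf (nat_lit 0) (nat_lit 4166154928) (nat_lit 456) (nat_lit 6678105266) (nat_lit 532) (nat_lit 50923839306) (nat_lit 150) (nat_lit 5) (nat_lit 156) (nat_lit 5) (nat_lit 157) (nat_lit 5) (nat_lit 366) (nat_lit 343) (nat_lit 191)))) (XT.nd (nat_lit 78) (nat_lit 760) (nat_lit 0) (XT.lf (nat_lit 0) (nat_lit 27258568744) (nat_lit 532) (nat_lit 2653231665) (nat_lit 76) (nat_lit 33705990753) (nat_lit 150) (nat_lit 5) (nat_lit 157) (nat_lit 5) (nat_lit 151) (nat_lit 5) (nat_lit 367) (nat_lit 343) (nat_lit 190)) (XT.nd (nat_lit 78) (nat_lit 380) (nat_lit 0) (XT.lf (nat_lit 0) (nat_lit 45202964134) (nat_lit 456) (nat_lit 9580805205) (nat_lit 76) (nat_lit 10754917873) (nat_lit 145) (nat_lit 5) (nat_lit 151) (nat_lit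 5) (nat_lit 146) (nat_lit 5) (nat_lit 368) (nat_lit 343) (nat_lit 189)) (XT.lf (nat_lit 0) (nat_lit 50683974228) (nat_lit 380) (nat_lit 14174962452) (nat_lit 456) (nat_lit 2672261565) (nat_lit 140) (nat_lit 5) (nat_lit 145) (nat_lit 5) (nat_lit 146) (nat_lit 5) (nat_lit 369) (nat_lit 343) (nat_lit 188))))) (XT.nd (nat_lit 234) (nat_lit 988) (nat_lit 0) (XT.nd (nat_lit 78) (nat_lit 684) (nat_lit 0) (XT.lf (nat_lit 0) (nat_lit 16377494452) (nat_lit 380) (nat_lit 24614609269) (nat_lit 76) (nat_lit 28602267492) (nat_lit 135) (nat_lit 5) (nat_lit 140) (nat_lit 5) (nat_lit 136) (nat_lit 5) (nat_lit 370) (nat_lit 343) (nat_lit 187)) (XT.nd (nat_lit 78) (nat_lit 304) (nat_lit 0) (XT.lf (nat_lit 0) (nat_lit 37036539558) (nat_lit 456) (nat_lit 32676460423) (nat_lit 76) (nat_lit 2025547869) (nat_lit 130) (nat_lit 5) (nat_lit 136) (nat_lit 5) (nat_lit 131) (nat_lit 5) (nat_lit 371) (nat_lit 343) (nat_lit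 186)) (XT.lf (nat_lit 0) (nat_lit 32673010909) (nat_lit 304) (nat_lit 27037100889) (nat_lit 380) (nat_lit 14250375032) (nat_lit 126) (nat_lit 5) (nat_lit 130) (nat_lit 5) (nat_lit 131) (nat_lit 5) (nat_lit 372) (nat_lit 343) (nat_lit 185)))) (XT.nd (nat_lit 78) (nat_lit 608) (nat_lit 0) (XT.lf (nat_lit 0) (nat_lit 7848984288) (nat_lit 380) (nat_lit 50327712720) (nat_lit 76) (nat_lit 18091760026) (nat_lit 121) (nat_lit 5) (nat_lit 126) (nat_lit 5) (nat_lit 122) (nat_lit 5) (nat_lit 373) (nat_lit 343) (nat_lit 184)) (XT.nd (nat_lit 78) (nat_lit 304) (nat_lit 0) (XT.lf (nat_lit 0) (nat_lit 18654274884) (nat_lit 304) (nat_lit 12986472343) (nat_lit 380) (nat_lit 47020381746) (nat_lit 117) (nat_lit 5) (nat_lit 121) (nat_lit 5) (nat_lit 122) (nat_lit 5) (nat_lit 374) (nat_lit 343) (nat_lit 183)) (XT.lf (nat_lit 0) (nat_lit 10851654551) (nat_lit 304) (nat_lit 46727289310) (nat_lit 380) (nat_lit 23565785918)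 (nat_lit 113) (nat_lit 5) (nat_lit 117) (nat_lit 5) (nat_lit 118) (nat_lit 5) (nat_lit 375) (nat_lit 343) (nat_lit 182))))))) (XT.nd (nat_lit 44382) (nat_lit 0) (nat_lit 11400) (XT.nd (nat_lit 468) (nat_lit 1216) (nat_lit 0) (XT.nd (nat_lit 234) (nat_lit 836) (nat_lit 0) (XT.nd (nat_lit 78) (nat_lit 304) (nat_lit 0) (XT.lf (nat_lit 0) (nat_lit 1827761833) (nat_lit 380) (nat_lit 81062003318) (nat_lit 76) (nat_lit 838831838) (nat_lit 108) (nat_lit 5) (nat_lit 113) (nat_lit 5) (nat_lit 109) (nat_lit 5) (nat_lit 376) (nat_lit 343) (nat_lit 181)) (XT.nd (nat_lit 78) (nat_lit 304) (nat_lit 0) (XT.lf (nat_lit 0) (nat_lit 29208685690) (nat_lit 380) (nat_lit 6396217371) (nat_lit 76) (nat_lit 50793603060) (nat_lit 108) (nat_lit 5) (nat_lit 113) (nat_lit 5) (nat_lit 109) (nat_lit 5) (nat_lit 377) (nat_lit 343) (nat_lit 180)) (XT.lf (nat_lit 0) (nat_lit 58804755664) (nat_lit 380) (nat_lit 15889616981) (nat_lit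 76) (nat_lit 14482155600) (nat_lit 104) (nat_lit 5) (nat_lit 109) (nat_lit 5) (nat_lit 105) (nat_lit 5) (nat_lit 378) (nat_lit 343) (nat_lit 179)))) (XT.nd (nat_lit 78) (nat_lit 608) (nat_lit 0) (XT.lf (nat_lit 0) (nat_lit 65920081752) (nat_lit 228) (nat_lit 25018360426) (nat_lit 304) (nat_lit 1123275414) (nat_lit 101) (nat_lit 5) (nat_lit 104) (nat_lit 5) (nat_lit 105) (nat_lit 5) (nat_lit 379) (nat_lit 343) (nat_lit 178)) (XT.nd (nat_lit 78) (nat_lit 228) (nat_lit 0) (XT.lf (nat_lit 0) (nat_lit 30001295123) (nat_lit 380) (nat_lit 37424460148) (nat_lit 76) (nat_lit 27627148864) (nat_lit 96) (nat_lit 5) (nat_lit 101) (nat_lit 5) (nat_lit 97) (nat_lit 5) (nat_lit 380) (nat_lit 343) (nat_lit 177)) (XT.lf (nat_lit 0) (nat_lit 48627571683) (nat_lit 228) (nat_lit 15021603425) (nat_lit 304) (nat_lit 34514432340) (nat_lit 93) (nat_lit 5) (nat_lit 96) (nat_lit 5) (nat_lit 97) (nat_lit 5) (nat_lit 381)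 (nat_lit 343) (nat_lit 176))))) (XT.nd (nat_lit 234) (nat_lit 456) (nat_lit 0) (XT.nd (nat_lit 78) (nat_lit 532) (nat_lit 0) (XT.lf (nat_lit 0) (nat_lit 38710504416) (nat_lit 228) (nat_lit 61413068213) (nat_lit 304) (nat_lit 1271950017) (nat_lit 90) (nat_lit 5) (nat_lit 93) (nat_lit 5) (nat_lit 94) (nat_lit 5) (nat_lit 382) (nat_lit 343) (nat_lit 175)) (XT.nd (nat_lit 78) (nat_lit 228) (nat_lit 0) (XT.lf (nat_lit 0) (nat_lit 27688667084) (nat_lit 228) (nat_lit 6218904483) (nat_lit 304) (nat_lit 70843827218) (nat_lit 86) (nat_lit 5) (nat_lit 89) (nat_lit 5) (nat_lit 90) (nat_lit 5) (nat_lit 383) (nat_lit 343) (nat_lit 174)) (XT.lf (nat_lit 0) (nat_lit 15417133081) (nat_lit 228) (nat_lit 56698553453) (nat_lit 304) (nat_lit 36120127070) (nat_lit 83) (nat_lit 5) (nat_lit 86) (nat_lit 5) (nat_lit 87) (nat_lit 5) (nat_lit 384) (nat_lit 343) (nat_lit 173)))) (XT.nd (nat_lit 78) (nat_lit 228) (nat_lit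 0) (XT.lf (nat_lit 0) (nat_lit 1226707821) (nat_lit 228) (nat_lit 109649637093) (nat_lit 76) (nat_lit 991199227) (nat_lit 80) (nat_lit 5) (nat_lit 83) (nat_lit 5) (nat_lit 81) (nat_lit 5) (nat_lit 385) (nat_lit 343) (nat_lit 172)) (XT.nd (nat_lit 78) (nat_lit 228) (nat_lit 0) (XT.lf (nat_lit 0) (nat_lit 41236596666) (nat_lit 228) (nat_lit 12654896933) (nat_lit 76) (nat_lit 61732357231) (nat_lit 80) (nat_lit 5) (nat_lit 83) (nat_lit 5) (nat_lit 81) (nat_lit 5) (nat_lit 386) (nat_lit 343) (nat_lit 171)) (XT.lf (nat_lit 0) (nat_lit 84185775169) (nat_lit 304) (nat_lit 28645219816) (nat_lit 76) (nat_lit 6708814326) (nat_lit 77) (nat_lit 5) (nat_lit 81) (nat_lit 5) (nat_lit 78) (nat_lit 5) (nat_lit 387) (nat_lit 343) (nat_lit 170)))))) (XT.nd (nat_lit 468) (nat_lit 608) (nat_lit 0) (XT.nd (nat_lit 234) (nat_lit 0) (nat_lit 152) (XT.nd (nat_lit 78) (nat_lit 0) (nat_lit 76) (XT.lf (nat_lit 0) (nat_lit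 1809088783) (nat_lit 1292) (nat_lit 7817470395) (nat_lit 1292) (nat_lit 7817470395) (nat_lit 235) (nat_lit 3) (nat_lit 252) (nat_lit 3) (nat_lit 252) (nat_lit 5) (nat_lit 344) (nat_lit 344) (nat_lit 212)) (XT.nd (nat_lit 78) (nat_lit 0) (nat_lit 76) (XT.lf (nat_lit 0) (nat_lit 3996424857) (nat_lit 1216) (nat_lit 23436588685) (nat_lit 1292) (nat_lit 8318568189) (nat_lit 236) (nat_lit 5) (nat_lit 252) (nat_lit 5) (nat_lit 253) (nat_lit 5) (nat_lit 345) (nat_lit 344) (nat_lit 211)) (XT.lf (nat_lit 0) (nat_lit 4799501412) (nat_lit 1216) (nat_lit 31411617949) (nat_lit 1292) (nat_lit 434986462) (nat_lit 237) (nat_lit 5) (nat_lit 253) (nat_lit 5) (nat_lit 254) (nat_lit 5) (nat_lit 346) (nat_lit 344) (nat_lit 210)))) (XT.nd (nat_lit 78) (nat_lit 0) (nat_lit 76) (XT.lf (nat_lit 0) (nat_lit 6157951134) (nat_lit 1216) (nat_lit 2031741499) (nat_lit 1292) (nat_lit 29380209657) (nat_lit 237) (nat_lit 5) (nat_lit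 253) (nat_lit 5) (nat_lit 254) (nat_lit 5) (nat_lit 347) (nat_lit 344) (nat_lit 209)) (XT.nd (nat_lit 78) (nat_lit 0) (nat_lit 76) (XT.lf (nat_lit 0) (nat_lit 8068669730) (nat_lit 1216) (nat_lit 9350969189) (nat_lit 1292) (nat_lit 21105721888) (nat_lit 238) (nat_lit 5) (nat_lit 254) (nat_lit 5) (nat_lit 255) (nat_lit 5) (nat_lit 348) (nat_lit 344) (nat_lit 208)) (XT.lf (nat_lit 0) (nat_lit 10512582411) (nat_lit 1216) (nat_lit 16823944030) (nat_lit 1292) (nat_lit 12178938561) (nat_lit 239) (nat_lit 5) (nat_lit 255) (nat_lit 5) (nat_lit 256) (nat_lit 5) (nat_lit 349) (nat_lit 344) (nat_lit 207))))) (XT.nd (nat_lit 234) (nat_lit 988) (nat_lit 0) (XT.nd (nat_lit 78) (nat_lit 0) (nat_lit 0) (XT.lf (nat_lit 0) (nat_lit 13527109624) (nat_lit 1216) (nat_lit 24453673635) (nat_lit 1292) (nat_lit 2560840954) (nat_lit 240) (nat_lit 5) (nat_lit 256) (nat_lit 5) (nat_lit 257) (nat_lit 5) (nat_lit 350) (nat_lit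 344) (nat_lit 206)) (XT.nd (nat_lit 78) (nat_lit 0) (nat_lit 76) (XT.lf (nat_lit 76) (nat_lit 9283371112) (nat_lit 0) (nat_lit 7944631667) (nat_lit 1292) (nat_lit 24375021682) (nat_lit 241) (nat_lit 5) (nat_lit 240) (nat_lit 5) (nat_lit 257) (nat_lit 5) (nat_lit 351) (nat_lit 344) (nat_lit 205)) (XT.lf (nat_lit 76) (nat_lit 2321028017) (nat_lit 0) (nat_lit 19292014046) (nat_lit 1292) (nat_lit 21089481769) (nat_lit 242) (nat_lit 5) (nat_lit 241) (nat_lit 5) (nat_lit 258) (nat_lit 5) (nat_lit 352) (nat_lit 344) (nat_lit 204)))) (XT.nd (nat_lit 78) (nat_lit 1140) (nat_lit 0) (XT.lf (nat_lit 0) (nat_lit 26747065890) (nat_lit 1216) (nat_lit 4682314064) (nat_lit 1292) (nat_lit 12411728291) (nat_lit 242) (nat_lit 5) (nat_lit 258) (nat_lit 5) (nat_lit 259) (nat_lit 5) (nat_lit 353) (nat_lit 344) (nat_lit 203)) (XT.nd (nat_lit 78) (nat_lit 1216) (nat_lit 0) (XT.lf (nat_lit 0) (nat_lit 32654113357) (nat_lit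 1216) (nat_lit 11774319681) (nat_lit 76) (nat_lit 592701124) (nat_lit 243) (nat_lit 5) (nat_lit 259) (nat_lit 5) (nat_lit 244) (nat_lit 5) (nat_lit 354) (nat_lit 344) (nat_lit 202)) (XT.lf (nat_lit 0) (nat_lit 27119817131) (nat_lit 1216) (nat_lit 12359596132) (nat_lit 1292) (nat_lit 6762062969) (nat_lit 227) (nat_lit 5) (nat_lit 243) (nat_lit 5) (nat_lit 244) (nat_lit 5) (nat_lit 355) (nat_lit 344) (nat_lit 201))))))))
noncomputable def xc113 : XT := (XT.nd (nat_lit 1872) (nat_lit 1824) (nat_lit 0) (XT.nd (nat_lit 936) (nat_lit 3496) (nat_lit 0) (XT.nd (nat_lit 468) (nat_lit 2888) (nat_lit 0) (XT.nd (nat_lit 234) (nat_lit 1064) (nat_lit 0) (XT.nd (nat_lit 78) (nat_lit 1292) (nat_lit 0) (XT.lf (nat_lit 0) (nat_lit 20883718835) (nat_lit 608) (nat_lit 26286739109) (nat_lit 684) (nat_lit 336644842) (nat_lit 219) (nat_lit 5) (nat_lit 227) (nat_lit 5) (nat_lit 228) (nat_lit 5) (nat_lit 356) (nat_lit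 344) (nat_lit 200)) (XT.nd (nat_lit 78) (nat_lit 608) (nat_lit 0) (XT.lf (nat_lit 0) (nat_lit 6819972984) (nat_lit 684) (nat_lit 34344138852) (nat_lit 76) (nat_lit 7654001599) (nat_lit 210) (nat_lit 5) (nat_lit 219) (nat_lit 5) (nat_lit 211) (nat_lit 5) (nat_lit 357) (nat_lit 344) (nat_lit 199)) (XT.lf (nat_lit 0) (nat_lit 7875115806) (nat_lit 608) (nat_lit 7066899539) (nat_lit 684) (nat_lit 35234124157) (nat_lit 202) (nat_lit 5) (nat_lit 210) (nat_lit 5) (nat_lit 211) (nat_lit 5) (nat_lit 358) (nat_lit 344) (nat_lit 198)))) (XT.nd (nat_lit 78) (nat_lit 532) (nat_lit 0) (XT.lf (nat_lit 0) (nat_lit 1069483178) (nat_lit 532) (nat_lit 23041042631) (nat_lit 608) (nat_lit 27472331573) (nat_lit 195) (nat_lit 5) (nat_lit 202) (nat_lit 5) (nat_lit 203) (nat_lit 5) (nat_lit 359) (nat_lit 344) (nat_lit 197)) (XT.nd (nat_lit 78) (nat_lit 532) (nat_lit 0) (XT.lf (nat_lit 0) (nat_lit 34367142517) (nat_lit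 608) (nat_lit 5754881129) (nat_lit 76) (nat_lit 12918998503) (nat_lit 195) (nat_lit 5) (nat_lit 203) (nat_lit 5) (nat_lit 196) (nat_lit 5) (nat_lit 360) (nat_lit 344) (nat_lit 196)) (XT.lf (nat_lit 0) (nat_lit 41821999775) (nat_lit 532) (nat_lit 3946256087) (nat_lit 608) (nat_lit 8784890667) (nat_lit 188) (nat_lit 5) (nat_lit 195) (nat_lit 5) (nat_lit 196) (nat_lit 5) (nat_lit 361) (nat_lit 344) (nat_lit 195))))) (XT.nd (nat_lit 234) (nat_lit 1368) (nat_lit 0) (XT.nd (nat_lit 78) (nat_lit 988) (nat_lit 0) (XT.lf (nat_lit 0) (nat_lit 2306151216) (nat_lit 532) (nat_lit 20008423632) (nat_lit 76) (nat_lit 33803678633) (nat_lit 181) (nat_lit 5) (nat_lit 188) (nat_lit 5) (nat_lit 182) (nat_lit 5) (nat_lit 362) (nat_lit 344) (nat_lit 194)) (XT.nd (nat_lit 78) (nat_lit 456) (nat_lit 0) (XT.lf (nat_lit 0) (nat_lit 14388083405) (nat_lit 608) (nat_lit 27539318795) (nat_lit 76) (nat_lit 15813064699) (nat_lit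 174) (nat_lit 5) (nat_lit 182) (nat_lit 5) (nat_lit 175) (nat_lit 5) (nat_lit 363) (nat_lit 344) (nat_lit 193)) (XT.lf (nat_lit 0) (nat_lit 24142517184) (nat_lit 456) (nat_lit 3594274148) (nat_lit 532) (nat_lit 31687120412) (nat_lit 168) (nat_lit 5) (nat_lit 174) (nat_lit 5) (nat_lit 175) (nat_lit 5) (nat_lit 364) (nat_lit 344) (nat_lit 192)))) (XT.nd (nat_lit 78) (nat_lit 912) (nat_lit 0) (XT.lf (nat_lit 0) (nat_lit 17789879698) (nat_lit 456) (nat_lit 24770181850) (nat_lit 532) (nat_lit 18607254554) (nat_lit 162) (nat_lit 5) (nat_lit 168) (nat_lit 5) (nat_lit 169) (nat_lit 5) (nat_lit 365) (nat_lit 344) (nat_lit 191)) (XT.nd (nat_lit 78) (nat_lit 532) (nat_lit 0) (XT.lf (nat_lit 0) (nat_lit 11295663963) (nat_lit 380) (nat_lit 47484912961) (nat_lit 456) (nat_lit 4197632330) (nat_lit 157) (nat_lit 5) (nat_lit 162) (nat_lit 5) (nat_lit 163) (nat_lit 5) (nat_lit 366) (nat_lit 344) (nat_lit 190))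 (XT.lf (nat_lit 0) (nat_lit 4467320200) (nat_lit 456) (nat_lit 6993343332) (nat_lit 532) (nat_lit 53393586060) (nat_lit 150) (nat_lit 5) (nat_lit 156) (nat_lit 5) (nat_lit 157) (nat_lit 5) (nat_lit 367) (nat_lit 344) (nat_lit 189)))))) (XT.nd (nat_lit 468) (nat_lit 1672) (nat_lit 0) (XT.nd (nat_lit 234) (nat_lit 1064) (nat_lit 0) (XT.nd (nat_lit 78) (nat_lit 760) (nat_lit 0) (XT.lf (nat_lit 0) (nat_lit 28692325532) (nat_lit 532) (nat_lit 2695480898) (nat_lit 76) (nat_lit 35408721656) (nat_lit 150) (nat_lit 5) (nat_lit 157) (nat_lit 5) (nat_lit 151) (nat_lit 5) (nat_lit 368) (nat_lit 344) (nat_lit 188)) (XT.nd (nat_lit 78) (nat_lit 380) (nat_lit 0) (XT.lf (nat_lit 0) (nat_lit 47531599747) (nat_lit 456) (nat_lit 9970136959) (nat_lit 76) (nat_lit 11311803783) (nat_lit 145) (nat_lit 5) (nat_lit 151) (nat_lit 5) (nat_lit 146) (nat_lit 5) (nat_lit 369) (nat_lit 344) (nat_lit 187)) (XT.lf (nat_lit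 0) (nat_lit 53305309969) (nat_lit 380) (nat_lit 14862637261) (nat_lit 456) (nat_lit 2737803815) (nat_lit 140) (nat_lit 5) (nat_lit 145) (nat_lit 5) (nat_lit 146) (nat_lit 5) (nat_lit 370) (nat_lit 344) (nat_lit 186)))) (XT.nd (nat_lit 78) (nat_lit 684) (nat_lit 0) (XT.lf (nat_lit 0) (nat_lit 17260966990) (nat_lit 380) (nat_lit 25757638727) (nat_lit 76) (nat_lit 30053522820) (nat_lit 135) (nat_lit 5) (nat_lit 140) (nat_lit 5) (nat_lit 136) (nat_lit 5) (nat_lit 371) (nat_lit 344) (nat_lit 185)) (XT.nd (nat_lit 78) (nat_lit 304) (nat_lit 0) (XT.lf (nat_lit 0) (nat_lit 38950926749) (nat_lit 456) (nat_lit 34223423574) (nat_lit 76) (nat_lit 2149225920) (nat_lit 130) (nat_lit 5) (nat_lit 136) (nat_lit 5) (nat_lit 131) (nat_lit 5) (nat_lit 372) (nat_lit 344) (nat_lit 184)) (XT.lf (nat_lit 0) (nat_lit 34391031504) (nat_lit 304) (nat_lit 28364978056) (nat_lit 380) (nat_lit 14900668711) (nat_lit 126) (nat_lit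 5) (nat_lit 130) (nat_lit 5) (nat_lit 131) (nat_lit 5) (nat_lit 373) (nat_lit 344) (nat_lit 183))))) (XT.nd (nat_lit 234) (nat_lit 684) (nat_lit 0) (XT.nd (nat_lit 78) (nat_lit 608) (nat_lit 0) (XT.lf (nat_lit 0) (nat_lit 8300571428) (nat_lit 380) (nat_lit 52759393776) (nat_lit 76) (nat_lit 19020121001) (nat_lit 121) (nat_lit 5) (nat_lit 126) (nat_lit 5) (nat_lit 122) (nat_lit 5) (nat_lit 374) (nat_lit 344) (nat_lit 182)) (XT.nd (nat_lit 78) (nat_lit 304) (nat_lit 0) (XT.lf (nat_lit 0) (nat_lit 19669265168) (nat_lit 304) (nat_lit 13610632147) (nat_lit 380) (nat_lit 49312556113) (nat_lit 117) (nat_lit 5) (nat_lit 121) (nat_lit 5) (nat_lit 122) (nat_lit 5) (nat_lit 375) (nat_lit 344) (nat_lit 181)) (XT.lf (nat_lit 0) (nat_lit 11475602769) (nat_lit 304) (nat_lit 49037693864) (nat_lit 380) (nat_lit 24686989742) (nat_lit 113) (nat_lit 5) (nat_lit 117) (nat_lit 5) (nat_lit 118) (nat_lit 5) (nat_lit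 376) (nat_lit 344) (nat_lit 180)))) (XT.nd (nat_lit 78) (nat_lit 304) (nat_lit 0) (XT.lf (nat_lit 0) (nat_lit 1973476880) (nat_lit 380) (nat_lit 85033583366) (nat_lit 76) (nat_lit 906320394) (nat_lit 108) (nat_lit 5) (nat_lit 113) (nat_lit 5) (nat_lit 109) (nat_lit 5) (nat_lit 377) (nat_lit 344) (nat_lit 179)) (XT.nd (nat_lit 78) (nat_lit 304) (nat_lit 0) (XT.lf (nat_lit 0) (nat_lit 30720859932) (nat_lit 380) (nat_lit 6638390033) (nat_lit 76) (nat_lit 53357613654) (nat_lit 108) (nat_lit 5) (nat_lit 113) (nat_lit 5) (nat_lit 109) (nat_lit 5) (nat_lit 378) (nat_lit 344) (nat_lit 178)) (XT.lf (nat_lit 0) (nat_lit 61795238783) (nat_lit 380) (nat_lit 16607414481) (nat_lit 76) (nat_lit 15231179167) (nat_lit 104) (nat_lit 5) (nat_lit 109) (nat_lit 5) (nat_lit 105) (nat_lit 5) (nat_lit 379) (nat_lit 344) (nat_lit 177))))))) (XT.nd (nat_lit 44460) (nat_lit 0) (nat_lit 8740) (XT.nd (nat_lit 468) (nat_lit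 228) (nat_lit 0) (XT.nd (nat_lit 234) (nat_lit 760) (nat_lit 0) (XT.nd (nat_lit 78) (nat_lit 608) (nat_lit 0) (XT.lf (nat_lit 0) (nat_lit 69290571076) (nat_lit 228) (nat_lit 26243361909) (nat_lit 304) (nat_lit 1129399267) (nat_lit 101) (nat_lit 5) (nat_lit 104) (nat_lit 5) (nat_lit 105) (nat_lit 5) (nat_lit 380) (nat_lit 344) (nat_lit 176)) (XT.nd (nat_lit 78) (nat_lit 228) (nat_lit 0) (XT.lf (nat_lit 0) (nat_lit 31549040478) (nat_lit 380) (nat_lit 39221183932) (nat_lit 76) (nat_lit 29033881424) (nat_lit 96) (nat_lit 5) (nat_lit 101) (nat_lit 5) (nat_lit 97) (nat_lit 5) (nat_lit 381) (nat_lit 344) (nat_lit 175)) (XT.lf (nat_lit 0) (nat_lit 51131313986) (nat_lit 228) (nat_lit 15746425576) (nat_lit 304) (nat_lit 36192652620) (nat_lit 93) (nat_lit 5) (nat_lit 96) (nat_lit 5) (nat_lit 97) (nat_lit 5) (nat_lit 382) (nat_lit 344) (nat_lit 174)))) (XT.nd (nat_lit 78) (nat_lit 532) (nat_lit 0) (XT.lf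 (nat_lit 0) (nat_lit 40717429524) (nat_lit 228) (nat_lit 64457158653) (nat_lit 304) (nat_lit 1289353620) (nat_lit 90) (nat_lit 5) (nat_lit 93) (nat_lit 5) (nat_lit 94) (nat_lit 5) (nat_lit 383) (nat_lit 344) (nat_lit 173)) (XT.nd (nat_lit 78) (nat_lit 228) (nat_lit 0) (XT.lf (nat_lit 0) (nat_lit 29143340431) (nat_lit 228) (nat_lit 6503420609) (nat_lit 304) (nat_lit 74340882379) (nat_lit 86) (nat_lit 5) (nat_lit 89) (nat_lit 5) (nat_lit 90) (nat_lit 5) (nat_lit 384) (nat_lit 344) (nat_lit 172)) (XT.lf (nat_lit 0) (nat_lit 16257256858) (nat_lit 228) (nat_lit 59506846456) (nat_lit 304) (nat_lit 37882211539) (nat_lit 83) (nat_lit 5) (nat_lit 86) (nat_lit 5) (nat_lit 87) (nat_lit 5) (nat_lit 385) (nat_lit 344) (nat_lit 171))))) (XT.nd (nat_lit 43758) (nat_lit 0) (nat_lit 11856) (XT.nd (nat_lit 78) (nat_lit 0) (nat_lit 0) (XT.lf (nat_lit 0) (nat_lit 1329966467) (nat_lit 228) (nat_lit 115062989550)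 (nat_lit 76) (nat_lit 1066697965) (nat_lit 80) (nat_lit 5) (nat_lit 83) (nat_lit 5) (nat_lit 81) (nat_lit 5) (nat_lit 386) (nat_lit 344) (nat_lit 170)) (XT.nd (nat_lit 43602) (nat_lit 0) (nat_lit 11780) (XT.lf (nat_lit 0) (nat_lit 43338353409) (nat_lit 228) (nat_lit 13221804257) (nat_lit 76) (nat_lit 64843678690) (nat_lit 80) (nat_lit 5) (nat_lit 83) (nat_lit 5) (nat_lit 81) (nat_lit 5) (nat_lit 387) (nat_lit 344) (nat_lit 169)) (XT.lf (nat_lit 0) (nat_lit 1985235646) (nat_lit 1292) (nat_lit 8164190113) (nat_lit 1292) (nat_lit 8164190113) (nat_lit 235) (nat_lit 3) (nat_lit 252) (nat_lit 3) (nat_lit 252) (nat_lit 5) (nat_lit 345) (nat_lit 345) (nat_lit 210)))) (XT.nd (nat_lit 78) (nat_lit 0) (nat_lit 76) (XT.lf (nat_lit 0) (nat_lit 4359541901) (nat_lit 1216) (nat_lit 24516883409) (nat_lit 1292) (nat_lit 8657752050) (nat_lit 236) (nat_lit 5) (nat_lit 252) (nat_lit 5) (nat_lit 253) (nat_lit 5)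 (nat_lit 346) (nat_lit 345) (nat_lit 209)) (XT.nd (nat_lit 78) (nat_lit 0) (nat_lit 0) (XT.lf (nat_lit 0) (nat_lit 5195202458) (nat_lit 1216) (nat_lit 32887867670) (nat_lit 1292) (nat_lit 390588652) (nat_lit 237) (nat_lit 5) (nat_lit 253) (nat_lit 5) (nat_lit 254) (nat_lit 5) (nat_lit 347) (nat_lit 345) (nat_lit 208)) (XT.lf (nat_lit 0) (nat_lit 6614159144) (nat_lit 1216) (nat_lit 2043489357) (nat_lit 1292) (nat_lit 30786222870) (nat_lit 237) (nat_lit 5) (nat_lit 253) (nat_lit 5) (nat_lit 254) (nat_lit 5) (nat_lit 348) (nat_lit 345) (nat_lit 207)))))) (XT.nd (nat_lit 468) (nat_lit 3268) (nat_lit 0) (XT.nd (nat_lit 234) (nat_lit 0) (nat_lit 152) (XT.nd (nat_lit 78) (nat_lit 0) (nat_lit 76) (XT.lf (nat_lit 0) (nat_lit 8613663111) (nat_lit 1216) (nat_lit 9726390991) (nat_lit 1292) (nat_lit 22107254883) (nat_lit 238) (nat_lit 5) (nat_lit 254) (nat_lit 5) (nat_lit 255) (nat_lit 5) (nat_lit 349) (nat_lit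 345) (nat_lit 206)) (XT.nd (nat_lit 78) (nat_lit 0) (nat_lit 76) (XT.lf (nat_lit 0) (nat_lit 11173446633) (nat_lit 1216) (nat_lit 17571071367) (nat_lit 1292) (nat_lit 12742593611) (nat_lit 239) (nat_lit 5) (nat_lit 255) (nat_lit 5) (nat_lit 256) (nat_lit 5) (nat_lit 350) (nat_lit 345) (nat_lit 205)) (XT.lf (nat_lit 0) (nat_lit 14332770611) (nat_lit 1216) (nat_lit 25580659297) (nat_lit 1292) (nat_lit 2651330078) (nat_lit 240) (nat_lit 5) (nat_lit 256) (nat_lit 5) (nat_lit 257) (nat_lit 5) (nat_lit 351) (nat_lit 345) (nat_lit 204)))) (XT.nd (nat_lit 78) (nat_lit 0) (nat_lit 76) (XT.lf (nat_lit 76) (nat_lit 9840494523) (nat_lit 0) (nat_lit 8372950035) (nat_lit 1292) (nat_lit 25465946760) (nat_lit 241) (nat_lit 5) (nat_lit 240) (nat_lit 5) (nat_lit 257) (nat_lit 5) (nat_lit 352) (nat_lit 345) (nat_lit 203)) (XT.nd (nat_lit 78) (nat_lit 0) (nat_lit 76) (XT.lf (nat_lit 76) (nat_lit 2531335888) (nat_lit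 0) (nat_lit 20281114628) (nat_lit 1292) (nat_lit 22021576705) (nat_lit 242) (nat_lit 5) (nat_lit 241) (nat_lit 5) (nat_lit 258) (nat_lit 5) (nat_lit 353) (nat_lit 345) (nat_lit 202)) (XT.lf (nat_lit 0) (nat_lit 28197296178) (nat_lit 1216) (nat_lit 4822987119) (nat_lit 1292) (nat_lit 13009436802) (nat_lit 242) (nat_lit 5) (nat_lit 258) (nat_lit 5) (nat_lit 259) (nat_lit 5) (nat_lit 354) (nat_lit 345) (nat_lit 201))))) (XT.nd (nat_lit 234) (nat_lit 1824) (nat_lit 0) (XT.nd (nat_lit 78) (nat_lit 1824) (nat_lit 0) (XT.lf (nat_lit 0) (nat_lit 34395024123) (nat_lit 1216) (nat_lit 12268796497) (nat_lit 76) (nat_lit 605069575) (nat_lit 243) (nat_lit 5) (nat_lit 259) (nat_lit 5) (nat_lit 244) (nat_lit 5) (nat_lit 355) (nat_lit 345) (nat_lit 200)) (XT.nd (nat_lit 78) (nat_lit 608) (nat_lit 0) (XT.lf (nat_lit 0) (nat_lit 28567345810) (nat_lit 1216) (nat_lit 12989970509) (nat_lit 1292) (nat_lit 6993063827)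 (nat_lit 227) (nat_lit 5) (nat_lit 243) (nat_lit 5) (nat_lit 244) (nat_lit 5) (nat_lit 356) (nat_lit 345) (nat_lit 199)) (XT.lf (nat_lit 0) (nat_lit 22020013448) (nat_lit 608) (nat_lit 27608722558) (nat_lit 684) (nat_lit 250679811) (nat_lit 219) (nat_lit 5) (nat_lit 227) (nat_lit 5) (nat_lit 228) (nat_lit 5) (nat_lit 357) (nat_lit 345) (nat_lit 198)))) (XT.nd (nat_lit 78) (nat_lit 1140) (nat_lit 0) (XT.lf (nat_lit 0) (nat_lit 7257790597) (nat_lit 684) (nat_lit 35966878482) (nat_lit 76) (nat_lit 8031399731) (nat_lit 210) (nat_lit 5) (nat_lit 219) (nat_lit 5) (nat_lit 211) (nat_lit 5) (nat_lit 358) (nat_lit 345) (nat_lit 197)) (XT.nd (nat_lit 78) (nat_lit 532) (nat_lit 0) (XT.lf (nat_lit 0) (nat_lit 8360631022) (nat_lit 608) (nat_lit 7421575676) (nat_lit 684) (nat_lit 36899903513) (nat_lit 202) (nat_lit 5) (nat_lit 210) (nat_lit 5) (nat_lit 211) (nat_lit 5) (nat_lit 359) (nat_lit 345) (nat_lit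 196)) (XT.lf (nat_lit 0) (nat_lit 1214853893) (nat_lit 532) (nat_lit 24190727086) (nat_lit 608) (nat_lit 28753691930) (nat_lit 195) (nat_lit 5) (nat_lit 202) (nat_lit 5) (nat_lit 203) (nat_lit 5) (nat_lit 360) (nat_lit 345) (nat_lit 195))))))))
noncomputable def xc114 : XT := (XT.nd (nat_lit 1872) (nat_lit 532) (nat_lit 0) (XT.nd (nat_lit 936) (nat_lit 3420) (nat_lit 0) (XT.nd (nat_lit 468) (nat_lit 2052) (nat_lit 0) (XT.nd (nat_lit 234) (nat_lit 1444) (nat_lit 0) (XT.nd (nat_lit 78) (nat_lit 1064) (nat_lit 0) (XT.lf (nat_lit 0) (nat_lit 36170786918) (nat_lit 608) (nat_lit 5952528862) (nat_lit 76) (nat_lit 13567159357) (nat_lit 195) (nat_lit 5) (nat_lit 203) (nat_lit 5) (nat_lit 196) (nat_lit 5) (nat_lit 361) (nat_lit 345) (nat_lit 194)) (XT.nd (nat_lit 78) (nat_lit 532) (nat_lit 0) (XT.lf (nat_lit 0) (nat_lit 44000613493) (nat_lit 532) (nat_lit 4138122373) (nat_lit 608) (nat_lit 9139568352)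 (nat_lit 188) (nat_lit 5) (nat_lit 195) (nat_lit 5) (nat_lit 196) (nat_lit 5) (nat_lit 362) (nat_lit 345) (nat_lit 193)) (XT.lf (nat_lit 0) (nat_lit 2501325654) (nat_lit 532) (nat_lit 20919838225) (nat_lit 76) (nat_lit 35500571484) (nat_lit 181) (nat_lit 5) (nat_lit 188) (nat_lit 5) (nat_lit 182) (nat_lit 5) (nat_lit 363) (nat_lit 345) (nat_lit 192)))) (XT.nd (nat_lit 78) (nat_lit 912) (nat_lit 0) (XT.lf (nat_lit 0) (nat_lit 15184474230) (nat_lit 608) (nat_lit 28827581432) (nat_lit 76) (nat_lit 16613091854) (nat_lit 174) (nat_lit 5) (nat_lit 182) (nat_lit 5) (nat_lit 175) (nat_lit 5) (nat_lit 364) (nat_lit 345) (nat_lit 191)) (XT.nd (nat_lit 78) (nat_lit 456) (nat_lit 0) (XT.lf (nat_lit 0) (nat_lit 25435803684) (nat_lit 456) (nat_lit 3761976067) (nat_lit 532) (nat_lit 33195071564) (nat_lit 168) (nat_lit 5) (nat_lit 174) (nat_lit 5) (nat_lit 175) (nat_lit 5) (nat_lit 365) (nat_lit 345) (nat_lit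 190)) (XT.lf (nat_lit 0) (nat_lit 18765143740) (nat_lit 456) (nat_lit 25994473281) (nat_lit 532) (nat_lit 19463888266) (nat_lit 162) (nat_lit 5) (nat_lit 168) (nat_lit 5) (nat_lit 169) (nat_lit 5) (nat_lit 366) (nat_lit 345) (nat_lit 189))))) (XT.nd (nat_lit 234) (nat_lit 1140) (nat_lit 0) (XT.nd (nat_lit 78) (nat_lit 532) (nat_lit 0) (XT.lf (nat_lit 0) (nat_lit 11945740113) (nat_lit 380) (nat_lit 49842960844) (nat_lit 456) (nat_lit 4336317287) (nat_lit 157) (nat_lit 5) (nat_lit 162) (nat_lit 5) (nat_lit 163) (nat_lit 5) (nat_lit 367) (nat_lit 345) (nat_lit 188)) (XT.nd (nat_lit 78) (nat_lit 0) (nat_lit 0) (XT.lf (nat_lit 0) (nat_lit 4774910724) (nat_lit 456) (nat_lit 7326078800) (nat_lit 532) (nat_lit 55993927303) (nat_lit 150) (nat_lit 5) (nat_lit 156) (nat_lit 5) (nat_lit 157) (nat_lit 5) (nat_lit 368) (nat_lit 345) (nat_lit 187)) (XT.lf (nat_lit 0) (nat_lit 30191185211) (nat_lit 532) (nat_lit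 2748248275) (nat_lit 76) (nat_lit 37194968501) (nat_lit 150) (nat_lit 5) (nat_lit 157) (nat_lit 5) (nat_lit 151) (nat_lit 5) (nat_lit 369) (nat_lit 345) (nat_lit 186)))) (XT.nd (nat_lit 78) (nat_lit 760) (nat_lit 0) (XT.lf (nat_lit 0) (nat_lit 49970299830) (nat_lit 456) (nat_lit 10387275548) (nat_lit 76) (nat_lit 11894754531) (nat_lit 145) (nat_lit 5) (nat_lit 151) (nat_lit 5) (nat_lit 146) (nat_lit 5) (nat_lit 370) (nat_lit 345) (nat_lit 185)) (XT.nd (nat_lit 78) (nat_lit 380) (nat_lit 0) (XT.lf (nat_lit 0) (nat_lit 56049611322) (nat_lit 380) (nat_lit 15586655007) (nat_lit 456) (nat_lit 2812951759) (nat_lit 140) (nat_lit 5) (nat_lit 145) (nat_lit 5) (nat_lit 146) (nat_lit 5) (nat_lit 371) (nat_lit 345) (nat_lit 184)) (XT.lf (nat_lit 0) (nat_lit 18182607462) (nat_lit 380) (nat_lit 26965973266) (nat_lit 76) (nat_lit 31575375337) (nat_lit 135) (nat_lit 5) (nat_lit 140) (nat_lit 5) (nat_lit 136)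 (nat_lit 5) (nat_lit 372) (nat_lit 345) (nat_lit 183)))))) (XT.nd (nat_lit 468) (nat_lit 1368) (nat_lit 0) (XT.nd (nat_lit 234) (nat_lit 988) (nat_lit 0) (XT.nd (nat_lit 78) (nat_lit 684) (nat_lit 0) (XT.lf (nat_lit 0) (nat_lit 40955217044) (nat_lit 456) (nat_lit 35855810291) (nat_lit 76) (nat_lit 2277005273) (nat_lit 130) (nat_lit 5) (nat_lit 136) (nat_lit 5) (nat_lit 131) (nat_lit 5) (nat_lit 373) (nat_lit 345) (nat_lit 182)) (XT.nd (nat_lit 78) (nat_lit 380) (nat_lit 0) (XT.lf (nat_lit 0) (nat_lit 36187109200) (nat_lit 304) (nat_lit 29761478318) (nat_lit 380) (nat_lit 15589262171) (nat_lit 126) (nat_lit 5) (nat_lit 130) (nat_lit 5) (nat_lit 131) (nat_lit 5) (nat_lit 374) (nat_lit 345) (nat_lit 181)) (XT.lf (nat_lit 0) (nat_lit 8769239842) (nat_lit 380) (nat_lit 55320533915) (nat_lit 76) (nat_lit 19992689839) (nat_lit 121) (nat_lit 5) (nat_lit 126) (nat_lit 5) (nat_lit 122) (nat_lit 5) (nat_lit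 375) (nat_lit 345) (nat_lit 180)))) (XT.nd (nat_lit 78) (nat_lit 684) (nat_lit 0) (XT.lf (nat_lit 0) (nat_lit 20727355674) (nat_lit 304) (nat_lit 14268339434) (nat_lit 380) (nat_lit 51724810023) (nat_lit 117) (nat_lit 5) (nat_lit 121) (nat_lit 5) (nat_lit 122) (nat_lit 5) (nat_lit 376) (nat_lit 345) (nat_lit 179)) (XT.nd (nat_lit 78) (nat_lit 380) (nat_lit 0) (XT.lf (nat_lit 0) (nat_lit 12123183805) (nat_lit 304) (nat_lit 51466032153) (nat_lit 380) (nat_lit 25869561023) (nat_lit 113) (nat_lit 5) (nat_lit 117) (nat_lit 5) (nat_lit 118) (nat_lit 5) (nat_lit 377) (nat_lit 345) (nat_lit 178)) (XT.lf (nat_lit 0) (nat_lit 2121426874) (nat_lit 380) (nat_lit 89211321385) (nat_lit 76) (nat_lit 974808262) (nat_lit 108) (nat_lit 5) (nat_lit 113) (nat_lit 5) (nat_lit 109) (nat_lit 5) (nat_lit 378) (nat_lit 345) (nat_lit 177))))) (XT.nd (nat_lit 234) (nat_lit 836) (nat_lit 0) (XT.nd (nat_lit 78) (nat_lit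 532) (nat_lit 0) (XT.lf (nat_lit 0) (nat_lit 32303832596) (nat_lit 380) (nat_lit 6899889392) (nat_lit 76) (nat_lit 56047562764) (nat_lit 108) (nat_lit 5) (nat_lit 113) (nat_lit 5) (nat_lit 109) (nat_lit 5) (nat_lit 379) (nat_lit 345) (nat_lit 176)) (XT.nd (nat_lit 78) (nat_lit 228) (nat_lit 0) (XT.lf (nat_lit 0) (nat_lit 64930574723) (nat_lit 380) (nat_lit 17368231147) (nat_lit 76) (nat_lit 16015337479) (nat_lit 104) (nat_lit 5) (nat_lit 109) (nat_lit 5) (nat_lit 105) (nat_lit 5) (nat_lit 380) (nat_lit 345) (nat_lit 175)) (XT.lf (nat_lit 0) (nat_lit 72822659935) (nat_lit 228) (nat_lit 27532022940) (nat_lit 304) (nat_lit 1140481550) (nat_lit 101) (nat_lit 5) (nat_lit 104) (nat_lit 5) (nat_lit 105) (nat_lit 5) (nat_lit 381) (nat_lit 345) (nat_lit 174)))) (XT.nd (nat_lit 78) (nat_lit 456) (nat_lit 0) (XT.lf (nat_lit 0) (nat_lit 33169740210) (nat_lit 380) (nat_lit 41114670136) (nat_lit 76) (nat_lit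 30508591473) (nat_lit 96) (nat_lit 5) (nat_lit 101) (nat_lit 5) (nat_lit 97) (nat_lit 5) (nat_lit 382) (nat_lit 345) (nat_lit 173)) (XT.nd (nat_lit 78) (nat_lit 228) (nat_lit 0) (XT.lf (nat_lit 0) (nat_lit 53753515711) (nat_lit 228) (nat_lit 16509930056) (nat_lit 304) (nat_lit 37959200138) (nat_lit 93) (nat_lit 5) (nat_lit 96) (nat_lit 5) (nat_lit 97) (nat_lit 5) (nat_lit 383) (nat_lit 345) (nat_lit 172)) (XT.lf (nat_lit 0) (nat_lit 42818062803) (nat_lit 228) (nat_lit 67655923188) (nat_lit 304) (nat_lit 1311922073) (nat_lit 90) (nat_lit 5) (nat_lit 93) (nat_lit 5) (nat_lit 94) (nat_lit 5) (nat_lit 384) (nat_lit 345) (nat_lit 171))))))) (XT.nd (nat_lit 44616) (nat_lit 0) (nat_lit 6004) (XT.nd (nat_lit 44148) (nat_lit 0) (nat_lit 11780) (XT.nd (nat_lit 43914) (nat_lit 0) (nat_lit 11628) (XT.nd (nat_lit 78) (nat_lit 228) (nat_lit 0) (XT.lf (nat_lit 0) (nat_lit 30664217196) (nat_lit 228) (nat_lit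 6804619667) (nat_lit 304) (nat_lit 78016986634) (nat_lit 86) (nat_lit 5) (nat_lit 89) (nat_lit 5) (nat_lit 90) (nat_lit 5) (nat_lit 385) (nat_lit 345) (nat_lit 170)) (XT.nd (nat_lit 43758) (nat_lit 0) (nat_lit 11552) (XT.lf (nat_lit 0) (nat_lit 17132947024) (nat_lit 228) (nat_lit 62458030348) (nat_lit 304) (nat_lit 39736483673) (nat_lit 83) (nat_lit 5) (nat_lit 86) (nat_lit 5) (nat_lit 87) (nat_lit 5) (nat_lit 386) (nat_lit 345) (nat_lit 169)) (XT.lf (nat_lit 0) (nat_lit 2162222984) (nat_lit 1292) (nat_lit 8532350819) (nat_lit 1292) (nat_lit 8532350819) (nat_lit 235) (nat_lit 3) (nat_lit 252) (nat_lit 3) (nat_lit 252) (nat_lit 5) (nat_lit 346) (nat_lit 346) (nat_lit 208)))) (XT.nd (nat_lit 78) (nat_lit 0) (nat_lit 76) (XT.lf (nat_lit 0) (nat_lit 4725633102) (nat_lit 1216) (nat_lit 25659702899) (nat_lit 1292) (nat_lit 9021030084) (nat_lit 236) (nat_lit 5) (nat_lit 252) (nat_lit 5) (nat_lit 253)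 (nat_lit 5) (nat_lit 347) (nat_lit 346) (nat_lit 207)) (XT.nd (nat_lit 78) (nat_lit 0) (nat_lit 0) (XT.lf (nat_lit 0) (nat_lit 5596210631) (nat_lit 1216) (nat_lit 34446699895) (nat_lit 1292) (nat_lit 350120685) (nat_lit 237) (nat_lit 5) (nat_lit 253) (nat_lit 5) (nat_lit 254) (nat_lit 5) (nat_lit 348) (nat_lit 346) (nat_lit 206)) (XT.lf (nat_lit 0) (nat_lit 7079389054) (nat_lit 1216) (nat_lit 2064177008) (nat_lit 1292) (nat_lit 32268393633) (nat_lit 237) (nat_lit 5) (nat_lit 253) (nat_lit 5) (nat_lit 254) (nat_lit 5) (nat_lit 349) (nat_lit 346) (nat_lit 205))))) (XT.nd (nat_lit 234) (nat_lit 0) (nat_lit 152) (XT.nd (nat_lit 78) (nat_lit 0) (nat_lit 76) (XT.lf (nat_lit 0) (nat_lit 9172745264) (nat_lit 1216) (nat_lit 10129148947) (nat_lit 1292) (nat_lit 23163861981) (nat_lit 238) (nat_lit 5) (nat_lit 254) (nat_lit 5) (nat_lit 255) (nat_lit 5) (nat_lit 350) (nat_lit 346) (nat_lit 204)) (XT.nd (nat_lit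 78) (nat_lit 0) (nat_lit 76) (XT.lf (nat_lit 0) (nat_lit 11854781189) (nat_lit 1216) (nat_lit 18364300796) (nat_lit 1292) (nat_lit 13338642224) (nat_lit 239) (nat_lit 5) (nat_lit 255) (nat_lit 5) (nat_lit 256) (nat_lit 5) (nat_lit 351) (nat_lit 346) (nat_lit 203)) (XT.lf (nat_lit 0) (nat_lit 15166693047) (nat_lit 1216) (nat_lit 26772891338) (nat_lit 1292) (nat_lit 2749834972) (nat_lit 240) (nat_lit 5) (nat_lit 256) (nat_lit 5) (nat_lit 257) (nat_lit 5) (nat_lit 352) (nat_lit 346) (nat_lit 202)))) (XT.nd (nat_lit 78) (nat_lit 0) (nat_lit 76) (XT.lf (nat_lit 76) (nat_lit 10416832042) (nat_lit 0) (nat_lit 8819794167) (nat_lit 1292) (nat_lit 26623302143) (nat_lit 241) (nat_lit 5) (nat_lit 240) (nat_lit 5) (nat_lit 257) (nat_lit 5) (nat_lit 353) (nat_lit 346) (nat_lit 201)) (XT.nd (nat_lit 78) (nat_lit 0) (nat_lit 76) (XT.lf (nat_lit 76) (nat_lit 2743396080) (nat_lit 0) (nat_lit 21317392473) (nat_lit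 1292) (nat_lit 23011654041) (nat_lit 242) (nat_lit 5) (nat_lit 241) (nat_lit 5) (nat_lit 258) (nat_lit 5) (nat_lit 354) (nat_lit 346) (nat_lit 200)) (XT.lf (nat_lit 0) (nat_lit 29709543747) (nat_lit 1216) (nat_lit 4979381239) (nat_lit 1292) (nat_lit 13639157709) (nat_lit 242) (nat_lit 5) (nat_lit 258) (nat_lit 5) (nat_lit 259) (nat_lit 5) (nat_lit 355) (nat_lit 346) (nat_lit 199)))))) (XT.nd (nat_lit 468) (nat_lit 2508) (nat_lit 0) (XT.nd (nat_lit 234) (nat_lit 1824) (nat_lit 0) (XT.nd (nat_lit 78) (nat_lit 1824) (nat_lit 0) (XT.lf (nat_lit 0) (nat_lit 36212920542) (nat_lit 1216) (nat_lit 12796758618) (nat_lit 76) (nat_lit 619661733) (nat_lit 243) (nat_lit 5) (nat_lit 259) (nat_lit 5) (nat_lit 244) (nat_lit 5) (nat_lit 356) (nat_lit 346) (nat_lit 198)) (XT.nd (nat_lit 78) (nat_lit 608) (nat_lit 0) (XT.lf (nat_lit 0) (nat_lit 30078740603) (nat_lit 1216) (nat_lit 13650711275) (nat_lit 1292) (nat_lit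 7245572084) (nat_lit 227) (nat_lit 5) (nat_lit 243) (nat_lit 5) (nat_lit 244) (nat_lit 5) (nat_lit 357) (nat_lit 346) (nat_lit 197)) (XT.lf (nat_lit 0) (nat_lit 23204559401) (nat_lit 608) (nat_lit 28996094281) (nat_lit 684) (nat_lit 169973644) (nat_lit 219) (nat_lit 5) (nat_lit 227) (nat_lit 5) (nat_lit 228) (nat_lit 5) (nat_lit 358) (nat_lit 346) (nat_lit 196)))) (XT.nd (nat_lit 78) (nat_lit 1140) (nat_lit 0) (XT.lf (nat_lit 0) (nat_lit 7708497782) (nat_lit 684) (nat_lit 37679537768) (nat_lit 76) (nat_lit 8428160694) (nat_lit 210) (nat_lit 5) (nat_lit 219) (nat_lit 5) (nat_lit 211) (nat_lit 5) (nat_lit 359) (nat_lit 346) (nat_lit 195)) (XT.nd (nat_lit 78) (nat_lit 532) (nat_lit 0) (XT.lf (nat_lit 0) (nat_lit 8861891078) (nat_lit 608) (nat_lit 7793861860) (nat_lit 684) (nat_lit 38657890205) (nat_lit 202) (nat_lit 5) (nat_lit 210) (nat_lit 5) (nat_lit 211) (nat_lit 5) (nat_lit 360) (nat_lit 346)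 (nat_lit 194)) (XT.lf (nat_lit 0) (nat_lit 1358949473) (nat_lit 532) (nat_lit 25398115888) (nat_lit 608) (nat_lit 30107697413) (nat_lit 195) (nat_lit 5) (nat_lit 202) (nat_lit 5) (nat_lit 203) (nat_lit 5) (nat_lit 361) (nat_lit 346) (nat_lit 193))))) (XT.nd (nat_lit 234) (nat_lit 1444) (nat_lit 0) (XT.nd (nat_lit 78) (nat_lit 1064) (nat_lit 0) (XT.lf (nat_lit 0) (nat_lit 38056684337) (nat_lit 608) (nat_lit 6168435285) (nat_lit 76) (nat_lit 14247522702) (nat_lit 195) (nat_lit 5) (nat_lit 203) (nat_lit 5) (nat_lit 196) (nat_lit 5) (nat_lit 362) (nat_lit 346) (nat_lit 192)) (XT.nd (nat_lit 78) (nat_lit 532) (nat_lit 0) (XT.lf (nat_lit 0) (nat_lit 46280021701) (nat_lit 532) (nat_lit 4340088340) (nat_lit 608) (nat_lit 9519842146) (nat_lit 188) (nat_lit 5) (nat_lit 195) (nat_lit 5) (nat_lit 196) (nat_lit 5) (nat_lit 363) (nat_lit 346) (nat_lit 191)) (XT.lf (nat_lit 0) (nat_lit 2698833549) (nat_lit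 532) (nat_lit 21885098537) (nat_lit 76) (nat_lit 37281685247) (nat_lit 181) (nat_lit 5) (nat_lit 188) (nat_lit 5) (nat_lit 182) (nat_lit 5) (nat_lit 364) (nat_lit 346) (nat_lit 190)))) (XT.nd (nat_lit 78) (nat_lit 912) (nat_lit 0) (XT.lf (nat_lit 0) (nat_lit 16013527107) (nat_lit 608) (nat_lit 30188503993) (nat_lit 76) (nat_lit 17452248868) (nat_lit 174) (nat_lit 5) (nat_lit 182) (nat_lit 5) (nat_lit 175) (nat_lit 5) (nat_lit 365) (nat_lit 346) (nat_lit 189)) (XT.nd (nat_lit 78) (nat_lit 456) (nat_lit 0) (XT.lf (nat_lit 0) (nat_lit 26785744109) (nat_lit 456) (nat_lit 3939179824) (nat_lit 532) (nat_lit 34785523674) (nat_lit 168) (nat_lit 5) (nat_lit 174) (nat_lit 5) (nat_lit 175) (nat_lit 5) (nat_lit 366) (nat_lit 346) (nat_lit 188)) (XT.lf (nat_lit 0) (nat_lit 19781196896) (nat_lit 456) (nat_lit 27281301107) (nat_lit 532) (nat_lit 20370208289) (nat_lit 162) (nat_lit 5) (nat_lit 168) (nat_lit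 5) (nat_lit 169) (nat_lit 5) (nat_lit 367) (nat_lit 346) (nat_lit 187))))))))
noncomputable def xc115 : XT := (XT.nd (nat_lit 45630) (nat_lit 0) (nat_lit 3344) (XT.nd (nat_lit 936) (nat_lit 1672) (nat_lit 0) (XT.nd (nat_lit 468) (nat_lit 2052) (nat_lit 0) (XT.nd (nat_lit 234) (nat_lit 1140) (nat_lit 0) (XT.nd (nat_lit 78) (nat_lit 532) (nat_lit 0) (XT.lf (nat_lit 0) (nat_lit 12620390340) (nat_lit 380) (nat_lit 52320417037) (nat_lit 456) (nat_lit 4488555682) (nat_lit 157) (nat_lit 5) (nat_lit 162) (nat_lit 5) (nat_lit 163) (nat_lit 5) (nat_lit 368) (nat_lit 346) (nat_lit 186)) (XT.nd (nat_lit 78) (nat_lit 0) (nat_lit 0) (XT.lf (nat_lit 0) (nat_lit 5090050376) (nat_lit 456) (nat_lit 7677025190) (nat_lit 532) (nat_lit 58730732004) (nat_lit 150) (nat_lit 5) (nat_lit 156) (nat_lit 5) (nat_lit 157) (nat_lit 5) (nat_lit 369) (nat_lit 346) (nat_lit 185)) (XT.lf (nat_lit 0) (nat_lit 31759015131) (nat_lit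 532) (nat_lit 2811278224) (nat_lit 76) (nat_lit 39069057753) (nat_lit 150) (nat_lit 5) (nat_lit 157) (nat_lit 5) (nat_lit 151) (nat_lit 5) (nat_lit 370) (nat_lit 346) (nat_lit 184)))) (XT.nd (nat_lit 78) (nat_lit 760) (nat_lit 0) (XT.lf (nat_lit 0) (nat_lit 52525159580) (nat_lit 456) (nat_lit 10832835915) (nat_lit 76) (nat_lit 12505238797) (nat_lit 145) (nat_lit 5) (nat_lit 151) (nat_lit 5) (nat_lit 146) (nat_lit 5) (nat_lit 371) (nat_lit 346) (nat_lit 183)) (XT.nd (nat_lit 78) (nat_lit 380) (nat_lit 0) (XT.lf (nat_lit 0) (nat_lit 58923779738) (nat_lit 380) (nat_lit 16348650689) (nat_lit 456) (nat_lit 2897597308) (nat_lit 140) (nat_lit 5) (nat_lit 145) (nat_lit 5) (nat_lit 146) (nat_lit 5) (nat_lit 372) (nat_lit 346) (nat_lit 182)) (XT.lf (nat_lit 0) (nat_lit 19144882617) (nat_lit 380) (nat_lit 28242120095) (nat_lit 76) (nat_lit 33171537641) (nat_lit 135) (nat_lit 5) (nat_lit 140) (nat_lit 5)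 (nat_lit 136) (nat_lit 5) (nat_lit 373) (nat_lit 346) (nat_lit 181))))) (XT.nd (nat_lit 234) (nat_lit 988) (nat_lit 0) (XT.nd (nat_lit 78) (nat_lit 684) (nat_lit 0) (XT.lf (nat_lit 0) (nat_lit 43054446339) (nat_lit 456) (nat_lit 37577140976) (nat_lit 76) (nat_lit 2409284613) (nat_lit 130) (nat_lit 5) (nat_lit 136) (nat_lit 5) (nat_lit 131) (nat_lit 5) (nat_lit 374) (nat_lit 346) (nat_lit 180)) (XT.nd (nat_lit 78) (nat_lit 380) (nat_lit 0) (XT.lf (nat_lit 0) (nat_lit 38065876108) (nat_lit 304) (nat_lit 31229825575) (nat_lit 380) (nat_lit 16317532559) (nat_lit 126) (nat_lit 5) (nat_lit 130) (nat_lit 5) (nat_lit 131) (nat_lit 5) (nat_lit 375) (nat_lit 346) (nat_lit 179)) (XT.lf (nat_lit 0) (nat_lit 9256354751) (nat_lit 380) (nat_lit 58016873943) (nat_lit 76) (nat_lit 21011882415) (nat_lit 121) (nat_lit 5) (nat_lit 126) (nat_lit 5) (nat_lit 122) (nat_lit 5) (nat_lit 376) (nat_lit 346) (nat_lit 178))))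 (XT.nd (nat_lit 78) (nat_lit 684) (nat_lit 0) (XT.lf (nat_lit 0) (nat_lit 21831412571) (nat_lit 304) (nat_lit 14961054074) (nat_lit 380) (nat_lit 54262638827) (nat_lit 117) (nat_lit 5) (nat_lit 121) (nat_lit 5) (nat_lit 122) (nat_lit 5) (nat_lit 377) (nat_lit 346) (nat_lit 177)) (XT.nd (nat_lit 78) (nat_lit 380) (nat_lit 0) (XT.lf (nat_lit 0) (nat_lit 12796282585) (nat_lit 304) (nat_lit 54017976478) (nat_lit 380) (nat_lit 27116074715) (nat_lit 113) (nat_lit 5) (nat_lit 117) (nat_lit 5) (nat_lit 118) (nat_lit 5) (nat_lit 378) (nat_lit 346) (nat_lit 176)) (XT.lf (nat_lit 0) (nat_lit 2272193138) (nat_lit 380) (nat_lit 93604820652) (nat_lit 76) (nat_lit 1044566226) (nat_lit 108) (nat_lit 5) (nat_lit 113) (nat_lit 5) (nat_lit 109) (nat_lit 5) (nat_lit 379) (nat_lit 346) (nat_lit 175)))))) (XT.nd (nat_lit 468) (nat_lit 304) (nat_lit 0) (XT.nd (nat_lit 234) (nat_lit 836) (nat_lit 0) (XT.nd (nat_lit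 78) (nat_lit 532) (nat_lit 0) (XT.lf (nat_lit 0) (nat_lit 33961590817) (nat_lit 380) (nat_lit 7181010716) (nat_lit 76) (nat_lit 58869957617) (nat_lit 108) (nat_lit 5) (nat_lit 113) (nat_lit 5) (nat_lit 109) (nat_lit 5) (nat_lit 380) (nat_lit 346) (nat_lit 174)) (XT.nd (nat_lit 78) (nat_lit 228) (nat_lit 0) (XT.lf (nat_lit 0) (nat_lit 68218440421) (nat_lit 380) (nat_lit 18173555123) (nat_lit 76) (nat_lit 16836602633) (nat_lit 104) (nat_lit 5) (nat_lit 109) (nat_lit 5) (nat_lit 105) (nat_lit 5) (nat_lit 381) (nat_lit 346) (nat_lit 173)) (XT.lf (nat_lit 0) (nat_lit 76525072120) (nat_lit 228) (nat_lit 28887302487) (nat_lit 304) (nat_lit 1156337663) (nat_lit 101) (nat_lit 5) (nat_lit 104) (nat_lit 5) (nat_lit 105) (nat_lit 5) (nat_lit 382) (nat_lit 346) (nat_lit 172)))) (XT.nd (nat_lit 78) (nat_lit 456) (nat_lit 0) (XT.lf (nat_lit 0) (nat_lit 34867454167) (nat_lit 380) (nat_lit 43109112947) (nat_lit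 76) (nat_lit 32054897217) (nat_lit 96) (nat_lit 5) (nat_lit 101) (nat_lit 5) (nat_lit 97) (nat_lit 5) (nat_lit 383) (nat_lit 346) (nat_lit 171)) (XT.nd (nat_lit 78) (nat_lit 228) (nat_lit 0) (XT.lf (nat_lit 0) (nat_lit 56500725307) (nat_lit 228) (nat_lit 17313824020) (nat_lit 304) (nat_lit 39818080678) (nat_lit 93) (nat_lit 5) (nat_lit 96) (nat_lit 5) (nat_lit 97) (nat_lit 5) (nat_lit 384) (nat_lit 346) (nat_lit 170)) (XT.lf (nat_lit 0) (nat_lit 45017706807) (nat_lit 228) (nat_lit 71016865926) (nat_lit 304) (nat_lit 1339514342) (nat_lit 90) (nat_lit 5) (nat_lit 93) (nat_lit 5) (nat_lit 94) (nat_lit 5) (nat_lit 385) (nat_lit 346) (nat_lit 169))))) (XT.nd (nat_lit 43992) (nat_lit 0) (nat_lit 11476) (XT.nd (nat_lit 43836) (nat_lit 0) (nat_lit 11324) (XT.lf (nat_lit 0) (nat_lit 32255214672) (nat_lit 228) (nat_lit 7123107366) (nat_lit 304) (nat_lit 81880702302) (nat_lit 86) (nat_lit 5) (nat_lit 89)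 (nat_lit 5) (nat_lit 90) (nat_lit 5) (nat_lit 386) (nat_lit 346) (nat_lit 168)) (XT.nd (nat_lit 78) (nat_lit 0) (nat_lit 76) (XT.lf (nat_lit 0) (nat_lit 2340833502) (nat_lit 1292) (nat_lit 8922642918) (nat_lit 1292) (nat_lit 8922642918) (nat_lit 235) (nat_lit 3) (nat_lit 252) (nat_lit 3) (nat_lit 252) (nat_lit 5) (nat_lit 347) (nat_lit 347) (nat_lit 206)) (XT.lf (nat_lit 0) (nat_lit 5096258618) (nat_lit 1216) (nat_lit 26867382211) (nat_lit 1292) (nat_lit 9408943658) (nat_lit 236) (nat_lit 5) (nat_lit 252) (nat_lit 5) (nat_lit 253) (nat_lit 5) (nat_lit 348) (nat_lit 347) (nat_lit 205)))) (XT.nd (nat_lit 78) (nat_lit 0) (nat_lit 0) (XT.lf (nat_lit 0) (nat_lit 6004137309) (nat_lit 1216) (nat_lit 36091428396) (nat_lit 1292) (nat_lit 313207309) (nat_lit 237) (nat_lit 5) (nat_lit 253) (nat_lit 5) (nat_lit 254) (nat_lit 5) (nat_lit 349) (nat_lit 347) (nat_lit 204)) (XT.nd (nat_lit 78) (nat_lit 0) (nat_lit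 76) (XT.lf (nat_lit 0) (nat_lit 7555373884) (nat_lit 1216) (nat_lit 2093474913) (nat_lit 1292) (nat_lit 33829985305) (nat_lit 237) (nat_lit 5) (nat_lit 253) (nat_lit 5) (nat_lit 254) (nat_lit 5) (nat_lit 350) (nat_lit 347) (nat_lit 203)) (XT.lf (nat_lit 0) (nat_lit 9747844202) (nat_lit 1216) (nat_lit 10559813565) (nat_lit 1292) (nat_lit 24277832271) (nat_lit 238) (nat_lit 5) (nat_lit 254) (nat_lit 5) (nat_lit 255) (nat_lit 5) (nat_lit 351) (nat_lit 347) (nat_lit 202))))))) (XT.nd (nat_lit 936) (nat_lit 4940) (nat_lit 0) (XT.nd (nat_lit 468) (nat_lit 3344) (nat_lit 0) (XT.nd (nat_lit 234) (nat_lit 0) (nat_lit 152) (XT.nd (nat_lit 78) (nat_lit 0) (nat_lit 76) (XT.lf (nat_lit 0) (nat_lit 12558778501) (nat_lit 1216) (nat_lit 19205124326) (nat_lit 1292) (nat_lit 13968312595) (nat_lit 239) (nat_lit 5) (nat_lit 255) (nat_lit 5) (nat_lit 256) (nat_lit 5) (nat_lit 352) (nat_lit 347) (nat_lit 201)) (XT.nd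 (nat_lit 78) (nat_lit 0) (nat_lit 0) (XT.lf (nat_lit 0) (nat_lit 16031407659) (nat_lit 1216) (nat_lit 28032804907) (nat_lit 1292) (nat_lit 2856431836) (nat_lit 240) (nat_lit 5) (nat_lit 256) (nat_lit 5) (nat_lit 257) (nat_lit 5) (nat_lit 353) (nat_lit 347) (nat_lit 200)) (XT.lf (nat_lit 76) (nat_lit 11014147834) (nat_lit 0) (nat_lit 9286359050) (nat_lit 1292) (nat_lit 27849304478) (nat_lit 241) (nat_lit 5) (nat_lit 240) (nat_lit 5) (nat_lit 257) (nat_lit 5) (nat_lit 354) (nat_lit 347) (nat_lit 199)))) (XT.nd (nat_lit 78) (nat_lit 0) (nat_lit 76) (XT.lf (nat_lit 76) (nat_lit 2958110916) (nat_lit 0) (nat_lit 22403418208) (nat_lit 1292) (nat_lit 24061555111) (nat_lit 242) (nat_lit 5) (nat_lit 241) (nat_lit 5) (nat_lit 258) (nat_lit 5) (nat_lit 355) (nat_lit 347) (nat_lit 198)) (XT.nd (nat_lit 78) (nat_lit 0) (nat_lit 76) (XT.lf (nat_lit 0) (nat_lit 31287885116) (nat_lit 1216) (nat_lit 5151474802)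 (nat_lit 1292) (nat_lit 14302293887) (nat_lit 242) (nat_lit 5) (nat_lit 258) (nat_lit 5) (nat_lit 259) (nat_lit 5) (nat_lit 356) (nat_lit 347) (nat_lit 197)) (XT.lf (nat_lit 0) (nat_lit 38112587171) (nat_lit 1216) (nat_lit 13359065751) (nat_lit 76) (nat_lit 636439541) (nat_lit 243) (nat_lit 5) (nat_lit 259) (nat_lit 5) (nat_lit 244) (nat_lit 5) (nat_lit 357) (nat_lit 347) (nat_lit 196))))) (XT.nd (nat_lit 234) (nat_lit 1140) (nat_lit 0) (XT.nd (nat_lit 78) (nat_lit 1292) (nat_lit 0) (XT.lf (nat_lit 0) (nat_lit 31657986025) (nat_lit 1216) (nat_lit 14343443883) (nat_lit 1292) (nat_lit 7519737369) (nat_lit 227) (nat_lit 5) (nat_lit 243) (nat_lit 5) (nat_lit 244) (nat_lit 5) (nat_lit 358) (nat_lit 347) (nat_lit 195)) (XT.nd (nat_lit 78) (nat_lit 684) (nat_lit 0) (XT.lf (nat_lit 0) (nat_lit 24440565403) (nat_lit 608) (nat_lit 30452189784) (nat_lit 684) (nat_lit 93900755) (nat_lit 219) (nat_lit 5)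 (nat_lit 227) (nat_lit 5) (nat_lit 228) (nat_lit 5) (nat_lit 359) (nat_lit 347) (nat_lit 194)) (XT.lf (nat_lit 0) (nat_lit 8173575873) (nat_lit 684) (nat_lit 39485796165) (nat_lit 76) (nat_lit 8845206803) (nat_lit 210) (nat_lit 5) (nat_lit 219) (nat_lit 5) (nat_lit 211) (nat_lit 5) (nat_lit 360) (nat_lit 347) (nat_lit 193)))) (XT.nd (nat_lit 78) (nat_lit 532) (nat_lit 0) (XT.lf (nat_lit 0) (nat_lit 9380476338) (nat_lit 608) (nat_lit 8184650101) (nat_lit 684) (nat_lit 40511865456) (nat_lit 202) (nat_lit 5) (nat_lit 210) (nat_lit 5) (nat_lit 211) (nat_lit 5) (nat_lit 361) (nat_lit 347) (nat_lit 192)) (XT.nd (nat_lit 78) (nat_lit 0) (nat_lit 0) (XT.lf (nat_lit 0) (nat_lit 1502500470) (nat_lit 532) (nat_lit 26666073789) (nat_lit 608) (nat_lit 31537182862) (nat_lit 195) (nat_lit 5) (nat_lit 202) (nat_lit 5) (nat_lit 203) (nat_lit 5) (nat_lit 362) (nat_lit 347) (nat_lit 191)) (XT.lf (nat_lit 0) (nat_lit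 40029684606) (nat_lit 608) (nat_lit 6402734582) (nat_lit 76) (nat_lit 14961717773) (nat_lit 195) (nat_lit 5) (nat_lit 203) (nat_lit 5) (nat_lit 196) (nat_lit 5) (nat_lit 363) (nat_lit 347) (nat_lit 190)))))) (XT.nd (nat_lit 468) (nat_lit 2052) (nat_lit 0) (XT.nd (nat_lit 234) (nat_lit 1292) (nat_lit 0) (XT.nd (nat_lit 78) (nat_lit 1064) (nat_lit 0) (XT.lf (nat_lit 0) (nat_lit 48666020548) (nat_lit 532) (nat_lit 4552611893) (nat_lit 608) (nat_lit 9926260898) (nat_lit 188) (nat_lit 5) (nat_lit 195) (nat_lit 5) (nat_lit 196) (nat_lit 5) (nat_lit 364) (nat_lit 347) (nat_lit 189)) (XT.nd (nat_lit 78) (nat_lit 532) (nat_lit 0) (XT.lf (nat_lit 0) (nat_lit 2899481905) (nat_lit 532) (nat_lit 22906127522) (nat_lit 76) (nat_lit 39151288955) (nat_lit 181) (nat_lit 5) (nat_lit 188) (nat_lit 5) (nat_lit 182) (nat_lit 5) (nat_lit 365) (nat_lit 347) (nat_lit 188)) (XT.lf (nat_lit 0) (nat_lit 16877540573) (nat_lit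 608) (nat_lit 31624952766) (nat_lit 76) (nat_lit 18332573259) (nat_lit 174) (nat_lit 5) (nat_lit 182) (nat_lit 5) (nat_lit 175) (nat_lit 5) (nat_lit 366) (nat_lit 347) (nat_lit 187)))) (XT.nd (nat_lit 78) (nat_lit 836) (nat_lit 0) (XT.lf (nat_lit 0) (nat_lit 28195915887) (nat_lit 456) (nat_lit 4126256688) (nat_lit 532) (nat_lit 36461941383) (nat_lit 168) (nat_lit 5) (nat_lit 174) (nat_lit 5) (nat_lit 175) (nat_lit 5) (nat_lit 367) (nat_lit 347) (nat_lit 186)) (XT.nd (nat_lit 78) (nat_lit 380) (nat_lit 0) (XT.lf (nat_lit 0) (nat_lit 20840819979) (nat_lit 456) (nat_lit 28633669257) (nat_lit 532) (nat_lit 21328061660) (nat_lit 162) (nat_lit 5) (nat_lit 168) (nat_lit 5) (nat_lit 169) (nat_lit 5) (nat_lit 368) (nat_lit 347) (nat_lit 185)) (XT.lf (nat_lit 0) (nat_lit 13321580580) (nat_lit 380) (nat_lit 54923111947) (nat_lit 456) (nat_lit 4654409797) (nat_lit 157) (nat_lit 5) (nat_lit 162) (nat_lit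 5) (nat_lit 163) (nat_lit 5) (nat_lit 369) (nat_lit 347) (nat_lit 184))))) (XT.nd (nat_lit 234) (nat_lit 1140) (nat_lit 0) (XT.nd (nat_lit 78) (nat_lit 380) (nat_lit 0) (XT.lf (nat_lit 0) (nat_lit 5413844611) (nat_lit 456) (nat_lit 8046946699) (nat_lit 532) (nat_lit 61610224010) (nat_lit 150) (nat_lit 5) (nat_lit 156) (nat_lit 5) (nat_lit 157) (nat_lit 5) (nat_lit 370) (nat_lit 347) (nat_lit 183)) (XT.nd (nat_lit 78) (nat_lit 380) (nat_lit 0) (XT.lf (nat_lit 0) (nat_lit 33399819094) (nat_lit 532) (nat_lit 2884375046) (nat_lit 76) (nat_lit 41035518194) (nat_lit 150) (nat_lit 5) (nat_lit 157) (nat_lit 5) (nat_lit 151) (nat_lit 5) (nat_lit 371) (nat_lit 347) (nat_lit 182)) (XT.lf (nat_lit 0) (nat_lit 55202523916) (nat_lit 456) (nat_lit 11307535843) (nat_lit 76) (nat_lit 13144783312) (nat_lit 145) (nat_lit 5) (nat_lit 151) (nat_lit 5) (nat_lit 146) (nat_lit 5) (nat_lit 372) (nat_lit 347) (nat_lit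 181)))) (XT.nd (nat_lit 78) (nat_lit 760) (nat_lit 0) (XT.lf (nat_lit 0) (nat_lit 61934991718) (nat_lit 380) (nat_lit 17150357992) (nat_lit 456) (nat_lit 2991681674) (nat_lit 140) (nat_lit 5) (nat_lit 145) (nat_lit 5) (nat_lit 146) (nat_lit 5) (nat_lit 373) (nat_lit 347) (nat_lit 180)) (XT.nd (nat_lit 78) (nat_lit 380) (nat_lit 0) (XT.lf (nat_lit 0) (nat_lit 20150330632) (nat_lit 380) (nat_lit 29588782260) (nat_lit 76) (nat_lit 34845890975) (nat_lit 135) (nat_lit 5) (nat_lit 140) (nat_lit 5) (nat_lit 136) (nat_lit 5) (nat_lit 374) (nat_lit 347) (nat_lit 179)) (XT.lf (nat_lit 0) (nat_lit 45253852050) (nat_lit 456) (nat_lit 39391181852) (nat_lit 76) (nat_lit 2546464559) (nat_lit 130) (nat_lit 5) (nat_lit 136) (nat_lit 5) (nat_lit 131) (nat_lit 5) (nat_lit 375) (nat_lit 347) (nat_lit 178))))))))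
noncomputable def xc116 : XT := (XT.nd (nat_lit 45708) (nat_lit 0) (nat_lit 836) (XT.nd (nat_lit 44772) (nat_lit 0) (nat_lit 9804) (XT.nd (nat_lit 468) (nat_lit 1368) (nat_lit 0) (XT.nd (nat_lit 234) (nat_lit 684) (nat_lit 0) (XT.nd (nat_lit 78) (nat_lit 684) (nat_lit 0) (XT.lf (nat_lit 0) (nat_lit 40032128143) (nat_lit 304) (nat_lit 32773424193) (nat_lit 380) (nat_lit 17086975879) (nat_lit 126) (nat_lit 5) (nat_lit 130) (nat_lit 5) (nat_lit 131) (nat_lit 5) (nat_lit 376) (nat_lit 347) (nat_lit 177)) (XT.nd (nat_lit 78) (nat_lit 304) (nat_lit 0) (XT.lf (nat_lit 0) (nat_lit 9763302120) (nat_lit 380) (nat_lit 60854509778) (nat_lit 76) (nat_lit 22080216295) (nat_lit 121) (nat_lit 5) (nat_lit 126) (nat_lit 5) (nat_lit 122) (nat_lit 5) (nat_lit 377) (nat_lit 347) (nat_lit 176)) (XT.lf (nat_lit 0) (nat_lit 22984379220) (nat_lit 304) (nat_lit 15690329152) (nat_lit 380) (nat_lit 56931859932) (nat_lit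 117) (nat_lit 5) (nat_lit 121) (nat_lit 5) (nat_lit 122) (nat_lit 5) (nat_lit 378) (nat_lit 347) (nat_lit 175)))) (XT.nd (nat_lit 78) (nat_lit 380) (nat_lit 0) (XT.lf (nat_lit 0) (nat_lit 13496812896) (nat_lit 304) (nat_lit 56699503616) (nat_lit 380) (nat_lit 28429280392) (nat_lit 113) (nat_lit 5) (nat_lit 117) (nat_lit 5) (nat_lit 118) (nat_lit 5) (nat_lit 379) (nat_lit 347) (nat_lit 174)) (XT.nd (nat_lit 78) (nat_lit 0) (nat_lit 0) (XT.lf (nat_lit 0) (nat_lit 2426342406) (nat_lit 380) (nat_lit 98224230117) (nat_lit 76) (nat_lit 1115858074) (nat_lit 108) (nat_lit 5) (nat_lit 113) (nat_lit 5) (nat_lit 109) (nat_lit 5) (nat_lit 380) (nat_lit 347) (nat_lit 173)) (XT.lf (nat_lit 0) (nat_lit 35698279510) (nat_lit 380) (nat_lit 7482126426) (nat_lit 76) (nat_lit 61831611248) (nat_lit 108) (nat_lit 5) (nat_lit 113) (nat_lit 5) (nat_lit 109) (nat_lit 5) (nat_lit 381) (nat_lit 347) (nat_lit 172)))))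 (XT.nd (nat_lit 234) (nat_lit 456) (nat_lit 0) (XT.nd (nat_lit 78) (nat_lit 608) (nat_lit 0) (XT.lf (nat_lit 0) (nat_lit 71666856285) (nat_lit 380) (nat_lit 19025010583) (nat_lit 76) (nat_lit 17697025309) (nat_lit 104) (nat_lit 5) (nat_lit 109) (nat_lit 5) (nat_lit 105) (nat_lit 5) (nat_lit 382) (nat_lit 347) (nat_lit 171)) (XT.nd (nat_lit 78) (nat_lit 380) (nat_lit 0) (XT.lf (nat_lit 0) (nat_lit 80406907756) (nat_lit 228) (nat_lit 30312328292) (nat_lit 304) (nat_lit 1176813989) (nat_lit 101) (nat_lit 5) (nat_lit 104) (nat_lit 5) (nat_lit 105) (nat_lit 5) (nat_lit 383) (nat_lit 347) (nat_lit 170)) (XT.lf (nat_lit 0) (nat_lit 36646406872) (nat_lit 380) (nat_lit 45208976127) (nat_lit 76) (nat_lit 33676577380) (nat_lit 96) (nat_lit 5) (nat_lit 101) (nat_lit 5) (nat_lit 97) (nat_lit 5) (nat_lit 384) (nat_lit 347) (nat_lit 169)))) (XT.nd (nat_lit 78) (nat_lit 228) (nat_lit 0) (XT.lf (nat_lit 0) (nat_lit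 59379760493) (nat_lit 228) (nat_lit 18159921082) (nat_lit 304) (nat_lit 41773538482) (nat_lit 93) (nat_lit 5) (nat_lit 96) (nat_lit 5) (nat_lit 97) (nat_lit 5) (nat_lit 385) (nat_lit 347) (nat_lit 168)) (XT.nd (nat_lit 43914) (nat_lit 0) (nat_lit 11020) (XT.lf (nat_lit 0) (nat_lit 47321871843) (nat_lit 228) (nat_lit 74547887524) (nat_lit 304) (nat_lit 1372019461) (nat_lit 90) (nat_lit 5) (nat_lit 93) (nat_lit 5) (nat_lit 94) (nat_lit 5) (nat_lit 386) (nat_lit 347) (nat_lit 167)) (XT.lf (nat_lit 0) (nat_lit 2521820184) (nat_lit 1292) (nat_lit 9335826818) (nat_lit 1292) (nat_lit 9335826818) (nat_lit 235) (nat_lit 3) (nat_lit 252) (nat_lit 3) (nat_lit 252) (nat_lit 5) (nat_lit 348) (nat_lit 348) (nat_lit 204)))))) (XT.nd (nat_lit 468) (nat_lit 1292) (nat_lit 0) (XT.nd (nat_lit 234) (nat_lit 0) (nat_lit 152) (XT.nd (nat_lit 78) (nat_lit 0) (nat_lit 76) (XT.lf (nat_lit 0) (nat_lit 5472925390) (nat_lit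 1216) (nat_lit 28142446711) (nat_lit 1292) (nat_lit 9822122877) (nat_lit 236) (nat_lit 5) (nat_lit 252) (nat_lit 5) (nat_lit 253) (nat_lit 5) (nat_lit 349) (nat_lit 348) (nat_lit 203)) (XT.nd (nat_lit 78) (nat_lit 0) (nat_lit 0) (XT.lf (nat_lit 0) (nat_lit 6420549295) (nat_lit 1216) (nat_lit 37825608439) (nat_lit 1292) (nat_lit 279507665) (nat_lit 237) (nat_lit 5) (nat_lit 253) (nat_lit 5) (nat_lit 254) (nat_lit 5) (nat_lit 350) (nat_lit 348) (nat_lit 202)) (XT.lf (nat_lit 0) (nat_lit 8043814121) (nat_lit 1216) (nat_lit 2131109252) (nat_lit 1292) (nat_lit 35474475037) (nat_lit 237) (nat_lit 5) (nat_lit 253) (nat_lit 5) (nat_lit 254) (nat_lit 5) (nat_lit 351) (nat_lit 348) (nat_lit 201)))) (XT.nd (nat_lit 78) (nat_lit 0) (nat_lit 76) (XT.lf (nat_lit 0) (nat_lit 10340870585) (nat_lit 1216) (nat_lit 11019057914) (nat_lit 1292) (nat_lit 25451612494) (nat_lit 238) (nat_lit 5) (nat_lit 254) (nat_lit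 5) (nat_lit 255) (nat_lit 5) (nat_lit 352) (nat_lit 348) (nat_lit 200)) (XT.nd (nat_lit 78) (nat_lit 0) (nat_lit 76) (XT.lf (nat_lit 0) (nat_lit 13287631941) (nat_lit 1216) (nat_lit 20095184161) (nat_lit 1292) (nat_lit 14632930728) (nat_lit 239) (nat_lit 5) (nat_lit 255) (nat_lit 5) (nat_lit 256) (nat_lit 5) (nat_lit 353) (nat_lit 348) (nat_lit 199)) (XT.lf (nat_lit 0) (nat_lit 16929467801) (nat_lit 1216) (nat_lit 29363033817) (nat_lit 1292) (nat_lit 2971230858) (nat_lit 240) (nat_lit 5) (nat_lit 256) (nat_lit 5) (nat_lit 257) (nat_lit 5) (nat_lit 354) (nat_lit 348) (nat_lit 198))))) (XT.nd (nat_lit 234) (nat_lit 1596) (nat_lit 0) (XT.nd (nat_lit 78) (nat_lit 0) (nat_lit 76) (XT.lf (nat_lit 76) (nat_lit 11634219570) (nat_lit 0) (nat_lit 9773874439) (nat_lit 1292) (nat_lit 29146383968) (nat_lit 241) (nat_lit 5) (nat_lit 240) (nat_lit 5) (nat_lit 257) (nat_lit 5) (nat_lit 355) (nat_lit 348) (nat_lit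 197)) (XT.nd (nat_lit 78) (nat_lit 0) (nat_lit 76) (XT.lf (nat_lit 76) (nat_lit 3176352091) (nat_lit 0) (nat_lit 23541871306) (nat_lit 1292) (nat_lit 25173311659) (nat_lit 242) (nat_lit 5) (nat_lit 241) (nat_lit 5) (nat_lit 258) (nat_lit 5) (nat_lit 356) (nat_lit 348) (nat_lit 196)) (XT.lf (nat_lit 0) (nat_lit 32936509922) (nat_lit 1216) (nat_lit 5339320200) (nat_lit 1292) (nat_lit 15000336737) (nat_lit 242) (nat_lit 5) (nat_lit 258) (nat_lit 5) (nat_lit 259) (nat_lit 5) (nat_lit 357) (nat_lit 348) (nat_lit 195)))) (XT.nd (nat_lit 78) (nat_lit 1824) (nat_lit 0) (XT.lf (nat_lit 0) (nat_lit 40098960840) (nat_lit 1216) (nat_lit 13956696320) (nat_lit 76) (nat_lit 655376911) (nat_lit 243) (nat_lit 5) (nat_lit 259) (nat_lit 5) (nat_lit 244) (nat_lit 5) (nat_lit 358) (nat_lit 348) (nat_lit 194)) (XT.nd (nat_lit 78) (nat_lit 608) (nat_lit 0) (XT.lf (nat_lit 0) (nat_lit 33309192258) (nat_lit 1216) (nat_lit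 15069865096) (nat_lit 1292) (nat_lit 7815802859) (nat_lit 227) (nat_lit 5) (nat_lit 243) (nat_lit 5) (nat_lit 244) (nat_lit 5) (nat_lit 359) (nat_lit 348) (nat_lit 193)) (XT.lf (nat_lit 0) (nat_lit 25731326582) (nat_lit 608) (nat_lit 31980505204) (nat_lit 684) (nat_lit 21886884) (nat_lit 219) (nat_lit 5) (nat_lit 227) (nat_lit 5) (nat_lit 228) (nat_lit 5) (nat_lit 360) (nat_lit 348) (nat_lit 192))))))) (XT.nd (nat_lit 936) (nat_lit 3724) (nat_lit 0) (XT.nd (nat_lit 468) (nat_lit 2356) (nat_lit 0) (XT.nd (nat_lit 234) (nat_lit 1064) (nat_lit 0) (XT.nd (nat_lit 78) (nat_lit 1140) (nat_lit 0) (XT.lf (nat_lit 0) (nat_lit 8654502468) (nat_lit 684) (nat_lit 41389593010) (nat_lit 76) (nat_lit 9283510748) (nat_lit 210) (nat_lit 5) (nat_lit 219) (nat_lit 5) (nat_lit 211) (nat_lit 5) (nat_lit 361) (nat_lit 348) (nat_lit 191)) (XT.nd (nat_lit 78) (nat_lit 532) (nat_lit 0) (XT.lf (nat_lit 0) (nat_lit 9917972452)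 (nat_lit 608) (nat_lit 8594875938) (nat_lit 684) (nat_lit 42465876635) (nat_lit 202) (nat_lit 5) (nat_lit 210) (nat_lit 5) (nat_lit 211) (nat_lit 5) (nat_lit 362) (nat_lit 348) (nat_lit 190)) (XT.lf (nat_lit 0) (nat_lit 1646200119) (nat_lit 532) (nat_lit 27997610682) (nat_lit 608) (nat_lit 33045198992) (nat_lit 195) (nat_lit 5) (nat_lit 202) (nat_lit 5) (nat_lit 203) (nat_lit 5) (nat_lit 363) (nat_lit 348) (nat_lit 189)))) (XT.nd (nat_lit 78) (nat_lit 1064) (nat_lit 0) (XT.lf (nat_lit 0) (nat_lit 42094811514) (nat_lit 608) (nat_lit 6655640047) (nat_lit 76) (nat_lit 15711453490) (nat_lit 195) (nat_lit 5) (nat_lit 203) (nat_lit 5) (nat_lit 196) (nat_lit 5) (nat_lit 364) (nat_lit 348) (nat_lit 188)) (XT.nd (nat_lit 78) (nat_lit 532) (nat_lit 0) (XT.lf (nat_lit 0) (nat_lit 51164625668) (nat_lit 532) (nat_lit 4776178213) (nat_lit 608) (nat_lit 10359468858) (nat_lit 188) (nat_lit 5) (nat_lit 195)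 (nat_lit 5) (nat_lit 196) (nat_lit 5) (nat_lit 365) (nat_lit 348) (nat_lit 187)) (XT.lf (nat_lit 0) (nat_lit 3104053893) (nat_lit 532) (nat_lit 23985015812) (nat_lit 76) (nat_lit 41113859702) (nat_lit 181) (nat_lit 5) (nat_lit 188) (nat_lit 5) (nat_lit 182) (nat_lit 5) (nat_lit 366) (nat_lit 348) (nat_lit 186))))) (XT.nd (nat_lit 234) (nat_lit 912) (nat_lit 0) (XT.nd (nat_lit 78) (nat_lit 912) (nat_lit 0) (XT.lf (nat_lit 0) (nat_lit 17778866229) (nat_lit 608) (nat_lit 33140008634) (nat_lit 76) (nat_lit 19256196886) (nat_lit 174) (nat_lit 5) (nat_lit 182) (nat_lit 5) (nat_lit 175) (nat_lit 5) (nat_lit 367) (nat_lit 348) (nat_lit 185)) (XT.nd (nat_lit 78) (nat_lit 456) (nat_lit 0) (XT.lf (nat_lit 0) (nat_lit 29670006078) (nat_lit 456) (nat_lit 4323606141) (nat_lit 532) (nat_lit 38228023963) (nat_lit 168) (nat_lit 5) (nat_lit 174) (nat_lit 5) (nat_lit 175) (nat_lit 5) (nat_lit 368) (nat_lit 348)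 (nat_lit 184)) (XT.lf (nat_lit 0) (nat_lit 21946863915) (nat_lit 456) (nat_lit 30054743282) (nat_lit 532) (nat_lit 22339447017) (nat_lit 162) (nat_lit 5) (nat_lit 168) (nat_lit 5) (nat_lit 169) (nat_lit 5) (nat_lit 369) (nat_lit 348) (nat_lit 183)))) (XT.nd (nat_lit 78) (nat_lit 532) (nat_lit 0) (XT.lf (nat_lit 0) (nat_lit 14051306523) (nat_lit 380) (nat_lit 57657180523) (nat_lit 456) (nat_lit 4834002243) (nat_lit 157) (nat_lit 5) (nat_lit 162) (nat_lit 5) (nat_lit 163) (nat_lit 5) (nat_lit 370) (nat_lit 348) (nat_lit 182)) (XT.nd (nat_lit 78) (nat_lit 0) (nat_lit 0) (XT.lf (nat_lit 0) (nat_lit 5747386470) (nat_lit 456) (nat_lit 8436659340) (nat_lit 532) (nat_lit 64638994083) (nat_lit 150) (nat_lit 5) (nat_lit 156) (nat_lit 5) (nat_lit 157) (nat_lit 5) (nat_lit 371) (nat_lit 348) (nat_lit 181)) (XT.lf (nat_lit 0) (nat_lit 35117749465) (nat_lit 532) (nat_lit 2967399161) (nat_lit 76) (nat_lit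 43099092338) (nat_lit 150) (nat_lit 5) (nat_lit 157) (nat_lit 5) (nat_lit 151) (nat_lit 5) (nat_lit 372) (nat_lit 348) (nat_lit 180)))))) (XT.nd (nat_lit 468) (nat_lit 1520) (nat_lit 0) (XT.nd (nat_lit 234) (nat_lit 1064) (nat_lit 0) (XT.nd (nat_lit 78) (nat_lit 760) (nat_lit 0) (XT.lf (nat_lit 0) (nat_lit 58009005084) (nat_lit 456) (nat_lit 11812194387) (nat_lit 76) (nat_lit 13814977194) (nat_lit 145) (nat_lit 5) (nat_lit 151) (nat_lit 5) (nat_lit 146) (nat_lit 5) (nat_lit 373) (nat_lit 348) (nat_lit 179)) (XT.nd (nat_lit 78) (nat_lit 380) (nat_lit 0) (XT.lf (nat_lit 0) (nat_lit 65090719076) (nat_lit 380) (nat_lit 17993612643) (nat_lit 456) (nat_lit 3095192742) (nat_lit 140) (nat_lit 5) (nat_lit 145) (nat_lit 5) (nat_lit 146) (nat_lit 5) (nat_lit 374) (nat_lit 348) (nat_lit 178)) (XT.lf (nat_lit 0) (nat_lit 21201569508) (nat_lit 380) (nat_lit 31008861880) (nat_lit 76) (nat_lit 36602495230)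 (nat_lit 135) (nat_lit 5) (nat_lit 140) (nat_lit 5) (nat_lit 136) (nat_lit 5) (nat_lit 375) (nat_lit 348) (nat_lit 177)))) (XT.nd (nat_lit 78) (nat_lit 684) (nat_lit 0) (XT.lf (nat_lit 0) (nat_lit 47558887867) (nat_lit 456) (nat_lit 41301950766) (nat_lit 76) (nat_lit 2688949434) (nat_lit 130) (nat_lit 5) (nat_lit 136) (nat_lit 5) (nat_lit 131) (nat_lit 5) (nat_lit 376) (nat_lit 348) (nat_lit 176)) (XT.nd (nat_lit 78) (nat_lit 380) (nat_lit 0) (XT.lf (nat_lit 0) (nat_lit 42090839520) (nat_lit 304) (nat_lit 34395866232) (nat_lit 380) (nat_lit 17899208295) (nat_lit 126) (nat_lit 5) (nat_lit 130) (nat_lit 5) (nat_lit 131) (nat_lit 5) (nat_lit 377) (nat_lit 348) (nat_lit 175)) (XT.lf (nat_lit 0) (nat_lit 10291494101) (nat_lit 380) (nat_lit 63839903874) (nat_lit 76) (nat_lit 23200317594) (nat_lit 121) (nat_lit 5) (nat_lit 126) (nat_lit 5) (nat_lit 122) (nat_lit 5) (nat_lit 378) (nat_lit 348) (nat_lit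 174))))) (XT.nd (nat_lit 234) (nat_lit 532) (nat_lit 0) (XT.nd (nat_lit 78) (nat_lit 684) (nat_lit 0) (XT.lf (nat_lit 0) (nat_lit 24189286182) (nat_lit 304) (nat_lit 16457813750) (nat_lit 380) (nat_lit 59738624506) (nat_lit 117) (nat_lit 5) (nat_lit 121) (nat_lit 5) (nat_lit 122) (nat_lit 5) (nat_lit 379) (nat_lit 348) (nat_lit 173)) (XT.nd (nat_lit 78) (nat_lit 380) (nat_lit 0) (XT.lf (nat_lit 0) (nat_lit 14226724907) (nat_lit 304) (nat_lit 59516908108) (nat_lit 380) (nat_lit 29812106717) (nat_lit 113) (nat_lit 5) (nat_lit 117) (nat_lit 5) (nat_lit 118) (nat_lit 5) (nat_lit 380) (nat_lit 348) (nat_lit 172)) (XT.lf (nat_lit 0) (nat_lit 2584430148) (nat_lit 380) (nat_lit 103080265599) (nat_lit 76) (nat_lit 1188942168) (nat_lit 108) (nat_lit 5) (nat_lit 113) (nat_lit 5) (nat_lit 109) (nat_lit 5) (nat_lit 381) (nat_lit 348) (nat_lit 171)))) (XT.nd (nat_lit 78) (nat_lit 532) (nat_lit 0) (XT.lf (nat_lit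 0) (nat_lit 37518213126) (nat_lit 380) (nat_lit 7803684153) (nat_lit 76) (nat_lit 64939659611) (nat_lit 108) (nat_lit 5) (nat_lit 113) (nat_lit 5) (nat_lit 109) (nat_lit 5) (nat_lit 382) (nat_lit 348) (nat_lit 170)) (XT.nd (nat_lit 78) (nat_lit 228) (nat_lit 0) (XT.lf (nat_lit 0) (nat_lit 75284207120) (nat_lit 380) (nat_lit 19924358803) (nat_lit 76) (nat_lit 18598740560) (nat_lit 104) (nat_lit 5) (nat_lit 109) (nat_lit 5) (nat_lit 105) (nat_lit 5) (nat_lit 383) (nat_lit 348) (nat_lit 169)) (XT.lf (nat_lit 0) (nat_lit 84477667684) (nat_lit 228) (nat_lit 31810403373) (nat_lit 304) (nat_lit 1201785703) (nat_lit 101) (nat_lit 5) (nat_lit 104) (nat_lit 5) (nat_lit 105) (nat_lit 5) (nat_lit 384) (nat_lit 348) (nat_lit 168))))))))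
noncomputable def xc117 : XT := (XT.nd (nat_lit 45786) (nat_lit 0) (nat_lit 608) (XT.nd (nat_lit 44850) (nat_lit 0) (nat_lit 5244) (XT.nd (nat_lit 44382) (nat_lit 0) (nat_lit 11020) (XT.nd (nat_lit 44148) (nat_lit 0) (nat_lit 10868) (XT.nd (nat_lit 78) (nat_lit 228) (nat_lit 0) (XT.lf (nat_lit 0) (nat_lit 38510999321) (nat_lit 380) (nat_lit 47419000926) (nat_lit 76) (nat_lit 35377581127) (nat_lit 96) (nat_lit 5) (nat_lit 101) (nat_lit 5) (nat_lit 97) (nat_lit 5) (nat_lit 385) (nat_lit 348) (nat_lit 167)) (XT.nd (nat_lit 43992) (nat_lit 0) (nat_lit 10792) (XT.lf (nat_lit 0) (nat_lit 62397727131) (nat_lit 228) (nat_lit 19050144675) (nat_lit 304) (nat_lit 43830064632) (nat_lit 93) (nat_lit 5) (nat_lit 96) (nat_lit 5) (nat_lit 97) (nat_lit 5) (nat_lit 386) (nat_lit 348) (nat_lit 166)) (XT.lf (nat_lit 0) (nat_lit 2705911199) (nat_lit 1292) (nat_lit 9772733128) (nat_lit 1292) (nat_lit 9772733128)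 (nat_lit 235) (nat_lit 3) (nat_lit 252) (nat_lit 3) (nat_lit 252) (nat_lit 5) (nat_lit 349) (nat_lit 349) (nat_lit 202)))) (XT.nd (nat_lit 78) (nat_lit 0) (nat_lit 76) (XT.lf (nat_lit 0) (nat_lit 5857096686) (nat_lit 1216) (nat_lit 29487614752) (nat_lit 1292) (nat_lit 10261285289) (nat_lit 236) (nat_lit 5) (nat_lit 252) (nat_lit 5) (nat_lit 253) (nat_lit 5) (nat_lit 350) (nat_lit 349) (nat_lit 201)) (XT.nd (nat_lit 78) (nat_lit 0) (nat_lit 0) (XT.lf (nat_lit 0) (nat_lit 6846978230) (nat_lit 1216) (nat_lit 39653041808) (nat_lit 1292) (nat_lit 248712065) (nat_lit 237) (nat_lit 5) (nat_lit 253) (nat_lit 5) (nat_lit 254) (nat_lit 5) (nat_lit 351) (nat_lit 349) (nat_lit 200)) (XT.lf (nat_lit 0) (nat_lit 8546387180) (nat_lit 1216) (nat_lit 2176857996) (nat_lit 1292) (nat_lit 37205559757) (nat_lit 237) (nat_lit 5) (nat_lit 253) (nat_lit 5) (nat_lit 254) (nat_lit 5) (nat_lit 352) (nat_lit 349) (nat_lit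 199))))) (XT.nd (nat_lit 234) (nat_lit 0) (nat_lit 152) (XT.nd (nat_lit 78) (nat_lit 0) (nat_lit 76) (XT.lf (nat_lit 0) (nat_lit 10953727423) (nat_lit 1216) (nat_lit 11507655862) (nat_lit 1292) (nat_lit 26687810905) (nat_lit 238) (nat_lit 5) (nat_lit 254) (nat_lit 5) (nat_lit 255) (nat_lit 5) (nat_lit 353) (nat_lit 349) (nat_lit 198)) (XT.nd (nat_lit 78) (nat_lit 0) (nat_lit 76) (XT.lf (nat_lit 0) (nat_lit 14043545978) (nat_lit 1216) (nat_lit 21036273182) (nat_lit 1292) (nat_lit 15333921939) (nat_lit 239) (nat_lit 5) (nat_lit 255) (nat_lit 5) (nat_lit 256) (nat_lit 5) (nat_lit 354) (nat_lit 349) (nat_lit 197)) (XT.lf (nat_lit 0) (nat_lit 17863460247) (nat_lit 1216) (nat_lit 30766413321) (nat_lit 1292) (nat_lit 3094375103) (nat_lit 240) (nat_lit 5) (nat_lit 256) (nat_lit 5) (nat_lit 257) (nat_lit 5) (nat_lit 355) (nat_lit 349) (nat_lit 196)))) (XT.nd (nat_lit 78) (nat_lit 0) (nat_lit 76) (XT.lf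 (nat_lit 76) (nat_lit 12278846053) (nat_lit 0) (nat_lit 10283608921) (nat_lit 1292) (nat_lit 30517185494) (nat_lit 241) (nat_lit 5) (nat_lit 240) (nat_lit 5) (nat_lit 257) (nat_lit 5) (nat_lit 356) (nat_lit 349) (nat_lit 195)) (XT.nd (nat_lit 78) (nat_lit 0) (nat_lit 76) (XT.lf (nat_lit 76) (nat_lit 3398966185) (nat_lit 0) (nat_lit 24735547355) (nat_lit 1292) (nat_lit 26349146214) (nat_lit 242) (nat_lit 5) (nat_lit 241) (nat_lit 5) (nat_lit 258) (nat_lit 5) (nat_lit 357) (nat_lit 349) (nat_lit 194)) (XT.lf (nat_lit 0) (nat_lit 34659735009) (nat_lit 1216) (nat_lit 5543040547) (nat_lit 1292) (nat_lit 15734868908) (nat_lit 242) (nat_lit 5) (nat_lit 258) (nat_lit 5) (nat_lit 259) (nat_lit 5) (nat_lit 358) (nat_lit 349) (nat_lit 193)))))) (XT.nd (nat_lit 468) (nat_lit 2508) (nat_lit 0) (XT.nd (nat_lit 234) (nat_lit 1748) (nat_lit 0) (XT.nd (nat_lit 78) (nat_lit 1900) (nat_lit 0) (XT.lf (nat_lit 0)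 (nat_lit 42177146352) (nat_lit 1216) (nat_lit 14590746358) (nat_lit 76) (nat_lit 676459038) (nat_lit 243) (nat_lit 5) (nat_lit 259) (nat_lit 5) (nat_lit 244) (nat_lit 5) (nat_lit 359) (nat_lit 349) (nat_lit 192)) (XT.nd (nat_lit 78) (nat_lit 684) (nat_lit 0) (XT.lf (nat_lit 0) (nat_lit 35036608272) (nat_lit 1216) (nat_lit 15831747484) (nat_lit 1292) (nat_lit 8134101957) (nat_lit 227) (nat_lit 5) (nat_lit 243) (nat_lit 5) (nat_lit 244) (nat_lit 5) (nat_lit 360) (nat_lit 349) (nat_lit 191)) (XT.lf (nat_lit 0) (nat_lit 45686756) (nat_lit 684) (nat_lit 33538557809) (nat_lit 76) (nat_lit 27034087582) (nat_lit 218) (nat_lit 5) (nat_lit 227) (nat_lit 5) (nat_lit 219) (nat_lit 5) (nat_lit 361) (nat_lit 349) (nat_lit 190)))) (XT.nd (nat_lit 78) (nat_lit 1140) (nat_lit 0) (XT.lf (nat_lit 0) (nat_lit 9152758478) (nat_lit 684) (nat_lit 43395133465) (nat_lit 76) (nat_lit 9744097719) (nat_lit 210) (nat_lit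 5) (nat_lit 219) (nat_lit 5) (nat_lit 211) (nat_lit 5) (nat_lit 362) (nat_lit 349) (nat_lit 189)) (XT.nd (nat_lit 78) (nat_lit 532) (nat_lit 0) (XT.lf (nat_lit 0) (nat_lit 10475977466) (nat_lit 608) (nat_lit 9025520715) (nat_lit 684) (nat_lit 44524243397) (nat_lit 202) (nat_lit 5) (nat_lit 210) (nat_lit 5) (nat_lit 211) (nat_lit 5) (nat_lit 363) (nat_lit 349) (nat_lit 188)) (XT.lf (nat_lit 0) (nat_lit 1790709331) (nat_lit 532) (nat_lit 29395888679) (nat_lit 608) (nat_lit 34635016299) (nat_lit 195) (nat_lit 5) (nat_lit 202) (nat_lit 5) (nat_lit 203) (nat_lit 5) (nat_lit 364) (nat_lit 349) (nat_lit 187))))) (XT.nd (nat_lit 234) (nat_lit 1444) (nat_lit 0) (XT.nd (nat_lit 78) (nat_lit 1064) (nat_lit 0) (XT.lf (nat_lit 0) (nat_lit 44257277875) (nat_lit 608) (nat_lit 6927441312) (nat_lit 76) (nat_lit 16498522608) (nat_lit 195) (nat_lit 5) (nat_lit 203) (nat_lit 5) (nat_lit 196) (nat_lit 5) (nat_lit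 365) (nat_lit 349) (nat_lit 186)) (XT.nd (nat_lit 78) (nat_lit 532) (nat_lit 0) (XT.lf (nat_lit 0) (nat_lit 53782089688) (nat_lit 532) (nat_lit 5011300706) (nat_lit 608) (nat_lit 10820204129) (nat_lit 188) (nat_lit 5) (nat_lit 195) (nat_lit 5) (nat_lit 196) (nat_lit 5) (nat_lit 366) (nat_lit 349) (nat_lit 185)) (XT.lf (nat_lit 0) (nat_lit 3313313634) (nat_lit 532) (nat_lit 25124023439) (nat_lit 76) (nat_lit 43174093548) (nat_lit 181) (nat_lit 5) (nat_lit 188) (nat_lit 5) (nat_lit 182) (nat_lit 5) (nat_lit 367) (nat_lit 349) (nat_lit 184)))) (XT.nd (nat_lit 78) (nat_lit 912) (nat_lit 0) (XT.lf (nat_lit 0) (nat_lit 18719917139) (nat_lit 608) (nat_lit 34736971178) (nat_lit 76) (nat_lit 20225351368) (nat_lit 174) (nat_lit 5) (nat_lit 182) (nat_lit 5) (nat_lit 175) (nat_lit 5) (nat_lit 368) (nat_lit 349) (nat_lit 183)) (XT.nd (nat_lit 78) (nat_lit 456) (nat_lit 0) (XT.lf (nat_lit 0) (nat_lit 31211823294)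 (nat_lit 456) (nat_lit 4531656396) (nat_lit 532) (nat_lit 40087711338) (nat_lit 168) (nat_lit 5) (nat_lit 174) (nat_lit 5) (nat_lit 175) (nat_lit 5) (nat_lit 369) (nat_lit 349) (nat_lit 182)) (XT.lf (nat_lit 0) (nat_lit 23102259661) (nat_lit 456) (nat_lit 31547857374) (nat_lit 532) (nat_lit 23406516668) (nat_lit 162) (nat_lit 5) (nat_lit 168) (nat_lit 5) (nat_lit 169) (nat_lit 5) (nat_lit 370) (nat_lit 349) (nat_lit 181))))))) (XT.nd (nat_lit 936) (nat_lit 532) (nat_lit 0) (XT.nd (nat_lit 468) (nat_lit 2052) (nat_lit 0) (XT.nd (nat_lit 234) (nat_lit 1140) (nat_lit 0) (XT.nd (nat_lit 78) (nat_lit 532) (nat_lit 0) (XT.lf (nat_lit 0) (nat_lit 14811601476) (nat_lit 380) (nat_lit 60529076264) (nat_lit 456) (nat_lit 5027513653) (nat_lit 157) (nat_lit 5) (nat_lit 162) (nat_lit 5) (nat_lit 163) (nat_lit 5) (nat_lit 371) (nat_lit 349) (nat_lit 180)) (XT.nd (nat_lit 78) (nat_lit 0) (nat_lit 0) (XT.lf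 (nat_lit 0) (nat_lit 6091762259) (nat_lit 456) (nat_lit 8847032267) (nat_lit 532) (nat_lit 67824013059) (nat_lit 150) (nat_lit 5) (nat_lit 156) (nat_lit 5) (nat_lit 157) (nat_lit 5) (nat_lit 372) (nat_lit 349) (nat_lit 179)) (XT.lf (nat_lit 0) (nat_lit 36917119401) (nat_lit 532) (nat_lit 3060263778) (nat_lit 76) (nat_lit 45264748301) (nat_lit 150) (nat_lit 5) (nat_lit 157) (nat_lit 5) (nat_lit 151) (nat_lit 5) (nat_lit 373) (nat_lit 349) (nat_lit 178)))) (XT.nd (nat_lit 78) (nat_lit 760) (nat_lit 0) (XT.lf (nat_lit 0) (nat_lit 60951500665) (nat_lit 456) (nat_lit 12347730866) (nat_lit 76) (nat_lit 14517476364) (nat_lit 145) (nat_lit 5) (nat_lit 151) (nat_lit 5) (nat_lit 146) (nat_lit 5) (nat_lit 374) (nat_lit 349) (nat_lit 177)) (XT.nd (nat_lit 78) (nat_lit 380) (nat_lit 0) (XT.lf (nat_lit 0) (nat_lit 68398749607) (nat_lit 380) (nat_lit 18880356089) (nat_lit 456) (nat_lit 3208162795) (nat_lit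 140) (nat_lit 5) (nat_lit 145) (nat_lit 5) (nat_lit 146) (nat_lit 5) (nat_lit 375) (nat_lit 349) (nat_lit 176)) (XT.lf (nat_lit 0) (nat_lit 22301305438) (nat_lit 380) (nat_lit 32505464165) (nat_lit 76) (nat_lit 38445599317) (nat_lit 135) (nat_lit 5) (nat_lit 140) (nat_lit 5) (nat_lit 136) (nat_lit 5) (nat_lit 376) (nat_lit 349) (nat_lit 175))))) (XT.nd (nat_lit 234) (nat_lit 988) (nat_lit 0) (XT.nd (nat_lit 78) (nat_lit 684) (nat_lit 0) (XT.lf (nat_lit 0) (nat_lit 49975238804) (nat_lit 456) (nat_lit 43313723880) (nat_lit 76) (nat_lit 2837148967) (nat_lit 130) (nat_lit 5) (nat_lit 136) (nat_lit 5) (nat_lit 131) (nat_lit 5) (nat_lit 377) (nat_lit 349) (nat_lit 174)) (XT.nd (nat_lit 78) (nat_lit 380) (nat_lit 0) (XT.lf (nat_lit 0) (nat_lit 44247177388) (nat_lit 304) (nat_lit 36100939207) (nat_lit 380) (nat_lit 18755967913) (nat_lit 126) (nat_lit 5) (nat_lit 130) (nat_lit 5) (nat_lit 131) (nat_lit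 5) (nat_lit 378) (nat_lit 349) (nat_lit 173)) (XT.lf (nat_lit 0) (nat_lit 10842374363) (nat_lit 380) (nat_lit 66979897803) (nat_lit 76) (nat_lit 24374928017) (nat_lit 121) (nat_lit 5) (nat_lit 126) (nat_lit 5) (nat_lit 122) (nat_lit 5) (nat_lit 379) (nat_lit 349) (nat_lit 172)))) (XT.nd (nat_lit 78) (nat_lit 684) (nat_lit 0) (XT.lf (nat_lit 0) (nat_lit 25449261150) (nat_lit 304) (nat_lit 17265256039) (nat_lit 380) (nat_lit 62689430177) (nat_lit 117) (nat_lit 5) (nat_lit 121) (nat_lit 5) (nat_lit 122) (nat_lit 5) (nat_lit 380) (nat_lit 349) (nat_lit 171)) (XT.nd (nat_lit 78) (nat_lit 380) (nat_lit 0) (XT.lf (nat_lit 0) (nat_lit 14988012505) (nat_lit 304) (nat_lit 62476816380) (nat_lit 380) (nat_lit 31267666525) (nat_lit 113) (nat_lit 5) (nat_lit 117) (nat_lit 5) (nat_lit 118) (nat_lit 5) (nat_lit 381) (nat_lit 349) (nat_lit 170)) (XT.lf (nat_lit 0) (nat_lit 2747003693) (nat_lit 380) (nat_lit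 108184232598) (nat_lit 76) (nat_lit 1264072896) (nat_lit 108) (nat_lit 5) (nat_lit 113) (nat_lit 5) (nat_lit 109) (nat_lit 5) (nat_lit 382) (nat_lit 349) (nat_lit 169)))))) (XT.nd (nat_lit 44538) (nat_lit 0) (nat_lit 10336) (XT.nd (nat_lit 44304) (nat_lit 0) (nat_lit 10184) (XT.nd (nat_lit 78) (nat_lit 532) (nat_lit 0) (XT.lf (nat_lit 0) (nat_lit 39425887628) (nat_lit 380) (nat_lit 8146205236) (nat_lit 76) (nat_lit 68201579372) (nat_lit 108) (nat_lit 5) (nat_lit 113) (nat_lit 5) (nat_lit 109) (nat_lit 5) (nat_lit 383) (nat_lit 349) (nat_lit 168)) (XT.nd (nat_lit 78) (nat_lit 228) (nat_lit 0) (XT.lf (nat_lit 0) (nat_lit 79079263754) (nat_lit 380) (nat_lit 20873499818) (nat_lit 76) (nat_lit 19543973720) (nat_lit 104) (nat_lit 5) (nat_lit 109) (nat_lit 5) (nat_lit 105) (nat_lit 5) (nat_lit 384) (nat_lit 349) (nat_lit 167)) (XT.lf (nat_lit 0) (nat_lit 88747278543) (nat_lit 228) (nat_lit 33385013035)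 (nat_lit 304) (nat_lit 1231154820) (nat_lit 101) (nat_lit 5) (nat_lit 104) (nat_lit 5) (nat_lit 105) (nat_lit 5) (nat_lit 385) (nat_lit 349) (nat_lit 166)))) (XT.nd (nat_lit 78) (nat_lit 0) (nat_lit 76) (XT.lf (nat_lit 0) (nat_lit 2893814474) (nat_lit 1292) (nat_lit 10234263180) (nat_lit 1292) (nat_lit 10234263180) (nat_lit 235) (nat_lit 3) (nat_lit 252) (nat_lit 3) (nat_lit 252) (nat_lit 5) (nat_lit 350) (nat_lit 350) (nat_lit 200)) (XT.nd (nat_lit 78) (nat_lit 0) (nat_lit 76) (XT.lf (nat_lit 0) (nat_lit 6250200977) (nat_lit 1216) (nat_lit 30905801118) (nat_lit 1292) (nat_lit 10727235058) (nat_lit 236) (nat_lit 5) (nat_lit 252) (nat_lit 5) (nat_lit 253) (nat_lit 5) (nat_lit 351) (nat_lit 350) (nat_lit 199)) (XT.lf (nat_lit 0) (nat_lit 7284929382) (nat_lit 1216) (nat_lit 41577782738) (nat_lit 1292) (nat_lit 220539066) (nat_lit 237) (nat_lit 5) (nat_lit 253) (nat_lit 5) (nat_lit 254) (nat_lit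 5) (nat_lit 352) (nat_lit 350) (nat_lit 198))))) (XT.nd (nat_lit 234) (nat_lit 0) (nat_lit 228) (XT.nd (nat_lit 78) (nat_lit 0) (nat_lit 76) (XT.lf (nat_lit 0) (nat_lit 9064756292) (nat_lit 1216) (nat_lit 2230547411) (nat_lit 1292) (nat_lit 39027162886) (nat_lit 237) (nat_lit 5) (nat_lit 253) (nat_lit 5) (nat_lit 254) (nat_lit 5) (nat_lit 353) (nat_lit 350) (nat_lit 197)) (XT.nd (nat_lit 78) (nat_lit 0) (nat_lit 76) (XT.lf (nat_lit 0) (nat_lit 11588319289) (nat_lit 1216) (nat_lit 12026480879) (nat_lit 1292) (nat_lit 27989201709) (nat_lit 238) (nat_lit 5) (nat_lit 254) (nat_lit 5) (nat_lit 255) (nat_lit 5) (nat_lit 354) (nat_lit 350) (nat_lit 196)) (XT.lf (nat_lit 0) (nat_lit 14828745899) (nat_lit 1216) (nat_lit 22030336105) (nat_lit 1292) (nat_lit 16072812752) (nat_lit 239) (nat_lit 5) (nat_lit 255) (nat_lit 5) (nat_lit 256) (nat_lit 5) (nat_lit 355) (nat_lit 350) (nat_lit 195)))) (XT.nd (nat_lit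 78) (nat_lit 0) (nat_lit 0) (XT.lf (nat_lit 0) (nat_lit 18836015623) (nat_lit 1216) (nat_lit 32245983704) (nat_lit 1292) (nat_lit 3226039620) (nat_lit 240) (nat_lit 5) (nat_lit 256) (nat_lit 5) (nat_lit 257) (nat_lit 5) (nat_lit 356) (nat_lit 350) (nat_lit 194)) (XT.nd (nat_lit 78) (nat_lit 0) (nat_lit 76) (XT.lf (nat_lit 76) (nat_lit 12949854573) (nat_lit 0) (nat_lit 10816873956) (nat_lit 1292) (nat_lit 31964570689) (nat_lit 241) (nat_lit 5) (nat_lit 240) (nat_lit 5) (nat_lit 257) (nat_lit 5) (nat_lit 357) (nat_lit 350) (nat_lit 193)) (XT.lf (nat_lit 76) (nat_lit 3626779791) (nat_lit 0) (nat_lit 25987365523) (nat_lit 1292) (nat_lit 27591473341) (nat_lit 242) (nat_lit 5) (nat_lit 241) (nat_lit 5) (nat_lit 258) (nat_lit 5) (nat_lit 358) (nat_lit 350) (nat_lit 192))))))))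
noncomputable def xc118 : XT := (XT.nd (nat_lit 1872) (nat_lit 684) (nat_lit 0) (XT.nd (nat_lit 936) (nat_lit 4180) (nat_lit 0) (XT.nd (nat_lit 468) (nat_lit 2584) (nat_lit 0) (XT.nd (nat_lit 234) (nat_lit 1900) (nat_lit 0) (XT.nd (nat_lit 78) (nat_lit 1140) (nat_lit 0) (XT.lf (nat_lit 0) (nat_lit 36462018442) (nat_lit 1216) (nat_lit 5762826894) (nat_lit 1292) (nat_lit 16507567306) (nat_lit 242) (nat_lit 5) (nat_lit 258) (nat_lit 5) (nat_lit 259) (nat_lit 5) (nat_lit 359) (nat_lit 350) (nat_lit 191)) (XT.nd (nat_lit 78) (nat_lit 1216) (nat_lit 0) (XT.lf (nat_lit 0) (nat_lit 44352432213) (nat_lit 1216) (nat_lit 15262429001) (nat_lit 76) (nat_lit 699681792) (nat_lit 243) (nat_lit 5) (nat_lit 259) (nat_lit 5) (nat_lit 244) (nat_lit 5) (nat_lit 360) (nat_lit 350) (nat_lit 190)) (XT.lf (nat_lit 0) (nat_lit 36844634968) (nat_lit 1216) (nat_lit 16630944049) (nat_lit 1292) (nat_lit 8475055539) (nat_lit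 227) (nat_lit 5) (nat_lit 243) (nat_lit 5) (nat_lit 244) (nat_lit 5) (nat_lit 361) (nat_lit 350) (nat_lit 189)))) (XT.nd (nat_lit 78) (nat_lit 1216) (nat_lit 0) (XT.lf (nat_lit 0) (nat_lit 109848226) (nat_lit 684) (nat_lit 35157678013) (nat_lit 76) (nat_lit 28379836726) (nat_lit 218) (nat_lit 5) (nat_lit 227) (nat_lit 5) (nat_lit 219) (nat_lit 5) (nat_lit 362) (nat_lit 350) (nat_lit 188)) (XT.nd (nat_lit 78) (nat_lit 608) (nat_lit 0) (XT.lf (nat_lit 0) (nat_lit 9669834847) (nat_lit 684) (nat_lit 45506895403) (nat_lit 76) (nat_lit 10228047668) (nat_lit 210) (nat_lit 5) (nat_lit 219) (nat_lit 5) (nat_lit 211) (nat_lit 5) (nat_lit 363) (nat_lit 350) (nat_lit 187)) (XT.lf (nat_lit 0) (nat_lit 11056108667) (nat_lit 608) (nat_lit 9477613967) (nat_lit 684) (nat_lit 46691564801) (nat_lit 202) (nat_lit 5) (nat_lit 210) (nat_lit 5) (nat_lit 211) (nat_lit 5) (nat_lit 364) (nat_lit 350) (nat_lit 186)))))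 (XT.nd (nat_lit 234) (nat_lit 1520) (nat_lit 0) (XT.nd (nat_lit 78) (nat_lit 532) (nat_lit 0) (XT.lf (nat_lit 0) (nat_lit 1936661312) (nat_lit 532) (nat_lit 30864229565) (nat_lit 608) (nat_lit 36310129797) (nat_lit 195) (nat_lit 5) (nat_lit 202) (nat_lit 5) (nat_lit 203) (nat_lit 5) (nat_lit 365) (nat_lit 350) (nat_lit 185)) (XT.nd (nat_lit 78) (nat_lit 532) (nat_lit 0) (XT.lf (nat_lit 0) (nat_lit 46522500758) (nat_lit 608) (nat_lit 7218502051) (nat_lit 76) (nat_lit 17324806056) (nat_lit 195) (nat_lit 5) (nat_lit 203) (nat_lit 5) (nat_lit 196) (nat_lit 5) (nat_lit 366) (nat_lit 350) (nat_lit 184)) (XT.lf (nat_lit 0) (nat_lit 56524920011) (nat_lit 532) (nat_lit 5258522052) (nat_lit 608) (nat_lit 11309297627) (nat_lit 188) (nat_lit 5) (nat_lit 195) (nat_lit 5) (nat_lit 196) (nat_lit 5) (nat_lit 367) (nat_lit 350) (nat_lit 183)))) (XT.nd (nat_lit 78) (nat_lit 988) (nat_lit 0) (XT.lf (nat_lit 0)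 (nat_lit 3528010651) (nat_lit 532) (nat_lit 26325582287) (nat_lit 76) (nat_lit 45336916921) (nat_lit 181) (nat_lit 5) (nat_lit 188) (nat_lit 5) (nat_lit 182) (nat_lit 5) (nat_lit 368) (nat_lit 350) (nat_lit 182)) (XT.nd (nat_lit 78) (nat_lit 456) (nat_lit 0) (XT.lf (nat_lit 0) (nat_lit 19703176123) (nat_lit 608) (nat_lit 36419363604) (nat_lit 76) (nat_lit 21242373710) (nat_lit 174) (nat_lit 5) (nat_lit 182) (nat_lit 5) (nat_lit 175) (nat_lit 5) (nat_lit 369) (nat_lit 350) (nat_lit 181)) (XT.lf (nat_lit 0) (nat_lit 32825309618) (nat_lit 456) (nat_lit 4750865020) (nat_lit 532) (nat_lit 42045190944) (nat_lit 168) (nat_lit 5) (nat_lit 174) (nat_lit 5) (nat_lit 175) (nat_lit 5) (nat_lit 370) (nat_lit 350) (nat_lit 180)))))) (XT.nd (nat_lit 468) (nat_lit 2052) (nat_lit 0) (XT.nd (nat_lit 234) (nat_lit 760) (nat_lit 0) (XT.nd (nat_lit 78) (nat_lit 912) (nat_lit 0) (XT.lf (nat_lit 0) (nat_lit 24310028018)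 (nat_lit 456) (nat_lit 33116521831) (nat_lit 532) (nat_lit 24531579281) (nat_lit 162) (nat_lit 5) (nat_lit 168) (nat_lit 5) (nat_lit 169) (nat_lit 5) (nat_lit 371) (nat_lit 350) (nat_lit 179)) (XT.nd (nat_lit 78) (nat_lit 532) (nat_lit 0) (XT.lf (nat_lit 0) (nat_lit 15604544023) (nat_lit 380) (nat_lit 63545586055) (nat_lit 456) (nat_lit 5235180762) (nat_lit 157) (nat_lit 5) (nat_lit 162) (nat_lit 5) (nat_lit 163) (nat_lit 5) (nat_lit 372) (nat_lit 350) (nat_lit 178)) (XT.lf (nat_lit 0) (nat_lit 6448056917) (nat_lit 456) (nat_lit 9278989286) (nat_lit 532) (nat_lit 71172646157) (nat_lit 150) (nat_lit 5) (nat_lit 156) (nat_lit 5) (nat_lit 157) (nat_lit 5) (nat_lit 373) (nat_lit 350) (nat_lit 177)))) (XT.nd (nat_lit 78) (nat_lit 760) (nat_lit 0) (XT.lf (nat_lit 0) (nat_lit 38802415248) (nat_lit 532) (nat_lit 3162931987) (nat_lit 76) (nat_lit 47537692152) (nat_lit 150) (nat_lit 5) (nat_lit 157) (nat_lit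 5) (nat_lit 151) (nat_lit 5) (nat_lit 374) (nat_lit 350) (nat_lit 176)) (XT.nd (nat_lit 78) (nat_lit 380) (nat_lit 0) (XT.lf (nat_lit 0) (nat_lit 64037212048) (nat_lit 456) (nat_lit 12915164356) (nat_lit 76) (nat_lit 15254008059) (nat_lit 145) (nat_lit 5) (nat_lit 151) (nat_lit 5) (nat_lit 146) (nat_lit 5) (nat_lit 375) (nat_lit 350) (nat_lit 175)) (XT.lf (nat_lit 0) (nat_lit 71867208246) (nat_lit 380) (nat_lit 19812639483) (nat_lit 456) (nat_lit 3330666551) (nat_lit 140) (nat_lit 5) (nat_lit 145) (nat_lit 5) (nat_lit 146) (nat_lit 5) (nat_lit 376) (nat_lit 350) (nat_lit 174))))) (XT.nd (nat_lit 234) (nat_lit 988) (nat_lit 0) (XT.nd (nat_lit 78) (nat_lit 684) (nat_lit 0) (XT.lf (nat_lit 0) (nat_lit 23452341190) (nat_lit 380) (nat_lit 34081902172) (nat_lit 76) (nat_lit 40379651914) (nat_lit 135) (nat_lit 5) (nat_lit 140) (nat_lit 5) (nat_lit 136) (nat_lit 5) (nat_lit 377) (nat_lit 350) (nat_lit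 173)) (XT.nd (nat_lit 78) (nat_lit 304) (nat_lit 0) (XT.lf (nat_lit 0) (nat_lit 52508836612) (nat_lit 456) (nat_lit 45431043248) (nat_lit 76) (nat_lit 2991479940) (nat_lit 130) (nat_lit 5) (nat_lit 136) (nat_lit 5) (nat_lit 131) (nat_lit 5) (nat_lit 378) (nat_lit 350) (nat_lit 172)) (XT.lf (nat_lit 0) (nat_lit 46506516657) (nat_lit 304) (nat_lit 37892634388) (nat_lit 380) (nat_lit 19659117060) (nat_lit 126) (nat_lit 5) (nat_lit 130) (nat_lit 5) (nat_lit 131) (nat_lit 5) (nat_lit 379) (nat_lit 350) (nat_lit 171)))) (XT.nd (nat_lit 78) (nat_lit 608) (nat_lit 0) (XT.lf (nat_lit 0) (nat_lit 11417423291) (nat_lit 380) (nat_lit 70281726014) (nat_lit 76) (nat_lit 25606912099) (nat_lit 121) (nat_lit 5) (nat_lit 126) (nat_lit 5) (nat_lit 122) (nat_lit 5) (nat_lit 380) (nat_lit 350) (nat_lit 170)) (XT.nd (nat_lit 78) (nat_lit 304) (nat_lit 0) (XT.lf (nat_lit 0) (nat_lit 26767538863) (nat_lit 304) (nat_lit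 18114506688) (nat_lit 380) (nat_lit 65791134744) (nat_lit 117) (nat_lit 5) (nat_lit 121) (nat_lit 5) (nat_lit 122) (nat_lit 5) (nat_lit 381) (nat_lit 350) (nat_lit 169)) (XT.lf (nat_lit 0) (nat_lit 15782720480) (nat_lit 304) (nat_lit 65586201749) (nat_lit 380) (nat_lit 32799262524) (nat_lit 113) (nat_lit 5) (nat_lit 117) (nat_lit 5) (nat_lit 118) (nat_lit 5) (nat_lit 382) (nat_lit 350) (nat_lit 168))))))) (XT.nd (nat_lit 45084) (nat_lit 0) (nat_lit 4864) (XT.nd (nat_lit 44616) (nat_lit 0) (nat_lit 10108) (XT.nd (nat_lit 44382) (nat_lit 0) (nat_lit 9956) (XT.nd (nat_lit 78) (nat_lit 304) (nat_lit 0) (XT.lf (nat_lit 0) (nat_lit 2914605160) (nat_lit 380) (nat_lit 113548050776) (nat_lit 76) (nat_lit 1341502046) (nat_lit 108) (nat_lit 5) (nat_lit 113) (nat_lit 5) (nat_lit 109) (nat_lit 5) (nat_lit 383) (nat_lit 350) (nat_lit 167)) (XT.nd (nat_lit 78) (nat_lit 304) (nat_lit 0) (XT.lf (nat_lit 0) (nat_lit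 41425992753) (nat_lit 380) (nat_lit 8510283639) (nat_lit 76) (nat_lit 71625206440) (nat_lit 108) (nat_lit 5) (nat_lit 113) (nat_lit 5) (nat_lit 109) (nat_lit 5) (nat_lit 384) (nat_lit 350) (nat_lit 166)) (XT.lf (nat_lit 0) (nat_lit 83061205424) (nat_lit 380) (nat_lit 21874474651) (nat_lit 76) (nat_lit 20535046449) (nat_lit 104) (nat_lit 5) (nat_lit 109) (nat_lit 5) (nat_lit 105) (nat_lit 5) (nat_lit 385) (nat_lit 350) (nat_lit 165)))) (XT.nd (nat_lit 78) (nat_lit 0) (nat_lit 76) (XT.lf (nat_lit 0) (nat_lit 3086221946) (nat_lit 1292) (nat_lit 10721389850) (nat_lit 1292) (nat_lit 10721389850) (nat_lit 235) (nat_lit 3) (nat_lit 252) (nat_lit 3) (nat_lit 252) (nat_lit 5) (nat_lit 351) (nat_lit 351) (nat_lit 198)) (XT.nd (nat_lit 78) (nat_lit 0) (nat_lit 76) (XT.lf (nat_lit 0) (nat_lit 6653640239) (nat_lit 1216) (nat_lit 32400121222) (nat_lit 1292) (nat_lit 11220862575) (nat_lit 236) (nat_lit 5)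 (nat_lit 252) (nat_lit 5) (nat_lit 253) (nat_lit 5) (nat_lit 352) (nat_lit 351) (nat_lit 197)) (XT.lf (nat_lit 0) (nat_lit 7735889901) (nat_lit 1216) (nat_lit 43604144746) (nat_lit 1292) (nat_lit 194732820) (nat_lit 237) (nat_lit 5) (nat_lit 253) (nat_lit 5) (nat_lit 254) (nat_lit 5) (nat_lit 353) (nat_lit 351) (nat_lit 196))))) (XT.nd (nat_lit 234) (nat_lit 0) (nat_lit 228) (XT.nd (nat_lit 78) (nat_lit 0) (nat_lit 76) (XT.lf (nat_lit 0) (nat_lit 9600578916) (nat_lit 1216) (nat_lit 2292048944) (nat_lit 1292) (nat_lit 40943441793) (nat_lit 237) (nat_lit 5) (nat_lit 253) (nat_lit 5) (nat_lit 254) (nat_lit 5) (nat_lit 354) (nat_lit 351) (nat_lit 195)) (XT.nd (nat_lit 78) (nat_lit 0) (nat_lit 76) (XT.lf (nat_lit 0) (nat_lit 12246561100) (nat_lit 1216) (nat_lit 12576505353) (nat_lit 1292) (nat_lit 29358730057) (nat_lit 238) (nat_lit 5) (nat_lit 254) (nat_lit 5) (nat_lit 255) (nat_lit 5) (nat_lit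 355) (nat_lit 351) (nat_lit 194)) (XT.lf (nat_lit 0) (nat_lit 15645487159) (nat_lit 1216) (nat_lit 23079471290) (nat_lit 1292) (nat_lit 16851233178) (nat_lit 239) (nat_lit 5) (nat_lit 255) (nat_lit 5) (nat_lit 256) (nat_lit 5) (nat_lit 356) (nat_lit 351) (nat_lit 193)))) (XT.nd (nat_lit 78) (nat_lit 0) (nat_lit 0) (XT.lf (nat_lit 0) (nat_lit 19849818549) (nat_lit 1216) (nat_lit 33804994652) (nat_lit 1292) (nat_lit 3366430728) (nat_lit 240) (nat_lit 5) (nat_lit 256) (nat_lit 5) (nat_lit 257) (nat_lit 5) (nat_lit 357) (nat_lit 351) (nat_lit 192)) (XT.nd (nat_lit 78) (nat_lit 0) (nat_lit 76) (XT.lf (nat_lit 76) (nat_lit 13649108043) (nat_lit 0) (nat_lit 11375027939) (nat_lit 1292) (nat_lit 33491620921) (nat_lit 241) (nat_lit 5) (nat_lit 240) (nat_lit 5) (nat_lit 257) (nat_lit 5) (nat_lit 358) (nat_lit 351) (nat_lit 191)) (XT.lf (nat_lit 76) (nat_lit 3860604311) (nat_lit 0) (nat_lit 27300376249)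 (nat_lit 1292) (nat_lit 28902901717) (nat_lit 242) (nat_lit 5) (nat_lit 241) (nat_lit 5) (nat_lit 258) (nat_lit 5) (nat_lit 359) (nat_lit 351) (nat_lit 190)))))) (XT.nd (nat_lit 468) (nat_lit 2584) (nat_lit 0) (XT.nd (nat_lit 234) (nat_lit 1900) (nat_lit 0) (XT.nd (nat_lit 78) (nat_lit 1140) (nat_lit 0) (XT.lf (nat_lit 0) (nat_lit 38347973497) (nat_lit 1216) (nat_lit 5998935876) (nat_lit 1292) (nat_lit 17320206398) (nat_lit 242) (nat_lit 5) (nat_lit 258) (nat_lit 5) (nat_lit 259) (nat_lit 5) (nat_lit 360) (nat_lit 351) (nat_lit 189)) (XT.nd (nat_lit 78) (nat_lit 1216) (nat_lit 0) (XT.lf (nat_lit 0) (nat_lit 46630306471) (nat_lit 1216) (nat_lit 15973074556) (nat_lit 76) (nat_lit 725051190) (nat_lit 243) (nat_lit 5) (nat_lit 259) (nat_lit 5) (nat_lit 244) (nat_lit 5) (nat_lit 361) (nat_lit 351) (nat_lit 188)) (XT.lf (nat_lit 0) (nat_lit 38737838400) (nat_lit 1216) (nat_lit 17469393012) (nat_lit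 1292) (nat_lit 8839169753) (nat_lit 227) (nat_lit 5) (nat_lit 243) (nat_lit 5) (nat_lit 244) (nat_lit 5) (nat_lit 362) (nat_lit 351) (nat_lit 187)))) (XT.nd (nat_lit 78) (nat_lit 1216) (nat_lit 0) (XT.lf (nat_lit 0) (nat_lit 171465020) (nat_lit 684) (nat_lit 36863128638) (nat_lit 76) (nat_lit 29793426987) (nat_lit 218) (nat_lit 5) (nat_lit 227) (nat_lit 5) (nat_lit 219) (nat_lit 5) (nat_lit 363) (nat_lit 351) (nat_lit 186)) (XT.nd (nat_lit 78) (nat_lit 608) (nat_lit 0) (XT.lf (nat_lit 0) (nat_lit 10207239012) (nat_lit 684) (nat_lit 47729637239) (nat_lit 76) (nat_lit 10736497729) (nat_lit 210) (nat_lit 5) (nat_lit 219) (nat_lit 5) (nat_lit 211) (nat_lit 5) (nat_lit 364) (nat_lit 351) (nat_lit 185)) (XT.lf (nat_lit 0) (nat_lit 11660009182) (nat_lit 608) (nat_lit 9952235905) (nat_lit 684) (nat_lit 48972727380) (nat_lit 202) (nat_lit 5) (nat_lit 210) (nat_lit 5) (nat_lit 211) (nat_lit 5) (nat_lit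 365) (nat_lit 351) (nat_lit 184))))) (XT.nd (nat_lit 234) (nat_lit 1520) (nat_lit 0) (XT.nd (nat_lit 78) (nat_lit 532) (nat_lit 0) (XT.lf (nat_lit 0) (nat_lit 2084665818) (nat_lit 532) (nat_lit 32406122633) (nat_lit 608) (nat_lit 38074264570) (nat_lit 195) (nat_lit 5) (nat_lit 202) (nat_lit 5) (nat_lit 203) (nat_lit 5) (nat_lit 366) (nat_lit 351) (nat_lit 183)) (XT.nd (nat_lit 78) (nat_lit 532) (nat_lit 0) (XT.lf (nat_lit 0) (nat_lit 48896116942) (nat_lit 608) (nat_lit 7529258150) (nat_lit 76) (nat_lit 18192277487) (nat_lit 195) (nat_lit 5) (nat_lit 203) (nat_lit 5) (nat_lit 196) (nat_lit 5) (nat_lit 367) (nat_lit 351) (nat_lit 182)) (XT.lf (nat_lit 0) (nat_lit 59399896931) (nat_lit 532) (nat_lit 5518415329) (nat_lit 608) (nat_lit 11827672523) (nat_lit 188) (nat_lit 5) (nat_lit 195) (nat_lit 5) (nat_lit 196) (nat_lit 5) (nat_lit 368) (nat_lit 351) (nat_lit 181)))) (XT.nd (nat_lit 78) (nat_lit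 988) (nat_lit 0) (XT.lf (nat_lit 0) (nat_lit 3748884049) (nat_lit 532) (nat_lit 27592299202) (nat_lit 76) (nat_lit 47607498545) (nat_lit 181) (nat_lit 5) (nat_lit 188) (nat_lit 5) (nat_lit 182) (nat_lit 5) (nat_lit 369) (nat_lit 351) (nat_lit 180)) (XT.nd (nat_lit 78) (nat_lit 456) (nat_lit 0) (XT.lf (nat_lit 0) (nat_lit 20731203979) (nat_lit 608) (nat_lit 38190938466) (nat_lit 76) (nat_lit 22309712145) (nat_lit 174) (nat_lit 5) (nat_lit 182) (nat_lit 5) (nat_lit 175) (nat_lit 5) (nat_lit 370) (nat_lit 351) (nat_lit 179)) (XT.lf (nat_lit 0) (nat_lit 34514552568) (nat_lit 456) (nat_lit 4981719658) (nat_lit 532) (nat_lit 44104905401) (nat_lit 168) (nat_lit 5) (nat_lit 174) (nat_lit 5) (nat_lit 175) (nat_lit 5) (nat_lit 371) (nat_lit 351) (nat_lit 178))))))))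
noncomputable def xc119 : XT := (XT.nd (nat_lit 46098) (nat_lit 0) (nat_lit 380) (XT.nd (nat_lit 936) (nat_lit 380) (nat_lit 0) (XT.nd (nat_lit 468) (nat_lit 2052) (nat_lit 0) (XT.nd (nat_lit 234) (nat_lit 760) (nat_lit 0) (XT.nd (nat_lit 78) (nat_lit 912) (nat_lit 0) (XT.lf (nat_lit 0) (nat_lit 25573289396) (nat_lit 456) (nat_lit 34764430997) (nat_lit 532) (nat_lit 25717103171) (nat_lit 162) (nat_lit 5) (nat_lit 168) (nat_lit 5) (nat_lit 169) (nat_lit 5) (nat_lit 372) (nat_lit 351) (nat_lit 177)) (XT.nd (nat_lit 78) (nat_lit 532) (nat_lit 0) (XT.lf (nat_lit 0) (nat_lit 16432265531) (nat_lit 380) (nat_lit 66713845836) (nat_lit 456) (nat_lit 5457294836) (nat_lit 157) (nat_lit 5) (nat_lit 162) (nat_lit 5) (nat_lit 163) (nat_lit 5) (nat_lit 373) (nat_lit 351) (nat_lit 176)) (XT.lf (nat_lit 0) (nat_lit 6817359124) (nat_lit 456) (nat_lit 9733510547) (nat_lit 532) (nat_lit 74692668439) (nat_lit 150)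 (nat_lit 5) (nat_lit 156) (nat_lit 5) (nat_lit 157) (nat_lit 5) (nat_lit 374) (nat_lit 351) (nat_lit 175)))) (XT.nd (nat_lit 78) (nat_lit 760) (nat_lit 0) (XT.lf (nat_lit 0) (nat_lit 40778309140) (nat_lit 532) (nat_lit 3275414205) (nat_lit 76) (nat_lit 49923380784) (nat_lit 150) (nat_lit 5) (nat_lit 157) (nat_lit 5) (nat_lit 151) (nat_lit 5) (nat_lit 375) (nat_lit 351) (nat_lit 174)) (XT.nd (nat_lit 78) (nat_lit 380) (nat_lit 0) (XT.lf (nat_lit 0) (nat_lit 67273663445) (nat_lit 456) (nat_lit 13515613683) (nat_lit 76) (nat_lit 16026375471) (nat_lit 145) (nat_lit 5) (nat_lit 151) (nat_lit 5) (nat_lit 146) (nat_lit 5) (nat_lit 376) (nat_lit 351) (nat_lit 173)) (XT.lf (nat_lit 0) (nat_lit 75504578779) (nat_lit 380) (nat_lit 20792628002) (nat_lit 456) (nat_lit 3462819485) (nat_lit 140) (nat_lit 5) (nat_lit 145) (nat_lit 5) (nat_lit 146) (nat_lit 5) (nat_lit 377) (nat_lit 351) (nat_lit 172))))) (XT.nd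 (nat_lit 234) (nat_lit 988) (nat_lit 0) (XT.nd (nat_lit 78) (nat_lit 684) (nat_lit 0) (XT.lf (nat_lit 0) (nat_lit 24657584536) (nat_lit 380) (nat_lit 35741702313) (nat_lit 76) (nat_lit 42409312634) (nat_lit 135) (nat_lit 5) (nat_lit 140) (nat_lit 5) (nat_lit 136) (nat_lit 5) (nat_lit 378) (nat_lit 351) (nat_lit 171)) (XT.nd (nat_lit 78) (nat_lit 304) (nat_lit 0) (XT.lf (nat_lit 0) (nat_lit 55165875602) (nat_lit 456) (nat_lit 47658725274) (nat_lit 76) (nat_lit 3152367791) (nat_lit 130) (nat_lit 5) (nat_lit 136) (nat_lit 5) (nat_lit 131) (nat_lit 5) (nat_lit 379) (nat_lit 351) (nat_lit 170)) (XT.lf (nat_lit 0) (nat_lit 48874455098) (nat_lit 304) (nat_lit 39775155650) (nat_lit 380) (nat_lit 20610645023) (nat_lit 126) (nat_lit 5) (nat_lit 130) (nat_lit 5) (nat_lit 131) (nat_lit 5) (nat_lit 380) (nat_lit 351) (nat_lit 169)))) (XT.nd (nat_lit 78) (nat_lit 608) (nat_lit 0) (XT.lf (nat_lit 0) (nat_lit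 12018163126) (nat_lit 380) (nat_lit 73753030746) (nat_lit 76) (nat_lit 26899264671) (nat_lit 121) (nat_lit 5) (nat_lit 126) (nat_lit 5) (nat_lit 122) (nat_lit 5) (nat_lit 381) (nat_lit 351) (nat_lit 168)) (XT.nd (nat_lit 78) (nat_lit 304) (nat_lit 0) (XT.lf (nat_lit 0) (nat_lit 28147471050) (nat_lit 304) (nat_lit 19007522586) (nat_lit 380) (nat_lit 69050970899) (nat_lit 117) (nat_lit 5) (nat_lit 121) (nat_lit 5) (nat_lit 122) (nat_lit 5) (nat_lit 382) (nat_lit 351) (nat_lit 167)) (XT.lf (nat_lit 0) (nat_lit 16612951605) (nat_lit 304) (nat_lit 68852400317) (nat_lit 380) (nat_lit 34410393608) (nat_lit 113) (nat_lit 5) (nat_lit 117) (nat_lit 5) (nat_lit 118) (nat_lit 5) (nat_lit 383) (nat_lit 351) (nat_lit 166)))))) (XT.nd (nat_lit 44694) (nat_lit 0) (nat_lit 9880) (XT.nd (nat_lit 44460) (nat_lit 0) (nat_lit 9728) (XT.nd (nat_lit 78) (nat_lit 0) (nat_lit 0) (XT.lf (nat_lit 0) (nat_lit 3087774222)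 (nat_lit 380) (nat_lit 119184280116) (nat_lit 76) (nat_lit 1421480101) (nat_lit 108) (nat_lit 5) (nat_lit 113) (nat_lit 5) (nat_lit 109) (nat_lit 5) (nat_lit 384) (nat_lit 351) (nat_lit 165)) (XT.nd (nat_lit 44304) (nat_lit 0) (nat_lit 9652) (XT.lf (nat_lit 0) (nat_lit 43523424585) (nat_lit 380) (nat_lit 8896585251) (nat_lit 76) (nat_lit 75218755289) (nat_lit 108) (nat_lit 5) (nat_lit 113) (nat_lit 5) (nat_lit 109) (nat_lit 5) (nat_lit 385) (nat_lit 351) (nat_lit 164)) (XT.lf (nat_lit 0) (nat_lit 3283813540) (nat_lit 1292) (nat_lit 11235158673) (nat_lit 1292) (nat_lit 11235158673) (nat_lit 235) (nat_lit 3) (nat_lit 252) (nat_lit 3) (nat_lit 252) (nat_lit 5) (nat_lit 352) (nat_lit 352) (nat_lit 196)))) (XT.nd (nat_lit 78) (nat_lit 0) (nat_lit 76) (XT.lf (nat_lit 0) (nat_lit 7068797727) (nat_lit 1216) (nat_lit 33973896035) (nat_lit 1292) (nat_lit 11743144491) (nat_lit 236) (nat_lit 5) (nat_lit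 252) (nat_lit 5) (nat_lit 253) (nat_lit 5) (nat_lit 353) (nat_lit 352) (nat_lit 195)) (XT.nd (nat_lit 78) (nat_lit 0) (nat_lit 0) (XT.lf (nat_lit 0) (nat_lit 8201336596) (nat_lit 1216) (nat_lit 45736708329) (nat_lit 1292) (nat_lit 171060664) (nat_lit 237) (nat_lit 5) (nat_lit 253) (nat_lit 5) (nat_lit 254) (nat_lit 5) (nat_lit 354) (nat_lit 352) (nat_lit 194)) (XT.lf (nat_lit 0) (nat_lit 10155514719) (nat_lit 1216) (nat_lit 2361276482) (nat_lit 1292) (nat_lit 42958795981) (nat_lit 237) (nat_lit 5) (nat_lit 253) (nat_lit 5) (nat_lit 254) (nat_lit 5) (nat_lit 355) (nat_lit 352) (nat_lit 193))))) (XT.nd (nat_lit 234) (nat_lit 0) (nat_lit 152) (XT.nd (nat_lit 78) (nat_lit 0) (nat_lit 76) (XT.lf (nat_lit 0) (nat_lit 12930386521) (nat_lit 1216) (nat_lit 13158800398) (nat_lit 1292) (nat_lit 30799517592) (nat_lit 238) (nat_lit 5) (nat_lit 254) (nat_lit 5) (nat_lit 255) (nat_lit 5) (nat_lit 356) (nat_lit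 352) (nat_lit 192)) (XT.nd (nat_lit 78) (nat_lit 0) (nat_lit 76) (XT.lf (nat_lit 0) (nat_lit 16496064433) (nat_lit 1216) (nat_lit 24185933181) (nat_lit 1292) (nat_lit 17670919361) (nat_lit 239) (nat_lit 5) (nat_lit 255) (nat_lit 5) (nat_lit 256) (nat_lit 5) (nat_lit 357) (nat_lit 352) (nat_lit 191)) (XT.lf (nat_lit 0) (nat_lit 20907617543) (nat_lit 1216) (nat_lit 35446910381) (nat_lit 1292) (nat_lit 3515785485) (nat_lit 240) (nat_lit 5) (nat_lit 256) (nat_lit 5) (nat_lit 257) (nat_lit 5) (nat_lit 358) (nat_lit 352) (nat_lit 190)))) (XT.nd (nat_lit 78) (nat_lit 0) (nat_lit 76) (XT.lf (nat_lit 76) (nat_lit 14378511964) (nat_lit 0) (nat_lit 11959480275) (nat_lit 1292) (nat_lit 35101641147) (nat_lit 241) (nat_lit 5) (nat_lit 240) (nat_lit 5) (nat_lit 257) (nat_lit 5) (nat_lit 359) (nat_lit 352) (nat_lit 189)) (XT.nd (nat_lit 78) (nat_lit 0) (nat_lit 76) (XT.lf (nat_lit 76) (nat_lit 4101240449) (nat_lit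 0) (nat_lit 28677769166) (nat_lit 1292) (nat_lit 30286237015) (nat_lit 242) (nat_lit 5) (nat_lit 241) (nat_lit 5) (nat_lit 258) (nat_lit 5) (nat_lit 360) (nat_lit 352) (nat_lit 188)) (XT.lf (nat_lit 0) (nat_lit 40322382724) (nat_lit 1216) (nat_lit 6251687783) (nat_lit 1292) (nat_lit 18174661822) (nat_lit 242) (nat_lit 5) (nat_lit 258) (nat_lit 5) (nat_lit 259) (nat_lit 5) (nat_lit 361) (nat_lit 352) (nat_lit 187))))))) (XT.nd (nat_lit 936) (nat_lit 3724) (nat_lit 0) (XT.nd (nat_lit 468) (nat_lit 2508) (nat_lit 0) (XT.nd (nat_lit 234) (nat_lit 1748) (nat_lit 0) (XT.nd (nat_lit 78) (nat_lit 1900) (nat_lit 0) (XT.lf (nat_lit 0) (nat_lit 49016472722) (nat_lit 1216) (nat_lit 16724131100) (nat_lit 76) (nat_lit 752582940) (nat_lit 243) (nat_lit 5) (nat_lit 259) (nat_lit 5) (nat_lit 244) (nat_lit 5) (nat_lit 362) (nat_lit 352) (nat_lit 186)) (XT.nd (nat_lit 78) (nat_lit 684) (nat_lit 0) (XT.lf (nat_lit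 0) (nat_lit 40720963140) (nat_lit 1216) (nat_lit 18349122762) (nat_lit 1292) (nat_lit 9227034306) (nat_lit 227) (nat_lit 5) (nat_lit 243) (nat_lit 5) (nat_lit 244) (nat_lit 5) (nat_lit 363) (nat_lit 352) (nat_lit 185)) (XT.lf (nat_lit 0) (nat_lit 230944741) (nat_lit 684) (nat_lit 38658726543) (nat_lit 76) (nat_lit 31278198949) (nat_lit 218) (nat_lit 5) (nat_lit 227) (nat_lit 5) (nat_lit 219) (nat_lit 5) (nat_lit 364) (nat_lit 352) (nat_lit 184)))) (XT.nd (nat_lit 78) (nat_lit 1140) (nat_lit 0) (XT.lf (nat_lit 0) (nat_lit 10766501119) (nat_lit 684) (nat_lit 50068406688) (nat_lit 76) (nat_lit 11270644771) (nat_lit 210) (nat_lit 5) (nat_lit 219) (nat_lit 5) (nat_lit 211) (nat_lit 5) (nat_lit 365) (nat_lit 352) (nat_lit 183)) (XT.nd (nat_lit 78) (nat_lit 532) (nat_lit 0) (XT.lf (nat_lit 0) (nat_lit 12289354387) (nat_lit 608) (nat_lit 10450520026) (nat_lit 684) (nat_lit 51372914170) (nat_lit 202)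 (nat_lit 5) (nat_lit 210) (nat_lit 5) (nat_lit 211) (nat_lit 5) (nat_lit 366) (nat_lit 352) (nat_lit 182)) (XT.lf (nat_lit 0) (nat_lit 2235313114) (nat_lit 532) (nat_lit 34025232927) (nat_lit 608) (nat_lit 39931382137) (nat_lit 195) (nat_lit 5) (nat_lit 202) (nat_lit 5) (nat_lit 203) (nat_lit 5) (nat_lit 367) (nat_lit 352) (nat_lit 181))))) (XT.nd (nat_lit 234) (nat_lit 1444) (nat_lit 0) (XT.nd (nat_lit 78) (nat_lit 1064) (nat_lit 0) (XT.lf (nat_lit 0) (nat_lit 51383998658) (nat_lit 608) (nat_lit 7860216292) (nat_lit 76) (nat_lit 19103008030) (nat_lit 195) (nat_lit 5) (nat_lit 203) (nat_lit 5) (nat_lit 196) (nat_lit 5) (nat_lit 368) (nat_lit 352) (nat_lit 180)) (XT.nd (nat_lit 78) (nat_lit 532) (nat_lit 0) (XT.lf (nat_lit 0) (nat_lit 62414092158) (nat_lit 532) (nat_lit 5791585234) (nat_lit 608) (nat_lit 12376344144) (nat_lit 188) (nat_lit 5) (nat_lit 195) (nat_lit 5) (nat_lit 196) (nat_lit 5)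 (nat_lit 369) (nat_lit 352) (nat_lit 179)) (XT.lf (nat_lit 0) (nat_lit 3976666452) (nat_lit 532) (nat_lit 28926959786) (nat_lit 76) (nat_lit 49991261933) (nat_lit 181) (nat_lit 5) (nat_lit 188) (nat_lit 5) (nat_lit 182) (nat_lit 5) (nat_lit 370) (nat_lit 352) (nat_lit 178)))) (XT.nd (nat_lit 78) (nat_lit 912) (nat_lit 0) (XT.lf (nat_lit 0) (nat_lit 21806647670) (nat_lit 608) (nat_lit 40055684194) (nat_lit 76) (nat_lit 23429932219) (nat_lit 174) (nat_lit 5) (nat_lit 182) (nat_lit 5) (nat_lit 175) (nat_lit 5) (nat_lit 371) (nat_lit 352) (nat_lit 177)) (XT.nd (nat_lit 78) (nat_lit 456) (nat_lit 0) (XT.lf (nat_lit 0) (nat_lit 36283797175) (nat_lit 456) (nat_lit 5224738872) (nat_lit 532) (nat_lit 46271561021) (nat_lit 168) (nat_lit 5) (nat_lit 174) (nat_lit 5) (nat_lit 175) (nat_lit 5) (nat_lit 372) (nat_lit 352) (nat_lit 176)) (XT.lf (nat_lit 0) (nat_lit 26895273573) (nat_lit 456) (nat_lit 36495471662)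 (nat_lit 532) (nat_lit 26965720166) (nat_lit 162) (nat_lit 5) (nat_lit 168) (nat_lit 5) (nat_lit 169) (nat_lit 5) (nat_lit 373) (nat_lit 352) (nat_lit 175)))))) (XT.nd (nat_lit 468) (nat_lit 1672) (nat_lit 0) (XT.nd (nat_lit 234) (nat_lit 1140) (nat_lit 0) (XT.nd (nat_lit 78) (nat_lit 532) (nat_lit 0) (XT.lf (nat_lit 0) (nat_lit 17296957544) (nat_lit 380) (nat_lit 70041357156) (nat_lit 456) (nat_lit 5694200426) (nat_lit 157) (nat_lit 5) (nat_lit 162) (nat_lit 5) (nat_lit 163) (nat_lit 5) (nat_lit 374) (nat_lit 352) (nat_lit 174)) (XT.nd (nat_lit 78) (nat_lit 0) (nat_lit 0) (XT.lf (nat_lit 0) (nat_lit 7200766183) (nat_lit 456) (nat_lit 10211634416) (nat_lit 532) (nat_lit 78392281429) (nat_lit 150) (nat_lit 5) (nat_lit 156) (nat_lit 5) (nat_lit 157) (nat_lit 5) (nat_lit 375) (nat_lit 352) (nat_lit 173)) (XT.lf (nat_lit 0) (nat_lit 42849671881) (nat_lit 532) (nat_lit 3397765976) (nat_lit 76) (nat_lit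 52427535332) (nat_lit 150) (nat_lit 5) (nat_lit 157) (nat_lit 5) (nat_lit 151) (nat_lit 5) (nat_lit 376) (nat_lit 352) (nat_lit 172)))) (XT.nd (nat_lit 78) (nat_lit 760) (nat_lit 0) (XT.lf (nat_lit 0) (nat_lit 70668721487) (nat_lit 456) (nat_lit 14150297867) (nat_lit 76) (nat_lit 16836462507) (nat_lit 145) (nat_lit 5) (nat_lit 151) (nat_lit 5) (nat_lit 146) (nat_lit 5) (nat_lit 377) (nat_lit 352) (nat_lit 171)) (XT.nd (nat_lit 78) (nat_lit 380) (nat_lit 0) (XT.lf (nat_lit 0) (nat_lit 79319726195) (nat_lit 380) (nat_lit 21822605474) (nat_lit 456) (nat_lit 3604776429) (nat_lit 140) (nat_lit 5) (nat_lit 145) (nat_lit 5) (nat_lit 146) (nat_lit 5) (nat_lit 378) (nat_lit 352) (nat_lit 170)) (XT.lf (nat_lit 0) (nat_lit 25920056766) (nat_lit 380) (nat_lit 37488610588) (nat_lit 76) (nat_lit 44539463638) (nat_lit 135) (nat_lit 5) (nat_lit 140) (nat_lit 5) (nat_lit 136) (nat_lit 5) (nat_lit 379) (nat_lit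 352) (nat_lit 169))))) (XT.nd (nat_lit 234) (nat_lit 608) (nat_lit 0) (XT.nd (nat_lit 78) (nat_lit 684) (nat_lit 0) (XT.lf (nat_lit 0) (nat_lit 57952828936) (nat_lit 456) (nat_lit 50001870031) (nat_lit 76) (nat_lit 3320248180) (nat_lit 130) (nat_lit 5) (nat_lit 136) (nat_lit 5) (nat_lit 131) (nat_lit 5) (nat_lit 380) (nat_lit 352) (nat_lit 168)) (XT.nd (nat_lit 78) (nat_lit 380) (nat_lit 0) (XT.lf (nat_lit 0) (nat_lit 51356828744) (nat_lit 304) (nat_lit 41752928891) (nat_lit 380) (nat_lit 21612671251) (nat_lit 126) (nat_lit 5) (nat_lit 130) (nat_lit 5) (nat_lit 131) (nat_lit 5) (nat_lit 381) (nat_lit 352) (nat_lit 167)) (XT.lf (nat_lit 0) (nat_lit 12646163048) (nat_lit 380) (nat_lit 77401878139) (nat_lit 76) (nat_lit 28255118578) (nat_lit 121) (nat_lit 5) (nat_lit 126) (nat_lit 5) (nat_lit 122) (nat_lit 5) (nat_lit 382) (nat_lit 352) (nat_lit 166)))) (XT.nd (nat_lit 78) (nat_lit 304) (nat_lit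 0) (XT.lf (nat_lit 0) (nat_lit 29592536433) (nat_lit 304) (nat_lit 19946370883) (nat_lit 380) (nat_lit 72476561999) (nat_lit 117) (nat_lit 5) (nat_lit 121) (nat_lit 5) (nat_lit 122) (nat_lit 5) (nat_lit 383) (nat_lit 352) (nat_lit 165)) (XT.nd (nat_lit 44460) (nat_lit 0) (nat_lit 9272) (XT.lf (nat_lit 0) (nat_lit 17480873654) (nat_lit 304) (nat_lit 72283127799) (nat_lit 380) (nat_lit 36104761776) (nat_lit 113) (nat_lit 5) (nat_lit 117) (nat_lit 5) (nat_lit 118) (nat_lit 5) (nat_lit 384) (nat_lit 352) (nat_lit 164)) (XT.lf (nat_lit 0) (nat_lit 3487260904) (nat_lit 1292) (nat_lit 11776689241) (nat_lit 1292) (nat_lit 11776689241) (nat_lit 235) (nat_lit 3) (nat_lit 252) (nat_lit 3) (nat_lit 252) (nat_lit 5) (nat_lit 353) (nat_lit 353) (nat_lit 194))))))))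
noncomputable def xc120 : XT := (XT.nd (nat_lit 1794) (nat_lit 2508) (nat_lit 0) (XT.nd (nat_lit 858) (nat_lit 5852) (nat_lit 0) (XT.nd (nat_lit 390) (nat_lit 684) (nat_lit 0) (XT.nd (nat_lit 156) (nat_lit 0) (nat_lit 76) (XT.nd (nat_lit 78) (nat_lit 0) (nat_lit 76) (XT.lf (nat_lit 0) (nat_lit 7497045302) (nat_lit 1216) (nat_lit 35630657731) (nat_lit 1292) (nat_lit 12295144154) (nat_lit 236) (nat_lit 5) (nat_lit 252) (nat_lit 5) (nat_lit 253) (nat_lit 5) (nat_lit 354) (nat_lit 353) (nat_lit 193)) (XT.lf (nat_lit 0) (nat_lit 8682743289) (nat_lit 1216) (nat_lit 47980329546) (nat_lit 1292) (nat_lit 149310934) (nat_lit 237) (nat_lit 5) (nat_lit 253) (nat_lit 5) (nat_lit 254) (nat_lit 5) (nat_lit 355) (nat_lit 353) (nat_lit 192))) (XT.nd (nat_lit 78) (nat_lit 0) (nat_lit 76) (XT.lf (nat_lit 0) (nat_lit 10731233182) (nat_lit 1216) (nat_lit 2438183926) (nat_lit 1292) (nat_lit 45077876005) (nat_lit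 237) (nat_lit 5) (nat_lit 253) (nat_lit 5) (nat_lit 254) (nat_lit 5) (nat_lit 356) (nat_lit 353) (nat_lit 191)) (XT.nd (nat_lit 78) (nat_lit 0) (nat_lit 76) (XT.lf (nat_lit 0) (nat_lit 13641756066) (nat_lit 1216) (nat_lit 13774536135) (nat_lit 1292) (nat_lit 32314868557) (nat_lit 238) (nat_lit 5) (nat_lit 254) (nat_lit 5) (nat_lit 255) (nat_lit 5) (nat_lit 357) (nat_lit 353) (nat_lit 190)) (XT.lf (nat_lit 0) (nat_lit 17382820413) (nat_lit 1216) (nat_lit 25352135351) (nat_lit 1292) (nat_lit 18533716598) (nat_lit 239) (nat_lit 5) (nat_lit 255) (nat_lit 5) (nat_lit 256) (nat_lit 5) (nat_lit 358) (nat_lit 353) (nat_lit 189))))) (XT.nd (nat_lit 234) (nat_lit 988) (nat_lit 0) (XT.nd (nat_lit 78) (nat_lit 0) (nat_lit 0) (XT.lf (nat_lit 0) (nat_lit 22012234763) (nat_lit 1216) (nat_lit 37175415535) (nat_lit 1292) (nat_lit 3674371332) (nat_lit 240) (nat_lit 5) (nat_lit 256) (nat_lit 5) (nat_lit 257) (nat_lit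 5) (nat_lit 359) (nat_lit 353) (nat_lit 188)) (XT.nd (nat_lit 78) (nat_lit 0) (nat_lit 76) (XT.lf (nat_lit 76) (nat_lit 15140021252) (nat_lit 0) (nat_lit 12571695502) (nat_lit 1292) (nat_lit 36798164639) (nat_lit 241) (nat_lit 5) (nat_lit 240) (nat_lit 5) (nat_lit 257) (nat_lit 5) (nat_lit 360) (nat_lit 353) (nat_lit 187)) (XT.lf (nat_lit 76) (nat_lit 4349482446) (nat_lit 0) (nat_lit 30122881301) (nat_lit 1292) (nat_lit 31744485566) (nat_lit 242) (nat_lit 5) (nat_lit 241) (nat_lit 5) (nat_lit 258) (nat_lit 5) (nat_lit 361) (nat_lit 353) (nat_lit 186)))) (XT.nd (nat_lit 78) (nat_lit 1140) (nat_lit 0) (XT.lf (nat_lit 0) (nat_lit 42390212111) (nat_lit 1216) (nat_lit 6521465018) (nat_lit 1292) (nat_lit 19072914282) (nat_lit 242) (nat_lit 5) (nat_lit 258) (nat_lit 5) (nat_lit 259) (nat_lit 5) (nat_lit 362) (nat_lit 353) (nat_lit 185)) (XT.nd (nat_lit 78) (nat_lit 1216) (nat_lit 0) (XT.lf (nat_lit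 0) (nat_lit 51516866360) (nat_lit 1216) (nat_lit 17517165606) (nat_lit 76) (nat_lit 782302056) (nat_lit 243) (nat_lit 5) (nat_lit 259) (nat_lit 5) (nat_lit 244) (nat_lit 5) (nat_lit 363) (nat_lit 353) (nat_lit 184)) (XT.lf (nat_lit 0) (nat_lit 42798945828) (nat_lit 1216) (nat_lit 19272256996) (nat_lit 1292) (nat_lit 9639321228) (nat_lit 227) (nat_lit 5) (nat_lit 243) (nat_lit 5) (nat_lit 244) (nat_lit 5) (nat_lit 364) (nat_lit 353) (nat_lit 183)))))) (XT.nd (nat_lit 468) (nat_lit 2888) (nat_lit 0) (XT.nd (nat_lit 234) (nat_lit 1064) (nat_lit 0) (XT.nd (nat_lit 78) (nat_lit 1216) (nat_lit 0) (XT.lf (nat_lit 0) (nat_lit 288665647) (nat_lit 684) (nat_lit 40548525884) (nat_lit 76) (nat_lit 32837665008) (nat_lit 218) (nat_lit 5) (nat_lit 227) (nat_lit 5) (nat_lit 219) (nat_lit 5) (nat_lit 365) (nat_lit 353) (nat_lit 182)) (XT.nd (nat_lit 78) (nat_lit 608) (nat_lit 0) (XT.lf (nat_lit 0) (nat_lit 11349180058)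 (nat_lit 684) (nat_lit 52528550458) (nat_lit 76) (nat_lit 11831748126) (nat_lit 210) (nat_lit 5) (nat_lit 219) (nat_lit 5) (nat_lit 211) (nat_lit 5) (nat_lit 366) (nat_lit 353) (nat_lit 181)) (XT.lf (nat_lit 0) (nat_lit 12945858157) (nat_lit 608) (nat_lit 10973655847) (nat_lit 684) (nat_lit 53897614682) (nat_lit 202) (nat_lit 5) (nat_lit 210) (nat_lit 5) (nat_lit 211) (nat_lit 5) (nat_lit 367) (nat_lit 353) (nat_lit 180)))) (XT.nd (nat_lit 78) (nat_lit 532) (nat_lit 0) (XT.lf (nat_lit 0) (nat_lit 2389177641) (nat_lit 532) (nat_lit 35725409913) (nat_lit 608) (nat_lit 41885687606) (nat_lit 195) (nat_lit 5) (nat_lit 202) (nat_lit 5) (nat_lit 203) (nat_lit 5) (nat_lit 368) (nat_lit 353) (nat_lit 179)) (XT.nd (nat_lit 78) (nat_lit 532) (nat_lit 0) (XT.lf (nat_lit 0) (nat_lit 53992269675) (nat_lit 608) (nat_lit 8211952944) (nat_lit 76) (nat_lit 20059171283) (nat_lit 195) (nat_lit 5) (nat_lit 203)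 (nat_lit 5) (nat_lit 196) (nat_lit 5) (nat_lit 369) (nat_lit 353) (nat_lit 178)) (XT.lf (nat_lit 0) (nat_lit 65574887814) (nat_lit 532) (nat_lit 6078669384) (nat_lit 608) (nat_lit 12956420304) (nat_lit 188) (nat_lit 5) (nat_lit 195) (nat_lit 5) (nat_lit 196) (nat_lit 5) (nat_lit 370) (nat_lit 353) (nat_lit 177))))) (XT.nd (nat_lit 234) (nat_lit 1368) (nat_lit 0) (XT.nd (nat_lit 78) (nat_lit 988) (nat_lit 0) (XT.lf (nat_lit 0) (nat_lit 4212087711) (nat_lit 532) (nat_lit 30332532832) (nat_lit 76) (nat_lit 52493898463) (nat_lit 181) (nat_lit 5) (nat_lit 188) (nat_lit 5) (nat_lit 182) (nat_lit 5) (nat_lit 371) (nat_lit 353) (nat_lit 176)) (XT.nd (nat_lit 78) (nat_lit 456) (nat_lit 0) (XT.lf (nat_lit 0) (nat_lit 22932248527) (nat_lit 608) (nat_lit 42017832398) (nat_lit 76) (nat_lit 24605723131) (nat_lit 174) (nat_lit 5) (nat_lit 182) (nat_lit 5) (nat_lit 175) (nat_lit 5) (nat_lit 372) (nat_lit 353)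 (nat_lit 175)) (XT.lf (nat_lit 0) (nat_lit 38137458215) (nat_lit 456) (nat_lit 5480473077) (nat_lit 532) (nat_lit 48550137121) (nat_lit 168) (nat_lit 5) (nat_lit 174) (nat_lit 5) (nat_lit 175) (nat_lit 5) (nat_lit 373) (nat_lit 353) (nat_lit 174)))) (XT.nd (nat_lit 78) (nat_lit 912) (nat_lit 0) (XT.lf (nat_lit 0) (nat_lit 28279329502) (nat_lit 456) (nat_lit 38313731970) (nat_lit 532) (nat_lit 28280230063) (nat_lit 162) (nat_lit 5) (nat_lit 168) (nat_lit 5) (nat_lit 169) (nat_lit 5) (nat_lit 374) (nat_lit 353) (nat_lit 173)) (XT.nd (nat_lit 78) (nat_lit 532) (nat_lit 0) (XT.lf (nat_lit 0) (nat_lit 18200879106) (nat_lit 380) (nat_lit 73536004631) (nat_lit 456) (nat_lit 5946294437) (nat_lit 157) (nat_lit 5) (nat_lit 162) (nat_lit 5) (nat_lit 163) (nat_lit 5) (nat_lit 375) (nat_lit 353) (nat_lit 172)) (XT.lf (nat_lit 0) (nat_lit 7599388712) (nat_lit 456) (nat_lit 10714459530) (nat_lit 532) (nat_lit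 82280130936) (nat_lit 150) (nat_lit 5) (nat_lit 156) (nat_lit 5) (nat_lit 157) (nat_lit 5) (nat_lit 376) (nat_lit 353) (nat_lit 171))))))) (XT.nd (nat_lit 45396) (nat_lit 0) (nat_lit 5928) (XT.nd (nat_lit 468) (nat_lit 684) (nat_lit 0) (XT.nd (nat_lit 234) (nat_lit 1064) (nat_lit 0) (XT.nd (nat_lit 78) (nat_lit 760) (nat_lit 0) (XT.lf (nat_lit 0) (nat_lit 45021586118) (nat_lit 532) (nat_lit 3530086075) (nat_lit 76) (nat_lit 55056155191) (nat_lit 150) (nat_lit 5) (nat_lit 157) (nat_lit 5) (nat_lit 151) (nat_lit 5) (nat_lit 377) (nat_lit 353) (nat_lit 170)) (XT.nd (nat_lit 78) (nat_lit 380) (nat_lit 0) (XT.lf (nat_lit 0) (nat_lit 74230615493) (nat_lit 456) (nat_lit 14820537023) (nat_lit 76) (nat_lit 17686238705) (nat_lit 145) (nat_lit 5) (nat_lit 151) (nat_lit 5) (nat_lit 146) (nat_lit 5) (nat_lit 378) (nat_lit 353) (nat_lit 169)) (XT.lf (nat_lit 0) (nat_lit 83321919741) (nat_lit 380) (nat_lit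 22904979351) (nat_lit 456) (nat_lit 3756730415) (nat_lit 140) (nat_lit 5) (nat_lit 145) (nat_lit 5) (nat_lit 146) (nat_lit 5) (nat_lit 379) (nat_lit 353) (nat_lit 168)))) (XT.nd (nat_lit 78) (nat_lit 684) (nat_lit 0) (XT.lf (nat_lit 0) (nat_lit 27242901331) (nat_lit 380) (nat_lit 39326599538) (nat_lit 76) (nat_lit 46775221738) (nat_lit 135) (nat_lit 5) (nat_lit 140) (nat_lit 5) (nat_lit 136) (nat_lit 5) (nat_lit 380) (nat_lit 353) (nat_lit 167)) (XT.nd (nat_lit 78) (nat_lit 304) (nat_lit 0) (XT.lf (nat_lit 0) (nat_lit 60876465444) (nat_lit 456) (nat_lit 52465871462) (nat_lit 76) (nat_lit 3495568525) (nat_lit 130) (nat_lit 5) (nat_lit 136) (nat_lit 5) (nat_lit 131) (nat_lit 5) (nat_lit 381) (nat_lit 353) (nat_lit 166)) (XT.lf (nat_lit 0) (nat_lit 53959727680) (nat_lit 304) (nat_lit 43830612032) (nat_lit 380) (nat_lit 22667449011) (nat_lit 126) (nat_lit 5) (nat_lit 130) (nat_lit 5) (nat_lit 131)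 (nat_lit 5) (nat_lit 382) (nat_lit 353) (nat_lit 165))))) (XT.nd (nat_lit 44694) (nat_lit 0) (nat_lit 9044) (XT.nd (nat_lit 78) (nat_lit 304) (nat_lit 0) (XT.lf (nat_lit 0) (nat_lit 13303044230) (nat_lit 380) (nat_lit 81236775544) (nat_lit 76) (nat_lit 29677752668) (nat_lit 121) (nat_lit 5) (nat_lit 126) (nat_lit 5) (nat_lit 122) (nat_lit 5) (nat_lit 383) (nat_lit 353) (nat_lit 164)) (XT.nd (nat_lit 44538) (nat_lit 0) (nat_lit 8968) (XT.lf (nat_lit 0) (nat_lit 31106350857) (nat_lit 304) (nat_lit 20933233343) (nat_lit 380) (nat_lit 76075938903) (nat_lit 117) (nat_lit 5) (nat_lit 121) (nat_lit 5) (nat_lit 122) (nat_lit 5) (nat_lit 384) (nat_lit 353) (nat_lit 163)) (XT.lf (nat_lit 0) (nat_lit 3697230922) (nat_lit 1292) (nat_lit 12347176887) (nat_lit 1292) (nat_lit 12347176887) (nat_lit 235) (nat_lit 3) (nat_lit 252) (nat_lit 3) (nat_lit 252) (nat_lit 5) (nat_lit 354) (nat_lit 354) (nat_lit 192))))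 (XT.nd (nat_lit 78) (nat_lit 0) (nat_lit 76) (XT.lf (nat_lit 0) (nat_lit 7939750345) (nat_lit 1216) (nat_lit 37374156055) (nat_lit 1292) (nat_lit 12878012416) (nat_lit 236) (nat_lit 5) (nat_lit 252) (nat_lit 5) (nat_lit 253) (nat_lit 5) (nat_lit 355) (nat_lit 354) (nat_lit 191)) (XT.nd (nat_lit 78) (nat_lit 0) (nat_lit 0) (XT.lf (nat_lit 0) (nat_lit 9181587813) (nat_lit 1216) (nat_lit 50340149471) (nat_lit 1292) (nat_lit 129290980) (nat_lit 237) (nat_lit 5) (nat_lit 253) (nat_lit 5) (nat_lit 254) (nat_lit 5) (nat_lit 356) (nat_lit 354) (nat_lit 190)) (XT.lf (nat_lit 0) (nat_lit 11329420898) (nat_lit 1216) (nat_lit 2522763072) (nat_lit 1292) (nat_lit 47305593138) (nat_lit 237) (nat_lit 5) (nat_lit 253) (nat_lit 5) (nat_lit 254) (nat_lit 5) (nat_lit 357) (nat_lit 354) (nat_lit 189)))))) (XT.nd (nat_lit 468) (nat_lit 3268) (nat_lit 0) (XT.nd (nat_lit 234) (nat_lit 0) (nat_lit 152) (XT.nd (nat_lit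 78) (nat_lit 0) (nat_lit 76) (XT.lf (nat_lit 0) (nat_lit 14382664929) (nat_lit 1216) (nat_lit 14424982413) (nat_lit 1292) (nat_lit 33908276462) (nat_lit 238) (nat_lit 5) (nat_lit 254) (nat_lit 5) (nat_lit 255) (nat_lit 5) (nat_lit 358) (nat_lit 354) (nat_lit 188)) (XT.nd (nat_lit 78) (nat_lit 0) (nat_lit 76) (XT.lf (nat_lit 0) (nat_lit 18308154411) (nat_lit 1216) (nat_lit 26580654147) (nat_lit 1292) (nat_lit 19441582717) (nat_lit 239) (nat_lit 5) (nat_lit 255) (nat_lit 5) (nat_lit 256) (nat_lit 5) (nat_lit 359) (nat_lit 354) (nat_lit 187)) (XT.lf (nat_lit 0) (nat_lit 23166575609) (nat_lit 1216) (nat_lit 38994421808) (nat_lit 1292) (nat_lit 3842485883) (nat_lit 240) (nat_lit 5) (nat_lit 256) (nat_lit 5) (nat_lit 257) (nat_lit 5) (nat_lit 360) (nat_lit 354) (nat_lit 186)))) (XT.nd (nat_lit 78) (nat_lit 0) (nat_lit 76) (XT.lf (nat_lit 76) (nat_lit 15935646977) (nat_lit 0) (nat_lit 13213197479)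 (nat_lit 1292) (nat_lit 38584958525) (nat_lit 241) (nat_lit 5) (nat_lit 240) (nat_lit 5) (nat_lit 257) (nat_lit 5) (nat_lit 361) (nat_lit 354) (nat_lit 185)) (XT.nd (nat_lit 78) (nat_lit 0) (nat_lit 76) (XT.lf (nat_lit 76) (nat_lit 4606122079) (nat_lit 0) (nat_lit 31639205572) (nat_lit 1292) (nat_lit 33280858778) (nat_lit 242) (nat_lit 5) (nat_lit 241) (nat_lit 5) (nat_lit 258) (nat_lit 5) (nat_lit 362) (nat_lit 354) (nat_lit 184)) (XT.lf (nat_lit 0) (nat_lit 44556625439) (nat_lit 1216) (nat_lit 6808710919) (nat_lit 1292) (nat_lit 20017053754) (nat_lit 242) (nat_lit 5) (nat_lit 258) (nat_lit 5) (nat_lit 259) (nat_lit 5) (nat_lit 363) (nat_lit 354) (nat_lit 183))))) (XT.nd (nat_lit 234) (nat_lit 1748) (nat_lit 0) (XT.nd (nat_lit 78) (nat_lit 1900) (nat_lit 0) (XT.lf (nat_lit 0) (nat_lit 54137671131) (nat_lit 1216) (nat_lit 18353865566) (nat_lit 76) (nat_lit 814242528) (nat_lit 243) (nat_lit 5)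 (nat_lit 259) (nat_lit 5) (nat_lit 244) (nat_lit 5) (nat_lit 364) (nat_lit 354) (nat_lit 182)) (XT.nd (nat_lit 78) (nat_lit 684) (nat_lit 0) (XT.lf (nat_lit 0) (nat_lit 44976928975) (nat_lit 1216) (nat_lit 20241020046) (nat_lit 1292) (nat_lit 10076784076) (nat_lit 227) (nat_lit 5) (nat_lit 243) (nat_lit 5) (nat_lit 244) (nat_lit 5) (nat_lit 365) (nat_lit 354) (nat_lit 181)) (XT.lf (nat_lit 0) (nat_lit 344979808) (nat_lit 684) (nat_lit 42536825661) (nat_lit 76) (nat_lit 34475517520) (nat_lit 218) (nat_lit 5) (nat_lit 227) (nat_lit 5) (nat_lit 219) (nat_lit 5) (nat_lit 366) (nat_lit 354) (nat_lit 180)))) (XT.nd (nat_lit 78) (nat_lit 1140) (nat_lit 0) (XT.lf (nat_lit 0) (nat_lit 11956869340) (nat_lit 684) (nat_lit 55115724862) (nat_lit 76) (nat_lit 12421132464) (nat_lit 210) (nat_lit 5) (nat_lit 219) (nat_lit 5) (nat_lit 211) (nat_lit 5) (nat_lit 367) (nat_lit 354) (nat_lit 179)) (XT.nd (nat_lit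 78) (nat_lit 532) (nat_lit 0) (XT.lf (nat_lit 0) (nat_lit 13631279001) (nat_lit 608) (nat_lit 11522891763) (nat_lit 684) (nat_lit 56552635827) (nat_lit 202) (nat_lit 5) (nat_lit 210) (nat_lit 5) (nat_lit 211) (nat_lit 5) (nat_lit 368) (nat_lit 354) (nat_lit 178)) (XT.lf (nat_lit 0) (nat_lit 2546821441) (nat_lit 532) (nat_lit 37510696591) (nat_lit 608) (nat_lit 43941637621) (nat_lit 195) (nat_lit 5) (nat_lit 202) (nat_lit 5) (nat_lit 203) (nat_lit 5) (nat_lit 369) (nat_lit 354) (nat_lit 177))))))))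
noncomputable def xc121 : XT := (XT.nd (nat_lit 46410) (nat_lit 0) (nat_lit 380) (XT.nd (nat_lit 936) (nat_lit 1064) (nat_lit 0) (XT.nd (nat_lit 468) (nat_lit 2052) (nat_lit 0) (XT.nd (nat_lit 234) (nat_lit 1444) (nat_lit 0) (XT.nd (nat_lit 78) (nat_lit 1064) (nat_lit 0) (XT.lf (nat_lit 0) (nat_lit 56727321783) (nat_lit 608) (nat_lit 8585113708) (nat_lit 76) (nat_lit 21063048534) (nat_lit 195) (nat_lit 5) (nat_lit 203) (nat_lit 5) (nat_lit 196) (nat_lit 5) (nat_lit 370) (nat_lit 354) (nat_lit 176)) (XT.nd (nat_lit 78) (nat_lit 532) (nat_lit 0) (XT.lf (nat_lit 0) (nat_lit 68889995967) (nat_lit 532) (nat_lit 6380339712) (nat_lit 608) (nat_lit 13569102047) (nat_lit 188) (nat_lit 5) (nat_lit 195) (nat_lit 5) (nat_lit 196) (nat_lit 5) (nat_lit 371) (nat_lit 354) (nat_lit 175)) (XT.lf (nat_lit 0) (nat_lit 4455878434) (nat_lit 532) (nat_lit 31812175397) (nat_lit 76) (nat_lit 55121381081) (nat_lit 181)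 (nat_lit 5) (nat_lit 188) (nat_lit 5) (nat_lit 182) (nat_lit 5) (nat_lit 372) (nat_lit 354) (nat_lit 174)))) (XT.nd (nat_lit 78) (nat_lit 912) (nat_lit 0) (XT.lf (nat_lit 0) (nat_lit 24110850499) (nat_lit 608) (nat_lit 44081865964) (nat_lit 76) (nat_lit 25839904345) (nat_lit 174) (nat_lit 5) (nat_lit 182) (nat_lit 5) (nat_lit 175) (nat_lit 5) (nat_lit 373) (nat_lit 354) (nat_lit 173)) (XT.nd (nat_lit 78) (nat_lit 456) (nat_lit 0) (XT.lf (nat_lit 0) (nat_lit 40080132652) (nat_lit 456) (nat_lit 5749505584) (nat_lit 532) (nat_lit 50945896176) (nat_lit 168) (nat_lit 5) (nat_lit 174) (nat_lit 5) (nat_lit 175) (nat_lit 5) (nat_lit 374) (nat_lit 354) (nat_lit 172)) (XT.lf (nat_lit 0) (nat_lit 29728935208) (nat_lit 456) (nat_lit 40223510837) (nat_lit 532) (nat_lit 29663605638) (nat_lit 162) (nat_lit 5) (nat_lit 168) (nat_lit 5) (nat_lit 169) (nat_lit 5) (nat_lit 375) (nat_lit 354) (nat_lit 171)))))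 (XT.nd (nat_lit 234) (nat_lit 1140) (nat_lit 0) (XT.nd (nat_lit 78) (nat_lit 532) (nat_lit 0) (XT.lf (nat_lit 0) (nat_lit 19146364044) (nat_lit 380) (nat_lit 77206074357) (nat_lit 456) (nat_lit 6214025476) (nat_lit 157) (nat_lit 5) (nat_lit 162) (nat_lit 5) (nat_lit 163) (nat_lit 5) (nat_lit 376) (nat_lit 354) (nat_lit 170)) (XT.nd (nat_lit 78) (nat_lit 0) (nat_lit 0) (XT.lf (nat_lit 0) (nat_lit 8014355172) (nat_lit 456) (nat_lit 11243147036) (nat_lit 532) (nat_lit 86365326087) (nat_lit 150) (nat_lit 5) (nat_lit 156) (nat_lit 5) (nat_lit 157) (nat_lit 5) (nat_lit 377) (nat_lit 354) (nat_lit 169)) (XT.lf (nat_lit 0) (nat_lit 47299359885) (nat_lit 532) (nat_lit 3672514915) (nat_lit 76) (nat_lit 57815532649) (nat_lit 150) (nat_lit 5) (nat_lit 157) (nat_lit 5) (nat_lit 151) (nat_lit 5) (nat_lit 378) (nat_lit 354) (nat_lit 168)))) (XT.nd (nat_lit 78) (nat_lit 760) (nat_lit 0) (XT.lf (nat_lit 0) (nat_lit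 77967958451) (nat_lit 456) (nat_lit 15527753682) (nat_lit 76) (nat_lit 18577764311) (nat_lit 145) (nat_lit 5) (nat_lit 151) (nat_lit 5) (nat_lit 146) (nat_lit 5) (nat_lit 379) (nat_lit 354) (nat_lit 167)) (XT.nd (nat_lit 78) (nat_lit 380) (nat_lit 0) (XT.lf (nat_lit 0) (nat_lit 87520856758) (nat_lit 380) (nat_lit 24042286008) (nat_lit 456) (nat_lit 3918911757) (nat_lit 140) (nat_lit 5) (nat_lit 145) (nat_lit 5) (nat_lit 146) (nat_lit 5) (nat_lit 380) (nat_lit 354) (nat_lit 166)) (XT.lf (nat_lit 0) (nat_lit 28629392635) (nat_lit 380) (nat_lit 41259875928) (nat_lit 76) (nat_lit 49121951005) (nat_lit 135) (nat_lit 5) (nat_lit 140) (nat_lit 5) (nat_lit 136) (nat_lit 5) (nat_lit 381) (nat_lit 354) (nat_lit 165)))))) (XT.nd (nat_lit 45006) (nat_lit 0) (nat_lit 8816) (XT.nd (nat_lit 44772) (nat_lit 0) (nat_lit 8664) (XT.nd (nat_lit 78) (nat_lit 684) (nat_lit 0) (XT.lf (nat_lit 0) (nat_lit 63943867002)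 (nat_lit 456) (nat_lit 55056428464) (nat_lit 76) (nat_lit 3678789524) (nat_lit 130) (nat_lit 5) (nat_lit 136) (nat_lit 5) (nat_lit 131) (nat_lit 5) (nat_lit 382) (nat_lit 354) (nat_lit 164)) (XT.nd (nat_lit 78) (nat_lit 380) (nat_lit 0) (XT.lf (nat_lit 0) (nat_lit 56689512248) (nat_lit 304) (nat_lit 46013105624) (nat_lit 380) (nat_lit 23777369486) (nat_lit 126) (nat_lit 5) (nat_lit 130) (nat_lit 5) (nat_lit 131) (nat_lit 5) (nat_lit 383) (nat_lit 354) (nat_lit 163)) (XT.lf (nat_lit 0) (nat_lit 13990484903) (nat_lit 380) (nat_lit 85266690056) (nat_lit 76) (nat_lit 31170600085) (nat_lit 121) (nat_lit 5) (nat_lit 126) (nat_lit 5) (nat_lit 122) (nat_lit 5) (nat_lit 384) (nat_lit 354) (nat_lit 162)))) (XT.nd (nat_lit 78) (nat_lit 0) (nat_lit 76) (XT.lf (nat_lit 0) (nat_lit 3914389041) (nat_lit 1292) (nat_lit 12947894628) (nat_lit 1292) (nat_lit 12947894628) (nat_lit 235) (nat_lit 3) (nat_lit 252)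 (nat_lit 3) (nat_lit 252) (nat_lit 5) (nat_lit 355) (nat_lit 355) (nat_lit 190)) (XT.nd (nat_lit 78) (nat_lit 0) (nat_lit 76) (XT.lf (nat_lit 0) (nat_lit 8398282333) (nat_lit 1216) (nat_lit 39208365388) (nat_lit 1292) (nat_lit 13492988824) (nat_lit 236) (nat_lit 5) (nat_lit 252) (nat_lit 5) (nat_lit 253) (nat_lit 5) (nat_lit 356) (nat_lit 355) (nat_lit 189)) (XT.lf (nat_lit 0) (nat_lit 9699358687) (nat_lit 1216) (nat_lit 52821604516) (nat_lit 1292) (nat_lit 110825370) (nat_lit 237) (nat_lit 5) (nat_lit 253) (nat_lit 5) (nat_lit 254) (nat_lit 5) (nat_lit 357) (nat_lit 355) (nat_lit 188))))) (XT.nd (nat_lit 234) (nat_lit 0) (nat_lit 228) (XT.nd (nat_lit 78) (nat_lit 0) (nat_lit 76) (XT.lf (nat_lit 0) (nat_lit 11951788593) (nat_lit 1216) (nat_lit 2615041770) (nat_lit 1292) (nat_lit 49647129787) (nat_lit 237) (nat_lit 5) (nat_lit 253) (nat_lit 5) (nat_lit 254) (nat_lit 5) (nat_lit 358) (nat_lit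 355) (nat_lit 187)) (XT.nd (nat_lit 78) (nat_lit 0) (nat_lit 76) (XT.lf (nat_lit 0) (nat_lit 15155150611) (nat_lit 1216) (nat_lit 15111509965) (nat_lit 1292) (nat_lit 35583431307) (nat_lit 238) (nat_lit 5) (nat_lit 254) (nat_lit 5) (nat_lit 255) (nat_lit 5) (nat_lit 359) (nat_lit 355) (nat_lit 186)) (XT.lf (nat_lit 0) (nat_lit 19274530819) (nat_lit 1216) (nat_lit 27874232912) (nat_lit 1292) (nat_lit 20396591821) (nat_lit 239) (nat_lit 5) (nat_lit 255) (nat_lit 5) (nat_lit 256) (nat_lit 5) (nat_lit 360) (nat_lit 355) (nat_lit 185)))) (XT.nd (nat_lit 78) (nat_lit 0) (nat_lit 0) (XT.lf (nat_lit 0) (nat_lit 24373638275) (nat_lit 1216) (nat_lit 40908075321) (nat_lit 1292) (nat_lit 4020456875) (nat_lit 240) (nat_lit 5) (nat_lit 256) (nat_lit 5) (nat_lit 257) (nat_lit 5) (nat_lit 361) (nat_lit 355) (nat_lit 184)) (XT.nd (nat_lit 78) (nat_lit 0) (nat_lit 76) (XT.lf (nat_lit 76) (nat_lit 16767463033)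 (nat_lit 0) (nat_lit 13885573635) (nat_lit 1292) (nat_lit 40466030174) (nat_lit 241) (nat_lit 5) (nat_lit 240) (nat_lit 5) (nat_lit 257) (nat_lit 5) (nat_lit 362) (nat_lit 355) (nat_lit 183)) (XT.lf (nat_lit 76) (nat_lit 4871952456) (nat_lit 0) (nat_lit 33230399598) (nat_lit 1292) (nat_lit 34898778302) (nat_lit 242) (nat_lit 5) (nat_lit 241) (nat_lit 5) (nat_lit 258) (nat_lit 5) (nat_lit 363) (nat_lit 355) (nat_lit 182))))))) (XT.nd (nat_lit 936) (nat_lit 3192) (nat_lit 0) (XT.nd (nat_lit 468) (nat_lit 2584) (nat_lit 0) (XT.nd (nat_lit 234) (nat_lit 1900) (nat_lit 0) (XT.nd (nat_lit 78) (nat_lit 1140) (nat_lit 0) (XT.lf (nat_lit 0) (nat_lit 46826998862) (nat_lit 1216) (nat_lit 7113928913) (nat_lit 1292) (nat_lit 21009284001) (nat_lit 242) (nat_lit 5) (nat_lit 258) (nat_lit 5) (nat_lit 259) (nat_lit 5) (nat_lit 364) (nat_lit 355) (nat_lit 181)) (XT.nd (nat_lit 78) (nat_lit 1216) (nat_lit 0) (XT.lf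 (nat_lit 0) (nat_lit 56885336051) (nat_lit 1216) (nat_lit 19236041092) (nat_lit 76) (nat_lit 848447052) (nat_lit 243) (nat_lit 5) (nat_lit 259) (nat_lit 5) (nat_lit 244) (nat_lit 5) (nat_lit 365) (nat_lit 355) (nat_lit 180)) (XT.lf (nat_lit 0) (nat_lit 47260275066) (nat_lit 1216) (nat_lit 21257742431) (nat_lit 1292) (nat_lit 10540257553) (nat_lit 227) (nat_lit 5) (nat_lit 243) (nat_lit 5) (nat_lit 244) (nat_lit 5) (nat_lit 366) (nat_lit 355) (nat_lit 179)))) (XT.nd (nat_lit 78) (nat_lit 1216) (nat_lit 0) (XT.lf (nat_lit 0) (nat_lit 400215990) (nat_lit 684) (nat_lit 44628178039) (nat_lit 76) (nat_lit 36195637398) (nat_lit 218) (nat_lit 5) (nat_lit 227) (nat_lit 5) (nat_lit 219) (nat_lit 5) (nat_lit 367) (nat_lit 355) (nat_lit 178)) (XT.nd (nat_lit 78) (nat_lit 608) (nat_lit 0) (XT.lf (nat_lit 0) (nat_lit 12591202857) (nat_lit 684) (nat_lit 57835907368) (nat_lit 76) (nat_lit 13040190839) (nat_lit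 210) (nat_lit 5) (nat_lit 219) (nat_lit 5) (nat_lit 211) (nat_lit 5) (nat_lit 368) (nat_lit 355) (nat_lit 177)) (XT.lf (nat_lit 0) (nat_lit 14347426114) (nat_lit 608) (nat_lit 12099538051) (nat_lit 684) (nat_lit 59344113797) (nat_lit 202) (nat_lit 5) (nat_lit 210) (nat_lit 5) (nat_lit 211) (nat_lit 5) (nat_lit 369) (nat_lit 355) (nat_lit 176))))) (XT.nd (nat_lit 234) (nat_lit 1520) (nat_lit 0) (XT.nd (nat_lit 78) (nat_lit 532) (nat_lit 0) (XT.lf (nat_lit 0) (nat_lit 2708797358) (nat_lit 532) (nat_lit 39385339068) (nat_lit 608) (nat_lit 46103949102) (nat_lit 195) (nat_lit 5) (nat_lit 202) (nat_lit 5) (nat_lit 203) (nat_lit 5) (nat_lit 370) (nat_lit 355) (nat_lit 175)) (XT.nd (nat_lit 78) (nat_lit 532) (nat_lit 0) (XT.lf (nat_lit 0) (nat_lit 59595831749) (nat_lit 608) (nat_lit 8980413037) (nat_lit 76) (nat_lit 22117034236) (nat_lit 195) (nat_lit 5) (nat_lit 203) (nat_lit 5) (nat_lit 196) (nat_lit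 5) (nat_lit 371) (nat_lit 355) (nat_lit 174)) (XT.lf (nat_lit 0) (nat_lit 72367478769) (nat_lit 532) (nat_lit 6697303963) (nat_lit 608) (nat_lit 14215684793) (nat_lit 188) (nat_lit 5) (nat_lit 195) (nat_lit 5) (nat_lit 196) (nat_lit 5) (nat_lit 372) (nat_lit 355) (nat_lit 173)))) (XT.nd (nat_lit 78) (nat_lit 988) (nat_lit 0) (XT.lf (nat_lit 0) (nat_lit 4708773342) (nat_lit 532) (nat_lit 33369238520) (nat_lit 76) (nat_lit 57879978657) (nat_lit 181) (nat_lit 5) (nat_lit 188) (nat_lit 5) (nat_lit 182) (nat_lit 5) (nat_lit 373) (nat_lit 355) (nat_lit 172)) (XT.nd (nat_lit 78) (nat_lit 456) (nat_lit 0) (XT.lf (nat_lit 0) (nat_lit 25345408484) (nat_lit 608) (nat_lit 46252527920) (nat_lit 76) (nat_lit 27135432495) (nat_lit 174) (nat_lit 5) (nat_lit 182) (nat_lit 5) (nat_lit 175) (nat_lit 5) (nat_lit 374) (nat_lit 355) (nat_lit 171)) (XT.lf (nat_lit 0) (nat_lit 42116612324) (nat_lit 456) (nat_lit 6032453747)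 (nat_lit 532) (nat_lit 53464394793) (nat_lit 168) (nat_lit 5) (nat_lit 174) (nat_lit 5) (nat_lit 175) (nat_lit 5) (nat_lit 375) (nat_lit 355) (nat_lit 170)))))) (XT.nd (nat_lit 468) (nat_lit 1064) (nat_lit 0) (XT.nd (nat_lit 234) (nat_lit 760) (nat_lit 0) (XT.nd (nat_lit 78) (nat_lit 912) (nat_lit 0) (XT.lf (nat_lit 0) (nat_lit 31247707800) (nat_lit 456) (nat_lit 42229327892) (nat_lit 532) (nat_lit 31118998229) (nat_lit 162) (nat_lit 5) (nat_lit 168) (nat_lit 5) (nat_lit 169) (nat_lit 5) (nat_lit 376) (nat_lit 355) (nat_lit 169)) (XT.nd (nat_lit 78) (nat_lit 532) (nat_lit 0) (XT.lf (nat_lit 0) (nat_lit 20135828263) (nat_lit 380) (nat_lit 81060273308) (nat_lit 456) (nat_lit 6497893478) (nat_lit 157) (nat_lit 5) (nat_lit 162) (nat_lit 5) (nat_lit 163) (nat_lit 5) (nat_lit 377) (nat_lit 355) (nat_lit 168)) (XT.lf (nat_lit 0) (nat_lit 8446816264) (nat_lit 456) (nat_lit 11798923009) (nat_lit 532)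 (nat_lit 90657459605) (nat_lit 150) (nat_lit 5) (nat_lit 156) (nat_lit 5) (nat_lit 157) (nat_lit 5) (nat_lit 378) (nat_lit 355) (nat_lit 167)))) (XT.nd (nat_lit 78) (nat_lit 760) (nat_lit 0) (XT.lf (nat_lit 0) (nat_lit 49688540541) (nat_lit 532) (nat_lit 3825233210) (nat_lit 76) (nat_lit 60712268192) (nat_lit 150) (nat_lit 5) (nat_lit 157) (nat_lit 5) (nat_lit 151) (nat_lit 5) (nat_lit 379) (nat_lit 355) (nat_lit 166)) (XT.nd (nat_lit 78) (nat_lit 380) (nat_lit 0) (XT.lf (nat_lit 0) (nat_lit 81889768784) (nat_lit 456) (nat_lit 16273474525) (nat_lit 76) (nat_lit 19513195539) (nat_lit 145) (nat_lit 5) (nat_lit 151) (nat_lit 5) (nat_lit 146) (nat_lit 5) (nat_lit 380) (nat_lit 355) (nat_lit 165)) (XT.lf (nat_lit 0) (nat_lit 91926687378) (nat_lit 380) (nat_lit 25237196398) (nat_lit 456) (nat_lit 4091587341) (nat_lit 140) (nat_lit 5) (nat_lit 145) (nat_lit 5) (nat_lit 146) (nat_lit 5) (nat_lit 381)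 (nat_lit 355) (nat_lit 164))))) (XT.nd (nat_lit 44850) (nat_lit 0) (nat_lit 8284) (XT.nd (nat_lit 78) (nat_lit 684) (nat_lit 0) (XT.lf (nat_lit 0) (nat_lit 30082945021) (nat_lit 380) (nat_lit 43292889148) (nat_lit 76) (nat_lit 51585275930) (nat_lit 135) (nat_lit 5) (nat_lit 140) (nat_lit 5) (nat_lit 136) (nat_lit 5) (nat_lit 382) (nat_lit 355) (nat_lit 163)) (XT.nd (nat_lit 78) (nat_lit 304) (nat_lit 0) (XT.lf (nat_lit 0) (nat_lit 67162446553) (nat_lit 456) (nat_lit 57779556852) (nat_lit 76) (nat_lit 3870386662) (nat_lit 130) (nat_lit 5) (nat_lit 136) (nat_lit 5) (nat_lit 131) (nat_lit 5) (nat_lit 383) (nat_lit 355) (nat_lit 162)) (XT.lf (nat_lit 0) (nat_lit 59552829751) (nat_lit 304) (nat_lit 48305564071) (nat_lit 380) (nat_lit 24944966327) (nat_lit 126) (nat_lit 5) (nat_lit 130) (nat_lit 5) (nat_lit 131) (nat_lit 5) (nat_lit 384) (nat_lit 355) (nat_lit 161)))) (XT.nd (nat_lit 78) (nat_lit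 0) (nat_lit 76) (XT.lf (nat_lit 0) (nat_lit 4139402437) (nat_lit 1292) (nat_lit 13580195388) (nat_lit 1292) (nat_lit 13580195388) (nat_lit 235) (nat_lit 3) (nat_lit 252) (nat_lit 3) (nat_lit 252) (nat_lit 5) (nat_lit 356) (nat_lit 356) (nat_lit 188)) (XT.nd (nat_lit 78) (nat_lit 0) (nat_lit 76) (XT.lf (nat_lit 0) (nat_lit 8874019098) (nat_lit 1216) (nat_lit 41137492529) (nat_lit 1292) (nat_lit 14141403151) (nat_lit 236) (nat_lit 5) (nat_lit 252) (nat_lit 5) (nat_lit 253) (nat_lit 5) (nat_lit 357) (nat_lit 356) (nat_lit 187)) (XT.lf (nat_lit 0) (nat_lit 10237561526) (nat_lit 1216) (nat_lit 55430437641) (nat_lit 1292) (nat_lit 93754250) (nat_lit 237) (nat_lit 5) (nat_lit 253) (nat_lit 5) (nat_lit 254) (nat_lit 5) (nat_lit 358) (nat_lit 356) (nat_lit 186))))))))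
noncomputable def xc122 : XT := (XT.nd (nat_lit 1872) (nat_lit 380) (nat_lit 0) (XT.nd (nat_lit 936) (nat_lit 4712) (nat_lit 0) (XT.nd (nat_lit 468) (nat_lit 2660) (nat_lit 0) (XT.nd (nat_lit 234) (nat_lit 0) (nat_lit 228) (XT.nd (nat_lit 78) (nat_lit 0) (nat_lit 76) (XT.lf (nat_lit 0) (nat_lit 12600077932) (nat_lit 1216) (nat_lit 2715082334) (nat_lit 1292) (nat_lit 52107950668) (nat_lit 237) (nat_lit 5) (nat_lit 253) (nat_lit 5) (nat_lit 254) (nat_lit 5) (nat_lit 359) (nat_lit 356) (nat_lit 185)) (XT.nd (nat_lit 78) (nat_lit 0) (nat_lit 76) (XT.lf (nat_lit 0) (nat_lit 15961300373) (nat_lit 1216) (nat_lit 15835591978) (nat_lit 1292) (nat_lit 37344227382) (nat_lit 238) (nat_lit 5) (nat_lit 254) (nat_lit 5) (nat_lit 255) (nat_lit 5) (nat_lit 360) (nat_lit 356) (nat_lit 184)) (XT.lf (nat_lit 0) (nat_lit 20284487462) (nat_lit 1216) (nat_lit 29235786787) (nat_lit 1292) (nat_lit 21400938390) (nat_lit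 239) (nat_lit 5) (nat_lit 255) (nat_lit 5) (nat_lit 256) (nat_lit 5) (nat_lit 361) (nat_lit 356) (nat_lit 183)))) (XT.nd (nat_lit 78) (nat_lit 0) (nat_lit 0) (XT.lf (nat_lit 0) (nat_lit 25636523259) (nat_lit 1216) (nat_lit 42920764732) (nat_lit 1292) (nat_lit 4208642256) (nat_lit 240) (nat_lit 5) (nat_lit 256) (nat_lit 5) (nat_lit 257) (nat_lit 5) (nat_lit 362) (nat_lit 356) (nat_lit 182)) (XT.nd (nat_lit 78) (nat_lit 0) (nat_lit 76) (XT.lf (nat_lit 76) (nat_lit 17637612790) (nat_lit 0) (nat_lit 14590479330) (nat_lit 1292) (nat_lit 42445634379) (nat_lit 241) (nat_lit 5) (nat_lit 240) (nat_lit 5) (nat_lit 257) (nat_lit 5) (nat_lit 363) (nat_lit 356) (nat_lit 181)) (XT.lf (nat_lit 76) (nat_lit 5147771641) (nat_lit 0) (nat_lit 34900294859) (nat_lit 1292) (nat_lit 36601881919) (nat_lit 242) (nat_lit 5) (nat_lit 241) (nat_lit 5) (nat_lit 258) (nat_lit 5) (nat_lit 364) (nat_lit 356) (nat_lit 180)))))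 (XT.nd (nat_lit 234) (nat_lit 1900) (nat_lit 0) (XT.nd (nat_lit 78) (nat_lit 1140) (nat_lit 0) (XT.lf (nat_lit 0) (nat_lit 49206935791) (nat_lit 1216) (nat_lit 7437682002) (nat_lit 1292) (nat_lit 22051927393) (nat_lit 242) (nat_lit 5) (nat_lit 258) (nat_lit 5) (nat_lit 259) (nat_lit 5) (nat_lit 365) (nat_lit 356) (nat_lit 179)) (XT.nd (nat_lit 78) (nat_lit 1216) (nat_lit 0) (XT.lf (nat_lit 0) (nat_lit 59766592753) (nat_lit 1216) (nat_lit 20165627499) (nat_lit 76) (nat_lit 884966818) (nat_lit 243) (nat_lit 5) (nat_lit 259) (nat_lit 5) (nat_lit 244) (nat_lit 5) (nat_lit 366) (nat_lit 356) (nat_lit 178)) (XT.lf (nat_lit 0) (nat_lit 49654581012) (nat_lit 1216) (nat_lit 22324866635) (nat_lit 1292) (nat_lit 11030657527) (nat_lit 227) (nat_lit 5) (nat_lit 243) (nat_lit 5) (nat_lit 244) (nat_lit 5) (nat_lit 367) (nat_lit 356) (nat_lit 177)))) (XT.nd (nat_lit 78) (nat_lit 1216) (nat_lit 0) (XT.lf (nat_lit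 0) (nat_lit 454682293) (nat_lit 684) (nat_lit 46827397458) (nat_lit 76) (nat_lit 38002103170) (nat_lit 218) (nat_lit 5) (nat_lit 227) (nat_lit 5) (nat_lit 219) (nat_lit 5) (nat_lit 368) (nat_lit 356) (nat_lit 176)) (XT.nd (nat_lit 78) (nat_lit 608) (nat_lit 0) (XT.lf (nat_lit 0) (nat_lit 13253860550) (nat_lit 684) (nat_lit 60695409098) (nat_lit 76) (nat_lit 13690387910) (nat_lit 210) (nat_lit 5) (nat_lit 219) (nat_lit 5) (nat_lit 211) (nat_lit 5) (nat_lit 369) (nat_lit 356) (nat_lit 175)) (XT.lf (nat_lit 0) (nat_lit 15096165368) (nat_lit 608) (nat_lit 12704970011) (nat_lit 684) (nat_lit 62278526905) (nat_lit 202) (nat_lit 5) (nat_lit 210) (nat_lit 5) (nat_lit 211) (nat_lit 5) (nat_lit 370) (nat_lit 356) (nat_lit 174)))))) (XT.nd (nat_lit 468) (nat_lit 2128) (nat_lit 0) (XT.nd (nat_lit 234) (nat_lit 1520) (nat_lit 0) (XT.nd (nat_lit 78) (nat_lit 532) (nat_lit 0) (XT.lf (nat_lit 0) (nat_lit 2875652052)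 (nat_lit 532) (nat_lit 41353796631) (nat_lit 608) (nat_lit 48377608779) (nat_lit 195) (nat_lit 5) (nat_lit 202) (nat_lit 5) (nat_lit 203) (nat_lit 5) (nat_lit 371) (nat_lit 356) (nat_lit 173)) (XT.nd (nat_lit 78) (nat_lit 532) (nat_lit 0) (XT.lf (nat_lit 0) (nat_lit 62604778781) (nat_lit 608) (nat_lit 9398634272) (nat_lit 76) (nat_lit 23223641753) (nat_lit 195) (nat_lit 5) (nat_lit 203) (nat_lit 5) (nat_lit 196) (nat_lit 5) (nat_lit 372) (nat_lit 356) (nat_lit 172)) (XT.lf (nat_lit 0) (nat_lit 76015769265) (nat_lit 532) (nat_lit 7030307269) (nat_lit 608) (nat_lit 14897559867) (nat_lit 188) (nat_lit 5) (nat_lit 195) (nat_lit 5) (nat_lit 196) (nat_lit 5) (nat_lit 373) (nat_lit 356) (nat_lit 171)))) (XT.nd (nat_lit 78) (nat_lit 988) (nat_lit 0) (XT.lf (nat_lit 0) (nat_lit 4971514491) (nat_lit 532) (nat_lit 35007273555) (nat_lit 76) (nat_lit 60776271033) (nat_lit 181) (nat_lit 5) (nat_lit 188) (nat_lit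 5) (nat_lit 182) (nat_lit 5) (nat_lit 374) (nat_lit 356) (nat_lit 170)) (XT.nd (nat_lit 78) (nat_lit 456) (nat_lit 0) (XT.lf (nat_lit 0) (nat_lit 26638996786) (nat_lit 608) (nat_lit 48534831104) (nat_lit 76) (nat_lit 28495408593) (nat_lit 174) (nat_lit 5) (nat_lit 182) (nat_lit 5) (nat_lit 175) (nat_lit 5) (nat_lit 375) (nat_lit 356) (nat_lit 169)) (XT.lf (nat_lit 0) (nat_lit 44251896944) (nat_lit 456) (nat_lit 6329970206) (nat_lit 532) (nat_lit 56111495539) (nat_lit 168) (nat_lit 5) (nat_lit 174) (nat_lit 5) (nat_lit 175) (nat_lit 5) (nat_lit 376) (nat_lit 356) (nat_lit 168))))) (XT.nd (nat_lit 234) (nat_lit 760) (nat_lit 0) (XT.nd (nat_lit 78) (nat_lit 912) (nat_lit 0) (XT.lf (nat_lit 0) (nat_lit 32839413673) (nat_lit 456) (nat_lit 44335933981) (nat_lit 532) (nat_lit 32649743886) (nat_lit 162) (nat_lit 5) (nat_lit 168) (nat_lit 5) (nat_lit 169) (nat_lit 5) (nat_lit 377) (nat_lit 356) (nat_lit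 167)) (XT.nd (nat_lit 78) (nat_lit 532) (nat_lit 0) (XT.lf (nat_lit 0) (nat_lit 21171777061) (nat_lit 380) (nat_lit 85107749769) (nat_lit 456) (nat_lit 6798449582) (nat_lit 157) (nat_lit 5) (nat_lit 162) (nat_lit 5) (nat_lit 163) (nat_lit 5) (nat_lit 378) (nat_lit 356) (nat_lit 166)) (XT.lf (nat_lit 0) (nat_lit 8897949216) (nat_lit 456) (nat_lit 12383081061) (nat_lit 532) (nat_lit 95166629379) (nat_lit 150) (nat_lit 5) (nat_lit 156) (nat_lit 5) (nat_lit 157) (nat_lit 5) (nat_lit 379) (nat_lit 356) (nat_lit 165)))) (XT.nd (nat_lit 78) (nat_lit 760) (nat_lit 0) (XT.lf (nat_lit 0) (nat_lit 52194929167) (nat_lit 532) (nat_lit 3988460902) (nat_lit 76) (nat_lit 63753286508) (nat_lit 150) (nat_lit 5) (nat_lit 157) (nat_lit 5) (nat_lit 151) (nat_lit 5) (nat_lit 380) (nat_lit 356) (nat_lit 164)) (XT.nd (nat_lit 78) (nat_lit 380) (nat_lit 0) (XT.lf (nat_lit 0) (nat_lit 86005492970) (nat_lit 456) (nat_lit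 17059332522) (nat_lit 76) (nat_lit 20494790021) (nat_lit 145) (nat_lit 5) (nat_lit 151) (nat_lit 5) (nat_lit 146) (nat_lit 5) (nat_lit 381) (nat_lit 356) (nat_lit 163)) (XT.lf (nat_lit 0) (nat_lit 96550040144) (nat_lit 380) (nat_lit 26492522060) (nat_lit 456) (nat_lit 4275060129) (nat_lit 140) (nat_lit 5) (nat_lit 145) (nat_lit 5) (nat_lit 146) (nat_lit 5) (nat_lit 382) (nat_lit 356) (nat_lit 162))))))) (XT.nd (nat_lit 45708) (nat_lit 0) (nat_lit 1672) (XT.nd (nat_lit 45240) (nat_lit 0) (nat_lit 7904) (XT.nd (nat_lit 45006) (nat_lit 0) (nat_lit 7752) (XT.nd (nat_lit 44850) (nat_lit 0) (nat_lit 7600) (XT.lf (nat_lit 0) (nat_lit 31607121982) (nat_lit 380) (nat_lit 45430340337) (nat_lit 76) (nat_lit 54171095168) (nat_lit 135) (nat_lit 5) (nat_lit 140) (nat_lit 5) (nat_lit 136) (nat_lit 5) (nat_lit 383) (nat_lit 356) (nat_lit 161)) (XT.nd (nat_lit 78) (nat_lit 0) (nat_lit 76) (XT.lf (nat_lit 0)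 (nat_lit 4372943030) (nat_lit 1292) (nat_lit 14245514480) (nat_lit 1292) (nat_lit 14245514480) (nat_lit 235) (nat_lit 3) (nat_lit 252) (nat_lit 3) (nat_lit 252) (nat_lit 5) (nat_lit 357) (nat_lit 357) (nat_lit 186)) (XT.lf (nat_lit 0) (nat_lit 9368352841) (nat_lit 1216) (nat_lit 43165985179) (nat_lit 1292) (nat_lit 14824677287) (nat_lit 236) (nat_lit 5) (nat_lit 252) (nat_lit 5) (nat_lit 253) (nat_lit 5) (nat_lit 358) (nat_lit 357) (nat_lit 185)))) (XT.nd (nat_lit 78) (nat_lit 0) (nat_lit 0) (XT.lf (nat_lit 0) (nat_lit 10797725230) (nat_lit 1216) (nat_lit 58172710452) (nat_lit 1292) (nat_lit 77931859) (nat_lit 237) (nat_lit 5) (nat_lit 253) (nat_lit 5) (nat_lit 254) (nat_lit 5) (nat_lit 359) (nat_lit 357) (nat_lit 184)) (XT.nd (nat_lit 78) (nat_lit 0) (nat_lit 76) (XT.lf (nat_lit 0) (nat_lit 13276068141) (nat_lit 1216) (nat_lit 2822980193) (nat_lit 1292) (nat_lit 54693814769) (nat_lit 237) (nat_lit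 5) (nat_lit 253) (nat_lit 5) (nat_lit 254) (nat_lit 5) (nat_lit 360) (nat_lit 357) (nat_lit 183)) (XT.lf (nat_lit 0) (nat_lit 16803258572) (nat_lit 1216) (nat_lit 16598806057) (nat_lit 1292) (nat_lit 39194771640) (nat_lit 238) (nat_lit 5) (nat_lit 254) (nat_lit 5) (nat_lit 255) (nat_lit 5) (nat_lit 361) (nat_lit 357) (nat_lit 182))))) (XT.nd (nat_lit 234) (nat_lit 0) (nat_lit 152) (XT.nd (nat_lit 78) (nat_lit 0) (nat_lit 76) (XT.lf (nat_lit 0) (nat_lit 21340643901) (nat_lit 1216) (nat_lit 30668408080) (nat_lit 1292) (nat_lit 22456941751) (nat_lit 239) (nat_lit 5) (nat_lit 255) (nat_lit 5) (nat_lit 256) (nat_lit 5) (nat_lit 362) (nat_lit 357) (nat_lit 181)) (XT.nd (nat_lit 78) (nat_lit 0) (nat_lit 0) (XT.lf (nat_lit 0) (nat_lit 26958442910) (nat_lit 1216) (nat_lit 45037130083) (nat_lit 1292) (nat_lit 4407430412) (nat_lit 240) (nat_lit 5) (nat_lit 256) (nat_lit 5) (nat_lit 257) (nat_lit 5) (nat_lit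 363) (nat_lit 357) (nat_lit 180)) (XT.lf (nat_lit 76) (nat_lit 18548315747) (nat_lit 0) (nat_lit 15329642311) (nat_lit 1292) (nat_lit 44528281355) (nat_lit 241) (nat_lit 5) (nat_lit 240) (nat_lit 5) (nat_lit 257) (nat_lit 5) (nat_lit 364) (nat_lit 357) (nat_lit 179)))) (XT.nd (nat_lit 78) (nat_lit 0) (nat_lit 76) (XT.lf (nat_lit 76) (nat_lit 5434386130) (nat_lit 0) (nat_lit 36652906228) (nat_lit 1292) (nat_lit 38394030167) (nat_lit 242) (nat_lit 5) (nat_lit 241) (nat_lit 5) (nat_lit 258) (nat_lit 5) (nat_lit 365) (nat_lit 357) (nat_lit 178)) (XT.nd (nat_lit 78) (nat_lit 0) (nat_lit 76) (XT.lf (nat_lit 0) (nat_lit 51702282114) (nat_lit 1216) (nat_lit 7780592535) (nat_lit 1292) (nat_lit 23147430058) (nat_lit 242) (nat_lit 5) (nat_lit 258) (nat_lit 5) (nat_lit 259) (nat_lit 5) (nat_lit 366) (nat_lit 357) (nat_lit 177)) (XT.lf (nat_lit 0) (nat_lit 62788473319) (nat_lit 1216) (nat_lit 21144688332)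 (nat_lit 76) (nat_lit 923861339) (nat_lit 243) (nat_lit 5) (nat_lit 259) (nat_lit 5) (nat_lit 244) (nat_lit 5) (nat_lit 367) (nat_lit 357) (nat_lit 176)))))) (XT.nd (nat_lit 468) (nat_lit 2888) (nat_lit 0) (XT.nd (nat_lit 234) (nat_lit 1140) (nat_lit 0) (XT.nd (nat_lit 78) (nat_lit 1292) (nat_lit 0) (XT.lf (nat_lit 0) (nat_lit 52165693004) (nat_lit 1216) (nat_lit 23444953125) (nat_lit 1292) (nat_lit 11548981420) (nat_lit 227) (nat_lit 5) (nat_lit 243) (nat_lit 5) (nat_lit 244) (nat_lit 5) (nat_lit 368) (nat_lit 357) (nat_lit 175)) (XT.nd (nat_lit 78) (nat_lit 608) (nat_lit 0) (XT.lf (nat_lit 0) (nat_lit 508668564) (nat_lit 684) (nat_lit 49139570521) (nat_lit 76) (nat_lit 39899200529) (nat_lit 218) (nat_lit 5) (nat_lit 227) (nat_lit 5) (nat_lit 219) (nat_lit 5) (nat_lit 369) (nat_lit 357) (nat_lit 174)) (XT.lf (nat_lit 0) (nat_lit 13946574031) (nat_lit 684) (nat_lit 63700888271) (nat_lit 76)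 (nat_lit 14373263342) (nat_lit 210) (nat_lit 5) (nat_lit 219) (nat_lit 5) (nat_lit 211) (nat_lit 5) (nat_lit 370) (nat_lit 357) (nat_lit 173)))) (XT.nd (nat_lit 78) (nat_lit 532) (nat_lit 0) (XT.lf (nat_lit 0) (nat_lit 15879425290) (nat_lit 608) (nat_lit 13340631261) (nat_lit 684) (nat_lit 65362709411) (nat_lit 202) (nat_lit 5) (nat_lit 210) (nat_lit 5) (nat_lit 211) (nat_lit 5) (nat_lit 371) (nat_lit 357) (nat_lit 172)) (XT.nd (nat_lit 78) (nat_lit 0) (nat_lit 0) (XT.lf (nat_lit 0) (nat_lit 3047928828) (nat_lit 532) (nat_lit 43420752322) (nat_lit 608) (nat_lit 50767883524) (nat_lit 195) (nat_lit 5) (nat_lit 202) (nat_lit 5) (nat_lit 203) (nat_lit 5) (nat_lit 372) (nat_lit 357) (nat_lit 171)) (XT.lf (nat_lit 0) (nat_lit 65761462567) (nat_lit 608) (nat_lit 9840630007) (nat_lit 76) (nat_lit 24385509379) (nat_lit 195) (nat_lit 5) (nat_lit 203) (nat_lit 5) (nat_lit 196) (nat_lit 5) (nat_lit 373)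 (nat_lit 357) (nat_lit 170))))) (XT.nd (nat_lit 234) (nat_lit 1292) (nat_lit 0) (XT.nd (nat_lit 78) (nat_lit 1064) (nat_lit 0) (XT.lf (nat_lit 0) (nat_lit 79843692927) (nat_lit 532) (nat_lit 7380133843) (nat_lit 608) (nat_lit 15616216394) (nat_lit 188) (nat_lit 5) (nat_lit 195) (nat_lit 5) (nat_lit 196) (nat_lit 5) (nat_lit 374) (nat_lit 357) (nat_lit 169)) (XT.nd (nat_lit 78) (nat_lit 532) (nat_lit 0) (XT.lf (nat_lit 0) (nat_lit 5244854371) (nat_lit 532) (nat_lit 36730039146) (nat_lit 76) (nat_lit 63817164806) (nat_lit 181) (nat_lit 5) (nat_lit 188) (nat_lit 5) (nat_lit 182) (nat_lit 5) (nat_lit 375) (nat_lit 357) (nat_lit 168)) (XT.lf (nat_lit 0) (nat_lit 27994817717) (nat_lit 608) (nat_lit 50934068611) (nat_lit 76) (nat_lit 29923085574) (nat_lit 174) (nat_lit 5) (nat_lit 182) (nat_lit 5) (nat_lit 175) (nat_lit 5) (nat_lit 376) (nat_lit 357) (nat_lit 167)))) (XT.nd (nat_lit 78) (nat_lit 836)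 (nat_lit 0) (XT.lf (nat_lit 0) (nat_lit 46491207441) (nat_lit 456) (nat_lit 6642744246) (nat_lit 532) (nat_lit 58893379618) (nat_lit 168) (nat_lit 5) (nat_lit 174) (nat_lit 5) (nat_lit 175) (nat_lit 5) (nat_lit 377) (nat_lit 357) (nat_lit 166)) (XT.nd (nat_lit 78) (nat_lit 380) (nat_lit 0) (XT.lf (nat_lit 0) (nat_lit 34507978899) (nat_lit 456) (nat_lit 46548322239) (nat_lit 532) (nat_lit 34259370079) (nat_lit 162) (nat_lit 5) (nat_lit 168) (nat_lit 5) (nat_lit 169) (nat_lit 5) (nat_lit 378) (nat_lit 357) (nat_lit 165)) (XT.lf (nat_lit 0) (nat_lit 22256812521) (nat_lit 380) (nat_lit 89358114851) (nat_lit 456) (nat_lit 7116296262) (nat_lit 157) (nat_lit 5) (nat_lit 162) (nat_lit 5) (nat_lit 163) (nat_lit 5) (nat_lit 379) (nat_lit 357) (nat_lit 164))))))))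
noncomputable def xc123 : XT := (XT.nd (nat_lit 46722) (nat_lit 0) (nat_lit 380) (XT.nd (nat_lit 45786) (nat_lit 0) (nat_lit 2584) (XT.nd (nat_lit 45318) (nat_lit 0) (nat_lit 7372) (XT.nd (nat_lit 234) (nat_lit 380) (nat_lit 0) (XT.nd (nat_lit 78) (nat_lit 380) (nat_lit 0) (XT.lf (nat_lit 0) (nat_lit 9368961996) (nat_lit 456) (nat_lit 12996985137) (nat_lit 532) (nat_lit 99903461340) (nat_lit 150) (nat_lit 5) (nat_lit 156) (nat_lit 5) (nat_lit 157) (nat_lit 5) (nat_lit 380) (nat_lit 357) (nat_lit 163)) (XT.nd (nat_lit 78) (nat_lit 380) (nat_lit 0) (XT.lf (nat_lit 0) (nat_lit 54824595443) (nat_lit 532) (nat_lit 4162456311) (nat_lit 76) (nat_lit 66945853244) (nat_lit 150) (nat_lit 5) (nat_lit 157) (nat_lit 5) (nat_lit 151) (nat_lit 5) (nat_lit 381) (nat_lit 357) (nat_lit 162)) (XT.lf (nat_lit 0) (nat_lit 90325029067) (nat_lit 456) (nat_lit 17887069462) (nat_lit 76) (nat_lit 21524912474) (nat_lit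 145) (nat_lit 5) (nat_lit 151) (nat_lit 5) (nat_lit 146) (nat_lit 5) (nat_lit 382) (nat_lit 357) (nat_lit 161)))) (XT.nd (nat_lit 44928) (nat_lit 0) (nat_lit 7220) (XT.lf (nat_lit 0) (nat_lit 101402048633) (nat_lit 380) (nat_lit 27811221488) (nat_lit 456) (nat_lit 4469668845) (nat_lit 140) (nat_lit 5) (nat_lit 145) (nat_lit 5) (nat_lit 146) (nat_lit 5) (nat_lit 383) (nat_lit 357) (nat_lit 160)) (XT.nd (nat_lit 78) (nat_lit 0) (nat_lit 76) (XT.lf (nat_lit 0) (nat_lit 4615690382) (nat_lit 1292) (nat_lit 14945372357) (nat_lit 1292) (nat_lit 14945372357) (nat_lit 235) (nat_lit 3) (nat_lit 252) (nat_lit 3) (nat_lit 252) (nat_lit 5) (nat_lit 358) (nat_lit 358) (nat_lit 184)) (XT.lf (nat_lit 0) (nat_lit 9882695914) (nat_lit 1216) (nat_lit 45298541149) (nat_lit 1292) (nat_lit 15544327458) (nat_lit 236) (nat_lit 5) (nat_lit 252) (nat_lit 5) (nat_lit 253) (nat_lit 5) (nat_lit 359) (nat_lit 358) (nat_lit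 183))))) (XT.nd (nat_lit 234) (nat_lit 0) (nat_lit 152) (XT.nd (nat_lit 78) (nat_lit 0) (nat_lit 0) (XT.lf (nat_lit 0) (nat_lit 11381407979) (nat_lit 1216) (nat_lit 61054816205) (nat_lit 1292) (nat_lit 63225184) (nat_lit 237) (nat_lit 5) (nat_lit 253) (nat_lit 5) (nat_lit 254) (nat_lit 5) (nat_lit 360) (nat_lit 358) (nat_lit 182)) (XT.nd (nat_lit 78) (nat_lit 0) (nat_lit 76) (XT.lf (nat_lit 0) (nat_lit 13981582488) (nat_lit 1216) (nat_lit 2938862755) (nat_lit 1292) (nat_lit 57410788109) (nat_lit 237) (nat_lit 5) (nat_lit 253) (nat_lit 5) (nat_lit 254) (nat_lit 5) (nat_lit 361) (nat_lit 358) (nat_lit 181)) (XT.lf (nat_lit 0) (nat_lit 17683233909) (nat_lit 1216) (nat_lit 17402836591) (nat_lit 1292) (nat_lit 41139392660) (nat_lit 238) (nat_lit 5) (nat_lit 254) (nat_lit 5) (nat_lit 255) (nat_lit 5) (nat_lit 362) (nat_lit 358) (nat_lit 180)))) (XT.nd (nat_lit 78) (nat_lit 0) (nat_lit 76) (XT.lf (nat_lit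 0) (nat_lit 22445709715) (nat_lit 1216) (nat_lit 32175372207) (nat_lit 1292) (nat_lit 23567050918) (nat_lit 239) (nat_lit 5) (nat_lit 255) (nat_lit 5) (nat_lit 256) (nat_lit 5) (nat_lit 363) (nat_lit 358) (nat_lit 179)) (XT.nd (nat_lit 78) (nat_lit 0) (nat_lit 0) (XT.lf (nat_lit 0) (nat_lit 28342731031) (nat_lit 1216) (nat_lit 47262072406) (nat_lit 1292) (nat_lit 4617240521) (nat_lit 240) (nat_lit 5) (nat_lit 256) (nat_lit 5) (nat_lit 257) (nat_lit 5) (nat_lit 364) (nat_lit 358) (nat_lit 178)) (XT.lf (nat_lit 76) (nat_lit 19501874227) (nat_lit 0) (nat_lit 16104867297) (nat_lit 1292) (nat_lit 46718745543) (nat_lit 241) (nat_lit 5) (nat_lit 240) (nat_lit 5) (nat_lit 257) (nat_lit 5) (nat_lit 365) (nat_lit 358) (nat_lit 177)))))) (XT.nd (nat_lit 468) (nat_lit 2736) (nat_lit 0) (XT.nd (nat_lit 234) (nat_lit 2356) (nat_lit 0) (XT.nd (nat_lit 78) (nat_lit 0) (nat_lit 76) (XT.lf (nat_lit 76) (nat_lit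 5732614195) (nat_lit 0) (nat_lit 38492441904) (nat_lit 1292) (nat_lit 40279313673) (nat_lit 242) (nat_lit 5) (nat_lit 241) (nat_lit 5) (nat_lit 258) (nat_lit 5) (nat_lit 366) (nat_lit 358) (nat_lit 176)) (XT.nd (nat_lit 78) (nat_lit 0) (nat_lit 76) (XT.lf (nat_lit 0) (nat_lit 54319141828) (nat_lit 1216) (nat_lit 8143342283) (nat_lit 1292) (nat_lit 24298367363) (nat_lit 242) (nat_lit 5) (nat_lit 258) (nat_lit 5) (nat_lit 259) (nat_lit 5) (nat_lit 367) (nat_lit 358) (nat_lit 175)) (XT.lf (nat_lit 0) (nat_lit 65958328666) (nat_lit 1216) (nat_lit 22175418856) (nat_lit 76) (nat_lit 965198333) (nat_lit 243) (nat_lit 5) (nat_lit 259) (nat_lit 5) (nat_lit 244) (nat_lit 5) (nat_lit 368) (nat_lit 358) (nat_lit 174)))) (XT.nd (nat_lit 78) (nat_lit 1292) (nat_lit 0) (XT.lf (nat_lit 0) (nat_lit 54799721818) (nat_lit 1216) (nat_lit 24620686639) (nat_lit 1292) (nat_lit 12096308964) (nat_lit 227) (nat_lit 5)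 (nat_lit 243) (nat_lit 5) (nat_lit 244) (nat_lit 5) (nat_lit 369) (nat_lit 358) (nat_lit 173)) (XT.nd (nat_lit 78) (nat_lit 608) (nat_lit 0) (XT.lf (nat_lit 0) (nat_lit 562448619) (nat_lit 684) (nat_lit 51570066680) (nat_lit 76) (nat_lit 41891432393) (nat_lit 218) (nat_lit 5) (nat_lit 227) (nat_lit 5) (nat_lit 219) (nat_lit 5) (nat_lit 370) (nat_lit 358) (nat_lit 172)) (XT.lf (nat_lit 0) (nat_lit 14671132170) (nat_lit 684) (nat_lit 66859364628) (nat_lit 76) (nat_lit 15090435385) (nat_lit 210) (nat_lit 5) (nat_lit 219) (nat_lit 5) (nat_lit 211) (nat_lit 5) (nat_lit 371) (nat_lit 358) (nat_lit 171))))) (XT.nd (nat_lit 234) (nat_lit 1596) (nat_lit 0) (XT.nd (nat_lit 78) (nat_lit 532) (nat_lit 0) (XT.lf (nat_lit 0) (nat_lit 16699203043) (nat_lit 608) (nat_lit 14008037200) (nat_lit 684) (nat_lit 68603866343) (nat_lit 202) (nat_lit 5) (nat_lit 210) (nat_lit 5) (nat_lit 211) (nat_lit 5) (nat_lit 372)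 (nat_lit 358) (nat_lit 170)) (XT.nd (nat_lit 78) (nat_lit 0) (nat_lit 0) (XT.lf (nat_lit 0) (nat_lit 3226170324) (nat_lit 532) (nat_lit 45591124052) (nat_lit 608) (nat_lit 53280331493) (nat_lit 195) (nat_lit 5) (nat_lit 202) (nat_lit 5) (nat_lit 203) (nat_lit 5) (nat_lit 373) (nat_lit 358) (nat_lit 169)) (XT.lf (nat_lit 0) (nat_lit 69073521952) (nat_lit 608) (nat_lit 10307322752) (nat_lit 76) (nat_lit 25605406651) (nat_lit 195) (nat_lit 5) (nat_lit 203) (nat_lit 5) (nat_lit 196) (nat_lit 5) (nat_lit 374) (nat_lit 358) (nat_lit 168)))) (XT.nd (nat_lit 78) (nat_lit 1064) (nat_lit 0) (XT.lf (nat_lit 0) (nat_lit 83860490000) (nat_lit 532) (nat_lit 7747608752) (nat_lit 608) (nat_lit 16373243571) (nat_lit 188) (nat_lit 5) (nat_lit 195) (nat_lit 5) (nat_lit 196) (nat_lit 5) (nat_lit 375) (nat_lit 358) (nat_lit 167)) (XT.nd (nat_lit 78) (nat_lit 532) (nat_lit 0) (XT.lf (nat_lit 0) (nat_lit 5529558909)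 (nat_lit 532) (nat_lit 38541508825) (nat_lit 76) (nat_lit 67009909868) (nat_lit 181) (nat_lit 5) (nat_lit 188) (nat_lit 5) (nat_lit 182) (nat_lit 5) (nat_lit 376) (nat_lit 358) (nat_lit 166)) (XT.lf (nat_lit 0) (nat_lit 29416210386) (nat_lit 608) (nat_lit 53455825059) (nat_lit 76) (nat_lit 31421876181) (nat_lit 174) (nat_lit 5) (nat_lit 182) (nat_lit 5) (nat_lit 175) (nat_lit 5) (nat_lit 377) (nat_lit 358) (nat_lit 165))))))) (XT.nd (nat_lit 45864) (nat_lit 0) (nat_lit 3268) (XT.nd (nat_lit 45396) (nat_lit 0) (nat_lit 6840) (XT.nd (nat_lit 234) (nat_lit 912) (nat_lit 0) (XT.nd (nat_lit 78) (nat_lit 836) (nat_lit 0) (XT.lf (nat_lit 0) (nat_lit 48839999695) (nat_lit 456) (nat_lit 6971503254) (nat_lit 532) (nat_lit 61816560437) (nat_lit 168) (nat_lit 5) (nat_lit 174) (nat_lit 5) (nat_lit 175) (nat_lit 5) (nat_lit 378) (nat_lit 358) (nat_lit 164)) (XT.nd (nat_lit 78) (nat_lit 380) (nat_lit 0) (XT.lf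 (nat_lit 0) (nat_lit 36257499877) (nat_lit 456) (nat_lit 48871739766) (nat_lit 532) (nat_lit 35951602980) (nat_lit 162) (nat_lit 5) (nat_lit 168) (nat_lit 5) (nat_lit 169) (nat_lit 5) (nat_lit 379) (nat_lit 358) (nat_lit 163)) (XT.lf (nat_lit 0) (nat_lit 23393640999) (nat_lit 380) (nat_lit 93821465122) (nat_lit 456) (nat_lit 7452087674) (nat_lit 157) (nat_lit 5) (nat_lit 162) (nat_lit 5) (nat_lit 163) (nat_lit 5) (nat_lit 380) (nat_lit 358) (nat_lit 162)))) (XT.nd (nat_lit 78) (nat_lit 380) (nat_lit 0) (XT.lf (nat_lit 0) (nat_lit 9861097460) (nat_lit 456) (nat_lit 13642072511) (nat_lit 532) (nat_lit 104879133720) (nat_lit 150) (nat_lit 5) (nat_lit 156) (nat_lit 5) (nat_lit 157) (nat_lit 5) (nat_lit 381) (nat_lit 358) (nat_lit 161)) (XT.nd (nat_lit 78) (nat_lit 380) (nat_lit 0) (XT.lf (nat_lit 0) (nat_lit 57583893077) (nat_lit 532) (nat_lit 4347515511) (nat_lit 76) (nat_lit 70297592536) (nat_lit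 150) (nat_lit 5) (nat_lit 157) (nat_lit 5) (nat_lit 151) (nat_lit 5) (nat_lit 382) (nat_lit 358) (nat_lit 160)) (XT.lf (nat_lit 0) (nat_lit 94858751222) (nat_lit 456) (nat_lit 18758538866) (nat_lit 76) (nat_lit 22606040594) (nat_lit 145) (nat_lit 5) (nat_lit 151) (nat_lit 5) (nat_lit 146) (nat_lit 5) (nat_lit 383) (nat_lit 358) (nat_lit 159))))) (XT.nd (nat_lit 234) (nat_lit 0) (nat_lit 152) (XT.nd (nat_lit 78) (nat_lit 0) (nat_lit 76) (XT.lf (nat_lit 0) (nat_lit 4868334493) (nat_lit 1292) (nat_lit 15681377621) (nat_lit 1292) (nat_lit 15681377621) (nat_lit 235) (nat_lit 3) (nat_lit 252) (nat_lit 3) (nat_lit 252) (nat_lit 5) (nat_lit 359) (nat_lit 359) (nat_lit 182)) (XT.nd (nat_lit 78) (nat_lit 0) (nat_lit 76) (XT.lf (nat_lit 0) (nat_lit 10418486430) (nat_lit 1216) (nat_lit 47540118284) (nat_lit 1292) (nat_lit 16301966785) (nat_lit 236) (nat_lit 5) (nat_lit 252) (nat_lit 5) (nat_lit 253) (nat_lit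 5) (nat_lit 360) (nat_lit 359) (nat_lit 181)) (XT.lf (nat_lit 0) (nat_lit 11990203084) (nat_lit 1216) (nat_lit 64083493732) (nat_lit 1292) (nat_lit 49512730) (nat_lit 237) (nat_lit 5) (nat_lit 253) (nat_lit 5) (nat_lit 254) (nat_lit 5) (nat_lit 361) (nat_lit 359) (nat_lit 180)))) (XT.nd (nat_lit 78) (nat_lit 0) (nat_lit 76) (XT.lf (nat_lit 0) (nat_lit 14718494666) (nat_lit 1216) (nat_lit 3062888481) (nat_lit 1292) (nat_lit 60265257312) (nat_lit 237) (nat_lit 5) (nat_lit 253) (nat_lit 5) (nat_lit 254) (nat_lit 5) (nat_lit 362) (nat_lit 359) (nat_lit 179)) (XT.nd (nat_lit 78) (nat_lit 0) (nat_lit 76) (XT.lf (nat_lit 0) (nat_lit 18603506633) (nat_lit 1216) (nat_lit 18249477496) (nat_lit 1292) (nat_lit 43182650219) (nat_lit 238) (nat_lit 5) (nat_lit 254) (nat_lit 5) (nat_lit 255) (nat_lit 5) (nat_lit 363) (nat_lit 359) (nat_lit 178)) (XT.lf (nat_lit 0) (nat_lit 23602492815) (nat_lit 1216) (nat_lit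 33760144193) (nat_lit 1292) (nat_lit 24733849794) (nat_lit 239) (nat_lit 5) (nat_lit 255) (nat_lit 5) (nat_lit 256) (nat_lit 5) (nat_lit 364) (nat_lit 359) (nat_lit 177)))))) (XT.nd (nat_lit 468) (nat_lit 2964) (nat_lit 0) (XT.nd (nat_lit 234) (nat_lit 988) (nat_lit 0) (XT.nd (nat_lit 78) (nat_lit 0) (nat_lit 0) (XT.lf (nat_lit 0) (nat_lit 29792852594) (nat_lit 1216) (nat_lit 49600764071) (nat_lit 1292) (nat_lit 4838523035) (nat_lit 240) (nat_lit 5) (nat_lit 256) (nat_lit 5) (nat_lit 257) (nat_lit 5) (nat_lit 365) (nat_lit 359) (nat_lit 176)) (XT.nd (nat_lit 78) (nat_lit 0) (nat_lit 76) (XT.lf (nat_lit 76) (nat_lit 20500680130) (nat_lit 0) (nat_lit 16918040702) (nat_lit 1292) (nat_lit 49022075219) (nat_lit 241) (nat_lit 5) (nat_lit 240) (nat_lit 5) (nat_lit 257) (nat_lit 5) (nat_lit 366) (nat_lit 359) (nat_lit 175)) (XT.lf (nat_lit 76) (nat_lit 6043289131) (nat_lit 0) (nat_lit 40423313763) (nat_lit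 1292) (nat_lit 42262061213) (nat_lit 242) (nat_lit 5) (nat_lit 241) (nat_lit 5) (nat_lit 258) (nat_lit 5) (nat_lit 367) (nat_lit 359) (nat_lit 174)))) (XT.nd (nat_lit 78) (nat_lit 1140) (nat_lit 0) (XT.lf (nat_lit 0) (nat_lit 57063893122) (nat_lit 1216) (nat_lit 8526672772) (nat_lit 1292) (nat_lit 25507449723) (nat_lit 242) (nat_lit 5) (nat_lit 258) (nat_lit 5) (nat_lit 259) (nat_lit 5) (nat_lit 368) (nat_lit 359) (nat_lit 173)) (XT.nd (nat_lit 78) (nat_lit 1216) (nat_lit 0) (XT.lf (nat_lit 0) (nat_lit 69283847531) (nat_lit 1216) (nat_lit 23260149987) (nat_lit 76) (nat_lit 1009053648) (nat_lit 243) (nat_lit 5) (nat_lit 259) (nat_lit 5) (nat_lit 244) (nat_lit 5) (nat_lit 369) (nat_lit 359) (nat_lit 172)) (XT.lf (nat_lit 0) (nat_lit 57563058625) (nat_lit 1216) (nat_lit 25854882747) (nat_lit 1292) (nat_lit 12673803299) (nat_lit 227) (nat_lit 5) (nat_lit 243) (nat_lit 5) (nat_lit 244) (nat_lit 5)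 (nat_lit 370) (nat_lit 359) (nat_lit 171))))) (XT.nd (nat_lit 234) (nat_lit 1064) (nat_lit 0) (XT.nd (nat_lit 78) (nat_lit 1216) (nat_lit 0) (XT.lf (nat_lit 0) (nat_lit 616282277) (nat_lit 684) (nat_lit 54124549726) (nat_lit 76) (nat_lit 43983529490) (nat_lit 218) (nat_lit 5) (nat_lit 227) (nat_lit 5) (nat_lit 219) (nat_lit 5) (nat_lit 371) (nat_lit 359) (nat_lit 170)) (XT.nd (nat_lit 78) (nat_lit 608) (nat_lit 0) (XT.lf (nat_lit 0) (nat_lit 15429386680) (nat_lit 684) (nat_lit 70178234849) (nat_lit 76) (nat_lit 15843604662) (nat_lit 210) (nat_lit 5) (nat_lit 219) (nat_lit 5) (nat_lit 211) (nat_lit 5) (nat_lit 372) (nat_lit 359) (nat_lit 169)) (XT.lf (nat_lit 0) (nat_lit 17557570441) (nat_lit 608) (nat_lit 14708778630) (nat_lit 684) (nat_lit 72009589331) (nat_lit 202) (nat_lit 5) (nat_lit 210) (nat_lit 5) (nat_lit 211) (nat_lit 5) (nat_lit 373) (nat_lit 359) (nat_lit 168)))) (XT.nd (nat_lit 78)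 (nat_lit 532) (nat_lit 0) (XT.lf (nat_lit 0) (nat_lit 3410921067) (nat_lit 532) (nat_lit 47870076275) (nat_lit 608) (nat_lit 55920814092) (nat_lit 195) (nat_lit 5) (nat_lit 202) (nat_lit 5) (nat_lit 203) (nat_lit 5) (nat_lit 374) (nat_lit 359) (nat_lit 167)) (XT.nd (nat_lit 78) (nat_lit 532) (nat_lit 0) (XT.lf (nat_lit 0) (nat_lit 72548954291) (nat_lit 608) (nat_lit 10799705891) (nat_lit 76) (nat_lit 26886240977) (nat_lit 195) (nat_lit 5) (nat_lit 203) (nat_lit 5) (nat_lit 196) (nat_lit 5) (nat_lit 375) (nat_lit 359) (nat_lit 166)) (XT.lf (nat_lit 0) (nat_lit 88075838695) (nat_lit 532) (nat_lit 8133599818) (nat_lit 608) (nat_lit 17170333285) (nat_lit 188) (nat_lit 5) (nat_lit 195) (nat_lit 5) (nat_lit 196) (nat_lit 5) (nat_lit 376) (nat_lit 359) (nat_lit 165))))))))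
noncomputable def xc124 : XT := (XT.nd (nat_lit 46956) (nat_lit 0) (nat_lit 532) (XT.nd (nat_lit 46020) (nat_lit 0) (nat_lit 2888) (XT.nd (nat_lit 45552) (nat_lit 0) (nat_lit 6460) (XT.nd (nat_lit 234) (nat_lit 1368) (nat_lit 0) (XT.nd (nat_lit 78) (nat_lit 988) (nat_lit 0) (XT.lf (nat_lit 0) (nat_lit 5826410386) (nat_lit 532) (nat_lit 40445879251) (nat_lit 76) (nat_lit 70362116764) (nat_lit 181) (nat_lit 5) (nat_lit 188) (nat_lit 5) (nat_lit 182) (nat_lit 5) (nat_lit 377) (nat_lit 359) (nat_lit 164)) (XT.nd (nat_lit 78) (nat_lit 456) (nat_lit 0) (XT.lf (nat_lit 0) (nat_lit 30906659711) (nat_lit 608) (nat_lit 56105988664) (nat_lit 76) (nat_lit 32995361218) (nat_lit 174) (nat_lit 5) (nat_lit 182) (nat_lit 5) (nat_lit 175) (nat_lit 5) (nat_lit 378) (nat_lit 359) (nat_lit 163)) (XT.lf (nat_lit 0) (nat_lit 51303978711) (nat_lit 456) (nat_lit 7317014286) (nat_lit 532) (nat_lit 64887898063) (nat_lit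 168) (nat_lit 5) (nat_lit 174) (nat_lit 5) (nat_lit 175) (nat_lit 5) (nat_lit 379) (nat_lit 359) (nat_lit 162)))) (XT.nd (nat_lit 78) (nat_lit 912) (nat_lit 0) (XT.lf (nat_lit 0) (nat_lit 38092254267) (nat_lit 456) (nat_lit 51311699919) (nat_lit 532) (nat_lit 37730375327) (nat_lit 162) (nat_lit 5) (nat_lit 168) (nat_lit 5) (nat_lit 169) (nat_lit 5) (nat_lit 380) (nat_lit 359) (nat_lit 161)) (XT.nd (nat_lit 78) (nat_lit 532) (nat_lit 0) (XT.lf (nat_lit 0) (nat_lit 24585080739) (nat_lit 380) (nat_lit 98508406432) (nat_lit 456) (nat_lit 7806530243) (nat_lit 157) (nat_lit 5) (nat_lit 162) (nat_lit 5) (nat_lit 163) (nat_lit 5) (nat_lit 381) (nat_lit 359) (nat_lit 160)) (XT.lf (nat_lit 0) (nat_lit 10375637470) (nat_lit 456) (nat_lit 14319856968) (nat_lit 532) (nat_lit 110105402708) (nat_lit 150) (nat_lit 5) (nat_lit 156) (nat_lit 5) (nat_lit 157) (nat_lit 5) (nat_lit 382) (nat_lit 359) (nat_lit 159)))))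 (XT.nd (nat_lit 234) (nat_lit 0) (nat_lit 152) (XT.nd (nat_lit 78) (nat_lit 0) (nat_lit 76) (XT.lf (nat_lit 0) (nat_lit 5131578513) (nat_lit 1292) (nat_lit 16455230308) (nat_lit 1292) (nat_lit 16455230308) (nat_lit 235) (nat_lit 3) (nat_lit 252) (nat_lit 3) (nat_lit 252) (nat_lit 5) (nat_lit 360) (nat_lit 360) (nat_lit 180)) (XT.nd (nat_lit 78) (nat_lit 0) (nat_lit 76) (XT.lf (nat_lit 0) (nat_lit 10977193718) (nat_lit 1216) (nat_lit 49895945131) (nat_lit 1292) (nat_lit 17099308166) (nat_lit 236) (nat_lit 5) (nat_lit 252) (nat_lit 5) (nat_lit 253) (nat_lit 5) (nat_lit 361) (nat_lit 360) (nat_lit 179)) (XT.lf (nat_lit 0) (nat_lit 12625744717) (nat_lit 1216) (nat_lit 67265842312) (nat_lit 1292) (nat_lit 36683412) (nat_lit 237) (nat_lit 5) (nat_lit 253) (nat_lit 5) (nat_lit 254) (nat_lit 5) (nat_lit 362) (nat_lit 360) (nat_lit 178)))) (XT.nd (nat_lit 78) (nat_lit 0) (nat_lit 76) (XT.lf (nat_lit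 0) (nat_lit 15488735093) (nat_lit 1216) (nat_lit 3195246136) (nat_lit 1292) (nat_lit 63263944030) (nat_lit 237) (nat_lit 5) (nat_lit 253) (nat_lit 5) (nat_lit 254) (nat_lit 5) (nat_lit 363) (nat_lit 360) (nat_lit 177)) (XT.nd (nat_lit 78) (nat_lit 0) (nat_lit 76) (XT.lf (nat_lit 0) (nat_lit 19566435732) (nat_lit 1216) (nat_lit 19140635340) (nat_lit 1292) (nat_lit 45329345475) (nat_lit 238) (nat_lit 5) (nat_lit 254) (nat_lit 5) (nat_lit 255) (nat_lit 5) (nat_lit 364) (nat_lit 360) (nat_lit 176)) (XT.lf (nat_lit 0) (nat_lit 24813907809) (nat_lit 1216) (nat_lit 35426385758) (nat_lit 1292) (nat_lit 25960062765) (nat_lit 239) (nat_lit 5) (nat_lit 255) (nat_lit 5) (nat_lit 256) (nat_lit 5) (nat_lit 365) (nat_lit 360) (nat_lit 175)))))) (XT.nd (nat_lit 468) (nat_lit 2964) (nat_lit 0) (XT.nd (nat_lit 234) (nat_lit 988) (nat_lit 0) (XT.nd (nat_lit 78) (nat_lit 0) (nat_lit 0) (XT.lf (nat_lit 0) (nat_lit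 31312413602) (nat_lit 1216) (nat_lit 52058659911) (nat_lit 1292) (nat_lit 5071760287) (nat_lit 240) (nat_lit 5) (nat_lit 256) (nat_lit 5) (nat_lit 257) (nat_lit 5) (nat_lit 366) (nat_lit 360) (nat_lit 174)) (XT.nd (nat_lit 78) (nat_lit 0) (nat_lit 76) (XT.lf (nat_lit 76) (nat_lit 21547221794) (nat_lit 0) (nat_lit 17771135518) (nat_lit 1292) (nat_lit 51443602925) (nat_lit 241) (nat_lit 5) (nat_lit 240) (nat_lit 5) (nat_lit 257) (nat_lit 5) (nat_lit 367) (nat_lit 360) (nat_lit 173)) (XT.lf (nat_lit 76) (nat_lit 6367262409) (nat_lit 0) (nat_lit 42450148170) (nat_lit 1292) (nat_lit 44346848498) (nat_lit 242) (nat_lit 5) (nat_lit 241) (nat_lit 5) (nat_lit 258) (nat_lit 5) (nat_lit 368) (nat_lit 360) (nat_lit 172)))) (XT.nd (nat_lit 78) (nat_lit 1140) (nat_lit 0) (XT.lf (nat_lit 0) (nat_lit 59943204969) (nat_lit 1216) (nat_lit 8931385889) (nat_lit 1292) (nat_lit 26777528779) (nat_lit 242) (nat_lit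 5) (nat_lit 258) (nat_lit 5) (nat_lit 259) (nat_lit 5) (nat_lit 369) (nat_lit 360) (nat_lit 171)) (XT.nd (nat_lit 78) (nat_lit 1216) (nat_lit 0) (XT.lf (nat_lit 0) (nat_lit 72773076128) (nat_lit 1216) (nat_lit 24401352668) (nat_lit 76) (nat_lit 1055511228) (nat_lit 243) (nat_lit 5) (nat_lit 259) (nat_lit 5) (nat_lit 244) (nat_lit 5) (nat_lit 370) (nat_lit 360) (nat_lit 170)) (XT.lf (nat_lit 0) (nat_lit 60462391344) (nat_lit 1216) (nat_lit 27150494709) (nat_lit 1292) (nat_lit 13282712409) (nat_lit 227) (nat_lit 5) (nat_lit 243) (nat_lit 5) (nat_lit 244) (nat_lit 5) (nat_lit 371) (nat_lit 360) (nat_lit 169))))) (XT.nd (nat_lit 234) (nat_lit 1064) (nat_lit 0) (XT.nd (nat_lit 78) (nat_lit 1216) (nat_lit 0) (XT.lf (nat_lit 0) (nat_lit 670417231) (nat_lit 684) (nat_lit 56808990103) (nat_lit 76) (nat_lit 46180461498) (nat_lit 218) (nat_lit 5) (nat_lit 227) (nat_lit 5) (nat_lit 219) (nat_lit 5) (nat_lit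 372) (nat_lit 360) (nat_lit 168)) (XT.nd (nat_lit 78) (nat_lit 608) (nat_lit 0) (XT.lf (nat_lit 0) (nat_lit 16223257739) (nat_lit 684) (nat_lit 73665288986) (nat_lit 76) (nat_lit 16634558143) (nat_lit 210) (nat_lit 5) (nat_lit 219) (nat_lit 5) (nat_lit 211) (nat_lit 5) (nat_lit 373) (nat_lit 360) (nat_lit 167)) (XT.lf (nat_lit 0) (nat_lit 18456680025) (nat_lit 608) (nat_lit 15444525562) (nat_lit 684) (nat_lit 75587873487) (nat_lit 202) (nat_lit 5) (nat_lit 210) (nat_lit 5) (nat_lit 211) (nat_lit 5) (nat_lit 374) (nat_lit 360) (nat_lit 166)))) (XT.nd (nat_lit 78) (nat_lit 532) (nat_lit 0) (XT.lf (nat_lit 0) (nat_lit 3602729911) (nat_lit 532) (nat_lit 50263032262) (nat_lit 608) (nat_lit 58695508788) (nat_lit 195) (nat_lit 5) (nat_lit 202) (nat_lit 5) (nat_lit 203) (nat_lit 5) (nat_lit 375) (nat_lit 360) (nat_lit 165)) (XT.nd (nat_lit 78) (nat_lit 532) (nat_lit 0) (XT.lf (nat_lit 0) (nat_lit 76196135557)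 (nat_lit 608) (nat_lit 11318844928) (nat_lit 76) (nat_lit 28231064585) (nat_lit 195) (nat_lit 5) (nat_lit 203) (nat_lit 5) (nat_lit 196) (nat_lit 5) (nat_lit 376) (nat_lit 360) (nat_lit 164)) (XT.lf (nat_lit 0) (nat_lit 92499879333) (nat_lit 532) (nat_lit 8539019607) (nat_lit 608) (nat_lit 18009283088) (nat_lit 188) (nat_lit 5) (nat_lit 195) (nat_lit 5) (nat_lit 196) (nat_lit 5) (nat_lit 377) (nat_lit 360) (nat_lit 163))))))) (XT.nd (nat_lit 46098) (nat_lit 0) (nat_lit 1824) (XT.nd (nat_lit 45630) (nat_lit 0) (nat_lit 6004) (XT.nd (nat_lit 234) (nat_lit 836) (nat_lit 0) (XT.nd (nat_lit 78) (nat_lit 988) (nat_lit 0) (XT.lf (nat_lit 0) (nat_lit 6136210300) (nat_lit 532) (nat_lit 42447579097) (nat_lit 76) (nat_lit 73881774895) (nat_lit 181) (nat_lit 5) (nat_lit 188) (nat_lit 5) (nat_lit 182) (nat_lit 5) (nat_lit 378) (nat_lit 360) (nat_lit 162)) (XT.nd (nat_lit 78) (nat_lit 456) (nat_lit 0) (XT.lf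 (nat_lit 0) (nat_lit 32469805672) (nat_lit 608) (nat_lit 58890764154) (nat_lit 76) (nat_lit 34647298192) (nat_lit 174) (nat_lit 5) (nat_lit 182) (nat_lit 5) (nat_lit 175) (nat_lit 5) (nat_lit 379) (nat_lit 360) (nat_lit 161)) (XT.lf (nat_lit 0) (nat_lit 53889113276) (nat_lit 456) (nat_lit 7680085743) (nat_lit 532) (nat_lit 68114614603) (nat_lit 168) (nat_lit 5) (nat_lit 174) (nat_lit 5) (nat_lit 175) (nat_lit 5) (nat_lit 380) (nat_lit 360) (nat_lit 160)))) (XT.nd (nat_lit 78) (nat_lit 380) (nat_lit 0) (XT.lf (nat_lit 0) (nat_lit 40016712237) (nat_lit 456) (nat_lit 53873995269) (nat_lit 532) (nat_lit 39599834861) (nat_lit 162) (nat_lit 5) (nat_lit 168) (nat_lit 5) (nat_lit 169) (nat_lit 5) (nat_lit 381) (nat_lit 360) (nat_lit 159)) (XT.nd (nat_lit 45240) (nat_lit 0) (nat_lit 5928) (XT.lf (nat_lit 0) (nat_lit 25834069641) (nat_lit 380) (nat_lit 103430078956) (nat_lit 456) (nat_lit 8180383453)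 (nat_lit 157) (nat_lit 5) (nat_lit 162) (nat_lit 5) (nat_lit 163) (nat_lit 5) (nat_lit 382) (nat_lit 360) (nat_lit 158)) (XT.lf (nat_lit 0) (nat_lit 5406141379) (nat_lit 1292) (nat_lit 17268725434) (nat_lit 1292) (nat_lit 17268725434) (nat_lit 235) (nat_lit 3) (nat_lit 252) (nat_lit 3) (nat_lit 252) (nat_lit 5) (nat_lit 361) (nat_lit 361) (nat_lit 178))))) (XT.nd (nat_lit 234) (nat_lit 0) (nat_lit 152) (XT.nd (nat_lit 78) (nat_lit 0) (nat_lit 76) (XT.lf (nat_lit 0) (nat_lit 11560323668) (nat_lit 1216) (nat_lit 52371532348) (nat_lit 1292) (nat_lit 17938167490) (nat_lit 236) (nat_lit 5) (nat_lit 252) (nat_lit 5) (nat_lit 253) (nat_lit 5) (nat_lit 362) (nat_lit 361) (nat_lit 177)) (XT.nd (nat_lit 78) (nat_lit 0) (nat_lit 0) (XT.lf (nat_lit 0) (nat_lit 13289713566) (nat_lit 1216) (nat_lit 70609337505) (nat_lit 1292) (nat_lit 24635537) (nat_lit 237) (nat_lit 5) (nat_lit 253) (nat_lit 5) (nat_lit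 254) (nat_lit 5) (nat_lit 363) (nat_lit 361) (nat_lit 176)) (XT.lf (nat_lit 0) (nat_lit 16294297194) (nat_lit 1216) (nat_lit 3336154231) (nat_lit 1292) (nat_lit 66413920236) (nat_lit 237) (nat_lit 5) (nat_lit 253) (nat_lit 5) (nat_lit 254) (nat_lit 5) (nat_lit 364) (nat_lit 361) (nat_lit 175)))) (XT.nd (nat_lit 78) (nat_lit 0) (nat_lit 76) (XT.lf (nat_lit 0) (nat_lit 20574466151) (nat_lit 1216) (nat_lit 20078332839) (nat_lit 1292) (nat_lit 47584531792) (nat_lit 238) (nat_lit 5) (nat_lit 254) (nat_lit 5) (nat_lit 255) (nat_lit 5) (nat_lit 365) (nat_lit 361) (nat_lit 174)) (XT.nd (nat_lit 78) (nat_lit 0) (nat_lit 76) (XT.lf (nat_lit 0) (nat_lit 26082984472) (nat_lit 1216) (nat_lit 37177962964) (nat_lit 1292) (nat_lit 27248560670) (nat_lit 239) (nat_lit 5) (nat_lit 255) (nat_lit 5) (nat_lit 256) (nat_lit 5) (nat_lit 366) (nat_lit 361) (nat_lit 173)) (XT.lf (nat_lit 0) (nat_lit 32905171133) (nat_lit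 1216) (nat_lit 54641509130) (nat_lit 1292) (nat_lit 5317467213) (nat_lit 240) (nat_lit 5) (nat_lit 256) (nat_lit 5) (nat_lit 257) (nat_lit 5) (nat_lit 367) (nat_lit 361) (nat_lit 172)))))) (XT.nd (nat_lit 468) (nat_lit 2812) (nat_lit 0) (XT.nd (nat_lit 234) (nat_lit 1672) (nat_lit 0) (XT.nd (nat_lit 78) (nat_lit 0) (nat_lit 76) (XT.lf (nat_lit 76) (nat_lit 22644090962) (nat_lit 0) (nat_lit 18666216359) (nat_lit 1292) (nat_lit 53988956717) (nat_lit 241) (nat_lit 5) (nat_lit 240) (nat_lit 5) (nat_lit 257) (nat_lit 5) (nat_lit 368) (nat_lit 361) (nat_lit 171)) (XT.nd (nat_lit 78) (nat_lit 0) (nat_lit 76) (XT.lf (nat_lit 76) (nat_lit 6705406774) (nat_lit 0) (nat_lit 44577797275) (nat_lit 1292) (nat_lit 46538507679) (nat_lit 242) (nat_lit 5) (nat_lit 241) (nat_lit 5) (nat_lit 258) (nat_lit 5) (nat_lit 369) (nat_lit 361) (nat_lit 170)) (XT.lf (nat_lit 0) (nat_lit 62964054279) (nat_lit 1216) (nat_lit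 9358344733) (nat_lit 1292) (nat_lit 28111603920) (nat_lit 242) (nat_lit 5) (nat_lit 258) (nat_lit 5) (nat_lit 259) (nat_lit 5) (nat_lit 370) (nat_lit 361) (nat_lit 169)))) (XT.nd (nat_lit 78) (nat_lit 1900) (nat_lit 0) (XT.lf (nat_lit 0) (nat_lit 76434438523) (nat_lit 1216) (nat_lit 25601642688) (nat_lit 76) (nat_lit 1104663113) (nat_lit 243) (nat_lit 5) (nat_lit 259) (nat_lit 5) (nat_lit 244) (nat_lit 5) (nat_lit 371) (nat_lit 361) (nat_lit 168)) (XT.nd (nat_lit 78) (nat_lit 684) (nat_lit 0) (XT.lf (nat_lit 0) (nat_lit 63504721603) (nat_lit 1216) (nat_lit 28510620645) (nat_lit 1292) (nat_lit 13924370883) (nat_lit 227) (nat_lit 5) (nat_lit 243) (nat_lit 5) (nat_lit 244) (nat_lit 5) (nat_lit 372) (nat_lit 361) (nat_lit 167)) (XT.lf (nat_lit 0) (nat_lit 725090782) (nat_lit 684) (nat_lit 59629678058) (nat_lit 76) (nat_lit 48487448777) (nat_lit 218) (nat_lit 5) (nat_lit 227) (nat_lit 5) (nat_lit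 219) (nat_lit 5) (nat_lit 373) (nat_lit 361) (nat_lit 166))))) (XT.nd (nat_lit 234) (nat_lit 1064) (nat_lit 0) (XT.nd (nat_lit 78) (nat_lit 1140) (nat_lit 0) (XT.lf (nat_lit 0) (nat_lit 17054739651) (nat_lit 684) (nat_lit 77328727942) (nat_lit 76) (nat_lit 17465173351) (nat_lit 210) (nat_lit 5) (nat_lit 219) (nat_lit 5) (nat_lit 211) (nat_lit 5) (nat_lit 374) (nat_lit 361) (nat_lit 165)) (XT.nd (nat_lit 78) (nat_lit 532) (nat_lit 0) (XT.lf (nat_lit 0) (nat_lit 19398771225) (nat_lit 608) (nat_lit 16217031206) (nat_lit 684) (nat_lit 79347135360) (nat_lit 202) (nat_lit 5) (nat_lit 210) (nat_lit 5) (nat_lit 211) (nat_lit 5) (nat_lit 375) (nat_lit 361) (nat_lit 164)) (XT.lf (nat_lit 0) (nat_lit 3802152384) (nat_lit 532) (nat_lit 52775686980) (nat_lit 608) (nat_lit 61610922768) (nat_lit 195) (nat_lit 5) (nat_lit 202) (nat_lit 5) (nat_lit 203) (nat_lit 5) (nat_lit 376) (nat_lit 361) (nat_lit 163))))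 (XT.nd (nat_lit 78) (nat_lit 1064) (nat_lit 0) (XT.lf (nat_lit 0) (nat_lit 80023841249) (nat_lit 608) (nat_lit 11865879005) (nat_lit 76) (nat_lit 29643081813) (nat_lit 195) (nat_lit 5) (nat_lit 203) (nat_lit 5) (nat_lit 196) (nat_lit 5) (nat_lit 377) (nat_lit 361) (nat_lit 162)) (XT.nd (nat_lit 78) (nat_lit 532) (nat_lit 0) (XT.lf (nat_lit 0) (nat_lit 97143239471) (nat_lit 532) (nat_lit 8964827548) (nat_lit 608) (nat_lit 18891999522) (nat_lit 188) (nat_lit 5) (nat_lit 195) (nat_lit 5) (nat_lit 196) (nat_lit 5) (nat_lit 378) (nat_lit 361) (nat_lit 161)) (XT.lf (nat_lit 0) (nat_lit 6459782171) (nat_lit 532) (nat_lit 44551278580) (nat_lit 76) (nat_lit 77577271615) (nat_lit 181) (nat_lit 5) (nat_lit 188) (nat_lit 5) (nat_lit 182) (nat_lit 5) (nat_lit 379) (nat_lit 361) (nat_lit 160))))))))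
noncomputable def xc125 : XT := (XT.nd (nat_lit 92586) (nat_lit 0) (nat_lit 988) (XT.nd (nat_lit 46254) (nat_lit 0) (nat_lit 456) (XT.nd (nat_lit 45786) (nat_lit 0) (nat_lit 5320) (XT.nd (nat_lit 45552) (nat_lit 0) (nat_lit 5168) (XT.nd (nat_lit 78) (nat_lit 456) (nat_lit 0) (XT.lf (nat_lit 0) (nat_lit 34109452850) (nat_lit 608) (nat_lit 61816686539) (nat_lit 76) (nat_lit 36381630371) (nat_lit 174) (nat_lit 5) (nat_lit 182) (nat_lit 5) (nat_lit 175) (nat_lit 5) (nat_lit 380) (nat_lit 361) (nat_lit 159)) (XT.nd (nat_lit 45396) (nat_lit 0) (nat_lit 5092) (XT.lf (nat_lit 0) (nat_lit 56601651143) (nat_lit 456) (nat_lit 8061569163) (nat_lit 532) (nat_lit 71504310536) (nat_lit 168) (nat_lit 5) (nat_lit 174) (nat_lit 5) (nat_lit 175) (nat_lit 5) (nat_lit 381) (nat_lit 361) (nat_lit 158)) (XT.lf (nat_lit 0) (nat_lit 5692760412) (nat_lit 1292) (nat_lit 18123756818) (nat_lit 1292) (nat_lit 18123756818)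 (nat_lit 235) (nat_lit 3) (nat_lit 252) (nat_lit 3) (nat_lit 252) (nat_lit 5) (nat_lit 362) (nat_lit 362) (nat_lit 176)))) (XT.nd (nat_lit 78) (nat_lit 0) (nat_lit 76) (XT.lf (nat_lit 0) (nat_lit 12169423991) (nat_lit 1216) (nat_lit 54972684894) (nat_lit 1292) (nat_lit 18820467171) (nat_lit 236) (nat_lit 5) (nat_lit 252) (nat_lit 5) (nat_lit 253) (nat_lit 5) (nat_lit 363) (nat_lit 362) (nat_lit 175)) (XT.nd (nat_lit 78) (nat_lit 0) (nat_lit 0) (XT.lf (nat_lit 0) (nat_lit 13983842431) (nat_lit 1216) (nat_lit 74121847988) (nat_lit 1292) (nat_lit 13275889) (nat_lit 237) (nat_lit 5) (nat_lit 253) (nat_lit 5) (nat_lit 254) (nat_lit 5) (nat_lit 364) (nat_lit 362) (nat_lit 174)) (XT.lf (nat_lit 0) (nat_lit 17137243661) (nat_lit 1216) (nat_lit 3485860616) (nat_lit 1292) (nat_lit 69722624416) (nat_lit 237) (nat_lit 5) (nat_lit 253) (nat_lit 5) (nat_lit 254) (nat_lit 5) (nat_lit 365) (nat_lit 362) (nat_lit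 173))))) (XT.nd (nat_lit 234) (nat_lit 0) (nat_lit 152) (XT.nd (nat_lit 78) (nat_lit 0) (nat_lit 76) (XT.lf (nat_lit 0) (nat_lit 21630136064) (nat_lit 1216) (nat_lit 21064712730) (nat_lit 1292) (nat_lit 49953526221) (nat_lit 238) (nat_lit 5) (nat_lit 254) (nat_lit 5) (nat_lit 255) (nat_lit 5) (nat_lit 366) (nat_lit 362) (nat_lit 172)) (XT.nd (nat_lit 78) (nat_lit 0) (nat_lit 76) (XT.lf (nat_lit 0) (nat_lit 27412876346) (nat_lit 1216) (nat_lit 39018954462) (nat_lit 1292) (nat_lit 28602367177) (nat_lit 239) (nat_lit 5) (nat_lit 255) (nat_lit 5) (nat_lit 256) (nat_lit 5) (nat_lit 367) (nat_lit 362) (nat_lit 171)) (XT.lf (nat_lit 0) (nat_lit 34575043613) (nat_lit 1216) (nat_lit 57355368009) (nat_lit 1292) (nat_lit 5576192194) (nat_lit 240) (nat_lit 5) (nat_lit 256) (nat_lit 5) (nat_lit 257) (nat_lit 5) (nat_lit 368) (nat_lit 362) (nat_lit 170)))) (XT.nd (nat_lit 78) (nat_lit 0) (nat_lit 76) (XT.lf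 (nat_lit 76) (nat_lit 23793989913) (nat_lit 0) (nat_lit 19605444695) (nat_lit 1292) (nat_lit 56664072259) (nat_lit 241) (nat_lit 5) (nat_lit 240) (nat_lit 5) (nat_lit 257) (nat_lit 5) (nat_lit 369) (nat_lit 362) (nat_lit 169)) (XT.nd (nat_lit 78) (nat_lit 0) (nat_lit 76) (XT.lf (nat_lit 76) (nat_lit 7058619284) (nat_lit 0) (nat_lit 46811350808) (nat_lit 1292) (nat_lit 48842137604) (nat_lit 242) (nat_lit 5) (nat_lit 241) (nat_lit 5) (nat_lit 258) (nat_lit 5) (nat_lit 370) (nat_lit 362) (nat_lit 168)) (XT.lf (nat_lit 0) (nat_lit 66133743671) (nat_lit 1216) (nat_lit 9808474713) (nat_lit 1292) (nat_lit 29512829197) (nat_lit 242) (nat_lit 5) (nat_lit 258) (nat_lit 5) (nat_lit 259) (nat_lit 5) (nat_lit 371) (nat_lit 362) (nat_lit 167)))))) (XT.nd (nat_lit 468) (nat_lit 1596) (nat_lit 0) (XT.nd (nat_lit 234) (nat_lit 1748) (nat_lit 0) (XT.nd (nat_lit 78) (nat_lit 1900) (nat_lit 0) (XT.lf (nat_lit 0)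 (nat_lit 80276757809) (nat_lit 1216) (nat_lit 26863785944) (nat_lit 76) (nat_lit 1156609487) (nat_lit 243) (nat_lit 5) (nat_lit 259) (nat_lit 5) (nat_lit 244) (nat_lit 5) (nat_lit 372) (nat_lit 362) (nat_lit 166)) (XT.nd (nat_lit 78) (nat_lit 684) (nat_lit 0) (XT.lf (nat_lit 0) (nat_lit 66697382347) (nat_lit 1216) (nat_lit 29938511043) (nat_lit 1292) (nat_lit 14600201992) (nat_lit 227) (nat_lit 5) (nat_lit 243) (nat_lit 5) (nat_lit 244) (nat_lit 5) (nat_lit 373) (nat_lit 362) (nat_lit 165)) (XT.lf (nat_lit 0) (nat_lit 780531435) (nat_lit 684) (nat_lit 62593237653) (nat_lit 76) (nat_lit 50909974688) (nat_lit 218) (nat_lit 5) (nat_lit 227) (nat_lit 5) (nat_lit 219) (nat_lit 5) (nat_lit 374) (nat_lit 362) (nat_lit 164)))) (XT.nd (nat_lit 78) (nat_lit 1140) (nat_lit 0) (XT.lf (nat_lit 0) (nat_lit 17925906588) (nat_lit 684) (nat_lit 81177182033) (nat_lit 76) (nat_lit 18337422767) (nat_lit 210) (nat_lit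 5) (nat_lit 219) (nat_lit 5) (nat_lit 211) (nat_lit 5) (nat_lit 375) (nat_lit 362) (nat_lit 163)) (XT.nd (nat_lit 78) (nat_lit 532) (nat_lit 0) (XT.lf (nat_lit 0) (nat_lit 20386176633) (nat_lit 608) (nat_lit 17028136158) (nat_lit 684) (nat_lit 83296231991) (nat_lit 202) (nat_lit 5) (nat_lit 210) (nat_lit 5) (nat_lit 211) (nat_lit 5) (nat_lit 376) (nat_lit 362) (nat_lit 162)) (XT.lf (nat_lit 0) (nat_lit 4009752954) (nat_lit 532) (nat_lit 55414020630) (nat_lit 608) (nat_lit 64673907491) (nat_lit 195) (nat_lit 5) (nat_lit 202) (nat_lit 5) (nat_lit 203) (nat_lit 5) (nat_lit 377) (nat_lit 362) (nat_lit 161))))) (XT.nd (nat_lit 234) (nat_lit 532) (nat_lit 0) (XT.nd (nat_lit 78) (nat_lit 1064) (nat_lit 0) (XT.lf (nat_lit 0) (nat_lit 84041268153) (nat_lit 608) (nat_lit 12442022687) (nat_lit 76) (nat_lit 31125656764) (nat_lit 195) (nat_lit 5) (nat_lit 203) (nat_lit 5) (nat_lit 196) (nat_lit 5) (nat_lit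 378) (nat_lit 362) (nat_lit 160)) (XT.nd (nat_lit 78) (nat_lit 532) (nat_lit 0) (XT.lf (nat_lit 0) (nat_lit 102017060103) (nat_lit 532) (nat_lit 9412032154) (nat_lit 608) (nat_lit 19820501792) (nat_lit 188) (nat_lit 5) (nat_lit 195) (nat_lit 5) (nat_lit 196) (nat_lit 5) (nat_lit 379) (nat_lit 362) (nat_lit 159)) (XT.lf (nat_lit 0) (nat_lit 6797974323) (nat_lit 532) (nat_lit 46761899677) (nat_lit 76) (nat_lit 81457412271) (nat_lit 181) (nat_lit 5) (nat_lit 188) (nat_lit 5) (nat_lit 182) (nat_lit 5) (nat_lit 380) (nat_lit 362) (nat_lit 158)))) (XT.nd (nat_lit 45474) (nat_lit 0) (nat_lit 4636) (XT.lf (nat_lit 0) (nat_lit 35829580271) (nat_lit 608) (nat_lit 64890635767) (nat_lit 76) (nat_lit 38202496260) (nat_lit 174) (nat_lit 5) (nat_lit 182) (nat_lit 5) (nat_lit 175) (nat_lit 5) (nat_lit 381) (nat_lit 362) (nat_lit 157)) (XT.nd (nat_lit 78) (nat_lit 0) (nat_lit 76) (XT.lf (nat_lit 0) (nat_lit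 5992193865) (nat_lit 1292) (nat_lit 19022321177) (nat_lit 1292) (nat_lit 19022321177) (nat_lit 235) (nat_lit 3) (nat_lit 252) (nat_lit 3) (nat_lit 252) (nat_lit 5) (nat_lit 363) (nat_lit 363) (nat_lit 174)) (XT.lf (nat_lit 0) (nat_lit 12806089421) (nat_lit 1216) (nat_lit 57705514993) (nat_lit 1292) (nat_lit 19748240014) (nat_lit 236) (nat_lit 5) (nat_lit 252) (nat_lit 5) (nat_lit 253) (nat_lit 5) (nat_lit 364) (nat_lit 363) (nat_lit 173))))))) (XT.nd (nat_lit 936) (nat_lit 2204) (nat_lit 0) (XT.nd (nat_lit 468) (nat_lit 2052) (nat_lit 0) (XT.nd (nat_lit 234) (nat_lit 0) (nat_lit 152) (XT.nd (nat_lit 78) (nat_lit 0) (nat_lit 0) (XT.lf (nat_lit 0) (nat_lit 14709921797) (nat_lit 1216) (nat_lit 77811653410) (nat_lit 1292) (nat_lit 2518891) (nat_lit 237) (nat_lit 5) (nat_lit 253) (nat_lit 5) (nat_lit 254) (nat_lit 5) (nat_lit 365) (nat_lit 363) (nat_lit 172)) (XT.nd (nat_lit 78) (nat_lit 0) (nat_lit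 76) (XT.lf (nat_lit 0) (nat_lit 18019712743) (nat_lit 1216) (nat_lit 3644642240) (nat_lit 1292) (nat_lit 73197878691) (nat_lit 237) (nat_lit 5) (nat_lit 253) (nat_lit 5) (nat_lit 254) (nat_lit 5) (nat_lit 366) (nat_lit 363) (nat_lit 171)) (XT.lf (nat_lit 0) (nat_lit 22736084232) (nat_lit 1216) (nat_lit 22102042016) (nat_lit 1292) (nat_lit 52441921661) (nat_lit 238) (nat_lit 5) (nat_lit 254) (nat_lit 5) (nat_lit 255) (nat_lit 5) (nat_lit 367) (nat_lit 363) (nat_lit 170)))) (XT.nd (nat_lit 78) (nat_lit 0) (nat_lit 76) (XT.lf (nat_lit 0) (nat_lit 28806869506) (nat_lit 1216) (nat_lit 40953660326) (nat_lit 1292) (nat_lit 30024665558) (nat_lit 239) (nat_lit 5) (nat_lit 255) (nat_lit 5) (nat_lit 256) (nat_lit 5) (nat_lit 368) (nat_lit 363) (nat_lit 169)) (XT.nd (nat_lit 78) (nat_lit 0) (nat_lit 0) (XT.lf (nat_lit 0) (nat_lit 36326121349) (nat_lit 1216) (nat_lit 60206613437) (nat_lit 1292) (nat_lit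 5848518013) (nat_lit 240) (nat_lit 5) (nat_lit 256) (nat_lit 5) (nat_lit 257) (nat_lit 5) (nat_lit 369) (nat_lit 363) (nat_lit 168)) (XT.lf (nat_lit 76) (nat_lit 24999738754) (nat_lit 0) (nat_lit 20591084294) (nat_lit 1292) (nat_lit 59475205764) (nat_lit 241) (nat_lit 5) (nat_lit 240) (nat_lit 5) (nat_lit 257) (nat_lit 5) (nat_lit 370) (nat_lit 363) (nat_lit 167))))) (XT.nd (nat_lit 234) (nat_lit 2356) (nat_lit 0) (XT.nd (nat_lit 78) (nat_lit 0) (nat_lit 76) (XT.lf (nat_lit 76) (nat_lit 7427824327) (nat_lit 0) (nat_lit 49156148435) (nat_lit 1292) (nat_lit 51263114816) (nat_lit 242) (nat_lit 5) (nat_lit 241) (nat_lit 5) (nat_lit 258) (nat_lit 5) (nat_lit 371) (nat_lit 363) (nat_lit 166)) (XT.nd (nat_lit 78) (nat_lit 0) (nat_lit 76) (XT.lf (nat_lit 0) (nat_lit 69459919904) (nat_lit 1216) (nat_lit 10282764883) (nat_lit 1292) (nat_lit 30984520617) (nat_lit 242) (nat_lit 5) (nat_lit 258) (nat_lit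 5) (nat_lit 259) (nat_lit 5) (nat_lit 372) (nat_lit 363) (nat_lit 165)) (XT.lf (nat_lit 0) (nat_lit 84309278112) (nat_lit 1216) (nat_lit 28190704150) (nat_lit 76) (nat_lit 1211458754) (nat_lit 243) (nat_lit 5) (nat_lit 259) (nat_lit 5) (nat_lit 244) (nat_lit 5) (nat_lit 373) (nat_lit 363) (nat_lit 164)))) (XT.nd (nat_lit 78) (nat_lit 1292) (nat_lit 0) (XT.lf (nat_lit 0) (nat_lit 70048056148) (nat_lit 1216) (nat_lit 31437576610) (nat_lit 1292) (nat_lit 15311720087) (nat_lit 227) (nat_lit 5) (nat_lit 243) (nat_lit 5) (nat_lit 244) (nat_lit 5) (nat_lit 374) (nat_lit 363) (nat_lit 163)) (XT.nd (nat_lit 78) (nat_lit 608) (nat_lit 0) (XT.lf (nat_lit 0) (nat_lit 836960377) (nat_lit 684) (nat_lit 65706641659) (nat_lit 76) (nat_lit 53453798567) (nat_lit 218) (nat_lit 5) (nat_lit 227) (nat_lit 5) (nat_lit 219) (nat_lit 5) (nat_lit 375) (nat_lit 363) (nat_lit 162)) (XT.lf (nat_lit 0) (nat_lit 18838918430)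 (nat_lit 684) (nat_lit 85219730653) (nat_lit 76) (nat_lit 19253378485) (nat_lit 210) (nat_lit 5) (nat_lit 219) (nat_lit 5) (nat_lit 211) (nat_lit 5) (nat_lit 376) (nat_lit 363) (nat_lit 161)))))) (XT.nd (nat_lit 45942) (nat_lit 0) (nat_lit 4180) (XT.nd (nat_lit 234) (nat_lit 1064) (nat_lit 0) (XT.nd (nat_lit 78) (nat_lit 532) (nat_lit 0) (XT.lf (nat_lit 0) (nat_lit 21421328410) (nat_lit 608) (nat_lit 17879772801) (nat_lit 684) (nat_lit 87444481109) (nat_lit 202) (nat_lit 5) (nat_lit 210) (nat_lit 5) (nat_lit 211) (nat_lit 5) (nat_lit 377) (nat_lit 363) (nat_lit 160)) (XT.nd (nat_lit 78) (nat_lit 0) (nat_lit 0) (XT.lf (nat_lit 0) (nat_lit 4226107224) (nat_lit 532) (nat_lit 58184312865) (nat_lit 608) (nat_lit 67891674145) (nat_lit 195) (nat_lit 5) (nat_lit 202) (nat_lit 5) (nat_lit 203) (nat_lit 5) (nat_lit 378) (nat_lit 363) (nat_lit 159)) (XT.lf (nat_lit 0) (nat_lit 88258057042) (nat_lit 608)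 (nat_lit 13048568024) (nat_lit 76) (nat_lit 32682321336) (nat_lit 195) (nat_lit 5) (nat_lit 203) (nat_lit 5) (nat_lit 196) (nat_lit 5) (nat_lit 379) (nat_lit 363) (nat_lit 158)))) (XT.nd (nat_lit 78) (nat_lit 532) (nat_lit 0) (XT.lf (nat_lit 0) (nat_lit 107133023003) (nat_lit 532) (nat_lit 9881693381) (nat_lit 608) (nat_lit 20796925789) (nat_lit 188) (nat_lit 5) (nat_lit 195) (nat_lit 5) (nat_lit 196) (nat_lit 5) (nat_lit 380) (nat_lit 363) (nat_lit 157)) (XT.nd (nat_lit 45552) (nat_lit 0) (nat_lit 4104) (XT.lf (nat_lit 0) (nat_lit 7151662647) (nat_lit 532) (nat_lit 49084627014) (nat_lit 76) (nat_lit 85531441229) (nat_lit 181) (nat_lit 5) (nat_lit 188) (nat_lit 5) (nat_lit 182) (nat_lit 5) (nat_lit 381) (nat_lit 363) (nat_lit 156)) (XT.lf (nat_lit 0) (nat_lit 6305223452) (nat_lit 1292) (nat_lit 19966522514) (nat_lit 1292) (nat_lit 19966522514) (nat_lit 235) (nat_lit 3) (nat_lit 252) (nat_lit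 3) (nat_lit 252) (nat_lit 5) (nat_lit 364) (nat_lit 364) (nat_lit 172))))) (XT.nd (nat_lit 234) (nat_lit 0) (nat_lit 152) (XT.nd (nat_lit 78) (nat_lit 0) (nat_lit 0) (XT.lf (nat_lit 0) (nat_lit 13471966891) (nat_lit 1216) (nat_lit 60576455916) (nat_lit 1292) (nat_lit 20723633407) (nat_lit 236) (nat_lit 5) (nat_lit 252) (nat_lit 5) (nat_lit 253) (nat_lit 5) (nat_lit 365) (nat_lit 364) (nat_lit 171)) (XT.nd (nat_lit 78) (nat_lit 0) (nat_lit 76) (XT.lf (nat_lit 76) (nat_lit 15462013353) (nat_lit 0) (nat_lit 7867686) (nat_lit 1292) (nat_lit 81679671254) (nat_lit 237) (nat_lit 5) (nat_lit 236) (nat_lit 5) (nat_lit 253) (nat_lit 5) (nat_lit 366) (nat_lit 364) (nat_lit 170)) (XT.lf (nat_lit 0) (nat_lit 18943924593) (nat_lit 1216) (nat_lit 3812805049) (nat_lit 1292) (nat_lit 76847906915) (nat_lit 237) (nat_lit 5) (nat_lit 253) (nat_lit 5) (nat_lit 254) (nat_lit 5) (nat_lit 367) (nat_lit 364) (nat_lit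 169)))) (XT.nd (nat_lit 78) (nat_lit 0) (nat_lit 76) (XT.lf (nat_lit 0) (nat_lit 23895057483) (nat_lit 1216) (nat_lit 23192716588) (nat_lit 1292) (nat_lit 55055599720) (nat_lit 238) (nat_lit 5) (nat_lit 254) (nat_lit 5) (nat_lit 255) (nat_lit 5) (nat_lit 368) (nat_lit 364) (nat_lit 168)) (XT.nd (nat_lit 78) (nat_lit 0) (nat_lit 76) (XT.lf (nat_lit 0) (nat_lit 30268391524) (nat_lit 1216) (nat_lit 42986611497) (nat_lit 1292) (nat_lit 31518805885) (nat_lit 239) (nat_lit 5) (nat_lit 255) (nat_lit 5) (nat_lit 256) (nat_lit 5) (nat_lit 369) (nat_lit 364) (nat_lit 167)) (XT.lf (nat_lit 0) (nat_lit 38162677352) (nat_lit 1216) (nat_lit 63201957285) (nat_lit 1292) (nat_lit 6135062924) (nat_lit 240) (nat_lit 5) (nat_lit 256) (nat_lit 5) (nat_lit 257) (nat_lit 5) (nat_lit 370) (nat_lit 364) (nat_lit 166))))))))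
noncomputable def xc126 : XT := (XT.nd (nat_lit 47502) (nat_lit 0) (nat_lit 0) (XT.nd (nat_lit 46566) (nat_lit 0) (nat_lit 1140) (XT.nd (nat_lit 468) (nat_lit 1748) (nat_lit 0) (XT.nd (nat_lit 234) (nat_lit 1672) (nat_lit 0) (XT.nd (nat_lit 78) (nat_lit 0) (nat_lit 76) (XT.lf (nat_lit 76) (nat_lit 26264282921) (nat_lit 0) (nat_lit 21625506866) (nat_lit 1292) (nat_lit 62428947814) (nat_lit 241) (nat_lit 5) (nat_lit 240) (nat_lit 5) (nat_lit 257) (nat_lit 5) (nat_lit 371) (nat_lit 364) (nat_lit 165)) (XT.nd (nat_lit 78) (nat_lit 0) (nat_lit 76) (XT.lf (nat_lit 76) (nat_lit 7813976612) (nat_lit 0) (nat_lit 51617792669) (nat_lit 1292) (nat_lit 53807105325) (nat_lit 242) (nat_lit 5) (nat_lit 241) (nat_lit 5) (nat_lit 258) (nat_lit 5) (nat_lit 372) (nat_lit 364) (nat_lit 164)) (XT.lf (nat_lit 0) (nat_lit 72950593042) (nat_lit 1216) (nat_lit 10782269507) (nat_lit 1292) (nat_lit 32530163846) (nat_lit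 242) (nat_lit 5) (nat_lit 258) (nat_lit 5) (nat_lit 259) (nat_lit 5) (nat_lit 373) (nat_lit 364) (nat_lit 163)))) (XT.nd (nat_lit 78) (nat_lit 1900) (nat_lit 0) (XT.lf (nat_lit 0) (nat_lit 88541687516) (nat_lit 1216) (nat_lit 29585480999) (nat_lit 76) (nat_lit 1269327649) (nat_lit 243) (nat_lit 5) (nat_lit 259) (nat_lit 5) (nat_lit 244) (nat_lit 5) (nat_lit 374) (nat_lit 364) (nat_lit 162)) (XT.nd (nat_lit 78) (nat_lit 684) (nat_lit 0) (XT.lf (nat_lit 0) (nat_lit 73564794269) (nat_lit 1216) (nat_lit 33011396497) (nat_lit 1292) (nat_lit 16060533298) (nat_lit 227) (nat_lit 5) (nat_lit 243) (nat_lit 5) (nat_lit 244) (nat_lit 5) (nat_lit 375) (nat_lit 364) (nat_lit 161)) (XT.lf (nat_lit 0) (nat_lit 894592858) (nat_lit 684) (nat_lit 68977227369) (nat_lit 76) (nat_lit 56124969353) (nat_lit 218) (nat_lit 5) (nat_lit 227) (nat_lit 5) (nat_lit 219) (nat_lit 5) (nat_lit 376) (nat_lit 364) (nat_lit 160)))))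 (XT.nd (nat_lit 234) (nat_lit 0) (nat_lit 0) (XT.nd (nat_lit 78) (nat_lit 1140) (nat_lit 0) (XT.lf (nat_lit 0) (nat_lit 19796026720) (nat_lit 684) (nat_lit 89465923097) (nat_lit 76) (nat_lit 20215217096) (nat_lit 210) (nat_lit 5) (nat_lit 219) (nat_lit 5) (nat_lit 211) (nat_lit 5) (nat_lit 377) (nat_lit 364) (nat_lit 159)) (XT.nd (nat_lit 78) (nat_lit 532) (nat_lit 0) (XT.lf (nat_lit 0) (nat_lit 22506764849) (nat_lit 608) (nat_lit 18773969908) (nat_lit 684) (nat_lit 91801682504) (nat_lit 202) (nat_lit 5) (nat_lit 210) (nat_lit 5) (nat_lit 211) (nat_lit 5) (nat_lit 378) (nat_lit 364) (nat_lit 158)) (XT.lf (nat_lit 0) (nat_lit 4451804079) (nat_lit 532) (nat_lit 61093157717) (nat_lit 608) (nat_lit 71271810033) (nat_lit 195) (nat_lit 5) (nat_lit 202) (nat_lit 5) (nat_lit 203) (nat_lit 5) (nat_lit 379) (nat_lit 364) (nat_lit 157)))) (XT.nd (nat_lit 45708) (nat_lit 0) (nat_lit 3040) (XT.lf (nat_lit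 0) (nat_lit 92684316339) (nat_lit 608) (nat_lit 13686886857) (nat_lit 76) (nat_lit 34316783646) (nat_lit 195) (nat_lit 5) (nat_lit 203) (nat_lit 5) (nat_lit 196) (nat_lit 5) (nat_lit 380) (nat_lit 364) (nat_lit 156)) (XT.nd (nat_lit 78) (nat_lit 0) (nat_lit 76) (XT.lf (nat_lit 0) (nat_lit 6632656863) (nat_lit 1292) (nat_lit 20958576783) (nat_lit 1292) (nat_lit 20958576783) (nat_lit 235) (nat_lit 3) (nat_lit 252) (nat_lit 3) (nat_lit 252) (nat_lit 5) (nat_lit 365) (nat_lit 365) (nat_lit 170)) (XT.lf (nat_lit 0) (nat_lit 14168760699) (nat_lit 1216) (nat_lit 63592276601) (nat_lit 1292) (nat_lit 21748913846) (nat_lit 236) (nat_lit 5) (nat_lit 252) (nat_lit 5) (nat_lit 253) (nat_lit 5) (nat_lit 366) (nat_lit 365) (nat_lit 169)))))) (XT.nd (nat_lit 468) (nat_lit 1976) (nat_lit 0) (XT.nd (nat_lit 234) (nat_lit 0) (nat_lit 228) (XT.nd (nat_lit 78) (nat_lit 0) (nat_lit 76) (XT.lf (nat_lit 76) (nat_lit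 16247743428) (nat_lit 0) (nat_lit 17843982) (nat_lit 1292) (nat_lit 85740764686) (nat_lit 237) (nat_lit 5) (nat_lit 236) (nat_lit 5) (nat_lit 253) (nat_lit 5) (nat_lit 367) (nat_lit 365) (nat_lit 168)) (XT.nd (nat_lit 78) (nat_lit 0) (nat_lit 76) (XT.lf (nat_lit 0) (nat_lit 19912187682) (nat_lit 1216) (nat_lit 3990684029) (nat_lit 1292) (nat_lit 80681353770) (nat_lit 237) (nat_lit 5) (nat_lit 253) (nat_lit 5) (nat_lit 254) (nat_lit 5) (nat_lit 368) (nat_lit 365) (nat_lit 167)) (XT.lf (nat_lit 0) (nat_lit 25109918329) (nat_lit 1216) (nat_lit 24339266223) (nat_lit 1292) (nat_lit 57800744310) (nat_lit 238) (nat_lit 5) (nat_lit 254) (nat_lit 5) (nat_lit 255) (nat_lit 5) (nat_lit 369) (nat_lit 365) (nat_lit 166)))) (XT.nd (nat_lit 78) (nat_lit 0) (nat_lit 76) (XT.lf (nat_lit 0) (nat_lit 31801020663) (nat_lit 1216) (nat_lit 45122579853) (nat_lit 1292) (nat_lit 33088312663) (nat_lit 239) (nat_lit 5)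 (nat_lit 255) (nat_lit 5) (nat_lit 256) (nat_lit 5) (nat_lit 370) (nat_lit 365) (nat_lit 165)) (XT.nd (nat_lit 78) (nat_lit 0) (nat_lit 0) (XT.lf (nat_lit 0) (nat_lit 40089178508) (nat_lit 1216) (nat_lit 66348461659) (nat_lit 1292) (nat_lit 6436481839) (nat_lit 240) (nat_lit 5) (nat_lit 256) (nat_lit 5) (nat_lit 257) (nat_lit 5) (nat_lit 371) (nat_lit 365) (nat_lit 164)) (XT.lf (nat_lit 76) (nat_lit 27590700903) (nat_lit 0) (nat_lit 22711197953) (nat_lit 1292) (nat_lit 65532238073) (nat_lit 241) (nat_lit 5) (nat_lit 240) (nat_lit 5) (nat_lit 257) (nat_lit 5) (nat_lit 372) (nat_lit 365) (nat_lit 163))))) (XT.nd (nat_lit 234) (nat_lit 2356) (nat_lit 0) (XT.nd (nat_lit 78) (nat_lit 0) (nat_lit 76) (XT.lf (nat_lit 76) (nat_lit 8218064168) (nat_lit 0) (nat_lit 54202162405) (nat_lit 1292) (nat_lit 56480077161) (nat_lit 242) (nat_lit 5) (nat_lit 241) (nat_lit 5) (nat_lit 258) (nat_lit 5) (nat_lit 373)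 (nat_lit 365) (nat_lit 162)) (XT.nd (nat_lit 78) (nat_lit 0) (nat_lit 76) (XT.lf (nat_lit 0) (nat_lit 76614156383) (nat_lit 1216) (nat_lit 11308109858) (nat_lit 1292) (nat_lit 34153422330) (nat_lit 242) (nat_lit 5) (nat_lit 258) (nat_lit 5) (nat_lit 259) (nat_lit 5) (nat_lit 374) (nat_lit 365) (nat_lit 161)) (XT.lf (nat_lit 0) (nat_lit 92984141959) (nat_lit 1216) (nat_lit 31051368782) (nat_lit 76) (nat_lit 1330341384) (nat_lit 243) (nat_lit 5) (nat_lit 259) (nat_lit 5) (nat_lit 244) (nat_lit 5) (nat_lit 375) (nat_lit 365) (nat_lit 160)))) (XT.nd (nat_lit 78) (nat_lit 1292) (nat_lit 0) (XT.lf (nat_lit 0) (nat_lit 77256036535) (nat_lit 1216) (nat_lit 34663726917) (nat_lit 1292) (nat_lit 16848346545) (nat_lit 227) (nat_lit 5) (nat_lit 243) (nat_lit 5) (nat_lit 244) (nat_lit 5) (nat_lit 376) (nat_lit 365) (nat_lit 159)) (XT.nd (nat_lit 78) (nat_lit 608) (nat_lit 0) (XT.lf (nat_lit 0) (nat_lit 953639474)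 (nat_lit 684) (nat_lit 72412713343) (nat_lit 76) (nat_lit 58929839913) (nat_lit 218) (nat_lit 5) (nat_lit 227) (nat_lit 5) (nat_lit 219) (nat_lit 5) (nat_lit 377) (nat_lit 365) (nat_lit 158)) (XT.lf (nat_lit 0) (nat_lit 20799580772) (nat_lit 684) (nat_lit 93925800578) (nat_lit 76) (nat_lit 21225224832) (nat_lit 210) (nat_lit 5) (nat_lit 219) (nat_lit 5) (nat_lit 211) (nat_lit 5) (nat_lit 378) (nat_lit 365) (nat_lit 157))))))) (XT.nd (nat_lit 46644) (nat_lit 0) (nat_lit 1140) (XT.nd (nat_lit 46176) (nat_lit 0) (nat_lit 3268) (XT.nd (nat_lit 45942) (nat_lit 0) (nat_lit 3116) (XT.nd (nat_lit 78) (nat_lit 532) (nat_lit 0) (XT.lf (nat_lit 0) (nat_lit 23645137122) (nat_lit 608) (nat_lit 19712857488) (nat_lit 684) (nat_lit 96378140634) (nat_lit 202) (nat_lit 5) (nat_lit 210) (nat_lit 5) (nat_lit 211) (nat_lit 5) (nat_lit 379) (nat_lit 365) (nat_lit 156)) (XT.nd (nat_lit 45786) (nat_lit 0) (nat_lit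 3040) (XT.lf (nat_lit 0) (nat_lit 4687447792) (nat_lit 532) (nat_lit 64147479285) (nat_lit 608) (nat_lit 74822295937) (nat_lit 195) (nat_lit 5) (nat_lit 202) (nat_lit 5) (nat_lit 203) (nat_lit 5) (nat_lit 380) (nat_lit 365) (nat_lit 155)) (XT.lf (nat_lit 0) (nat_lit 6975330286) (nat_lit 1292) (nat_lit 22000816863) (nat_lit 1292) (nat_lit 22000816863) (nat_lit 235) (nat_lit 3) (nat_lit 252) (nat_lit 3) (nat_lit 252) (nat_lit 5) (nat_lit 366) (nat_lit 366) (nat_lit 168)))) (XT.nd (nat_lit 78) (nat_lit 0) (nat_lit 0) (XT.lf (nat_lit 0) (nat_lit 14898237703) (nat_lit 1216) (nat_lit 66760097134) (nat_lit 1292) (nat_lit 22826471799) (nat_lit 236) (nat_lit 5) (nat_lit 252) (nat_lit 5) (nat_lit 253) (nat_lit 5) (nat_lit 367) (nat_lit 366) (nat_lit 167)) (XT.nd (nat_lit 78) (nat_lit 0) (nat_lit 76) (XT.lf (nat_lit 76) (nat_lit 17071585844) (nat_lit 0) (nat_lit 27428165) (nat_lit 1292) (nat_lit 90007040896)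 (nat_lit 237) (nat_lit 5) (nat_lit 236) (nat_lit 5) (nat_lit 253) (nat_lit 5) (nat_lit 368) (nat_lit 366) (nat_lit 166)) (XT.lf (nat_lit 0) (nat_lit 20926905329) (nat_lit 1216) (nat_lit 4178643380) (nat_lit 1292) (nat_lit 84707304915) (nat_lit 237) (nat_lit 5) (nat_lit 253) (nat_lit 5) (nat_lit 254) (nat_lit 5) (nat_lit 369) (nat_lit 366) (nat_lit 165))))) (XT.nd (nat_lit 234) (nat_lit 0) (nat_lit 152) (XT.nd (nat_lit 78) (nat_lit 0) (nat_lit 76) (XT.lf (nat_lit 0) (nat_lit 26383652769) (nat_lit 1216) (nat_lit 25544359971) (nat_lit 1292) (nat_lit 60683855997) (nat_lit 238) (nat_lit 5) (nat_lit 254) (nat_lit 5) (nat_lit 255) (nat_lit 5) (nat_lit 370) (nat_lit 366) (nat_lit 164)) (XT.nd (nat_lit 78) (nat_lit 0) (nat_lit 76) (XT.lf (nat_lit 0) (nat_lit 33408495335) (nat_lit 1216) (nat_lit 47366588920) (nat_lit 1292) (nat_lit 34736892908) (nat_lit 239) (nat_lit 5) (nat_lit 255) (nat_lit 5) (nat_lit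 256) (nat_lit 5) (nat_lit 371) (nat_lit 366) (nat_lit 163)) (XT.lf (nat_lit 0) (nat_lit 42110297106) (nat_lit 1216) (nat_lit 69653555045) (nat_lit 1292) (nat_lit 6753467627) (nat_lit 240) (nat_lit 5) (nat_lit 256) (nat_lit 5) (nat_lit 257) (nat_lit 5) (nat_lit 372) (nat_lit 366) (nat_lit 162)))) (XT.nd (nat_lit 78) (nat_lit 0) (nat_lit 76) (XT.lf (nat_lit 76) (nat_lit 28982212216) (nat_lit 0) (nat_lit 23850763060) (nat_lit 1292) (nat_lit 68792380922) (nat_lit 241) (nat_lit 5) (nat_lit 240) (nat_lit 5) (nat_lit 257) (nat_lit 5) (nat_lit 373) (nat_lit 366) (nat_lit 161)) (XT.nd (nat_lit 78) (nat_lit 0) (nat_lit 76) (XT.lf (nat_lit 76) (nat_lit 8641111344) (nat_lit 0) (nat_lit 56915427080) (nat_lit 1292) (nat_lit 59288313735) (nat_lit 242) (nat_lit 5) (nat_lit 241) (nat_lit 5) (nat_lit 258) (nat_lit 5) (nat_lit 374) (nat_lit 366) (nat_lit 160)) (XT.lf (nat_lit 0) (nat_lit 80459407232) (nat_lit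 1216) (nat_lit 11861476235) (nat_lit 1292) (nat_lit 35858145867) (nat_lit 242) (nat_lit 5) (nat_lit 258) (nat_lit 5) (nat_lit 259) (nat_lit 5) (nat_lit 375) (nat_lit 366) (nat_lit 159)))))) (XT.nd (nat_lit 46332) (nat_lit 0) (nat_lit 1976) (XT.nd (nat_lit 234) (nat_lit 608) (nat_lit 0) (XT.nd (nat_lit 78) (nat_lit 1900) (nat_lit 0) (XT.lf (nat_lit 0) (nat_lit 97647290161) (nat_lit 1216) (nat_lit 32591795482) (nat_lit 76) (nat_lit 1394633831) (nat_lit 243) (nat_lit 5) (nat_lit 259) (nat_lit 5) (nat_lit 244) (nat_lit 5) (nat_lit 376) (nat_lit 366) (nat_lit 158)) (XT.nd (nat_lit 78) (nat_lit 684) (nat_lit 0) (XT.lf (nat_lit 0) (nat_lit 81130632060) (nat_lit 1216) (nat_lit 36398510174) (nat_lit 1292) (nat_lit 17676964854) (nat_lit 227) (nat_lit 5) (nat_lit 243) (nat_lit 5) (nat_lit 244) (nat_lit 5) (nat_lit 377) (nat_lit 366) (nat_lit 157)) (XT.lf (nat_lit 0) (nat_lit 1014307364) (nat_lit 684) (nat_lit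 76021217132) (nat_lit 76) (nat_lit 61875082106) (nat_lit 218) (nat_lit 5) (nat_lit 227) (nat_lit 5) (nat_lit 219) (nat_lit 5) (nat_lit 378) (nat_lit 366) (nat_lit 156)))) (XT.nd (nat_lit 45942) (nat_lit 0) (nat_lit 1900) (XT.lf (nat_lit 0) (nat_lit 21852033930) (nat_lit 684) (nat_lit 98609919475) (nat_lit 76) (nat_lit 22285802973) (nat_lit 210) (nat_lit 5) (nat_lit 219) (nat_lit 5) (nat_lit 211) (nat_lit 5) (nat_lit 379) (nat_lit 366) (nat_lit 155)) (XT.nd (nat_lit 78) (nat_lit 0) (nat_lit 76) (XT.lf (nat_lit 0) (nat_lit 7334110931) (nat_lit 1292) (nat_lit 23095697834) (nat_lit 1292) (nat_lit 23095697834) (nat_lit 235) (nat_lit 3) (nat_lit 252) (nat_lit 3) (nat_lit 252) (nat_lit 5) (nat_lit 367) (nat_lit 367) (nat_lit 166)) (XT.lf (nat_lit 0) (nat_lit 15662232554) (nat_lit 1216) (nat_lit 70087405122) (nat_lit 1292) (nat_lit 23958826919) (nat_lit 236) (nat_lit 5) (nat_lit 252) (nat_lit 5) (nat_lit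 253) (nat_lit 5) (nat_lit 368) (nat_lit 367) (nat_lit 165))))) (XT.nd (nat_lit 234) (nat_lit 0) (nat_lit 228) (XT.nd (nat_lit 78) (nat_lit 0) (nat_lit 76) (XT.lf (nat_lit 76) (nat_lit 17935555381) (nat_lit 0) (nat_lit 36683459) (nat_lit 1292) (nat_lit 94488561173) (nat_lit 237) (nat_lit 5) (nat_lit 236) (nat_lit 5) (nat_lit 253) (nat_lit 5) (nat_lit 369) (nat_lit 367) (nat_lit 164)) (XT.nd (nat_lit 78) (nat_lit 0) (nat_lit 76) (XT.lf (nat_lit 0) (nat_lit 21990582352) (nat_lit 1216) (nat_lit 4377076818) (nat_lit 1292) (nat_lit 88935308215) (nat_lit 237) (nat_lit 5) (nat_lit 253) (nat_lit 5) (nat_lit 254) (nat_lit 5) (nat_lit 370) (nat_lit 367) (nat_lit 163)) (XT.lf (nat_lit 0) (nat_lit 27719378285) (nat_lit 1216) (nat_lit 26810811925) (nat_lit 1292) (nat_lit 63711767138) (nat_lit 238) (nat_lit 5) (nat_lit 254) (nat_lit 5) (nat_lit 255) (nat_lit 5) (nat_lit 371) (nat_lit 367) (nat_lit 162))))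 (XT.nd (nat_lit 78) (nat_lit 0) (nat_lit 76) (XT.lf (nat_lit 0) (nat_lit 35094723856) (nat_lit 1216) (nat_lit 49723925237) (nat_lit 1292) (nat_lit 36468444684) (nat_lit 239) (nat_lit 5) (nat_lit 255) (nat_lit 5) (nat_lit 256) (nat_lit 5) (nat_lit 372) (nat_lit 367) (nat_lit 161)) (XT.nd (nat_lit 78) (nat_lit 0) (nat_lit 0) (XT.lf (nat_lit 0) (nat_lit 44230922775) (nat_lit 1216) (nat_lit 73125049399) (nat_lit 1292) (nat_lit 7086752523) (nat_lit 240) (nat_lit 5) (nat_lit 256) (nat_lit 5) (nat_lit 257) (nat_lit 5) (nat_lit 373) (nat_lit 367) (nat_lit 160)) (XT.lf (nat_lit 76) (nat_lit 30442185655) (nat_lit 0) (nat_lit 25046934056) (nat_lit 1292) (nat_lit 72217062051) (nat_lit 241) (nat_lit 5) (nat_lit 240) (nat_lit 5) (nat_lit 257) (nat_lit 5) (nat_lit 374) (nat_lit 367) (nat_lit 159))))))))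
noncomputable def xc127 : XT := (XT.nd (nat_lit 93912) (nat_lit 0) (nat_lit 1292) (XT.nd (nat_lit 46878) (nat_lit 0) (nat_lit 1292) (XT.nd (nat_lit 46410) (nat_lit 0) (nat_lit 1368) (XT.nd (nat_lit 234) (nat_lit 1748) (nat_lit 0) (XT.nd (nat_lit 78) (nat_lit 0) (nat_lit 76) (XT.lf (nat_lit 76) (nat_lit 9084181848) (nat_lit 0) (nat_lit 59764061523) (nat_lit 1292) (nat_lit 62238428031) (nat_lit 242) (nat_lit 5) (nat_lit 241) (nat_lit 5) (nat_lit 258) (nat_lit 5) (nat_lit 375) (nat_lit 367) (nat_lit 158)) (XT.nd (nat_lit 78) (nat_lit 0) (nat_lit 76) (XT.lf (nat_lit 0) (nat_lit 84495568549) (nat_lit 1216) (nat_lit 12443630214) (nat_lit 1292) (nat_lit 37648379618) (nat_lit 242) (nat_lit 5) (nat_lit 258) (nat_lit 5) (nat_lit 259) (nat_lit 5) (nat_lit 376) (nat_lit 367) (nat_lit 157)) (XT.lf (nat_lit 0) (nat_lit 102542299661) (nat_lit 1216) (nat_lit 34210372341) (nat_lit 76) (nat_lit 1462347724) (nat_lit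 243) (nat_lit 5) (nat_lit 259) (nat_lit 5) (nat_lit 244) (nat_lit 5) (nat_lit 377) (nat_lit 367) (nat_lit 156)))) (XT.nd (nat_lit 78) (nat_lit 684) (nat_lit 0) (XT.lf (nat_lit 0) (nat_lit 85197860895) (nat_lit 1216) (nat_lit 38219884129) (nat_lit 1292) (nat_lit 18548296980) (nat_lit 227) (nat_lit 5) (nat_lit 243) (nat_lit 5) (nat_lit 244) (nat_lit 5) (nat_lit 378) (nat_lit 367) (nat_lit 155)) (XT.nd (nat_lit 46020) (nat_lit 0) (nat_lit 1292) (XT.lf (nat_lit 0) (nat_lit 1076801342) (nat_lit 684) (nat_lit 79811274018) (nat_lit 76) (nat_lit 64967702604) (nat_lit 218) (nat_lit 5) (nat_lit 227) (nat_lit 5) (nat_lit 219) (nat_lit 5) (nat_lit 379) (nat_lit 367) (nat_lit 154)) (XT.lf (nat_lit 0) (nat_lit 7709899590) (nat_lit 1292) (nat_lit 24245802570) (nat_lit 1292) (nat_lit 24245802570) (nat_lit 235) (nat_lit 3) (nat_lit 252) (nat_lit 3) (nat_lit 252) (nat_lit 5) (nat_lit 368) (nat_lit 368) (nat_lit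 164))))) (XT.nd (nat_lit 234) (nat_lit 0) (nat_lit 152) (XT.nd (nat_lit 78) (nat_lit 0) (nat_lit 0) (XT.lf (nat_lit 0) (nat_lit 16462652993) (nat_lit 1216) (nat_lit 73582073003) (nat_lit 1292) (nat_lit 25148633598) (nat_lit 236) (nat_lit 5) (nat_lit 252) (nat_lit 5) (nat_lit 253) (nat_lit 5) (nat_lit 369) (nat_lit 368) (nat_lit 163)) (XT.nd (nat_lit 78) (nat_lit 0) (nat_lit 76) (XT.lf (nat_lit 76) (nat_lit 18841757409) (nat_lit 0) (nat_lit 45668548) (nat_lit 1292) (nat_lit 99195908263) (nat_lit 237) (nat_lit 5) (nat_lit 236) (nat_lit 5) (nat_lit 253) (nat_lit 5) (nat_lit 370) (nat_lit 368) (nat_lit 162)) (XT.lf (nat_lit 0) (nat_lit 23105831885) (nat_lit 1216) (nat_lit 4586408001) (nat_lit 1292) (nat_lit 93375396125) (nat_lit 237) (nat_lit 5) (nat_lit 253) (nat_lit 5) (nat_lit 254) (nat_lit 5) (nat_lit 371) (nat_lit 368) (nat_lit 161)))) (XT.nd (nat_lit 78) (nat_lit 0) (nat_lit 76) (XT.lf (nat_lit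 0) (nat_lit 29120352078) (nat_lit 1216) (nat_lit 28141587402) (nat_lit 1292) (nat_lit 66891657845) (nat_lit 238) (nat_lit 5) (nat_lit 254) (nat_lit 5) (nat_lit 255) (nat_lit 5) (nat_lit 372) (nat_lit 368) (nat_lit 160)) (XT.nd (nat_lit 78) (nat_lit 0) (nat_lit 76) (XT.lf (nat_lit 0) (nat_lit 36863794520) (nat_lit 1216) (nat_lit 52200150406) (nat_lit 1292) (nat_lit 38287066130) (nat_lit 239) (nat_lit 5) (nat_lit 255) (nat_lit 5) (nat_lit 256) (nat_lit 5) (nat_lit 373) (nat_lit 368) (nat_lit 159)) (XT.lf (nat_lit 0) (nat_lit 46456174868) (nat_lit 1216) (nat_lit 76771158198) (nat_lit 1292) (nat_lit 7437109664) (nat_lit 240) (nat_lit 5) (nat_lit 256) (nat_lit 5) (nat_lit 257) (nat_lit 5) (nat_lit 374) (nat_lit 368) (nat_lit 158)))))) (XT.nd (nat_lit 46566) (nat_lit 0) (nat_lit 76) (XT.nd (nat_lit 234) (nat_lit 380) (nat_lit 0) (XT.nd (nat_lit 78) (nat_lit 0) (nat_lit 76) (XT.lf (nat_lit 76) (nat_lit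 31974147844) (nat_lit 0) (nat_lit 26302575855) (nat_lit 1292) (nat_lit 75814366022) (nat_lit 241) (nat_lit 5) (nat_lit 240) (nat_lit 5) (nat_lit 257) (nat_lit 5) (nat_lit 375) (nat_lit 368) (nat_lit 157)) (XT.nd (nat_lit 78) (nat_lit 0) (nat_lit 76) (XT.lf (nat_lit 76) (nat_lit 9548381813) (nat_lit 0) (nat_lit 62754861505) (nat_lit 1292) (nat_lit 65337377649) (nat_lit 242) (nat_lit 5) (nat_lit 241) (nat_lit 5) (nat_lit 258) (nat_lit 5) (nat_lit 376) (nat_lit 368) (nat_lit 156)) (XT.lf (nat_lit 0) (nat_lit 88732311563) (nat_lit 1216) (nat_lit 13055907115) (nat_lit 1292) (nat_lit 39528373617) (nat_lit 242) (nat_lit 5) (nat_lit 258) (nat_lit 5) (nat_lit 259) (nat_lit 5) (nat_lit 377) (nat_lit 368) (nat_lit 155)))) (XT.nd (nat_lit 46176) (nat_lit 608) (nat_lit 0) (XT.lf (nat_lit 0) (nat_lit 107680884025) (nat_lit 1216) (nat_lit 35910901920) (nat_lit 76) (nat_lit 1533634907) (nat_lit 243) (nat_lit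 5) (nat_lit 259) (nat_lit 5) (nat_lit 244) (nat_lit 5) (nat_lit 378) (nat_lit 368) (nat_lit 154)) (XT.nd (nat_lit 78) (nat_lit 0) (nat_lit 76) (XT.lf (nat_lit 0) (nat_lit 8103633220) (nat_lit 1292) (nat_lit 25453847659) (nat_lit 1292) (nat_lit 25453847659) (nat_lit 235) (nat_lit 3) (nat_lit 252) (nat_lit 3) (nat_lit 252) (nat_lit 5) (nat_lit 369) (nat_lit 369) (nat_lit 162)) (XT.lf (nat_lit 0) (nat_lit 17301485246) (nat_lit 1216) (nat_lit 77252376313) (nat_lit 1292) (nat_lit 26398686895) (nat_lit 236) (nat_lit 5) (nat_lit 252) (nat_lit 5) (nat_lit 253) (nat_lit 5) (nat_lit 370) (nat_lit 369) (nat_lit 161))))) (XT.nd (nat_lit 234) (nat_lit 0) (nat_lit 228) (XT.nd (nat_lit 78) (nat_lit 0) (nat_lit 76) (XT.lf (nat_lit 76) (nat_lit 19792393359) (nat_lit 0) (nat_lit 54438067) (nat_lit 1292) (nat_lit 104140210734) (nat_lit 237) (nat_lit 5) (nat_lit 236) (nat_lit 5) (nat_lit 253) (nat_lit 5) (nat_lit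 371) (nat_lit 369) (nat_lit 160)) (XT.nd (nat_lit 78) (nat_lit 0) (nat_lit 76) (XT.lf (nat_lit 0) (nat_lit 24275382359) (nat_lit 1216) (nat_lit 4807091069) (nat_lit 1292) (nat_lit 98038109241) (nat_lit 237) (nat_lit 5) (nat_lit 253) (nat_lit 5) (nat_lit 254) (nat_lit 5) (nat_lit 372) (nat_lit 369) (nat_lit 159)) (XT.lf (nat_lit 0) (nat_lit 30589979548) (nat_lit 1216) (nat_lit 29539809521) (nat_lit 1292) (nat_lit 70231072801) (nat_lit 238) (nat_lit 5) (nat_lit 254) (nat_lit 5) (nat_lit 255) (nat_lit 5) (nat_lit 373) (nat_lit 369) (nat_lit 158)))) (XT.nd (nat_lit 78) (nat_lit 0) (nat_lit 76) (XT.lf (nat_lit 0) (nat_lit 38719986034) (nat_lit 1216) (nat_lit 54801113851) (nat_lit 1292) (nat_lit 40197064980) (nat_lit 239) (nat_lit 5) (nat_lit 255) (nat_lit 5) (nat_lit 256) (nat_lit 5) (nat_lit 374) (nat_lit 369) (nat_lit 157)) (XT.nd (nat_lit 78) (nat_lit 0) (nat_lit 0) (XT.lf (nat_lit 0) (nat_lit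 48791415315) (nat_lit 1216) (nat_lit 80600515498) (nat_lit 1292) (nat_lit 7805354730) (nat_lit 240) (nat_lit 5) (nat_lit 256) (nat_lit 5) (nat_lit 257) (nat_lit 5) (nat_lit 375) (nat_lit 369) (nat_lit 156)) (XT.lf (nat_lit 76) (nat_lit 33581792112) (nat_lit 0) (nat_lit 27620693397) (nat_lit 1292) (nat_lit 79592794861) (nat_lit 241) (nat_lit 5) (nat_lit 240) (nat_lit 5) (nat_lit 257) (nat_lit 5) (nat_lit 376) (nat_lit 369) (nat_lit 155))))))) (XT.nd (nat_lit 93444) (nat_lit 0) (nat_lit 0) (XT.nd (nat_lit 46644) (nat_lit 0) (nat_lit 0) (XT.nd (nat_lit 46410) (nat_lit 0) (nat_lit 76) (XT.nd (nat_lit 78) (nat_lit 456) (nat_lit 0) (XT.lf (nat_lit 76) (nat_lit 10034862920) (nat_lit 0) (nat_lit 65894960050) (nat_lit 1292) (nat_lit 68592480742) (nat_lit 242) (nat_lit 5) (nat_lit 241) (nat_lit 5) (nat_lit 258) (nat_lit 5) (nat_lit 377) (nat_lit 369) (nat_lit 154)) (XT.nd (nat_lit 46254) (nat_lit 532)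 (nat_lit 0) (XT.lf (nat_lit 0) (nat_lit 93179779373) (nat_lit 1216) (nat_lit 13699718698) (nat_lit 1292) (nat_lit 41502592768) (nat_lit 242) (nat_lit 5) (nat_lit 258) (nat_lit 5) (nat_lit 259) (nat_lit 5) (nat_lit 378) (nat_lit 369) (nat_lit 153)) (XT.lf (nat_lit 0) (nat_lit 8516287580) (nat_lit 1292) (nat_lit 26722689665) (nat_lit 1292) (nat_lit 26722689665) (nat_lit 235) (nat_lit 3) (nat_lit 252) (nat_lit 3) (nat_lit 252) (nat_lit 5) (nat_lit 370) (nat_lit 370) (nat_lit 160)))) (XT.nd (nat_lit 78) (nat_lit 0) (nat_lit 0) (XT.lf (nat_lit 0) (nat_lit 18180799511) (nat_lit 1216) (nat_lit 81107012961) (nat_lit 1292) (nat_lit 27711928829) (nat_lit 236) (nat_lit 5) (nat_lit 252) (nat_lit 5) (nat_lit 253) (nat_lit 5) (nat_lit 371) (nat_lit 370) (nat_lit 159)) (XT.nd (nat_lit 78) (nat_lit 0) (nat_lit 76) (XT.lf (nat_lit 76) (nat_lit 20789766388) (nat_lit 0) (nat_lit 63043047) (nat_lit 1292) (nat_lit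 109333168716) (nat_lit 237) (nat_lit 5) (nat_lit 236) (nat_lit 5) (nat_lit 253) (nat_lit 5) (nat_lit 372) (nat_lit 370) (nat_lit 158)) (XT.lf (nat_lit 0) (nat_lit 25502084701) (nat_lit 1216) (nat_lit 5039611308) (nat_lit 1292) (nat_lit 102934521106) (nat_lit 237) (nat_lit 5) (nat_lit 253) (nat_lit 5) (nat_lit 254) (nat_lit 5) (nat_lit 373) (nat_lit 370) (nat_lit 157))))) (XT.nd (nat_lit 234) (nat_lit 228) (nat_lit 0) (XT.nd (nat_lit 78) (nat_lit 0) (nat_lit 76) (XT.lf (nat_lit 0) (nat_lit 32131823076) (nat_lit 1216) (nat_lit 31008766209) (nat_lit 1292) (nat_lit 73737938970) (nat_lit 238) (nat_lit 5) (nat_lit 254) (nat_lit 5) (nat_lit 255) (nat_lit 5) (nat_lit 374) (nat_lit 370) (nat_lit 156)) (XT.nd (nat_lit 78) (nat_lit 0) (nat_lit 76) (XT.lf (nat_lit 0) (nat_lit 40667778341) (nat_lit 1216) (nat_lit 57532966301) (nat_lit 1292) (nat_lit 42202968609) (nat_lit 239) (nat_lit 5) (nat_lit 255) (nat_lit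 5) (nat_lit 256) (nat_lit 5) (nat_lit 375) (nat_lit 370) (nat_lit 155)) (XT.lf (nat_lit 0) (nat_lit 51242262003) (nat_lit 1216) (nat_lit 84622196049) (nat_lit 1292) (nat_lit 8192347712) (nat_lit 240) (nat_lit 5) (nat_lit 256) (nat_lit 5) (nat_lit 257) (nat_lit 5) (nat_lit 376) (nat_lit 370) (nat_lit 154)))) (XT.nd (nat_lit 46410) (nat_lit 380) (nat_lit 0) (XT.lf (nat_lit 76) (nat_lit 35268987727) (nat_lit 0) (nat_lit 29004438950) (nat_lit 1292) (nat_lit 83561287700) (nat_lit 241) (nat_lit 5) (nat_lit 240) (nat_lit 5) (nat_lit 257) (nat_lit 5) (nat_lit 377) (nat_lit 370) (nat_lit 153)) (XT.nd (nat_lit 78) (nat_lit 0) (nat_lit 76) (XT.lf (nat_lit 0) (nat_lit 8948879917) (nat_lit 1292) (nat_lit 28055331744) (nat_lit 1292) (nat_lit 28055331744) (nat_lit 235) (nat_lit 3) (nat_lit 252) (nat_lit 3) (nat_lit 252) (nat_lit 5) (nat_lit 371) (nat_lit 371) (nat_lit 158)) (XT.lf (nat_lit 0) (nat_lit 19102755588)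 (nat_lit 1216) (nat_lit 85155123548) (nat_lit 1292) (nat_lit 29091455057) (nat_lit 236) (nat_lit 5) (nat_lit 252) (nat_lit 5) (nat_lit 253) (nat_lit 5) (nat_lit 372) (nat_lit 371) (nat_lit 157)))))) (XT.nd (nat_lit 46956) (nat_lit 0) (nat_lit 0) (XT.nd (nat_lit 234) (nat_lit 76) (nat_lit 0) (XT.nd (nat_lit 78) (nat_lit 0) (nat_lit 76) (XT.lf (nat_lit 76) (nat_lit 21836287234) (nat_lit 0) (nat_lit 71531323) (nat_lit 1292) (nat_lit 114787081070) (nat_lit 237) (nat_lit 5) (nat_lit 236) (nat_lit 5) (nat_lit 253) (nat_lit 5) (nat_lit 373) (nat_lit 371) (nat_lit 156)) (XT.nd (nat_lit 78) (nat_lit 0) (nat_lit 76) (XT.lf (nat_lit 0) (nat_lit 26788919752) (nat_lit 1216) (nat_lit 5284485919) (nat_lit 1292) (nat_lit 108076264307) (nat_lit 237) (nat_lit 5) (nat_lit 253) (nat_lit 5) (nat_lit 254) (nat_lit 5) (nat_lit 374) (nat_lit 371) (nat_lit 155)) (XT.lf (nat_lit 0) (nat_lit 33749611101) (nat_lit 1216)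 (nat_lit 32551917637) (nat_lit 1292) (nat_lit 77420584244) (nat_lit 238) (nat_lit 5) (nat_lit 254) (nat_lit 5) (nat_lit 255) (nat_lit 5) (nat_lit 375) (nat_lit 371) (nat_lit 154)))) (XT.nd (nat_lit 46566) (nat_lit 304) (nat_lit 0) (XT.lf (nat_lit 0) (nat_lit 42711863861) (nat_lit 1216) (nat_lit 60402174033) (nat_lit 1292) (nat_lit 44309534617) (nat_lit 239) (nat_lit 5) (nat_lit 255) (nat_lit 5) (nat_lit 256) (nat_lit 5) (nat_lit 376) (nat_lit 371) (nat_lit 153)) (XT.nd (nat_lit 78) (nat_lit 0) (nat_lit 76) (XT.lf (nat_lit 0) (nat_lit 9402471720) (nat_lit 1292) (nat_lit 29454930618) (nat_lit 1292) (nat_lit 29454930618) (nat_lit 235) (nat_lit 3) (nat_lit 252) (nat_lit 3) (nat_lit 252) (nat_lit 5) (nat_lit 372) (nat_lit 372) (nat_lit 156)) (XT.lf (nat_lit 0) (nat_lit 20069608653) (nat_lit 1216) (nat_lit 89406312776) (nat_lit 1292) (nat_lit 30540521947) (nat_lit 236) (nat_lit 5) (nat_lit 252) (nat_lit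 5) (nat_lit 253) (nat_lit 5) (nat_lit 373) (nat_lit 372) (nat_lit 155))))) (XT.nd (nat_lit 46800) (nat_lit 76) (nat_lit 0) (XT.nd (nat_lit 78) (nat_lit 0) (nat_lit 76) (XT.lf (nat_lit 76) (nat_lit 22934480305) (nat_lit 0) (nat_lit 79947911) (nat_lit 1292) (nat_lit 120514874052) (nat_lit 237) (nat_lit 5) (nat_lit 236) (nat_lit 5) (nat_lit 253) (nat_lit 5) (nat_lit 374) (nat_lit 372) (nat_lit 154)) (XT.nd (nat_lit 78) (nat_lit 0) (nat_lit 76) (XT.lf (nat_lit 0) (nat_lit 28139005935) (nat_lit 1216) (nat_lit 5542264905) (nat_lit 1292) (nat_lit 113475557927) (nat_lit 237) (nat_lit 5) (nat_lit 253) (nat_lit 5) (nat_lit 254) (nat_lit 5) (nat_lit 375) (nat_lit 372) (nat_lit 153)) (XT.lf (nat_lit 0) (nat_lit 35447247548) (nat_lit 1216) (nat_lit 34172904102) (nat_lit 1292) (nat_lit 81287757063) (nat_lit 238) (nat_lit 5) (nat_lit 254) (nat_lit 5) (nat_lit 255) (nat_lit 5) (nat_lit 376) (nat_lit 372) (nat_lit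 152)))) (XT.nd (nat_lit 78) (nat_lit 0) (nat_lit 76) (XT.lf (nat_lit 0) (nat_lit 9878171549) (nat_lit 1292) (nat_lit 30924803939) (nat_lit 1292) (nat_lit 30924803939) (nat_lit 235) (nat_lit 3) (nat_lit 252) (nat_lit 3) (nat_lit 252) (nat_lit 5) (nat_lit 373) (nat_lit 373) (nat_lit 154)) (XT.nd (nat_lit 78) (nat_lit 0) (nat_lit 0) (XT.lf (nat_lit 0) (nat_lit 21083715195) (nat_lit 1216) (nat_lit 93870671998) (nat_lit 1292) (nat_lit 32062554064) (nat_lit 236) (nat_lit 5) (nat_lit 252) (nat_lit 5) (nat_lit 253) (nat_lit 5) (nat_lit 374) (nat_lit 373) (nat_lit 153)) (XT.lf (nat_lit 76) (nat_lit 24086989997) (nat_lit 0) (nat_lit 88335349) (nat_lit 1292) (nat_lit 126530131522) (nat_lit 237) (nat_lit 5) (nat_lit 236) (nat_lit 5) (nat_lit 253) (nat_lit 5) (nat_lit 375) (nat_lit 373) (nat_lit 152))))))))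

set_option maxRecDepth 10000000 in
noncomputable def Tp : PT := (PT.nd (nat_lit 7230600) (PT.nd (nat_lit 6669156) (PT.nd (nat_lit 6106698) (PT.nd (nat_lit 5544630) pc0 pc1) (PT.nd (nat_lit 328068) pc2 pc3)) (PT.nd (nat_lit 327600) (PT.nd (nat_lit 187044) pc4 pc5) (PT.nd (nat_lit 139776) pc6 pc7))) (PT.nd (nat_lit 326508) (PT.nd (nat_lit 186264) (PT.nd (nat_lit 93444) pc8 pc9) (PT.nd (nat_lit 48360) pc10 pc11)) (PT.nd (nat_lit 234156) (PT.nd (nat_lit 93834) pc12 pc13) (PT.nd (nat_lit 233220) pc14 pc15))))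

set_option maxRecDepth 10000000 in
noncomputable def Tx : XT := (XT.nd (nat_lit 11844222) (nat_lit 0) (nat_lit 152) XT.nil (XT.nd (nat_lit 5670600) (nat_lit 0) (nat_lit 0) (XT.nd (nat_lit 2620020) (nat_lit 0) (nat_lit 1292) (XT.nd (nat_lit 1780506) (nat_lit 0) (nat_lit 456) (XT.nd (nat_lit 1262586) (nat_lit 0) (nat_lit 228) (XT.nd (nat_lit 887874) (nat_lit 0) (nat_lit 152) (XT.nd (nat_lit 608088) (nat_lit 0) (nat_lit 152) (XT.nd (nat_lit 420888) (nat_lit 0) (nat_lit 0) (XT.nd (nat_lit 280722) (nat_lit 0) (nat_lit 0) xc0 xc1) (XT.nd (nat_lit 93912) (nat_lit 0) (nat_lit 76) xc2 xc3)) (XT.nd (nat_lit 140556) (nat_lit 0) (nat_lit 0) (XT.nd (nat_lit 48204) (nat_lit 0) (nat_lit 0) xc4 xc5) (XT.nd (nat_lit 47814) (nat_lit 0) (nat_lit 0) xc6 xc7))) (XT.nd (nat_lit 188448) (nat_lit 0) (nat_lit 76) (XT.nd (nat_lit 94458) (nat_lit 0) (nat_lit 0) (XT.nd (nat_lit 47268) (nat_lit 0) (nat_lit 0) xc8 xc9)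 (XT.nd (nat_lit 47034) (nat_lit 0) (nat_lit 0) xc10 xc11)) (XT.nd (nat_lit 93444) (nat_lit 0) (nat_lit 0) (XT.nd (nat_lit 46800) (nat_lit 0) (nat_lit 0) xc12 xc13) (XT.nd (nat_lit 46488) (nat_lit 0) (nat_lit 0) xc14 xc15)))) (XT.nd (nat_lit 282126) (nat_lit 0) (nat_lit 152) (XT.nd (nat_lit 141726) (nat_lit 0) (nat_lit 0) (XT.nd (nat_lit 49842) (nat_lit 0) (nat_lit 0) (XT.nd (nat_lit 46098) (nat_lit 0) (nat_lit 0) xc16 xc17) (XT.nd (nat_lit 46020) (nat_lit 0) (nat_lit 0) xc18 xc19)) (XT.nd (nat_lit 91260) (nat_lit 0) (nat_lit 152) (XT.nd (nat_lit 45708) (nat_lit 0) (nat_lit 76) xc20 xc21) (XT.nd (nat_lit 3744) (nat_lit 228) (nat_lit 0) xc22 xc23))) (XT.nd (nat_lit 138918) (nat_lit 0) (nat_lit 0) (XT.nd (nat_lit 48906) (nat_lit 0) (nat_lit 0) (XT.nd (nat_lit 45162) (nat_lit 0) (nat_lit 76) xc24 xc25) (XT.nd (nat_lit 45084) (nat_lit 0) (nat_lit 0) xc26 xc27)) (XT.nd (nat_lit 48516) (nat_lit 0)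 (nat_lit 76) (XT.nd (nat_lit 3744) (nat_lit 76) (nat_lit 0) xc28 xc29) (XT.nd (nat_lit 44616) (nat_lit 0) (nat_lit 380) xc30 xc31))))) (XT.nd (nat_lit 421356) (nat_lit 0) (nat_lit 228) (XT.nd (nat_lit 232050) (nat_lit 0) (nat_lit 152) (XT.nd (nat_lit 136578) (nat_lit 0) (nat_lit 152) (XT.nd (nat_lit 88686) (nat_lit 0) (nat_lit 0) (XT.nd (nat_lit 44382) (nat_lit 0) (nat_lit 0) xc32 xc33) (XT.nd (nat_lit 3744) (nat_lit 1368) (nat_lit 0) xc34 xc35)) (XT.nd (nat_lit 47736) (nat_lit 0) (nat_lit 0) (XT.nd (nat_lit 3666) (nat_lit 532) (nat_lit 0) xc36 xc37) (XT.nd (nat_lit 3744) (nat_lit 76) (nat_lit 0) xc38 xc39))) (XT.nd (nat_lit 94926) (nat_lit 0) (nat_lit 76) (XT.nd (nat_lit 47502) (nat_lit 0) (nat_lit 76) (XT.nd (nat_lit 43758) (nat_lit 0) (nat_lit 1976) xc40 xc41) (XT.nd (nat_lit 43680) (nat_lit 0) (nat_lit 1292) xc42 xc43)) (XT.nd (nat_lit 47268) (nat_lit 0) (nat_lit 0) (XT.nd (nat_lit 43524)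 (nat_lit 0) (nat_lit 988) xc44 xc45) (XT.nd (nat_lit 43368) (nat_lit 0) (nat_lit 912) xc46 xc47)))) (XT.nd (nat_lit 188214) (nat_lit 0) (nat_lit 228) (XT.nd (nat_lit 93912) (nat_lit 0) (nat_lit 152) (XT.nd (nat_lit 46878) (nat_lit 0) (nat_lit 76) (XT.nd (nat_lit 43134) (nat_lit 0) (nat_lit 912) xc48 xc49) (XT.nd (nat_lit 43290) (nat_lit 0) (nat_lit 836) xc50 xc51)) (XT.nd (nat_lit 47112) (nat_lit 0) (nat_lit 0) (XT.nd (nat_lit 43368) (nat_lit 0) (nat_lit 608) xc52 xc53) (XT.nd (nat_lit 43446) (nat_lit 0) (nat_lit 456) xc54 xc55))) (XT.nd (nat_lit 134550) (nat_lit 0) (nat_lit 228) (XT.nd (nat_lit 47190) (nat_lit 0) (nat_lit 0) (XT.nd (nat_lit 43446) (nat_lit 0) (nat_lit 228) xc56 xc57) (XT.nd (nat_lit 43602) (nat_lit 0) (nat_lit 152) xc58 xc59)) (XT.nd (nat_lit 47658) (nat_lit 0) (nat_lit 76) (XT.nd (nat_lit 3744) (nat_lit 3344) (nat_lit 0) xc60 xc61) (XT.nd (nat_lit 3744) (nat_lit 1976) (nat_lit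 0) xc62 xc63)))))) (XT.nd (nat_lit 942006) (nat_lit 0) (nat_lit 1672) (XT.nd (nat_lit 425412) (nat_lit 0) (nat_lit 532) (XT.nd (nat_lit 191568) (nat_lit 0) (nat_lit 76) (XT.nd (nat_lit 95628) (nat_lit 0) (nat_lit 76) (XT.nd (nat_lit 47736) (nat_lit 0) (nat_lit 76) (XT.nd (nat_lit 3666) (nat_lit 988) (nat_lit 0) xc64 xc65) (XT.nd (nat_lit 3744) (nat_lit 76) (nat_lit 0) xc66 xc67)) (XT.nd (nat_lit 47892) (nat_lit 0) (nat_lit 76) (XT.nd (nat_lit 44148) (nat_lit 0) (nat_lit 2356) xc68 xc69) (XT.nd (nat_lit 44304) (nat_lit 0) (nat_lit 684) xc70 xc71))) (XT.nd (nat_lit 136890) (nat_lit 0) (nat_lit 304) (XT.nd (nat_lit 88608) (nat_lit 0) (nat_lit 228) (XT.nd (nat_lit 44226) (nat_lit 0) (nat_lit 76) xc72 xc73) (XT.nd (nat_lit 3744) (nat_lit 3040) (nat_lit 0) xc74 xc75)) (XT.nd (nat_lit 48438) (nat_lit 0) (nat_lit 152) (XT.nd (nat_lit 3744) (nat_lit 760) (nat_lit 0) xc76 xc77) (XT.nd (nat_lit 44772)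 (nat_lit 0) (nat_lit 1520) xc78 xc79)))) (XT.nd (nat_lit 277680) (nat_lit 0) (nat_lit 608) (XT.nd (nat_lit 138450) (nat_lit 0) (nat_lit 228) (XT.nd (nat_lit 89700) (nat_lit 0) (nat_lit 228) (XT.nd (nat_lit 44772) (nat_lit 0) (nat_lit 76) xc80 xc81) (XT.nd (nat_lit 3744) (nat_lit 2204) (nat_lit 0) xc82 xc83)) (XT.nd (nat_lit 48828) (nat_lit 0) (nat_lit 76) (XT.nd (nat_lit 45084) (nat_lit 0) (nat_lit 2356) xc84 xc85) (XT.nd (nat_lit 45162) (nat_lit 0) (nat_lit 0) xc86 xc87))) (XT.nd (nat_lit 98280) (nat_lit 0) (nat_lit 228) (XT.nd (nat_lit 49062) (nat_lit 0) (nat_lit 0) (XT.nd (nat_lit 3666) (nat_lit 1672) (nat_lit 0) xc88 xc89) (XT.nd (nat_lit 45474) (nat_lit 0) (nat_lit 532) xc90 xc91)) (XT.nd (nat_lit 91182) (nat_lit 0) (nat_lit 228) (XT.nd (nat_lit 45552) (nat_lit 0) (nat_lit 76) xc92 xc93) (XT.nd (nat_lit 45708) (nat_lit 0) (nat_lit 380) xc94 xc95))))) (XT.nd (nat_lit 700440) (nat_lit 0)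 (nat_lit 2736) (XT.nd (nat_lit 326196) (nat_lit 0) (nat_lit 1140) (XT.nd (nat_lit 183768) (nat_lit 0) (nat_lit 532) (XT.nd (nat_lit 91650) (nat_lit 0) (nat_lit 304) (XT.nd (nat_lit 45708) (nat_lit 0) (nat_lit 228) xc96 xc97) (XT.nd (nat_lit 46020) (nat_lit 0) (nat_lit 76) xc98 xc99)) (XT.nd (nat_lit 49842) (nat_lit 0) (nat_lit 228) (XT.nd (nat_lit 3666) (nat_lit 380) (nat_lit 0) xc100 xc101) (XT.nd (nat_lit 46254) (nat_lit 0) (nat_lit 152) xc102 xc103))) (XT.nd (nat_lit 186342) (nat_lit 0) (nat_lit 532) (XT.nd (nat_lit 92976) (nat_lit 0) (nat_lit 304) (XT.nd (nat_lit 46410) (nat_lit 0) (nat_lit 152) xc104 xc105) (XT.nd (nat_lit 46644) (nat_lit 0) (nat_lit 228) xc106 xc107)) (XT.nd (nat_lit 93756) (nat_lit 0) (nat_lit 608) (XT.nd (nat_lit 46800) (nat_lit 0) (nat_lit 456) xc108 xc109) (XT.nd (nat_lit 47034) (nat_lit 0) (nat_lit 228) xc110 xc111)))) (XT.nd (nat_lit 468858) (nat_lit 0) (nat_lit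 3040) (XT.nd (nat_lit 189306) (nat_lit 0) (nat_lit 988) (XT.nd (nat_lit 94380) (nat_lit 0) (nat_lit 456) (XT.nd (nat_lit 47112) (nat_lit 0) (nat_lit 228) xc112 xc113) (XT.nd (nat_lit 47424) (nat_lit 0) (nat_lit 228) xc114 xc115)) (XT.nd (nat_lit 139308) (nat_lit 0) (nat_lit 1064) (XT.nd (nat_lit 47580) (nat_lit 0) (nat_lit 228) xc116 xc117) (XT.nd (nat_lit 47892) (nat_lit 0) (nat_lit 304) xc118 xc119))) (XT.nd (nat_lit 283062) (nat_lit 0) (nat_lit 2508) (XT.nd (nat_lit 141024) (nat_lit 0) (nat_lit 1368) (XT.nd (nat_lit 48126) (nat_lit 0) (nat_lit 304) xc120 xc121) (XT.nd (nat_lit 48516) (nat_lit 0) (nat_lit 380) xc122 xc123)) (XT.nd (nat_lit 233922) (nat_lit 0) (nat_lit 3420) (XT.nd (nat_lit 93990) (nat_lit 0) (nat_lit 1368) xc124 xc125) (XT.nd (nat_lit 140946) (nat_lit 0) (nat_lit 1748) xc126 xc127))))))) XT.nil))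

set_option maxRecDepth 10000000 in
noncomputable def Te : XT := XT.nil

set_option maxRecDepth 10000000 in
noncomputable def Tz : ZL := (ZL.cons (nat_lit 76) (nat_lit 6) (nat_lit 271700575972612819038) (ZL.cons (nat_lit 152) (nat_lit 3) (nat_lit 132640238312752495173) (ZL.cons (nat_lit 228) (nat_lit 6) (nat_lit 259179661346151276272) (ZL.cons (nat_lit 304) (nat_lit 6) (nat_lit 253383604383886548926) (ZL.cons (nat_lit 380) (nat_lit 3) (nat_lit 126543070708758720211) (ZL.cons (nat_lit 456) (nat_lit 6) (nat_lit 247297744573508585214) (ZL.cons (nat_lit 532) (nat_lit 6) (nat_lit 241800688916877070514) (ZL.cons (nat_lit 608) (nat_lit 3) (nat_lit 120758695426834197874) (ZL.cons (nat_lit 684) (nat_lit 6) (nat_lit 236028780477413980080) (ZL.cons (nat_lit 760) (nat_lit 6) (nat_lit 230818845324801875310) (ZL.cons (nat_lit 836) (nat_lit 3) (nat_lit 115274518822777759196) (ZL.cons (nat_lit 912) (nat_lit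 6) (nat_lit 225348413414559165306) (ZL.cons (nat_lit 988) (nat_lit 6) (nat_lit 220414525345779691406) (ZL.cons (nat_lit 1064) (nat_lit 3) (nat_lit 110078782825629675741) (ZL.cons (nat_lit 1140) (nat_lit 6) (nat_lit 215233942873561243812) (ZL.cons (nat_lit 1216) (nat_lit 6) (nat_lit 210565822170089370610) (ZL.cons (nat_lit 1292) (nat_lit 3) (nat_lit 105160549325749285341) (ZL.cons (nat_lit 1368) (nat_lit 6) (nat_lit 205664295431443903746) (ZL.cons (nat_lit 1444) (nat_lit 6) (nat_lit 201252445586682827128) (ZL.cons (nat_lit 1520) (nat_lit 3) (nat_lit 100509687784488651695) (ZL.cons (nat_lit 1596) (nat_lit 6) (nat_lit 196620003249683696682) (ZL.cons (nat_lit 1672) (nat_lit 6) (nat_lit 192455703777564765512) (ZL.cons (nat_lit 1748) (nat_lit 3) (nat_lit 96116866166065466689) (ZL.cons (nat_lit 1824) (nat_lit 6) (nat_lit 188083189331839887782) (ZL.cons (nat_lit 1900) (nat_lit 6) (nat_lit 184158492003571771692)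 (ZL.cons (nat_lit 1976) (nat_lit 3) (nat_lit 91973545313484061020) (ZL.cons (nat_lit 2052) (nat_lit 6) (nat_lit 180450295829878327688) (ZL.cons (nat_lit 2128) (nat_lit 6) (nat_lit 180037559808890249798) (ZL.cons (nat_lit 2204) (nat_lit 6) (nat_lit 176345288470896561830) (ZL.cons (nat_lit 2280) (nat_lit 3) (nat_lit 88071976913256066796) (ZL.cons (nat_lit 2356) (nat_lit 6) (nat_lit 172861485490753739836) (ZL.cons (nat_lit 2432) (nat_lit 6) (nat_lit 172468403566003189466) (ZL.cons (nat_lit 2508) (nat_lit 6) (nat_lit 169002157717219348504) (ZL.cons (nat_lit 2584) (nat_lit 3) (nat_lit 84405205218426613186) (ZL.cons (nat_lit 2660) (nat_lit 6) (nat_lit 165736963313853982514) (ZL.cons (nat_lit 2736) (nat_lit 6) (nat_lit 165362599575996315494) (ZL.cons (nat_lit 2812) (nat_lit 6) (nat_lit 162116761909954226092) (ZL.cons (nat_lit 2888) (nat_lit 3) (nat_lit 80967072726231340602) (ZL.cons (nat_lit 2964)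 (nat_lit 6) (nat_lit 159065169253807810334) (ZL.cons (nat_lit 3040) (nat_lit 6) (nat_lit 158708632360610032220) (ZL.cons (nat_lit 3116) (nat_lit 6) (nat_lit 156200555910756719614) (ZL.cons (nat_lit 3192) (nat_lit 6) (nat_lit 155678380507362528902) (ZL.cons (nat_lit 3268) (nat_lit 3) (nat_lit 77752230035828147838) (ZL.cons (nat_lit 3344) (nat_lit 6) (nat_lit 152836175007355296240) (ZL.cons (nat_lit 3420) (nat_lit 6) (nat_lit 152496616061452650416) (ZL.cons (nat_lit 3496) (nat_lit 6) (nat_lit 150175248704635936062) (ZL.cons (nat_lit 3572) (nat_lit 6) (nat_lit 149677938796641468720) (ZL.cons (nat_lit 3648) (nat_lit 3) (nat_lit 74756150143222528061) (ZL.cons (nat_lit 3724) (nat_lit 6) (nat_lit 147041717140877962052) (ZL.cons (nat_lit 3800) (nat_lit 6) (nat_lit 146718327668589727936) (ZL.cons (nat_lit 3876) (nat_lit 6) (nat_lit 144581674375934122070) (ZL.cons (nat_lit 3952) (nat_lit 6) (nat_lit 144108045892129867456)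 (ZL.cons (nat_lit 4028) (nat_lit 3) (nat_lit 71975147465019022969) (ZL.cons (nat_lit 4104) (nat_lit 6) (nat_lit 142291953257131511056) (ZL.cons (nat_lit 4180) (nat_lit 6) (nat_lit 141675240000454855970) (ZL.cons (nat_lit 4256) (nat_lit 6) (nat_lit 141367250026847013954) (ZL.cons (nat_lit 4332) (nat_lit 6) (nat_lit 139414117598584514880) (ZL.cons (nat_lit 4408) (nat_lit 6) (nat_lit 138963042852104272392) (ZL.cons (nat_lit 4484) (nat_lit 3) (nat_lit 69406401920294125947) (ZL.cons (nat_lit 4560) (nat_lit 6) (nat_lit 137319295061752486226) (ZL.cons (nat_lit 4636) (nat_lit 6) (nat_lit 136731949103012814718) (ZL.cons (nat_lit 4712) (nat_lit 6) (nat_lit 136438625318624393748) (ZL.cons (nat_lit 4788) (nat_lit 6) (nat_lit 135385784717252027086) (ZL.cons (nat_lit 4864) (nat_lit 6) (nat_lit 134668656651598613652) (ZL.cons (nat_lit 4940) (nat_lit 6) (nat_lit 134239061654950763662) (ZL.cons (nat_lit 5016)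 (nat_lit 3) (nat_lit 67047988441039181595) (ZL.cons (nat_lit 5092) (nat_lit 6) (nat_lit 132768252896786873480) (ZL.cons (nat_lit 5168) (nat_lit 6) (nat_lit 132208875793225281564) (ZL.cons (nat_lit 5244) (nat_lit 6) (nat_lit 131929519808093452072) (ZL.cons (nat_lit 5320) (nat_lit 6) (nat_lit 131026213067732804344) (ZL.cons (nat_lit 5396) (nat_lit 6) (nat_lit 130343233957586696308) (ZL.cons (nat_lit 5472) (nat_lit 6) (nat_lit 129934095865541124890) (ZL.cons (nat_lit 5548) (nat_lit 3) (nat_lit 64898912326640847935) (ZL.cons (nat_lit 5624) (nat_lit 6) (nat_lit 129438389450557706076) (ZL.cons (nat_lit 5700) (nat_lit 6) (nat_lit 128637694143664439834) (ZL.cons (nat_lit 5776) (nat_lit 6) (nat_lit 128104954045034352296) (ZL.cons (nat_lit 5852) (nat_lit 6) (nat_lit 127838900725861181350) (ZL.cons (nat_lit 5928) (nat_lit 6) (nat_lit 127088195542377744862) (ZL.cons (nat_lit 6004) (nat_lit 6) (nat_lit 126437739247000499118)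 (ZL.cons (nat_lit 6080) (nat_lit 6) (nat_lit 126048083921242812052) (ZL.cons (nat_lit 6156) (nat_lit 3) (nat_lit 62959150907164535063) (ZL.cons (nat_lit 6232) (nat_lit 6) (nat_lit 125691048871342595454) (ZL.cons (nat_lit 6308) (nat_lit 6) (nat_lit 124928481912396627606) (ZL.cons (nat_lit 6384) (nat_lit 6) (nat_lit 124421110389891782334) (ZL.cons (nat_lit 6460) (nat_lit 6) (nat_lit 124167726276393524288) (ZL.cons (nat_lit 6536) (nat_lit 6) (nat_lit 124442927590866050780) (ZL.cons (nat_lit 6612) (nat_lit 6) (nat_lit 123573588571378442832) (ZL.cons (nat_lit 6688) (nat_lit 6) (nat_lit 122954106385304875456) (ZL.cons (nat_lit 6764) (nat_lit 6) (nat_lit 122583006075059459204) (ZL.cons (nat_lit 6840) (nat_lit 3) (nat_lit 61229702034237471542) (ZL.cons (nat_lit 6916) (nat_lit 6) (nat_lit 123340859983613642870) (ZL.cons (nat_lit 6992) (nat_lit 6) (nat_lit 122369833287419711020) (ZL.cons (nat_lit 7068)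 (nat_lit 6) (nat_lit 121643579040804503544) (ZL.cons (nat_lit 7144) (nat_lit 6) (nat_lit 121160368066990365188) (ZL.cons (nat_lit 7220) (nat_lit 6) (nat_lit 120919049863658690862) (ZL.cons (nat_lit 7296) (nat_lit 6) (nat_lit 121314349976511006620) (ZL.cons (nat_lit 7372) (nat_lit 6) (nat_lit 120486408053189475242) (ZL.cons (nat_lit 7448) (nat_lit 6) (nat_lit 119896425018833696786) (ZL.cons (nat_lit 7524) (nat_lit 6) (nat_lit 119542996151933300356) (ZL.cons (nat_lit 7600) (nat_lit 3) (nat_lit 59712639977593071075) (ZL.cons (nat_lit 7676) (nat_lit 6) (nat_lit 120404625583150166048) (ZL.cons (nat_lit 7752) (nat_lit 6) (nat_lit 119479838253441659524) (ZL.cons (nat_lit 7828) (nat_lit 6) (nat_lit 118788167542379557166) (ZL.cons (nat_lit 7904) (nat_lit 6) (nat_lit 118327966614937520636) (ZL.cons (nat_lit 7980) (nat_lit 6) (nat_lit 118098139754621640326) (ZL.cons (nat_lit 8056) (nat_lit 3) (nat_lit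 58954815639000919652) (ZL.cons (nat_lit 8132) (nat_lit 6) (nat_lit 117978457500229926972) (ZL.cons (nat_lit 8208) (nat_lit 6) (nat_lit 118185100038871875900) (ZL.cons (nat_lit 8284) (nat_lit 6) (nat_lit 118530050899972071678) (ZL.cons (nat_lit 8360) (nat_lit 6) (nat_lit 119014131395104562392) (ZL.cons (nat_lit 8436) (nat_lit 6) (nat_lit 119638494096876806356) (ZL.cons (nat_lit 8512) (nat_lit 6) (nat_lit 118621473046799752072) (ZL.cons (nat_lit 8588) (nat_lit 6) (nat_lit 117832956929350674568) (ZL.cons (nat_lit 8664) (nat_lit 6) (nat_lit 117271068325202314136) (ZL.cons (nat_lit 8740) (nat_lit 6) (nat_lit 116934469404344793726) (ZL.cons (nat_lit 8816) (nat_lit 3) (nat_lit 58411179370388035811) (ZL.cons (nat_lit 8892) (nat_lit 6) (nat_lit 116493286487343670884) (ZL.cons (nat_lit 8968) (nat_lit 6) (nat_lit 116634380242911250604) (ZL.cons (nat_lit 9044) (nat_lit 6) (nat_lit 116916903691559666186)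 (ZL.cons (nat_lit 9120) (nat_lit 6) (nat_lit 117341529508166651950) (ZL.cons (nat_lit 9196) (nat_lit 6) (nat_lit 117909268706581272150) (ZL.cons (nat_lit 9272) (nat_lit 6) (nat_lit 117028518868763646886) (ZL.cons (nat_lit 9348) (nat_lit 6) (nat_lit 116369784858228311308) (ZL.cons (nat_lit 9424) (nat_lit 6) (nat_lit 115931498260664466996) (ZL.cons (nat_lit 9500) (nat_lit 6) (nat_lit 115712615536554104792) (ZL.cons (nat_lit 9576) (nat_lit 3) (nat_lit 57606606454472465742) (ZL.cons (nat_lit 9652) (nat_lit 6) (nat_lit 115285480442284423536) (ZL.cons (nat_lit 9728) (nat_lit 6) (nat_lit 115502455107858469910) (ZL.cons (nat_lit 9804) (nat_lit 6) (nat_lit 115864653512013675478) (ZL.cons (nat_lit 9880) (nat_lit 6) (nat_lit 116372938031902790728) (ZL.cons (nat_lit 9956) (nat_lit 6) (nat_lit 115621970300998907390) (ZL.cons (nat_lit 10032) (nat_lit 6) (nat_lit 115086838297048087932) (ZL.cons (nat_lit 10108)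 (nat_lit 6) (nat_lit 114766267896231401826) (ZL.cons (nat_lit 10184) (nat_lit 3) (nat_lit 57329747917844880863) (ZL.cons (nat_lit 10260) (nat_lit 6) (nat_lit 114135188970799426062) (ZL.cons (nat_lit 10336) (nat_lit 6) (nat_lit 114283337414145384768) (ZL.cons (nat_lit 10412) (nat_lit 6) (nat_lit 114579987035226221128) (ZL.cons (nat_lit 10488) (nat_lit 6) (nat_lit 115025844142663556182) (ZL.cons (nat_lit 10564) (nat_lit 6) (nat_lit 114398478418344188964) (ZL.cons (nat_lit 10640) (nat_lit 6) (nat_lit 113981062611140527712) (ZL.cons (nat_lit 10716) (nat_lit 6) (nat_lit 113772602873892563710) (ZL.cons (nat_lit 10792) (nat_lit 3) (nat_lit 56590383519619218380) (ZL.cons (nat_lit 10868) (nat_lit 6) (nat_lit 113256647949244903414) (ZL.cons (nat_lit 10944) (nat_lit 6) (nat_lit 113484471348097652106) (ZL.cons (nat_lit 11020) (nat_lit 6) (nat_lit 113864779672460617952) (ZL.cons (nat_lit 11096) (nat_lit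 6) (nat_lit 113355130144888408940) (ZL.cons (nat_lit 11172) (nat_lit 6) (nat_lit 113049825001253469792) (ZL.cons (nat_lit 11248) (nat_lit 3) (nat_lit 56474068662273572945) (ZL.cons (nat_lit 11324) (nat_lit 6) (nat_lit 112419942214431072318) (ZL.cons (nat_lit 11400) (nat_lit 6) (nat_lit 112575498079944328958) (ZL.cons (nat_lit 11476) (nat_lit 6) (nat_lit 112886980182079207136) (ZL.cons (nat_lit 11552) (nat_lit 6) (nat_lit 112489441318075720228) (ZL.cons (nat_lit 11628) (nat_lit 6) (nat_lit 112290908234982421180) (ZL.cons (nat_lit 11704) (nat_lit 3) (nat_lit 55885614026596214990) (ZL.cons (nat_lit 11780) (nat_lit 6) (nat_lit 111850903008699219966) (ZL.cons (nat_lit 11856) (nat_lit 6) (nat_lit 112090117577494606092) (ZL.cons (nat_lit 11932) (nat_lit 6) (nat_lit 111799350774032759284) (ZL.cons (nat_lit 12008) (nat_lit 3) (nat_lit 55851252683822892069) (ZL.cons (nat_lit 12084) (nat_lit 6) (nat_lit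 111308960908002217728) (ZL.cons (nat_lit 12160) (nat_lit 6) (nat_lit 111472294566791137200) (ZL.cons (nat_lit 12236) (nat_lit 6) (nat_lit 111283215440035614294) (ZL.cons (nat_lit 12312) (nat_lit 3) (nat_lit 55474190719759164689) (ZL.cons (nat_lit 12388) (nat_lit 6) (nat_lit 111032040142800458864) (ZL.cons (nat_lit 12464) (nat_lit 3) (nat_lit 55469903211215955552) (ZL.cons (nat_lit 12540) (nat_lit 6) (nat_lit 110768306080703545660) (ZL.cons (nat_lit 12616) (nat_lit 1) (nat_lit 18446744073709551617) ZL.nil))))))))))))))))))))))))))))))))))))))))))))))))))))))))))))))))))))))))))))))))))))))))))))))))))))))))))))))))))))))))))))))))))))))))))))))))))))))))))))))))))))))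

noncomputable def vl : XL := ⟨(nat_lit 0), (nat_lit 76), (nat_lit 373143869), (nat_lit 152), (nat_lit 37410741), (nat_lit 152), (nat_lit 37410741), (nat_lit 1), (nat_lit 4), (nat_lit 2), (nat_lit 5), (nat_lit 2), (nat_lit 4), (nat_lit 0), (nat_lit 0), (nat_lit 0)⟩

noncomputable def cp0 : Nat := (nat_lit 34477293788976601460405795261231161698556181181609068949740502607283646284436486233146764306726361991950005915719791571861029419836161222448108380362857337297514395396577918857707763739340794347585748694660574845189705799147375739057789903754221852892391618933402944879721021716093744018485337927028557867813949462628925218437176776763446616221965990609953286976357433156371062999956305982318920025192419617854148626504402077243180835660425643175287931662271795845127776412667404798454149803080060653456476394670629726564426568796273486268820214219781948146762695719737583321126578142614752013891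9400828901930095798193304182965970310881639442262625778598319089819962086876258916394847545206864200453152496141854200161739552540096238309328452506098333667556029403160317634304846280492085741004398257328284864362388272530163604822859865361788756231859383123971762014259091649156813439003980854957409562490352787061168495481160584592611534679019676353666663420912637572919428645570952127811899417918051956615601745874949432592926698556850609639905215799897274465183796346487177967188668481150127822046923997414798183923530658421916173914007694634726201558822984920795006737582684018523631660517664841536931853930176204667073338231912346663360189132876913740973370436283115953619654728883421353200703091916130351944607331897882363981092073436107119589966156269591520986853805603505692740236551011677969918509336910746162490037927225224626023036433723143653240459394214127021715147575053369626838911675810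0755117881904936502045988610603058619887953185130731712369689582174219346650166539894417047717514706823624146494477502193390563239348921590088003601728086959928217005145023663898182264283233394666493091981104780614478108571607069411562306801942404518671332729113729580401436596022621936848847352917633235231506195405964166896358303353584149549165293922193051698025528053013088326960299490087637462580477297830792083333383000098881658033868616310882761634988272670193128912333728196375040290243303675913608353818411358923565792632671899262539619965632197378943417497118215032475515793355165140065170985397090288932671284973522579103628814108189568277755758958702702795072731836022281476285846397877871375363028624645252996572088908582148888761268461031996296427331340333311951673619843172043990184800646746521732865022191871117398426014001247046352868395418479438882672544119259668647431465356765040253333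7815224882848539483648524269764508710807052549929045059861127902924029113499728383445460380848022814735761990607845053696059138776828643030757422895223211403465155488115430211408267509866495973693610736809914541916174777068868754283563473132665068327860159529609376710349243524158276122627041071565379834596612065316170382502477978495979250957180156293223372029545663394467929086026370847441823777595582020850516936366675815567529375562021715221098758824047727838950533315194954371852790272851318425101067490445588873605841475517228548819286716127639917793022705106731219042389713865626570682112755660009083522517835064165700372369844366486922983887189878232376059156700149604802968599665817817464143570250101199103599974611352741853424513897995087234860510196039262066246374615249300154423077350664152217441537391700037333578153881822596555811750670913678026300831612297239685451176467236708436445661785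53805653499586193074701354834450690743534495818216272459639074670955594487513652537884813499004549042220994385467485123911313955326318202286205870092285657215364748511235455827437890931085331415722000243265635478378770748565009744424849715719446098486519854938138768485071305698616496076991030015396745221816142217971807834083333068311375115925865539522414723754926542157441864570683630225833846389211254640372732300974830385273784931522097960162716581952086990968551706189473205891528546150402477057359478784)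

noncomputable def cp1 : Nat := (nat_lit 3628203309743771493882587272356021447047618049800455986028678676251779400668870436748689166908245741510104118599506733753596351612758728174509571414438764778002281261456116323038350003258029013700108970474527037501110115764258139621909762706680870838955415869947283277205602496538725146326518204391128491620761462741271346545151520726851739491577172906034515178304406231291852501160683754725195134353778451826608229204285537492956698805344748694176945222938073674708223869097733777038058184719087753127207927075219243307083737106980941176332982791612492369546478709117208706609213686540839690262405256534696027846578637075259462146479958586591344171528694315601667266186637146382214290670811446441137990623191884304918488965323833762777046661524223205421218296892481859260711098686614576982380420202641682600378005011564228916581658532685124352090311757916843279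8630347801518005527727294228296056930454501408175109166144205602061079270907928539225991179228073847058322933324142935524515726858763902809705363950394475810492584646802909849812673731299322829661343273012888794681752955073757825761697828903839408884106926390288919126046986474670023841825583347443128292727052735335320926271355778536145822363057433323536822907793037229973092160252525250209709621011487734563337555667916606751563685558051878814038845650227869516185126802123824462322193018007568866119585568101997408283561947828090775903756844300179531828934032817360637276803650109579582379126365172325889522985438986345215639583568118223242078252809058124841818059481807568616310329600030961793806194817652552682863626428461350464674973543756142078471852925032344927382087836056137579005941439904164512545691099232698000128804563611947770584714811014541618095698332262395476187912423623085434535594181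1477084212649328960989836074960212824730449199164297676371392125353069464420300211585361649789585428041698247649743858151933881901998689610190593077947531883578962856899251063010135647473118084156024864999415750525723117671049774689007636497275601918340977704400572362218783151162988884177682680551728877985511942470788128101649851085127251998140608067505208431397664899458846568623507273020269326022876734050320582290347065026917581398097881269527193078603870166813089229626485497720381141541540039309156439964902978747052092287011524526430489795787375085312876521727387866204386166127503116531461728414990724822347238538751495016387555621931391638351981230031160728101545937144418286221803271510509759020655128970585685212692851760768115692841604314895443513824357397722023370210797644709318918672057134620255453946472049509775808362281820350027417371580236729244651382164188781228008110611337842558752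7971678992226461168653429998503655260792930448591877170986137035055169029630239252969543610392291612189472420484978606011846548725725123833493649572416684477651038620239523442297889115534711598773700721333054516889361187951483738328004973387462608856319864978182967125364940394811745524890952686708723179834380800762994940442189031357189240937796902755783091065588867237059155581490259189533363632415199559009161778235692282971763981242210020113254964495547481989141191369499989103065267546602824768393824903574830110320802996866638263116778834616715125995833675796201884026419967826131962663946718234756588079099851775887157280842941864521208538495441412513051324861423196832867944013225198816002439699991618750106608163753527134458938442344811233444185046035830362350387975298409019829537323303939420530127837392911194968763940176550827016386674765017915595186436238539436419205026936300093163079082600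0695745855878117857068274849245395871819726239426829186323476974113964287975034934134217631542733119163919322858027971775091963526688948016780961052763541113861069269236310665856488065950854232744007986394847222076438783284757158729189323448780515400125471248972699279438115555012803432079401829321986560796070426071742396903613372843264088131094042526431429799155089702178542118240782376303178920274664208620950171724344528372306503752684308325536192421611057966497329862607137697812149036852827006382980529480532191405687829703813717435435930109123078805403243878330496282700478112678201425513943583115573271765730625795884552555067142950153373957596364677972152449178266924030175659473050504561897711983084819355048694399925176602778473497731722391035415683642963646950385396459110110844695127139329957186055170338945977280397877125688925408018998461414869797583337045339710212823279934874072552797996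3031872153947785470313181345225290208768580025533341726576702705812297140849109816099962664378901345879547644362356377967991956843113288355870275426559548262633037973841223452795078553557197834224228570397464971364453082145193188094846961389775290433035241522900271291916468902572148279373164902524195226322384994722545716309953857502500990456694407016044979216107668800331615826061583107098358445007410790872792814813931458818632628612628836690193334423108106513675065646713690326849865526447036892725813460866398871605475299048890698164002357790558926829614593351215808389550087486681420163946383743354879908539443959661101750420648458305584504885964578258726257274447167983716729330953761469414835348286712326434384853111580988352544630507502053263269035722257645944471308012245997899209536623924116461338879528378438304792621758677405769544108715026535288411358708886685569088832568422119367665134406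0804657891330746690104611310015952271405308975124927472628771793400341074363259268476276484712958610231528112368555915068912613165175275801148518682563583322684414161388812023489658767375623036311944649386302468948248394008454475126229439566273736813165122013423691357232750525904251884340611928649619848852071453683427249515109779068691827629555934205733977873672219737708416379632756154543886456983677711085881449122162931969547945775628556549133586780152071223455664427636236284909052213336712056690800729187594826057265628307189260271610080767676085542408118490850821314443301206040128233332431910408389767701991665733041191936043426245245424817071284994264118736971564083924251987467116477130394597750558960368208715873731006077584984618248572474115914406967866678572392101135265598866094388172413508390432323830205532208924421142375219765013326831138843259848536420278340378797316514393332920785176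5157588781188868084176701651664977187232760165872321862267058978378388027318664785605634898780742776590738745347815315279315671482494875414907485511672747911745166431146380000162404687681503777965644291974495673305726091888257537772140601480700398305927436353783688093290419621639035353627834381505478103708143830238276557401102045506211501236727417518935509113093147830339850652879984637771330554132464943494858467234361183028054719126823171750321223810488952288017242226824313482467903721526030202016221455292492317318233685599679241078129919472137105204415338668389982432412636587589035196132243172323108444073841028890290287132347894679240034785538275820073921804126717005833631909605066629684310908293607834541057375621080102521603074883691041450649994543111334521652536371658188371540470819738336551672259513077896060003935921157765298918790413610350204627041673700822196263821720135759096846055509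4948814723212999610391215766498483917616057518200421930277869311752460714316405456383125329267652426967687712880095412229416208999500536313544103117775406079518317208331832235212455843981207983596882340265839889806419509913626879085241829366293722198149424432437858157104852378676195043598317966141970418055324767251009604256122737652788229477829163844005099050800349828468998128482110206775412315271293508059991832555150299437834315761148839088292383022741763407036507496851899688368376727114655601422809945996675608255123689957960209026366482087085895071627804395757724202982197646633002493886875264730476884974425702274212398445336361224358427350267118376038368834003156079387963323348668426352444267062490637983600224937520822678823909868887358168714965580127452462558077005515938011635371160885373438927827302791692077568530803881519196166564675129072295819900715469090626377152144889111128490602407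63021787964888864390390012548620433069132236258218396371203285179840814945894817671762732937756888540909545702120832712077794971880656605595643005578343328745192352525252462909585480595958878049929729780418863899410508445906563253786864558263443731726629965662020655702126334429113829374228479163227498550322260820654410403200115693707213626305304022025228630522168188396491154431547857847431409868124402113802224756592734877891982713845984521581952211304429774896383116473950474471540294133922884235558247902283595366097069614057171493483490955889115790157352123583001248260625752284995025633280)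

noncomputable def rc0 : Nat := (nat_lit 3628203309743771493882587272356021447047618049800455986028678676251779400668870436748689166908245741510104118599506733753596351612758728174509571414438764778002281261456116323038350003258029013700108970474527037501110115764258139621909762706680870838955415869947283277205602496538725146326518204391128491620761462741271346545151520726851739491577172906034515178304406231291852501160683754725195134353778451826608229204285537492956698805344748694176945222938073674708223869097733777038058184719087753127207927075219243307083737106980941176332982791612492369546478709117208706609213686540839690262405256534696027846578637075259462146479958586591344171528694315601667266186637146382214290670811446441137990623191884304918488965323833762777046661524223205421218296892481859260711098686614576982380420202641682600378005011564228916581658532685124352090311757916843279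8630347801518005527727294228296056930454501408175109166144205602061079270907928539225991179228073847058322933324142935524515726858763902809705363950394475810492584646802909849812673731299322829661343273012888794681752955073757825761697828903839408884106926390288919126046986474670023841825583347443128292727052735335320926271355778536145822363057433323536822907793037229973092160252525250209709621011487734563337555667916606751563685558051878814038845650227869516185126802123824462322193018007568866119585568101997408283561947828090775903756844300179531828934032817360637276803650109579582379126365172325889522985438986345215639583568118223242078252809058124841818059481807568616310329600030961793806194817652552682863626428461350464674973543756142078471852925032344927382087836056137579005941439904164512545691099232698000128804563611947770584714811014541618095698332262395476187912423623085434535594181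1477084212649328960989836074960212824730449199164297676371392125353069464420300211585361649789585428041698247649743858151933881901998689610190593077947531883578962856899251063010135647473118084156024864999415750525723117671049774689007636497275601918340977704400572362218783151162988884177682680551728877985511942470788128101649851085127251998140608067505208431397664899458846568623507273020269326022876734050320582290347065026917581398097881269527193078603870166813089229626485497720381141541540039309156439964902978747052092287011524526430489795787375085312876521727387866204386166127503116531461728414990724822347238538751495016387555621931391638351981230031160728101545937144418286221803271510509759020655128970585685212692851760768115692841604314895443513824357397722023370210797644709318918672057134620255453946472049509775808362281820350027417371580236729244651382164188781228008110611337842558752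7971678992226461168653429998503655260792930448591877170986137035055169029630239252969543610392291612189472420484978606011846548725725123833493649572416684477651038620239523442297889115534711598773700721333054516889361187951483738328004973387462608856319864978182967125364940394811745524890952686708723179834380800762994940442189031357189240937796902755783091065588867237059155581490259189533363632415199559009161778235692282971763981242210020113254964495547481989141191369499989103065267546602824768393824903574830110320802996866638263116778834616715125995833675796201884026419967826131962663946718234756588079099851775887157280842941864521208538495441412513051324861423196832867944013225198816002439699991618750106608163753527134458938442344811233444185046035830362350387975298409019829537323303939420530127837392911194968763940176550827016386674765017915595186436238539436419205026936300093163079082600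0695745855878117857068274849245395871819726239426829186323476974113964287975034934134217631542733119163919322858027971775091963526688948016780961052763541113861069269236310665856488065950854232744007986394847222076438783284757158729189323448780515400125471248972699279438115555012803432079401829321986560796070426071742396903613372843264088131094042526431429799155089702178542118240782376303178920274664208620950171724344528372306503752684308325536192421611057966497329862607137697812149036852827006382980529480532191405687829703813717435435930109123078805403243878330496282700478112678201425513943583115573271765730625795884552555067142950153373957596364677972152449178266924030175659473050504561897711983084819355048694399925176602778473497731722391035415683642963646950385396459110110844695127139329957186055170338945977280397877125688925408018998461414869797583337045339710212823279934874072552797996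3031872153947785470313181345225290208768580025533341726576702705812297140849109816099962664378901345879547644362356377967991956843113288355870275426559548262633037973841223452795078553557197834224228570397464971364453082145193188094846961389775290433035241522900271291916468902572148279373164902524195226322384994722545716309953857502500990456694407016044979216107668800331615826061583107098358445007410790872792814813931458818632628612628836690193334423108106513675065646713690326849865526447036892725813460866398871605475299048890698164002357790558926829614593351215808389550087486681420163946383743354879908539443959661101750420648458305584504885964578258726257274447167983716729330953761469414835348286712326434384853111580988352544630507502053263269035722257645944471308012245997899209536623924116461338879528378438304792621758677405769544108715026535288411358708886685569088832568422119367665134406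0804657891330746690104611310015952271405308975124927472628771793400341074363259268476276484712958610231528112368555915068912613165175275801148518682563583322684414161388812023489658767375623036311944649386302468948248394008454475126229439566273736813165122013423691357232750525904251884340611928649619848852071453683427249515109779068691827629555934205733977873672219737708416379632756154543886456983677711085881449122162931969547945775628556549133586780152071223455664427636236284909052213336712056690800729187594826057265628307189260271610080767676085542408118490850821314443301206040128233332431910408389767701991665733041191936043426245245424817071284994264118736971564083924251987467116477130394597750558960368208715873731006077584984618248572474115914406967866678572392101135265598866094388172413508390432323830205532208924421142375219765013326831138843259848536420278340378797316514393332920785176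5157588781188868084176701651664977187232760165872321862267058978378388027318664785605634898780742776590738745347815315279315671482494875414907485511672747911745166431146380000162404687681503777965644291974495673305726091888257537772140601480700398305927436353783688093290419621639035353627834381505478103708143830238276557401102045506211501236727417518935509113093147830339850652879984637771330554132464943494858467234361183028054719126823171750321223810488952288017242226824313482467903721526030202016221455292492317318233685599679241078129919472137105204415338668389982432412636587589035196132243172323108444073841028890290287132347894679240034785538275820073921804126717005833631909605066629684310908293607834541057375621080102521603074883691041450649994543111334521652536371658188371540470819738336551672259513077896060003935921157765298918790413610350204627041673700822196263821720135759096846055509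4948814723212999610391215766498483917616057518200421930277869311752460714316405456383125329267652426967687712880095412229416208999500536313544103117775406079518317208331832235212455843981207983596882340265839889806419509913626879085241829366293722198149424432437858157104852378676195043598317966141970418055324767251009604256122737652788229477829163844005099050800349828468998128482110206775412315271293508059991832555150299437834315761148839088292383022741763407036507496851899688368376727114655601422809945996675608255123689957960209026366482087085895071627804395757724202982197646633002493886875264730476884974425702274212398445336361224358427350267118376038368834003156079387963323348668426352444267062490637983600224937520822678823909868887358168714965580127452462558077005515938011635371160885373438927827302791692077568530803881519196166564675129072295819900715469090626377152144889111128490602407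63021787964888864390390012548620433069132236258218396371203285179840814945894817671762732937756888540909545702120832712077794971880656605595643005578343328745192352525252462909585480595958878049929729780418863899410508445906563253786864558263443731726629965662020655702126334429113829374228479163227498550322260820654410403200115693707213626305304022025228630522168188396491154431547857847431409868124402113802224756592734877891982713845984521581952211304429774896383116473950474471540294133922884235558247902283595366097069614057171493483490955889115790157352123583001248260625752284995025633280)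

end Vale.Agent.Lib.P154.PChain.BH.S5
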